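import Crest.Agent.R266.SCV
import Crest.Agent.R272.AJDefs_956

-- ▼ part R272/AJa_956
section

/-!
# Row 272, A-AJ: local analysis near the hyperelliptic fibre (helper956)

* `even_descent` : `f (d, s)` analytic near `0` and even in `d` is `h (d ^ 2, s)`, `h` analytic near `0`.
* `exists_divdiff` : `G t - G t' = (t - t') • V (t, t')`, `V` analytic near `0`.
-/

set_option autoImplicit false
set_option linter.unusedSectionVars false
set_option linter.unusedVariables false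

open Set Filter Topology Metric Complex MeasureTheory
open scoped Real ContDiff

noncomputable section

namespace Crest.Agent.R272.AJa_956

variable {F : Type*} [NormedAddCommGroup F] [NormedSpace ℂ F] [CompleteSpace F]

/-- Even functions descend. -/
theorem even_descent {f : ℂ × ℂ → F} (hf : AnalyticAt ℂ f 0)
    (hev : ∀ᶠ p in 𝓝 (0 : ℂ × ℂ), f (-p.1, p.2) = f p) :
    ∃ h : ℂ × ℂ → F, AnalyticAt ℂ h 0 ∧ ∀ᶠ p in 𝓝 (0 : ℂ × ℂ), f p = h (p.1 ^ 2, p.2) := by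
  obtain ⟨ρ, hρ, hb⟩ := Metric.eventually_nhds_iff_ball.1 (hf.eventually_analyticAt.and hev)
  set r : ℝ := ρ / 2 with hr
  have hr0 : 0 < r := by positivity
  have hrρ : r < ρ := by rw [hr]; linarith
  have hmem : ∀ z s : ℂ, ‖z‖ < ρ → ‖s‖ < ρ → ((z, s) : ℂ × ℂ) ∈ ball (0 : ℂ × ℂ) ρ := by
    intro z s hz hs
    rw [mem_ball_zero_iff, Prod.norm_def]
    exact max_lt hz hs
  -- the integrand
  let g : (ℂ × ℂ) × ℝ → F := fun q =>
    (circleMap 0 r q.2 * I * (circleMap 0 r q.2 / ((circleMap 0 r q.2) ^ 2 - q.1.1))) •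
      f (circleMap 0 r q.2, q.1.2)
  let U : Set (ℂ × ℂ) := {p | ‖p.1‖ < r ^ 2 ∧ ‖p.2‖ < ρ}
  have hU : IsOpen U := by
    apply IsOpen.and
    · exact isOpen_lt (by fun_prop) continuous_const
    · exact isOpen_lt (by fun_prop) continuous_const
  have hnorm : ∀ θ : ℝ, ‖circleMap 0 r θ‖ = r := by
    intro θ
    rw [norm_circleMap_zero, abs_of_pos hr0]
  have hden : ∀ p ∈ U, ∀ θ : ℝ, (circleMap 0 r θ) ^ 2 - p.1 ≠ 0 := by
    intro p hp θ h0
    have h1 : (circleMap 0 r θ) ^ 2 = p.1 := sub_eq_zero.1 h0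
    have h2 : ‖(circleMap 0 r θ) ^ 2‖ = r ^ 2 := by rw [norm_pow, hnorm]
    rw [h1] at h2
    exact absurd h2 (ne_of_lt hp.1)
  have hfan : ∀ p ∈ U, ∀ θ : ℝ, AnalyticAt ℂ f (circleMap 0 r θ, p.2) := by
    intro p hp θ
    exact (hb _ (hmem _ _ (by rw [hnorm]; exact hrρ) hp.2)).1
  have hgc : ContinuousOn g (U ×ˢ uIcc 0 (2 * π)) := by
    intro q hq
    apply ContinuousAt.continuousWithinAt
    have hc : ContinuousAt (fun q : (ℂ × ℂ) × ℝ => circleMap 0 r q.2) q :=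
      ((continuous_circleMap 0 r).comp continuous_snd).continuousAt
    refine ContinuousAt.smul ?_ ?_
    · refine ContinuousAt.mul (hc.mul continuousAt_const) (hc.div ?_ (hden _ hq.1 _))
      exact (hc.pow 2).sub (by fun_prop)
    · have h1 : ContinuousAt f (circleMap 0 r q.2, q.1.2) := (hfan _ hq.1 _).continuousAt
      have h2 : ContinuousAt (fun q : (ℂ × ℂ) × ℝ => ((circleMap 0 r q.2, q.1.2) : ℂ × ℂ)) q :=
        hc.prodMk (by fun_prop)
      exact ContinuousAt.comp (g := f) h1 h2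
  have hgd : ∀ t ∈ uIcc 0 (2 * π), DifferentiableOn ℂ (fun x => g (x, t)) U := by
    intro θ _ p hp
    apply DifferentiableAt.differentiableWithinAt
    show DifferentiableAt ℂ (fun x : ℂ × ℂ => (circleMap 0 r θ * I * (circleMap 0 r θ /
      ((circleMap 0 r θ) ^ 2 - x.1))) • f (circleMap 0 r θ, x.2)) p
    refine DifferentiableAt.smul ?_ ?_
    · refine DifferentiableAt.mul (differentiableAt_const _) ?_
      have hdp : (circleMap 0 r θ) ^ 2 - p.1 ≠ 0 := hden p hp θ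
      have h3 : DifferentiableAt ℂ (fun x : ℂ × ℂ => (circleMap 0 r θ) ^ 2 - x.1) p := by fun_prop
      have h4 : DifferentiableAt ℂ (fun x : ℂ × ℂ => ((circleMap 0 r θ) ^ 2 - x.1)⁻¹) p := h3.inv hdp
      simp only [div_eq_mul_inv]
      exact (differentiableAt_const _).mul h4
    · have h1 : DifferentiableAt ℂ f (circleMap 0 r θ, p.2) := (hfan _ hp _).differentiableAt
      have h2 : DifferentiableAt ℂ (fun p : ℂ × ℂ => ((circleMap 0 r θ, p.2) : ℂ × ℂ)) p := by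
        fun_prop
      exact DifferentiableAt.comp (g := f) p h1 h2
  have hint := Crest.Agent.R266.SCV.analyticOnNhd_intervalIntegral hU hgc hgd
  refine ⟨fun p => (2 * π * I : ℂ)⁻¹ • ∫ θ in (0 : ℝ)..2 * π, g (p, θ), ?_, ?_⟩
  · have h0 : (0 : ℂ × ℂ) ∈ U := ⟨by simpa using by positivity, by simpa using hρ⟩
    exact (hint 0 h0).const_smul
  · have hU' : ∀ᶠ p in 𝓝 (0 : ℂ × ℂ), ‖p.1‖ < r ∧ ‖p.2‖ < ρ := by
      have ho : IsOpen {p : ℂ × ℂ | ‖p.1‖ < r ∧ ‖p.2‖ < ρ} := by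
        apply IsOpen.and
        · exact isOpen_lt (by fun_prop) continuous_const
        · exact isOpen_lt (by fun_prop) continuous_const
      exact ho.mem_nhds ⟨by simpa using hr0, by simpa using hρ⟩
    filter_upwards [hU', hev] with p hp hevp
    obtain ⟨hp1, hp2⟩ := hp
    -- Cauchy formula
    have hdiff : ∀ z ∈ closedBall (0 : ℂ) r, DifferentiableAt ℂ (fun z => f (z, p.2)) z := by
      intro z hz
      rw [mem_closedBall_zero_iff] at hz
      have h1 : DifferentiableAt ℂ f (z, p.2) :=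
        (hb _ (hmem _ _ (lt_of_le_of_lt hz hrρ) hp2)).1.differentiableAt
      exact DifferentiableAt.comp (g := f) (f := fun z : ℂ => ((z, p.2) : ℂ × ℂ)) z h1 (by fun_prop)
    have hdc : DiffContOnCl ℂ (fun z => f (z, p.2)) (ball 0 r) := by
      refine ⟨fun z hz => (hdiff z (ball_subset_closedBall hz)).differentiableWithinAt, ?_⟩
      rw [closure_ball _ hr0.ne']
      exact fun z hz => (hdiff z hz).continuousAt.continuousWithinAt
    have hC : ∀ w ∈ ball (0 : ℂ) r, f (w, p.2) =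
        (2 * π * I : ℂ)⁻¹ • ∮ z in C(0, r), (z - w)⁻¹ • f (z, p.2) := by
      intro w hw
      exact (hdc.two_pi_i_inv_smul_circleIntegral_sub_inv_smul hw).symm
    have hw1 : p.1 ∈ ball (0 : ℂ) r := mem_ball_zero_iff.2 hp1
    have hw2 : -p.1 ∈ ball (0 : ℂ) r := mem_ball_zero_iff.2 (by rw [norm_neg]; exact hp1)
    have e1 := hC _ hw1
    have e2 := hC _ hw2
    have hci : ∀ w ∈ ball (0 : ℂ) r, CircleIntegrable (fun z => (z - w)⁻¹ • f (z, p.2)) 0 r := by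
      intro w hw
      refine ContinuousOn.circleIntegrable hr0.le ?_
      refine ContinuousOn.smul ?_ ?_
      · refine ContinuousOn.inv₀ (by fun_prop) ?_
        intro z hz h0
        have : z = w := sub_eq_zero.1 h0
        rw [this] at hz
        rw [mem_sphere] at hz
        rw [mem_ball] at hw
        linarith
      · exact fun z hz => (hdiff z (sphere_subset_closedBall hz)).continuousAt.continuousWithinAt
    have e3 : f p = (2 : ℂ)⁻¹ • (f (p.1, p.2) + f (-p.1, p.2)) := by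
      rw [hevp]
      have : f (p.1, p.2) = f p := rfl
      rw [this, ← two_smul ℂ (f p), smul_smul]
      norm_num
    rw [e3, e1, e2, ← smul_add, ← circleIntegral.integral_add (hci _ hw1) (hci _ hw2), smul_comm,
      ← circleIntegral.integral_smul]
    congr 1
    rw [circleIntegral]
    refine intervalIntegral.integral_congr (fun θ _ => ?_)
    simp only [g, deriv_circleMap]
    rw [← add_smul, smul_smul, smul_smul]
    congr 1
    have hne1 : circleMap 0 r θ - p.1 ≠ 0 := by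
      intro h0
      have : circleMap 0 r θ = p.1 := sub_eq_zero.1 h0
      rw [← this, hnorm] at hp1
      exact lt_irrefl _ hp1
    have hne2 : circleMap 0 r θ - -p.1 ≠ 0 := by
      intro h0
      have : circleMap 0 r θ = -p.1 := sub_eq_zero.1 h0
      have h2 : ‖-p.1‖ < r := by rw [norm_neg]; exact hp1
      rw [← this, hnorm] at h2
      exact lt_irrefl _ h2
    have hne3 : circleMap 0 r θ ^ 2 - p.1 ^ 2 ≠ 0 := by
      have : circleMap 0 r θ ^ 2 - p.1 ^ 2 = (circleMap 0 r θ - p.1) * (circleMap 0 r θ - -p.1) := by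
        ring
      rw [this]
      exact mul_ne_zero hne1 hne2
    field_simp
    ring

/-- Divided differences. -/
theorem exists_divdiff {G : ℂ → F} (hG : AnalyticAt ℂ G 0) :
    ∃ V : ℂ × ℂ → F, AnalyticAt ℂ V 0 ∧ ∀ᶠ p in 𝓝 (0 : ℂ × ℂ),
      G p.1 - G p.2 = (p.1 - p.2) • V p ∧ V (p.2, p.1) = V p ∧ V (p.1, p.1) = deriv G p.1 := by
  obtain ⟨r, hr, hb⟩ := Metric.eventually_nhds_iff_ball.1 hG.eventually_analyticAt
  let g : (ℂ × ℂ) × ℝ → F := fun q => deriv G (q.1.2 + (q.2 : ℂ) * (q.1.1 - q.1.2))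
  have hseg : ∀ p ∈ ball (0 : ℂ × ℂ) r, ∀ s ∈ Icc (0 : ℝ) 1,
      p.2 + (s : ℂ) * (p.1 - p.2) ∈ ball (0 : ℂ) r := by
    intro p hp s hs
    rw [mem_ball_zero_iff, Prod.norm_def, max_lt_iff] at hp
    have h1 : p.1 ∈ ball (0 : ℂ) r := mem_ball_zero_iff.2 hp.1
    have h2 : p.2 ∈ ball (0 : ℂ) r := mem_ball_zero_iff.2 hp.2
    have h3 := (convex_ball (0 : ℂ) r) h2 h1 (a := 1 - s) (b := s) (by linarith [hs.2]) hs.1
      (by ring)
    convert h3 using 1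
    simp only [Complex.real_smul]
    push_cast
    ring
  have hIcc : uIcc (0 : ℝ) 1 = Icc 0 1 := uIcc_of_le zero_le_one
  have hda : ∀ z ∈ ball (0 : ℂ) r, AnalyticAt ℂ (deriv G) z := fun z hz => (hb z hz).deriv
  have hgc : ContinuousOn g (ball (0 : ℂ × ℂ) r ×ˢ uIcc 0 1) := by
    intro q hq
    apply ContinuousAt.continuousWithinAt
    rw [hIcc] at hq
    have h1 : ContinuousAt (deriv G) (q.1.2 + (q.2 : ℂ) * (q.1.1 - q.1.2)) :=
      (hda _ (hseg _ hq.1 _ hq.2)).continuousAt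
    have h2 : ContinuousAt (fun q : (ℂ × ℂ) × ℝ => q.1.2 + (q.2 : ℂ) * (q.1.1 - q.1.2)) q := by
      fun_prop
    exact ContinuousAt.comp (g := deriv G) h1 h2
  have hgd : ∀ t ∈ uIcc (0 : ℝ) 1, DifferentiableOn ℂ (fun x => g (x, t)) (ball (0 : ℂ × ℂ) r) := by
    intro s hs p hp
    rw [hIcc] at hs
    apply DifferentiableAt.differentiableWithinAt
    have h1 : DifferentiableAt ℂ (deriv G) (p.2 + (s : ℂ) * (p.1 - p.2)) :=
      (hda _ (hseg _ hp _ hs)).differentiableAt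
    have h2 : DifferentiableAt ℂ (fun p : ℂ × ℂ => p.2 + (s : ℂ) * (p.1 - p.2)) p := by
      fun_prop
    exact DifferentiableAt.comp (g := deriv G) p h1 h2
  have hint := Crest.Agent.R266.SCV.analyticOnNhd_intervalIntegral isOpen_ball hgc hgd
  refine ⟨fun p => ∫ s in (0 : ℝ)..1, g (p, s), hint 0 (mem_ball_self hr), ?_⟩
  filter_upwards [ball_mem_nhds (0 : ℂ × ℂ) hr] with p hp
  refine ⟨?_, ?_, ?_⟩
  · have hder : ∀ s ∈ uIcc (0 : ℝ) 1, HasDerivAt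
        (fun s : ℝ => G (p.2 + (s : ℂ) * (p.1 - p.2))) ((p.1 - p.2) • g (p, s)) s := by
      intro s hs
      rw [hIcc] at hs
      have h1 : HasDerivAt G (deriv G (p.2 + (s : ℂ) * (p.1 - p.2))) (p.2 + (s : ℂ) * (p.1 - p.2)) :=
        (hb _ (hseg _ hp _ hs)).differentiableAt.hasDerivAt
      have h2 : HasDerivAt (fun s : ℝ => p.2 + (s : ℂ) * (p.1 - p.2)) (p.1 - p.2) s := by
        have := ((Complex.ofRealCLM.hasDerivAt (x := s)).mul_const (p.1 - p.2)).const_add p.2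
        simpa using this
      exact h1.scomp s h2
    have hcont : ContinuousOn (fun s : ℝ => (p.1 - p.2) • g (p, s)) (uIcc 0 1) := by
      refine ContinuousOn.const_smul ?_ _
      exact hgc.comp (f := fun s : ℝ => ((p, s) : (ℂ × ℂ) × ℝ)) (by fun_prop) fun s hs => ⟨hp, hs⟩
    have := intervalIntegral.integral_eq_sub_of_hasDerivAt hder hcont.intervalIntegrable
    rw [intervalIntegral.integral_smul] at this
    rw [this]
    simp
  · have h1 := intervalIntegral.integral_comp_sub_left (a := (0 : ℝ)) (b := 1)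
      (fun s => g (p, s)) (1 : ℝ)
    simp only [sub_zero, sub_self] at h1
    show ∫ s in (0 : ℝ)..1, g ((p.2, p.1), s) = ∫ s in (0 : ℝ)..1, g (p, s)
    rw [← h1]
    refine intervalIntegral.integral_congr (fun s _ => ?_)
    simp only [g]
    congr 1
    push_cast
    ring
  · show ∫ s in (0 : ℝ)..1, g ((p.1, p.1), s) = _
    simp [g]

end Crest.Agent.R272.AJa_956
end
end

-- ▼ part R272/AJb_956
section

/-!
# Row 272, A-AJ: local coordinates (germs), helper956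
-/

set_option autoImplicit false
set_option linter.unusedSectionVars false
set_option linter.unusedVariables false

open Set Filter Topology Metric Complex
open Crest.Agent.R272.AJ_956 Crest.Agent.R272.AJa_956

noncomputable section

namespace Crest.Agent.R272.AJb_956

theorem exists_equiv_of_injective {F : Type*} [NormedAddCommGroup F] [NormedSpace ℂ F]
    [FiniteDimensional ℂ F] (hF : Module.finrank ℂ F = 2) (L : (ℂ × ℂ) →L[ℂ] F)
    (h : ∀ v, L v = 0 → v = 0) : ∃ L' : (ℂ × ℂ) ≃L[ℂ] F, (L' : (ℂ × ℂ) →L[ℂ] F) = L := by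
  have hinj : Function.Injective (L : (ℂ × ℂ) →ₗ[ℂ] F) := by
    rw [injective_iff_map_eq_zero]
    exact h
  have hfr : Module.finrank ℂ (ℂ × ℂ) = Module.finrank ℂ F := by
    rw [hF]; simp
  refine ⟨(LinearEquiv.ofInjectiveOfFinrankEq _ hinj hfr).toContinuousLinearEquiv, ?_⟩
  rfl

theorem exists_equiv_pair (L : (ℂ × ℂ) →L[ℂ] (ℂ × ℂ)) (v1 v2 : ℂ × ℂ)
    (hspan : ∀ v : ℂ × ℂ, ∃ α β : ℂ, v = α • v1 + β • v2) (h1 : (L v1).2 = 0)
    (h1' : (L v1).1 ≠ 0) (h2 : (L v2).2 ≠ 0) :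
    ∃ L' : (ℂ × ℂ) ≃L[ℂ] (ℂ × ℂ), (L' : (ℂ × ℂ) →L[ℂ] (ℂ × ℂ)) = L := by
  refine exists_equiv_of_injective (by simp) L ?_
  intro v hv
  obtain ⟨α, β, rfl⟩ := hspan v
  rw [map_add, map_smul, map_smul] at hv
  have e2 := congrArg Prod.snd hv
  simp only [Prod.snd_add, Prod.smul_snd, h1, smul_zero, zero_add, Prod.snd_zero, smul_eq_mul] at e2
  have hβ : β = 0 := by
    have e2' : β * (L v2).2 = 0 := by simpa [h1] using e2
    exact (mul_eq_zero.1 e2').resolve_right h2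
  subst hβ
  have e1 := congrArg Prod.fst hv
  simp only [zero_smul, add_zero, Prod.smul_fst, Prod.fst_zero, smul_eq_mul] at e1
  have hα : α = 0 := (mul_eq_zero.1 e1).resolve_right h1'
  subst hα
  simp

theorem exists_equiv_E2 (L : (ℂ × ℂ) →L[ℂ] E2) (h : det2 (L (1, 0)) (L (0, 1)) ≠ 0) :
    ∃ L' : (ℂ × ℂ) ≃L[ℂ] E2, (L' : (ℂ × ℂ) →L[ℂ] E2) = L := by
  refine exists_equiv_of_injective (by simp) L ?_
  intro v hv
  have e : v = v.1 • ((1, 0) : ℂ × ℂ) + v.2 • ((0, 1) : ℂ × ℂ) := by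
    ext <;> simp
  rw [e, map_add, map_smul, map_smul] at hv
  have e0 := congrFun hv 0
  have e1 := congrFun hv 1
  simp only [Pi.add_apply, Pi.smul_apply, smul_eq_mul, Pi.zero_apply] at e0 e1
  have k1 : v.1 * det2 (L (1, 0)) (L (0, 1)) = 0 := by
    unfold det2
    linear_combination (L (0, 1) 1) * e0 - (L (0, 1) 0) * e1
  have k2 : v.2 * det2 (L (1, 0)) (L (0, 1)) = 0 := by
    unfold det2
    linear_combination (L (1, 0) 0) * e1 - (L (1, 0) 1) * e0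
  have h1 := (mul_eq_zero.1 k1).resolve_right h
  have h2 := (mul_eq_zero.1 k2).resolve_right h
  ext
  · simpa using h1
  · simpa using h2

/-- second derivative of `m (d ^ 2)` -/
theorem deriv_of_sq {F : Type*} [NormedAddCommGroup F] [NormedSpace ℂ F] [CompleteSpace F]
    {m g : ℂ → F} (hm : AnalyticAt ℂ m 0) (h : ∀ᶠ d in 𝓝 (0 : ℂ), g d = m (d ^ 2)) :
    deriv (deriv g) 0 = (2 : ℂ) • deriv m 0 := by
  have hc : ContinuousAt (fun d : ℂ => d ^ 2) 0 := by fun_prop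
  have hm' : ∀ᶠ z in 𝓝 ((0 : ℂ) ^ 2), AnalyticAt ℂ m z := by
    rw [zero_pow two_ne_zero]; exact hm.eventually_analyticAt
  have h1 : ∀ᶠ d in 𝓝 (0 : ℂ), AnalyticAt ℂ m (d ^ 2) := hc.eventually hm'
  have h2 : ∀ᶠ d in 𝓝 (0 : ℂ), deriv g d = (2 * d) • deriv m (d ^ 2) := by
    filter_upwards [h.eventually_nhds, h1] with d hd hd1
    have e1 : deriv g d = deriv (fun d => m (d ^ 2)) d := by
      apply Filter.EventuallyEq.deriv_eq
      exact hd
    rw [e1]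
    have e2 : HasDerivAt (fun d : ℂ => d ^ 2) (2 * d) d := by
      simpa using hasDerivAt_pow 2 d
    exact (hd1.differentiableAt.hasDerivAt.scomp d e2).deriv
  rw [Filter.EventuallyEq.deriv_eq h2]
  have hdm : DifferentiableAt ℂ (deriv m) ((0 : ℂ) ^ 2) := by
    rw [zero_pow two_ne_zero]; exact hm.deriv.differentiableAt
  have e2 : HasDerivAt (fun d : ℂ => d ^ 2) (2 * 0) 0 := by
    simpa using hasDerivAt_pow 2 (0 : ℂ)
  have e3 := hdm.hasDerivAt.scomp (0 : ℂ) e2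
  have e4 : HasDerivAt (fun d : ℂ => 2 * d) 2 0 := by
    simpa using (hasDerivAt_id (0 : ℂ)).const_mul 2
  have e5 := e4.smul e3
  have e6 := e5.deriv
  have e7 : (fun d : ℂ => (2 * d) • deriv m (d ^ 2)) =
      ((fun d : ℂ => 2 * d) • (deriv m ∘ fun d : ℂ => d ^ 2)) := by
    funext d; simp
  rw [e7, e6]
  simp

theorem tend0 {X Y : Type*} [TopologicalSpace X] [Zero X] [TopologicalSpace Y] [Zero Y] {f : X → Y}
    (hf : Continuous f) (h0 : f 0 = 0) : Tendsto f (𝓝 0) (𝓝 0) := by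
  have := hf.tendsto 0
  rwa [h0] at this

theorem analytic_comp0 {X Y Z : Type*} [NormedAddCommGroup X] [NormedSpace ℂ X]
    [NormedAddCommGroup Y] [NormedSpace ℂ Y] [NormedAddCommGroup Z] [NormedSpace ℂ Z]
    {f : Y → Z} {g : X → Y} (hf : AnalyticAt ℂ f 0) (hg : AnalyticAt ℂ g 0) (h0 : g 0 = 0) :
    AnalyticAt ℂ (fun x => f (g x)) 0 := by
  have h2 : AnalyticAt ℂ f (g 0) := by rw [h0]; exact hf
  exact h2.comp hg

theorem an_swap : AnalyticAt ℂ (fun p : ℂ × ℂ => ((p.2, p.1) : ℂ × ℂ)) 0 :=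
  analyticAt_snd.prod analyticAt_fst

theorem an_half : AnalyticAt ℂ
    (fun q : ℂ × ℂ => (((q.2 + q.1) / 2, (q.1 - q.2) / 2) : ℂ × ℂ)) 0 := by
  refine AnalyticAt.prod ?_ ?_
  · exact (analyticAt_snd.add analyticAt_fst).div analyticAt_const two_ne_zero
  · exact (analyticAt_fst.sub analyticAt_snd).div analyticAt_const two_ne_zero

theorem det2_ratio {i : Fin 2} {u v : E2} (hu : u i ≠ 0) (h : det2 u v ≠ 0) :
    (v (1 - i) * u i - u (1 - i) * v i) / (u i) ^ 2 ≠ 0 := by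
  apply div_ne_zero _ (pow_ne_zero 2 hu)
  fin_cases i
  · simp only [det2] at h
    simpa [sub_eq_add_neg, mul_comm, add_comm] using h
  · simp only [det2] at h
    intro h0
    apply h
    simp only [Fin.mk_one, Fin.isValue, sub_self] at h0
    linear_combination (-1 : ℂ) * h0

theorem comp_apply_analytic {V : ℂ × ℂ → E2} {p : ℂ × ℂ} (hV : AnalyticAt ℂ V p) (i : Fin 2) :
    AnalyticAt ℂ (fun q => V q i) p :=
  (ContinuousLinearMap.proj (R := ℂ) (φ := fun _ : Fin 2 => ℂ) i).analyticAt (V p) |>.comp hV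


theorem hasDerivAt_apply {V : ℂ → E2} {V' : E2} {p : ℂ} (hV : HasDerivAt V V' p) (i : Fin 2) :
    HasDerivAt (fun q => V q i) (V' i) p := by
  have := (hasDerivAt_pi.1 hV) i
  exact this

/-- the local coordinates near `(c, iv c)`, `c` not Weierstrass -/
theorem coordA {G : ℂ → E2} (hG : AnalyticAt ℂ G 0) (i : Fin 2) (hi : deriv G 0 i ≠ 0)
    (hnd : det2 (deriv G 0) (deriv (deriv G) 0) ≠ 0)
    {V : ℂ × ℂ → E2} (hV : AnalyticAt ℂ V 0)
    (hV3 : ∀ᶠ p in 𝓝 (0 : ℂ × ℂ), V (p.1, p.1) = deriv G p.1) :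
    AnalyticAt ℂ (fun p : ℂ × ℂ => ((V p (1 - i) / V p i, (p.1 - p.2) * V p i) : ℂ × ℂ)) 0 ∧
    ∃ L' : (ℂ × ℂ) ≃L[ℂ] (ℂ × ℂ), HasFDerivAt
      (fun p : ℂ × ℂ => ((V p (1 - i) / V p i, (p.1 - p.2) * V p i) : ℂ × ℂ))
      (L' : (ℂ × ℂ) →L[ℂ] (ℂ × ℂ)) 0 := by
  have hdiag : ∀ᶠ t in 𝓝 (0 : ℂ), V (t, t) = deriv G t := by
    have hc : ContinuousAt (fun t : ℂ => ((t, t) : ℂ × ℂ)) 0 := by fun_prop
    exact hc.eventually hV3
  have hV0 : V 0 = deriv G 0 := hdiag.self_of_nhds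
  have hVi : V 0 i ≠ 0 := by rw [hV0]; exact hi
  have hVan : ∀ j, AnalyticAt ℂ (fun p => V p j) 0 := comp_apply_analytic hV
  have han : AnalyticAt ℂ
      (fun p : ℂ × ℂ => ((V p (1 - i) / V p i, (p.1 - p.2) * V p i) : ℂ × ℂ)) 0 := by
    refine AnalyticAt.prod ?_ ?_
    · exact (hVan _).div (hVan i) hVi
    · exact (analyticAt_fst.sub analyticAt_snd).mul (hVan i)
  refine ⟨han, ?_⟩
  have hL := han.differentiableAt.hasFDerivAt
  set Φ : ℂ × ℂ → ℂ × ℂ := fun p => ((V p (1 - i) / V p i, (p.1 - p.2) * V p i) : ℂ × ℂ) with hΦ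
  set L := fderiv ℂ Φ 0 with hLdef
  -- direction (1,1)
  have d11 : HasDerivAt (fun t : ℂ => ((t, t) : ℂ × ℂ)) (1, 1) 0 :=
    (hasDerivAt_id (0 : ℂ)).prodMk (hasDerivAt_id (0 : ℂ))
  have h11 : HasDerivAt (fun t : ℂ => Φ (t, t)) (L (1, 1)) 0 :=
    HasFDerivAt.comp_hasDerivAt (f := fun t : ℂ => ((t, t) : ℂ × ℂ)) (0 : ℂ) hL d11
  have g1 : HasDerivAt (deriv G) (deriv (deriv G) 0) 0 := hG.deriv.differentiableAt.hasDerivAt
  have k11 : HasDerivAt (fun t : ℂ => ((deriv G t (1 - i) / deriv G t i, 0) : ℂ × ℂ))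
      ((deriv (deriv G) 0 (1 - i) * deriv G 0 i - deriv G 0 (1 - i) * deriv (deriv G) 0 i) /
        (deriv G 0 i) ^ 2, 0) 0 :=
    ((hasDerivAt_apply g1 (1 - i)).div (hasDerivAt_apply g1 i) hi).prodMk (hasDerivAt_const _ _)
  have e11 : (fun t : ℂ => Φ (t, t)) =ᶠ[𝓝 0]
      (fun t : ℂ => ((deriv G t (1 - i) / deriv G t i, 0) : ℂ × ℂ)) := by
    filter_upwards [hdiag] with t ht
    simp only [hΦ, ht, sub_self, zero_mul]
  have hL11 := h11.unique (k11.congr_of_eventuallyEq e11)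
  -- direction (1,-1)
  have d12 : HasDerivAt (fun t : ℂ => ((t, -t) : ℂ × ℂ)) (1, -1) 0 :=
    (hasDerivAt_id (0 : ℂ)).prodMk ((hasDerivAt_id (0 : ℂ)).neg)
  have hpt : (fun t : ℂ => ((t, -t) : ℂ × ℂ)) 0 = 0 := by simp
  have h12 : HasDerivAt (fun t : ℂ => Φ (t, -t)) (L (1, -1)) 0 := by
    have hL' : HasFDerivAt Φ L ((fun t : ℂ => ((t, -t) : ℂ × ℂ)) 0) := by rw [hpt]; exact hL
    exact HasFDerivAt.comp_hasDerivAt (f := fun t : ℂ => ((t, -t) : ℂ × ℂ)) (0 : ℂ) hL' d12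
  have h12' : HasDerivAt (fun t : ℂ => (t - -t) * V (t, -t) i) (L (1, -1)).2 0 :=
    (ContinuousLinearMap.snd ℂ ℂ ℂ).hasFDerivAt.comp_hasDerivAt (0 : ℂ) h12
  have k12 : HasDerivAt (fun t : ℂ => (t - -t) * V (t, -t) i) (2 * V 0 i) 0 := by
    have a1 : HasDerivAt (fun t : ℂ => t - -t) 2 0 := by
      have h0 : HasDerivAt (fun t : ℂ => t - -t) (1 - -1) 0 :=
        (hasDerivAt_id (0 : ℂ)).sub ((hasDerivAt_id (0 : ℂ)).neg)
      exact h0.congr_deriv (by norm_num)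
    have a2 : HasDerivAt (fun t : ℂ => V (t, -t) i) (fderiv ℂ (fun p => V p i) 0 (1, -1)) 0 := by
      have hd := (hVan i).differentiableAt.hasFDerivAt
      have hd' : HasFDerivAt (fun p => V p i) (fderiv ℂ (fun p => V p i) 0)
          ((fun t : ℂ => ((t, -t) : ℂ × ℂ)) 0) := by rw [hpt]; exact hd
      exact HasFDerivAt.comp_hasDerivAt (f := fun t : ℂ => ((t, -t) : ℂ × ℂ)) (0 : ℂ) hd' d12
    have a3 := a1.mul a2
    refine a3.congr_deriv ?_
    have e0 : ((0 : ℂ), -(0 : ℂ)) = (0 : ℂ × ℂ) := by simp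
    rw [e0]
    simp
  have hL12 := h12'.unique k12
  have hspan : ∀ v : ℂ × ℂ, ∃ α β : ℂ, v = α • ((1, 1) : ℂ × ℂ) + β • ((1, -1) : ℂ × ℂ) := by
    intro v
    refine ⟨(v.1 + v.2) / 2, (v.1 - v.2) / 2, ?_⟩
    ext
    · simp; ring
    · simp; ring
  have q1 : (L (1, 1)).2 = 0 := by rw [hL11]
  have q2 : (L (1, 1)).1 ≠ 0 := by
    rw [hL11]
    exact det2_ratio hi hnd
  have q3 : (L (1, -1)).2 ≠ 0 := by
    rw [hL12]
    exact mul_ne_zero two_ne_zero hVi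
  obtain ⟨L', hL'⟩ := exists_equiv_pair L (1, 1) (1, -1) hspan q1 q2 q3
  refine ⟨L', ?_⟩
  rw [hL']
  exact hL

/-- the local coordinates at a Weierstrass point -/
theorem coordB {G : ℂ → E2} (hG : AnalyticAt ℂ G 0) (i : Fin 2) (hi : deriv G 0 i ≠ 0)
    (hodd : ∀ᶠ t in 𝓝 (0 : ℂ), G (-t) = - G t)
    (hnd : det2 (deriv G 0) (deriv (deriv (deriv G)) 0) ≠ 0)
    {V : ℂ × ℂ → E2} (hV : AnalyticAt ℂ V 0)
    (hV0 : ∀ᶠ p in 𝓝 (0 : ℂ × ℂ), G p.1 - G p.2 = (p.1 - p.2) • V p ∧ V (p.2, p.1) = V p ∧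
      V (p.1, p.1) = deriv G p.1) :
    ∃ h : ℂ × ℂ → E2, AnalyticAt ℂ h 0 ∧
      (∀ᶠ p in 𝓝 (0 : ℂ × ℂ), V (p.1, -p.2) = h ((p.1 - p.2) ^ 2, p.1 + p.2)) ∧
      h 0 = deriv G 0 ∧
      AnalyticAt ℂ (fun p : ℂ × ℂ => ((h (p.2, p.1) (1 - i) / h (p.2, p.1) i,
        p.1 * h (p.2, p.1) i) : ℂ × ℂ)) 0 ∧
      ∃ L' : (ℂ × ℂ) ≃L[ℂ] (ℂ × ℂ), HasFDerivAt
        (fun p : ℂ × ℂ => ((h (p.2, p.1) (1 - i) / h (p.2, p.1) i,
          p.1 * h (p.2, p.1) i) : ℂ × ℂ)) (L' : (ℂ × ℂ) →L[ℂ] (ℂ × ℂ)) 0 := by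
  -- the derivative of `G` is even
  have hG' : ∀ᶠ t in 𝓝 (0 : ℂ), deriv G (-t) = deriv G t := by
    filter_upwards [hodd.eventually_nhds] with t ht
    have h1 : deriv (fun t => G (-t)) t = deriv (fun t => - G t) t :=
      Filter.EventuallyEq.deriv_eq ht
    rw [deriv_comp_neg, deriv.fun_neg] at h1
    exact neg_injective h1
  -- symmetry of `V`
  have hVneg : ∀ᶠ p in 𝓝 (0 : ℂ × ℂ), V (-p.1, -p.2) = V p := by
    have c1 : ContinuousAt (fun p : ℂ × ℂ => p.1) 0 := by fun_prop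
    have c2 : ContinuousAt (fun p : ℂ × ℂ => p.2) 0 := by fun_prop
    have c3' : Tendsto (fun p : ℂ × ℂ => ((-p.1, -p.2) : ℂ × ℂ)) (𝓝 0) (𝓝 0) :=
      tend0 (by fun_prop) (by ext <;> simp)
    have e1 := c1.eventually hodd
    have e2 := c2.eventually hodd
    have e3 := c1.eventually hG'
    have e4 := c3'.eventually hV0
    filter_upwards [e1, e2, e3, e4, hV0] with p p1 p2 p3 p4 p5
    obtain ⟨p41, p42, p43⟩ := p4
    obtain ⟨p51, p52, p53⟩ := p5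
    by_cases hp : p.1 = p.2
    · have q1 : V (-p.1, -p.2) = deriv G (-p.1) := by rw [← hp]; exact p43
      have q2 : V p = deriv G p.1 := by
        rw [← p53]
        have : p = (p.1, p.1) := by ext; rfl; exact hp.symm
        exact congrArg V this
      rw [q1, q2, p3]
    · rw [p1, p2] at p41
      have q : (p.1 - p.2) • V (-p.1, -p.2) = (p.1 - p.2) • V p := by
        rw [← p51]
        have : G p.1 - G p.2 = - (-G p.1 - -G p.2) := by abel
        rw [this, p41, ← neg_smul]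
        congr 1
        ring
      have hne : p.1 - p.2 ≠ 0 := sub_ne_zero.2 hp
      exact smul_right_injective _ hne q
  -- descend
  let f : ℂ × ℂ → E2 := fun q => V ((q.2 + q.1) / 2, (q.1 - q.2) / 2)
  have c0' : Tendsto (fun q : ℂ × ℂ => (((q.2 + q.1) / 2, (q.1 - q.2) / 2) : ℂ × ℂ)) (𝓝 0) (𝓝 0) :=
    tend0 (by fun_prop) (by ext <;> simp)
  have hfan : AnalyticAt ℂ f 0 := analytic_comp0 hV an_half (by ext <;> simp)
  have hev : ∀ᶠ q in 𝓝 (0 : ℂ × ℂ), f (-q.1, q.2) = f q := by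
    have c1 : Tendsto (fun q : ℂ × ℂ => (((q.2 - q.1) / 2, (-q.1 - q.2) / 2) : ℂ × ℂ)) (𝓝 0) (𝓝 0) :=
      tend0 (by fun_prop) (by ext <;> simp)
    filter_upwards [c1.eventually hVneg, c0'.eventually hV0] with q q1 q2
    obtain ⟨-, q3, -⟩ := q2
    show V ((q.2 + -q.1) / 2, (-q.1 - q.2) / 2) = V ((q.2 + q.1) / 2, (q.1 - q.2) / 2)
    have a1 : ((q.2 + -q.1) / 2, (-q.1 - q.2) / 2) = (((q.2 - q.1) / 2, (-q.1 - q.2) / 2) : ℂ × ℂ) := by
      rw [← sub_eq_add_neg]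
    rw [a1, ← q1, ← q3]
    congr 1
    ext
    · simp; ring
    · simp; ring
  obtain ⟨h, hh, hfh⟩ := even_descent hfan hev
  have hrel : ∀ᶠ p in 𝓝 (0 : ℂ × ℂ), V (p.1, -p.2) = h ((p.1 - p.2) ^ 2, p.1 + p.2) := by
    have c1 : Tendsto (fun p : ℂ × ℂ => ((p.1 - p.2, p.1 + p.2) : ℂ × ℂ)) (𝓝 0) (𝓝 0) :=
      tend0 (by fun_prop) (by ext <;> simp)
    filter_upwards [c1.eventually hfh] with p hp
    rw [← hp]
    show V (p.1, -p.2) = V ((p.1 + p.2 + (p.1 - p.2)) / 2, (p.1 - p.2 - (p.1 + p.2)) / 2)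
    congr 1
    ext
    · simp only []; ring
    · simp only []; ring
  have h0 : h 0 = deriv G 0 := by
    have e1 := hrel.self_of_nhds
    have e2 := (hV0.self_of_nhds).2.2
    simp only [Prod.fst_zero, Prod.snd_zero, neg_zero, sub_self, add_zero] at e1 e2
    rw [← e2, e1]
    congr 1
    ext <;> simp
  have hhi : h 0 i ≠ 0 := by rw [h0]; exact hi
  -- analyticity
  have hsw : AnalyticAt ℂ (fun p : ℂ × ℂ => h (p.2, p.1)) 0 := analytic_comp0 hh an_swap rfl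
  have hswj : ∀ j, AnalyticAt ℂ (fun p : ℂ × ℂ => h (p.2, p.1) j) 0 :=
    fun j => comp_apply_analytic hsw j
  have han : AnalyticAt ℂ (fun p : ℂ × ℂ => ((h (p.2, p.1) (1 - i) / h (p.2, p.1) i,
        p.1 * h (p.2, p.1) i) : ℂ × ℂ)) 0 := by
    refine AnalyticAt.prod ?_ ?_
    · exact (hswj _).div (hswj i) hhi
    · exact analyticAt_fst.mul (hswj i)
  refine ⟨h, hh, hrel, h0, han, ?_⟩
  have hL := han.differentiableAt.hasFDerivAt
  set Φ : ℂ × ℂ → ℂ × ℂ := fun p => ((h (p.2, p.1) (1 - i) / h (p.2, p.1) i,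
        p.1 * h (p.2, p.1) i) : ℂ × ℂ) with hΦ
  set L := fderiv ℂ Φ 0 with hLdef
  -- the one variable function
  let m : ℂ → E2 := fun δ => h (δ, 0)
  have hm : AnalyticAt ℂ m 0 := analytic_comp0 hh (analyticAt_id.prod analyticAt_const) rfl
  have hm0 : m 0 = deriv G 0 := h0
  have hmg : ∀ᶠ d in 𝓝 (0 : ℂ), deriv G (d / 2) = m (d ^ 2) := by
    have c1 : Tendsto (fun d : ℂ => ((d / 2, -(d / 2)) : ℂ × ℂ)) (𝓝 0) (𝓝 0) :=
      tend0 (by fun_prop) (by ext <;> simp)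
    filter_upwards [c1.eventually hrel, c1.eventually hV0] with d d1 d2
    obtain ⟨-, -, d3⟩ := d2
    simp only [neg_neg] at d1 d3
    rw [← d3, d1]
    show h _ = h _
    congr 1
    ext
    · simp
    · simp
  have hmd : deriv m 0 = (8 : ℂ)⁻¹ • deriv (deriv (deriv G)) 0 := by
    have e1 := deriv_of_sq hm hmg
    -- second derivative of `G' (d / 2)`
    have e2 : ∀ g : ℂ → E2, ∀ d : ℂ, deriv (fun d => g (d / 2)) d = (2 : ℂ)⁻¹ • deriv g (d / 2) := by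
      intro g d
      have := deriv_comp_mul_left (2 : ℂ)⁻¹ g d
      have e3 : (fun x : ℂ => g ((2 : ℂ)⁻¹ * x)) = fun d => g (d / 2) := by
        funext x; congr 1; ring
      rw [e3] at this
      rw [this]
      congr 2
      ring
    have e3 : deriv (fun d => deriv G (d / 2)) = fun d => (2 : ℂ)⁻¹ • deriv (deriv G) (d / 2) := by
      funext d
      exact e2 (deriv G) d
    rw [e3] at e1
    have e4 : deriv (fun d => (2 : ℂ)⁻¹ • deriv (deriv G) (d / 2)) 0 =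
        (2 : ℂ)⁻¹ • deriv (fun d : ℂ => deriv (deriv G) (d / 2)) 0 := by
      have hd : DifferentiableAt ℂ (fun d : ℂ => deriv (deriv G) (d / 2)) 0 :=
        (analytic_comp0 (g := fun d : ℂ => d / 2) hG.deriv.deriv
          (analyticAt_id.div analyticAt_const two_ne_zero) (by simp)).differentiableAt
      exact deriv_fun_const_smul _ hd
    rw [e4, e2 (deriv (deriv G)) 0, zero_div, smul_smul] at e1
    have e5 : deriv m 0 = (2 : ℂ)⁻¹ • ((2 : ℂ) • deriv m 0) := by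
      rw [smul_smul]; norm_num
    rw [e5, ← e1, smul_smul]
    norm_num
  -- direction (0,1)
  have hpt : (fun δ : ℂ => ((0, δ) : ℂ × ℂ)) 0 = 0 := rfl
  have d01 : HasDerivAt (fun δ : ℂ => ((0, δ) : ℂ × ℂ)) (0, 1) 0 :=
    (hasDerivAt_const (0 : ℂ) (0 : ℂ)).prodMk (hasDerivAt_id (0 : ℂ))
  have h01 : HasDerivAt (fun δ : ℂ => Φ (0, δ)) (L (0, 1)) 0 :=
    HasFDerivAt.comp_hasDerivAt (f := fun δ : ℂ => ((0, δ) : ℂ × ℂ)) (0 : ℂ) hL d01
  have g1 : HasDerivAt m (deriv m 0) 0 := hm.differentiableAt.hasDerivAt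
  have hmi : m 0 i ≠ 0 := hhi
  have k01 : HasDerivAt (fun δ : ℂ => ((m δ (1 - i) / m δ i, 0) : ℂ × ℂ))
      ((deriv m 0 (1 - i) * m 0 i - m 0 (1 - i) * deriv m 0 i) / (m 0 i) ^ 2, 0) 0 :=
    ((hasDerivAt_apply g1 (1 - i)).div (hasDerivAt_apply g1 i) hmi).prodMk (hasDerivAt_const _ _)
  have e01 : (fun δ : ℂ => Φ (0, δ)) = (fun δ : ℂ => ((m δ (1 - i) / m δ i, 0) : ℂ × ℂ)) := by
    funext δ
    simp only [hΦ, zero_mul]
    rfl
  rw [e01] at h01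
  have hL01 := h01.unique k01
  -- direction (1,0)
  have d10 : HasDerivAt (fun σ : ℂ => ((σ, 0) : ℂ × ℂ)) (1, 0) 0 :=
    (hasDerivAt_id (0 : ℂ)).prodMk (hasDerivAt_const (0 : ℂ) (0 : ℂ))
  have h10 : HasDerivAt (fun σ : ℂ => Φ (σ, 0)) (L (1, 0)) 0 :=
    HasFDerivAt.comp_hasDerivAt (f := fun σ : ℂ => ((σ, 0) : ℂ × ℂ)) (0 : ℂ) hL d10
  have h10' : HasDerivAt (fun σ : ℂ => σ * h (0, σ) i) (L (1, 0)).2 0 :=
    (ContinuousLinearMap.snd ℂ ℂ ℂ).hasFDerivAt.comp_hasDerivAt (0 : ℂ) h10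
  have k10 : HasDerivAt (fun σ : ℂ => σ * h (0, σ) i) (h 0 i) 0 := by
    have a1 : HasDerivAt (fun σ : ℂ => σ) 1 0 := hasDerivAt_id (0 : ℂ)
    have a2 : HasDerivAt (fun σ : ℂ => h (0, σ) i)
        (fderiv ℂ (fun p : ℂ × ℂ => h (p.2, p.1) i) 0 (1, 0)) 0 := by
      have hd := (hswj i).differentiableAt.hasFDerivAt
      exact HasFDerivAt.comp_hasDerivAt (f := fun σ : ℂ => ((σ, 0) : ℂ × ℂ)) (0 : ℂ) hd d10
    have a3 := a1.mul a2
    refine a3.congr_deriv ?_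
    have e0 : ((0 : ℂ), (0 : ℂ)) = (0 : ℂ × ℂ) := rfl
    rw [e0]
    simp
  have hL10 := h10'.unique k10
  have hspan : ∀ v : ℂ × ℂ, ∃ α β : ℂ, v = α • ((0, 1) : ℂ × ℂ) + β • ((1, 0) : ℂ × ℂ) := by
    intro v
    refine ⟨v.2, v.1, ?_⟩
    ext <;> simp
  have q1 : (L (0, 1)).2 = 0 := by rw [hL01]
  have q2 : (L (0, 1)).1 ≠ 0 := by
    rw [hL01, hmd, hm0]
    have hnd' : det2 (deriv G 0) ((8 : ℂ)⁻¹ • deriv (deriv (deriv G)) 0) ≠ 0 := by
      have : det2 (deriv G 0) ((8 : ℂ)⁻¹ • deriv (deriv (deriv G)) 0) =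
          (8 : ℂ)⁻¹ * det2 (deriv G 0) (deriv (deriv (deriv G)) 0) := by
        simp only [det2, Pi.smul_apply, smul_eq_mul]
        ring
      rw [this]
      exact mul_ne_zero (by norm_num) hnd
    exact det2_ratio hi hnd'
  have q3 : (L (1, 0)).2 ≠ 0 := by
    rw [hL10]
    exact hhi
  obtain ⟨L', hL'⟩ := exists_equiv_pair L (0, 1) (1, 0) hspan q1 q2 q3
  refine ⟨L', ?_⟩
  rw [hL']
  exact hL

end Crest.Agent.R272.AJb_956
end
end

-- ▼ part R272/AJc_956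
section

/-!
# Row 272, A-AJ: sums of primitives are local homeomorphisms modulo the swap (helper956)
-/

set_option autoImplicit false
set_option linter.unusedSectionVars false
set_option linter.unusedVariables false

open Set Filter Topology Metric Complex
open Crest.Agent.R272.AJ_956 Crest.Agent.R272.AJa_956 Crest.Agent.R272.AJb_956

noncomputable section

namespace Crest.Agent.R272.AJc_956

theorem isOpenMap_sq : IsOpenMap (fun z : ℂ => z ^ 2) := by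
  have hg : AnalyticOnNhd ℂ (fun z : ℂ => z ^ 2) univ := fun z _ => by fun_prop
  rcases hg.is_constant_or_isOpen isPreconnected_univ with ⟨w, hw⟩ | h
  · exfalso
    have h0 : (0 : ℂ) ^ 2 = w := hw 0 (mem_univ _)
    have h1 : (1 : ℂ) ^ 2 = w := hw 1 (mem_univ _)
    rw [← h0] at h1
    norm_num at h1
  · intro s hs
    exact h s (subset_univ _) hs

/-- elementary symmetric coordinates of `ℂ × ℂ` modulo the swap -/
def sqm (p : ℂ × ℂ) : ℂ × ℂ := (p.1 + p.2, (p.1 - p.2) ^ 2)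

theorem sqm_zero : sqm 0 = 0 := by ext <;> simp [sqm]

theorem continuous_sqm : Continuous sqm := by unfold sqm; fun_prop

theorem sqm_eq_iff (p p' : ℂ × ℂ) : sqm p = sqm p' ↔ p' = p ∨ p' = p.swap := by
  constructor
  · intro h
    have h1 : p.1 + p.2 = p'.1 + p'.2 := congrArg Prod.fst h
    have h2 : (p.1 - p.2) ^ 2 = (p'.1 - p'.2) ^ 2 := congrArg Prod.snd h
    rcases sq_eq_sq_iff_eq_or_eq_neg.1 h2 with h3 | h3
    · left
      ext
      · linear_combination (-(1 : ℂ) / 2) * h1 - (1 / 2) * h3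
      · linear_combination (-(1 : ℂ) / 2) * h1 + (1 / 2) * h3
    · right
      ext
      · show p'.1 = p.2
        linear_combination (-(1 : ℂ) / 2) * h1 + (1 / 2) * h3
      · show p'.2 = p.1
        linear_combination (-(1 : ℂ) / 2) * h1 - (1 / 2) * h3
  · rintro (rfl | rfl)
    · rfl
    · simp only [sqm, Prod.fst_swap, Prod.snd_swap]
      ext
      · simp [add_comm]
      · simp only []; ring

theorem isOpenMap_sqm : IsOpenMap sqm := by
  let e : (ℂ × ℂ) ≃ₜ (ℂ × ℂ) :=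
    { toFun := fun p => (p.1 + p.2, p.1 - p.2)
      invFun := fun p => ((p.1 + p.2) / 2, (p.1 - p.2) / 2)
      left_inv := by
        intro p
        ext
        · simp only []; ring
        · simp only []; ring
      right_inv := by
        intro p
        ext
        · simp only []; ring
        · simp only []; ring
      continuous_toFun := by fun_prop
      continuous_invFun := by fun_prop }
  have h : sqm = (Prod.map id (fun z : ℂ => z ^ 2)) ∘ e := by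
    funext p
    rfl
  rw [h]
  exact (IsOpenMap.id.prodMap isOpenMap_sq).comp e.isOpenMap

theorem map_sqm (p : ℂ × ℂ) : Filter.map sqm (𝓝 p) = 𝓝 (sqm p) :=
  isOpenMap_sqm.map_nhds_eq continuous_sqm.continuousAt

theorem local_homeo {F : Type*} [NormedAddCommGroup F] [NormedSpace ℂ F] [CompleteSpace F]
    {K : ℂ × ℂ → F} (hK : AnalyticAt ℂ K 0) (L : (ℂ × ℂ) ≃L[ℂ] F)
    (hL : HasFDerivAt K (L : (ℂ × ℂ) →L[ℂ] F) 0) :
    Filter.map K (𝓝 0) = 𝓝 (K 0) ∧ ∃ O ∈ 𝓝 (0 : ℂ × ℂ), InjOn K O := by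
  obtain ⟨e, h1, -, h2, -, -⟩ :=
    Crest.Agent.R266.SCV.exists_analytic_openPartialHomeomorph hK L hL univ_mem
  have he : (e : ℂ × ℂ → F) = K := funext h2
  refine ⟨?_, e.source, e.open_source.mem_nhds h1, ?_⟩
  · rw [← he]; exact e.map_nhds_eq h1
  · rw [← he]; exact e.injOn

/-- different slopes -/
theorem sumN1 {G₁ G₂ : ℂ → E2} (h₁ : AnalyticAt ℂ G₁ 0) (h₂ : AnalyticAt ℂ G₂ 0)
    (hd : det2 (deriv G₁ 0) (deriv G₂ 0) ≠ 0) :
    Filter.map (fun p : ℂ × ℂ => G₁ p.1 + G₂ p.2) (𝓝 0) = 𝓝 (G₁ 0 + G₂ 0) ∧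
      ∃ O ∈ 𝓝 (0 : ℂ × ℂ), InjOn (fun p : ℂ × ℂ => G₁ p.1 + G₂ p.2) O := by
  have an : AnalyticAt ℂ (fun p : ℂ × ℂ => G₁ p.1 + G₂ p.2) 0 := by
    refine AnalyticAt.add ?_ ?_
    · exact analytic_comp0 h₁ analyticAt_fst rfl
    · exact analytic_comp0 h₂ analyticAt_snd rfl
  have hL := an.differentiableAt.hasFDerivAt
  set K : ℂ × ℂ → E2 := fun p => G₁ p.1 + G₂ p.2 with hK
  set L := fderiv ℂ K 0
  have d10 : HasDerivAt (fun σ : ℂ => ((σ, 0) : ℂ × ℂ)) (1, 0) 0 :=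
    (hasDerivAt_id (0 : ℂ)).prodMk (hasDerivAt_const (0 : ℂ) (0 : ℂ))
  have d01 : HasDerivAt (fun δ : ℂ => ((0, δ) : ℂ × ℂ)) (0, 1) 0 :=
    (hasDerivAt_const (0 : ℂ) (0 : ℂ)).prodMk (hasDerivAt_id (0 : ℂ))
  have h10 : HasDerivAt (fun σ : ℂ => K (σ, 0)) (L (1, 0)) 0 :=
    HasFDerivAt.comp_hasDerivAt (f := fun σ : ℂ => ((σ, 0) : ℂ × ℂ)) (0 : ℂ) hL d10
  have h01 : HasDerivAt (fun σ : ℂ => K (0, σ)) (L (0, 1)) 0 :=
    HasFDerivAt.comp_hasDerivAt (f := fun σ : ℂ => ((0, σ) : ℂ × ℂ)) (0 : ℂ) hL d01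
  have k10 : HasDerivAt (fun σ : ℂ => G₁ σ + G₂ 0) (deriv G₁ 0) 0 :=
    (h₁.differentiableAt.hasDerivAt).add_const (G₂ 0)
  have k01 : HasDerivAt (fun σ : ℂ => G₁ 0 + G₂ σ) (deriv G₂ 0) 0 :=
    (h₂.differentiableAt.hasDerivAt).const_add (G₁ 0)
  have e1 := h10.unique k10
  have e2 := h01.unique k01
  obtain ⟨L', hL'⟩ := exists_equiv_E2 L (by rw [e1, e2]; exact hd)
  rw [← hL'] at hL
  exact local_homeo an L' hL

/-- on the diagonal, off the Weierstrass points -/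
theorem sumN2 {G : ℂ → E2} (hG : AnalyticAt ℂ G 0)
    (hd : det2 (deriv G 0) (deriv (deriv G) 0) ≠ 0) :
    Filter.map (fun p : ℂ × ℂ => G p.1 + G p.2) (𝓝 0) = 𝓝 (G 0 + G 0) ∧
      ∃ O ∈ 𝓝 (0 : ℂ × ℂ), ∀ p ∈ O, ∀ p' ∈ O, G p.1 + G p.2 = G p'.1 + G p'.2 →
        p' = p ∨ p' = p.swap := by
  -- descend
  let f : ℂ × ℂ → E2 := fun q => G ((q.2 + q.1) / 2) + G ((q.2 - q.1) / 2)
  have hf : AnalyticAt ℂ f 0 := by
    refine AnalyticAt.add ?_ ?_
    · exact analytic_comp0 (g := fun q : ℂ × ℂ => (q.2 + q.1) / 2) hG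
        ((analyticAt_snd.add analyticAt_fst).div analyticAt_const two_ne_zero) (by simp)
    · exact analytic_comp0 (g := fun q : ℂ × ℂ => (q.2 - q.1) / 2) hG
        ((analyticAt_snd.sub analyticAt_fst).div analyticAt_const two_ne_zero) (by simp)
  have hev : ∀ᶠ q in 𝓝 (0 : ℂ × ℂ), f (-q.1, q.2) = f q := by
    refine Eventually.of_forall fun q => ?_
    show G ((q.2 + -q.1) / 2) + G ((q.2 - -q.1) / 2) = G ((q.2 + q.1) / 2) + G ((q.2 - q.1) / 2)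
    rw [sub_neg_eq_add, ← sub_eq_add_neg, add_comm]
  obtain ⟨h, hh, hfh⟩ := even_descent hf hev
  -- the map in symmetric coordinates
  let K : ℂ × ℂ → E2 := fun p => h (p.2, p.1)
  have hK : AnalyticAt ℂ K 0 := analytic_comp0 hh an_swap rfl
  have hrel : ∀ᶠ p in 𝓝 (0 : ℂ × ℂ), G p.1 + G p.2 = K (sqm p) := by
    have c1 : Tendsto (fun p : ℂ × ℂ => ((p.1 - p.2, p.1 + p.2) : ℂ × ℂ)) (𝓝 0) (𝓝 0) :=
      tend0 (by fun_prop) (by ext <;> simp)
    filter_upwards [c1.eventually hfh] with p hp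
    show _ = h ((p.1 - p.2) ^ 2, p.1 + p.2)
    rw [← hp]
    show G p.1 + G p.2 = G ((p.1 + p.2 + (p.1 - p.2)) / 2) + G ((p.1 + p.2 - (p.1 - p.2)) / 2)
    congr 2
    · ring
    · ring
  have hL := hK.differentiableAt.hasFDerivAt
  set L := fderiv ℂ K 0
  have d10 : HasDerivAt (fun σ : ℂ => ((σ, 0) : ℂ × ℂ)) (1, 0) 0 :=
    (hasDerivAt_id (0 : ℂ)).prodMk (hasDerivAt_const (0 : ℂ) (0 : ℂ))
  have d01 : HasDerivAt (fun δ : ℂ => ((0, δ) : ℂ × ℂ)) (0, 1) 0 :=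
    (hasDerivAt_const (0 : ℂ) (0 : ℂ)).prodMk (hasDerivAt_id (0 : ℂ))
  have h10 : HasDerivAt (fun σ : ℂ => K (σ, 0)) (L (1, 0)) 0 :=
    HasFDerivAt.comp_hasDerivAt (f := fun σ : ℂ => ((σ, 0) : ℂ × ℂ)) (0 : ℂ) hL d10
  have h01 : HasDerivAt (fun σ : ℂ => K (0, σ)) (L (0, 1)) 0 :=
    HasFDerivAt.comp_hasDerivAt (f := fun σ : ℂ => ((0, σ) : ℂ × ℂ)) (0 : ℂ) hL d01
  have hG1 : HasDerivAt G (deriv G 0) (0 / 2) := by
    rw [zero_div]; exact hG.differentiableAt.hasDerivAt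
  have dh : HasDerivAt (fun σ : ℂ => σ / 2) (1 / 2) 0 := (hasDerivAt_id (0 : ℂ)).div_const 2
  -- L (1,0) = G' 0
  have k10 : HasDerivAt (fun σ : ℂ => K (σ, 0)) (deriv G 0) 0 := by
    have c1 : Tendsto (fun σ : ℂ => ((0, σ) : ℂ × ℂ)) (𝓝 0) (𝓝 0) := tend0 (by fun_prop) rfl
    have e : (fun σ : ℂ => K (σ, 0)) =ᶠ[𝓝 0] fun σ => G (σ / 2) + G (σ / 2) := by
      filter_upwards [c1.eventually hfh] with σ hσ
      show h (0, σ) = _
      have h0 : ((0 : ℂ) ^ 2, σ) = ((0, σ) : ℂ × ℂ) := by simp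
      rw [h0] at hσ
      rw [← hσ]
      show G ((σ + 0) / 2) + G ((σ - 0) / 2) = _
      rw [add_zero, sub_zero]
    have d1 := hG1.scomp (0 : ℂ) dh
    have d2 := (d1.add d1).congr_of_eventuallyEq e
    refine d2.congr_deriv ?_
    rw [← add_smul]
    norm_num
  -- L (0,1) = G'' 0 / 4
  let m : ℂ → E2 := fun δ => h (δ, 0)
  have hm : AnalyticAt ℂ m 0 := analytic_comp0 hh (analyticAt_id.prod analyticAt_const) rfl
  have k01 : HasDerivAt (fun σ : ℂ => K (0, σ)) (deriv m 0) 0 := hm.differentiableAt.hasDerivAt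
  have hmg : ∀ᶠ d in 𝓝 (0 : ℂ), G (d / 2) + G (-(d / 2)) = m (d ^ 2) := by
    have c1 : Tendsto (fun d : ℂ => ((d, 0) : ℂ × ℂ)) (𝓝 0) (𝓝 0) := tend0 (by fun_prop) rfl
    filter_upwards [c1.eventually hfh] with d hd
    show _ = h (d ^ 2, 0)
    rw [← hd]
    show _ = G ((0 + d) / 2) + G ((0 - d) / 2)
    congr 2
    · rw [zero_add]
    · ring
  have hmd : deriv m 0 = (4 : ℂ)⁻¹ • deriv (deriv G) 0 := by
    have e1 := deriv_of_sq hm hmg
    have hGev := hG.eventually_analyticAt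
    have c2 : Tendsto (fun d : ℂ => d / 2) (𝓝 0) (𝓝 0) := tend0 (by fun_prop) (by simp)
    have c3 : Tendsto (fun d : ℂ => -(d / 2)) (𝓝 0) (𝓝 0) := tend0 (by fun_prop) (by simp)
    have e2 : deriv (fun d => G (d / 2) + G (-(d / 2))) =ᶠ[𝓝 0]
        fun d => (1 / 2 : ℂ) • deriv G (d / 2) + (-(1 / 2) : ℂ) • deriv G (-(d / 2)) := by
      filter_upwards [c2.eventually hGev, c3.eventually hGev] with d d1 d2
      have dh' : HasDerivAt (fun σ : ℂ => σ / 2) (1 / 2) d := (hasDerivAt_id d).div_const 2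
      have a1 := d1.differentiableAt.hasDerivAt.scomp d dh'
      have a2 := d2.differentiableAt.hasDerivAt.scomp d dh'.neg
      exact (a1.add a2).deriv
    rw [Filter.EventuallyEq.deriv_eq e2] at e1
    have g2 : HasDerivAt (deriv G) (deriv (deriv G) 0) (0 / 2) := by
      rw [zero_div]; exact hG.deriv.differentiableAt.hasDerivAt
    have g3 : HasDerivAt (deriv G) (deriv (deriv G) 0) (-(0 / 2)) := by
      rw [zero_div, neg_zero]; exact hG.deriv.differentiableAt.hasDerivAt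
    have b1 := (g2.scomp (0 : ℂ) dh).const_smul (1 / 2 : ℂ)
    have b2 := (g3.scomp (0 : ℂ) dh.neg).const_smul (-(1 / 2) : ℂ)
    have b3 := (b1.add b2).deriv
    have b4 : (fun d => (1 / 2 : ℂ) • deriv G (d / 2) + (-(1 / 2) : ℂ) • deriv G (-(d / 2))) =
      ((1 / 2 : ℂ) • (deriv G ∘ fun σ : ℂ => σ / 2) + (-(1 / 2) : ℂ) • (deriv G ∘ (-fun σ : ℂ => σ / 2))) := by
      funext d
      rfl
    rw [b4, b3, smul_smul, smul_smul, ← add_smul] at e1
    have e5 : deriv m 0 = (2 : ℂ)⁻¹ • ((2 : ℂ) • deriv m 0) := by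
      rw [smul_smul]; norm_num
    rw [e5, ← e1, smul_smul]
    norm_num
  have e1 := h10.unique k10
  have e2 := h01.unique k01
  obtain ⟨L', hL'⟩ := exists_equiv_E2 L (by
    rw [e1, e2, hmd]
    have : det2 (deriv G 0) ((4 : ℂ)⁻¹ • deriv (deriv G) 0) =
        (4 : ℂ)⁻¹ * det2 (deriv G 0) (deriv (deriv G) 0) := by
      simp only [det2, Pi.smul_apply, smul_eq_mul]
      ring
    rw [this]
    exact mul_ne_zero (by norm_num) hd)
  rw [← hL'] at hL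
  obtain ⟨m1, O, hO, hinj⟩ := local_homeo hK L' hL
  have hK0 : K 0 = G 0 + G 0 := by
    have := hrel.self_of_nhds
    rw [sqm_zero] at this
    exact this.symm
  constructor
  · have : Filter.map (fun p : ℂ × ℂ => G p.1 + G p.2) (𝓝 0) = Filter.map (K ∘ sqm) (𝓝 0) :=
      Filter.map_congr hrel
    rw [this, ← Filter.map_map, map_sqm, sqm_zero, m1, hK0]
  · have hO' : sqm ⁻¹' O ∈ 𝓝 (0 : ℂ × ℂ) := by
      apply continuous_sqm.continuousAt.preimage_mem_nhds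
      rw [sqm_zero]; exact hO
    refine ⟨(sqm ⁻¹' O) ∩ {p | G p.1 + G p.2 = K (sqm p)}, inter_mem hO' hrel, ?_⟩
    rintro p ⟨hp1, hp2⟩ p' ⟨hp1', hp2'⟩ hpp
    have e3 : K (sqm p) = K (sqm p') := by
      rw [← show G p.1 + G p.2 = K (sqm p) from hp2, ← show G p'.1 + G p'.2 = K (sqm p') from hp2']
      exact hpp
    exact (sqm_eq_iff p p').1 (hinj hp1 hp1' e3)

end Crest.Agent.R272.AJc_956
end
end

-- ▼ part R272/AJd_956

/-!
# Row 272, A-AJ: the function `U` near `Γ` (helper956)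
-/

set_option autoImplicit false
set_option linter.unusedSectionVars false
set_option linter.unusedVariables false

open Set Filter Topology Metric Complex
open Crest.Agent.R272.AJ_956 Crest.Agent.R272.AJa_956 Crest.Agent.R272.AJb_956
open Crest.Agent.R272.AJc_956

noncomputable section

namespace Crest.Agent.R272.AJd_956

/-- **Gluing germs along a compact set.** -/
theorem glue_germs {X Y : Type*} [TopologicalSpace X] [CompactSpace X] [T2Space X] [Nonempty Y]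
    {κ : Type*} (W : κ → Set X) (hW : ∀ i, IsOpen (W i)) (f : κ → X → Y) {K : Set X}
    (hK : IsCompact K) (hcov : ∀ x ∈ K, ∃ i, x ∈ W i)
    (hag : ∀ x ∈ K, ∀ i j, x ∈ W i → x ∈ W j → ∀ᶠ y in 𝓝 x, f i y = f j y) :
    ∃ (N : Set X) (F : X → Y), IsOpen N ∧ K ⊆ N ∧
      (∀ x ∈ N, ∃ i, x ∈ W i ∧ ∀ᶠ y in 𝓝 x, F y = f i y) ∧
      ∀ x ∈ K, ∀ i, x ∈ W i → ∀ᶠ y in 𝓝 x, F y = f i y := by
  classical
  rcases K.eq_empty_or_nonempty with rfl | ⟨x₀, hx₀⟩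
  · exact ⟨∅, fun _ => Classical.arbitrary Y, isOpen_empty, Subset.rfl, by simp, by simp⟩
  have : Nonempty κ := ⟨(hcov x₀ hx₀).choose⟩
  choose! i hi using hcov
  have hV : ∀ x ∈ K, ∃ V : Set X, IsOpen V ∧ x ∈ V ∧ closure V ⊆ W (i x) := by
    intro x hx
    obtain ⟨T, hT, hTc, hTW⟩ := exists_mem_nhds_isClosed_subset ((hW (i x)).mem_nhds (hi x hx))
    refine ⟨interior T, isOpen_interior, mem_interior_iff_mem_nhds.2 hT, ?_⟩
    exact (closure_minimal interior_subset hTc).trans hTW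
  choose! V hVo hxV hVW using hV
  obtain ⟨t, htK, htcov⟩ := hK.elim_nhds_subcover V (fun x hx => (hVo x hx).mem_nhds (hxV x hx))
  let Z : Set X := {x | ∀ k ∈ t, ∀ l ∈ t, x ∈ closure (V k) → x ∈ closure (V l) →
    ∀ᶠ y in 𝓝 x, f (i k) y = f (i l) y}
  have hZ : ∀ x ∈ K, ∀ᶠ y in 𝓝 x, y ∈ Z := by
    intro x hx
    have h1 : ∀ k ∈ t, ∀ l ∈ t, ∀ᶠ y in 𝓝 x, (y ∈ closure (V k) → y ∈ closure (V l) →
        ∀ᶠ z in 𝓝 y, f (i k) z = f (i l) z) := by
      intro k hk l hl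
      by_cases hxk : x ∈ closure (V k)
      · by_cases hxl : x ∈ closure (V l)
        · have := hag x hx (i k) (i l) (hVW k (htK k hk) hxk) (hVW l (htK l hl) hxl)
          filter_upwards [this.eventually_nhds] with y hy _ _
          exact hy
        · have : ∀ᶠ y in 𝓝 x, y ∉ closure (V l) :=
            isClosed_closure.isOpen_compl.mem_nhds hxl
          filter_upwards [this] with y hy _ h2
          exact absurd h2 hy
      · have : ∀ᶠ y in 𝓝 x, y ∉ closure (V k) :=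
          isClosed_closure.isOpen_compl.mem_nhds hxk
        filter_upwards [this] with y hy h2
        exact absurd h2 hy
    have h2 : ∀ᶠ y in 𝓝 x, ∀ k ∈ t, ∀ l ∈ t, (y ∈ closure (V k) → y ∈ closure (V l) →
        ∀ᶠ z in 𝓝 y, f (i k) z = f (i l) z) := by
      rw [Filter.eventually_all_finset]
      intro k hk
      rw [Filter.eventually_all_finset]
      intro l hl
      exact h1 k hk l hl
    exact h2
  let N : Set X := {x | ∀ᶠ y in 𝓝 x, y ∈ Z} ∩ ⋃ k ∈ t, V k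
  let F : X → Y := fun x => if h : ∃ k ∈ t, x ∈ closure (V k) then f (i h.choose) x
    else Classical.arbitrary Y
  have hNo : IsOpen N := by
    apply IsOpen.inter
    · exact isOpen_setOfPred_eventually_nhds
    · exact isOpen_biUnion fun k hk => hVo k (htK k hk)
  have key : ∀ x ∈ N, ∀ k ∈ t, x ∈ V k → ∀ᶠ y in 𝓝 x, F y = f (i k) y := by
    rintro x ⟨hx1, hx2⟩ k hk hxk
    filter_upwards [hx1, (hVo k (htK k hk)).mem_nhds hxk] with y hy1 hy2
    have hex : ∃ k ∈ t, y ∈ closure (V k) := ⟨k, hk, subset_closure hy2⟩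
    have hF : F y = f (i hex.choose) y := dif_pos hex
    rw [hF]
    exact (hy1 hex.choose hex.choose_spec.1 k hk hex.choose_spec.2
      (subset_closure hy2)).self_of_nhds
  refine ⟨N, F, hNo, ?_, ?_, ?_⟩
  · intro x hx
    exact ⟨hZ x hx, htcov hx⟩
  · rintro x hx
    obtain ⟨k, hk, hxk⟩ := mem_iUnion₂.1 hx.2
    exact ⟨i k, hVW k (htK k hk) (subset_closure hxk), key x hx k hk hxk⟩
  · intro x hx j hj
    obtain ⟨k, hk, hxk⟩ := mem_iUnion₂.1 (htcov hx)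
    have h1 := key x ⟨hZ x hx, htcov hx⟩ k hk hxk
    have h2 := hag x hx (i k) j (hVW k (htK k hk) (subset_closure hxk)) hj
    filter_upwards [h1, h2] with y hy1 hy2
    rw [hy1, hy2]

variable {C : Type} [TopologicalSpace C] (𝒞 : Cur C)

namespace Basic

theorem P_self (c : C) : 𝒞.P c c = 0 := by
  simp [Cur.P, 𝒞.k_zero, 𝒞.G_zero]

theorem zero_mem_target (c : C) : (0 : ℂ) ∈ (𝒞.k c).target := by
  have := (𝒞.k c).map_source (𝒞.k_mem c)
  rwa [𝒞.k_zero] at this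

theorem G_an0 (c : C) : AnalyticAt ℂ (𝒞.G c) 0 := 𝒞.G_an c 0 (zero_mem_target 𝒞 c)

theorem map_k (c : C) : Filter.map (𝒞.k c) (𝓝 c) = 𝓝 0 := by
  rw [(𝒞.k c).map_nhds_eq (𝒞.k_mem c), 𝒞.k_zero]

theorem tend_k (c : C) : Tendsto (𝒞.k c) (𝓝 c) (𝓝 0) := (map_k 𝒞 c).le

theorem P_change (c x : C) (hx : x ∈ (𝒞.k c).source) :
    ∀ᶠ y in 𝓝 x, 𝒞.P c y = 𝒞.P c x + 𝒞.P x y := by
  filter_upwards [𝒞.compat c x x hx (𝒞.k_mem x)] with y hy
  have h0 : 𝒞.G x (𝒞.k x x) = 0 := P_self 𝒞 x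
  rw [h0, zero_sub] at hy
  show 𝒞.G c (𝒞.k c y) = 𝒞.G c (𝒞.k c x) + 𝒞.G x (𝒞.k x y)
  have : 𝒞.G x (𝒞.k x y) = (𝒞.G x (𝒞.k x y) - 𝒞.G c (𝒞.k c y)) + 𝒞.G c (𝒞.k c y) := by abel
  rw [this, hy]
  abel

theorem P_continuousAt (c x : C) (hx : x ∈ (𝒞.k c).source) : ContinuousAt (𝒞.P c) x := by
  have h1 : ContinuousAt (𝒞.G c) (𝒞.k c x) :=
    (𝒞.G_an c _ ((𝒞.k c).map_source hx)).continuousAt
  exact h1.comp ((𝒞.k c).continuousAt hx)

theorem P_continuousAt' (x : C) : ContinuousAt (𝒞.P x) x := P_continuousAt 𝒞 x x (𝒞.k_mem x)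

theorem P_tendsto (x : C) : Tendsto (𝒞.P x) (𝓝 x) (𝓝 0) := by
  have := (P_continuousAt' 𝒞 x).tendsto
  rwa [P_self] at this

theorem P_iv (x : C) : ∀ᶠ y in 𝓝 x, 𝒞.P (𝒞.iv x) (𝒞.iv y) = - 𝒞.P x y := 𝒞.anti x

theorem P_iv' (c x : C) (hx : 𝒞.iv x ∈ (𝒞.k c).source) :
    ∀ᶠ y in 𝓝 x, 𝒞.P c (𝒞.iv y) = 𝒞.P c (𝒞.iv x) - 𝒞.P x y := by
  have h1 := (𝒞.iv_cont.continuousAt (x := x)).eventually (P_change 𝒞 c (𝒞.iv x) hx)
  filter_upwards [h1, P_iv 𝒞 x] with y hy1 hy2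
  rw [hy1, hy2]
  abel

theorem mem_Gam {x : C × C} : x ∈ 𝒞.Gam ↔ x.2 = 𝒞.iv x.1 := Iff.rfl

theorem gam_mem (c : C) : ((c, 𝒞.iv c) : C × C) ∈ 𝒞.Gam := rfl

theorem swap_mem_Gam {x : C × C} (hx : x ∈ 𝒞.Gam) : x.swap ∈ 𝒞.Gam := by
  rw [mem_Gam] at *
  simp [hx, 𝒞.iv_iv]

theorem isClosed_Gam [T2Space C] : IsClosed 𝒞.Gam :=
  isClosed_eq continuous_snd (𝒞.iv_cont.comp continuous_fst)

/-- the sum of primitives -/
def S (x y : C × C) : E2 := 𝒞.P x.1 y.1 + 𝒞.P x.2 y.2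


theorem S_tendsto (x : C × C) : Tendsto (S 𝒞 x) (𝓝 x) (𝓝 0) := by
  have h1 : Tendsto (fun y : C × C => 𝒞.P x.1 y.1) (𝓝 x) (𝓝 0) :=
    (P_tendsto 𝒞 x.1).comp (continuous_fst.tendsto x)
  have h2 : Tendsto (fun y : C × C => 𝒞.P x.2 y.2) (𝓝 x) (𝓝 0) :=
    (P_tendsto 𝒞 x.2).comp (continuous_snd.tendsto x)
  have h3 := h1.add h2
  rw [add_zero] at h3
  exact h3

theorem S_swap (x y : C × C) : S 𝒞 x.swap y.swap = S 𝒞 x y := by
  simp [S, add_comm]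

/-- the product chart -/
theorem map_kk (x : C × C) :
    Filter.map (fun y : C × C => ((𝒞.k x.1 y.1, 𝒞.k x.2 y.2) : ℂ × ℂ)) (𝓝 x) = 𝓝 0 := by
  have h := Filter.prod_map_map_eq (f₁ := 𝓝 x.1) (f₂ := 𝓝 x.2) (m₁ := 𝒞.k x.1) (m₂ := 𝒞.k x.2)
  rw [map_k, map_k, ← nhds_prod_eq, ← nhds_prod_eq] at h
  exact h.symm

/-- the sum map is open at points off `Γ` -/
theorem map_S (x : C × C) (hx : x ∉ 𝒞.Gam) : Filter.map (S 𝒞 x) (𝓝 x) = 𝓝 0 := by
  by_cases h : x.2 = x.1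
  · have hiv : 𝒞.iv x.1 ≠ x.1 := by
      intro h0
      apply hx
      rw [mem_Gam, h, h0]
    have h2 := (sumN2 (G_an0 𝒞 x.1) (𝒞.nd x.1 hiv)).1
    have e : S 𝒞 x = (fun p : ℂ × ℂ => 𝒞.G x.1 p.1 + 𝒞.G x.1 p.2) ∘
        (fun y : C × C => ((𝒞.k x.1 y.1, 𝒞.k x.2 y.2) : ℂ × ℂ)) := by
      funext y
      simp only [S, Cur.P, Function.comp_apply, h]
    rw [e, ← Filter.map_map, map_kk, h2, 𝒞.G_zero]
    simp
  · have h2 := (sumN1 (G_an0 𝒞 x.1) (G_an0 𝒞 x.2) (𝒞.nd2 x.1 x.2 h hx)).1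
    have e : S 𝒞 x = (fun p : ℂ × ℂ => 𝒞.G x.1 p.1 + 𝒞.G x.2 p.2) ∘
        (fun y : C × C => ((𝒞.k x.1 y.1, 𝒞.k x.2 y.2) : ℂ × ℂ)) := by
      funext y
      rfl
    rw [e, ← Filter.map_map, map_kk, h2, 𝒞.G_zero, 𝒞.G_zero]
    simp

/-- local injectivity modulo the swap, off `Γ` -/
theorem inj_S (x : C × C) (hx : x ∉ 𝒞.Gam) : ∃ O ∈ 𝓝 x, ∀ y ∈ O, ∀ y' ∈ O,
    S 𝒞 x y = S 𝒞 x y' → y' = y ∨ (y' = y.swap ∧ x.2 = x.1) := by
  have hs : (𝒞.k x.1).source ×ˢ (𝒞.k x.2).source ∈ 𝓝 x :=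
    prod_mem_nhds ((𝒞.k x.1).open_source.mem_nhds (𝒞.k_mem _))
      ((𝒞.k x.2).open_source.mem_nhds (𝒞.k_mem _))
  have ht : Tendsto (fun y : C × C => ((𝒞.k x.1 y.1, 𝒞.k x.2 y.2) : ℂ × ℂ)) (𝓝 x) (𝓝 0) :=
    (map_kk 𝒞 x).le
  by_cases h : x.2 = x.1
  · have hiv : 𝒞.iv x.1 ≠ x.1 := by
      intro h0
      apply hx
      rw [mem_Gam, h, h0]
    obtain ⟨O, hO, hinj⟩ := (sumN2 (G_an0 𝒞 x.1) (𝒞.nd x.1 hiv)).2
    refine ⟨_, inter_mem hs (ht hO), ?_⟩
    rintro y ⟨⟨hy1, hy2⟩, hy3⟩ y' ⟨⟨hy1', hy2'⟩, hy3'⟩ heq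
    have heq' : 𝒞.G x.1 (𝒞.k x.1 y.1) + 𝒞.G x.1 (𝒞.k x.2 y.2) =
        𝒞.G x.1 (𝒞.k x.1 y'.1) + 𝒞.G x.1 (𝒞.k x.2 y'.2) := by
      simpa only [S, Cur.P, h] using heq
    rcases hinj _ hy3 _ hy3' heq' with h1 | h1
    · left
      have e1 := congrArg Prod.fst h1
      have e2 := congrArg Prod.snd h1
      exact Prod.ext ((𝒞.k x.1).injOn hy1' hy1 e1) ((𝒞.k x.2).injOn hy2' hy2 e2)
    · right
      have e1 : 𝒞.k x.1 y'.1 = 𝒞.k x.2 y.2 := congrArg Prod.fst h1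
      have e2 : 𝒞.k x.2 y'.2 = 𝒞.k x.1 y.1 := congrArg Prod.snd h1
      rw [h] at e1 e2 hy2 hy2'
      exact ⟨Prod.ext ((𝒞.k x.1).injOn hy1' hy2 e1) ((𝒞.k x.1).injOn hy2' hy1 e2), h⟩
  · obtain ⟨O, hO, hinj⟩ := (sumN1 (G_an0 𝒞 x.1) (G_an0 𝒞 x.2) (𝒞.nd2 x.1 x.2 h hx)).2
    refine ⟨_, inter_mem hs (ht hO), ?_⟩
    rintro y ⟨⟨hy1, hy2⟩, hy3⟩ y' ⟨⟨hy1', hy2'⟩, hy3'⟩ heq
    left
    have h1 := hinj hy3 hy3' heq
    have e1 : 𝒞.k x.1 y.1 = 𝒞.k x.1 y'.1 := congrArg Prod.fst h1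
    have e2 : 𝒞.k x.2 y.2 = 𝒞.k x.2 y'.2 := congrArg Prod.snd h1
    exact Prod.ext ((𝒞.k x.1).injOn hy1' hy1 e1.symm) ((𝒞.k x.2).injOn hy2' hy2 e2.symm)


theorem LP.continuousAt {f : C × C → E2} {N : Set (C × C)} (hf : 𝒞.LP f N) {x : C × C}
    (hx : x ∈ N) : ContinuousAt f x := by
  have h1 := hf x hx
  have h2 : Tendsto (fun y => f x + S 𝒞 x y) (𝓝 x) (𝓝 (f x + 0)) :=
    tendsto_const_nhds.add (S_tendsto 𝒞 x)
  rw [add_zero] at h2
  exact h2.congr' (h1.mono fun y hy => hy.symm)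

theorem LP.map_nhds {f : C × C → E2} {N : Set (C × C)} (hf : 𝒞.LP f N) {x : C × C}
    (hx : x ∈ N) (hxG : x ∉ 𝒞.Gam) : Filter.map f (𝓝 x) = 𝓝 (f x) := by
  have h1 : Filter.map f (𝓝 x) = Filter.map ((fun v => f x + v) ∘ S 𝒞 x) (𝓝 x) :=
    Filter.map_congr (hf x hx)
  rw [h1, ← Filter.map_map, map_S 𝒞 x hxG]
  simp

end Basic

end Crest.Agent.R272.AJd_956
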