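import Crest.Agent.R272.EBase_641
import Crest.Agent.R272.Cls3_620

-- ▼ part R272/SympQ_833
section

set_option autoImplicit false

open scoped ComplexConjugate

namespace Crest.Agent.R272.SympQ_833

section General

variable {W : Type*} [AddCommGroup W] [Module ℝ W]

/-- the form is integral on `L` -/
def Integral (e : W →ₗ[ℝ] W →ₗ[ℝ] ℝ) (L : AddSubgroup W) : Prop :=
  ∀ x ∈ L, ∀ y ∈ L, ∃ k : ℤ, e x y = k

/-- a maximal integral subgroup is self-dual (alternating form) -/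
theorem exists_max (e : W →ₗ[ℝ] W →ₗ[ℝ] ℝ) (alt : ∀ x, e x x = 0)
    (L1 : AddSubgroup W) (h1 : Integral e L1) :
    ∃ L0 : AddSubgroup W, L1 ≤ L0 ∧ Integral e L0 ∧
      ∀ x, (∀ y ∈ L0, ∃ k : ℤ, e x y = k) → x ∈ L0 := by
  have skew : ∀ x y, e x y = - e y x := by
    intro x y
    have h := alt (x + y)
    simp only [map_add, LinearMap.add_apply, alt x, alt y] at h
    linarith
  obtain ⟨L0, hL0, hmax⟩ := zorn_le_nonempty₀ {L : AddSubgroup W | Integral e L} (by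
    intro c hc hchain y hy
    refine ⟨sSup c, ?_, fun z hz => le_sSup hz⟩
    have hne : c.Nonempty := ⟨y, hy⟩
    intro x hx z hz
    rw [AddSubgroup.mem_sSup_of_directedOn hne hchain.directedOn] at hx hz
    obtain ⟨a, ha, hxa⟩ := hx
    obtain ⟨b, hb, hzb⟩ := hz
    rcases hchain.total ha hb with hab | hab
    · exact hc hb x (hab hxa) z hzb
    · exact hc ha x hxa z (hab hzb)) L1 h1
  refine ⟨L0, hL0, hmax.prop, ?_⟩
  intro x hx
  have hint : Integral e (L0 ⊔ AddSubgroup.zmultiples x) := by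
    intro u hu v hv
    obtain ⟨u0, hu0, u1, hu1, rfl⟩ := AddSubgroup.mem_sup.1 hu
    obtain ⟨v0, hv0, v1, hv1, rfl⟩ := AddSubgroup.mem_sup.1 hv
    obtain ⟨a, rfl⟩ := AddSubgroup.mem_zmultiples_iff.1 hu1
    obtain ⟨b, rfl⟩ := AddSubgroup.mem_zmultiples_iff.1 hv1
    obtain ⟨k1, hk1⟩ := hmax.prop u0 hu0 v0 hv0
    obtain ⟨k2, hk2⟩ := hx v0 hv0
    obtain ⟨k3, hk3⟩ := hx u0 hu0
    refine ⟨k1 - b * k3 + a * k2, ?_⟩
    have e3 : e u0 x = -(k3 : ℝ) := by rw [skew, hk3]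
    simp only [map_add, LinearMap.add_apply, map_zsmul, LinearMap.smul_apply, alt, smul_zero,
      add_zero, zsmul_eq_mul, hk1, hk2, e3]
    push_cast
    ring
  have hle : L0 ⊔ AddSubgroup.zmultiples x ≤ L0 := hmax.le_of_ge hint le_sup_left
  exact hle (AddSubgroup.mem_sup_right (AddSubgroup.mem_zmultiples x))

/-- Cramer's rule over the integers -/
theorem cramer_int {ι : Type*} [Fintype ι] [DecidableEq ι] (G : Matrix ι ι ℤ) (x : ι → ℝ)
    (k : ι → ℤ) (h : Matrix.vecMul x (G.map (Int.cast : ℤ → ℝ)) = fun j => ((k j : ℤ) : ℝ)) (i : ι) :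
    (G.det : ℝ) * x i = ((Matrix.vecMul k G.adjugate i : ℤ) : ℝ) := by
  have h1 : Matrix.vecMul (Matrix.vecMul x (G.map (Int.cast : ℤ → ℝ)))
      (G.adjugate.map (Int.cast : ℤ → ℝ)) = (G.det : ℝ) • x := by
    rw [Matrix.vecMul_vecMul]
    have h2 : G.map (Int.cast : ℤ → ℝ) * G.adjugate.map (Int.cast : ℤ → ℝ) =
        (G.det : ℝ) • (1 : Matrix ι ι ℝ) := by
      have h3 := congrArg (fun M : Matrix ι ι ℤ => M.map (Int.castRingHom ℝ)) (Matrix.mul_adjugate G)
      simp only [Matrix.map_mul] at h3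
      have h4 : (G.det • (1 : Matrix ι ι ℤ)).map (Int.castRingHom ℝ) =
          (G.det : ℝ) • (1 : Matrix ι ι ℝ) := by
        ext i j
        simp only [Matrix.map_apply, Matrix.smul_apply, smul_eq_mul, Matrix.one_apply]
        split_ifs <;> simp
      rw [h4] at h3
      exact h3
    rw [h2, Matrix.vecMul_smul, Matrix.vecMul_one]
  have h5 := congrFun h1 i
  rw [h] at h5
  rw [Pi.smul_apply, smul_eq_mul] at h5
  rw [← h5]
  simp only [Matrix.vecMul, dotProduct, Matrix.map_apply]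
  push_cast
  rfl

/-- uniform denominators of the dual group -/
theorem exists_denom [FiniteDimensional ℝ W] (e : W →ₗ[ℝ] W →ₗ[ℝ] ℝ)
    (nd : ∀ x, (∀ y, e x y = 0) → x = 0)
    (L : AddSubgroup W) (span : Submodule.span ℝ (L : Set W) = ⊤)
    (c : ℕ) (hc : 0 < c) (hL : ∀ x ∈ L, ∀ y ∈ L, ∃ k : ℤ, (c : ℝ) * e x y = k) :
    ∃ n : ℕ, 0 < n ∧ ∀ x, (∀ y ∈ L, ∃ k : ℤ, (c : ℝ) * e x y = k) → n • x ∈ L := by
  classical
  let b := Module.Basis.ofSpan (K := ℝ) (s := (L : Set W)) (by rw [span])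
  have hb : ∀ i, b i ∈ L := fun i => Module.Basis.ofSpan_subset (by rw [span]) ⟨i, rfl⟩
  have : Finite _ := Module.Finite.finite_basis b
  have := Fintype.ofFinite ((linearIndepOn_empty ℝ (id : W → W)).extend
      (Set.empty_subset (L : Set W)))
  choose g hg using fun i j => hL (b i) (hb i) (b j) (hb j)
  let G : Matrix _ _ ℤ := Matrix.of g
  have hdet : G.det ≠ 0 := by
    intro h0
    have h0' : (G.map (Int.cast : ℤ → ℝ)).det = 0 := by
      have := Int.cast_det (R := ℝ) G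
      rw [← this, h0]; simp
    obtain ⟨v, hv, hv0⟩ := Matrix.exists_vecMul_eq_zero_iff.2 h0'
    apply hv
    have hx : (∑ i, v i • b i) = 0 := by
      apply nd
      intro y
      have hc' : (c : ℝ) ≠ 0 := by positivity
      have key : ∀ j, e (∑ i, v i • b i) (b j) = 0 := by
        intro j
        have h1 := congrFun hv0 j
        simp only [Matrix.vecMul, dotProduct, Matrix.map_apply, Pi.zero_apply] at h1
        have h2 : (c : ℝ) * e (∑ i, v i • b i) (b j) = ∑ i, v i * (G i j : ℝ) := by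
          rw [map_sum, LinearMap.sum_apply, Finset.mul_sum]
          refine Finset.sum_congr rfl fun i _ => ?_
          rw [map_smul, LinearMap.smul_apply, smul_eq_mul]
          have := hg i j
          show _ = v i * ((g i j : ℤ) : ℝ)
          rw [← this]; ring
        rw [h1] at h2
        exact (mul_eq_zero.1 h2).resolve_left hc'
      rw [← b.sum_repr y, map_sum]
      refine Finset.sum_eq_zero fun j _ => ?_
      rw [map_smul, key j, smul_zero]
    funext i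
    have := Fintype.linearIndependent_iff.1 b.linearIndependent v hx i
    simpa using this
  refine ⟨G.det.natAbs, Int.natAbs_pos.2 hdet, ?_⟩
  intro x hx
  choose k hk using fun j => hx (b j) (hb j)
  -- coordinates
  have hcoord : ∀ j, (∑ i, b.repr x i * (G i j : ℝ)) = k j := by
    intro j
    rw [← hk j]
    conv_rhs => rw [← b.sum_repr x]
    rw [map_sum, LinearMap.sum_apply, Finset.mul_sum]
    refine Finset.sum_congr rfl fun i _ => ?_
    rw [map_smul, LinearMap.smul_apply, smul_eq_mul]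
    have := hg i j
    show _ * ((g i j : ℤ) : ℝ) = _
    rw [← this]; ring
  have hvec : Matrix.vecMul (fun i => b.repr x i) (G.map (Int.cast : ℤ → ℝ)) =
      fun j => ((k j : ℤ) : ℝ) := by
    funext j
    simp only [Matrix.vecMul, dotProduct, Matrix.map_apply]
    exact hcoord j
  have hadj : ∀ i, (G.det : ℝ) * b.repr x i = ((Matrix.vecMul k G.adjugate i : ℤ) : ℝ) :=
    fun i => cramer_int G (fun i => b.repr x i) k hvec i
  -- conclusion
  have hmem : G.det • x ∈ L := by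
    have h6 : G.det • x = ∑ i, (Matrix.vecMul k G.adjugate i) • b i := by
      conv_lhs => rw [← b.sum_repr x]
      rw [Finset.smul_sum]
      refine Finset.sum_congr rfl fun i _ => ?_
      rw [← Int.cast_smul_eq_zsmul ℝ, ← Int.cast_smul_eq_zsmul ℝ, smul_smul, hadj i]
    rw [h6]
    exact AddSubgroup.sum_mem _ fun i _ => AddSubgroup.zsmul_mem _ (hb i) _
  rcases Int.natAbs_eq G.det with h | h
  · rw [← natCast_zsmul, ← h]; exact hmem
  · have : ((G.det.natAbs : ℤ)) • x = -(G.det • x) := by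
      conv_rhs => rw [h]
      simp
    rw [← natCast_zsmul, this]
    exact AddSubgroup.neg_mem _ hmem

end General

section Normed

variable {W : Type*} [NormedAddCommGroup W] [NormedSpace ℝ W] [FiniteDimensional ℝ W]

/-- MAIN THEOREM: self-dual lattice commensurable with a rational one, with an explicit index `n`
and the stability of `L0` under all maps congruent to 1 modulo `n^2`. -/
theorem exists_selfdual (e : W →ₗ[ℝ] W →ₗ[ℝ] ℝ) (alt : ∀ x, e x x = 0)
    (nd : ∀ x, (∀ y, e x y = 0) → x = 0)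
    (L : AddSubgroup W) (disc : ∀ r : ℝ, {v : W | v ∈ L ∧ ‖v‖ ≤ r}.Finite)
    (span : Submodule.span ℝ (L : Set W) = ⊤)
    (c : ℕ) (hc : 0 < c) (hL : ∀ x ∈ L, ∀ y ∈ L, ∃ k : ℤ, (c : ℝ) * e x y = k) :
    ∃ (L0 : AddSubgroup W) (n : ℕ), 0 < n ∧ (∀ x ∈ L, n • x ∈ L0) ∧ (∀ x ∈ L0, n • x ∈ L) ∧
      (∀ r : ℝ, {v : W | v ∈ L0 ∧ ‖v‖ ≤ r}.Finite) ∧
      Submodule.span ℝ (L0 : Set W) = ⊤ ∧
      (∀ v ∈ L0, ∀ w ∈ L0, ∃ k : ℤ, e v w = k) ∧
      (∀ v, (∀ w ∈ L0, ∃ k : ℤ, e v w = k) → v ∈ L0) ∧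
      (∀ g : W →+ W, (∀ x ∈ L, ∃ y ∈ L, g x = x + (n ^ 2) • y) → ∀ x ∈ L0, g x ∈ L0) := by
  classical
  -- the integral sublattice c L
  let L1 : AddSubgroup W := L.map (nsmulAddMonoidHom c)
  have hL1 : ∀ x ∈ L, c • x ∈ L1 := fun x hx => AddSubgroup.mem_map.2 ⟨x, hx, rfl⟩
  have hint1 : Integral e L1 := by
    intro x hx y hy
    obtain ⟨x', hx', rfl⟩ := AddSubgroup.mem_map.1 hx
    obtain ⟨y', hy', rfl⟩ := AddSubgroup.mem_map.1 hy
    obtain ⟨k, hk⟩ := hL x' hx' y' hy'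
    refine ⟨c * k, ?_⟩
    simp only [nsmulAddMonoidHom_apply]
    rw [← Nat.cast_smul_eq_nsmul ℝ, ← Nat.cast_smul_eq_nsmul ℝ, map_smul, map_smul,
      LinearMap.smul_apply, smul_eq_mul, smul_eq_mul, Int.cast_mul, ← hk]
    push_cast
    ring
  obtain ⟨L0, hle, hint, hdual⟩ := exists_max e alt L1 hint1
  obtain ⟨d, hd, hden⟩ := exists_denom e nd L span c hc hL
  have hdL : ∀ x ∈ L0, d • x ∈ L := by
    intro x hx
    apply hden
    intro y hy
    obtain ⟨k, hk⟩ := hint x hx (c • y) (hle (hL1 y hy))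
    refine ⟨k, ?_⟩
    rw [← hk, ← Nat.cast_smul_eq_nsmul ℝ, map_smul, smul_eq_mul]
  have hn : 0 < c * d := Nat.mul_pos hc hd
  have hA : ∀ x ∈ L, (c * d) • x ∈ L0 := by
    intro x hx
    rw [mul_comm, mul_smul]
    exact AddSubgroup.nsmul_mem _ (hle (hL1 x hx)) _
  have hB : ∀ x ∈ L0, (c * d) • x ∈ L := by
    intro x hx
    rw [mul_smul]
    exact AddSubgroup.nsmul_mem _ (hdL x hx) _
  have hinj : ∀ {n : ℕ}, 0 < n → Function.Injective (fun x : W => n • x) := by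
    intro n hn x y hxy
    have hxy' : n • x = n • y := hxy
    rw [← Nat.cast_smul_eq_nsmul ℝ, ← Nat.cast_smul_eq_nsmul ℝ] at hxy'
    exact smul_right_injective W (by positivity : (n : ℝ) ≠ 0) hxy'
  refine ⟨L0, c * d, hn, hA, hB, ?_, ?_, hint, hdual, ?_⟩
  · intro r
    refine Set.Finite.of_finite_image (f := fun x : W => (c * d) • x)
      ((disc ((c * d : ℕ) * r)).subset ?_) ((hinj hn).injOn)
    rintro _ ⟨x, ⟨hx, hxr⟩, rfl⟩
    refine ⟨hB x hx, ?_⟩
    show ‖(c * d) • x‖ ≤ _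
    rw [← Nat.cast_smul_eq_nsmul ℝ, norm_smul]
    have : ‖((c * d : ℕ) : ℝ)‖ = ((c * d : ℕ) : ℝ) := by
      rw [Real.norm_of_nonneg (by positivity)]
    rw [this]
    gcongr
  · rw [eq_top_iff, ← span, Submodule.span_le]
    intro x hx
    have h1 : ((c * d : ℕ) : ℝ) • x ∈ Submodule.span ℝ (L0 : Set W) := by
      rw [Nat.cast_smul_eq_nsmul ℝ]
      exact Submodule.subset_span (hA x hx)
    have h2 := Submodule.smul_mem _ (((c * d : ℕ) : ℝ)⁻¹) h1
    rwa [smul_smul, inv_mul_cancel₀ (by positivity), one_smul] at h2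
  · intro g hg x hx
    obtain ⟨y, hy, hgy⟩ := hg _ (hB x hx)
    have h1 : g x = x + (c * d) • y := by
      apply hinj hn
      show (c * d) • g x = (c * d) • (x + (c * d) • y)
      rw [← map_nsmul, hgy, smul_add, smul_smul, sq]
    rw [h1]
    exact AddSubgroup.add_mem _ hx (hA y hy)

end Normed

/-! ### The form `ee` of `EBase_641` -/

section Ee

open Crest.Agent.R272.EBase_641

variable {n m : ℕ}

theorem ee_add_left (u v w : V1 n × W m) : ee (u + v) w = ee u w + ee v w := by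
  simp only [ee, Prod.fst_add, Prod.snd_add, hh_add_left, inner_add_right, Complex.add_im]
  ring

theorem ee_add_right (u v w : V1 n × W m) : ee u (v + w) = ee u v + ee u w := by
  simp only [ee, Prod.fst_add, Prod.snd_add, hh_add_right, inner_add_left, Complex.add_im]
  ring

theorem ee_smul_left (c : ℝ) (v w : V1 n × W m) : ee (c • v) w = c * ee v w := by
  simp only [ee, Prod.smul_fst, Prod.smul_snd]
  rw [← Complex.coe_smul c v.1, ← Complex.coe_smul c v.2, hh_smul_left, inner_smul_right,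
    Complex.im_ofReal_mul, Complex.im_ofReal_mul]
  ring

theorem ee_smul_right (c : ℝ) (v w : V1 n × W m) : ee v (c • w) = c * ee v w := by
  simp only [ee, Prod.smul_fst, Prod.smul_snd]
  rw [← Complex.coe_smul c w.1, ← Complex.coe_smul c w.2, hh_smul_right, inner_smul_left,
    Complex.conj_ofReal, Complex.im_ofReal_mul, Complex.im_ofReal_mul]
  ring

/-- `ee` as a real bilinear map -/
noncomputable def eeL (n m : ℕ) : (V1 n × W m) →ₗ[ℝ] (V1 n × W m) →ₗ[ℝ] ℝ :=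
  LinearMap.mk₂ ℝ ee ee_add_left (fun c v w => by rw [ee_smul_left, smul_eq_mul])
    ee_add_right (fun c v w => by rw [ee_smul_right, smul_eq_mul])

@[simp] theorem eeL_apply (v w : V1 n × W m) : eeL n m v w = ee v w := rfl

theorem ee_self (v : V1 n × W m) : ee v v = 0 := by
  simp only [ee]
  rw [hh_self, Complex.ofReal_im, zero_add]
  exact inner_self_im (𝕜 := ℂ) v.2

/-- the dual vector for nondegeneracy -/
noncomputable def star (v : V1 n × W m) : V1 n × W m :=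
  ((Complex.I • v.1.1, -(Complex.I * v.1.2)), Complex.I • v.2)

theorem ee_star (v : V1 n × W m) :
    ee v (star v) = -(‖v.1.1‖ ^ 2 + ‖v.1.2‖ ^ 2 + ‖v.2‖ ^ 2) := by
  have h1 : (inner ℂ (Complex.I • v.1.1) v.1.1 : ℂ) = -Complex.I * ((‖v.1.1‖ ^ 2 : ℝ) : ℂ) := by
    rw [inner_smul_left, Complex.conj_I, inner_self_eq_norm_sq_to_K]
    push_cast
    simp
  have h2 : (inner ℂ (Complex.I • v.2) v.2 : ℂ) = -Complex.I * ((‖v.2‖ ^ 2 : ℝ) : ℂ) := by
    rw [inner_smul_left, Complex.conj_I, inner_self_eq_norm_sq_to_K]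
    push_cast
    simp
  have h3 : v.1.2 * conj (-(Complex.I * v.1.2)) = Complex.I * ((‖v.1.2‖ ^ 2 : ℝ) : ℂ) := by
    rw [map_neg, map_mul, Complex.conj_I]
    have : v.1.2 * conj v.1.2 = ((‖v.1.2‖ ^ 2 : ℝ) : ℂ) := by
      rw [Complex.mul_conj, Complex.normSq_eq_norm_sq]
    calc v.1.2 * -(-Complex.I * conj v.1.2) = Complex.I * (v.1.2 * conj v.1.2) := by ring
      _ = _ := by rw [this]
  simp only [ee, star, hh]
  rw [h1, h2, h3]
  simp only [Complex.sub_im, Complex.mul_im, Complex.neg_im, Complex.neg_re, Complex.I_im,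
    Complex.I_re, Complex.ofReal_re, Complex.ofReal_im]
  ring

theorem ee_nondeg (v : V1 n × W m) (h : ∀ w, ee v w = 0) : v = 0 := by
  have h1 := h (star v)
  rw [ee_star] at h1
  have a1 : 0 ≤ ‖v.1.1‖ ^ 2 := by positivity
  have a2 : 0 ≤ ‖v.1.2‖ ^ 2 := by positivity
  have a3 : 0 ≤ ‖v.2‖ ^ 2 := by positivity
  have b1 : ‖v.1.1‖ ^ 2 = 0 := by linarith
  have b2 : ‖v.1.2‖ ^ 2 = 0 := by linarith
  have b3 : ‖v.2‖ ^ 2 = 0 := by linarith
  have c1 : v.1.1 = 0 := by simpa using b1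
  have c2 : v.1.2 = 0 := by simpa using b2
  have c3 : v.2 = 0 := by simpa using b3
  exact Prod.ext (Prod.ext c1 c2) c3



/-- Literal form for `EDat`: a lattice of `V1 n × W m` on which `c • ee` is integral is
commensurable with a self-dual lattice `L0`, stable under every pair `(g, s)` congruent to `1`
modulo `N^2`. -/
theorem exists_selfdual_ee (L : AddSubgroup (V1 n × W m))
    (disc : ∀ r : ℝ, {v : V1 n × W m | v ∈ L ∧ ‖v‖ ≤ r}.Finite)
    (span : Submodule.span ℝ (L : Set (V1 n × W m)) = ⊤)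
    (c : ℕ) (hc : 0 < c) (hL : ∀ x ∈ L, ∀ y ∈ L, ∃ k : ℤ, (c : ℝ) * ee x y = k) :
    ∃ (L0 : AddSubgroup (V1 n × W m)) (N : ℕ), 0 < N ∧ (∀ x ∈ L, N • x ∈ L0) ∧
      (∀ x ∈ L0, N • x ∈ L) ∧
      (∀ r : ℝ, {v : V1 n × W m | v ∈ L0 ∧ ‖v‖ ≤ r}.Finite) ∧
      Submodule.span ℝ (L0 : Set (V1 n × W m)) = ⊤ ∧
      (∀ v ∈ L0, ∀ w ∈ L0, ∃ k : ℤ, ee v w = k) ∧
      (∀ v, (∀ w ∈ L0, ∃ k : ℤ, ee v w = k) → v ∈ L0) ∧
      (∀ (g : V1 n ≃ₗ[ℂ] V1 n) (s : W m ≃ₗᵢ[ℂ] W m),
        (∀ x ∈ L, ∃ y ∈ L, ((g x.1, s x.2) : V1 n × W m) = x + (N ^ 2) • y) →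
        ∀ x ∈ L0, ((g x.1, s x.2) : V1 n × W m) ∈ L0) := by
  obtain ⟨L0, N, hN, h1, h2, h3, h4, h5, h6, h7⟩ :=
    exists_selfdual (eeL n m) ee_self ee_nondeg L disc span c hc hL
  refine ⟨L0, N, hN, h1, h2, h3, h4, h5, h6, ?_⟩
  intro g s hg x hx
  exact h7 (AddMonoidHom.mk' (fun x : V1 n × W m => ((g x.1, s x.2) : V1 n × W m)) (by
    intro a b
    simp)) hg x hx

end Ee

end Crest.Agent.R272.SympQ_833
end

-- ▼ part R272/In1_68

/-!
Row 272, division E, arithmetic instance (I1) (helper68), part 1: the ring `ℤ[ζ₅]` in its two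
places, the embedding `io : O^4 → V1 3 × W 4`, the form `ee`.
-/

set_option autoImplicit false
set_option linter.unusedSectionVars false

open scoped ComplexConjugate

namespace Crest.Agent.R272.In_68

open Crest.Agent.R272.EBase_641

noncomputable section

/-- `ℤ[ζ₅]` in its two complex places, with an integral basis. -/
structure Z5r (O : Subring (Fin 2 → ℂ)) (z : Fin 2 → ℂ) : Prop extends Cls_620.Z5 O z where
  rep : ∀ x ∈ O, ∃ a b c d : ℤ, x = (a : Fin 2 → ℂ) + b * z + c * z ^ 2 + d * z ^ 3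
  im0 : 0 < (z 0).im
  im1 : 0 < (z 1).im

variable {O : Subring (Fin 2 → ℂ)} {z : Fin 2 → ℂ}

section ring

variable (h : Z5r O z)
include h

lemma conj_z (t : Fin 2) : conj (z t) = z t ^ 4 := by
  have := congrFun h.sz t
  simpa using this

lemma z5t (t : Fin 2) : z t ^ 5 = 1 := by
  have := congrFun h.toZ5.z5 t
  simpa using this

lemma im_pos (t : Fin 2) : 0 < (z t).im := by
  fin_cases t
  · exact h.im0
  · exact h.im1

/-- `z + z⁴` at the two places -/
lemma sum_ne : z 0 + z 0 ^ 4 ≠ z 1 + z 1 ^ 4 := by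
  rw [h.at0, h.at1]
  intro he
  have := Complex.ofReal_injective he
  have h5 := Cls_620.sqrt5_bd
  linarith

lemma sum2_ne : z 0 ^ 2 + z 0 ^ 3 ≠ z 1 ^ 2 + z 1 ^ 3 := by
  rw [h.toZ5.at0', h.toZ5.at1']
  intro he
  have := Complex.ofReal_injective he
  have h5 := Cls_620.sqrt5_bd
  linarith

end ring

variable (z) in
/-- `a ↦ a₀ + a₁ z + a₂ z² + a₃ z³` -/
def lam : (Fin 4 → ℝ) →ₗ[ℝ] (Fin 2 → ℂ) where
  toFun a := fun t => (a 0 : ℂ) + (a 1 : ℂ) * z t + (a 2 : ℂ) * z t ^ 2 + (a 3 : ℂ) * z t ^ 3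
  map_add' a b := by
    funext t
    simp only [Pi.add_apply, Complex.ofReal_add]
    ring
  map_smul' c a := by
    funext t
    simp only [Pi.smul_apply, smul_eq_mul, Complex.ofReal_mul, RingHom.id_apply,
      Complex.real_smul]
    ring

lemma lam_apply (a : Fin 4 → ℝ) (t : Fin 2) :
    lam z a t = (a 0 : ℂ) + (a 1 : ℂ) * z t + (a 2 : ℂ) * z t ^ 2 + (a 3 : ℂ) * z t ^ 3 := rfl

lemma lam_inj (h : Z5r O z) : Function.Injective (lam z) := by
  rw [injective_iff_map_eq_zero]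
  intro a ha
  have e : ∀ t, (a 0 : ℂ) + (a 1 : ℂ) * z t + (a 2 : ℂ) * z t ^ 2 + (a 3 : ℂ) * z t ^ 3 = 0 :=
    fun t => congrFun ha t
  have e' : ∀ t, (a 0 : ℂ) + (a 1 : ℂ) * z t ^ 4 + (a 2 : ℂ) * z t ^ 3 + (a 3 : ℂ) * z t ^ 2 = 0 := by
    intro t
    have h1 := congrArg conj (e t)
    simp only [map_add, map_mul, map_pow, Complex.conj_ofReal, map_zero, conj_z h] at h1
    have h5 := z5t h t
    have h8 : (z t ^ 4) ^ 2 = z t ^ 3 := by
      linear_combination z t ^ 3 * h5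
    have h12 : (z t ^ 4) ^ 3 = z t ^ 2 := by
      linear_combination (z t ^ 7 + z t ^ 2) * h5
    rw [h8, h12] at h1
    exact h1
  have k : ∀ t, (a 1 : ℂ) + ((a 2 : ℂ) - a 3) * (z t + z t ^ 4) = 0 := by
    intro t
    have hne : z t - z t ^ 4 ≠ 0 := by
      rw [← conj_z h t]
      intro h0
      have h1 : z t = conj (z t) := sub_eq_zero.1 h0
      have := Complex.conj_eq_iff_im.1 h1.symm
      exact (im_pos h t).ne' this
    have h5 := z5t h t
    have h6 : (z t - z t ^ 4) * ((a 1 : ℂ) + ((a 2 : ℂ) - a 3) * (z t + z t ^ 4)) = 0 := by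
      linear_combination e t - e' t - ((a 2 : ℂ) - a 3) * z t ^ 3 * h5
    exact (mul_eq_zero.1 h6).resolve_left hne
  have h23 : (a 2 : ℂ) - a 3 = 0 := by
    have h1 : ((a 2 : ℂ) - a 3) * ((z 0 + z 0 ^ 4) - (z 1 + z 1 ^ 4)) = 0 := by
      linear_combination k 0 - k 1
    exact (mul_eq_zero.1 h1).resolve_right (sub_ne_zero.2 (sum_ne h))
  have h1 : (a 1 : ℂ) = 0 := by
    have := k 0
    rw [h23, zero_mul, add_zero] at this
    exact this
  have h2 : (a 2 : ℂ) * ((z 0 ^ 2 + z 0 ^ 3) - (z 1 ^ 2 + z 1 ^ 3)) = 0 := by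
    linear_combination e 0 - e 1 - (z 0 - z 1) * h1 + (z 0 ^ 3 - z 1 ^ 3) * h23
  have h2' : (a 2 : ℂ) = 0 := (mul_eq_zero.1 h2).resolve_right (sub_ne_zero.2 (sum2_ne h))
  have h3 : (a 3 : ℂ) = 0 := by rw [h2', zero_sub, neg_eq_zero] at h23; exact h23
  have h0 : (a 0 : ℂ) = 0 := by
    have := e 0
    rw [h1, h2', h3] at this
    simpa using this
  funext i
  fin_cases i
  · exact_mod_cast h0
  · exact_mod_cast h1
  · exact_mod_cast h2'
  · exact_mod_cast h3

lemma finrank_A : Module.finrank ℝ (Fin 2 → ℂ) = 4 := by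
  rw [Module.finrank_pi_fintype]
  simp [Complex.finrank_real_complex]

/-- the real basis `1, z, z², z³` -/
def lamE (h : Z5r O z) : (Fin 4 → ℝ) ≃ₗ[ℝ] (Fin 2 → ℂ) :=
  LinearMap.linearEquivOfInjective (lam z) (lam_inj h) (by rw [finrank_A]; simp)

lemma lamE_apply (h : Z5r O z) (a : Fin 4 → ℝ) : lamE h a = lam z a := rfl

/-- integral coordinates -/
lemma mem_lam (h : Z5r O z) {x : Fin 2 → ℂ} (hx : x ∈ O) :
    ∃ a : Fin 4 → ℤ, x = lam z (fun i => (a i : ℝ)) := by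
  obtain ⟨a, b, c, d, e⟩ := h.rep x hx
  refine ⟨![a, b, c, d], ?_⟩
  rw [e]
  funext t
  rw [lam_apply]
  simp

/-- powers of `z` are integral -/
lemma pow_mem (h : Z5r O z) (k : ℕ) : z ^ k ∈ O := O.pow_mem h.zmem k

/-- bounded integral elements are finite in number -/
lemma finite_O (h : Z5r O z) (R : ℝ) : {x : Fin 2 → ℂ | x ∈ O ∧ ∀ t, ‖x t‖ ≤ R}.Finite := by
  let L := (lamE h).symm.toLinearMap.toContinuousLinearMap
  let K : ℤ := ⌈‖L‖ * |R|⌉
  have hfin : ((fun a : Fin 4 → ℤ => lam z (fun i => (a i : ℝ))) ''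
      (Set.Icc (fun _ => -K) (fun _ => K))).Finite := (Set.finite_Icc _ _).image _
  refine hfin.subset ?_
  rintro x ⟨hx, hR⟩
  obtain ⟨a, ha⟩ := mem_lam h hx
  refine ⟨a, ?_, ha.symm⟩
  have h1 : L x = fun i => (a i : ℝ) := by
    show (lamE h).symm x = _
    rw [ha, ← lamE_apply h, LinearEquiv.symm_apply_apply]
  have h2 : ‖x‖ ≤ |R| := by
    refine (pi_norm_le_iff_of_nonneg (abs_nonneg R)).2 fun t => (hR t).trans (le_abs_self _)
  have h3 : ‖L x‖ ≤ ‖L‖ * |R| := (L.le_opNorm x).trans (mul_le_mul_of_nonneg_left h2 (norm_nonneg _))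
  have h4 : ∀ i, |(a i : ℝ)| ≤ K := by
    intro i
    have h5 := norm_le_pi_norm (L x) i
    rw [h1] at h5 h3
    have : |(a i : ℝ)| ≤ ‖L‖ * |R| := h5.trans h3
    exact this.trans (Int.le_ceil _)
  constructor
  · intro i
    have := (abs_le.1 (h4 i)).1
    exact_mod_cast this
  · intro i
    have := (abs_le.1 (h4 i)).2
    exact_mod_cast this

/-- the trace is integral -/
lemma trace_int (h : Z5r O z) {x : Fin 2 → ℂ} (hx : x ∈ O) :
    ∃ k : ℤ, 2 * (x 0).re + 2 * (x 1).re = k := by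
  obtain ⟨a, b, c, d, e⟩ := h.rep x hx
  refine ⟨4 * a - b - c - d, ?_⟩
  have h5 : ∀ t, x t + conj (x t) = 2 * a + b * (z t + z t ^ 4) + (c + d) * (z t ^ 2 + z t ^ 3) := by
    intro t
    have e1 : x t = (a : ℂ) + b * z t + c * z t ^ 2 + d * z t ^ 3 := by rw [e]; simp
    have z5 := z5t h t
    rw [e1]
    simp only [map_add, map_mul, map_pow, map_intCast, conj_z h]
    linear_combination (c * z t ^ 3 + d * (z t ^ 7 + z t ^ 2)) * z5
  have h0 := h5 0
  have h1 := h5 1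
  rw [Complex.add_conj, h.at0, h.toZ5.at0'] at h0
  rw [Complex.add_conj, h.at1, h.toZ5.at1'] at h1
  have h2 : ((2 * (x 0).re + 2 * (x 1).re : ℝ) : ℂ) = ((4 * a - b - c - d : ℤ) : ℂ) := by
    push_cast at h0 h1 ⊢
    linear_combination h0 + h1
  have h3 : ((2 * (x 0).re + 2 * (x 1).re : ℝ) : ℂ) = (((4 * a - b - c - d : ℤ) : ℝ) : ℂ) := by
    rw [h2]; push_cast; ring
  exact Complex.ofReal_injective h3

/-! ### weights -/

variable (z) in
/-- `d_t = 2 Im z_t` -/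
def dd (t : Fin 2) : ℝ := 2 * (z t).im

lemma dd_pos (h : Z5r O z) (t : Fin 2) : 0 < dd z t := by
  have := im_pos h t
  unfold dd; linarith

variable (z) in
/-- the real form at the places -/
def rr (i : Fin 4) (t : Fin 2) : ℝ := (Cls_620.HH z i t).re

lemma HH_eq (h : Z5r O z) (i : Fin 4) (t : Fin 2) : Cls_620.HH z i t = (rr z i t : ℂ) := by
  have h1 := congrFun (h.toZ5.frm.real i) t
  simp only [Pi.star_apply] at h1
  exact (Complex.conj_eq_iff_re.mp h1).symm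

variable (z) in
/-- the scaling factors -/
def ww (i : Fin 4) (t : Fin 2) : ℝ := Real.sqrt (dd z t * |rr z i t|)

lemma rr1_pos (h : Z5r O z) (i : Fin 4) : 0 < rr z i 1 := h.toZ5.frm.pos i 1 (by decide)

lemma rr0_pos (h : Z5r O z) (i : Fin 4) (hi : i ≠ 3) : 0 < rr z i 0 := h.toZ5.sgn.pos i hi

lemma rr0_neg (h : Z5r O z) : rr z 3 0 < 0 := h.toZ5.sgn.neg

lemma rr_ne (h : Z5r O z) (i : Fin 4) (t : Fin 2) : rr z i t ≠ 0 := by
  fin_cases t
  · by_cases hi : i = 3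
    · subst hi; exact (rr0_neg h).ne
    · exact (rr0_pos h i hi).ne'
  · exact (rr1_pos h i).ne'

lemma ww_pos (h : Z5r O z) (i : Fin 4) (t : Fin 2) : 0 < ww z i t :=
  Real.sqrt_pos.2 (mul_pos (dd_pos h t) (abs_pos.2 (rr_ne h i t)))

lemma ww_sq (h : Z5r O z) (i : Fin 4) (t : Fin 2) : ww z i t ^ 2 = dd z t * |rr z i t| :=
  Real.sq_sqrt (mul_nonneg (dd_pos h t).le (abs_nonneg _))

/-! ### the place maps -/

/-- the definite place -/
def P1 (h : Z5r O z) : (Fin 4 → ℂ) ≃ₗ[ℂ] W 4 where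
  toFun x := WithLp.toLp 2 fun i => (ww z i 1 : ℂ) * x i
  invFun v := fun i => (ww z i 1 : ℂ)⁻¹ * v i
  left_inv x := by
    funext i
    have : (ww z i 1 : ℂ) ≠ 0 := by exact_mod_cast (ww_pos h i 1).ne'
    simp only
    rw [inv_mul_cancel_left₀ this]
  right_inv v := by
    ext i
    have : (ww z i 1 : ℂ) ≠ 0 := by exact_mod_cast (ww_pos h i 1).ne'
    simp only
    rw [mul_inv_cancel_left₀ this]
  map_add' x y := by
    ext i
    simp only [Pi.add_apply, PiLp.add_apply]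
    ring
  map_smul' c x := by
    ext i
    simp only [Pi.smul_apply, PiLp.smul_apply, smul_eq_mul, RingHom.id_apply]
    ring

lemma P1_apply (h : Z5r O z) (x : Fin 4 → ℂ) (i : Fin 4) : P1 h x i = (ww z i 1 : ℂ) * x i := rfl

/-- the ball place -/
def P0 (h : Z5r O z) : (Fin 4 → ℂ) ≃ₗ[ℂ] V1 3 where
  toFun x := (WithLp.toLp 2 fun i : Fin 3 => (ww z i.castSucc 0 : ℂ) * x i.castSucc,
    (ww z 3 0 : ℂ) * x 3)
  invFun v := Fin.snoc (α := fun _ => ℂ) (fun i : Fin 3 => (ww z i.castSucc 0 : ℂ)⁻¹ * v.1 i)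
    ((ww z 3 0 : ℂ)⁻¹ * v.2)
  left_inv x := by
    funext i
    refine Fin.lastCases ?_ (fun j => ?_) i
    · have : (ww z 3 0 : ℂ) ≠ 0 := by exact_mod_cast (ww_pos h 3 0).ne'
      simp only [Fin.snoc_last]
      show (ww z 3 0 : ℂ)⁻¹ * ((ww z 3 0 : ℂ) * x 3) = x 3
      rw [inv_mul_cancel_left₀ this]
    · have : (ww z j.castSucc 0 : ℂ) ≠ 0 := by exact_mod_cast (ww_pos h j.castSucc 0).ne'
      simp only [Fin.snoc_castSucc]
      rw [inv_mul_cancel_left₀ this]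
  right_inv v := by
    refine Prod.ext ?_ ?_
    · ext j
      have : (ww z j.castSucc 0 : ℂ) ≠ 0 := by exact_mod_cast (ww_pos h j.castSucc 0).ne'
      simp only [Fin.snoc_castSucc]
      rw [mul_inv_cancel_left₀ this]
    · have : (ww z 3 0 : ℂ) ≠ 0 := by exact_mod_cast (ww_pos h 3 0).ne'
      have h3 : (3 : Fin 4) = Fin.last 3 := rfl
      simp only
      rw [h3, Fin.snoc_last, ← h3]
      rw [mul_inv_cancel_left₀ this]
  map_add' x y := by
    refine Prod.ext ?_ ?_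
    · ext j
      simp only [Pi.add_apply, Prod.fst_add, PiLp.add_apply]
      ring
    · simp only [Pi.add_apply, Prod.snd_add]
      ring
  map_smul' c x := by
    refine Prod.ext ?_ ?_
    · ext j
      simp only [Pi.smul_apply, Prod.smul_fst, PiLp.smul_apply, smul_eq_mul, RingHom.id_apply]
      ring
    · simp only [Pi.smul_apply, Prod.smul_snd, smul_eq_mul, RingHom.id_apply]
      ring

lemma P0_fst (h : Z5r O z) (x : Fin 4 → ℂ) (i : Fin 3) :
    (P0 h x).1 i = (ww z i.castSucc 0 : ℂ) * x i.castSucc := rfl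

lemma P0_snd (h : Z5r O z) (x : Fin 4 → ℂ) : (P0 h x).2 = (ww z 3 0 : ℂ) * x 3 := rfl

/-- the form at a place -/
def ht (z : Fin 2 → ℂ) (t : Fin 2) (x y : Fin 4 → ℂ) : ℂ :=
  ∑ i, (rr z i t : ℂ) * x i * conj (y i)

lemma inner_P1 (h : Z5r O z) (x y : Fin 4 → ℂ) :
    inner ℂ (P1 h y) (P1 h x) = (dd z 1 : ℂ) * ht z 1 x y := by
  rw [PiLp.inner_apply, ht, Finset.mul_sum]
  refine Finset.sum_congr rfl fun i _ => ?_
  rw [P1_apply, P1_apply]
  have h1 : ((ww z i 1 : ℝ) : ℂ) ^ 2 = (dd z 1 : ℂ) * (rr z i 1 : ℂ) := by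
    rw [← Complex.ofReal_pow, ww_sq h, abs_of_pos (rr1_pos h i), Complex.ofReal_mul]
  simp only [RCLike.inner_apply, map_mul, Complex.conj_ofReal]
  linear_combination x i * conj (y i) * h1

lemma hh_P0 (h : Z5r O z) (x y : Fin 4 → ℂ) :
    hh (P0 h x) (P0 h y) = (dd z 0 : ℂ) * ht z 0 x y := by
  rw [hh, PiLp.inner_apply, ht, Fin.sum_univ_castSucc (n := 3), mul_add, Finset.mul_sum,
    sub_eq_add_neg]
  refine congrArg₂ (· + ·) (Finset.sum_congr rfl fun i _ => ?_) ?_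
  · rw [P0_fst, P0_fst]
    have hi : i.castSucc ≠ (3 : Fin 4) := by
      have : (3 : Fin 4) = Fin.last 3 := rfl
      rw [this]
      exact (Fin.castSucc_lt_last i).ne
    have h1 : ((ww z i.castSucc 0 : ℝ) : ℂ) ^ 2 = (dd z 0 : ℂ) * (rr z i.castSucc 0 : ℂ) := by
      rw [← Complex.ofReal_pow, ww_sq h, abs_of_pos (rr0_pos h _ hi), Complex.ofReal_mul]
    simp only [RCLike.inner_apply, map_mul, Complex.conj_ofReal]
    linear_combination x i.castSucc * conj (y i.castSucc) * h1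
  · rw [P0_snd, P0_snd]
    have h1 : ((ww z 3 0 : ℝ) : ℂ) ^ 2 = -((dd z 0 : ℂ) * (rr z 3 0 : ℂ)) := by
      rw [← Complex.ofReal_pow, ww_sq h, abs_of_neg (rr0_neg h)]
      push_cast
      ring
    have h3 : (Fin.last 3 : Fin 4) = 3 := rfl
    rw [h3]
    simp only [map_mul, Complex.conj_ofReal]
    linear_combination -(x 3 * conj (y 3)) * h1

/-! ### the embedding -/

/-- coordinates at a place -/
def at' (v : Fin 4 → Fin 2 → ℂ) (t : Fin 2) : Fin 4 → ℂ := fun i => v i t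

lemma hh_at (h : Z5r O z) (v w : Fin 4 → Fin 2 → ℂ) (t : Fin 2) :
    Cls_620.hh (Cls_620.HH z) v w t = ht z t (at' v t) (at' w t) := by
  rw [Cls_620.hh_apply, ht]
  refine Finset.sum_congr rfl fun i _ => ?_
  rw [HH_eq h]
  rfl

/-- **the embedding** -/
def io (h : Z5r O z) : (Fin 4 → Fin 2 → ℂ) ≃ₗ[ℝ] V1 3 × W 4 where
  toFun v := (P0 h (at' v 0), P1 h (at' v 1))
  invFun p := fun i => ![(P0 h).symm p.1 i, (P1 h).symm p.2 i]
  left_inv v := by
    funext i t
    fin_cases t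
    · simp [at']
    · simp [at']
  right_inv p := by
    refine Prod.ext ?_ ?_
    · show P0 h (fun i => (P0 h).symm p.1 i) = p.1
      exact (P0 h).apply_symm_apply p.1
    · show P1 h (fun i => (P1 h).symm p.2 i) = p.2
      exact (P1 h).apply_symm_apply p.2
  map_add' v w := by
    refine Prod.ext ?_ ?_
    · show P0 h (at' v 0 + at' w 0) = _
      rw [map_add]; rfl
    · show P1 h (at' v 1 + at' w 1) = _
      rw [map_add]; rfl
  map_smul' c v := by
    refine Prod.ext ?_ ?_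
    · show P0 h ((c : ℂ) • at' v 0) = (c : ℝ) • P0 h (at' v 0)
      rw [map_smul, Complex.coe_smul]
    · show P1 h ((c : ℂ) • at' v 1) = (c : ℝ) • P1 h (at' v 1)
      rw [map_smul, Complex.coe_smul]

lemma io_apply (h : Z5r O z) (v : Fin 4 → Fin 2 → ℂ) :
    io h v = (P0 h (at' v 0), P1 h (at' v 1)) := rfl

lemma io_fst (h : Z5r O z) (v : Fin 4 → Fin 2 → ℂ) : (io h v).1 = P0 h (at' v 0) := rfl

lemma io_snd (h : Z5r O z) (v : Fin 4 → Fin 2 → ℂ) : (io h v).2 = P1 h (at' v 1) := rfl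

lemma hh_io (h : Z5r O z) (v w : Fin 4 → Fin 2 → ℂ) :
    hh (io h v).1 (io h w).1 = (dd z 0 : ℂ) * Cls_620.hh (Cls_620.HH z) v w 0 := by
  rw [io_fst, io_fst, hh_P0, hh_at h]

lemma inner_io (h : Z5r O z) (v w : Fin 4 → Fin 2 → ℂ) :
    inner ℂ (io h w).2 (io h v).2 = (dd z 1 : ℂ) * Cls_620.hh (Cls_620.HH z) v w 1 := by
  rw [io_snd, io_snd, inner_P1, hh_at h]

/-- `ee` on the image -/
lemma ee_io (h : Z5r O z) (v w : Fin 4 → Fin 2 → ℂ) :
    ee (io h v) (io h w) = dd z 0 * (Cls_620.hh (Cls_620.HH z) v w 0).im +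
      dd z 1 * (Cls_620.hh (Cls_620.HH z) v w 1).im := by
  rw [ee, hh_io, inner_io, Complex.im_ofReal_mul, Complex.im_ofReal_mul]

/-- `2 ee` is integral on integral vectors -/
lemma ee_int (h : Z5r O z) {v w : Fin 4 → Fin 2 → ℂ} (hv : Cls_620.Int' O v)
    (hw : Cls_620.Int' O w) : ∃ k : ℤ, ((2 : ℕ) : ℝ) * ee (io h v) (io h w) = k := by
  set x := Cls_620.hh (Cls_620.HH z) v w with hx
  have hxO : x ∈ O := Cls_620.hh_mem h.ord h.toZ5.frm hv hw
  have hδ : (z ^ 4 - z) * x ∈ O := O.mul_mem (O.sub_mem (pow_mem h 4) h.zmem) hxO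
  obtain ⟨k, hk⟩ := trace_int h hδ
  refine ⟨k, ?_⟩
  rw [← hk, ee_io, ← hx]
  have key : ∀ t, (((z ^ 4 - z) * x) t).re = dd z t * (x t).im := by
    intro t
    have e1 : ((z ^ 4 - z) * x) t = (conj (z t) - z t) * x t := by
      rw [conj_z h]; simp
    have e2 : conj (z t) - z t = ((-(dd z t) : ℝ) : ℂ) * Complex.I := by
      apply Complex.ext
      · simp
      · simp [dd]; ring
    rw [e1, e2, mul_assoc, Complex.re_ofReal_mul, Complex.I_mul_re]
    ring
  rw [key 0, key 1]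
  push_cast
  ring

end

end Crest.Agent.R272.In_68
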