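import Mathlib
import Crest.Agent.R272.In1_68
import Crest.Agent.R272.In2_68

-- ▼ part R272/Ball1_916
section

/-! Row 272 (helper916): a uniform Minkowski lemma: a lattice moved by a volume preserving map and
with systole bounded below is spanned by short vectors. -/

set_option autoImplicit false

namespace Crest.Agent.R272.Ball1_916

open MeasureTheory Module Set Metric
open scoped ENNReal Pointwise

variable {V : Type*} [NormedAddCommGroup V] [NormedSpace ℝ V]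

/-- segment plus ball -/
def body (u : V) (b a : ℝ) : Set V := ((fun s : ℝ => s • u) '' Icc (-b) b) + ball (0 : V) a

theorem body_convex (u : V) (b a : ℝ) : Convex ℝ (body u b a) := by
  refine Convex.add ?_ (convex_ball _ _)
  exact (convex_Icc (-b) b).linear_image (LinearMap.toSpanSingleton ℝ V u)

theorem mem_body {u : V} {b a : ℝ} {x : V} :
    x ∈ body u b a ↔ ∃ s : ℝ, -b ≤ s ∧ s ≤ b ∧ ‖x - s • u‖ < a := by
  constructor
  · rintro ⟨_, ⟨s, hs, rfl⟩, y, hy, rfl⟩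
    refine ⟨s, hs.1, hs.2, ?_⟩
    simpa using hy
  · rintro ⟨s, h1, h2, h3⟩
    refine ⟨s • u, ⟨s, ⟨h1, h2⟩, rfl⟩, x - s • u, ?_, by simp⟩
    simpa using h3

theorem body_symm {u : V} {b a : ℝ} : ∀ x ∈ body u b a, -x ∈ body u b a := by
  intro x hx
  obtain ⟨s, h1, h2, h3⟩ := mem_body.1 hx
  refine mem_body.2 ⟨-s, by linarith, by linarith, ?_⟩
  have : -x - (-s) • u = -(x - s • u) := by simp [sub_eq_add_neg, add_comm]
  rw [this, norm_neg]; exact h3

theorem body_ball {u : V} {a : ℝ} (J k : ℕ) (hk : k ≤ J) :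
    ball (((2 * a * k : ℝ)) • u) a ⊆ body u (2 * a * J) a := by
  intro x hx
  have ha : 0 < a := by
    by_contra h
    rw [ball_eq_empty.2 (not_lt.1 h)] at hx
    exact hx
  refine mem_body.2 ⟨2 * a * k, ?_, ?_, ?_⟩
  · have : (0:ℝ) ≤ 2 * a * k := by positivity
    have : (0:ℝ) ≤ 2 * a * J := by positivity
    linarith
  · have : (k : ℝ) ≤ J := by exact_mod_cast hk
    gcongr
  · simpa [mem_ball, dist_eq_norm] using hx

variable [FiniteDimensional ℝ V] [MeasurableSpace V] [BorelSpace V]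

omit [FiniteDimensional ℝ V] in
theorem body_measure (μ : Measure V) [μ.IsAddHaarMeasure] {u : V} (hu : 1 ≤ ‖u‖) {a : ℝ}
    (ha : 0 < a) (J : ℕ) : (J : ℝ≥0∞) * μ (ball (0 : V) a) ≤ μ (body u (2 * a * J) a) := by
  have h1 : (⋃ k ∈ Finset.range J, ball (((2 * a * (k : ℕ) : ℝ)) • u) a) ⊆ body u (2 * a * J) a := by
    intro x hx
    simp only [mem_iUnion] at hx
    obtain ⟨k, hk, hx⟩ := hx
    exact body_ball J k (Finset.mem_range.1 hk).le hx
  refine le_trans ?_ (measure_mono h1)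
  rw [measure_biUnion_finset]
  · have : ∀ k ∈ Finset.range J, μ (ball (((2 * a * (k : ℕ) : ℝ)) • u) a) = μ (ball (0 : V) a) := by
      intro k _
      exact Measure.addHaar_ball_center μ _ a
    rw [Finset.sum_congr rfl this]
    simp
  · intro k _ l _ hkl
    refine ball_disjoint_ball ?_
    rw [dist_eq_norm, ← sub_smul, norm_smul]
    have h2 : (1 : ℝ) ≤ |(k : ℝ) - l| := by
      have : (1 : ℤ) ≤ |(k : ℤ) - l| := by
        refine Int.one_le_abs ?_
        intro h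
        apply hkl
        exact_mod_cast sub_eq_zero.1 h
      exact_mod_cast this
    have h3 : ‖(2 * a * (k:ℝ) - 2 * a * (l:ℝ))‖ = 2 * a * |(k : ℝ) - l| := by
      rw [← mul_sub, norm_mul, Real.norm_eq_abs, Real.norm_eq_abs, abs_of_pos (by positivity)]
    rw [h3]
    nlinarith [norm_nonneg u, mul_pos ha (by linarith : (0:ℝ) < |(k : ℝ) - l|)]
  · intro k _
    exact measurableSet_ball

/-- **Uniform Minkowski lemma.** -/
theorem short_span (L : Submodule ℤ V) [DiscreteTopology L] [IsZLattice ℝ L] {κ : ℝ} (hκ : 0 < κ) :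
    ∃ R : ℝ, ∀ Φ : V ≃ₗ[ℝ] V, |LinearMap.det (Φ : V →ₗ[ℝ] V)| = 1 →
      (∀ x ∈ L, x ≠ 0 → κ ≤ ‖Φ x‖) →
      Submodule.span ℝ (Φ '' {x | x ∈ L ∧ ‖Φ x‖ ≤ R}) = ⊤ := by
  classical
  let μ : Measure V := Measure.addHaar
  let b := Module.Free.chooseBasis ℤ L
  let F := ZSpan.fundamentalDomain (b.ofZLatticeBasis ℝ)
  have hF : IsAddFundamentalDomain L F μ := ZLattice.isAddFundamentalDomain b μ
  have hFfin : μ F < ∞ := (ZSpan.fundamentalDomain_isBounded _).measure_lt_top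
  -- radius
  set a : ℝ := κ / 4 with ha_def
  have ha : 0 < a := by positivity
  have hball : μ (ball (0 : V) a) ≠ 0 := (measure_ball_pos μ _ ha).ne'
  obtain ⟨J, hJ⟩ : ∃ J : ℕ, μ F * 2 ^ finrank ℝ V < J * μ (ball (0 : V) a) := by
    have hne : μ F * 2 ^ finrank ℝ V ≠ ∞ := by
      refine ENNReal.mul_ne_top hFfin.ne ?_
      simp
    obtain ⟨J, hJ⟩ := ENNReal.exists_nat_mul_gt hball hne
    exact ⟨J, hJ⟩
  refine ⟨3 * (2 * a * J) + a + κ, ?_⟩
  intro Φ hdet hsys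
  by_contra hne
  set R : ℝ := 3 * (2 * a * J) + a + κ with hR
  set W : Submodule ℝ V := Submodule.span ℝ (Φ '' {x | x ∈ L ∧ ‖Φ x‖ ≤ R}) with hW
  -- functional vanishing on W
  obtain ⟨f, hf0, hfW⟩ : ∃ f : V →L[ℝ] ℝ, f ≠ 0 ∧ ∀ x ∈ W, f x = 0 := by
    obtain ⟨g, hg0, hg⟩ := Submodule.exists_le_ker_of_lt_top W (lt_top_iff_ne_top.2 hne)
    refine ⟨LinearMap.toContinuousLinearMap g, ?_, ?_⟩
    · intro h
      apply hg0
      ext x
      have := congrArg (fun k : V →L[ℝ] ℝ => k x) h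
      simpa using this
    · intro x hx
      exact hg hx
  -- a vector of norm between 1 and 3 at which f is at least the norm of f
  have hfpos : 0 < ‖f‖ := norm_pos_iff.2 hf0
  obtain ⟨u, hu1, hu2, hu3⟩ : ∃ u : V, 1 ≤ ‖u‖ ∧ ‖u‖ ≤ 3 ∧ ‖f‖ ≤ f u := by
    obtain ⟨y, hy⟩ : ∃ y : V, ‖f‖ / 2 * ‖y‖ < ‖f y‖ := by
      by_contra h
      push Not at h
      have := f.opNorm_le_bound (by positivity) h
      linarith
    have hy0 : y ≠ 0 := by
      rintro rfl
      simp at hy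
    have hyn : 0 < ‖y‖ := norm_pos_iff.2 hy0
    have hfy : 0 < ‖f y‖ := lt_of_le_of_lt (by positivity) hy
    have hfy0 : f y ≠ 0 := norm_pos_iff.1 hfy
    refine ⟨(‖f‖ / f y) • y, ?_, ?_, ?_⟩
    · rw [norm_smul, norm_div, norm_norm]
      rw [div_mul_eq_mul_div, le_div_iff₀ hfy, one_mul]
      exact f.le_opNorm y
    · rw [norm_smul, norm_div, norm_norm]
      rw [div_mul_eq_mul_div, div_le_iff₀ hfy]
      linarith
    · rw [map_smul, smul_eq_mul, div_mul_cancel₀ _ hfy0]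
  set K : Set V := body u (2 * a * J) a with hK
  -- Minkowski for the preimage of K
  have hmeas : μ (Φ ⁻¹' K) = μ K := by
    rw [Measure.addHaar_preimage_linearEquiv]
    rw [LinearEquiv.det_coe_symm, abs_inv, hdet]
    simp
  have hconv : Convex ℝ (Φ ⁻¹' K) := (body_convex u _ a).linear_preimage (Φ : V →ₗ[ℝ] V)
  have hsymm : ∀ x ∈ Φ ⁻¹' K, -x ∈ Φ ⁻¹' K := by
    intro x hx
    simp only [mem_preimage, map_neg] at *
    exact body_symm _ hx
  have hvol : μ F * 2 ^ finrank ℝ V < μ (Φ ⁻¹' K) := by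
    rw [hmeas]
    exact lt_of_lt_of_le hJ (body_measure μ hu1 ha J)
  have : Countable L := inferInstance
  obtain ⟨x, hx0, hxK⟩ :=
    exists_ne_zero_mem_lattice_of_measure_mul_two_pow_lt_measure (L := L.toAddSubgroup) hF hsymm
      hconv hvol
  have hxL : (x : V) ∈ L := x.2
  have hx0' : (x : V) ≠ 0 := by
    intro h
    apply hx0
    exact Subtype.ext h
  obtain ⟨s, hs1, hs2, hs3⟩ := mem_body.1 hxK
  set v : V := Φ x with hv
  have hsn : ‖s • u‖ ≤ 3 * (2 * a * J) := by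
    rw [norm_smul]
    have : ‖s‖ ≤ 2 * a * J := by rw [Real.norm_eq_abs]; exact abs_le.2 ⟨hs1, hs2⟩
    have h0 : (0:ℝ) ≤ 2 * a * J := by positivity
    nlinarith [norm_nonneg s, norm_nonneg u]
  have hvR : ‖v‖ ≤ R := by
    have h1 : v = (v - s • u) + s • u := by abel
    have h2 : ‖v‖ ≤ ‖v - s • u‖ + ‖s • u‖ := by
      conv_lhs => rw [h1]
      exact norm_add_le _ _
    rw [hR]
    linarith
  have hvW : v ∈ W := Submodule.subset_span ⟨x, ⟨hxL, hvR⟩, rfl⟩
  have hfv : f v = 0 := hfW v hvW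
  have hsmall : |s| ≤ a := by
    have h1 : f v = f (v - s • u) + s * f u := by
      rw [map_sub, map_smul, smul_eq_mul]; ring
    have h2 : |s * f u| ≤ ‖f‖ * a := by
      have h3 : s * f u = - f (v - s • u) := by linarith
      rw [h3, abs_neg]
      calc |f (v - s • u)| ≤ ‖f‖ * ‖v - s • u‖ := f.le_opNorm _
        _ ≤ ‖f‖ * a := by gcongr
    rw [abs_mul, abs_of_pos (lt_of_lt_of_le hfpos hu3)] at h2
    have h3 : |s| * ‖f‖ ≤ ‖f‖ * a := by
      refine le_trans ?_ h2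
      gcongr
    have := (mul_le_mul_iff_right₀ hfpos).1 (by rw [mul_comm] at h3; exact h3 : ‖f‖ * |s| ≤ ‖f‖ * a)
    exact this
  have hfin : ‖v‖ < κ := by
    have h1 : v = (v - s • u) + s • u := by abel
    have h2 : ‖v‖ ≤ ‖v - s • u‖ + ‖s • u‖ := by
      conv_lhs => rw [h1]
      exact norm_add_le _ _
    have h3 : ‖s • u‖ ≤ a * 3 := by
      rw [norm_smul, Real.norm_eq_abs]
      gcongr
    have : κ = 4 * a := by rw [ha_def]; ring
    rw [this]
    linarith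
  exact absurd (hsys x hxL hx0') (not_le.2 hfin)

end Crest.Agent.R272.Ball1_916
end

-- ▼ part R272/BallDefs_916
section

/-! Row 272 (helper916): arithmetic Hermitian form of signature (n,1) at one place and definite at the
other places; definitions and elementary linear algebra. No number field theory: `O` is a subring of
`T → ℂ` (`T` = the places). -/

set_option autoImplicit false
set_option linter.unusedSectionVars false

namespace Crest.Agent.R272.BallDefs_916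

open Matrix Finset
open scoped ComplexConjugate

/-- An order of "CM type" inside `T → ℂ`. -/
structure OrdT (T : Type) [Fintype T] where
  O : Subring (T → ℂ)
  star_mem : ∀ x ∈ O, star x ∈ O
  disc : ∀ R : ℝ, {x : T → ℂ | x ∈ O ∧ ∀ t, ‖x t‖ ≤ R}.Finite
  span : Submodule.span ℝ (O : Set (T → ℂ)) = ⊤
  norm : ∀ x ∈ O, x ≠ 0 → 1 ≤ ∏ t, ‖x t‖

/-- Arithmetic datum: the diagonal form `∑ a i t * |v i|^2`, negative exactly at the coordinate `o`
and the place `t0`; there is a second place. -/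
structure AD (T : Type) [Fintype T] (ι : Type) [Fintype ι] extends OrdT T where
  a : ι → T → ℝ
  a_mem : ∀ i, (fun t => (a i t : ℂ)) ∈ O
  t0 : T
  t1 : T
  ht : t1 ≠ t0
  o : ι
  neg : a o t0 < 0
  pos0 : ∀ i, i ≠ o → 0 < a i t0
  pos : ∀ t, t ≠ t0 → ∀ i, 0 < a i t

variable {T : Type} [Fintype T] {ι : Type} [Fintype ι]

namespace AD

variable (D : AD T ι)

/-- the Hermitian form at the place `t` (linear in the first variable) -/
def h (t : T) (v w : ι → ℂ) : ℂ := ∑ i, (D.a i t : ℂ) * (v i * conj (w i))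

/-- the quadratic form at the place `t` -/
noncomputable def q (t : T) (v : ι → ℂ) : ℝ := ∑ i, D.a i t * ‖v i‖ ^ 2

/-- the fixed positive form -/
noncomputable def N (t : T) (v : ι → ℂ) : ℝ := ∑ i, |D.a i t| * ‖v i‖ ^ 2

/-- negative vectors (at `t0`) -/
def Neg (z : ι → ℂ) : Prop := D.q D.t0 z < 0

/-- `z` is negative and `C`-bounded: it represents a point of a fixed compact subset of the ball -/
def Bdd (C : ℝ) (z : ι → ℂ) : Prop := D.Neg z ∧ ∀ i, ‖z i‖ ^ 2 ≤ C * (- D.q D.t0 z)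

/-- evaluation of `O` at a place -/
def ev (t : T) : D.O →+* ℂ := (Pi.evalRingHom (fun _ : T => ℂ) t).comp D.O.subtype

theorem ev_apply (t : T) (x : D.O) : D.ev t x = (x : T → ℂ) t := rfl

end AD

variable (D : AD T ι)

theorem h_self (t : T) (v : ι → ℂ) : D.h t v v = (D.q t v : ℂ) := by
  unfold AD.h AD.q
  push_cast
  refine Finset.sum_congr rfl fun i _ => ?_
  rw [Complex.mul_conj, Complex.normSq_eq_norm_sq]
  push_cast
  ring

theorem h_add_left (t : T) (v v' w : ι → ℂ) : D.h t (v + v') w = D.h t v w + D.h t v' w := by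
  unfold AD.h
  rw [← Finset.sum_add_distrib]
  refine Finset.sum_congr rfl fun i _ => ?_
  simp only [Pi.add_apply]; ring

theorem h_smul_left (t : T) (c : ℂ) (v w : ι → ℂ) : D.h t (c • v) w = c * D.h t v w := by
  unfold AD.h
  rw [Finset.mul_sum]
  refine Finset.sum_congr rfl fun i _ => ?_
  simp only [Pi.smul_apply, smul_eq_mul]; ring

theorem h_conj (t : T) (v w : ι → ℂ) : conj (D.h t v w) = D.h t w v := by
  unfold AD.h
  rw [map_sum]
  refine Finset.sum_congr rfl fun i _ => ?_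
  simp only [map_mul, Complex.conj_conj, Complex.conj_ofReal]; ring

theorem h_add_right (t : T) (v w w' : ι → ℂ) : D.h t v (w + w') = D.h t v w + D.h t v w' := by
  rw [← h_conj, h_add_left, map_add, h_conj, h_conj]

theorem h_smul_right (t : T) (c : ℂ) (v w : ι → ℂ) : D.h t v (c • w) = conj c * D.h t v w := by
  rw [← h_conj, h_smul_left, map_mul, h_conj]

theorem h_sub_left (t : T) (v v' w : ι → ℂ) : D.h t (v - v') w = D.h t v w - D.h t v' w := by
  have : v - v' = v + (-1 : ℂ) • v' := by simp [sub_eq_add_neg]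
  rw [this, h_add_left, h_smul_left]; ring

theorem h_sub_right (t : T) (v w w' : ι → ℂ) : D.h t v (w - w') = D.h t v w - D.h t v w' := by
  have : w - w' = w + (-1 : ℂ) • w' := by simp [sub_eq_add_neg]
  rw [this, h_add_right, h_smul_right]; simp; ring

theorem q_smul (t : T) (c : ℂ) (v : ι → ℂ) : D.q t (c • v) = ‖c‖ ^ 2 * D.q t v := by
  unfold AD.q
  rw [Finset.mul_sum]
  refine Finset.sum_congr rfl fun i _ => ?_
  simp only [Pi.smul_apply, smul_eq_mul, norm_mul]; ring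

theorem abs_q_le (t : T) (v : ι → ℂ) : |D.q t v| ≤ D.N t v := by
  unfold AD.q AD.N
  refine (Finset.abs_sum_le_sum_abs _ _).trans (le_of_eq ?_)
  refine Finset.sum_congr rfl fun i _ => ?_
  rw [abs_mul, abs_of_nonneg (by positivity : (0:ℝ) ≤ ‖v i‖ ^ 2)]


theorem a_ne (t : T) (i : ι) : D.a i t ≠ 0 := by
  classical
  by_cases h : t = D.t0
  · subst h
    by_cases hi : i = D.o
    · subst hi; exact D.neg.ne
    · exact (D.pos0 i hi).ne'
  · exact (D.pos t h i).ne'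


/-- the negative coordinate vector -/
noncomputable def eo [DecidableEq ι] : ι → ℂ := Pi.single D.o 1

variable [DecidableEq ι]

theorem q_eo (t : T) : D.q t (eo D) = D.a D.o t := by
  unfold AD.q eo
  rw [Finset.sum_eq_single D.o]
  · simp
  · intro i _ hi
    simp [Pi.single_eq_of_ne hi]
  · simp

theorem h_eo (t : T) (v : ι → ℂ) : D.h t v (eo D) = (D.a D.o t : ℂ) * v D.o := by
  unfold AD.h eo
  rw [Finset.sum_eq_single D.o]
  · simp
  · intro i _ hi
    simp [Pi.single_eq_of_ne hi]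
  · simp

/-- reflection in `u` -/
noncomputable def refl (t : T) (u v : ι → ℂ) : ι → ℂ := v - (2 * D.h t v u / D.q t u) • u

theorem refl_isom {t : T} {u : ι → ℂ} (hu : D.q t u ≠ 0) (v w : ι → ℂ) :
    D.h t (refl D t u v) (refl D t u w) = D.h t v w := by
  unfold refl
  rw [h_sub_left, h_sub_right, h_sub_right, h_smul_left, h_smul_left, h_smul_right, h_smul_right,
    h_self]
  have hq : ((D.q t u : ℝ) : ℂ) ≠ 0 := by exact_mod_cast hu
  rw [map_div₀, map_mul, Complex.conj_ofReal, h_conj, map_ofNat]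
  field_simp
  ring

theorem refl_refl {t : T} {u : ι → ℂ} (hu : D.q t u ≠ 0) (v : ι → ℂ) :
    refl D t u (refl D t u v) = v := by
  unfold refl
  have hq : ((D.q t u : ℝ) : ℂ) ≠ 0 := by exact_mod_cast hu
  rw [h_sub_left, h_smul_left, h_self]
  have : (2 * (D.h t v u - 2 * D.h t v u / (D.q t u : ℂ) * (D.q t u : ℂ)) / (D.q t u : ℂ)) =
      - (2 * D.h t v u / (D.q t u : ℂ)) := by
    field_simp
    ring
  rw [this, neg_smul]
  abel

/-- reflection as a linear equivalence -/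
noncomputable def reflL (t : T) (u : ι → ℂ) (hu : D.q t u ≠ 0) : (ι → ℂ) ≃ₗ[ℂ] (ι → ℂ) where
  toFun := refl D t u
  invFun := refl D t u
  left_inv := refl_refl D hu
  right_inv := refl_refl D hu
  map_add' v w := by
    unfold refl
    rw [h_add_left]
    ext i
    simp only [Pi.sub_apply, Pi.add_apply, Pi.smul_apply, smul_eq_mul]
    ring
  map_smul' c v := by
    unfold refl
    rw [h_smul_left]
    ext i
    simp only [Pi.sub_apply, Pi.smul_apply, smul_eq_mul, RingHom.id_apply]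
    ring

theorem neg_o_ne {z : ι → ℂ} (hz : D.Neg z) : z D.o ≠ 0 := by
  intro h
  have : 0 ≤ D.q D.t0 z := by
    unfold AD.q
    refine Finset.sum_nonneg fun i _ => ?_
    by_cases hi : i = D.o
    · subst hi
      rw [h]; simp
    · have := D.pos0 i hi
      positivity
  exact absurd hz (not_lt.2 this)

/-- For every negative `z` there is `u` with `q u < 0`, reflection in `u` maps `z` to a multiple of
the coordinate vector `eo`, and `u` is controlled by `z`. -/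
theorem exists_u {z : ι → ℂ} (hz : D.Neg z) : ∃ u : ι → ℂ, D.q D.t0 u ≤ D.a D.o D.t0 ∧
    (∃ μ : ℂ, refl D D.t0 u z = μ • eo D) ∧
    (∀ C : ℝ, D.Bdd C z → ∀ i, ‖u i‖ ≤ Real.sqrt (C * |D.a D.o D.t0|) + 1) := by
  have hzo : z D.o ≠ 0 := neg_o_ne D hz
  have hn : (0:ℝ) < ‖z D.o‖ := norm_pos_iff.2 hzo
  have hq : 0 < - D.q D.t0 z := by unfold AD.Neg at hz; linarith
  have ha : D.a D.o D.t0 < 0 := D.neg
  set r : ℝ := Real.sqrt (- D.a D.o D.t0 / (- D.q D.t0 z)) with hr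
  have hr0 : 0 < r := Real.sqrt_pos.2 (div_pos (by linarith) hq)
  have hr2 : r ^ 2 * (- D.q D.t0 z) = - D.a D.o D.t0 := by
    rw [hr, Real.sq_sqrt (div_pos (by linarith) hq).le, div_mul_cancel₀ _ hq.ne']
  set ν : ℂ := (r : ℂ) * (conj (z D.o) / ‖z D.o‖) with hν
  have hνn : ‖ν‖ = r := by
    rw [hν, norm_mul, norm_div, Complex.norm_real, Complex.norm_real, RCLike.norm_conj,
      Real.norm_eq_abs, abs_of_pos hr0, norm_norm, div_self hn.ne', mul_one]
  have hν0 : ν ≠ 0 := by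
    rw [← norm_pos_iff, hνn]; exact hr0
  have hz1o : ν * z D.o = ((r * ‖z D.o‖ : ℝ) : ℂ) := by
    have h1 : conj (z D.o) * z D.o = ((‖z D.o‖ ^ 2 : ℝ) : ℂ) := by
      rw [mul_comm, Complex.mul_conj, Complex.normSq_eq_norm_sq]
    have h2 : ((‖z D.o‖ : ℝ) : ℂ) ≠ 0 := by exact_mod_cast hn.ne'
    rw [hν]
    calc (r : ℂ) * (conj (z D.o) / ‖z D.o‖) * z D.o
        = (r : ℂ) * ((conj (z D.o) * z D.o) / ‖z D.o‖) := by ring
      _ = _ := by
        rw [h1]; push_cast; field_simp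
  set z1 : ι → ℂ := ν • z with hz1
  have hqz1 : D.q D.t0 z1 = D.a D.o D.t0 := by
    rw [hz1, q_smul, hνn]; linarith
  set s : ℝ := r * ‖z D.o‖ with hs
  have hs0 : 0 < s := mul_pos hr0 hn
  have hh : D.h D.t0 z1 (eo D) = ((D.a D.o D.t0 * s : ℝ) : ℂ) := by
    rw [h_eo, hz1]
    simp only [Pi.smul_apply, smul_eq_mul]
    rw [hz1o]; push_cast; ring
  have hh' : D.h D.t0 (eo D) z1 = ((D.a D.o D.t0 * s : ℝ) : ℂ) := by
    rw [← h_conj, hh, Complex.conj_ofReal]
  set u : ι → ℂ := z1 + eo D with hu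
  have hqu : D.q D.t0 u = 2 * D.a D.o D.t0 * (1 + s) := by
    have h1 : ((D.q D.t0 u : ℝ) : ℂ) = ((2 * D.a D.o D.t0 * (1 + s) : ℝ) : ℂ) := by
      rw [← h_self, hu, h_add_left, h_add_right, h_add_right, hh, hh', h_self, h_self, hqz1, q_eo]
      push_cast; ring
    exact_mod_cast h1
  have hqu0 : D.q D.t0 u ≠ 0 := by
    rw [hqu]
    have : 2 * D.a D.o D.t0 * (1 + s) < 0 := by nlinarith
    exact this.ne
  refine ⟨u, ?_, ⟨-ν⁻¹, ?_⟩, ?_⟩
  · rw [hqu]; nlinarith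
  · -- reflection maps z1 to - eo
    have h1 : refl D D.t0 u z1 = - eo D := by
      unfold refl
      have h2 : D.h D.t0 z1 u = ((D.a D.o D.t0 * (1 + s) : ℝ) : ℂ) := by
        rw [hu, h_add_right, hh, h_self, hqz1]; push_cast; ring
      rw [h2, hqu]
      have h3 : (2 * ((D.a D.o D.t0 * (1 + s) : ℝ) : ℂ) / ((2 * D.a D.o D.t0 * (1 + s) : ℝ) : ℂ)) = 1 := by
        have h4 : ((2 * D.a D.o D.t0 * (1 + s) : ℝ) : ℂ) ≠ 0 := by
          rw [← hqu]; exact_mod_cast hqu0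
        rw [div_eq_one_iff_eq h4]
        push_cast; ring
      rw [h3, one_smul, hu]
      abel
    have h5 : z = ν⁻¹ • z1 := by
      rw [hz1, smul_smul, inv_mul_cancel₀ hν0, one_smul]
    have h6 : refl D D.t0 u z = ν⁻¹ • refl D D.t0 u z1 := by
      conv_lhs => rw [h5]
      exact (reflL D D.t0 u hqu0).map_smul ν⁻¹ z1
    rw [h6, h1]
    simp
  · intro C hC i
    have h1 : ‖u i‖ ≤ ‖z1 i‖ + 1 := by
      rw [hu, Pi.add_apply]
      refine (norm_add_le _ _).trans ?_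
      gcongr
      unfold eo
      by_cases hi : i = D.o
      · subst hi; simp
      · simp [Pi.single_eq_of_ne hi]
    refine h1.trans ?_
    gcongr
    refine Real.le_sqrt_of_sq_le ?_
    have h2 : ‖z1 i‖ ^ 2 = r ^ 2 * ‖z i‖ ^ 2 := by
      rw [hz1, Pi.smul_apply, norm_smul, hνn]; ring
    rw [h2]
    have h3 := hC.2 i
    have h4 : r ^ 2 * ‖z i‖ ^ 2 ≤ r ^ 2 * (C * (- D.q D.t0 z)) := by gcongr
    refine h4.trans (le_of_eq ?_)
    rw [abs_of_neg ha]
    calc r ^ 2 * (C * (- D.q D.t0 z)) = C * (r ^ 2 * (- D.q D.t0 z)) := by ring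
      _ = _ := by rw [hr2]

end Crest.Agent.R272.BallDefs_916
end

-- ▼ part R272/Ball2_916
section

/-! Row 272 (helper916): the lattice `O^ι`, its systole in the metric of `z`, cocompactness of `O`. -/

set_option autoImplicit false
set_option linter.unusedSectionVars false

namespace Crest.Agent.R272.Ball2_916

open Matrix Finset Module
open scoped ComplexConjugate
open Crest.Agent.R272.BallDefs_916 Crest.Agent.R272.Ball1_916

variable {T : Type} [Fintype T]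

/-! ### the order -/

theorem ne_zero_of_mem (A : OrdT T) {x : T → ℂ} (hx : x ∈ A.O) (h0 : x ≠ 0) (t : T) : x t ≠ 0 := by
  intro h
  have h1 := A.norm x hx h0
  rw [Finset.prod_eq_zero (Finset.mem_univ t) (by rw [h, norm_zero])] at h1
  linarith

theorem exists_one_le (A : OrdT T) [Nonempty T] {x : T → ℂ} (hx : x ∈ A.O) (h0 : x ≠ 0) :
    ∃ t, 1 ≤ ‖x t‖ := by
  by_contra h
  push Not at h
  obtain ⟨t⟩ := ‹Nonempty T›
  have h1 := A.norm x hx h0
  have h2 : ∏ t, ‖x t‖ < 1 := by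
    classical
    rw [← Finset.mul_prod_erase _ _ (Finset.mem_univ t)]
    have h3 : ∏ s ∈ Finset.univ.erase t, ‖x s‖ ≤ 1 :=
      Finset.prod_le_one (fun s _ => norm_nonneg _) fun s _ => (h s).le
    have h4 : 0 ≤ ∏ s ∈ Finset.univ.erase t, ‖x s‖ := Finset.prod_nonneg fun s _ => norm_nonneg _
    nlinarith [h t, norm_nonneg (x t)]
  linarith

/-- the order as a `ℤ`-lattice -/
def OL (A : OrdT T) : Submodule ℤ (T → ℂ) := AddSubgroup.toIntSubmodule A.O.toAddSubgroup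


instance OL_discrete (A : OrdT T) [Nonempty T] : DiscreteTopology (OL A) := by
  refine DiscreteTopology.of_forall_le_dist (r := 1) one_pos ?_
  intro x y hxy
  have h1 : (x : T → ℂ) - (y : T → ℂ) ∈ A.O := A.O.sub_mem x.2 y.2
  have h2 : (x : T → ℂ) - (y : T → ℂ) ≠ 0 := by
    intro h
    exact hxy (Subtype.ext (sub_eq_zero.1 h))
  obtain ⟨t, ht⟩ := exists_one_le A h1 h2
  rw [Subtype.dist_eq, dist_eq_norm]
  exact ht.trans (norm_le_pi_norm ((x : T → ℂ) - (y : T → ℂ)) t)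

instance OL_lattice (A : OrdT T) [Nonempty T] : IsZLattice ℝ (OL A) where
  span_top := A.span

/-- `O` is cocompact. -/
theorem exists_approx (A : OrdT T) [Nonempty T] :
    ∃ R : ℝ, 0 ≤ R ∧ ∀ y : T → ℂ, ∃ x ∈ A.O, ∀ t, ‖y t - x t‖ ≤ R := by
  classical
  let b := Module.Free.chooseBasis ℤ (OL A)
  let b' := b.ofZLatticeBasis ℝ
  refine ⟨∑ i, ‖b' i‖, by positivity, fun y => ⟨ZSpan.floor b' y, ?_, ?_⟩⟩
  · have h1 : ((ZSpan.floor b' y : Submodule.span ℤ (Set.range b')) : T → ℂ) ∈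
        Submodule.span ℤ (Set.range b') := (ZSpan.floor b' y).2
    have h2 : Submodule.span ℤ (Set.range b') = OL A := b.ofZLatticeBasis_span ℝ
    exact h2.le h1
  · intro t
    have h1 : ‖ZSpan.fract b' y‖ ≤ ∑ i, ‖b' i‖ := ZSpan.norm_fract_le b' y
    have h2 : ZSpan.fract b' y = y - ZSpan.floor b' y := rfl
    rw [h2] at h1
    exact (norm_le_pi_norm _ t).trans h1

/-- bounded elements of `O` are finitely many -/
theorem finite_bdd (A : OrdT T) (R : ℝ) : {x : A.O | ∀ t, ‖(x : T → ℂ) t‖ ≤ R}.Finite := by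
  refine Set.Finite.of_finite_image (f := fun x : A.O => (x : T → ℂ)) ?_ Subtype.val_injective.injOn
  refine (A.disc R).subset ?_
  rintro _ ⟨x, hx, rfl⟩
  exact ⟨x.2, hx⟩

theorem finite_bdd_mat (A : OrdT T) {ι : Type} [Fintype ι] (R : ℝ) :
    {M : Matrix ι ι A.O | ∀ i j t, ‖(M i j : T → ℂ) t‖ ≤ R}.Finite := by
  have h := Set.Finite.pi' (ι := ι) (κ := fun _ => ι → A.O)
    (t := fun _ => {f : ι → A.O | ∀ j, f j ∈ {x : A.O | ∀ t, ‖(x : T → ℂ) t‖ ≤ R}})
    (fun _ => Set.Finite.pi' (fun _ => finite_bdd A R))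
  exact h

/-! ### the lattice -/

variable {ι : Type} [Fintype ι] [DecidableEq ι]

/-- the lattice `O^ι` -/
def Lam (A : OrdT T) (ι : Type) : Submodule ℤ (ι → T → ℂ) where
  carrier := {v | ∀ i, v i ∈ A.O}
  add_mem' := fun hv hw i => A.O.add_mem (hv i) (hw i)
  zero_mem' := fun _ => A.O.zero_mem
  smul_mem' := fun n v hv i => by
    have : (n • v) i = n • v i := rfl
    rw [this]
    exact A.O.toAddSubgroup.zsmul_mem (hv i) n


instance Lam_discrete (A : OrdT T) [Nonempty T] : DiscreteTopology (Lam A ι) := by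
  refine DiscreteTopology.of_forall_le_dist (r := 1) one_pos ?_
  intro x y hxy
  obtain ⟨i, hi⟩ : ∃ i, (x : ι → T → ℂ) i ≠ (y : ι → T → ℂ) i := by
    by_contra h
    push Not at h
    exact hxy (Subtype.ext (funext h))
  have h1 : (x : ι → T → ℂ) i - (y : ι → T → ℂ) i ∈ A.O := A.O.sub_mem (x.2 i) (y.2 i)
  obtain ⟨t, ht⟩ := exists_one_le A h1 (sub_ne_zero.2 hi)
  rw [Subtype.dist_eq, dist_eq_norm]
  refine ht.trans ((norm_le_pi_norm _ t).trans ?_)
  exact norm_le_pi_norm ((x : ι → T → ℂ) - (y : ι → T → ℂ)) i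

instance Lam_lattice (A : OrdT T) [Nonempty T] : IsZLattice ℝ (Lam A ι) where
  span_top := by
    rw [eq_top_iff]
    intro v _
    have h1 : v = ∑ i, Pi.single i (v i) := (Finset.univ_sum_single v).symm
    rw [h1]
    refine Submodule.sum_mem _ fun i _ => ?_
    have h2 : v i ∈ Submodule.span ℝ (A.O : Set (T → ℂ)) := by rw [A.span]; trivial
    have h3 : LinearMap.single ℝ (fun _ : ι => T → ℂ) i (v i) ∈
        Submodule.map (LinearMap.single ℝ (fun _ : ι => T → ℂ) i)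
          (Submodule.span ℝ (A.O : Set (T → ℂ))) := ⟨_, h2, rfl⟩
    rw [Submodule.map_span] at h3
    refine Submodule.span_mono ?_ h3
    rintro _ ⟨x, hx, rfl⟩
    intro j
    by_cases hj : j = i
    · subst hj; simpa using hx
    · have : LinearMap.single ℝ (fun _ : ι => T → ℂ) i x j = 0 := by
        simp [Pi.single_eq_of_ne hj]
      rw [this]
      exact A.O.zero_mem

/-! ### the moving frame -/

variable (D : AD T ι)

/-- component of a vector at a place -/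
def at' (v : ι → T → ℂ) (t : T) : ι → ℂ := fun i => v i t

open Classical in
/-- the reflection in `u` at the place `t0`, identity elsewhere -/
noncomputable def Phi0 (u : ι → ℂ) (v : ι → T → ℂ) : ι → T → ℂ := fun i t =>
  if t = D.t0 then refl D D.t0 u (at' v D.t0) i else v i t

theorem Phi0_t0 (u : ι → ℂ) (v : ι → T → ℂ) :
    at' (Phi0 D u v) D.t0 = refl D D.t0 u (at' v D.t0) := by
  funext i
  simp [at', Phi0]

theorem Phi0_ne (u : ι → ℂ) (v : ι → T → ℂ) {t : T} (ht : t ≠ D.t0) :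
    at' (Phi0 D u v) t = at' v t := by
  funext i
  simp [at', Phi0, ht]

theorem at_inj {v w : ι → T → ℂ} (h : ∀ t, at' v t = at' w t) : v = w := by
  funext i t
  exact congrFun (h t) i

theorem Phi0_Phi0 {u : ι → ℂ} (hu : D.q D.t0 u ≠ 0) (v : ι → T → ℂ) :
    Phi0 D u (Phi0 D u v) = v := by
  refine at_inj fun t => ?_
  by_cases ht : t = D.t0
  · subst ht
    rw [Phi0_t0, Phi0_t0, refl_refl D hu]
  · rw [Phi0_ne D u _ ht, Phi0_ne D u _ ht]

/-- the real linear automorphism of `ι → T → ℂ` given by the reflection at `t0` -/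
noncomputable def Phi (u : ι → ℂ) (hu : D.q D.t0 u ≠ 0) : (ι → T → ℂ) ≃ₗ[ℝ] (ι → T → ℂ) where
  toFun := Phi0 D u
  invFun := Phi0 D u
  left_inv := Phi0_Phi0 D hu
  right_inv := Phi0_Phi0 D hu
  map_add' v w := by
    refine at_inj fun t => ?_
    by_cases ht : t = D.t0
    · subst ht
      have h1 : at' (v + w) D.t0 = at' v D.t0 + at' w D.t0 := rfl
      have h2 : at' (Phi0 D u v + Phi0 D u w) D.t0 =
        at' (Phi0 D u v) D.t0 + at' (Phi0 D u w) D.t0 := rfl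
      rw [Phi0_t0, h1, h2, Phi0_t0, Phi0_t0]
      exact (reflL D D.t0 u hu).map_add _ _
    · have h2 : at' (Phi0 D u v + Phi0 D u w) t =
        at' (Phi0 D u v) t + at' (Phi0 D u w) t := rfl
      rw [Phi0_ne D u _ ht, h2, Phi0_ne D u _ ht, Phi0_ne D u _ ht]
      rfl
  map_smul' c v := by
    refine at_inj fun t => ?_
    simp only [RingHom.id_apply]
    by_cases ht : t = D.t0
    · subst ht
      have h1 : at' (c • v) D.t0 = (c : ℂ) • at' v D.t0 := by
        funext i; simp [at']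
      have h2 : at' (c • Phi0 D u v) D.t0 = (c : ℂ) • at' (Phi0 D u v) D.t0 := by
        funext i; simp [at']
      rw [Phi0_t0, h1, h2, Phi0_t0]
      exact (reflL D D.t0 u hu).map_smul _ _
    · have h2 : at' (c • Phi0 D u v) t = c • at' (Phi0 D u v) t := rfl
      rw [Phi0_ne D u _ ht, h2, Phi0_ne D u _ ht]
      rfl

theorem Phi_apply (u : ι → ℂ) (hu : D.q D.t0 u ≠ 0) (v : ι → T → ℂ) :
    Phi D u hu v = Phi0 D u v := rfl

theorem Phi_det (u : ι → ℂ) (hu : D.q D.t0 u ≠ 0) :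
    |LinearMap.det (Phi D u hu : (ι → T → ℂ) →ₗ[ℝ] (ι → T → ℂ))| = 1 := by
  have h1 : (Phi D u hu : (ι → T → ℂ) →ₗ[ℝ] (ι → T → ℂ)) ∘ₗ
      (Phi D u hu : (ι → T → ℂ) →ₗ[ℝ] (ι → T → ℂ)) = LinearMap.id := by
    refine LinearMap.ext fun v => ?_
    exact Phi0_Phi0 D hu v
  have h2 := congrArg LinearMap.det h1
  rw [LinearMap.det_comp, LinearMap.det_id] at h2
  have h3 : |LinearMap.det (Phi D u hu : (ι → T → ℂ) →ₗ[ℝ] (ι → T → ℂ))| ^ 2 = 1 := by
    rw [sq_abs, sq, h2]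
  nlinarith [abs_nonneg (LinearMap.det (Phi D u hu : (ι → T → ℂ) →ₗ[ℝ] (ι → T → ℂ)))]

/-! ### Gram entries -/

/-- the `O`-valued form -/
def hO (v w : ι → D.O) : D.O :=
  ∑ i, (⟨fun t => (D.a i t : ℂ), D.a_mem i⟩ : D.O) *
    (v i * ⟨star ((w i : D.O) : T → ℂ), D.star_mem _ (w i).2⟩)

theorem hO_apply (v w : ι → D.O) (t : T) :
    ((hO D v w : D.O) : T → ℂ) t =
      D.h t (fun i => ((v i : D.O) : T → ℂ) t) (fun i => ((w i : D.O) : T → ℂ) t) := by
  unfold hO AD.h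
  rw [← AD.ev_apply, map_sum]
  refine Finset.sum_congr rfl fun i _ => ?_
  rw [map_mul, map_mul]
  rfl

/-- total weight -/
noncomputable def wt : ℝ := 1 + ∑ t, ∑ i, |D.a i t|

theorem wt_one_le : 1 ≤ wt D := by
  unfold wt
  have : 0 ≤ ∑ t, ∑ i, |D.a i t| := by positivity
  linarith

theorem wt_place (t : T) : ∑ i, |D.a i t| ≤ wt D := by
  unfold wt
  have h1 : ∑ i, |D.a i t| ≤ ∑ t, ∑ i, |D.a i t| :=
    Finset.single_le_sum (f := fun t => ∑ i, |D.a i t|) (fun s _ => by positivity)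
      (Finset.mem_univ t)
  linarith

theorem abs_h_le (t : T) {v w : ι → ℂ} {R : ℝ} (hR : 0 ≤ R) (hv : ∀ i, ‖v i‖ ≤ R)
    (hw : ∀ i, ‖w i‖ ≤ R) : ‖D.h t v w‖ ≤ wt D * R ^ 2 := by
  unfold AD.h
  refine (norm_sum_le _ _).trans ?_
  have h1 : ∀ i ∈ Finset.univ, ‖(D.a i t : ℂ) * (v i * conj (w i))‖ ≤ |D.a i t| * R ^ 2 := by
    intro i _
    rw [norm_mul, norm_mul, Complex.norm_real, Real.norm_eq_abs, RCLike.norm_conj, sq]
    gcongr
    · exact hv i
    · exact hw i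
  refine (Finset.sum_le_sum h1).trans ?_
  rw [← Finset.sum_mul]
  gcongr
  exact wt_place D t

theorem Nbound (t : T) {v : ι → ℂ} {R : ℝ} (hv : ∀ i, ‖v i‖ ≤ R) :
    D.N t v ≤ wt D * R ^ 2 := by
  unfold AD.N
  have h1 : ∀ i ∈ Finset.univ, |D.a i t| * ‖v i‖ ^ 2 ≤ |D.a i t| * R ^ 2 := by
    intro i _
    gcongr
    exact hv i
  refine (Finset.sum_le_sum h1).trans ?_
  rw [← Finset.sum_mul]
  gcongr
  exact wt_place D t


/-- the isometry property: at every place the form is preserved by `Phi0` -/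
theorem h_Phi {u : ι → ℂ} (hu : D.q D.t0 u ≠ 0) (t : T) (v w : ι → T → ℂ) :
    D.h t (at' (Phi0 D u v) t) (at' (Phi0 D u w) t) = D.h t (at' v t) (at' w t) := by
  by_cases ht : t = D.t0
  · subst ht
    rw [Phi0_t0, Phi0_t0, refl_isom D hu]
  · rw [Phi0_ne D u _ ht, Phi0_ne D u _ ht]

/-- **systole** -/
theorem systole {u : ι → ℂ} (hu : D.q D.t0 u ≠ 0) {v : ι → T → ℂ} (hv : v ∈ Lam D.toOrdT ι)
    (h0 : v ≠ 0) : (wt D)⁻¹ ≤ ‖Phi D u hu v‖ := by
  have : Nonempty T := ⟨D.t0⟩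
  have hv' : ∀ i, v i ∈ D.O := hv
  let vO : ι → D.O := fun i => ⟨v i, hv' i⟩
  have hne : ((hO D vO vO : D.O) : T → ℂ) ≠ 0 := by
    intro h
    obtain ⟨i, hi⟩ : ∃ i, v i ≠ 0 := by
      by_contra h'
      push Not at h'
      exact h0 (funext h')
    have h1 : v i D.t1 ≠ 0 := ne_zero_of_mem D.toOrdT (hv' i) hi D.t1
    have h2 := congrFun h D.t1
    rw [hO_apply, h_self, Pi.zero_apply] at h2
    have h3 : D.q D.t1 (fun i => ((vO i : D.O) : T → ℂ) D.t1) = 0 := by exact_mod_cast h2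
    have h4 : 0 < D.q D.t1 (fun i => ((vO i : D.O) : T → ℂ) D.t1) := by
      unfold AD.q
      refine Finset.sum_pos' (fun j _ => ?_) ⟨i, Finset.mem_univ i, ?_⟩
      · have := D.pos D.t1 D.ht j
        positivity
      · have := D.pos D.t1 D.ht i
        have h5 : 0 < ‖v i D.t1‖ := norm_pos_iff.2 h1
        show 0 < D.a i D.t1 * ‖v i D.t1‖ ^ 2
        positivity
    linarith
  obtain ⟨t, ht⟩ := exists_one_le D.toOrdT (hO D vO vO).2 hne
  rw [hO_apply] at ht
  have ht' : 1 ≤ ‖D.h t (at' v t) (at' v t)‖ := ht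
  rw [← h_Phi D hu] at ht'
  rw [h_self, Complex.norm_real, Real.norm_eq_abs] at ht'
  have h1 : D.N t (at' (Phi0 D u v) t) ≤ wt D * ‖Phi D u hu v‖ ^ 2 := by
    refine Nbound D t fun i => ?_
    exact (norm_le_pi_norm (Phi0 D u v i) t).trans (norm_le_pi_norm (Phi0 D u v) i)
  have h2 : 1 ≤ wt D * ‖Phi D u hu v‖ ^ 2 := (ht'.trans (abs_q_le D t _)).trans h1
  have hw := wt_one_le D
  by_contra hlt
  push Not at hlt
  have h3 : ‖Phi D u hu v‖ ^ 2 < ((wt D)⁻¹) ^ 2 := by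
    have := norm_nonneg (Phi D u hu v)
    gcongr
  have h4 : wt D * ‖Phi D u hu v‖ ^ 2 < wt D * ((wt D)⁻¹) ^ 2 := by
    gcongr
  have h5 : wt D * ((wt D)⁻¹) ^ 2 = (wt D)⁻¹ := by
    field_simp
  have h6 : (wt D)⁻¹ ≤ 1 := inv_le_one_of_one_le₀ hw
  linarith

end Crest.Agent.R272.Ball2_916
end

-- ▼ part R272/Ball3_916
section

/-! Row 272 (helper916): **compactness**: every negative vector is `SU(h;O)`-equivalent to a bounded
one. -/

set_option autoImplicit false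
set_option linter.unusedSectionVars false

namespace Crest.Agent.R272.Ball3_916

open Matrix Finset Module
open scoped ComplexConjugate
open Crest.Agent.R272.BallDefs_916 Crest.Agent.R272.Ball1_916 Crest.Agent.R272.Ball2_916

variable {T : Type} [Fintype T] {ι : Type} [Fintype ι] [DecidableEq ι] (D : AD T ι)

/-- the matrix at a place -/
def gm (g : Matrix ι ι D.O) (t : T) : Matrix ι ι ℂ := g.map (D.ev t)


theorem gm_mul (g g' : Matrix ι ι D.O) (t : T) : gm D (g * g') t = gm D g t * gm D g' t :=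
  Matrix.map_mul

theorem gm_one (t : T) : gm D 1 t = 1 := by
  unfold gm
  exact Matrix.map_one _ (map_zero _) (map_one _)

theorem gm_det (g : Matrix ι ι D.O) (t : T) : (gm D g t).det = D.ev t g.det :=
  (RingHom.map_det (D.ev t) g).symm

/-- unitary matrices over `O` -/
def Uni (g : Matrix ι ι D.O) : Prop :=
  ∀ t v w, D.h t (gm D g t *ᵥ v) (gm D g t *ᵥ w) = D.h t v w

/-- column of a matrix over `O` -/
def col (W : Matrix ι ι D.O) (i : ι) : ι → D.O := fun j => W j i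

/-- Gram matrix of the columns -/
def gram (W : Matrix ι ι D.O) : Matrix ι ι D.O := Matrix.of fun i j => hO D (col D W i) (col D W j)

theorem gm_col (W : Matrix ι ι D.O) (t : T) (i : ι) :
    gm D W t *ᵥ Pi.single i 1 = fun j => ((col D W i j : D.O) : T → ℂ) t := by
  funext j
  simp [gm, col, AD.ev_apply]

theorem gram_apply (W : Matrix ι ι D.O) (i j : ι) (t : T) :
    ((gram D W i j : D.O) : T → ℂ) t =
      D.h t (gm D W t *ᵥ Pi.single i 1) (gm D W t *ᵥ Pi.single j 1) := by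
  rw [gm_col, gm_col]
  exact hO_apply D _ _ t

theorem h_sum_left (t : T) (c : ι → ℂ) (f : ι → ι → ℂ) (w : ι → ℂ) :
    D.h t (∑ i, c i • f i) w = ∑ i, c i * D.h t (f i) w := by
  have : ∀ s : Finset ι, D.h t (∑ i ∈ s, c i • f i) w = ∑ i ∈ s, c i * D.h t (f i) w := by
    intro s
    induction s using Finset.induction_on with
    | empty => simp [AD.h]
    | insert a s ha ih => rw [Finset.sum_insert ha, Finset.sum_insert ha, h_add_left, h_smul_left, ih]
  exact this _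

theorem h_sum_right (t : T) (c : ι → ℂ) (f : ι → ι → ℂ) (w : ι → ℂ) :
    D.h t w (∑ i, c i • f i) = ∑ i, conj (c i) * D.h t w (f i) := by
  rw [← h_conj, h_sum_left, map_sum]
  refine Finset.sum_congr rfl fun i _ => ?_
  rw [map_mul, h_conj]

theorem vec_eq (c : ι → ℂ) : c = ∑ i, c i • (Pi.single i (1 : ℂ) : ι → ℂ) := by
  conv_lhs => rw [← Finset.univ_sum_single c]
  refine Finset.sum_congr rfl fun i _ => ?_
  rw [← Pi.single_smul, smul_eq_mul, mul_one]

theorem mulVec_eq (M : Matrix ι ι ℂ) (c : ι → ℂ) :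
    M *ᵥ c = ∑ i, c i • (M *ᵥ (Pi.single i (1 : ℂ) : ι → ℂ)) := by
  conv_lhs => rw [vec_eq c]
  rw [Matrix.mulVec_sum]
  refine Finset.sum_congr rfl fun i _ => ?_
  rw [Matrix.mulVec_smul]

/-- the form in terms of the Gram matrix -/
theorem h_gram (W : Matrix ι ι D.O) (t : T) (v w : ι → ℂ) :
    D.h t (gm D W t *ᵥ v) (gm D W t *ᵥ w) =
      ∑ i, ∑ j, v i * conj (w j) * ((gram D W i j : D.O) : T → ℂ) t := by
  rw [mulVec_eq (gm D W t) v, mulVec_eq (gm D W t) w, h_sum_left]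
  refine Finset.sum_congr rfl fun i _ => ?_
  rw [h_sum_right, Finset.mul_sum]
  refine Finset.sum_congr rfl fun j _ => ?_
  rw [gram_apply]; ring

/-- two frames with the same Gram matrix and `W' = g W`, `det W ≠ 0` at all places: `g` unitary -/
theorem uni_of_gram {W W' g : Matrix ι ι D.O} (hW : W.det ≠ 0) (hG : gram D W = gram D W')
    (hg : g * W = W') : Uni D g := by
  intro t v w
  have hd : (gm D W t).det ≠ 0 := by
    rw [gm_det]
    have h1 : ((W.det : D.O) : T → ℂ) ≠ 0 := by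
      intro h; exact hW (Subtype.ext h)
    exact ne_zero_of_mem D.toOrdT W.det.2 h1 t
  have hu : IsUnit (gm D W t).det := isUnit_iff_ne_zero.2 hd
  have hinv : gm D W t * (gm D W t)⁻¹ = 1 := Matrix.mul_nonsing_inv _ hu
  have hv : ∀ v : ι → ℂ, v = gm D W t *ᵥ ((gm D W t)⁻¹ *ᵥ v) := by
    intro v
    rw [Matrix.mulVec_mulVec, hinv, Matrix.one_mulVec]
  have hgv : ∀ v : ι → ℂ, gm D g t *ᵥ v = gm D W' t *ᵥ ((gm D W t)⁻¹ *ᵥ v) := by
    intro v
    conv_lhs => rw [hv v]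
    rw [Matrix.mulVec_mulVec, ← gm_mul, hg]
  rw [hgv v, hgv w, h_gram, ← hG, ← h_gram, ← hv v, ← hv w]

/-! ### frames of bounded vectors -/

/-- a spanning set of `ι → ℂ` contains a basis -/
theorem exists_frame {S : Set (ι → ℂ)} (hS : Submodule.span ℂ S = ⊤) :
    ∃ w : ι → (ι → ℂ), (∀ i, w i ∈ S) ∧ LinearIndependent ℂ w := by
  obtain ⟨b, hbS, hb, hli⟩ := exists_linearIndependent ℂ S
  rw [hS] at hb
  have hbas : Basis b ℂ (ι → ℂ) := Basis.mk hli (by rw [Subtype.range_coe]; exact hb.ge)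
  have hfin : Fintype b := FiniteDimensional.fintypeBasisIndex hbas
  have hcard : Fintype.card b = Fintype.card ι := by
    rw [← Module.finrank_eq_card_basis hbas, Module.finrank_fintype_fun_eq_card]
  let e : ι ≃ b := (Fintype.equivOfCardEq hcard).symm
  refine ⟨fun i => (e i : ι → ℂ), fun i => hbS (e i).2, ?_⟩
  exact hli.comp e e.injective

/-- **bounded frame** -/
theorem bounded_frame : ∃ R : ℝ, 0 ≤ R ∧ ∀ (u : ι → ℂ) (hu : D.q D.t0 u ≠ 0),
    ∃ W : Matrix ι ι D.O, W.det ≠ 0 ∧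
      ∀ i, ‖Phi D u hu (fun j => ((W j i : D.O) : T → ℂ))‖ ≤ R := by
  have : Nonempty T := ⟨D.t0⟩
  have hw := wt_one_le D
  obtain ⟨R, hR⟩ := short_span (Lam D.toOrdT ι) (κ := (wt D)⁻¹) (by positivity)
  refine ⟨max R 0, le_max_right _ _, fun u hu => ?_⟩
  have h1 := hR (Phi D u hu) (Phi_det D u hu) (fun x hx hx0 => systole D hu hx hx0)
  -- go to the place t0
  set S : Set (ι → ℂ) := {w | ∃ v : ι → T → ℂ, v ∈ Lam D.toOrdT ι ∧ ‖Phi D u hu v‖ ≤ R ∧
    w = at' v D.t0} with hS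
  have h2 : Submodule.span ℂ S = ⊤ := by
    rw [eq_top_iff]
    intro y _
    -- lift y
    classical
    let Y : ι → T → ℂ := fun i t => if t = D.t0 then y i else 0
    have hY : Phi D u hu Y ∈ (⊤ : Submodule ℝ (ι → T → ℂ)) := trivial
    rw [← h1] at hY
    have key : ∀ x ∈ Submodule.span ℝ (Phi D u hu '' {x | x ∈ Lam D.toOrdT ι ∧ ‖Phi D u hu x‖ ≤ R}),
        at' ((Phi D u hu).symm x) D.t0 ∈ Submodule.span ℂ S := by
      intro x hx
      induction hx using Submodule.span_induction with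
      | mem x hx =>
        obtain ⟨v, ⟨hv1, hv2⟩, rfl⟩ := hx
        rw [LinearEquiv.symm_apply_apply]
        exact Submodule.subset_span ⟨v, hv1, hv2, rfl⟩
      | zero =>
        rw [map_zero]
        exact Submodule.zero_mem _
      | add x y _ _ hx hy =>
        rw [map_add]
        exact Submodule.add_mem _ hx hy
      | smul c x _ hx =>
        rw [map_smul]
        have : at' (c • (Phi D u hu).symm x) D.t0 = (c : ℂ) • at' ((Phi D u hu).symm x) D.t0 := by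
          funext i; simp [at']
        rw [this]
        exact Submodule.smul_mem _ _ hx
    have h3 := key _ hY
    rw [LinearEquiv.symm_apply_apply] at h3
    have h4 : at' Y D.t0 = y := by
      funext i; simp [at', Y]
    rwa [h4] at h3
  obtain ⟨w, hwS, hli⟩ := exists_frame h2
  choose v hv1 hv2 hv3 using hwS
  have hmem : ∀ i j, v i j ∈ D.O := fun i j => hv1 i j
  let W : Matrix ι ι D.O := Matrix.of fun j i => (⟨v i j, hmem i j⟩ : D.O)
  refine ⟨W, ?_, ?_⟩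
  · intro h
    have h5 : (gm D W D.t0).det = 0 := by
      rw [gm_det, h, map_zero]
    have h6 : LinearIndependent ℂ (fun i => (gm D W D.t0)ᵀ i) := by
      have : (fun i => (gm D W D.t0)ᵀ i) = w := by
        funext i j
        rw [hv3 i]
        rfl
      rw [this]; exact hli
    have h7 : IsUnit (gm D W D.t0)ᵀ := Matrix.linearIndependent_rows_iff_isUnit.1 h6
    rw [Matrix.isUnit_iff_isUnit_det, Matrix.det_transpose, h5] at h7
    exact not_isUnit_zero h7
  · intro i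
    exact (hv2 i).trans (le_max_left _ _)

/-- control of `y` by its products with a frame -/
theorem control (W : Matrix ι ι D.O) (hW : W.det ≠ 0) (B : ℝ) (hB : 0 ≤ B) :
    ∃ C : ℝ, ∀ y : ι → ℂ, D.Neg y →
      (∀ i, ‖D.h D.t0 (gm D W D.t0 *ᵥ Pi.single i 1) y‖ ^ 2 ≤ B * (- D.q D.t0 y)) →
      ∀ j, ‖y j‖ ^ 2 ≤ C * (- D.q D.t0 y) := by
  have hd : (gm D W D.t0).det ≠ 0 := by
    rw [gm_det]
    have h1 : ((W.det : D.O) : T → ℂ) ≠ 0 := by
      intro h; exact hW (Subtype.ext h)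
    exact ne_zero_of_mem D.toOrdT W.det.2 h1 D.t0
  set M : Matrix ι ι ℂ := gm D W D.t0 with hM
  have hinv : M * M⁻¹ = 1 := Matrix.mul_nonsing_inv _ (isUnit_iff_ne_zero.2 hd)
  -- the constant
  set A : ι → ℝ := fun j => (∑ i, ‖M⁻¹ i j‖) / |D.a j D.t0| with hA
  refine ⟨(∑ j, (A j) ^ 2) * B, fun y hy hyb j => ?_⟩
  have hq : 0 < - D.q D.t0 y := by unfold AD.Neg at hy; linarith
  -- a_j conj y_j = h(e_j, y) = ∑ i, Minv i j * h(M e_i, y)
  have h1 : (D.a j D.t0 : ℂ) * conj (y j) = ∑ i, M⁻¹ i j * D.h D.t0 (M *ᵥ Pi.single i 1) y := by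
    have h2 : (Pi.single j (1 : ℂ) : ι → ℂ) = M *ᵥ (M⁻¹ *ᵥ Pi.single j 1) := by
      rw [Matrix.mulVec_mulVec, hinv, Matrix.one_mulVec]
    have h3 : D.h D.t0 (Pi.single j (1 : ℂ) : ι → ℂ) y = (D.a j D.t0 : ℂ) * conj (y j) := by
      unfold AD.h
      rw [Finset.sum_eq_single j]
      · simp
      · intro i _ hi
        simp [Pi.single_eq_of_ne hi]
      · simp
    rw [← h3]
    conv_lhs => rw [h2]
    rw [mulVec_eq M, h_sum_left]
    refine Finset.sum_congr rfl fun i _ => ?_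
    congr 1
    simp
  have hs : ∀ i, ‖D.h D.t0 (M *ᵥ Pi.single i 1) y‖ ≤ Real.sqrt (B * (- D.q D.t0 y)) := by
    intro i
    exact Real.le_sqrt_of_sq_le (hyb i)
  have h4 : |D.a j D.t0| * ‖y j‖ ≤ (∑ i, ‖M⁻¹ i j‖) * Real.sqrt (B * (- D.q D.t0 y)) := by
    have h5 : ‖(D.a j D.t0 : ℂ) * conj (y j)‖ = |D.a j D.t0| * ‖y j‖ := by
      rw [norm_mul, Complex.norm_real, Real.norm_eq_abs, RCLike.norm_conj]
    rw [← h5, h1, Finset.sum_mul]
    refine (norm_sum_le _ _).trans (Finset.sum_le_sum fun i _ => ?_)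
    rw [norm_mul]
    gcongr
    exact hs i
  have haj : 0 < |D.a j D.t0| := abs_pos.2 (a_ne D D.t0 j)
  have h6 : ‖y j‖ ≤ A j * Real.sqrt (B * (- D.q D.t0 y)) := by
    rw [hA]
    simp only
    rw [div_mul_eq_mul_div, le_div_iff₀ haj]
    linarith
  have hA0 : 0 ≤ A j := by rw [hA]; positivity
  have h7 : ‖y j‖ ^ 2 ≤ (A j) ^ 2 * (B * (- D.q D.t0 y)) := by
    calc ‖y j‖ ^ 2 ≤ (A j * Real.sqrt (B * (- D.q D.t0 y))) ^ 2 := by gcongr
      _ = (A j) ^ 2 * (B * (- D.q D.t0 y)) := by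
        rw [mul_pow, Real.sq_sqrt (by positivity)]
  have h8 : (A j) ^ 2 ≤ ∑ j, (A j) ^ 2 :=
    Finset.single_le_sum (f := fun j => (A j) ^ 2) (fun i _ => by positivity) (Finset.mem_univ j)
  calc ‖y j‖ ^ 2 ≤ (A j) ^ 2 * (B * (- D.q D.t0 y)) := h7
    _ ≤ (∑ j, (A j) ^ 2) * (B * (- D.q D.t0 y)) := by gcongr
    _ = _ := by ring

end Crest.Agent.R272.Ball3_916
end

-- ▼ part R272/Ball4_916
section

/-! Row 272 (helper916): **compactness theorem (B1)**. -/

set_option autoImplicit false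
set_option linter.unusedSectionVars false

namespace Crest.Agent.R272.Ball4_916

open Matrix Finset Module
open scoped ComplexConjugate
open Crest.Agent.R272.BallDefs_916 Crest.Agent.R272.Ball1_916 Crest.Agent.R272.Ball2_916
open Crest.Agent.R272.Ball3_916

variable {T : Type} [Fintype T] {ι : Type} [Fintype ι] [DecidableEq ι] (D : AD T ι)

theorem q_refl {t : T} {u : ι → ℂ} (hu : D.q t u ≠ 0) (v : ι → ℂ) :
    D.q t (refl D t u v) = D.q t v := by
  have h1 : ((D.q t (refl D t u v) : ℝ) : ℂ) = ((D.q t v : ℝ) : ℂ) := by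
    rw [← h_self, refl_isom D hu, h_self]
  exact_mod_cast h1

/-- `|h(v,z)|^2 ≤ (-q z) |a_o| |(J v)_o|^2` where `J z = μ eo` -/
theorem h_z_eq {u z : ι → ℂ} (hu : D.q D.t0 u ≠ 0) {μ : ℂ} (hz : refl D D.t0 u z = μ • eo D)
    (v : ι → ℂ) : ‖D.h D.t0 v z‖ ^ 2 =
      (- D.q D.t0 z) * (|D.a D.o D.t0| * ‖refl D D.t0 u v D.o‖ ^ 2) := by
  have h1 : D.h D.t0 v z = conj μ * ((D.a D.o D.t0 : ℂ) * refl D D.t0 u v D.o) := by
    rw [← refl_isom D hu, hz, h_smul_right, h_eo]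
  have h2 : D.q D.t0 z = ‖μ‖ ^ 2 * D.a D.o D.t0 := by
    rw [← q_refl D hu, hz, q_smul, q_eo]
  have h3 : |D.a D.o D.t0| = - D.a D.o D.t0 := abs_of_neg D.neg
  rw [h1, h2, norm_mul, norm_mul, RCLike.norm_conj, Complex.norm_real, Real.norm_eq_abs, h3]
  ring

/-- everything we need about a frame adapted to `z` -/
theorem frame_of_z : ∃ B : ℝ, 0 ≤ B ∧ ∀ z : ι → ℂ, D.Neg z → ∃ W : Matrix ι ι D.O, W.det ≠ 0 ∧
    (∀ i j t, ‖((Ball3_916.gram D W i j : D.O) : T → ℂ) t‖ ≤ B) ∧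
    (∀ t, ‖((W.det : D.O) : T → ℂ) t‖ ≤ B) ∧
    (∀ i, ‖D.h D.t0 (gm D W D.t0 *ᵥ Pi.single i 1) z‖ ^ 2 ≤ B * (- D.q D.t0 z)) := by
  obtain ⟨R, hR0, hR⟩ := bounded_frame D
  have hw := wt_one_le D
  set B1 : ℝ := wt D * R ^ 2 with hB1
  set B2 : ℝ := (Nat.factorial (Fintype.card ι) : ℝ) * R ^ Fintype.card ι with hB2
  have hB1' : 0 ≤ B1 := by positivity
  have hB2' : 0 ≤ B2 := by positivity
  refine ⟨B1 + B2, by positivity, fun z hz => ?_⟩
  obtain ⟨u, hu1, ⟨μ, hμ⟩, -⟩ := exists_u D hz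
  have hu : D.q D.t0 u ≠ 0 := (lt_of_le_of_lt hu1 D.neg).ne
  obtain ⟨W, hWd, hW⟩ := hR u hu
  set c : ι → (ι → T → ℂ) := fun i => (fun j => ((W j i : D.O) : T → ℂ)) with hc
  have hcol : ∀ i t, gm D W t *ᵥ Pi.single i 1 = at' (c i) t := by
    intro i t
    rw [gm_col]
    rfl
  have hent : ∀ i t j, ‖at' (Phi0 D u (c i)) t j‖ ≤ R := by
    intro i t j
    have h1 := hW i
    rw [Phi_apply] at h1
    exact ((norm_le_pi_norm (Phi0 D u (c i) j) t).trans (norm_le_pi_norm (Phi0 D u (c i)) j)).trans h1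
  refine ⟨W, hWd, ?_, ?_, ?_⟩
  · intro i j t
    rw [Ball3_916.gram_apply, hcol, hcol, ← h_Phi D hu]
    refine (abs_h_le D t hR0 (hent i t) (hent j t)).trans ?_
    linarith
  · intro t
    have hdet : ‖(gm D W t).det‖ ≤ B2 := by
      set M : Matrix ι ι ℂ := Matrix.of fun j i => at' (Phi0 D u (c i)) t j with hM
      have hMb : ‖M.det‖ ≤ B2 := by
        have h1 := Matrix.det_le (A := M) (abv := NormedField.toAbsoluteValue ℂ) (x := R)
          (fun j i => hent i t j)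
        rw [nsmul_eq_mul] at h1
        exact h1
      by_cases ht : t = D.t0
      · subst ht
        set J : Matrix ι ι ℂ := LinearMap.toMatrix' (reflL D D.t0 u hu : (ι → ℂ) →ₗ[ℂ] (ι → ℂ)) with hJ
        have hJM : J * gm D W D.t0 = M := by
          ext j i
          have h2 : (J * gm D W D.t0) *ᵥ Pi.single i 1 = M *ᵥ Pi.single i 1 := by
            rw [← Matrix.mulVec_mulVec, hcol, hJ, LinearMap.toMatrix'_mulVec]
            have h3 : M *ᵥ Pi.single i 1 = at' (Phi0 D u (c i)) D.t0 := by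
              funext j
              simp [hM]
            rw [h3, Phi0_t0]
            rfl
          have h4 := congrFun h2 j
          simpa using h4
        have hJJ : J * J = 1 := by
          rw [hJ, ← LinearMap.toMatrix'_comp]
          have : (reflL D D.t0 u hu : (ι → ℂ) →ₗ[ℂ] (ι → ℂ)) ∘ₗ
              (reflL D D.t0 u hu : (ι → ℂ) →ₗ[ℂ] (ι → ℂ)) = LinearMap.id := by
            refine LinearMap.ext fun v => ?_
            exact refl_refl D hu v
          rw [this, LinearMap.toMatrix'_id]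
        have hJd : ‖J.det‖ = 1 := by
          have h5 := congrArg Matrix.det hJJ
          rw [Matrix.det_mul, Matrix.det_one] at h5
          have h6 : ‖J.det‖ ^ 2 = 1 := by rw [sq, ← norm_mul, h5, norm_one]
          nlinarith [norm_nonneg J.det]
        have h7 : ‖M.det‖ = ‖(gm D W D.t0).det‖ := by
          rw [← hJM, Matrix.det_mul, norm_mul, hJd, one_mul]
        rw [← h7]; exact hMb
      · have : M = gm D W t := by
          ext j i
          rw [hM]
          simp only [Matrix.of_apply]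
          rw [Phi0_ne D u _ ht]
          rfl
        rw [← this]; exact hMb
    rw [gm_det] at hdet
    have h8 : ‖((W.det : D.O) : T → ℂ) t‖ ≤ B2 := hdet
    linarith
  · intro i
    rw [hcol, h_z_eq D hu hμ]
    have hq : 0 < - D.q D.t0 z := by unfold AD.Neg at hz; linarith
    have h1 : |D.a D.o D.t0| * ‖refl D D.t0 u (at' (c i) D.t0) D.o‖ ^ 2 ≤ B1 := by
      have h2 : |D.a D.o D.t0| ≤ wt D :=
        (Finset.single_le_sum (f := fun i => |D.a i D.t0|) (fun i _ => abs_nonneg _)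
          (Finset.mem_univ D.o)).trans (wt_place D D.t0)
      have h3 : ‖refl D D.t0 u (at' (c i) D.t0) D.o‖ ≤ R := by
        rw [← Phi0_t0]; exact hent i D.t0 D.o
      rw [hB1]
      gcongr
    have h4 : |D.a D.o D.t0| * ‖refl D D.t0 u (at' (c i) D.t0) D.o‖ ^ 2 ≤ B1 + B2 := by linarith
    calc (- D.q D.t0 z) * (|D.a D.o D.t0| * ‖refl D D.t0 u (at' (c i) D.t0) D.o‖ ^ 2)
        ≤ (- D.q D.t0 z) * (B1 + B2) := by gcongr
      _ = _ := by ring

/-- **(B1) Compactness.** Every negative vector is `SU(h;O)`-equivalent to a `C`-bounded one. -/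
theorem compactness : ∃ C : ℝ, ∀ z : ι → ℂ, D.Neg z → ∃ g : Matrix ι ι D.O,
    g.det = 1 ∧ Uni D g ∧ D.Bdd C (gm D g D.t0 *ᵥ z) := by
  classical
  have : Nonempty T := ⟨D.t0⟩
  obtain ⟨B, hB0, hB⟩ := frame_of_z D
  obtain ⟨R0, hR00, hR0⟩ := exists_approx D.toOrdT
  -- the finite set of classes
  set 𝒮 : Set ((Matrix ι ι D.O) × D.O × (Matrix ι ι D.O)) :=
    {M : Matrix ι ι D.O | ∀ i j t, ‖((M i j : D.O) : T → ℂ) t‖ ≤ B} ×ˢ
      ({x : D.O | ∀ t, ‖(x : T → ℂ) t‖ ≤ B} ×ˢ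
        {M : Matrix ι ι D.O | ∀ i j t, ‖((M i j : D.O) : T → ℂ) t‖ ≤ R0 * B}) with h𝒮
  have hfin : 𝒮.Finite :=
    (finite_bdd_mat D.toOrdT B).prod ((finite_bdd D.toOrdT B).prod (finite_bdd_mat D.toOrdT (R0 * B)))
  -- representatives and constants
  have hrep : ∀ s : (Matrix ι ι D.O) × D.O × (Matrix ι ι D.O), ∃ C : ℝ,
      ∀ W Q : Matrix ι ι D.O, W.det ≠ 0 → Ball3_916.gram D W = s.1 → W.det = s.2.1 →
        W - W.det • Q = s.2.2 → ∀ z : ι → ℂ, D.Neg z →
        (∀ i, ‖D.h D.t0 (gm D W D.t0 *ᵥ Pi.single i 1) z‖ ^ 2 ≤ B * (- D.q D.t0 z)) →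
        ∃ g : Matrix ι ι D.O, g.det = 1 ∧ Uni D g ∧ D.Bdd C (gm D g D.t0 *ᵥ z) := by
    intro s
    by_cases hs : ∃ W Q : Matrix ι ι D.O, W.det ≠ 0 ∧ Ball3_916.gram D W = s.1 ∧ W.det = s.2.1 ∧
        W - W.det • Q = s.2.2
    swap
    · exact ⟨0, fun W Q h1 h2 h3 h4 => absurd ⟨W, Q, h1, h2, h3, h4⟩ hs⟩
    obtain ⟨W', Q', h1', h2', h3', h4'⟩ := hs
    obtain ⟨C, hC⟩ := control D W' h1' B hB0
    refine ⟨C, fun W Q h1 h2 h3 h4 z hz hzb => ?_⟩
    set g : Matrix ι ι D.O := 1 + (Q' - Q) * W.adjugate with hg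
    have hδ : W.det = W'.det := h3.trans h3'.symm
    have hgW : g * W = W' := by
      rw [hg, add_mul, one_mul, Matrix.mul_assoc, Matrix.adjugate_mul, Matrix.mul_smul,
        Matrix.mul_one]
      have h5 : W - W.det • Q = W' - W.det • Q' := by rw [h4, ← h4', hδ]
      rw [smul_sub]
      have h6 : W' = W - W.det • Q + W.det • Q' := by rw [h5]; abel
      rw [h6]; abel
    have hdet : g.det = 1 := by
      have h5 := congrArg Matrix.det hgW
      rw [Matrix.det_mul, ← hδ] at h5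
      have h6 : (g.det - 1) * W.det = 0 := by rw [sub_mul, h5, one_mul, sub_self]
      have h7 : ((W.det : D.O) : T → ℂ) ≠ 0 := by
        intro h; exact h1 (Subtype.ext h)
      have h8 : g.det - 1 = 0 := by
        apply Subtype.ext
        funext t
        have h9 : ((W.det : D.O) : T → ℂ) t ≠ 0 := ne_zero_of_mem D.toOrdT W.det.2 h7 t
        have h10 := congrFun (congrArg (fun x : D.O => (x : T → ℂ)) h6) t
        have h11 : (((g.det - 1 : D.O) : T → ℂ) t) * (((W.det : D.O) : T → ℂ) t) = 0 := h10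
        rcases mul_eq_zero.1 h11 with h | h
        · exact h
        · exact absurd h h9
      exact sub_eq_zero.1 h8
    have huni : Uni D g := uni_of_gram D h1 (h2.trans h2'.symm) hgW
    refine ⟨g, hdet, huni, ?_⟩
    have hq : D.q D.t0 (gm D g D.t0 *ᵥ z) = D.q D.t0 z := by
      have h5 : ((D.q D.t0 (gm D g D.t0 *ᵥ z) : ℝ) : ℂ) = ((D.q D.t0 z : ℝ) : ℂ) := by
        rw [← h_self, huni, h_self]
      exact_mod_cast h5
    have hneg : D.Neg (gm D g D.t0 *ᵥ z) := by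
      unfold AD.Neg
      rw [hq]; exact hz
    refine ⟨hneg, hC _ hneg fun i => ?_⟩
    have h5 : gm D W' D.t0 *ᵥ Pi.single i 1 = gm D g D.t0 *ᵥ (gm D W D.t0 *ᵥ Pi.single i 1) := by
      rw [Matrix.mulVec_mulVec, ← gm_mul, hgW]
    rw [h5, huni, hq]
    exact hzb i
  choose Cf hCf using hrep
  refine ⟨∑ s ∈ hfin.toFinset, |Cf s|, fun z hz => ?_⟩
  obtain ⟨W, hW1, hW2, hW3, hW4⟩ := hB z hz
  -- approximate W / det
  have hdne : ∀ t, ((W.det : D.O) : T → ℂ) t ≠ 0 := by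
    intro t
    have h7 : ((W.det : D.O) : T → ℂ) ≠ 0 := by
      intro h; exact hW1 (Subtype.ext h)
    exact ne_zero_of_mem D.toOrdT W.det.2 h7 t
  have happ : ∀ i j, ∃ x : D.O, ∀ t,
      ‖((W i j : D.O) : T → ℂ) t / ((W.det : D.O) : T → ℂ) t - (x : T → ℂ) t‖ ≤ R0 := by
    intro i j
    obtain ⟨x, hx, hxb⟩ := hR0 (fun t => ((W i j : D.O) : T → ℂ) t / ((W.det : D.O) : T → ℂ) t)
    exact ⟨⟨x, hx⟩, hxb⟩
  choose Qf hQf using happ
  let Q : Matrix ι ι D.O := Matrix.of Qf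
  set s : (Matrix ι ι D.O) × D.O × (Matrix ι ι D.O) := (Ball3_916.gram D W, W.det, W - W.det • Q) with hs
  have hmem : s ∈ 𝒮 := by
    refine ⟨fun i j t => hW2 i j t, fun t => hW3 t, fun i j t => ?_⟩
    have h1 : (((W - W.det • Q) i j : D.O) : T → ℂ) t =
        ((W.det : D.O) : T → ℂ) t * (((W i j : D.O) : T → ℂ) t / ((W.det : D.O) : T → ℂ) t -
          ((Qf i j : D.O) : T → ℂ) t) := by
      have h2 : (((W - W.det • Q) i j : D.O) : T → ℂ) t =
        ((W i j : D.O) : T → ℂ) t - ((W.det : D.O) : T → ℂ) t * ((Qf i j : D.O) : T → ℂ) t := rfl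
      rw [h2]
      have := hdne t
      field_simp
    show ‖(((W - W.det • Q) i j : D.O) : T → ℂ) t‖ ≤ R0 * B
    rw [h1, norm_mul, mul_comm]
    gcongr
    · exact hQf i j t
    · exact hW3 t
  obtain ⟨g, hg1, hg2, hg3⟩ := hCf s W Q hW1 rfl rfl rfl z hz hW4
  refine ⟨g, hg1, hg2, hg3.1, fun i => (hg3.2 i).trans ?_⟩
  have h5 : |Cf s| ≤ ∑ s ∈ hfin.toFinset, |Cf s| :=
    Finset.single_le_sum (f := fun s => |Cf s|) (fun s _ => abs_nonneg _)
      (hfin.mem_toFinset.2 hmem)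
  have h6 : 0 < - D.q D.t0 (gm D g D.t0 *ᵥ z) := by
    have := hg3.1
    unfold AD.Neg at this
    linarith
  have h7 : Cf s ≤ |Cf s| := le_abs_self _
  gcongr
  exact h7.trans h5

end Crest.Agent.R272.Ball4_916
end

-- ▼ part R272/Ball5_916
section

/-! Row 272 (helper916): **compactness for principal congruence subgroups** of `SU(h;O)`. -/

set_option autoImplicit false
set_option linter.unusedSectionVars false

namespace Crest.Agent.R272.Ball5_916

open Matrix Finset Module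
open scoped ComplexConjugate
open Crest.Agent.R272.BallDefs_916 Crest.Agent.R272.Ball1_916 Crest.Agent.R272.Ball2_916
open Crest.Agent.R272.Ball3_916 Crest.Agent.R272.Ball4_916

variable {T : Type} [Fintype T] {ι : Type} [Fintype ι] [DecidableEq ι] (D : AD T ι)

theorem uni_q {g : Matrix ι ι D.O} (hg : Uni D g) (t : T) (v : ι → ℂ) :
    D.q t (gm D g t *ᵥ v) = D.q t v := by
  have h5 : ((D.q t (gm D g t *ᵥ v) : ℝ) : ℂ) = ((D.q t v : ℝ) : ℂ) := by
    rw [← h_self, hg, h_self]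
  exact_mod_cast h5

theorem uni_mul {g g' : Matrix ι ι D.O} (hg : Uni D g) (hg' : Uni D g') : Uni D (g * g') := by
  intro t v w
  rw [gm_mul, ← Matrix.mulVec_mulVec, ← Matrix.mulVec_mulVec, hg, hg']

theorem uni_inv {g g' : Matrix ι ι D.O} (hg : Uni D g) (h : g * g' = 1) : Uni D g' := by
  intro t v w
  have h1 : ∀ v : ι → ℂ, gm D g t *ᵥ (gm D g' t *ᵥ v) = v := by
    intro v
    rw [Matrix.mulVec_mulVec, ← gm_mul, h, gm_one, Matrix.one_mulVec]
  rw [← hg t (gm D g' t *ᵥ v) (gm D g' t *ᵥ w), h1, h1]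


/-- a unitary matrix moves bounded vectors to bounded vectors -/
theorem bdd_move {g : Matrix ι ι D.O} (hg : Uni D g) (C : ℝ) :
    ∃ C' : ℝ, ∀ z, D.Bdd C z → D.Bdd C' (gm D g D.t0 *ᵥ z) := by
  set A : ℝ := ∑ i, ∑ j, ‖gm D g D.t0 i j‖ with hA
  refine ⟨A ^ 2 * |C|, fun z hz => ⟨?_, fun i => ?_⟩⟩
  · unfold AD.Neg
    rw [uni_q D hg]; exact hz.1
  · rw [uni_q D hg]
    have hq : 0 < - D.q D.t0 z := by
      have := hz.1
      unfold AD.Neg at this
      linarith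
    have h1 : ∀ j, ‖z j‖ ≤ Real.sqrt (|C| * (- D.q D.t0 z)) := by
      intro j
      refine Real.le_sqrt_of_sq_le ((hz.2 j).trans ?_)
      gcongr
      exact le_abs_self C
    have h2 : ‖(gm D g D.t0 *ᵥ z) i‖ ≤ A * Real.sqrt (|C| * (- D.q D.t0 z)) := by
      have h3 : (gm D g D.t0 *ᵥ z) i = ∑ j, gm D g D.t0 i j * z j := rfl
      rw [h3]
      refine (norm_sum_le _ _).trans ?_
      have h4 : ∀ j ∈ Finset.univ, ‖gm D g D.t0 i j * z j‖ ≤
          ‖gm D g D.t0 i j‖ * Real.sqrt (|C| * (- D.q D.t0 z)) := by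
        intro j _
        rw [norm_mul]
        gcongr
        exact h1 j
      refine (Finset.sum_le_sum h4).trans ?_
      rw [← Finset.sum_mul]
      gcongr
      rw [hA]
      exact Finset.single_le_sum (f := fun i => ∑ j, ‖gm D g D.t0 i j‖) (fun i _ => by positivity)
        (Finset.mem_univ i)
    have hA0 : 0 ≤ A := by rw [hA]; positivity
    calc ‖(gm D g D.t0 *ᵥ z) i‖ ^ 2 ≤ (A * Real.sqrt (|C| * (- D.q D.t0 z))) ^ 2 := by gcongr
      _ = A ^ 2 * |C| * (- D.q D.t0 z) := by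
        rw [mul_pow, Real.sq_sqrt (by positivity)]; ring

/-- bounded residues modulo `μ` -/
theorem exists_residue (μ : D.O) (hμ : μ ≠ 0) : ∃ B : ℝ, ∀ x : D.O, ∃ u : D.O,
    ∀ t, ‖(((x - μ * u : D.O)) : T → ℂ) t‖ ≤ B := by
  have : Nonempty T := ⟨D.t0⟩
  obtain ⟨R0, hR00, hR0⟩ := exists_approx D.toOrdT
  refine ⟨R0 * ∑ t, ‖(μ : T → ℂ) t‖, fun x => ?_⟩
  have hμ' : ((μ : D.O) : T → ℂ) ≠ 0 := by
    intro h; exact hμ (Subtype.ext h)
  obtain ⟨u, hu, hub⟩ := hR0 (fun t => (x : T → ℂ) t / (μ : T → ℂ) t)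
  refine ⟨⟨u, hu⟩, fun t => ?_⟩
  have hμt : (μ : T → ℂ) t ≠ 0 := ne_zero_of_mem D.toOrdT μ.2 hμ' t
  have h1 : (((x - μ * ⟨u, hu⟩ : D.O)) : T → ℂ) t =
      (μ : T → ℂ) t * ((x : T → ℂ) t / (μ : T → ℂ) t - u t) := by
    have h2 : (((x - μ * ⟨u, hu⟩ : D.O)) : T → ℂ) t = (x : T → ℂ) t - (μ : T → ℂ) t * u t := rfl
    rw [h2]
    field_simp
  rw [h1, norm_mul, mul_comm]
  have h3 : ‖(μ : T → ℂ) t‖ ≤ ∑ t, ‖(μ : T → ℂ) t‖ :=
    Finset.single_le_sum (f := fun t => ‖(μ : T → ℂ) t‖) (fun t _ => norm_nonneg _)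
      (Finset.mem_univ t)
  gcongr
  exact hub t

/-- **Compactness for the principal congruence subgroup of level `μ`.** -/
theorem compactness_cong (μ : D.O) (hμ : μ ≠ 0) : ∃ C : ℝ, ∀ z : ι → ℂ, D.Neg z →
    ∃ g g' U : Matrix ι ι D.O, g * g' = 1 ∧ g' * g = 1 ∧ g.det = 1 ∧ Uni D g ∧ g = 1 + μ • U ∧
      D.Bdd C (gm D g D.t0 *ᵥ z) := by
  classical
  obtain ⟨C0, hC0⟩ := compactness D
  obtain ⟨B, hB⟩ := exists_residue D μ hμ
  choose uf huf using hB
  -- reduced matrix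
  let red : Matrix ι ι D.O → Matrix ι ι D.O := fun g => Matrix.of fun i j => g i j - μ * uf (g i j)
  have hfin : {M : Matrix ι ι D.O | ∀ i j t, ‖((M i j : D.O) : T → ℂ) t‖ ≤ B}.Finite :=
    finite_bdd_mat D.toOrdT B
  have hrep : ∀ f : Matrix ι ι D.O, ∃ C : ℝ, ∀ g : Matrix ι ι D.O, red g = f → g.det = 1 →
      Uni D g → ∀ z, D.Bdd C0 (gm D g D.t0 *ᵥ z) →
      ∃ g1 g1' U : Matrix ι ι D.O, g1 * g1' = 1 ∧ g1' * g1 = 1 ∧ g1.det = 1 ∧ Uni D g1 ∧
        g1 = 1 + μ • U ∧ D.Bdd C (gm D g1 D.t0 *ᵥ z) := by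
    intro f
    by_cases hf : ∃ g : Matrix ι ι D.O, red g = f ∧ g.det = 1 ∧ Uni D g
    swap
    · exact ⟨0, fun g h1 h2 h3 => absurd ⟨g, h1, h2, h3⟩ hf⟩
    obtain ⟨gf, hf1, hf2, hf3⟩ := hf
    have hmul : gf * gf.adjugate = 1 := by rw [Matrix.mul_adjugate, hf2, one_smul]
    have hmul' : gf.adjugate * gf = 1 := by rw [Matrix.adjugate_mul, hf2, one_smul]
    have huni' : Uni D gf.adjugate := uni_inv D hf3 hmul
    obtain ⟨C, hC⟩ := bdd_move D huni' C0
    refine ⟨C, fun g h1 h2 h3 z hz => ?_⟩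
    have hg : g * g.adjugate = 1 := by rw [Matrix.mul_adjugate, h2, one_smul]
    have hg' : g.adjugate * g = 1 := by rw [Matrix.adjugate_mul, h2, one_smul]
    let Q : Matrix ι ι D.O := Matrix.of fun i j => uf (g i j) - uf (gf i j)
    have hgQ : g = gf + μ • Q := by
      ext1 i j
      have h4 : red g i j = red gf i j := by rw [h1, hf1]
      have h5 : g i j - μ * uf (g i j) = gf i j - μ * uf (gf i j) := h4
      show g i j = gf i j + μ * (uf (g i j) - uf (gf i j))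
      linear_combination h5
    refine ⟨gf.adjugate * g, g.adjugate * gf, gf.adjugate * Q, ?_, ?_, ?_, uni_mul D huni' h3, ?_, ?_⟩
    · rw [Matrix.mul_assoc, ← Matrix.mul_assoc g, hg, Matrix.one_mul, hmul']
    · rw [Matrix.mul_assoc, ← Matrix.mul_assoc gf, hmul, Matrix.one_mul, hg']
    · rw [Matrix.det_mul, h2, mul_one]
      have := congrArg Matrix.det hmul
      rw [Matrix.det_mul, hf2, one_mul, Matrix.det_one] at this
      exact this
    · conv_lhs => rw [hgQ]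
      rw [mul_add, hmul', Matrix.mul_smul]
    · rw [gm_mul, ← Matrix.mulVec_mulVec]
      exact hC _ hz
  choose Cf hCf using hrep
  refine ⟨∑ f ∈ hfin.toFinset, |Cf f|, fun z hz => ?_⟩
  obtain ⟨g, hg1, hg2, hg3⟩ := hC0 z hz
  have hmem : red g ∈ {M : Matrix ι ι D.O | ∀ i j t, ‖((M i j : D.O) : T → ℂ) t‖ ≤ B} := by
    intro i j t
    exact huf (g i j) t
  obtain ⟨g1, g1', U, h1, h2, h3, h4, h5, h6⟩ := hCf (red g) g rfl hg1 hg2 z hg3
  refine ⟨g1, g1', U, h1, h2, h3, h4, h5, h6.1, fun i => (h6.2 i).trans ?_⟩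
  have h7 : |Cf (red g)| ≤ ∑ f ∈ hfin.toFinset, |Cf f| :=
    Finset.single_le_sum (f := fun s => |Cf s|) (fun s _ => abs_nonneg _)
      (hfin.mem_toFinset.2 hmem)
  have h8 : 0 < - D.q D.t0 (gm D g1 D.t0 *ᵥ z) := by
    have := h6.1
    unfold AD.Neg at this
    linarith
  have h9 : Cf (red g) ≤ |Cf (red g)| := le_abs_self _
  gcongr
  exact h9.trans h7

end Crest.Agent.R272.Ball5_916
end

-- ▼ part R272/Ball6_916
section

/-! Row 272 (helper916): **cocompactness for `ℤ[ζ₅]` in the language of `In_68`** (before `GU`, `GC`). -/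

set_option autoImplicit false
set_option linter.unusedSectionVars false

namespace Crest.Agent.R272.Ball6_916

open Matrix Module
open scoped ComplexConjugate
open Crest.Agent.R272.BallDefs_916 Crest.Agent.R272.Ball2_916
open Crest.Agent.R272.Ball3_916 Crest.Agent.R272.Ball5_916
open Crest.Agent.R272.EBase_641 Crest.Agent.R272.In_68

noncomputable section

variable {O : Subring (Fin 2 → ℂ)} {z : Fin 2 → ℂ}

theorem span_O (h : Z5r O z) : Submodule.span ℝ (O : Set (Fin 2 → ℂ)) = ⊤ := by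
  rw [eq_top_iff]
  intro x _
  have h1 : x = lam z ((lamE h).symm x) := by
    rw [← lamE_apply h, LinearEquiv.apply_symm_apply]
  set a := (lamE h).symm x
  have h2 : x = a 0 • (1 : Fin 2 → ℂ) + a 1 • z + a 2 • z ^ 2 + a 3 • z ^ 3 := by
    rw [h1]
    funext t
    rw [lam_apply]
    simp
  rw [h2]
  refine Submodule.add_mem _ (Submodule.add_mem _ (Submodule.add_mem _ ?_ ?_) ?_) ?_
  · exact Submodule.smul_mem _ _ (Submodule.subset_span O.one_mem)
  · exact Submodule.smul_mem _ _ (Submodule.subset_span h.zmem)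
  · exact Submodule.smul_mem _ _ (Submodule.subset_span (In_68.pow_mem h 2))
  · exact Submodule.smul_mem _ _ (Submodule.subset_span (In_68.pow_mem h 3))

/-- the arithmetic datum -/
def adat (h : Z5r O z) : AD (Fin 2) (Fin 4) where
  O := O
  star_mem := h.ord.star_mem
  disc := fun R => finite_O h R
  span := span_O h
  norm := h.ord.norm_ge
  a := fun i t => rr z i t
  a_mem := fun i => by
    have h1 : (fun t => (rr z i t : ℂ)) = Cls_620.HH z i := by
      funext t; exact (HH_eq h i t).symm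
    rw [h1]
    exact h.toZ5.frm.mem i
  t0 := 0
  t1 := 1
  ht := by decide
  o := 3
  neg := rr0_neg h
  pos0 := fun i hi => rr0_pos h i hi
  pos := fun t ht i => by
    have : t = 1 := by
      fin_cases t
      · exact absurd rfl ht
      · rfl
    subst this
    exact rr1_pos h i

theorem adat_h (h : Z5r O z) (t : Fin 2) (x y : Fin 4 → ℂ) : (adat h).h t x y = ht z t x y := by
  unfold AD.h ht
  refine Finset.sum_congr rfl fun i _ => ?_
  show (rr z i t : ℂ) * (x i * conj (y i)) = _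
  ring

/-- matrices over `T → ℂ` -/
abbrev Mt := Matrix (Fin 4) (Fin 4) (Fin 2 → ℂ)

/-- matrix of a matrix over `O` -/
def up (h : Z5r O z) (g : Matrix (Fin 4) (Fin 4) (adat h).O) : Mt := g.map ((adat h).O.subtype)

theorem up_mul (h : Z5r O z) (g g' : Matrix (Fin 4) (Fin 4) (adat h).O) :
    up h (g * g') = up h g * up h g' := Matrix.map_mul

theorem up_one (h : Z5r O z) : up h 1 = 1 := Matrix.map_one _ (map_zero _) (map_one _)

theorem up_at (h : Z5r O z) (g : Matrix (Fin 4) (Fin 4) (adat h).O) (v : Fin 4 → Fin 2 → ℂ)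
    (t : Fin 2) : In_68.at' (up h g *ᵥ v) t = gm (adat h) g t *ᵥ In_68.at' v t := by
  funext i
  simp only [In_68.at', Matrix.mulVec, dotProduct, Finset.sum_apply, Pi.mul_apply]
  rfl

/-- **cocompactness, raw form** -/
theorem cocpt_raw (h : Z5r O z) {μ : Fin 2 → ℂ} (hμ : μ ∈ O) (hμ0 : μ ≠ 0) :
    ∃ C : ℝ, ∀ x : Fin 4 → ℂ, (ht z 0 x x).re < 0 →
      ∃ g g' : Mt, g * g' = 1 ∧ g' * g = 1 ∧ g.det = 1 ∧ (∀ i j, g i j ∈ O) ∧ (∀ i j, g' i j ∈ O) ∧
        (∀ v w, Cls_620.hh (Cls_620.HH z) (g *ᵥ v) (g *ᵥ w) = Cls_620.hh (Cls_620.HH z) v w) ∧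
        (∀ i j, ∃ u ∈ O, (g - 1) i j = μ * u) ∧
        ∀ i, ‖((g.map (fun f => f 0)) *ᵥ x) i‖ ^ 2 ≤ C * (- (ht z 0 x x).re) := by
  have hμ' : (⟨μ, hμ⟩ : (adat h).O) ≠ 0 := by
    intro h0
    exact hμ0 (congrArg Subtype.val h0)
  obtain ⟨C, hC⟩ := compactness_cong (adat h) ⟨μ, hμ⟩ hμ'
  have hq : ∀ x : Fin 4 → ℂ, (adat h).q (adat h).t0 x = (ht z 0 x x).re := by
    intro x
    have h1 := h_self (adat h) (adat h).t0 x
    rw [adat_h] at h1
    have h2 := congrArg Complex.re h1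
    rw [Complex.ofReal_re] at h2
    exact h2.symm
  refine ⟨C, fun x hx => ?_⟩
  have hneg : (adat h).Neg x := by
    unfold AD.Neg
    rw [hq]; exact hx
  obtain ⟨g, g', U, h1, h2, h3, h4, h5, h6⟩ := hC x hneg
  refine ⟨up h g, up h g', ?_, ?_, ?_, fun i j => (g i j).2, fun i j => (g' i j).2, ?_, ?_, ?_⟩
  · rw [← up_mul, h1, up_one]
  · rw [← up_mul, h2, up_one]
  · have h7 : (up h g).det = ((g.det : (adat h).O) : Fin 2 → ℂ) :=
      (RingHom.map_det (adat h).O.subtype g).symm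
    rw [h7, h3]; rfl
  · intro v w
    funext t
    rw [hh_at h, hh_at h, up_at, up_at, ← adat_h h, ← adat_h h]
    exact h4 t _ _
  · intro i j
    refine ⟨((U i j : (adat h).O) : Fin 2 → ℂ), (U i j).2, ?_⟩
    have h7 : up h g - 1 = up h (g - 1) := by
      ext i j t
      rw [← up_one h]
      rfl
    rw [h7, h5, add_sub_cancel_left]
    rfl
  · intro i
    have h7 := h6.2 i
    have h8 := uni_q (adat h) h4 (adat h).t0 x
    rw [h8, hq] at h7
    exact h7

/-- from the raw bound to the ball -/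
theorem act_bound (h : Z5r O z) (C : ℝ) : ∃ r : ℝ, r < 1 ∧ ∀ (G : UG 3) (A : Matrix (Fin 4) (Fin 4) ℂ),
    (∀ x, G.1 (P0 h x) = P0 h (A *ᵥ x)) → ∀ ζ ∈ Ball 3,
    (‖(A *ᵥ (P0 h).symm (ζ, 1)) 3‖ ^ 2 ≤
      C * (- (ht z 0 ((P0 h).symm (ζ, 1)) ((P0 h).symm (ζ, 1))).re)) → ‖act G ζ‖ ≤ r := by
  have hd := dd_pos h 0
  have hw := ww_pos h 3 0
  set K : ℝ := (ww z 3 0) ^ 2 * (|C| + 1) / dd z 0 with hK
  have hK0 : 0 < K := by positivity
  refine ⟨Real.sqrt (1 - (max K 1)⁻¹), ?_, ?_⟩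
  · rw [Real.sqrt_lt' one_pos]
    have : 0 < (max K 1)⁻¹ := by positivity
    linarith
  · intro G A hG ζ hζ hb
    have h1 : ‖ζ‖ < 1 := mem_Ball.1 hζ
    have h2 : 0 < 1 - ‖ζ‖ ^ 2 := by nlinarith [norm_nonneg ζ]
    set x := (P0 h).symm (ζ, 1) with hx
    have hPx : P0 h x = (ζ, 1) := (P0 h).apply_symm_apply _
    -- q(x)
    have h3 : dd z 0 * (ht z 0 x x).re = ‖ζ‖ ^ 2 - 1 := by
      have h4 := hh_P0 h x x
      rw [hPx, hh_self] at h4
      have h5 := congrArg Complex.re h4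
      rw [Complex.ofReal_re, Complex.re_ofReal_mul] at h5
      rw [← h5]; simp
    -- jj
    have h6 : jj G ζ = (ww z 3 0 : ℂ) * (A *ᵥ x) 3 := by
      unfold jj
      rw [← hPx, hG, P0_snd]
    have h7 : ‖jj G ζ‖ ^ 2 ≤ K * (1 - ‖ζ‖ ^ 2) := by
      rw [h6, norm_mul, Complex.norm_real, Real.norm_eq_abs, mul_pow, sq_abs]
      have h8 : - (ht z 0 x x).re = (1 - ‖ζ‖ ^ 2) / dd z 0 := by
        rw [eq_div_iff hd.ne']
        linarith
      rw [h8] at hb
      have h9 : C * ((1 - ‖ζ‖ ^ 2) / dd z 0) ≤ (|C| + 1) * ((1 - ‖ζ‖ ^ 2) / dd z 0) := by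
        have : C ≤ |C| + 1 := by linarith [le_abs_self C]
        gcongr
      calc (ww z 3 0) ^ 2 * ‖(A *ᵥ x) 3‖ ^ 2
          ≤ (ww z 3 0) ^ 2 * ((|C| + 1) * ((1 - ‖ζ‖ ^ 2) / dd z 0)) := by
            gcongr
            exact hb.trans h9
        _ = K * (1 - ‖ζ‖ ^ 2) := by rw [hK]; ring
    have hj := jj_ne_zero G hζ
    have hj' : 0 < ‖jj G ζ‖ ^ 2 := by positivity
    have h10 := one_sub_norm_act G hζ
    have h11 : (max K 1)⁻¹ ≤ 1 - ‖act G ζ‖ ^ 2 := by
      rw [h10, le_div_iff₀ hj', inv_mul_le_iff₀ (by positivity)]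
      refine h7.trans ?_
      gcongr
      exact le_max_left _ _
    refine Real.le_sqrt_of_sq_le ?_
    linarith

/-- **cocompactness of the congruence subgroup**, in terms of matrices -/
theorem cocpt_mat (h : Z5r O z) {μ : Fin 2 → ℂ} (hμ : μ ∈ O) (hμ0 : μ ≠ 0) :
    ∃ r : ℝ, r < 1 ∧ ∀ ζ ∈ Ball 3, ∃ g g' : Mt, g * g' = 1 ∧ g' * g = 1 ∧ g.det = 1 ∧
      (∀ i j, g i j ∈ O) ∧ (∀ i j, g' i j ∈ O) ∧
      (∀ v w, Cls_620.hh (Cls_620.HH z) (g *ᵥ v) (g *ᵥ w) = Cls_620.hh (Cls_620.HH z) v w) ∧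
      (∀ i j, ∃ u ∈ O, (g - 1) i j = μ * u) ∧
      ∀ G : UG 3, (∀ v : Fin 4 → Fin 2 → ℂ, G.1 (P0 h (In_68.at' v 0)) =
        P0 h (In_68.at' (g *ᵥ v) 0)) → ‖act G ζ‖ ≤ r := by
  obtain ⟨C, hC⟩ := cocpt_raw h hμ hμ0
  obtain ⟨r, hr, hr'⟩ := act_bound h C
  refine ⟨r, hr, fun ζ hζ => ?_⟩
  have h1 : ‖ζ‖ < 1 := mem_Ball.1 hζ
  have h2 : 0 < 1 - ‖ζ‖ ^ 2 := by nlinarith [norm_nonneg ζ]
  have hd := dd_pos h 0
  set x := (P0 h).symm (ζ, 1) with hx
  have hPx : P0 h x = (ζ, 1) := (P0 h).apply_symm_apply _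
  have h3 : dd z 0 * (ht z 0 x x).re = ‖ζ‖ ^ 2 - 1 := by
    have h4 := hh_P0 h x x
    rw [hPx, hh_self] at h4
    have h5 := congrArg Complex.re h4
    rw [Complex.ofReal_re, Complex.re_ofReal_mul] at h5
    rw [← h5]; simp
  have hneg : (ht z 0 x x).re < 0 := by
    by_contra h5
    push Not at h5
    have : 0 ≤ dd z 0 * (ht z 0 x x).re := by positivity
    linarith
  obtain ⟨g, g', a1, a2, a3, a4, a5, a6, a7, a8⟩ := hC x hneg
  refine ⟨g, g', a1, a2, a3, a4, a5, a6, a7, fun G hG => ?_⟩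
  refine hr' G (g.map (fun f => f 0)) ?_ ζ hζ (a8 3)
  intro y
  have h6 := hG (fun i _ => y i)
  have h7 : In_68.at' (fun i (_ : Fin 2) => y i) 0 = y := rfl
  rw [h7] at h6
  rw [h6]
  congr 1

end

end Crest.Agent.R272.Ball6_916
end

-- ▼ part R272/Ball7_916

/-! Row 272 (helper916): **field `cocpt` of `EDat` for `GC O z μ`** and finite index of `GC`. -/

set_option autoImplicit false
set_option linter.unusedSectionVars false

namespace Crest.Agent.R272.Ball7_916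

open Matrix Module
open scoped ComplexConjugate
open Crest.Agent.R272.BallDefs_916 Crest.Agent.R272.Ball2_916
open Crest.Agent.R272.EBase_641 Crest.Agent.R272.In_68
open Crest.Agent.R272.Ball6_916 (adat span_O)

noncomputable section

variable {O : Subring (Fin 2 → ℂ)} {z : Fin 2 → ℂ}

/-- **cocompactness of `GC O z μ` on the ball** -/
theorem cocpt (h : Z5r O z) {μ : Fin 2 → ℂ} (hμ : μ ∈ O) (hμ0 : μ ≠ 0) :
    ∃ r : ℝ, r < 1 ∧ ∀ ζ ∈ Ball 3, ∃ g : GU O z, (g : (In_68.Mt)ˣ) ∈ GC O z μ ∧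
      (((g : (In_68.Mt)ˣ) : In_68.Mt)).det = 1 ∧ ‖act (rho h g) ζ‖ ≤ r := by
  obtain ⟨r, hr, hr'⟩ := Ball6_916.cocpt_mat h hμ hμ0
  refine ⟨r, hr, fun ζ hζ => ?_⟩
  obtain ⟨g, g', h1, h2, h3, h4, h5, h6, h7, h8⟩ := hr' ζ hζ
  let u : (In_68.Mt)ˣ := ⟨g, g', h1, h2⟩
  have hu : u ∈ GU O z := mem_GU.2 ⟨h4, h5, h6⟩
  refine ⟨⟨u, hu⟩, mem_GC.2 ⟨hu, h7⟩, h3, h8 _ ?_⟩
  intro v
  rw [rho_P0, ← at_gl]

/-- for any group with a homomorphism to `GU` whose range contains `GC μ` -/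
theorem cocpt_hom (h : Z5r O z) {μ : Fin 2 → ℂ} (hμ : μ ∈ O) (hμ0 : μ ≠ 0) {G : Type*} [Group G]
    (φ : G →* GU O z) (hφ : ∀ g : GU O z, (g : (In_68.Mt)ˣ) ∈ GC O z μ → g ∈ φ.range) :
    ∃ r : ℝ, r < 1 ∧ ∀ ζ ∈ Ball 3, ∃ g, ‖act ((rho h).comp φ g) ζ‖ ≤ r := by
  obtain ⟨r, hr, hr'⟩ := cocpt h hμ hμ0
  refine ⟨r, hr, fun ζ hζ => ?_⟩
  obtain ⟨g, h1, -, h2⟩ := hr' ζ hζ
  obtain ⟨g', hg'⟩ := hφ g h1
  refine ⟨g', ?_⟩
  show ‖act (rho h (φ g')) ζ‖ ≤ r
  rw [hg']; exact h2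

/-- the congruence subgroup inside `GU` -/
def GCU (O : Subring (Fin 2 → ℂ)) (z μ : Fin 2 → ℂ) : Subgroup (GU O z) :=
  (GC O z μ).subgroupOf (GU O z)

theorem mem_GCU {μ : Fin 2 → ℂ} {g : GU O z} :
    g ∈ GCU O z μ ↔ (g : (In_68.Mt)ˣ) ∈ GC O z μ := Iff.rfl

/-- **`GC μ` has finite index in `GU`.** -/
theorem GCU_finiteIndex (h : Z5r O z) {μ : Fin 2 → ℂ} (hμ : μ ∈ O) (hμ0 : μ ≠ 0) :
    (GCU O z μ).FiniteIndex := by
  classical
  -- residues
  have hμ' : (⟨μ, hμ⟩ : (adat h).O) ≠ 0 := by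
    intro h0
    exact hμ0 (congrArg Subtype.val h0)
  obtain ⟨B, hB⟩ := Ball5_916.exists_residue (adat h) ⟨μ, hμ⟩ hμ'
  choose uf huf using hB
  let rs : (adat h).O → (adat h).O := fun x => x - ⟨μ, hμ⟩ * uf x
  let ent : GU O z → Fin 4 → Fin 4 → (adat h).O := fun g i j => ⟨((g : (In_68.Mt)ˣ) : In_68.Mt) i j, g.2.1 i j⟩
  let red : GU O z → Matrix (Fin 4) (Fin 4) (adat h).O := fun g => Matrix.of fun i j => rs (ent g i j)
  have hfin : {M : Matrix (Fin 4) (Fin 4) (adat h).O |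
      ∀ i j t, ‖((M i j : (adat h).O) : Fin 2 → ℂ) t‖ ≤ B}.Finite :=
    finite_bdd_mat (adat h).toOrdT B
  have hred : ∀ g, red g ∈ {M : Matrix (Fin 4) (Fin 4) (adat h).O |
      ∀ i j t, ‖((M i j : (adat h).O) : Fin 2 → ℂ) t‖ ≤ B} := by
    intro g i j t
    exact huf (ent g i j) t
  -- same residue implies same coset
  have hcos : ∀ g g' : GU O z, red g = red g' → g⁻¹ * g' ∈ GCU O z μ := by
    intro g g' hgg
    rw [mem_GCU, mem_GC]
    refine ⟨(g⁻¹ * g').2, ?_⟩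
    have hdiv : Div O μ (((g' : (In_68.Mt)ˣ) : In_68.Mt) - ((g : (In_68.Mt)ˣ) : In_68.Mt)) := by
      intro i j
      have h1 : rs (ent g i j) = rs (ent g' i j) := congrFun (congrFun hgg i) j
      have h2 : ent g i j - ⟨μ, hμ⟩ * uf (ent g i j) = ent g' i j - ⟨μ, hμ⟩ * uf (ent g' i j) := h1
      refine ⟨((uf (ent g' i j) - uf (ent g i j) : (adat h).O) : Fin 2 → ℂ), (uf (ent g' i j) - uf (ent g i j)).2, ?_⟩
      have h3 : ent g' i j - ent g i j = ⟨μ, hμ⟩ * (uf (ent g' i j) - uf (ent g i j)) := by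
        linear_combination -h2
      exact congrArg Subtype.val h3
    have h4 := hdiv.mul_left (A := (((g : (In_68.Mt)ˣ)⁻¹ : (In_68.Mt)ˣ) : In_68.Mt)) g.2.2.1
    have h5 : (((g : (In_68.Mt)ˣ)⁻¹ : (In_68.Mt)ˣ) : In_68.Mt) *
        (((g' : (In_68.Mt)ˣ) : In_68.Mt) - ((g : (In_68.Mt)ˣ) : In_68.Mt)) =
        (((g⁻¹ * g' : GU O z) : (In_68.Mt)ˣ) : In_68.Mt) - 1 := by
      rw [mul_sub, Units.inv_mul]
      rfl
    rw [h5] at h4
    exact h4
  -- finite quotient
  have hfq : Finite (GU O z ⧸ GCU O z μ) := by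
    have hS : Finite {M : Matrix (Fin 4) (Fin 4) (adat h).O |
      ∀ i j t, ‖((M i j : (adat h).O) : Fin 2 → ℂ) t‖ ≤ B} := hfin
    let f : (GU O z ⧸ GCU O z μ) → {M : Matrix (Fin 4) (Fin 4) (adat h).O |
      ∀ i j t, ‖((M i j : (adat h).O) : Fin 2 → ℂ) t‖ ≤ B} := fun q => ⟨red q.out, hred _⟩
    refine Finite.of_injective f ?_
    intro p q hpq
    have h1 : red p.out = red q.out := congrArg Subtype.val hpq
    have h2 := hcos _ _ h1
    rw [← p.out_eq, ← q.out_eq]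
    exact QuotientGroup.eq.2 h2
  exact Subgroup.finiteIndex_of_finite_quotient

end

end Crest.Agent.R272.Ball7_916
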