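import Crest.Agent.R272.EMain_528
import Crest.Agent.R272.In3_68
import Crest.Agent.R272.Prop1_392
import Crest.Agent.R272.Ball7_916
import Crest.Agent.R272.I2a_939
import Crest.Agent.R272.I2b_939

-- ▼ part R272/AROut0_641
section

set_option autoImplicit false

open scoped ComplexConjugate Topology

namespace Crest.Agent.R272.AROut_641

open Crest.Agent.R272.EBase_641

noncomputable section

/-- pull back of a root structure along a homomorphism -/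
def rootComap {n k : ℕ} {G G' : Type} [Group G] [Group G'] {ρ : G →* UG n} {S : Set (V1 n)}
    (φ : G' →* G) (R : Root n k ρ S) : Root n k (ρ.comp φ) S where
  f := R.f
  j g := R.j (φ g)
  f_hol := R.f_hol
  fin := R.fin
  f_div := R.f_div
  j_hol g := R.j_hol _
  j_ne g := R.j_ne _
  j_mul g g' z hz := by
    rw [map_mul]
    exact R.j_mul _ _ z hz
  f_act g z hz := R.f_act _ z hz

/-- the same root structure with another name of the representation -/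
def rootCongr {n k : ℕ} {G : Type} [Group G] {ρ ρ' : G →* UG n} {S : Set (V1 n)}
    (h : ρ = ρ') (R : Root n k ρ S) : Root n k ρ' S := h ▸ R


/-- a finite index subgroup of a finite index subgroup contains a finite index NORMAL subgroup of
the big group, also contained in a given finite index subgroup. -/
theorem exists_normal {Γ : Type} [Group Γ] (Δ : Subgroup Γ) (hΔ : Δ.FiniteIndex)
    (H : Subgroup Δ) (hH : H.FiniteIndex) (K0 : Subgroup Γ) (hK0 : K0.FiniteIndex) :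
    ∃ K : Subgroup Γ, K.Normal ∧ K.FiniteIndex ∧ K ≤ K0 ∧
      ∃ hK : K ≤ Δ, ∀ g (hg : g ∈ K), (⟨g, hK hg⟩ : Δ) ∈ H := by
  have h1 : (H.map Δ.subtype).FiniteIndex := by
    constructor
    rw [Subgroup.index_map_subtype]
    exact mul_ne_zero hH.index_ne_zero hΔ.index_ne_zero
  have h2 : (H.map Δ.subtype ⊓ K0).FiniteIndex := inferInstance
  refine ⟨(H.map Δ.subtype ⊓ K0).normalCore, inferInstance, inferInstance, ?_, ?_, ?_⟩
  · exact (Subgroup.normalCore_le _).trans inf_le_right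
  · refine (Subgroup.normalCore_le _).trans (inf_le_left.trans ?_)
    exact Subgroup.map_subtype_le H
  · intro g hg
    have h3 := ((Subgroup.normalCore_le _) hg).1
    obtain ⟨x, hx, rfl⟩ := Subgroup.mem_map.1 h3
    exact hx

/-- roots for finitely many classes over `Δ` (finite index in `Γ`) give roots over one normal
finite index subgroup of `Γ`. -/
theorem roots_normal {Γ : Type} [Group Γ] {n k : ℕ} (ρ : Γ →* UG n) (Δ : Subgroup Γ)
    (hΔ : Δ.FiniteIndex) {ι : Type} (S : ι → Set (V1 n)) (K0 : Subgroup Γ) (hK0 : K0.FiniteIndex)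
    (h : ∃ H : Subgroup Δ, H.FiniteIndex ∧
      ∀ i, Nonempty (Root n k ((ρ.comp Δ.subtype).comp H.subtype) (S i))) :
    ∃ K : Subgroup Γ, K.Normal ∧ K.FiniteIndex ∧ K ≤ K0 ∧ K ≤ Δ ∧
      ∀ i, Nonempty (Root n k (ρ.comp K.subtype) (S i)) := by
  obtain ⟨H, hH, hR⟩ := h
  obtain ⟨K, k1, k2, k3, hK, k4⟩ := exists_normal Δ hΔ H hH K0 hK0
  refine ⟨K, k1, k2, k3, hK, fun i => ?_⟩
  obtain ⟨R⟩ := hR i
  let φ : K →* H :=
    { toFun := fun g => ⟨⟨g.1, hK g.2⟩, k4 g.1 g.2⟩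
      map_one' := rfl
      map_mul' := fun _ _ => rfl }
  have e : ((ρ.comp Δ.subtype).comp H.subtype).comp φ = ρ.comp K.subtype :=
    MonoidHom.ext fun g => rfl
  exact ⟨rootCongr e (rootComap φ R)⟩

end

end Crest.Agent.R272.AROut_641
end

-- ▼ part R272/AROut1_641
section

set_option autoImplicit false

open scoped ComplexConjugate Topology
open Matrix

namespace Crest.Agent.R272.AROut_641

open Crest.Agent.R272.EBase_641
open Crest.Agent.R272.In_68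
open Crest.Agent.R272.Ball7_916 (GCU)

noncomputable section

variable {O : Subring (Fin 2 → ℂ)} {z : Fin 2 → ℂ}

lemma natCast_mem (h : Z5r O z) (N : ℕ) : ((N : ℕ) : Fin 2 → ℂ) ∈ O := by
  have := O.nsmul_mem O.one_mem N
  simpa using this

lemma natCast_ne {N : ℕ} (hN : 0 < N) : ((N : ℕ) : Fin 2 → ℂ) ≠ 0 := by
  intro h0
  have := congrFun h0 0
  simp at this
  omega



end

end Crest.Agent.R272.AROut_641
end

-- ▼ part R272/I2c_939
section

/-!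
helper939, row 272, (I2), part 3: **every class `VV O z μ a` is an `ECls` of 68's datum `mkD`**.
-/

set_option autoImplicit false

open scoped ComplexConjugate Topology

namespace Crest.Agent.R272.I2_939

open Crest.Agent.R272.EBase_641 (V1 W EDat ECls UG Ball act)
open Crest.Agent.R272.Cls_620 Crest.Agent.R272.In_68 Finset Matrix

variable {O : Subring (Fin 2 → ℂ)} {z : Fin 2 → ℂ}

noncomputable section

/-- the embedding data of `mkD` -/
def ioD (h : Z5r O z) (N : ℕ) (hN3 : 3 ≤ N) (hN : In_68.N0 h ^ 2 ∣ N) {G : Type} [Group G]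
    (φ : G →* GU O z) (hφ : ∀ g, (φ g : Mtˣ) ∈ GC O z (N : Fin 2 → ℂ))
    (cocpt : ∃ r : ℝ, r < 1 ∧ ∀ q ∈ Ball 3, ∃ g, ‖act (rho h (φ g)) q‖ ≤ r)
    (proper : ∀ r : ℝ, r < 1 → {g | ∃ q, ‖q‖ ≤ r ∧ ‖act (rho h (φ g)) q‖ ≤ r}.Finite) :
    IoD (mkD h N hN3 hN φ hφ cocpt proper) O (HH z) (N : Fin 2 → ℂ) where
  io := io h
  add v w := map_add _ _ _
  d := dd z
  d_pos := dd_pos h
  n0 := io_n0 h
  n1 := io_n1 h
  h0 x y c hc := io_h0 h x y c hc
  γ g x := ((φ g : Mtˣ) : Mt) *ᵥ x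
  γ_io g x := io_mulVec h (φ g) x
  γ_int g _ hx := mulVec_int (φ g).2.1 hx
  γ_hh g x := (φ g).2.2.2 x x
  γ_cg g _ hx := mulVec_cg (hφ g).2 hx
  N0 := In_68.N0 h
  N0_pos := In_68.N0_pos h
  toL x hx := LO_L0 h _ ((io_mem h).2 hx)
  ofL l hl := by
    obtain ⟨v, hv, e⟩ := (mem_LO h).1 (L0_LO h l hl)
    exact ⟨v, hv, e.symm⟩

/-- `lev z μ a` divides the level `N` of the group -/
theorem lev_dvd_nat (h : Z5 O z) {μ : Fin 2 → ℂ} {N : ℕ}
    (hNμ : ∃ u ∈ O, (N : Fin 2 → ℂ) = pz z * μ * u) (a : Lb) :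
    ∃ u ∈ O, (N : Fin 2 → ℂ) = lev z μ a * u := by
  obtain ⟨u, hu, e⟩ := hNμ
  cases a with
  | o => exact ⟨pz z * u, O.mul_mem h.pz_mem hu, by rw [e]; show _ = μ * _; ring⟩
  | n i => exact ⟨pz z * u, O.mul_mem h.pz_mem hu, by rw [e]; show _ = μ * _; ring⟩
  | v i j => exact ⟨u, hu, e⟩
  | b i j => exact ⟨u, hu, e⟩

/-- **(I2)**: the class with label `a` -/
def clsV (h : Z5r O z) (N : ℕ) (hN3 : 3 ≤ N) (hN : In_68.N0 h ^ 2 ∣ N) {G : Type} [Group G]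
    (φ : G →* GU O z) (hφ : ∀ g, (φ g : Mtˣ) ∈ GC O z (N : Fin 2 → ℂ))
    (cocpt : ∃ r : ℝ, r < 1 ∧ ∀ q ∈ Ball 3, ∃ g, ‖act (rho h (φ g)) q‖ ≤ r)
    (proper : ∀ r : ℝ, r < 1 → {g | ∃ q, ‖q‖ ≤ r ∧ ‖act (rho h (φ g)) q‖ ≤ r}.Finite)
    {μ : Fin 2 → ℂ} (hμ : Lvl O z μ) (hNμ : ∃ u ∈ O, (N : Fin 2 → ℂ) = pz z * μ * u) (a : Lb) :
    ECls (mkD h N hN3 hN φ hφ cocpt proper) :=
  cls (ioD h N hN3 hN φ hφ cocpt proper) h.ord h.frm (base_pos h.toZ5 a)
    (lev_dvd_nat h.toZ5 hNμ a) (lev_nat h.toZ5 hμ a) (base_gap h.toZ5 hμ a)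


end

/-- a suitable level `N`, divisible by any given `K`. -/
theorem exists_level (h : Z5r O z) {μ : Fin 2 → ℂ} (hμ : Lvl O z μ) (K : ℕ) (hK : 0 < K) :
    ∃ N : ℕ, 3 ≤ N ∧ In_68.N0 h ^ 2 ∣ N ∧ K ∣ N ∧
      ∃ u ∈ O, (N : Fin 2 → ℂ) = pz z * μ * u := by
  obtain ⟨k, hk, u, hu, e⟩ := hμ.nat
  have h0 := In_68.N0_pos h
  refine ⟨3 * (In_68.N0 h ^ 2 * (K * (5 * k))), ?_, ?_, ?_, ?_⟩
  · have : 1 ≤ In_68.N0 h ^ 2 * (K * (5 * k)) := Nat.succ_le_of_lt (by positivity)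
    omega
  · exact Dvd.intro (3 * (K * (5 * k))) (by ring)
  · exact Dvd.intro (3 * (In_68.N0 h ^ 2 * (5 * k))) (by ring)
  · refine ⟨(3 * (In_68.N0 h ^ 2 * K : ℕ) : ℕ) * ((4 + 3 * z + 2 * z ^ 2 + z ^ 3) * u),
      O.mul_mem (natCast_mem O _) (O.mul_mem (five_mem h.toZ5) hu), ?_⟩
    push_cast
    rw [e]
    linear_combination (3 * (In_68.N0 h : Fin 2 → ℂ) ^ 2 * K * μ * u) * five_eq h.toZ5

end Crest.Agent.R272.I2_939
end

-- ▼ part R272/AROut_641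

set_option autoImplicit false

open scoped ComplexConjugate Topology
open Matrix

namespace Crest.Agent.R272.AROut_641

open Crest.Agent.R272.EBase_641
open Crest.Agent.R272.In_68
open Crest.Agent.R272.Cls_620 (Lb VV)
open Crest.Agent.R272.Ball7_916 (GCU)

variable {O : Subring (Fin 2 → ℂ)} {z : Fin 2 → ℂ}

instance finite_Lb : Finite Lb := by
  let f : Unit ⊕ Bool ⊕ (Bool × Fin 5) ⊕ (Bool × Fin 5) → Lb := fun x =>
    match x with
    | Sum.inl _ => Lb.o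
    | Sum.inr (Sum.inl i) => Lb.n i
    | Sum.inr (Sum.inr (Sum.inl p)) => Lb.v p.1 p.2
    | Sum.inr (Sum.inr (Sum.inr p)) => Lb.b p.1 p.2
  refine Finite.of_surjective f ?_
  intro a
  cases a with
  | o => exact ⟨Sum.inl (), rfl⟩
  | n i => exact ⟨Sum.inr (Sum.inl i), rfl⟩
  | v i j => exact ⟨Sum.inr (Sum.inr (Sum.inl (i, j))), rfl⟩
  | b i k => exact ⟨Sum.inr (Sum.inr (Sum.inr (i, k))), rfl⟩

/-- the set of complex vectors (ball place) of the class `a` -/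
def SV (h : Z5r O z) (μ : Fin 2 → ℂ) (a : Lb) : Set (V1 3) := Prod.fst '' (io h '' VV O z μ a)

/-- **AR-OUT.** -/
theorem arOut_of (hE : EMain) (h : Z5r O z) {μ : Fin 2 → ℂ} (hμ : I2_939.Lvl O z μ) (k : ℕ)
    (hk : 0 < k) (K0 : Subgroup (GU O z)) (hK0 : K0.FiniteIndex) :
    ∃ K : Subgroup (GU O z), K.Normal ∧ K.FiniteIndex ∧ K ≤ K0 ∧
      K ≤ GCU O z (Cls_620.pz z * μ) ∧
      ∀ a : Lb, Nonempty (Root 3 k ((rho h).comp K.subtype) (SV h μ a)) := by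
  obtain ⟨N, hN3, hN, -, hNμ⟩ := I2_939.exists_level h hμ 1 one_pos
  have hNO := natCast_mem h N
  have hN0 := natCast_ne (N := N) (by omega)
  have cocpt : ∃ r : ℝ, r < 1 ∧ ∀ q ∈ Ball 3, ∃ g : GCU O z (N : Fin 2 → ℂ),
      ‖act (rho h ((GCU O z (N : Fin 2 → ℂ)).subtype g)) q‖ ≤ r := by
    obtain ⟨r, hr, hr'⟩ := Ball7_916.cocpt_hom h hNO hN0
      (GCU O z (N : Fin 2 → ℂ)).subtype (fun g hg => ⟨⟨g, hg⟩, rfl⟩)
    exact ⟨r, hr, fun q hq => hr' q hq⟩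
  have proper : ∀ r : ℝ, r < 1 → {g : GCU O z (N : Fin 2 → ℂ) | ∃ q, ‖q‖ ≤ r ∧
      ‖act (rho h ((GCU O z (N : Fin 2 → ℂ)).subtype g)) q‖ ≤ r}.Finite :=
    Prop_392.proper ((rho h).comp (GCU O z (N : Fin 2 → ℂ)).subtype)
      ((sig h).comp (GCU O z (N : Fin 2 → ℂ)).subtype) (L0 h) (L0_disc h) (L0_span h)
      (fun g v hv => stab' h hN g.1 g.2 v hv)
      (fun g g' h1 h2 => Subtype.ext (faith h h1 h2))
  let φ := (GCU O z (N : Fin 2 → ℂ)).subtype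
  have hφ : ∀ g, (φ g : Mtˣ) ∈ GC O z (N : Fin 2 → ℂ) := fun g => g.2
  have : Fintype Lb := Fintype.ofFinite Lb
  obtain ⟨H, hH, hR⟩ := hE (mkD h N hN3 hN φ hφ cocpt proper) Lb inferInstance
    (fun a => I2_939.clsV h N hN3 hN φ hφ cocpt proper hμ hNμ a) k hk
  obtain ⟨K, k1, k2, k3, k4, k5⟩ := roots_normal (rho h) (GCU O z (N : Fin 2 → ℂ))
    (Ball7_916.GCU_finiteIndex h hNO hN0) (SV h μ) K0 hK0 ⟨H, hH, hR⟩
  refine ⟨K, k1, k2, k3, k4.trans ?_, k5⟩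
  intro g hg
  obtain ⟨u, hu, e⟩ := hNμ
  have h1 : (g : Mtˣ) ∈ GC O z (N : Fin 2 → ℂ) := hg
  rw [e] at h1
  exact GC_mono hu h1

end Crest.Agent.R272.AROut_641
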