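import Mathlib

/-!
# R272, leaf RQUOT, part 1 (helper302): topology of quotients by properly discontinuous groups

* `exists_inv_nhd` : small open neighbourhoods invariant under the stabiliser, moved off
  themselves by all other elements;
* `mkChart` : an open quotient map `p : X → M`, `φ : X → Z` continuous and open on `U` with the same
  fibres as `p` there: chart `p '' U ≃ φ '' U`;
* `isCovering_quot` : `N` normal in `G`, `N` contains all stabilisers: `N\X → G\X` is a covering.
-/

set_option autoImplicit false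

open Set Filter Topology

namespace Crest.Agent.R272.RQ1_302

noncomputable section

universe u v w

section Nhd

variable (G : Type u) [Group G] {X : Type v} [TopologicalSpace X] [MulAction G X]
  [ContinuousConstSMul G X] [ProperlyDiscontinuousSMul G X] [T2Space X] [LocallyCompactSpace X]


end Nhd

section Chart

variable {X : Type u} {M : Type v} {Z : Type w} [TopologicalSpace X] [TopologicalSpace M]
  [TopologicalSpace Z]

open Classical in
/-- charts of a quotient -/
def mkChart (p : X → M) (hp : Continuous p) (hpo : IsOpenMap p) (x₀ : X) (U : Set X)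
    (hU : IsOpen U) (φ : X → Z) (hφ : ContinuousOn φ U)
    (hφo : ∀ V ⊆ U, IsOpen V → IsOpen (φ '' V))
    (hfib : ∀ u ∈ U, ∀ v ∈ U, p u = p v ↔ φ u = φ v) : OpenPartialHomeomorph M Z where
  toFun m := if h : ∃ u ∈ U, p u = m then φ h.choose else φ x₀
  invFun z := if h : ∃ u ∈ U, φ u = z then p h.choose else p x₀
  source := p '' U
  target := φ '' U
  map_source' := by
    rintro _ ⟨u, hu, rfl⟩
    have h : ∃ v ∈ U, p v = p u := ⟨u, hu, rfl⟩
    rw [dif_pos h]
    exact ⟨_, h.choose_spec.1, rfl⟩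
  map_target' := by
    rintro _ ⟨u, hu, rfl⟩
    have h : ∃ v ∈ U, φ v = φ u := ⟨u, hu, rfl⟩
    rw [dif_pos h]
    exact ⟨_, h.choose_spec.1, rfl⟩
  left_inv' := by
    rintro _ ⟨u, hu, rfl⟩
    have h : ∃ v ∈ U, p v = p u := ⟨u, hu, rfl⟩
    rw [dif_pos h]
    have h' : ∃ v ∈ U, φ v = φ h.choose := ⟨_, h.choose_spec.1, rfl⟩
    rw [dif_pos h']
    have h1 : p h'.choose = p h.choose :=
      (hfib _ h'.choose_spec.1 _ h.choose_spec.1).2 h'.choose_spec.2
    rw [h1]
    exact h.choose_spec.2
  right_inv' := by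
    rintro _ ⟨u, hu, rfl⟩
    have h : ∃ v ∈ U, φ v = φ u := ⟨u, hu, rfl⟩
    rw [dif_pos h]
    have h' : ∃ v ∈ U, p v = p h.choose := ⟨_, h.choose_spec.1, rfl⟩
    rw [dif_pos h']
    have h1 : φ h'.choose = φ h.choose :=
      (hfib _ h'.choose_spec.1 _ h.choose_spec.1).1 h'.choose_spec.2
    rw [h1]
    exact h.choose_spec.2
  open_source := hpo _ hU
  open_target := hφo U Subset.rfl hU
  continuousOn_toFun := by
    rw [continuousOn_open_iff (hpo _ hU)]
    intro W hW
    have h1 : p '' U ∩ (fun m => if h : ∃ u ∈ U, p u = m then φ h.choose else φ x₀) ⁻¹' W =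
        p '' (U ∩ φ ⁻¹' W) := by
      ext m
      constructor
      · rintro ⟨⟨u, hu, rfl⟩, hm⟩
        have h : ∃ v ∈ U, p v = p u := ⟨u, hu, rfl⟩
        simp only [mem_preimage, dif_pos h] at hm
        exact ⟨_, ⟨h.choose_spec.1, hm⟩, h.choose_spec.2⟩
      · rintro ⟨u, ⟨hu, hm⟩, rfl⟩
        refine ⟨⟨u, hu, rfl⟩, ?_⟩
        have h : ∃ v ∈ U, p v = p u := ⟨u, hu, rfl⟩
        simp only [mem_preimage, dif_pos h]
        rw [(hfib _ h.choose_spec.1 _ hu).1 h.choose_spec.2]
        exact hm
    rw [h1]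
    exact hpo _ (hφ.isOpen_inter_preimage hU hW)
  continuousOn_invFun := by
    rw [continuousOn_open_iff (hφo U Subset.rfl hU)]
    intro W hW
    have h1 : φ '' U ∩ (fun z => if h : ∃ u ∈ U, φ u = z then p h.choose else p x₀) ⁻¹' W =
        φ '' (U ∩ p ⁻¹' W) := by
      ext m
      constructor
      · rintro ⟨⟨u, hu, rfl⟩, hm⟩
        have h : ∃ v ∈ U, φ v = φ u := ⟨u, hu, rfl⟩
        simp only [mem_preimage, dif_pos h] at hm
        exact ⟨_, ⟨h.choose_spec.1, hm⟩, h.choose_spec.2⟩
      · rintro ⟨u, ⟨hu, hm⟩, rfl⟩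
        refine ⟨⟨u, hu, rfl⟩, ?_⟩
        have h : ∃ v ∈ U, φ v = φ u := ⟨u, hu, rfl⟩
        simp only [mem_preimage, dif_pos h]
        rw [(hfib _ h.choose_spec.1 _ hu).2 h.choose_spec.2]
        exact hm
    rw [h1]
    exact hφo _ inter_subset_left (hU.inter (hW.preimage hp))

section

variable {p : X → M} {hp : Continuous p} {hpo : IsOpenMap p} {x₀ : X} {U : Set X}
  {hU : IsOpen U} {φ : X → Z} {hφ : ContinuousOn φ U}
  {hφo : ∀ V ⊆ U, IsOpen V → IsOpen (φ '' V)}
  {hfib : ∀ u ∈ U, ∀ v ∈ U, p u = p v ↔ φ u = φ v}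

@[simp] theorem mkChart_source : (mkChart p hp hpo x₀ U hU φ hφ hφo hfib).source = p '' U := rfl

@[simp] theorem mkChart_target : (mkChart p hp hpo x₀ U hU φ hφ hφo hfib).target = φ '' U := rfl



end

end Chart

section Cover

/-- `q : X → Y` is the quotient map by the subgroup `N` of `G` -/
structure IsQ (G : Type u) [Group G] (X : Type v) [TopologicalSpace X] [MulAction G X]
    (N : Subgroup G) {Y : Type w} [TopologicalSpace Y] (q : X → Y) : Prop where
  cont : Continuous q
  opn : IsOpenMap q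
  surj : Function.Surjective q
  fib : ∀ x y, q x = q y ↔ ∃ g ∈ N, g • x = y

theorem IsQ.quotientMk (G : Type u) [Group G] (X : Type v) [TopologicalSpace X] [MulAction G X]
    [ContinuousConstSMul G X] (N : Subgroup G) :
    IsQ G X N (Quotient.mk (MulAction.orbitRel N X)) where
  cont := continuous_quotient_mk'
  opn := by
    haveI : ContinuousConstSMul N X := ⟨fun c => continuous_const_smul (c : G)⟩
    exact isOpenMap_quotient_mk'_mul
  surj := Quotient.mk_surjective
  fib x y := by
    rw [Quotient.eq]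
    constructor
    · rintro ⟨g, hg⟩
      refine ⟨((g⁻¹ : N) : G), (g⁻¹).2, ?_⟩
      have hg' : (g : G) • y = x := hg
      rw [← hg', Subgroup.coe_inv, inv_smul_smul]
    · rintro ⟨g, hg, h⟩
      refine ⟨(⟨g, hg⟩ : N)⁻¹, ?_⟩
      show ((⟨g, hg⟩ : N)⁻¹ : G) • y = x
      rw [← h]
      show g⁻¹ • g • x = x
      rw [inv_smul_smul]

/-- the full orbit space -/
theorem IsQ.quotientMk_top (G : Type u) [Group G] (X : Type v) [TopologicalSpace X]
    [MulAction G X] [ContinuousConstSMul G X] :
    IsQ G X (⊤ : Subgroup G) (Quotient.mk (MulAction.orbitRel G X)) where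
  cont := continuous_quotient_mk'
  opn := isOpenMap_quotient_mk'_mul
  surj := Quotient.mk_surjective
  fib x y := by
    rw [Quotient.eq]
    constructor
    · rintro ⟨g, hg⟩
      have hg' : g • y = x := hg
      exact ⟨g⁻¹, trivial, by rw [← hg', inv_smul_smul]⟩
    · rintro ⟨g, -, h⟩
      refine ⟨g⁻¹, ?_⟩
      show g⁻¹ • y = x
      rw [← h, inv_smul_smul]

variable {G : Type u} [Group G] {X : Type v} [TopologicalSpace X] [MulAction G X]
  {N : Subgroup G} {Y : Type w} [TopologicalSpace Y] {q : X → Y}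

theorem IsQ.isQuotientMap (hq : IsQ G X N q) : IsQuotientMap q :=
  hq.opn.isQuotientMap hq.cont hq.surj


theorem IsQ.key [N.Normal] (hq : IsQ G X N q) {g g' : G} {x x' : X} (hx : q x = q x')
    (hg : (g : G ⧸ N) = g') : q (g • x) = q (g' • x') := by
  obtain ⟨n, hn, rfl⟩ := (hq.fib _ _).1 hx
  have h1 : g⁻¹ * g' ∈ N := QuotientGroup.eq.1 hg
  refine (hq.fib _ _).2 ⟨g * (g⁻¹ * g' * n) * g⁻¹, ?_, ?_⟩
  · exact Subgroup.Normal.conj_mem inferInstance _ (N.mul_mem h1 hn) g
  · rw [← mul_smul, ← mul_smul]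
    congr 1
    group

/-- orbit spaces are Hausdorff -/
theorem IsQ.t2Space [ContinuousConstSMul G X] [ProperlyDiscontinuousSMul G X]
    [T2Space X] [LocallyCompactSpace X] (hq : IsQ G X N q) : T2Space Y := by
  have : ContinuousConstSMul N X := ⟨fun c => continuous_const_smul (c : G)⟩
  let f : Y → Quotient (MulAction.orbitRel N X) :=
    fun y => Quotient.mk _ (Function.surjInv hq.surj y)
  have hf : ∀ x, f (q x) = Quotient.mk _ x := fun x =>
    ((IsQ.quotientMk G X N).fib _ _).2
      ((hq.fib _ _).1 (Function.surjInv_eq hq.surj (q x)))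
  have hfc : Continuous f := by
    rw [hq.isQuotientMap.continuous_iff]
    have h1 : f ∘ q = Quotient.mk _ := funext hf
    rw [h1]
    exact continuous_quotient_mk'
  refine T2Space.of_injective_continuous (f := f) ?_ hfc
  intro y₁ y₂ h
  obtain ⟨x₁, rfl⟩ := hq.surj y₁
  obtain ⟨x₂, rfl⟩ := hq.surj y₂
  rw [hf, hf] at h
  exact (hq.fib _ _).2 (((IsQ.quotientMk G X N).fib _ _).1 h)

/-- the action of `G ⧸ N` on the orbit space of `N` -/
@[instance_reducible] def IsQ.act [N.Normal] (hq : IsQ G X N q) : MulAction (G ⧸ N) Y where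
  smul c y := q (c.out • Function.surjInv hq.surj y)
  one_smul y := by
    show q ((1 : G ⧸ N).out • Function.surjInv hq.surj y) = y
    have h := hq.key (g := (1 : G ⧸ N).out) (g' := (1 : G)) (x := Function.surjInv hq.surj y)
      (x' := Function.surjInv hq.surj y) rfl (by rw [QuotientGroup.out_eq']; rfl)
    rw [h, one_smul]
    exact Function.surjInv_eq hq.surj y
  mul_smul c d y := by
    show q ((c * d).out • Function.surjInv hq.surj y) =
      q (c.out • Function.surjInv hq.surj (q (d.out • Function.surjInv hq.surj y)))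
    rw [hq.key (g := (c * d).out) (g' := c.out * d.out) (x := Function.surjInv hq.surj y)
      (x' := Function.surjInv hq.surj y) rfl
      (by rw [QuotientGroup.out_eq', QuotientGroup.mk_mul, QuotientGroup.out_eq',
        QuotientGroup.out_eq']), mul_smul]
    exact hq.key (by rw [Function.surjInv_eq hq.surj]) rfl





end Cover

end

end Crest.Agent.R272.RQ1_302
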