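import Crest.Agent.R272.FamP_54
import Crest.Agent.R272.DCov1_426

/-!
# R272 (S0415), MODEL tools (helper54): LEVEL, slices of level sets of submersions

* `exists_slice`   : `S` is, in a chart, the zero set of a submersion ⟹ a slice through the point;
* `exists_slice_g` : the same in any compatible chart with values in any normed space;
* `exists_slice_f` : the same for a function on an open set of `X`.
-/

set_option autoImplicit false
set_option linter.unusedSectionVars false

open Set Filter Topology Complex

namespace Crest.Agent.R272.Lev_54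

open Crest.Agent.R275.Geo Crest.Agent.R273.Fam_835 Crest.Agent.R272.FamP_54
  Crest.Agent.R272.SubF_54

noncomputable section

variable {N n : ℕ} {X : Type} [TopologicalSpace X] {F : Fam N X} {S : Set X}
  {E' : Type*} [NormedAddCommGroup E'] [NormedSpace ℂ E'] [FiniteDimensional ℂ E']

/-- the zero set of a submersion is a submanifold -/
theorem exists_slice (hn : N = n + Module.finrank ℂ E') {x : X} (j : F.ι)
    (hj : x ∈ (F.e j).source) {W : Set (Cn N)} (hW : IsOpen W) (hxW : F.e j x ∈ W)
    {Φ : Cn N → E'} (hΦ : DifferentiableOn ℂ Φ W)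
    (hS : ∀ y ∈ (F.e j).source, F.e j y ∈ W → (y ∈ S ↔ Φ (F.e j y) = 0))
    (hs : Function.Surjective (fderiv ℂ Φ (F.e j x))) : ∃ c : Slice F S n, x ∈ c.dom := by
  obtain ⟨χ, h1, h2, h3, h4, h5⟩ := DCov_426.straighten (V := Cn n)
    (hW.inter (F.e j).open_target) (hΦ.mono inter_subset_left)
    ⟨hxW, (F.e j).map_source hj⟩ hs (by simpa using hn)
  refine ⟨{ j := j
            V := χ.source
            U := {u | (u, (0 : E')) ∈ χ.target}
            φ := fun u => χ.symm (u, 0)
            ψ := fun z => (χ z).1
            hV := χ.open_source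
            hVt := fun z hz => (h2 hz).2
            hU := χ.open_target.preimage (by fun_prop)
            φV := fun u hu => χ.map_target hu
            φS := ?_
            dφ := ?_
            dψ := ?_
            ψφ := fun u hu => ?_
            ψU := ?_
            φψ := ?_ }, hj, h1⟩
  · intro u hu
    have h6 : χ.symm (u, 0) ∈ χ.source := χ.map_target hu
    have h7 := h2 h6
    rw [hS _ ((F.e j).map_target h7.2) (by rw [(F.e j).right_inv h7.2]; exact h7.1),
      (F.e j).right_inv h7.2, ← h3, χ.right_inv hu]
  · exact h5.comp (differentiableOn_id.prodMk (differentiableOn_const _)) fun u hu => hu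
  · exact differentiable_fst.comp_differentiableOn h4
  · show (χ (χ.symm (u, 0))).1 = u
    rw [χ.right_inv hu]
  · intro y hyS hy hyV
    have h6 : (χ (F.e j y)).2 = 0 := by
      rw [h3]; exact (hS y hy (h2 hyV).1).1 hyS
    show ((χ (F.e j y)).1, (0 : E')) ∈ χ.target
    rw [← h6]
    exact χ.map_source hyV
  · intro y hyS hy hyV
    have h6 : (χ (F.e j y)).2 = 0 := by
      rw [h3]; exact (hS y hy (h2 hyV).1).1 hyS
    show χ.symm ((χ (F.e j y)).1, (0 : E')) = F.e j y
    rw [← h6]
    exact χ.left_inv hyV


/-- `g` is a holomorphic chart of `(X, F)` with values in a normed space `E` -/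
structure Cpt {E : Type*} [NormedAddCommGroup E] [NormedSpace ℂ E] (F : Fam N X)
    (g : OpenPartialHomeomorph X E) : Prop where
  hol : ∀ x ∈ g.source, HFA F g x
  hol' : ∀ i, ∀ z ∈ g.target, g.symm z ∈ (F.e i).source →
    DifferentiableAt ℂ (fun z => F.e i (g.symm z)) z



end

end Crest.Agent.R272.Lev_54
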