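import Crest.Agent.R272.Gr2_559
import Crest.Agent.R272.P1A_54
import Crest.Agent.R272.Lev_54
import Crest.Agent.R272.GrLv_559

-- ▼ part R272/Gr3_559
section

/-!
# R272 (S0415), MOD-GRAPH (helper559), file 4: `X1` is a submanifold (rank computation)

* `ambF F`      : charts of the ambient space with values in `EE`;
* `RelE`        : the equations between `z`, `t`, `v` in homogeneous coordinates;
* `mem_X1_iff`  : membership in `X1` in a product chart, for arbitrary local equations `Loc`;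
* `lv_of`       : assembly; `lv_X1 : ∀ s ∈ X1, Lv (ambF F) X1 _ s`.
-/

set_option autoImplicit false
set_option linter.unusedSectionVars false

open Set Filter Topology Complex

namespace Crest.Agent.R272.Gr_559

open Crest.Agent.R275.Geo Crest.Agent.R273.Fam_835 Crest.Agent.R272.Quot_783
open Crest.Agent.R272

noncomputable section

variable {N : Type} [TopologicalSpace N] {F : Fam 3 N}

/-- model space of the ambient space -/
abbrev EE : Type := Cn 3 × (Fin 2 → ℂ) × ℂ × (Fin 2 → ℂ)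

/-- charts of the ambient space -/
def ambF (F : Fam 3 N) : FamE EE (GData.Amb N) :=
  (toE F).prod ((FamE.pi famP).prod (famP.prod (FamE.pi famP)))

/-- product chart -/
def ac (F : Fam 3 N) (i : F.ι) (bt : Fin 2 → Bool) (bv : Bool) (bk : Fin 2 → Bool) :
    (ambF F).ι := (i, bt, bv, bk)

theorem mem_ac {i : F.ι} {bt : Fin 2 → Bool} {bv : Bool} {bk : Fin 2 → Bool}
    {y : GData.Amb N} : y ∈ ((ambF F).e (ac F i bt bv bk)).source ↔
      y.1 ∈ (F.e i).source ∧ (∀ a, y.2.1 a ∈ (famP.e (bt a)).source) ∧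
      y.2.2.1 ∈ (famP.e bv).source ∧ ∀ a, y.2.2.2 a ∈ (famP.e (bk a)).source := by
  constructor
  · rintro ⟨h1, h2, h3, h4⟩
    exact ⟨h1, fun a => h2 a trivial, h3, fun a => h4 a trivial⟩
  · rintro ⟨h1, h2, h3, h4⟩
    exact ⟨h1, fun a _ => h2 a, h3, fun a _ => h4 a⟩


/-- the equations between `z`, `t`, `v`, in homogeneous coordinates -/
def RelE (D : GData F) (z : N) (tn td : Fin 2 → ℂ) (vn vd : ℂ) : Prop :=
  (∀ a, D.x a z * td a = D.f0 z * tn a) ∧ vn * td 0 = vd * tn 0 * D.x 1 z ∧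
    vn * td 1 = vd * tn 1 * D.x 0 z

theorem relE_iff (D : GData F) {a b : Fin 2} (hab : a ≠ b) (z : N) (tn td : Fin 2 → ℂ)
    (vn vd : ℂ) : RelE D z tn td vn vd ↔ D.x a z * td a = D.f0 z * tn a ∧
      D.x b z * td b = D.f0 z * tn b ∧ vn * td a = vd * tn a * D.x b z ∧
      vn * td b = vd * tn b * D.x a z := by
  unfold RelE
  rw [Fin.forall_fin_two]
  fin_cases a <;> fin_cases b <;> simp at hab ⊢ <;> tauto

theorem relE_scale (D : GData F) (z : N) (tn td : Fin 2 → ℂ) (vn vd : ℂ) {l : Fin 2 → ℂ}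
    (hl : ∀ a, l a ≠ 0) {m : ℂ} (hm : m ≠ 0) :
    RelE D z (fun a => l a * tn a) (fun a => l a * td a) (m * vn) (m * vd) ↔
      RelE D z tn td vn vd := by
  unfold RelE
  refine and_congr (forall_congr' fun a => ?_) (and_congr ?_ ?_)
  · rw [show D.x a z * (l a * td a) = l a * (D.x a z * td a) by ring,
      show D.f0 z * (l a * tn a) = l a * (D.f0 z * tn a) by ring]
    exact mul_right_inj' (hl a)
  · rw [show m * vn * (l 0 * td 0) = m * l 0 * (vn * td 0) by ring,
      show m * vd * (l 0 * tn 0) * D.x 1 z = m * l 0 * (vd * tn 0 * D.x 1 z) by ring]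
    exact mul_right_inj' (mul_ne_zero hm (hl 0))
  · rw [show m * vn * (l 1 * td 1) = m * l 1 * (vn * td 1) by ring,
      show m * vd * (l 1 * tn 1) * D.x 0 z = m * l 1 * (vd * tn 1 * D.x 0 z) by ring]
    exact mul_right_inj' (mul_ne_zero hm (hl 1))

theorem mem_X1_loc (D : GData F) {q : N} (C : ∀ a, Loc D a q) {y : GData.Amb N}
    (hz : ∀ a, y.1 ∈ (C a).U) : y ∈ D.X1 ↔
      RelE D y.1 (fun a => (y.2.1 a).n) (fun a => (y.2.1 a).d) y.2.2.1.n y.2.2.1.d ∧
      ∀ a, (y.2.2.2 a).n ^ 2 * (C a).g y.1 (y.2.1 a).n (y.2.1 a).d =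
        (y.2.2.2 a).d ^ 2 * (C a).f y.1 (y.2.1 a).n (y.2.1 a).d := by
  have h1 : ∀ a, (y.1, y.2.1 a, y.2.2.2 a) ∈ D.Y a ↔ _ := fun a =>
    (C a).iff y.1 (hz a) (y.2.1 a) (y.2.2.2 a)
  unfold GData.X1 RelE
  rw [mem_ofPred_eq]
  simp only [h1]
  constructor
  · rintro ⟨h2, h3, h4⟩
    exact ⟨⟨fun a => (h2 a).1, h3, h4⟩, fun a => (h2 a).2⟩
  · rintro ⟨⟨h2, h3, h4⟩, h5⟩
    exact ⟨fun a => ⟨h2 a, h5 a⟩, h3, h4⟩

/-- membership in `X1` in a product chart -/
theorem mem_X1_iff (D : GData F) {q : N} (C : ∀ a, Loc D a q) {y : GData.Amb N}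
    (hz : ∀ a, y.1 ∈ (C a).U) {bt : Fin 2 → Bool} {bv : Bool} {bk : Fin 2 → Bool}
    (ht : ∀ a, y.2.1 a ∈ (famP.e (bt a)).source) (hv : y.2.2.1 ∈ (famP.e bv).source)
    (hk : ∀ a, y.2.2.2 a ∈ (famP.e (bk a)).source) : y ∈ D.X1 ↔
      RelE D y.1 (fun a => hn (bt a) (famP.e (bt a) (y.2.1 a)))
        (fun a => hd (bt a) (famP.e (bt a) (y.2.1 a))) (hn bv (famP.e bv y.2.2.1))
        (hd bv (famP.e bv y.2.2.1)) ∧
      ∀ a, hn (bk a) (famP.e (bk a) (y.2.2.2 a)) ^ 2 *
          (C a).g y.1 (hn (bt a) (famP.e (bt a) (y.2.1 a))) (hd (bt a) (famP.e (bt a) (y.2.1 a))) =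
        hd (bk a) (famP.e (bk a) (y.2.2.2 a)) ^ 2 *
          (C a).f y.1 (hn (bt a) (famP.e (bt a) (y.2.1 a)))
            (hd (bt a) (famP.e (bt a) (y.2.1 a))) := by
  rw [mem_X1_loc D C hz]
  choose l hl hl1 hl2 using fun a => hnd (ht a)
  obtain ⟨m, hm, hm1, hm2⟩ := hnd hv
  choose r hr hr1 hr2 using fun a => hnd (hk a)
  refine and_congr ?_ (forall_congr' fun a => ?_)
  · simp only [hl1, hl2, hm1, hm2]
    exact relE_scale D _ _ _ _ _ hl hm
  · rw [hl1 a, hl2 a, hr1 a, hr2 a, (C a).f_hom, (C a).g_hom]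
    generalize (C a).g y.1 (hn (bt a) (famP.e (bt a) (y.2.1 a)))
      (hd (bt a) (famP.e (bt a) (y.2.1 a))) = G
    generalize (C a).f y.1 (hn (bt a) (famP.e (bt a) (y.2.1 a)))
      (hd (bt a) (famP.e (bt a) (y.2.1 a))) = H
    generalize hn (bk a) (famP.e (bk a) (y.2.2.2 a)) = u
    generalize hd (bk a) (famP.e (bk a) (y.2.2.2 a)) = w
    rw [show (r a * u) ^ 2 * (l a ^ (C a).e * G) = (r a ^ 2 * l a ^ (C a).e) * (u ^ 2 * G) by ring,
      show (r a * w) ^ 2 * (l a ^ (C a).e * H) = (r a ^ 2 * l a ^ (C a).e) * (w ^ 2 * H) by ring]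
    exact mul_right_inj' (mul_ne_zero (pow_ne_zero _ (hr a)) (pow_ne_zero _ (hl a)))

/-! ### one-variable calculus: value and derivative at `0` -/

/-- `f 0 = v`, `f' 0 = d` -/
structure HV (f : ℂ → ℂ) (v d : ℂ) : Prop where
  val : f 0 = v
  der : HasDerivAt f d 0

theorem HV.mul {f g : ℂ → ℂ} {v d v' d' : ℂ} (h : HV f v d) (h' : HV g v' d') :
    HV (fun r => f r * g r) (v * v') (d * v' + v * d') :=
  ⟨by simp only [h.val, h'.val], by
    have := h.der.mul h'.der
    rw [h.val, h'.val] at this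
    exact this⟩

theorem HV.sub {f g : ℂ → ℂ} {v d v' d' : ℂ} (h : HV f v d) (h' : HV g v' d') :
    HV (fun r => f r - g r) (v - v') (d - d') :=
  ⟨by simp only [h.val, h'.val], h.der.sub h'.der⟩

theorem HV.add {f g : ℂ → ℂ} {v d v' d' : ℂ} (h : HV f v d) (h' : HV g v' d') :
    HV (fun r => f r + g r) (v + v') (d + d') :=
  ⟨by simp only [h.val, h'.val], h.der.add h'.der⟩

theorem HV.sq {f : ℂ → ℂ} {v d : ℂ} (h : HV f v d) : HV (fun r => f r ^ 2) (v ^ 2) (2 * v * d) := by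
  have h1 := h.mul h
  refine ⟨by rw [h.val], ?_⟩
  have h2 := h1.der
  have e1 : (fun r => f r * f r) = fun r => f r ^ 2 := by funext r; ring
  have e2 : d * v + v * d = 2 * v * d := by ring
  rw [e1, e2] at h2
  exact h2

theorem HV.lin (τ T : ℂ) : HV (fun r => τ + r * T) τ T :=
  ⟨by simp, by
    have := ((hasDerivAt_id (0 : ℂ)).mul_const T).const_add τ
    simpa using this⟩

theorem HV.cst (c : ℂ) : HV (fun _ => c) c 0 := ⟨rfl, hasDerivAt_const _ _⟩

theorem HV.hn (b : Bool) {f : ℂ → ℂ} {v d : ℂ} (h : HV f v d) :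
    HV (fun r => hn b (f r)) (Gr_559.hn b v) (if b then 0 else d) := by
  cases b
  · exact h
  · exact HV.cst 1

theorem HV.hd (b : Bool) {f : ℂ → ℂ} {v d : ℂ} (h : HV f v d) :
    HV (fun r => hd b (f r)) (Gr_559.hd b v) (if b then d else 0) := by
  cases b
  · exact HV.cst 1
  · exact h

/-- along a line in a chart -/
theorem HV.dd {U : Set N} (hU : IsOpen U) {f : N → ℂ} (hf : HolF F U f) {i : F.ι} {q : N}
    (hi : q ∈ (F.e i).source) (hq : q ∈ U) (V : Cn 3) :
    HV (fun r => f ((F.e i).symm (F.e i q + r • V))) (f q) (Gr_559.dd F i f q V) := by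
  refine ⟨?_, ?_⟩
  · simp only [zero_smul, add_zero, (F.e i).left_inv hi]
  · exact (hasFDerivAt_dd hU hf hi hq).hasLineDerivAt V

theorem line_hasDerivAt {E G : Type} [NormedAddCommGroup E] [NormedSpace ℂ E]
    [NormedAddCommGroup G] [NormedSpace ℂ G] {f : E → G} {p : E} (h : DifferentiableAt ℂ f p)
    (v : E) : HasDerivAt (fun r : ℂ => f (p + r • v)) (fderiv ℂ f p v) 0 :=
  h.hasFDerivAt.hasLineDerivAt v

/-! ### the assembly -/

theorem isOpen_ts (F : Fam 3 N) (i : F.ι) {U : Set N} (hU : IsOpen U) :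
    IsOpen {p : EE | p.1 ∈ (F.e i).target ∩ (F.e i).symm ⁻¹' U} :=
  ((F.e i).isOpen_inter_preimage_symm hU).preimage continuous_fst

/-- **assembly**: equations between `z, t, v` of rank 3 with prescribed differentials of the local
equations of the double covers give equations of `X1` of rank 5 -/
theorem lv_of (D : GData F) {s : GData.Amb N} (hs : s ∈ D.X1) (C : ∀ a, Loc D a s.1)
    {i : F.ι} (hi : s.1 ∈ (F.e i).source) (bt : Fin 2 → Bool) (bv : Bool)
    (hbt : ∀ a, s.2.1 a ∈ (famP.e (bt a)).source) (hbv : s.2.2.1 ∈ (famP.e bv).source)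
    (ΦE : Cn 3 → (Fin 2 → ℂ) → ℂ → Fin 3 → ℂ)
    (hΦ : DifferentiableOn ℂ (fun p : EE => ΦE p.1 p.2.1 p.2.2.1) {p | p.1 ∈ (F.e i).target})
    (hiff : ∀ z ∈ (F.e i).source, ∀ (τ : Fin 2 → ℂ) (ν : ℂ),
      RelE D z (fun a => hn (bt a) (τ a)) (fun a => hd (bt a) (τ a)) (hn bv ν) (hd bv ν) ↔
        ΦE (F.e i z) τ ν = 0)
    (pres : ∀ (w : Fin 3 → ℂ) (φ γ : Fin 2 → ℂ), ∃ (V : Cn 3) (T : Fin 2 → ℂ) (Nv : ℂ),
      HasDerivAt (fun r : ℂ => ΦE (F.e i s.1 + r • V)
        ((fun a => famP.e (bt a) (s.2.1 a)) + r • T) (famP.e bv s.2.2.1 + r • Nv)) w 0 ∧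
      ∀ a, ((C a).f s.1 (hn (bt a) (famP.e (bt a) (s.2.1 a)))
          (hd (bt a) (famP.e (bt a) (s.2.1 a))) = 0 →
          fderiv ℂ ((C a).fc i (bt a)) (F.e i s.1, famP.e (bt a) (s.2.1 a)) (V, T a) = φ a) ∧
        ((C a).g s.1 (hn (bt a) (famP.e (bt a) (s.2.1 a)))
          (hd (bt a) (famP.e (bt a) (s.2.1 a))) = 0 →
          fderiv ℂ ((C a).gc i (bt a)) (F.e i s.1, famP.e (bt a) (s.2.1 a)) (V, T a) = γ a)) :
    Lv (ambF F) D.X1 ((Fin 3 → ℂ) × (Fin 2 → ℂ)) s := by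
  set bk : Fin 2 → Bool := fun a => ib (s.2.2.2 a) with hbk
  have hk : ∀ a, s.2.2.2 a ∈ (famP.e (bk a)).source := fun a => mem_source_ib _
  set τ : Fin 2 → ℂ := fun a => famP.e (bt a) (s.2.1 a) with hτ
  set κ : Fin 2 → ℂ := fun a => famP.e (bk a) (s.2.2.2 a) with hκ
  have hsK := ((mem_X1_iff D C (fun a => (C a).mem) hbt hbv hk).1 hs).2
  let W : Set EE := ⋂ a, {p : EE | p.1 ∈ (F.e i).target ∩ (F.e i).symm ⁻¹' (C a).U}
  have hW : IsOpen W := isOpen_iInter_of_finite fun a => isOpen_ts F i (C a).U_open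
  let p0 : EE := (ambF F).e (ac F i bt bv bk) s
  have hp0W : p0 ∈ W := mem_iInter.2 fun a => ⟨(F.e i).map_source hi, by
    show (F.e i).symm (F.e i s.1) ∈ (C a).U
    rw [(F.e i).left_inv hi]; exact (C a).mem⟩
  let Φ : EE → (Fin 3 → ℂ) × (Fin 2 → ℂ) := fun p => (ΦE p.1 p.2.1 p.2.2.1, fun a =>
    hn (bk a) (p.2.2.2 a) ^ 2 * (C a).gc i (bt a) (p.1, p.2.1 a) -
      hd (bk a) (p.2.2.2 a) ^ 2 * (C a).fc i (bt a) (p.1, p.2.1 a))
  have hΦd : DifferentiableOn ℂ Φ W := by
    refine (hΦ.mono fun p hp => (mem_iInter.1 hp 0).1).prodMk ?_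
    rw [differentiableOn_pi]
    intro a
    have h1 : DifferentiableOn ℂ (fun p : EE => hn (bk a) (p.2.2.2 a)) W :=
      ((differentiable_hn (bk a)).comp (by fun_prop)).differentiableOn
    have h2 : DifferentiableOn ℂ (fun p : EE => hd (bk a) (p.2.2.2 a)) W :=
      ((differentiable_hd (bk a)).comp (by fun_prop)).differentiableOn
    have h3 : DifferentiableOn ℂ (fun p : EE => ((p.1, p.2.1 a) : Cn 3 × ℂ)) W := by fun_prop
    have h4 : DifferentiableOn ℂ (fun p : EE => (C a).gc i (bt a) (p.1, p.2.1 a)) W :=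
      ((C a).g_hol i (bt a)).comp h3 fun p hp => mem_iInter.1 hp a
    have h5 : DifferentiableOn ℂ (fun p : EE => (C a).fc i (bt a) (p.1, p.2.1 a)) W :=
      ((C a).f_hol i (bt a)).comp h3 fun p hp => mem_iInter.1 hp a
    exact ((h1.pow 2).mul h4).sub ((h2.pow 2).mul h5)
  have hΦat : DifferentiableAt ℂ Φ p0 := hΦd.differentiableAt (hW.mem_nhds hp0W)
  refine ⟨ac F i bt bv bk, mem_ac.2 ⟨hi, hbt, hbv, hk⟩, W, hW, hp0W, Φ, hΦd, ?_, ?_⟩
  · rintro ⟨w, ω⟩
    obtain ⟨V, T, Nv, h1, h2⟩ := pres w (fun a => -ω a) (fun a => if bk a then ω a else 0)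
    -- the last components
    have h3 : ∀ a, ∃ K : ℂ, HasDerivAt (fun r : ℂ =>
        hn (bk a) (κ a + r * K) ^ 2 * (C a).gc i (bt a) ((F.e i s.1, τ a) + r • (V, T a)) -
        hd (bk a) (κ a + r * K) ^ 2 * (C a).fc i (bt a) ((F.e i s.1, τ a) + r • (V, T a)))
        (ω a) 0 := by
      intro a
      have hf : ∀ K : ℂ, HV (fun r : ℂ =>
        hn (bk a) (κ a + r * K) ^ 2 * (C a).gc i (bt a) ((F.e i s.1, τ a) + r • (V, T a)) -
        hd (bk a) (κ a + r * K) ^ 2 * (C a).fc i (bt a) ((F.e i s.1, τ a) + r • (V, T a))) _ _ :=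
        fun K => (((HV.lin (κ a) K).hn (bk a)).sq.mul
          (⟨by rw [zero_smul, add_zero], line_hasDerivAt ((C a).gc_diff hi (bt a) (τ a)) (V, T a)⟩ :
            HV (fun r : ℂ => (C a).gc i (bt a) ((F.e i s.1, τ a) + r • (V, T a)))
              ((C a).gc i (bt a) (F.e i s.1, τ a)) _)).sub
          (((HV.lin (κ a) K).hd (bk a)).sq.mul
          (⟨by rw [zero_smul, add_zero], line_hasDerivAt ((C a).fc_diff hi (bt a) (τ a)) (V, T a)⟩ :
            HV (fun r : ℂ => (C a).fc i (bt a) ((F.e i s.1, τ a) + r • (V, T a)))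
              ((C a).fc i (bt a) (F.e i s.1, τ a)) _))
      have eg : (C a).gc i (bt a) (F.e i s.1, τ a) =
          (C a).g s.1 (hn (bt a) (τ a)) (hd (bt a) (τ a)) := by
        simp only [Loc.gc, (F.e i).left_inv hi]
      have ef : (C a).fc i (bt a) (F.e i s.1, τ a) =
          (C a).f s.1 (hn (bt a) (τ a)) (hd (bt a) (τ a)) := by
        simp only [Loc.fc, (F.e i).left_inv hi]
      obtain ⟨hfa, hga⟩ := h2 a
      have hsa := hsK a
      set G := (C a).g s.1 (hn (bt a) (τ a)) (hd (bt a) (τ a)) with hG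
      set H := (C a).f s.1 (hn (bt a) (τ a)) (hd (bt a) (τ a)) with hH
      have hsa' : hn (bk a) (κ a) ^ 2 * G = hd (bk a) (κ a) ^ 2 * H := hsa
      set G' := fderiv ℂ ((C a).gc i (bt a)) (F.e i s.1, τ a) (V, T a) with hG'
      set H' := fderiv ℂ ((C a).fc i (bt a)) (F.e i s.1, τ a) (V, T a) with hH'
      replace hga : G = 0 → G' = if bk a = true then ω a else 0 := hga
      replace hfa : H = 0 → H' = -ω a := hfa
      have key : ∀ K : ℂ, 2 * hn (bk a) (κ a) * (if bk a then 0 else K) * G +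
          hn (bk a) (κ a) ^ 2 * G' - (2 * hd (bk a) (κ a) * (if bk a then K else 0) * H +
          hd (bk a) (κ a) ^ 2 * H') = ω a → HasDerivAt (fun r : ℂ =>
        hn (bk a) (κ a + r * K) ^ 2 * (C a).gc i (bt a) ((F.e i s.1, τ a) + r • (V, T a)) -
        hd (bk a) (κ a + r * K) ^ 2 * (C a).fc i (bt a) ((F.e i s.1, τ a) + r • (V, T a)))
        (ω a) 0 := by
        intro K hK
        have h4 := (hf K).der
        rw [eg, ef] at h4
        rw [hK] at h4
        exact h4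
      by_cases hb : bk a = true
      · have hκ0 : κ a = 0 := by
          have h5 : s.2.2.2 a = OnePoint.infty := by
            by_contra hne
            have h6 : bk a = false := by
              show ib (s.2.2.2 a) = false
              revert hne
              induction s.2.2.2 a using OnePoint.rec with
              | infty => exact fun h => absurd rfl h
              | coe c => exact fun _ => rfl
            rw [h6] at hb
            exact absurd hb (by simp)
          show famP.e (bk a) (s.2.2.2 a) = 0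
          rw [h5, hb, famP_true, P1.c1_infty]
        have hG0 : G = 0 := by
          rw [hb, hκ0] at hsa'
          simpa using hsa'
        refine ⟨0, key 0 ?_⟩
        have h7 := hga hG0
        rw [hb] at h7
        rw [hb, hκ0]
        simp only [hn_true, hd_true, if_true] at h7 ⊢
        rw [h7]
        ring
      · have hb' : bk a = false := by simpa using hb
        rw [hb'] at hsa'
        simp only [hn_false, hd_false] at hsa'
        by_cases hκ0 : κ a = 0
        · have hH0 : H = 0 := by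
            rw [hκ0] at hsa'
            linear_combination -hsa'
          refine ⟨0, key 0 ?_⟩
          have h7 := hfa hH0
          rw [hb', hκ0]
          simp only [hn_false, hd_false, Bool.false_eq_true, if_false]
          rw [h7]
          ring
        · by_cases hG0 : G = 0
          · have hH0 : H = 0 := by
              rw [hG0] at hsa'
              linear_combination -hsa'
            refine ⟨0, key 0 ?_⟩
            have h7 := hfa hH0
            have h8 := hga hG0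
            rw [hb'] at h8
            rw [hb']
            simp only [hn_false, hd_false, Bool.false_eq_true, if_false] at h8 ⊢
            rw [h7, h8]
            ring
          · refine ⟨(ω a + H' - κ a ^ 2 * G') / (2 * κ a * G), key _ ?_⟩
            rw [hb']
            simp only [hn_false, hd_false, Bool.false_eq_true, if_false]
            have h9 : (2 * κ a * G) ≠ 0 := mul_ne_zero (mul_ne_zero two_ne_zero hκ0) hG0
            rw [show 2 * κ a * ((ω a + H' - κ a ^ 2 * G') / (2 * κ a * G)) * G =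
              (2 * κ a * G) * ((ω a + H' - κ a ^ 2 * G') / (2 * κ a * G)) by ring,
              mul_div_cancel₀ _ h9]
            ring
    choose K hK using h3
    refine ⟨(V, T, Nv, K), ?_⟩
    have h4 := line_hasDerivAt hΦat (V, T, Nv, K)
    have h5 : HasDerivAt (fun r : ℂ => Φ (p0 + r • (V, T, Nv, K))) (w, ω) 0 := by
      refine HasDerivAt.prodMk h1 ?_
      rw [hasDerivAt_pi]
      exact hK
    exact h4.unique h5
  · intro y hy hyW
    obtain ⟨g1, g2, g3, g4⟩ := mem_ac.1 hy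
    have hyU : ∀ a, y.1 ∈ (C a).U := by
      intro a
      have h5 : (F.e i).symm (F.e i y.1) ∈ (C a).U := (mem_iInter.1 hyW a).2
      rwa [(F.e i).left_inv g1] at h5
    rw [mem_X1_iff D C hyU g2 g3 g4, hiff y.1 g1]
    have h6 : ∀ a, (C a).gc i (bt a) (F.e i y.1, famP.e (bt a) (y.2.1 a)) =
        (C a).g y.1 (hn (bt a) (famP.e (bt a) (y.2.1 a)))
          (hd (bt a) (famP.e (bt a) (y.2.1 a))) := by
      intro a; simp only [Loc.gc, (F.e i).left_inv g1]
    have h7 : ∀ a, (C a).fc i (bt a) (F.e i y.1, famP.e (bt a) (y.2.1 a)) =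
        (C a).f y.1 (hn (bt a) (famP.e (bt a) (y.2.1 a)))
          (hd (bt a) (famP.e (bt a) (y.2.1 a))) := by
      intro a; simp only [Loc.fc, (F.e i).left_inv g1]
    constructor
    · rintro ⟨h8, h9⟩
      refine Prod.ext h8 (funext fun a => ?_)
      show hn (bk a) (famP.e (bk a) (y.2.2.2 a)) ^ 2 *
        (C a).gc i (bt a) (F.e i y.1, famP.e (bt a) (y.2.1 a)) -
        hd (bk a) (famP.e (bk a) (y.2.2.2 a)) ^ 2 *
        (C a).fc i (bt a) (F.e i y.1, famP.e (bt a) (y.2.1 a)) = 0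
      rw [h6 a, h7 a, h9 a, sub_self]
    · intro h8
      refine ⟨congrArg Prod.fst h8, fun a => ?_⟩
      have h9 : hn (bk a) (famP.e (bk a) (y.2.2.2 a)) ^ 2 *
        (C a).gc i (bt a) (F.e i y.1, famP.e (bt a) (y.2.1 a)) -
        hd (bk a) (famP.e (bk a) (y.2.2.2 a)) ^ 2 *
        (C a).fc i (bt a) (F.e i y.1, famP.e (bt a) (y.2.1 a)) = 0 :=
        congrFun (congrArg Prod.snd h8) a
      rw [h6 a, h7 a] at h9
      exact sub_eq_zero.1 h9

end

end Crest.Agent.R272.Gr_559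
end

-- ▼ part R272/Gr4_559
section

/-!
# R272 (S0415), MOD-GRAPH (helper559), file 5: the five chart cases

`lv_A` (both `t` finite), `lv_B` (`t a = ∞`, `t b` finite), `lv_D` (both `t = ∞`, `v` finite),
`lv_E` (all infinite); `lv_X1`.
-/

set_option autoImplicit false
set_option linter.unusedSectionVars false

open Set Filter Topology Complex

namespace Crest.Agent.R272.Gr_559

open Crest.Agent.R275.Geo Crest.Agent.R273.Fam_835 Crest.Agent.R272.Quot_783
open Crest.Agent.R272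

noncomputable section

variable {N : Type} [TopologicalSpace N] {F : Fam 3 N} {D : GData F}

theorem vec3_eq_zero {a b c : ℂ} : (![a, b, c] : Fin 3 → ℂ) = 0 ↔ a = 0 ∧ b = 0 ∧ c = 0 := by
  constructor
  · intro h
    exact ⟨congrFun h 0, congrFun h 1, congrFun h 2⟩
  · rintro ⟨rfl, rfl, rfl⟩
    funext j
    fin_cases j <;> rfl

theorem hasDerivAt_vec3 {f g h : ℂ → ℂ} {u v x : ℂ} {w : Fin 3 → ℂ} (hf : HV f u (w 0))
    (hg : HV g v (w 1)) (hh : HV h x (w 2)) :
    HasDerivAt (fun r => (![f r, g r, h r] : Fin 3 → ℂ)) w 0 := by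
  rw [hasDerivAt_pi]
  intro j
  fin_cases j
  · exact hf.der
  · exact hg.der
  · exact hh.der

theorem HV.congr {f : ℂ → ℂ} {v d v' d' : ℂ} (h : HV f v d) (e1 : v = v') (e2 : d = d') :
    HV f v' d' := by
  subst e1; subst e2; exact h

theorem diff_vec3 {S : Set EE} {f g h : EE → ℂ} (hf : DifferentiableOn ℂ f S)
    (hg : DifferentiableOn ℂ g S) (hh : DifferentiableOn ℂ h S) :
    DifferentiableOn ℂ (fun p => (![f p, g p, h p] : Fin 3 → ℂ)) S := by
  rw [differentiableOn_pi]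
  intro j
  fin_cases j
  · exact hf
  · exact hg
  · exact hh

theorem diff_hol {h : N → ℂ} (hh : HolF F univ h) (i : F.ι) :
    DifferentiableOn ℂ (fun p : EE => h ((F.e i).symm p.1)) {p | p.1 ∈ (F.e i).target} :=
  (hh i).comp differentiable_fst.differentiableOn fun _ hp => ⟨hp, trivial⟩

theorem Loc.OK.reg_pres {a : Fin 2} {q : N} {C : Loc D a q} (h : C.OK)
    (hr : ¬ (D.f0 q = 0 ∧ D.x a q = 0)) {i : F.ι} (hi : q ∈ (F.e i).source) (b : Bool)
    (τ φ γ : ℂ) : ∃ φ' γ' : ℂ, ∀ V T, (D.P a q = 0 → dd F i (D.P a) q V = φ') →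
      (D.Q a q = 0 → dd F i (D.Q a) q V = γ') →
      ((C.f q (hn b τ) (hd b τ) = 0 → fderiv ℂ (C.fc i b) (F.e i q, τ) (V, T) = φ) ∧
        (C.g q (hn b τ) (hd b τ) = 0 → fderiv ℂ (C.gc i b) (F.e i q, τ) (V, T) = γ)) := by
  have h1 : ∃ φ' : ℂ, ∀ V T, (D.P a q = 0 → dd F i (D.P a) q V = φ') →
      (C.f q (hn b τ) (hd b τ) = 0 → fderiv ℂ (C.fc i b) (F.e i q, τ) (V, T) = φ) := by
    by_cases hf : C.f q (hn b τ) (hd b τ) = 0
    · obtain ⟨hP, l, hl, hlin⟩ := h.reg_f hr i hi b τ hf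
      refine ⟨φ / l, fun V T h2 _ => ?_⟩
      rw [hlin, h2 hP]
      field_simp
    · exact ⟨0, fun V T _ h3 => absurd h3 hf⟩
  have h2 : ∃ γ' : ℂ, ∀ V T, (D.Q a q = 0 → dd F i (D.Q a) q V = γ') →
      (C.g q (hn b τ) (hd b τ) = 0 → fderiv ℂ (C.gc i b) (F.e i q, τ) (V, T) = γ) := by
    by_cases hg : C.g q (hn b τ) (hd b τ) = 0
    · obtain ⟨hP, l, hl, hlin⟩ := h.reg_g hr i hi b τ hg
      refine ⟨γ / l, fun V T h2 _ => ?_⟩
      rw [hlin, h2 hP]
      field_simp
    · exact ⟨0, fun V T _ h3 => absurd h3 hg⟩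
  obtain ⟨φ', h3⟩ := h1
  obtain ⟨γ', h4⟩ := h2
  exact ⟨φ', γ', fun V T h5 h6 => ⟨h3 V T h5, h4 V T h6⟩⟩

/-- both `t` finite -/
theorem lv_A {s : GData.Amb N} (hs : s ∈ D.X1) (C : ∀ a, Loc D a s.1) (hC : ∀ a, (C a).OK)
    (ht : ∀ a, s.2.1 a ≠ OnePoint.infty) :
    Lv (ambF F) D.X1 ((Fin 3 → ℂ) × (Fin 2 → ℂ)) s := by
  obtain ⟨i, hi⟩ := F.cover s.1
  have hbt : ∀ a, s.2.1 a ∈ (famP.e false).source := fun a => by
    rw [famP_false, P1.c0_source]; exact ht a
  have hv : s.2.2.1 ≠ OnePoint.infty := by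
    intro hv
    have h1 := ((mem_X1_loc D C fun a => (C a).mem).1 hs).1.2.1
    rw [hv, P1.n_infty, P1.d_infty, one_mul, zero_mul, zero_mul] at h1
    exact (P1.c0_rel (ht 0)).2 h1
  have hbv : s.2.2.1 ∈ (famP.e false).source := by rw [famP_false, P1.c0_source]; exact hv
  have hR := ((mem_X1_iff D C (fun a => (C a).mem) (bt := fun _ => false) hbt hbv
    fun a => mem_source_ib _).1 hs).1
  set τ : Fin 2 → ℂ := fun a => famP.e false (s.2.1 a) with hτ
  set ν : ℂ := famP.e false s.2.2.1 with hν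
  obtain ⟨hR1, hR2, hR3⟩ := hR
  simp only [hn_false, hd_false, mul_one, one_mul] at hR1 hR2 hR3
  refine lv_of D hs C hi (fun _ => false) false hbt hbv
    (fun z τ ν => ![D.x 0 ((F.e i).symm z) - τ 0 * D.f0 ((F.e i).symm z),
      D.x 1 ((F.e i).symm z) - τ 1 * D.f0 ((F.e i).symm z),
      ν - τ 0 * D.x 1 ((F.e i).symm z)]) ?_ ?_ ?_
  · have h0 := diff_hol D.f0_hol i
    have h1 := diff_hol (D.x_hol 0) i
    have h2 := diff_hol (D.x_hol 1) i
    exact diff_vec3 (h1.sub ((by fun_prop : DifferentiableOn ℂ (fun p : EE => p.2.1 0) _).mul h0))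
      (h2.sub ((by fun_prop : DifferentiableOn ℂ (fun p : EE => p.2.1 1) _).mul h0))
      ((by fun_prop : DifferentiableOn ℂ (fun p : EE => p.2.2.1) _).sub
        ((by fun_prop : DifferentiableOn ℂ (fun p : EE => p.2.1 0) _).mul h2))
  · intro z hz τ ν
    rw [vec3_eq_zero, (F.e i).left_inv hz]
    unfold RelE
    rw [Fin.forall_fin_two]
    simp only [hn_false, hd_false, mul_one, one_mul]
    constructor
    · rintro ⟨⟨h1, h2⟩, h3, h4⟩
      exact ⟨by linear_combination h1, by linear_combination h2, by linear_combination h3⟩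
    · rintro ⟨h1, h2, h3⟩
      exact ⟨⟨by linear_combination h1, by linear_combination h2⟩, by linear_combination h3,
        by linear_combination h3 + τ 0 * h2 - τ 1 * h1⟩
  · intro w φ γ
    have key : ∃ (V : Cn 3) (T : Fin 2 → ℂ),
        dd F i (D.x 0) s.1 V - (T 0 * D.f0 s.1 + τ 0 * dd F i D.f0 s.1 V) = w 0 ∧
        dd F i (D.x 1) s.1 V - (T 1 * D.f0 s.1 + τ 1 * dd F i D.f0 s.1 V) = w 1 ∧
        ∀ a, ((C a).f s.1 (hn false (τ a)) (hd false (τ a)) = 0 →
          fderiv ℂ ((C a).fc i false) (F.e i s.1, τ a) (V, T a) = φ a) ∧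
        ((C a).g s.1 (hn false (τ a)) (hd false (τ a)) = 0 →
          fderiv ℂ ((C a).gc i false) (F.e i s.1, τ a) (V, T a) = γ a) := by
      by_cases hf : D.f0 s.1 = 0
      · have hx0 : D.x 0 s.1 = 0 := by rw [hR1 0, hf, zero_mul]
        have hx1 : D.x 1 s.1 = 0 := by rw [hR1 1, hf, zero_mul]
        have hx : ∀ a, D.x a s.1 = 0 := fun a => by fin_cases a; exacts [hx0, hx1]
        obtain ⟨V, e1, e2, e3⟩ := D.ff' hf hx0 hx1 hi 0 (w 0) (w 1)
        choose T hT using fun a => (hC a).flat hf (hx a) hi (τ a) V (φ a) (γ a)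
        refine ⟨V, T, ?_, ?_, fun a => hT a⟩
        · rw [e1, e2, hf]; ring
        · rw [e1, e3, hf]; ring
      · have hr : ∀ a, ¬ (D.f0 s.1 = 0 ∧ D.x a s.1 = 0) := fun a h => hf h.1
        choose φ' γ' hpg using fun a => (hC a).reg_pres (hr a) hi false (τ a) (φ a) (γ a)
        obtain ⟨V, hV⟩ := D.rr' hr hi φ' γ'
        refine ⟨V, fun a => (dd F i (D.x a) s.1 V - τ a * dd F i D.f0 s.1 V - w (Fin.castSucc a)) /
          D.f0 s.1, ?_, ?_, fun a => hpg a V _ (hV a).1 (hV a).2⟩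
        · show dd F i (D.x 0) s.1 V - ((dd F i (D.x 0) s.1 V - τ 0 * dd F i D.f0 s.1 V - w 0) /
            D.f0 s.1 * D.f0 s.1 + τ 0 * dd F i D.f0 s.1 V) = w 0
          rw [div_mul_cancel₀ _ hf]; ring
        · show dd F i (D.x 1) s.1 V - ((dd F i (D.x 1) s.1 V - τ 1 * dd F i D.f0 s.1 V - w 1) /
            D.f0 s.1 * D.f0 s.1 + τ 1 * dd F i D.f0 s.1 V) = w 1
          rw [div_mul_cancel₀ _ hf]; ring
    obtain ⟨V, T, e1, e2, e3⟩ := key
    refine ⟨V, T, w 2 + (T 0 * D.x 1 s.1 + τ 0 * dd F i (D.x 1) s.1 V), ?_, e3⟩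
    have hf := HV.dd isOpen_univ D.f0_hol hi (mem_univ _) V
    have hx := fun a => HV.dd isOpen_univ (D.x_hol a) hi (mem_univ _) V
    exact hasDerivAt_vec3 (((hx 0).sub ((HV.lin (τ 0) (T 0)).mul hf)).congr rfl e1)
      (((hx 1).sub ((HV.lin (τ 1) (T 1)).mul hf)).congr rfl e2)
      (((HV.lin ν _).sub ((HV.lin (τ 0) (T 0)).mul (hx 1))).congr rfl (by ring))

/-- `t a = ∞`, `t b` finite -/
theorem lv_B {s : GData.Amb N} (hs : s ∈ D.X1) (C : ∀ a, Loc D a s.1) (hC : ∀ a, (C a).OK)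
    {a b : Fin 2} (hab : a ≠ b) (hta : s.2.1 a = OnePoint.infty)
    (htb : s.2.1 b ≠ OnePoint.infty) :
    Lv (ambF F) D.X1 ((Fin 3 → ℂ) × (Fin 2 → ℂ)) s := by
  obtain ⟨i, hi⟩ := F.cover s.1
  obtain ⟨bt, hbta, hbtb⟩ : ∃ bt : Fin 2 → Bool, bt a = true ∧ bt b = false :=
    ⟨fun c => decide (c = a), by simp, by simp [hab.symm]⟩
  have hc : ∀ c, c = a ∨ c = b := by
    intro c
    revert hab
    fin_cases a <;> fin_cases b <;> fin_cases c <;> simp
  have hbt : ∀ c, s.2.1 c ∈ (famP.e (bt c)).source := by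
    intro c
    rcases hc c with rfl | rfl
    · rw [hbta, famP_true, P1.c1_source, hta]; exact OnePoint.infty_ne_coe _
    · rw [hbtb, famP_false, P1.c0_source]; exact htb
  have hv : s.2.2.1 ≠ OnePoint.infty := by
    intro hv
    have h1 := ((relE_iff D hab _ _ _ _ _).1 ((mem_X1_loc D C fun a => (C a).mem).1 hs).1).2.2.2
    rw [hv, P1.n_infty, P1.d_infty, one_mul, zero_mul, zero_mul] at h1
    exact (P1.c0_rel htb).2 h1
  have hbv : s.2.2.1 ∈ (famP.e false).source := by rw [famP_false, P1.c0_source]; exact hv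
  have hR := (relE_iff D hab _ _ _ _ _).1 ((mem_X1_iff D C (fun a => (C a).mem) hbt hbv
    fun a => mem_source_ib _).1 hs).1
  set τ : Fin 2 → ℂ := fun a => famP.e (bt a) (s.2.1 a) with hτ
  set ν : ℂ := famP.e false s.2.2.1 with hν
  have hτa : τ a = 0 := by
    show famP.e (bt a) (s.2.1 a) = 0
    rw [hbta, hta, famP_true, P1.c1_infty]
  obtain ⟨hR1, hR2, hR3, hR4⟩ := hR
  simp only [hbta, hbtb, hn_false, hd_false, hn_true, hd_true, mul_one, one_mul] at hR1 hR2 hR3 hR4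
  have hf0 : D.f0 s.1 = 0 := by
    have h1 : D.x a s.1 * τ a = D.f0 s.1 := by
      show D.x a s.1 * famP.e (bt a) (s.2.1 a) = _
      rw [hbta]; exact hR1
    rw [← h1, hτa, mul_zero]
  have hxb : D.x b s.1 = 0 := by rw [hR2, hf0, zero_mul]
  refine lv_of D hs C hi bt false hbt hbv
    (fun z τ ν => ![D.f0 ((F.e i).symm z) - τ a * D.x a ((F.e i).symm z),
      D.x b ((F.e i).symm z) - τ b * D.f0 ((F.e i).symm z),
      ν - τ b * D.x a ((F.e i).symm z)]) ?_ ?_ ?_
  · have h0 := diff_hol D.f0_hol i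
    have h1 := diff_hol (D.x_hol a) i
    have h2 := diff_hol (D.x_hol b) i
    exact diff_vec3 (h0.sub ((by fun_prop : DifferentiableOn ℂ (fun p : EE => p.2.1 a) _).mul h1))
      (h2.sub ((by fun_prop : DifferentiableOn ℂ (fun p : EE => p.2.1 b) _).mul h0))
      ((by fun_prop : DifferentiableOn ℂ (fun p : EE => p.2.2.1) _).sub
        ((by fun_prop : DifferentiableOn ℂ (fun p : EE => p.2.1 b) _).mul h1))
  · intro z hz τ ν
    rw [vec3_eq_zero, (F.e i).left_inv hz, relE_iff D hab]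
    simp only [hbta, hbtb, hn_false, hd_false, hn_true, hd_true, mul_one, one_mul]
    constructor
    · rintro ⟨h1, h2, h3, h4⟩
      exact ⟨by linear_combination -h1, by linear_combination h2, by linear_combination h4⟩
    · rintro ⟨h1, h2, h3⟩
      exact ⟨by linear_combination -h1, by linear_combination h2,
        by linear_combination τ a * h3 - h2 - τ b * h1, by linear_combination h3⟩
  · intro w φ γ
    have key : ∃ (V : Cn 3) (T : Fin 2 → ℂ),
        dd F i D.f0 s.1 V - (T a * D.x a s.1 + τ a * dd F i (D.x a) s.1 V) = w 0 ∧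
        dd F i (D.x b) s.1 V - (T b * D.f0 s.1 + τ b * dd F i D.f0 s.1 V) = w 1 ∧
        ∀ a, ((C a).f s.1 (hn (bt a) (τ a)) (hd (bt a) (τ a)) = 0 →
          fderiv ℂ ((C a).fc i (bt a)) (F.e i s.1, τ a) (V, T a) = φ a) ∧
        ((C a).g s.1 (hn (bt a) (τ a)) (hd (bt a) (τ a)) = 0 →
          fderiv ℂ ((C a).gc i (bt a)) (F.e i s.1, τ a) (V, T a) = γ a) := by
      by_cases hxa : D.x a s.1 = 0
      · have h01 : D.x 0 s.1 = 0 ∧ D.x 1 s.1 = 0 := by
          rcases hc 0 with h0 | h0 <;> rcases hc 1 with h1 | h1 <;> rw [h0, h1] <;>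
            simp [hxa, hxb]
        have hV : ∃ V, dd F i D.f0 s.1 V = w 0 ∧ dd F i (D.x b) s.1 V = w 1 + τ b * w 0 := by
          obtain ⟨V, e1, e2, e3⟩ := D.ff' hf0 h01.1 h01.2 hi (w 0) (w 1 + τ b * w 0)
            (w 1 + τ b * w 0)
          exact ⟨V, e1, by fin_cases b; exacts [e2, e3]⟩
        obtain ⟨V, e1, e2⟩ := hV
        obtain ⟨Tb, hTb⟩ := (hC b).flat hf0 hxb hi (τ b) V (φ b) (γ b)
        refine ⟨V, fun _ => Tb, ?_, ?_, fun c => ?_⟩
        · rw [e1, hxa, hτa]; ring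
        · rw [e1, e2, hf0]; ring
        · rcases hc c with rfl | rfl
          · have h5 := (hC c).flat_inf hf0 hxa
            rw [hbta, hτa, hn_true, hd_true]
            exact ⟨fun h => absurd h h5.1, fun h => absurd h h5.2⟩
          · rw [hbtb]; exact hTb
      · obtain ⟨φ', γ', hpg⟩ := (hC a).reg_pres (fun h => hxa h.2) hi (bt a) (τ a) (φ a) (γ a)
        obtain ⟨V, e1, e2, e3, e4⟩ := D.fr' hab.symm hf0 hxb hxa hi 0 (w 1) φ' γ'
        obtain ⟨Tb, hTb⟩ := (hC b).flat hf0 hxb hi (τ b) V (φ b) (γ b)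
        have hsel : ∃ T : Fin 2 → ℂ, T a = -w 0 / D.x a s.1 ∧ T b = Tb :=
          ⟨fun c => if c = a then -w 0 / D.x a s.1 else Tb, by simp, by simp [hab.symm]⟩
        obtain ⟨T, hTa, hTb'⟩ := hsel
        refine ⟨V, T, ?_, ?_, fun c => ?_⟩
        · rw [e1, hTa, hτa]; field_simp; ring
        · rw [e1, e2, hf0]; ring
        · rcases hc c with rfl | rfl
          · exact hpg V _ e3 e4
          · rw [hTb', hbtb]; exact hTb
    obtain ⟨V, T, e1, e2, e3⟩ := key
    refine ⟨V, T, w 2 + (T b * D.x a s.1 + τ b * dd F i (D.x a) s.1 V), ?_, e3⟩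
    have hf := HV.dd isOpen_univ D.f0_hol hi (mem_univ _) V
    have hx := fun a => HV.dd isOpen_univ (D.x_hol a) hi (mem_univ _) V
    exact hasDerivAt_vec3 ((hf.sub ((HV.lin (τ a) (T a)).mul (hx a))).congr rfl e1)
      (((hx b).sub ((HV.lin (τ b) (T b)).mul hf)).congr rfl e2)
      (((HV.lin ν _).sub ((HV.lin (τ b) (T b)).mul (hx a))).congr rfl (by ring))

/-- both `t` infinite, `v` finite -/
theorem lv_D {s : GData.Amb N} (hs : s ∈ D.X1) (C : ∀ a, Loc D a s.1) (hC : ∀ a, (C a).OK)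
    (ht : ∀ a, s.2.1 a = OnePoint.infty) (hv : s.2.2.1 ≠ OnePoint.infty) :
    Lv (ambF F) D.X1 ((Fin 3 → ℂ) × (Fin 2 → ℂ)) s := by
  obtain ⟨i, hi⟩ := F.cover s.1
  have hbt : ∀ a, s.2.1 a ∈ (famP.e true).source := fun a => by
    rw [famP_true, P1.c1_source, ht a]; exact OnePoint.infty_ne_coe _
  have hbv : s.2.2.1 ∈ (famP.e false).source := by rw [famP_false, P1.c0_source]; exact hv
  have hR := ((mem_X1_iff D C (fun a => (C a).mem) (bt := fun _ => true) hbt hbv
    fun a => mem_source_ib _).1 hs).1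
  set τ : Fin 2 → ℂ := fun a => famP.e true (s.2.1 a) with hτ
  set ν : ℂ := famP.e false s.2.2.1 with hν
  have hτ0 : ∀ a, τ a = 0 := fun a => by
    show famP.e true (s.2.1 a) = 0
    rw [ht a, famP_true, P1.c1_infty]
  obtain ⟨hR1, hR2, hR3⟩ := hR
  simp only [hn_false, hd_false, hn_true, hd_true, mul_one, one_mul] at hR1 hR2 hR3
  have hf0 : D.f0 s.1 = 0 := by rw [← hR1 0]; rw [show famP.e true (s.2.1 0) = 0 from hτ0 0]; ring
  have hx1 : D.x 1 s.1 = 0 := by rw [← hR2]; rw [show famP.e true (s.2.1 0) = 0 from hτ0 0]; ring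
  have hx0 : D.x 0 s.1 = 0 := by rw [← hR3]; rw [show famP.e true (s.2.1 1) = 0 from hτ0 1]; ring
  have hx : ∀ a, D.x a s.1 = 0 := fun a => by fin_cases a; exacts [hx0, hx1]
  refine lv_of D hs C hi (fun _ => true) false hbt hbv
    (fun z τ ν => ![D.x 1 ((F.e i).symm z) - ν * τ 0, D.x 0 ((F.e i).symm z) - ν * τ 1,
      D.f0 ((F.e i).symm z) - τ 0 * D.x 0 ((F.e i).symm z)]) ?_ ?_ ?_
  · have h0 := diff_hol D.f0_hol i
    have h1 := diff_hol (D.x_hol 0) i
    have h2 := diff_hol (D.x_hol 1) i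
    exact diff_vec3 (h2.sub (by fun_prop)) (h1.sub (by fun_prop))
      (h0.sub ((by fun_prop : DifferentiableOn ℂ (fun p : EE => p.2.1 0) _).mul h1))
  · intro z hz τ ν
    rw [vec3_eq_zero, (F.e i).left_inv hz]
    unfold RelE
    rw [Fin.forall_fin_two]
    simp only [hn_false, hd_false, hn_true, hd_true, mul_one, one_mul]
    constructor
    · rintro ⟨⟨h1, h2⟩, h3, h4⟩
      exact ⟨by linear_combination -h3, by linear_combination -h4, by linear_combination -h1⟩
    · rintro ⟨h1, h2, h3⟩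
      exact ⟨⟨by linear_combination -h3, by linear_combination τ 1 * h1 - τ 0 * h2 - h3⟩,
        by linear_combination -h1, by linear_combination -h2⟩
  · intro w φ γ
    obtain ⟨V, e1, e2, e3⟩ := D.ff' hf0 hx0 hx1 hi (w 2) (w 1) (w 0)
    refine ⟨V, 0, 0, ?_, fun a => ?_⟩
    · have hf := HV.dd isOpen_univ D.f0_hol hi (mem_univ _) V
      have hx := fun a => HV.dd isOpen_univ (D.x_hol a) hi (mem_univ _) V
      exact hasDerivAt_vec3
        (((hx 1).sub ((HV.lin ν 0).mul (HV.lin (τ 0) 0))).congr rfl (by rw [e3]; ring))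
        (((hx 0).sub ((HV.lin ν 0).mul (HV.lin (τ 1) 0))).congr rfl (by rw [e2]; ring))
        ((hf.sub ((HV.lin (τ 0) 0).mul (hx 0))).congr rfl (by rw [e1, hτ0 0]; ring))
    · have h5 := (hC a).flat_inf hf0 (hx a)
      show ((C a).f s.1 (hn true (τ a)) (hd true (τ a)) = 0 → _) ∧
        ((C a).g s.1 (hn true (τ a)) (hd true (τ a)) = 0 → _)
      rw [hτ0, hn_true, hd_true]
      exact ⟨fun h => absurd h h5.1, fun h => absurd h h5.2⟩

/-- everything infinite -/
theorem lv_E {s : GData.Amb N} (hs : s ∈ D.X1) (C : ∀ a, Loc D a s.1) (hC : ∀ a, (C a).OK)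
    (ht : ∀ a, s.2.1 a = OnePoint.infty) (hv : s.2.2.1 = OnePoint.infty) :
    Lv (ambF F) D.X1 ((Fin 3 → ℂ) × (Fin 2 → ℂ)) s := by
  obtain ⟨i, hi⟩ := F.cover s.1
  have hbt : ∀ a, s.2.1 a ∈ (famP.e true).source := fun a => by
    rw [famP_true, P1.c1_source, ht a]; exact OnePoint.infty_ne_coe _
  have hbv : s.2.2.1 ∈ (famP.e true).source := by
    rw [famP_true, P1.c1_source, hv]; exact OnePoint.infty_ne_coe _
  have hR := ((mem_X1_iff D C (fun a => (C a).mem) (bt := fun _ => true) hbt hbv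
    fun a => mem_source_ib _).1 hs).1
  set τ : Fin 2 → ℂ := fun a => famP.e true (s.2.1 a) with hτ
  set ν : ℂ := famP.e true s.2.2.1 with hν
  have hτ0 : ∀ a, τ a = 0 := fun a => by
    show famP.e true (s.2.1 a) = 0
    rw [ht a, famP_true, P1.c1_infty]
  have hν0 : ν = 0 := by
    show famP.e true s.2.2.1 = 0
    rw [hv, famP_true, P1.c1_infty]
  obtain ⟨hR1, hR2, hR3⟩ := hR
  simp only [hn_true, hd_true, mul_one, one_mul] at hR1 hR2 hR3
  have hf0 : D.f0 s.1 = 0 := by rw [← hR1 0]; rw [show famP.e true (s.2.1 0) = 0 from hτ0 0]; ring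
  refine lv_of D hs C hi (fun _ => true) true hbt hbv
    (fun z τ ν => ![τ 0 - ν * D.x 1 ((F.e i).symm z), τ 1 - ν * D.x 0 ((F.e i).symm z),
      D.f0 ((F.e i).symm z) - τ 0 * D.x 0 ((F.e i).symm z)]) ?_ ?_ ?_
  · have h0 := diff_hol D.f0_hol i
    have h1 := diff_hol (D.x_hol 0) i
    have h2 := diff_hol (D.x_hol 1) i
    exact diff_vec3 ((by fun_prop : DifferentiableOn ℂ (fun p : EE => p.2.1 0) _).sub
        ((by fun_prop : DifferentiableOn ℂ (fun p : EE => p.2.2.1) _).mul h2))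
      ((by fun_prop : DifferentiableOn ℂ (fun p : EE => p.2.1 1) _).sub
        ((by fun_prop : DifferentiableOn ℂ (fun p : EE => p.2.2.1) _).mul h1))
      (h0.sub ((by fun_prop : DifferentiableOn ℂ (fun p : EE => p.2.1 0) _).mul h1))
  · intro z hz τ ν
    rw [vec3_eq_zero, (F.e i).left_inv hz]
    unfold RelE
    rw [Fin.forall_fin_two]
    simp only [hn_true, hd_true, mul_one, one_mul]
    constructor
    · rintro ⟨⟨h1, h2⟩, h3, h4⟩
      exact ⟨by linear_combination h3, by linear_combination h4, by linear_combination -h1⟩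
    · rintro ⟨h1, h2, h3⟩
      exact ⟨⟨by linear_combination -h3,
        by linear_combination D.x 1 z * h2 - D.x 0 z * h1 - h3⟩,
        by linear_combination h1, by linear_combination h2⟩
  · intro w φ γ
    have key : ∃ (V : Cn 3) (T : Fin 2 → ℂ) (Nv : ℂ),
        T 0 - Nv * D.x 1 s.1 = w 0 ∧ T 1 - Nv * D.x 0 s.1 = w 1 ∧
        dd F i D.f0 s.1 V - T 0 * D.x 0 s.1 = w 2 ∧
        ∀ a, ((C a).f s.1 (hn true (τ a)) (hd true (τ a)) = 0 →
          fderiv ℂ ((C a).fc i true) (F.e i s.1, τ a) (V, T a) = φ a) ∧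
        ((C a).g s.1 (hn true (τ a)) (hd true (τ a)) = 0 →
          fderiv ℂ ((C a).gc i true) (F.e i s.1, τ a) (V, T a) = γ a) := by
      have hflat : ∀ a, D.x a s.1 = 0 → ∀ (V : Cn 3) (T : ℂ),
          ((C a).f s.1 (hn true (τ a)) (hd true (τ a)) = 0 →
            fderiv ℂ ((C a).fc i true) (F.e i s.1, τ a) (V, T) = φ a) ∧
          ((C a).g s.1 (hn true (τ a)) (hd true (τ a)) = 0 →
            fderiv ℂ ((C a).gc i true) (F.e i s.1, τ a) (V, T) = γ a) := by
        intro a hxa V T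
        have h5 := (hC a).flat_inf hf0 hxa
        rw [hτ0, hn_true, hd_true]
        exact ⟨fun h => absurd h h5.1, fun h => absurd h h5.2⟩
      by_cases hx0 : D.x 0 s.1 = 0
      · by_cases hx1 : D.x 1 s.1 = 0
        · obtain ⟨V, e1, -, -⟩ := D.ff' hf0 hx0 hx1 hi (w 2) 0 0
          refine ⟨V, fun a => w (Fin.castSucc a), 0, ?_, ?_, ?_, fun a => ?_⟩
          · show w 0 - 0 * _ = w 0
            ring
          · show w 1 - 0 * _ = w 1
            ring
          · rw [e1, hx0]; ring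
          · exact hflat a (by fin_cases a; exacts [hx0, hx1]) V _
        · obtain ⟨φ', γ', hpg⟩ := (hC 1).reg_pres (fun h => hx1 h.2) hi true (τ 1) (φ 1) (γ 1)
          obtain ⟨V, e1, -, e3, e4⟩ := D.fr' (a := 0) (b := 1) (by decide) hf0 hx0 hx1 hi
            (w 2) 0 φ' γ'
          refine ⟨V, fun a => w (Fin.castSucc a), 0, ?_, ?_, ?_, fun a => ?_⟩
          · show w 0 - 0 * _ = w 0
            ring
          · show w 1 - 0 * _ = w 1
            ring
          · rw [e1, hx0]; ring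
          · fin_cases a
            · exact hflat 0 hx0 V _
            · exact hpg V _ e3 e4
      · by_cases hx1 : D.x 1 s.1 = 0
        · obtain ⟨φ', γ', hpg⟩ := (hC 0).reg_pres (fun h => hx0 h.2) hi true (τ 0) (φ 0) (γ 0)
          obtain ⟨V, e1, -, e3, e4⟩ := D.fr' (a := 1) (b := 0) (by decide) hf0 hx1 hx0 hi
            (w 2 + w 0 * D.x 0 s.1) 0 φ' γ'
          refine ⟨V, fun a => w (Fin.castSucc a), 0, ?_, ?_, ?_, fun a => ?_⟩
          · show w 0 - 0 * _ = w 0
            ring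
          · show w 1 - 0 * _ = w 1
            ring
          · show dd F i D.f0 s.1 V - w 0 * D.x 0 s.1 = w 2
            rw [e1]; ring
          · fin_cases a
            · exact hpg V _ e3 e4
            · exact hflat 1 hx1 V _
        · have hr : ∀ a, ¬ (D.f0 s.1 = 0 ∧ D.x a s.1 = 0) := fun a h => by
            fin_cases a
            exacts [hx0 h.2, hx1 h.2]
          choose φ' γ' hpg using fun a => (hC a).reg_pres (hr a) hi true (τ a) (φ a) (γ a)
          obtain ⟨V, hV⟩ := D.rr' hr hi φ' γ'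
          set T0 : ℂ := (dd F i D.f0 s.1 V - w 2) / D.x 0 s.1 with hT0
          set Nv : ℂ := (T0 - w 0) / D.x 1 s.1 with hNv
          refine ⟨V, ![T0, w 1 + Nv * D.x 0 s.1], Nv, ?_, ?_, ?_,
            fun a => hpg a V _ (hV a).1 (hV a).2⟩
          · show T0 - Nv * D.x 1 s.1 = w 0
            rw [hNv, div_mul_cancel₀ _ hx1]; ring
          · show w 1 + Nv * D.x 0 s.1 - Nv * D.x 0 s.1 = w 1
            ring
          · show dd F i D.f0 s.1 V - T0 * D.x 0 s.1 = w 2
            rw [hT0, div_mul_cancel₀ _ hx0]; ring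
    obtain ⟨V, T, Nv, e1, e2, e3, e4⟩ := key
    refine ⟨V, T, Nv, ?_, e4⟩
    have hf := HV.dd isOpen_univ D.f0_hol hi (mem_univ _) V
    have hx := fun a => HV.dd isOpen_univ (D.x_hol a) hi (mem_univ _) V
    exact hasDerivAt_vec3
      (((HV.lin (τ 0) (T 0)).sub ((HV.lin ν Nv).mul (hx 1))).congr rfl
        (by rw [hν0, ← e1]; ring))
      (((HV.lin (τ 1) (T 1)).sub ((HV.lin ν Nv).mul (hx 0))).congr rfl
        (by rw [hν0, ← e2]; ring))
      ((hf.sub ((HV.lin (τ 0) (T 0)).mul (hx 0))).congr rfl (by rw [hτ0 0, ← e3]; ring))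

/-- **`X1` is locally the zero set of a submersion** -/
theorem lv_X1 (D : GData F) : ∀ s ∈ D.X1, Lv (ambF F) D.X1 ((Fin 3 → ℂ) × (Fin 2 → ℂ)) s := by
  intro s hs
  choose C hC using fun a => D.exists_loc a s.1
  by_cases h0 : s.2.1 0 = OnePoint.infty
  · by_cases h1 : s.2.1 1 = OnePoint.infty
    · have ht : ∀ a, s.2.1 a = OnePoint.infty := fun a => by fin_cases a; exacts [h0, h1]
      by_cases hv : s.2.2.1 = OnePoint.infty
      · exact lv_E hs C hC ht hv
      · exact lv_D hs C hC ht hv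
    · exact lv_B hs C hC (a := 0) (b := 1) (by decide) h0 h1
  · by_cases h1 : s.2.1 1 = OnePoint.infty
    · exact lv_B hs C hC (a := 1) (b := 0) (by decide) h1 h0
    · exact lv_A hs C hC fun a => by fin_cases a; exacts [h0, h1]

end

end Crest.Agent.R272.Gr_559
end

-- ▼ part R272/GrFr_54
section

/-!
# R272 (S0415), MOD-GRAPH (helper54): framework for slices of subsets of `Amb X = X × P1^5`

* `exists_slice_lin` : LEVEL with a linear change of the coordinates of the chart;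
* `E8 N`, `ambL N : Cn (N + 5) ≃L[ℂ] E8 N`, `cor i s sv r : Amb X → E8 N` (coordinates);
* `exists_slice_amb` : a subset of `Amb X` which is the zero set of a submersion `E8 N → E'`,
  `finrank E' = 5`, in the coordinates `cor i s sv r` has a slice of dimension `N`.
-/

set_option autoImplicit false
set_option linter.unusedSectionVars false

open Set Filter Topology Complex

namespace Crest.Agent.R272.GrFr_54

open Crest.Agent.R275.Geo Crest.Agent.R273.Fam_835 Crest.Agent.R272.FamP_54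
  Crest.Agent.R272.SubF_54 Crest.Agent.R272.Lev_54 Crest.Agent.R272.P1A_54
  Crest.Agent.R275.Prod363
open Crest.Agent.R272.P1F_54 (nn ps pc ln ld pinv pch p1Fam lift_rel isOpen_ps)
open Crest.Agent.R272.Gr_559 (P1)
open Crest.Agent.R272.Gr_559.GData (Amb)

noncomputable section

section lin

variable {N n : ℕ} {X : Type} [TopologicalSpace X] {F : Fam N X} {S : Set X}
  {E E' : Type*} [NormedAddCommGroup E'] [NormedSpace ℂ E'] [FiniteDimensional ℂ E']
  [NormedAddCommGroup E] [NormedSpace ℂ E]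

/-- LEVEL with a linear change of coordinates -/
theorem exists_slice_lin (hn : N = n + Module.finrank ℂ E') (L : Cn N ≃L[ℂ] E) {x : X} (j : F.ι)
    (hj : x ∈ (F.e j).source) {W : Set E} (hW : IsOpen W) (hxW : L (F.e j x) ∈ W)
    {Φ : E → E'} (hΦ : DifferentiableOn ℂ Φ W)
    (hS : ∀ y ∈ (F.e j).source, L (F.e j y) ∈ W → (y ∈ S ↔ Φ (L (F.e j y)) = 0))
    (hs : Function.Surjective (fderiv ℂ Φ (L (F.e j x)))) :
    ∃ c : Slice F S n, x ∈ c.dom := by
  refine exists_slice hn j hj (hW.preimage L.continuous) hxW (Φ := fun z => Φ (L z)) ?_ hS ?_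
  · exact hΦ.comp L.differentiable.differentiableOn fun z hz => hz
  · have h1 : HasFDerivAt (fun z => Φ (L z)) ((fderiv ℂ Φ (L (F.e j x))).comp
        (L : Cn N →L[ℂ] E)) (F.e j x) := by
      have h2 : HasFDerivAt Φ (fderiv ℂ Φ (L (F.e j x))) (L (F.e j x)) :=
        (hΦ.differentiableAt (hW.mem_nhds hxW)).hasFDerivAt
      exact HasFDerivAt.comp (F.e j x) (f := fun z => L z) h2 L.hasFDerivAt
    rw [h1.fderiv]
    exact hs.comp L.surjective

end lin

/-! ### coordinates of the ambient space -/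

/-- coordinates `(y, τ, ν, κ)` -/
abbrev E8 (N : ℕ) : Type := Cn N × (Fin 2 → ℂ) × ℂ × (Fin 2 → ℂ)

/-- `Cn (1 + 1) ≃ (Fin 2 → ℂ)` -/
def tw : Cn (1 + 1) ≃L[ℂ] (Fin 2 → ℂ) := PiLp.continuousLinearEquiv 2 ℂ (fun _ : Fin 2 => ℂ)

theorem tw_app (a b : Cn 1) : tw (app a b) = ![a 0, b 0] := by
  funext j
  fin_cases j
  · exact app_castAdd a b 0
  · exact app_natAdd a b 0

/-- the linear change of coordinates -/
def ambL (N : ℕ) : Cn (N + 5) ≃L[ℂ] E8 N :=
  (appH N 5).symm.trans ((ContinuousLinearEquiv.refl ℂ (Cn N)).prodCongr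
    ((appH (1 + 1) 3).symm.trans (tw.prodCongr ((appH 1 (1 + 1)).symm.trans
      (oneL.symm.prodCongr tw)))))

variable {N n : ℕ} {X : Type} [TopologicalSpace X] {F : Fam N X}

/-- the chart with prescribed discs -/
def aix (F : Fam N X) (i : F.ι) (s : Fin 2 → Bool) (sv : Bool) (r : Fin 2 → Bool) :
    (ambFam F).ι := (i, ((s 0, s 1), (sv, (r 0, r 1))))

/-- the coordinates of a point -/
def cor (F : Fam N X) (i : F.ι) (s : Fin 2 → Bool) (sv : Bool) (r : Fin 2 → Bool)
    (P : Amb X) : E8 N :=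
  (F.e i P.1, fun j => pc (s j) (P.2.1 j), pc sv P.2.2.1, fun j => pc (r j) (P.2.2.2 j))

theorem ambL_app (y : Cn N) (a b c d e : Cn 1) :
    ambL N (app y (app (app a b) (app c (app d e)))) =
      (y, ![a 0, b 0], c 0, ![d 0, e 0]) := by
  show ((fstL N 5 (app y (app (app a b) (app c (app d e)))),
    tw (fstL (1 + 1) 3 (sndL N 5 (app y (app (app a b) (app c (app d e)))))),
    (fstL 1 (1 + 1) (sndL (1 + 1) 3 (sndL N 5 (app y (app (app a b) (app c (app d e))))))) 0,
    tw (sndL 1 (1 + 1) (sndL (1 + 1) 3 (sndL N 5 (app y (app (app a b) (app c (app d e)))))))) :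
      E8 N) = _
  rw [fstL_app, sndL_app, fstL_app, sndL_app, fstL_app, sndL_app, tw_app, tw_app]

theorem ambL_e (i : F.ι) (s : Fin 2 → Bool) (sv : Bool) (r : Fin 2 → Bool) (P : Amb X) :
    ambL N ((ambFam F).e (aix F i s sv r) P) = cor F i s sv r P := by
  have h1 : (ambFam F).e (aix F i s sv r) P =
    app (F.e i P.1) (app (app (pch (s 0) (P.2.1 0)) (pch (s 1) (P.2.1 1)))
      (app (pch sv P.2.2.1) (app (pch (r 0) (P.2.2.2 0)) (pch (r 1) (P.2.2.2 1))))) := rfl
  rw [h1, ambL_app]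
  refine Prod.ext rfl (Prod.ext ?_ (Prod.ext rfl ?_))
  · funext j
    fin_cases j <;> rfl
  · funext j
    fin_cases j <;> rfl

theorem mem_source {i : F.ι} {s : Fin 2 → Bool} {sv : Bool} {r : Fin 2 → Bool} {P : Amb X} :
    P ∈ ((ambFam F).e (aix F i s sv r)).source ↔ P.1 ∈ (F.e i).source ∧
      (∀ j, P.2.1 j ∈ ps (s j)) ∧ P.2.2.1 ∈ ps sv ∧ ∀ j, P.2.2.2 j ∈ ps (r j) := by
  have h1 : P ∈ ((ambFam F).e (aix F i s sv r)).source ↔ P.1 ∈ (F.e i).source ∧
      ((True ∧ P.2.1 0 ∈ ps (s 0) ∧ P.2.1 1 ∈ ps (s 1)) ∧ P.2.2.1 ∈ ps sv ∧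
        (True ∧ P.2.2.2 0 ∈ ps (r 0) ∧ P.2.2.2 1 ∈ ps (r 1))) := Iff.rfl
  rw [h1, Fin.forall_fin_two, Fin.forall_fin_two]
  simp only [true_and]

/-- slices of level sets in the ambient space -/
theorem exists_slice_amb {E' : Type*} [NormedAddCommGroup E'] [NormedSpace ℂ E']
    [FiniteDimensional ℂ E'] (hE : Module.finrank ℂ E' = 5) {S : Set (Amb X)} {P : Amb X}
    (i : F.ι) (s : Fin 2 → Bool) (sv : Bool) (r : Fin 2 → Bool)
    (hi : P.1 ∈ (F.e i).source) (hs : ∀ j, P.2.1 j ∈ ps (s j)) (hv : P.2.2.1 ∈ ps sv)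
    (hr : ∀ j, P.2.2.2 j ∈ ps (r j)) {W : Set (E8 N)} (hW : IsOpen W)
    (hPW : cor F i s sv r P ∈ W) {Φ : E8 N → E'} (hΦ : DifferentiableOn ℂ Φ W)
    (hS : ∀ Q : Amb X, Q.1 ∈ (F.e i).source → (∀ j, Q.2.1 j ∈ ps (s j)) → Q.2.2.1 ∈ ps sv →
      (∀ j, Q.2.2.2 j ∈ ps (r j)) → cor F i s sv r Q ∈ W →
      (Q ∈ S ↔ Φ (cor F i s sv r Q) = 0))
    (hsur : Function.Surjective (fderiv ℂ Φ (cor F i s sv r P))) :
    ∃ c : Slice (ambFam F) S N, P ∈ c.dom := by
  refine exists_slice_lin (F := ambFam F) (by rw [hE]) (ambL N) (aix F i s sv r)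
    (mem_source.2 ⟨hi, hs, hv, hr⟩) hW (by rw [ambL_e]; exact hPW) hΦ ?_
    (by rw [ambL_e]; exact hsur)
  intro Q hQ hQW
  rw [ambL_e] at hQW ⊢
  obtain ⟨h1, h2, h3, h4⟩ := mem_source.1 hQ
  exact hS Q h1 h2 h3 h4 hQW

end

end Crest.Agent.R272.GrFr_54
end

-- ▼ part R272/Gr4_54
section

/-!
# R272 (S0415), MOD-GRAPH (helper54): bridge between `FamE` / `Lv` (559) and `Fam` / `Slice` (54)

`ambE F` : the ambient `N × P1^5` as a `FamE`; `isSl_of_lv` : `Lv (ambE F) S F' p` at all points of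
`S` (`finrank F' = 5`) gives `IsSl (ambFam F) S N`; `holE_famP_iff`, `holE_amb_iff`,
`lv_slFam`, `slFam_lv` : the two complex structures of `S` agree.
-/

set_option autoImplicit false
set_option linter.unusedSectionVars false

open Set Filter Topology Complex

namespace Crest.Agent.R272.GrFr_54

open Crest.Agent.R275.Geo Crest.Agent.R273.Fam_835 Crest.Agent.R272.FamP_54
  Crest.Agent.R272.SubF_54 Crest.Agent.R272.Lev_54 Crest.Agent.R272.P1A_54
  Crest.Agent.R272.Gr_559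
open Crest.Agent.R272.P1F_54 (nn ps pc ln ld pinv pch p1Fam lift_rel isOpen_ps)
open Crest.Agent.R272.Gr_559.GData (Amb)

noncomputable section

theorem famP_source (b : Bool) : (famP.e b).source = ps b := by
  cases b
  · exact ps_false.symm
  · exact ps_true.symm

theorem famP_apply {b : Bool} {t : P1} (ht : t ∈ ps b) : famP.e b t = pc b t := by
  cases b
  · exact c0_eq (P1F_54.mem_ps_false.1 ht)
  · exact c1_eq (P1F_54.mem_ps_true.1 ht)

variable {N n : ℕ} {X M : Type} [TopologicalSpace X] [TopologicalSpace M] {F : Fam N X}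
  {C : Fam n M}




/-- the ambient space with charts in `E8 N` -/
def ambE (F : Fam N X) : FamE (E8 N) (Amb X) :=
  (toE F).prod ((FamE.pi famP).prod (famP.prod (FamE.pi famP)))


/-- membership in the source of a chart of `ambE` -/
theorem mem_ambE_source {i : F.ι} {s : Fin 2 → Bool} {sv : Bool} {r : Fin 2 → Bool}
    {P : Amb X} : P ∈ ((ambE F).e (i, s, sv, r)).source ↔ P.1 ∈ (F.e i).source ∧
      (∀ j, P.2.1 j ∈ ps (s j)) ∧ P.2.2.1 ∈ ps sv ∧ ∀ j, P.2.2.2 j ∈ ps (r j) := by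
  have h1 : P ∈ ((ambE F).e (i, s, sv, r)).source ↔ P.1 ∈ (F.e i).source ∧
      (∀ j ∈ univ, P.2.1 j ∈ (famP.e (s j)).source) ∧ P.2.2.1 ∈ (famP.e sv).source ∧
        ∀ j ∈ univ, P.2.2.2 j ∈ (famP.e (r j)).source := Iff.rfl
  rw [h1]
  simp only [famP_source, mem_univ, forall_const]

theorem ambE_apply {i : F.ι} {s : Fin 2 → Bool} {sv : Bool} {r : Fin 2 → Bool}
    {P : Amb X} (hs : ∀ j, P.2.1 j ∈ ps (s j)) (hv : P.2.2.1 ∈ ps sv)
    (hr : ∀ j, P.2.2.2 j ∈ ps (r j)) : (ambE F).e (i, s, sv, r) P = cor F i s sv r P := by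
  have h1 : (ambE F).e (i, s, sv, r) P = (F.e i P.1, fun j => famP.e (s j) (P.2.1 j),
    famP.e sv P.2.2.1, fun j => famP.e (r j) (P.2.2.2 j)) := rfl
  rw [h1, cor]
  refine Prod.ext rfl (Prod.ext (funext fun j => famP_apply (hs j)) (Prod.ext (famP_apply hv)
    (funext fun j => famP_apply (hr j))))

theorem slice_aux {S : Set (Amb X)} {F' : Type} [NormedAddCommGroup F'] [NormedSpace ℂ F']
    [FiniteDimensional ℂ F'] (hF' : Module.finrank ℂ F' = 5) {P : Amb X}
    (i : F.ι) (s : Fin 2 → Bool) (sv : Bool) (r : Fin 2 → Bool)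
    (hPs : P ∈ ((ambE F).e (i, s, sv, r)).source) {W : Set (E8 N)} (hW : IsOpen W)
    (hPW : (ambE F).e (i, s, sv, r) P ∈ W) {Φ : E8 N → F'} (hΦ : DifferentiableOn ℂ Φ W)
    (hsur : Function.Surjective (fderiv ℂ Φ ((ambE F).e (i, s, sv, r) P)))
    (hS : ∀ y ∈ ((ambE F).e (i, s, sv, r)).source, (ambE F).e (i, s, sv, r) y ∈ W →
      (y ∈ S ↔ Φ ((ambE F).e (i, s, sv, r) y) = 0)) :
    ∃ c : Slice (ambFam F) S N, P ∈ c.dom := by
  obtain ⟨h1, h2, h3, h4⟩ := mem_ambE_source.1 hPs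
  have e1 : (ambE F).e (i, s, sv, r) P = cor F i s sv r P := ambE_apply h2 h3 h4
  refine exists_slice_amb hF' i s sv r h1 h2 h3 h4 hW (e1 ▸ hPW) hΦ ?_ (e1 ▸ hsur)
  intro Q q1 q2 q3 q4 hQW
  have e2 : (ambE F).e (i, s, sv, r) Q = cor F i s sv r Q := ambE_apply q2 q3 q4
  have h5 := hS Q (mem_ambE_source.2 ⟨q1, q2, q3, q4⟩) (e2.symm ▸ hQW)
  have e3 : Φ ((ambE F).e (i, s, sv, r) Q) = Φ (cor F i s sv r Q) := congrArg Φ e2
  exact h5.trans (by rw [← e3])

/-- **the bridge**: level sets in the sense of 559 have slices -/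
theorem isSl_of_lv {S : Set (Amb X)} {F' : Type} [NormedAddCommGroup F'] [NormedSpace ℂ F']
    [FiniteDimensional ℂ F'] (hF' : Module.finrank ℂ F' = 5)
    (h : ∀ p ∈ S, Lv (ambE F) S F' p) : IsSl (ambFam F) S N := by
  intro P hP
  obtain ⟨idx, hPs, W, hW, hPW, Φ, hΦ, hsur, hS⟩ := (h P hP).ex
  exact slice_aux hF' idx.1 idx.2.1 idx.2.2.1 idx.2.2.2 hPs hW hPW hΦ hsur hS

section same

variable {S : Set (Amb X)} {F' : Type} [NormedAddCommGroup F'] [NormedSpace ℂ F']
  (L : LvS N (ambE F) S F') (h : IsSl (ambFam F) S N)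



end same

end

end Crest.Agent.R272.GrFr_54
end

-- ▼ part R272/Gr5_559

/-!
# R272 (S0415), MOD-GRAPH (helper559), file 6: `X1` as a complex manifold

* `isSl_X1 D : IsSl (ambFam F) D.X1 3` (54's slices, the hypothesis of 302's `A.fam`);
* `famX1 D : Fam 3 D.X1` := `slFam (isSl_X1 D)`; `holC_val`, `holC_iff`, `holC_pz`, `holC_t`,
  `holC_v`, `holC_k`;
* `X1L D : LvS 3 (ambF F) D.X1 _` : the same manifold from the explicit equations.
-/

set_option autoImplicit false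
set_option linter.unusedSectionVars false

open Set Filter Topology Complex

namespace Crest.Agent.R272.Gr_559

open Crest.Agent.R275.Geo Crest.Agent.R273.Fam_835 Crest.Agent.R272.Quot_783
  Crest.Agent.R272.FamP_54 Crest.Agent.R272.SubF_54 Crest.Agent.R272.P1A_54
  Crest.Agent.R272.GrFr_54
open Crest.Agent.R272.P1F_54 (p1Fam)

noncomputable section

variable {N : Type} [TopologicalSpace N] {F : Fam 3 N} (D : GData F)


/-- **`X1` has slices at every point** -/
theorem isSl_X1 : IsSl (ambFam F) D.X1 3 := by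
  refine isSl_of_lv (F' := (Fin 3 → ℂ) × (Fin 2 → ℂ)) ?_ fun s hs => lv_X1 D s hs
  rw [Module.finrank_prod, Module.finrank_fintype_fun_eq_card, Module.finrank_fintype_fun_eq_card,
    Fintype.card_fin, Fintype.card_fin]



variable {m : ℕ} {P : Type} [TopologicalSpace P] {E : Fam m P}





end

end Crest.Agent.R272.Gr_559
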