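import Mathlib
import Crest.Agent.R272.EBase_641

-- ▼ part R272/LbClu_382
section

/-!
# LB-CLUSTER (row 272, lower bound for S0415): the cap / cluster lemma

585 #5391 (3) = 876 #5389 (1).  Pure quasi-metric statement.

`d` is a symmetric nonnegative function with `d x z ≤ K (d x y + d y z)`
(no `d x x = 0` is required: Rudin's metric on the closed ball is covered).
A family of "caps" has centres `w v` and radii `r v > 0`; two different caps OF COMPARABLE SIZE
(`r v / (4 K^2) ≤ r u ≤ r v`) satisfy the dichotomy `d (w u) (w v) ≤ A * r v` or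
`d (w u) (w v) > capC2 K A B * r v`;
caps are adjacent when `d (w v) (w v') ≤ B (r v + r v')`.  Then every
chain of adjacent caps lies within `capC K A B * r v₁` of the largest cap `v₁` of the chain.
-/

set_option autoImplicit false

namespace Crest.Agent.R272.LbClu_382

open Relation

/-- The constant `C` of the cap lemma. -/
noncomputable def capC (K A B : ℝ) : ℝ := 2 * K ^ 3 * (2 * B + A)

/-- The threshold in the dichotomy of the cap lemma. -/
noncomputable def capC2 (K A B : ℝ) : ℝ := K * (capC K A B + K * (2 * B + A))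


section cap

variable {X ι : Type*} (d : X → X → ℝ) (w : ι → X) (r : ι → ℝ)

/-- Adjacency of caps. -/
def Adj (B : ℝ) (u v : ι) : Prop := d (w u) (w v) ≤ B * (r u + r v)

/-- The data of a family of caps satisfying the dichotomy for pairs of comparable size. -/
structure Caps (K A B : ℝ) : Prop where
  one_le : 1 ≤ K
  hA : 0 ≤ A
  hB : 0 ≤ B
  symm : ∀ x y, d x y = d y x
  nonneg : ∀ x y, 0 ≤ d x y
  tri : ∀ x y z, d x z ≤ K * (d x y + d y z)
  pos : ∀ v, 0 < r v
  dich : ∀ u v, u ≠ v → r v ≤ 4 * K ^ 2 * r u → r u ≤ r v →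
    d (w u) (w v) ≤ A * r v ∨ capC2 K A B * r v < d (w u) (w v)

variable {d w r} {K A B : ℝ}

theorem Adj.symm' (H : Caps d w r K A B) {u v : ι} (h : Adj d w r B u v) :
    Adj d w r B v u := by
  unfold Adj at *
  rw [H.symm, add_comm]
  exact h

theorem capC_nonneg (hK : 1 ≤ K) (hA : 0 ≤ A) (hB : 0 ≤ B) : 0 ≤ capC K A B := by
  unfold capC
  positivity

/-- The relation "both in `T` and adjacent". -/
def Rel (d : X → X → ℝ) (w : ι → X) (r : ι → ℝ) (B : ℝ) (T : Set ι) (x y : ι) : Prop :=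
  x ∈ T ∧ y ∈ T ∧ Adj d w r B x y

theorem Rel.symm' (H : Caps d w r K A B) {T : Set ι} {x y : ι}
    (h : Rel d w r B T x y) : Rel d w r B T y x :=
  ⟨h.2.1, h.1, h.2.2.symm' H⟩

theorem reach_symm (H : Caps d w r K A B) {T : Set ι} {a b : ι}
    (h : ReflTransGen (Rel d w r B T) a b) : ReflTransGen (Rel d w r B T) b a := by
  induction h with
  | refl => exact .refl
  | tail _ h2 ih => exact ih.head (h2.symm' H)

theorem reach_mem {T : Set ι} {a b : ι} (ha : a ∈ T)
    (h : ReflTransGen (Rel d w r B T) a b) : b ∈ T := by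
  induction h with
  | refl => exact ha
  | tail _ h _ => exact h.2.1

/-- The component of `v` in `T`. -/
def Comp (d : X → X → ℝ) (w : ι → X) (r : ι → ℝ) (B : ℝ) (T : Set ι) (v : ι) : Set ι :=
  {u | ReflTransGen (Rel d w r B T) v u}

theorem comp_reach {T : Set ι} {v u : ι}
    (hu : u ∈ Comp d w r B T v) :
    ReflTransGen (Rel d w r B (Comp d w r B T v)) v u := by
  have hu' : ReflTransGen (Rel d w r B T) v u := hu
  induction hu' with
  | refl => exact .refl
  | tail h1 h2 ih =>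
    exact (ih h1).tail ⟨h1, h1.tail h2, h2.2.2⟩

/-- **The cap lemma (finite form).** -/
theorem cap_finite (H : Caps d w r K A B) (n : ℕ) :
    ∀ (F : Finset ι), F.card ≤ n → ∀ v₁ ∈ F, (∀ v ∈ F, r v ≤ r v₁) →
      (∀ v ∈ F, ReflTransGen (Rel d w r B (F : Set ι)) v₁ v) →
      ∀ v ∈ F, v ≠ v₁ → d (w v) (w v₁) ≤ capC K A B * r v₁ := by
  classical
  have hK := H.one_le
  have hA := H.hA
  have hB := H.hB
  have hC0 := capC_nonneg hK hA hB
  induction n with
  | zero =>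
    intro F hF v₁ hv₁
    have : F = ∅ := by
      rw [← Finset.card_eq_zero]; omega
    rw [this] at hv₁
    simp at hv₁
  | succ n ih =>
    intro F hF v₁ hv₁ hmax hconn v hv hvne
    set κ : ℝ := 1 / (4 * K ^ 2) with hκ
    have hκ0 : 0 < κ := by positivity
    have hr1 : 0 < r v₁ := H.pos v₁
    -- the core `R`
    let R : Finset ι := F.filter
      (fun u => u = v₁ ∨ (d (w u) (w v₁) ≤ A * r v₁ ∧ κ * r v₁ ≤ r u))
    have hv₁R : v₁ ∈ R := by simp [R, hv₁]
    have hRbd : ∀ u ∈ R, u ≠ v₁ → d (w u) (w v₁) ≤ A * r v₁ := by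
      intro u hu hne
      simp only [R, Finset.mem_filter] at hu
      rcases hu.2 with h | h
      · exact absurd h hne
      · exact h.1
    by_cases hvR : v ∈ R
    · refine (hRbd v hvR hvne).trans ?_
      apply mul_le_mul_of_nonneg_right _ hr1.le
      unfold capC
      have h1 : (1 : ℝ) ≤ K ^ 3 := one_le_pow₀ hK
      nlinarith [mul_nonneg (sub_nonneg.2 h1) hA, mul_nonneg (sub_nonneg.2 h1) hB]
    · -- component of `v` in `F \ R`
      let T : Set ι := {u | u ∈ F ∧ u ∉ R}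
      have hvT : v ∈ T := ⟨hv, hvR⟩
      let Fj : Finset ι := F.filter (fun u => u ∈ Comp d w r B T v)
      have hFj : ∀ u, u ∈ Fj ↔ u ∈ Comp d w r B T v := by
        intro u
        simp only [Fj, Finset.mem_filter]
        constructor
        · exact fun h => h.2
        · intro h
          exact ⟨(reach_mem hvT h).1, h⟩
      have hFjset : (Fj : Set ι) = Comp d w r B T v := by
        ext u
        rw [Finset.mem_coe, hFj]
      have hvFj : v ∈ Fj := (hFj v).2 .refl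
      have hFjT : ∀ u ∈ Fj, u ∈ T := fun u hu => reach_mem hvT ((hFj u).1 hu)
      have hcard : Fj.card ≤ n := by
        have hsub : Fj ⊆ F.erase v₁ := by
          intro u hu
          rw [Finset.mem_erase]
          refine ⟨?_, (hFjT u hu).1⟩
          rintro rfl
          exact (hFjT _ hu).2 hv₁R
        have := Finset.card_le_card hsub
        rw [Finset.card_erase_of_mem hv₁] at this
        omega
      -- largest element of `Fj`
      obtain ⟨vj, hvj, hvjmax⟩ := Finset.exists_max_image Fj r ⟨v, hvFj⟩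
      have hconnj : ∀ u ∈ Fj, ReflTransGen (Rel d w r B (Fj : Set ι)) vj u := by
        intro u hu
        have h1 : ReflTransGen (Rel d w r B (Fj : Set ι)) v vj := by
          rw [hFjset]; exact comp_reach ((hFj vj).1 hvj)
        have h2 : ReflTransGen (Rel d w r B (Fj : Set ι)) v u := by
          rw [hFjset]; exact comp_reach ((hFj u).1 hu)
        exact (reach_symm H h1).trans h2
      have hind := ih Fj hcard vj hvj hvjmax hconnj
      -- `Fj` touches `R`
      have htouch : ∃ u ∈ Fj, ∃ t ∈ R, Adj d w r B u t := by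
        by_contra hcon
        push Not at hcon
        have hall : ∀ y, ReflTransGen (Rel d w r B (F : Set ι)) v y → y ∈ Fj := by
          intro y hy
          induction hy with
          | refl => exact hvFj
          | tail h1 h2 ih2 =>
            rename_i x y
            have hyR : y ∉ R := fun h => hcon x ih2 y h h2.2.2
            have hyT : y ∈ T := ⟨h2.2.1, hyR⟩
            rw [hFj]
            exact ((hFj x).1 ih2 : ReflTransGen _ _ _).tail ⟨hFjT x ih2, hyT, h2.2.2⟩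
        have := hall v₁ (reach_symm H (hconn v hv))
        exact (hFjT _ this).2 hv₁R
      obtain ⟨u, hu, t, ht, hut⟩ := htouch
      have htF : t ∈ F := (Finset.mem_filter.1 ht).1
      have huF : u ∈ F := (hFjT u hu).1
      have hvjF : vj ∈ F := (hFjT vj hvj).1
      have hut' : d (w u) (w t) ≤ 2 * B * r v₁ := by
        refine (show d (w u) (w t) ≤ B * (r u + r t) from hut).trans ?_
        have := hmax u huF
        have := hmax t htF
        nlinarith
      have hu1 : d (w u) (w v₁) ≤ K * (2 * B + A) * r v₁ := by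
        by_cases hte : t = v₁
        · rw [hte] at hut'
          refine hut'.trans (mul_le_mul_of_nonneg_right ?_ hr1.le)
          nlinarith
        · have h1 := H.tri (w u) (w t) (w v₁)
          have h2 := hRbd t ht hte
          nlinarith
      have hrj : 0 < r vj := H.pos vj
      have hj1 : d (w vj) (w v₁) ≤ K * (capC K A B * r vj + K * (2 * B + A) * r v₁) := by
        by_cases huj : u = vj
        · rw [huj] at hu1
          refine hu1.trans ?_
          have h3 : 0 ≤ capC K A B * r vj := mul_nonneg hC0 hrj.le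
          have h4 : 0 ≤ K * (2 * B + A) * r v₁ := by positivity
          nlinarith
        · have h1 := H.tri (w vj) (w u) (w v₁)
          have h2 := hind u hu huj
          rw [H.symm] at h2
          nlinarith
      have hvj1 : vj ≠ v₁ := by
        rintro rfl
        exact (hFjT _ hvj).2 hv₁R
      have hrjκ : r vj ≤ κ * r v₁ := by
        by_contra hlt
        push Not at hlt
        have hcomp : r v₁ ≤ 4 * K ^ 2 * r vj := by
          have h1 : 4 * K ^ 2 * (κ * r v₁) = r v₁ := by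
            rw [hκ]; field_simp
          rw [← h1]
          exact mul_le_mul_of_nonneg_left hlt.le (by positivity)
        rcases H.dich vj v₁ hvj1 hcomp (hmax vj hvjF) with h | h
        · -- first kind, hence small
          have : vj ∉ R := (hFjT vj hvj).2
          simp only [R, Finset.mem_filter, not_and, not_or] at this
          have := (this hvjF).2 h
          linarith
        · -- second kind
          have hrle := hmax vj hvjF
          have h5 : d (w vj) (w v₁) ≤ capC2 K A B * r v₁ := by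
            refine hj1.trans ?_
            unfold capC2
            have := mul_le_mul_of_nonneg_left hrle hC0
            nlinarith
          linarith
      -- conclusion
      have hcκ : K ^ 2 * (capC K A B * r vj) ≤ capC K A B * r v₁ / 4 := by
        have h1 : K ^ 2 * (capC K A B * r vj) ≤ K ^ 2 * (capC K A B * (κ * r v₁)) := by
          apply mul_le_mul_of_nonneg_left _ (by positivity)
          exact mul_le_mul_of_nonneg_left hrjκ hC0
        have h2 : K ^ 2 * (capC K A B * (κ * r v₁)) = capC K A B * r v₁ / 4 := by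
          rw [hκ]
          field_simp
        linarith
      have hKK : K * (capC K A B * r vj) ≤ K ^ 2 * (capC K A B * r vj) := by
        have h3 : 0 ≤ capC K A B * r vj := mul_nonneg hC0 hrj.le
        have h4 : K ≤ K ^ 2 := by nlinarith
        exact mul_le_mul_of_nonneg_right h4 h3
      have hK3 : K ^ 3 * (2 * B + A) * r v₁ = capC K A B * r v₁ / 2 := by
        unfold capC; ring
      have hK23 : K ^ 2 * (2 * B + A) * r v₁ ≤ K ^ 3 * (2 * B + A) * r v₁ := by
        have h4 : K ^ 2 ≤ K ^ 3 := by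
          have : 0 ≤ K ^ 2 := by positivity
          nlinarith
        have h5 : 0 ≤ (2 * B + A) * r v₁ := by positivity
        nlinarith
      by_cases hvvj : v = vj
      · rw [hvvj]
        refine hj1.trans ?_
        have e1 : K * (capC K A B * r vj + K * (2 * B + A) * r v₁)
            = K * (capC K A B * r vj) + K ^ 2 * (2 * B + A) * r v₁ := by ring
        rw [e1]
        have : 0 ≤ capC K A B * r v₁ := by positivity
        linarith
      · have h1 := H.tri (w v) (w vj) (w v₁)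
        have h2 := hind v hvFj hvvj
        have h3 : d (w v) (w v₁) ≤
            K * (capC K A B * r vj) + K ^ 2 * (capC K A B * r vj)
              + K ^ 3 * (2 * B + A) * r v₁ := by
          refine h1.trans ?_
          have : K * (d (w v) (w vj) + d (w vj) (w v₁)) ≤
              K * (capC K A B * r vj + K * (capC K A B * r vj + K * (2 * B + A) * r v₁)) := by
            apply mul_le_mul_of_nonneg_left _ (by linarith)
            linarith
          refine this.trans (le_of_eq ?_)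
          ring
        have : 0 ≤ capC K A B * r v₁ := by positivity
        linarith

theorem Rel.mono {S T : Set ι} (hST : S ⊆ T) {x y : ι} (h : Rel d w r B S x y) :
    Rel d w r B T x y :=
  ⟨hST h.1, hST h.2.1, h.2.2⟩

theorem reach_mono {S T : Set ι} (hST : S ⊆ T) {a b : ι}
    (h : ReflTransGen (Rel d w r B S) a b) : ReflTransGen (Rel d w r B T) a b := by
  induction h with
  | refl => exact .refl
  | tail _ h2 ih => exact ih.tail (h2.mono hST)

/-- A chain inside `S` is supported on a finite chain-connected subset of `S`. -/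
theorem exists_finset_chain {S : Set ι} {a b : ι} (ha : a ∈ S)
    (h : ReflTransGen (Rel d w r B S) a b) :
    ∃ F : Finset ι, (F : Set ι) ⊆ S ∧ a ∈ F ∧ b ∈ F ∧
      ∀ u ∈ F, ReflTransGen (Rel d w r B (F : Set ι)) a u := by
  classical
  induction h with
  | refl =>
    refine ⟨{a}, by simpa using ha, by simp, by simp, ?_⟩
    intro u hu
    rw [Finset.mem_singleton] at hu
    rw [hu]
  | tail h1 h2 ih =>
    rename_i x y
    obtain ⟨F, hFS, haF, hxF, hF⟩ := ih
    refine ⟨insert y F, ?_, by simp [haF], by simp, ?_⟩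
    · intro z hz
      rcases Finset.mem_insert.1 (Finset.mem_coe.1 hz) with rfl | hz
      · exact h2.2.1
      · exact hFS hz
    · have hsub : (F : Set ι) ⊆ ((insert y F : Finset ι) : Set ι) := by
        intro z hz
        simp only [Finset.coe_insert, Set.mem_insert_iff]
        exact Or.inr hz
      have hxy : ReflTransGen (Rel d w r B ((insert y F : Finset ι) : Set ι)) a y := by
        refine (reach_mono hsub (hF x hxF)).tail ⟨?_, ?_, h2.2.2⟩
        · simp [hxF]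
        · simp
      intro u hu
      rcases Finset.mem_insert.1 hu with rfl | hu
      · exact hxy
      · exact reach_mono hsub (hF u hu)

/-- **The cap lemma (chain form).**  For every chain of caps inside `S` from `a` to `b` there is
a cap `m` of the chain (the largest one) such that both ends lie within `capC * r m` of `m`. -/
theorem cap_chain (H : Caps d w r K A B) {S : Set ι} {a b : ι} (ha : a ∈ S)
    (h : ReflTransGen (Rel d w r B S) a b) :
    ∃ m ∈ S, ReflTransGen (Rel d w r B S) a m ∧ r a ≤ r m ∧ r b ≤ r m ∧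
      (a ≠ m → d (w a) (w m) ≤ capC K A B * r m) ∧
      (b ≠ m → d (w b) (w m) ≤ capC K A B * r m) := by
  classical
  obtain ⟨F, hFS, haF, hbF, hF⟩ := exists_finset_chain ha h
  obtain ⟨m, hm, hmax⟩ := Finset.exists_max_image F r ⟨a, haF⟩
  have hconn : ∀ v ∈ F, ReflTransGen (Rel d w r B (F : Set ι)) m v := fun v hv =>
    (reach_symm H (hF m hm)).trans (hF v hv)
  have key := cap_finite H F.card F le_rfl m hm hmax hconn
  exact ⟨m, hFS hm, reach_mono hFS (hF m hm), hmax a haF, hmax b hbF, key a haF, key b hbF⟩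



end cap

/-! ### The metric case `K = 1` -/

section metric

variable {X ι : Type*} {d : X → X → ℝ} {w : ι → X} {r : ι → ℝ} {A B Lam : ℝ}

theorem capC_one (A B : ℝ) : capC 1 A B = 2 * (2 * B + A) := by
  unfold capC; ring

theorem capC2_one (A B : ℝ) : capC2 1 A B = 3 * (2 * B + A) := by
  unfold capC2; rw [capC_one]; ring


/-- Constructor for the metric case: dichotomy for pairs with `r v / 4 ≤ r u ≤ r v`:
`d ≤ A * r v` or `3 (2 B + A) * r v < d`; the constant of the conclusion is `2 (2 B + A)`. -/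
theorem Caps.of_metric (hA : 0 ≤ A) (hB : 0 ≤ B)
    (symm : ∀ x y, d x y = d y x) (nonneg : ∀ x y, 0 ≤ d x y)
    (tri : ∀ x y z, d x z ≤ d x y + d y z) (pos : ∀ v, 0 < r v)
    (dich : ∀ u v, u ≠ v → r v ≤ 4 * r u → r u ≤ r v →
      d (w u) (w v) ≤ A * r v ∨ 3 * (2 * B + A) * r v < d (w u) (w v)) :
    Caps d w r 1 A B where
  one_le := le_rfl
  hA := hA
  hB := hB
  symm := symm
  nonneg := nonneg
  tri := fun x y z => by rw [one_mul]; exact tri x y z
  pos := pos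
  dich := fun u v huv h1 h2 => by
    rw [capC2_one]
    exact dich u v huv (by simpa using h1) h2


end metric

/-! ### Topology: pieces of a locally finite union of closed caps -/

section top

variable {Y ι : Type*} [TopologicalSpace Y] {D : ι → Set Y}




end top

/-! ### Chain classes -/

section classes

variable {X ι : Type*} {d : X → X → ℝ} {w : ι → X} {r : ι → ℝ} {K A B : ℝ}

/-- The chain relation as a setoid. -/
def chainSetoid (H : Caps d w r K A B) : Setoid ι where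
  r u v := ReflTransGen (Rel d w r B Set.univ) u v
  iseqv := ⟨fun _ => .refl, fun h => reach_symm H h, fun h h' => h.trans h'⟩

theorem chainSetoid_iff (H : Caps d w r K A B) {u v : ι} :
    (Quotient.mk (chainSetoid H) u = Quotient.mk (chainSetoid H) v) ↔
      ReflTransGen (Rel d w r B Set.univ) u v :=
  Quotient.eq (r := chainSetoid H)

theorem chainSetoid_of_adj (H : Caps d w r K A B) {u v : ι} (h : Adj d w r B u v) :
    Quotient.mk (chainSetoid H) u = Quotient.mk (chainSetoid H) v :=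
  (chainSetoid_iff H).2 (.single ⟨trivial, trivial, h⟩)

/-- Two caps in the same chain class: there is a cap `m` in the class, at least as large as both,
with both within `capC * r m` of `m`. -/
theorem chainSetoid_dist (H : Caps d w r K A B) {u v : ι}
    (h : Quotient.mk (chainSetoid H) u = Quotient.mk (chainSetoid H) v) :
    ∃ m, Quotient.mk (chainSetoid H) m = Quotient.mk (chainSetoid H) u ∧ r u ≤ r m ∧ r v ≤ r m ∧
      (u ≠ m → d (w u) (w m) ≤ capC K A B * r m) ∧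
      (v ≠ m → d (w v) (w m) ≤ capC K A B * r m) := by
  obtain ⟨m, -, hm, h1, h2, h3, h4⟩ := cap_chain H (Set.mem_univ u) ((chainSetoid_iff H).1 h)
  exact ⟨m, ((chainSetoid_iff H).2 hm).symm, h1, h2, h3, h4⟩

end classes

end Crest.Agent.R272.LbClu_382
end

-- ▼ part R272/LbCap1_382
section

/-!
# LB-CAP, part 1 (row 272, lower bound for S0415, 585 #5391 (2))

Rudin's function on the closed unit ball of `E n`, the unit vector `omv v` and the size `ep v`
of a positive vector `v : V1 n`, and the relation between `hh v w` and `rd (omv v) (omv w)`.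
-/

set_option autoImplicit false

open scoped ComplexConjugate

namespace Crest.Agent.R272.LbCap_382

open Crest.Agent.R272.EBase_641

noncomputable section

variable {n : ℕ}

/-! ### Rudin's function -/

/-- Rudin's function `sqrt |1 - <a,b>|`. -/
def rd (a b : E n) : ℝ := Real.sqrt ‖1 - inner ℂ b a‖

theorem rd_nonneg (a b : E n) : 0 ≤ rd a b := Real.sqrt_nonneg _

theorem rd_comm (a b : E n) : rd a b = rd b a := by
  unfold rd
  congr 1
  rw [← inner_conj_symm, ← RCLike.norm_conj (1 - inner ℂ a b)]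
  simp

theorem rd_sq (a b : E n) : rd a b ^ 2 = ‖1 - inner ℂ b a‖ := Real.sq_sqrt (norm_nonneg _)

/-- Decomposition estimate: for a unit vector `b` the parts of `a`, `c` orthogonal to `b`. -/
theorem inner_sub_le {a b c : E n} (hb : ‖b‖ = 1) :
    ‖inner ℂ c a - inner ℂ b a * inner ℂ c b‖ ^ 2 ≤
      (‖a‖ ^ 2 - ‖inner ℂ b a‖ ^ 2) * (‖c‖ ^ 2 - ‖inner ℂ b c‖ ^ 2) := by
  set a' : E n := a - (inner ℂ b a : ℂ) • b with ha'
  set c' : E n := c - (inner ℂ b c : ℂ) • b with hc'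
  have hbb : inner ℂ b b = (1 : ℂ) := by
    rw [inner_self_eq_norm_sq_to_K, hb]; simp
  have h1 : inner ℂ c' a' = inner ℂ c a - inner ℂ b a * inner ℂ c b := by
    rw [ha', hc', inner_sub_left, inner_sub_right, inner_sub_right, inner_smul_left,
      inner_smul_right, inner_smul_right, inner_smul_left, hbb]
    ring
  have h2 : ‖a'‖ ^ 2 = ‖a‖ ^ 2 - ‖inner ℂ b a‖ ^ 2 := by
    have h : (inner ℂ a' a' : ℂ) = inner ℂ a a - inner ℂ b a * inner ℂ a b := by
      rw [ha', inner_sub_left, inner_sub_right, inner_sub_right, inner_smul_left,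
        inner_smul_right, inner_smul_right, inner_smul_left, hbb]
      ring
    have h' := congrArg Complex.re h
    rw [inner_self_eq_norm_sq_to_K, inner_self_eq_norm_sq_to_K] at h'
    have h3 : (inner ℂ b a * inner ℂ a b : ℂ) = ((‖(inner ℂ b a : ℂ)‖ ^ 2 : ℝ) : ℂ) := by
      rw [← inner_conj_symm a b, Complex.mul_conj, Complex.normSq_eq_norm_sq]
    rw [h3] at h'
    have h4 : ∀ x : ℝ, (((x : ℂ)) ^ 2).re = x ^ 2 := by
      intro x; rw [← Complex.ofReal_pow, Complex.ofReal_re]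
    simpa [h4] using h'
  have h2' : ‖c'‖ ^ 2 = ‖c‖ ^ 2 - ‖inner ℂ b c‖ ^ 2 := by
    have h : (inner ℂ c' c' : ℂ) = inner ℂ c c - inner ℂ b c * inner ℂ c b := by
      rw [hc', inner_sub_left, inner_sub_right, inner_sub_right, inner_smul_left,
        inner_smul_right, inner_smul_right, inner_smul_left, hbb]
      ring
    have h' := congrArg Complex.re h
    rw [inner_self_eq_norm_sq_to_K, inner_self_eq_norm_sq_to_K] at h'
    have h3 : (inner ℂ b c * inner ℂ c b : ℂ) = ((‖(inner ℂ b c : ℂ)‖ ^ 2 : ℝ) : ℂ) := by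
      rw [← inner_conj_symm c b, Complex.mul_conj, Complex.normSq_eq_norm_sq]
    rw [h3] at h'
    have h4 : ∀ x : ℝ, (((x : ℂ)) ^ 2).re = x ^ 2 := by
      intro x; rw [← Complex.ofReal_pow, Complex.ofReal_re]
    simpa [h4] using h'
  rw [← h1, ← h2, ← h2', mul_comm, ← mul_pow]
  exact pow_le_pow_left₀ (norm_nonneg _) (norm_inner_le_norm c' a') 2

/-- Triangle inequality through a unit vector. -/
theorem rd_tri {a b c : E n} (ha : ‖a‖ ≤ 1) (hb : ‖b‖ = 1) (hc : ‖c‖ ≤ 1) :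
    rd a c ≤ rd a b + rd b c := by
  set α : ℂ := inner ℂ b a with hα
  set γ : ℂ := inner ℂ b c with hγ
  have hα1 : ‖α‖ ≤ 1 := by
    calc ‖α‖ ≤ ‖b‖ * ‖a‖ := norm_inner_le_norm b a
      _ ≤ 1 := by rw [hb, one_mul]; exact ha
  have hγ1 : ‖γ‖ ≤ 1 := by
    calc ‖γ‖ ≤ ‖b‖ * ‖c‖ := norm_inner_le_norm b c
      _ ≤ 1 := by rw [hb, one_mul]; exact hc
  have hcb : (inner ℂ c b : ℂ) = conj γ := by rw [hγ, inner_conj_symm]
  have e1 : rd a b ^ 2 = ‖1 - α‖ := rd_sq a b
  have e2 : rd b c ^ 2 = ‖1 - γ‖ := by rw [rd_comm, rd_sq]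
  have p1 := rd_nonneg a b
  have p2 := rd_nonneg b c
  have k1 : ‖a‖ ^ 2 - ‖α‖ ^ 2 ≤ 2 * rd a b ^ 2 := by
    rw [e1]
    have h1 : 1 - ‖α‖ ≤ ‖1 - α‖ := by
      have := norm_sub_norm_le (1 : ℂ) α
      simpa using this
    have h2 : ‖a‖ ^ 2 ≤ 1 := by nlinarith [norm_nonneg a]
    nlinarith [norm_nonneg α]
  have k2 : ‖c‖ ^ 2 - ‖γ‖ ^ 2 ≤ 2 * rd b c ^ 2 := by
    rw [e2]
    have h1 : 1 - ‖γ‖ ≤ ‖1 - γ‖ := by
      have := norm_sub_norm_le (1 : ℂ) γ
      simpa using this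
    have h2 : ‖c‖ ^ 2 ≤ 1 := by nlinarith [norm_nonneg c]
    nlinarith [norm_nonneg γ]
  have k0 : 0 ≤ ‖c‖ ^ 2 - ‖γ‖ ^ 2 := by
    have : ‖γ‖ ≤ ‖b‖ * ‖c‖ := norm_inner_le_norm b c
    rw [hb, one_mul] at this
    nlinarith [norm_nonneg γ, norm_nonneg c]
  have key := inner_sub_le (a := a) (c := c) hb
  rw [← hα, ← hγ, hcb] at key
  have key2 : ‖inner ℂ c a - α * conj γ‖ ≤ 2 * (rd a b * rd b c) := by
    have h3 : ‖inner ℂ c a - α * conj γ‖ ^ 2 ≤ (2 * (rd a b * rd b c)) ^ 2 := by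
      refine key.trans ?_
      calc (‖a‖ ^ 2 - ‖α‖ ^ 2) * (‖c‖ ^ 2 - ‖γ‖ ^ 2)
          ≤ (2 * rd a b ^ 2) * (‖c‖ ^ 2 - ‖γ‖ ^ 2) := mul_le_mul_of_nonneg_right k1 k0
        _ ≤ (2 * rd a b ^ 2) * (2 * rd b c ^ 2) := by
            apply mul_le_mul_of_nonneg_left k2; positivity
        _ = (2 * (rd a b * rd b c)) ^ 2 := by ring
    exact le_of_sq_le_sq h3 (by positivity)
  have key3 : ‖1 - α * conj γ‖ ≤ rd a b ^ 2 + rd b c ^ 2 := by
    have h4 : (1 : ℂ) - α * conj γ = (1 - α) + α * (1 - conj γ) := by ring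
    have h5 : ‖(1 : ℂ) - conj γ‖ = ‖1 - γ‖ := by
      rw [← RCLike.norm_conj (1 - γ)]; simp
    rw [h4, e1, e2]
    refine (norm_add_le _ _).trans ?_
    rw [norm_mul, h5]
    have := mul_le_mul_of_nonneg_right hα1 (norm_nonneg (1 - γ))
    linarith
  have key4 : rd a c ^ 2 ≤ (rd a b + rd b c) ^ 2 := by
    have h6 : (1 : ℂ) - inner ℂ c a = (1 - α * conj γ) - (inner ℂ c a - α * conj γ) := by ring
    rw [rd_sq, h6]
    refine (norm_sub_le _ _).trans ?_
    nlinarith
  exact le_of_sq_le_sq key4 (by positivity)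

theorem norm_sub_sq_le {a b : E n} (ha : ‖a‖ ≤ 1) (hb : ‖b‖ ≤ 1) :
    ‖a - b‖ ^ 2 ≤ 2 * rd a b ^ 2 := by
  rw [rd_sq, norm_sub_sq (𝕜 := ℂ)]
  have h1 : RCLike.re (inner ℂ a b) = (inner ℂ b a : ℂ).re := by
    have h := congrArg Complex.re (inner_conj_symm (𝕜 := ℂ) b a)
    rw [Complex.conj_re] at h
    exact h
  rw [h1]
  have h2 : 1 - (inner ℂ b a : ℂ).re ≤ ‖1 - inner ℂ b a‖ := by
    have := Complex.re_le_norm (1 - inner ℂ b a)
    simpa using this
  nlinarith [norm_nonneg a, norm_nonneg b]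

theorem norm_sub_le_rd {a b : E n} (ha : ‖a‖ ≤ 1) (hb : ‖b‖ ≤ 1) :
    ‖a - b‖ ≤ 2 * rd a b := by
  apply le_of_sq_le_sq _ (by have := rd_nonneg a b; positivity)
  have := norm_sub_sq_le ha hb
  nlinarith [rd_nonneg a b]

/-! ### The unit vector and the size of a positive vector -/

/-- `t = |v_0| / |v'|`. -/
def tt (v : V1 n) : ℝ := ‖v.2‖ / ‖v.1‖

/-- the unit vector of `v`: the hyperplane of `v` is `<u, omv v> = tt v`. -/
def omv (v : V1 n) : E n := (conj v.2 / ((‖v.2‖ * ‖v.1‖ : ℝ) : ℂ)) • v.1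

/-- the size of the cap of `v`. -/
def ep (v : V1 n) : ℝ := Real.sqrt (1 - tt v)

/-- A positive vector of norm `N` with non zero time part. -/
structure Pv (N : ℝ) (v : V1 n) : Prop where
  pos : 0 < N
  norm : ‖v.1‖ ^ 2 - ‖v.2‖ ^ 2 = N
  ne : v.2 ≠ 0

variable {N N' : ℝ} {v w : V1 n}

theorem Pv.n2 (h : Pv N v) : 0 < ‖v.2‖ := norm_pos_iff.2 h.ne

theorem Pv.n1 (h : Pv N v) : 0 < ‖v.1‖ := by
  by_contra h0
  have h1 : ‖v.1‖ = 0 := le_antisymm (not_lt.1 h0) (norm_nonneg _)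
  have h2 := h.norm
  rw [h1] at h2
  have := h.pos
  nlinarith [h.n2]

theorem Pv.lt (h : Pv N v) : ‖v.2‖ < ‖v.1‖ := by
  have h1 := h.norm
  have h2 := h.pos
  nlinarith [h.n1, h.n2]

theorem Pv.tt_pos (h : Pv N v) : 0 < tt v := div_pos h.n2 h.n1

theorem Pv.tt_lt (h : Pv N v) : tt v < 1 := (div_lt_one h.n1).2 h.lt

theorem Pv.ep_pos (h : Pv N v) : 0 < ep v := Real.sqrt_pos.2 (by linarith [h.tt_lt])

theorem Pv.ep_sq (h : Pv N v) : ep v ^ 2 = 1 - tt v := Real.sq_sqrt (by linarith [h.tt_lt])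


theorem Pv.norm_omv (h : Pv N v) : ‖omv v‖ = 1 := by
  have h1 := h.n1
  have h2 := h.n2
  rw [omv, norm_smul, norm_div, RCLike.norm_conj, Complex.norm_real, Real.norm_of_nonneg
    (by positivity)]
  field_simp

/-- `|v'|^2 ep^2 (1+t) = N`. -/
theorem Pv.sq_mul (h : Pv N v) : ‖v.1‖ ^ 2 * ep v ^ 2 * (1 + tt v) = N := by
  have h1 := h.n1
  rw [h.ep_sq, ← h.norm, tt]
  field_simp
  ring

theorem Pv.sq_le (h : Pv N v) : ‖v.1‖ ^ 2 * ep v ^ 2 ≤ N := by
  have h1 := h.sq_mul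
  have h2 := h.tt_pos
  have h3 : 0 ≤ ‖v.1‖ ^ 2 * ep v ^ 2 := by positivity
  nlinarith

theorem Pv.le_sq (h : Pv N v) : N ≤ 2 * (‖v.1‖ ^ 2 * ep v ^ 2) := by
  have h1 := h.sq_mul
  have h2 := h.tt_lt
  have h3 : 0 ≤ ‖v.1‖ ^ 2 * ep v ^ 2 := by positivity
  nlinarith

theorem Pv.inner_omv (h : Pv N v) (z : E n) :
    inner ℂ (omv v) z = v.2 / ((‖v.2‖ * ‖v.1‖ : ℝ) : ℂ) * inner ℂ v.1 z := by
  rw [omv, inner_smul_left, map_div₀, Complex.conj_conj, Complex.conj_ofReal]

theorem Pv.phase (h : Pv N v) : ‖v.2 / ((‖v.2‖ * ‖v.1‖ : ℝ) : ℂ)‖ = ‖v.1‖⁻¹ := by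
  have h1 := h.n1
  have h2 := h.n2
  rw [norm_div, Complex.norm_real, Real.norm_of_nonneg (by positivity)]
  field_simp

/-- `|lin v z| = |v'| |<z, om> - t|`. -/
theorem Pv.norm_lin (h : Pv N v) (z : E n) :
    ‖lin v z‖ = ‖v.1‖ * ‖inner ℂ (omv v) z - (tt v : ℂ)‖ := by
  have h1 := h.n1
  have h2 := h.n2
  have e1 : inner ℂ (omv v) z - (tt v : ℂ) = v.2 / ((‖v.2‖ * ‖v.1‖ : ℝ) : ℂ) * lin v z := by
    rw [h.inner_omv, lin, mul_sub]
    congr 1
    rw [div_mul_eq_mul_div, Complex.mul_conj, Complex.normSq_eq_norm_sq, tt]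
    have : (‖v.2‖ : ℂ) ≠ 0 := by exact_mod_cast h2.ne'
    have : (‖v.1‖ : ℂ) ≠ 0 := by exact_mod_cast h1.ne'
    push_cast
    field_simp
  rw [e1, norm_mul, h.phase, ← mul_assoc, mul_inv_cancel₀ h1.ne', one_mul]

/-- `|hh v w| = |v'||w'| |<om v, om w> - t_v t_w|`. -/
theorem Pv.norm_hh (h : Pv N v) (h' : Pv N' w) :
    ‖hh v w‖ = ‖v.1‖ * ‖w.1‖ * ‖inner ℂ (omv w) (omv v) - ((tt v * tt w : ℝ) : ℂ)‖ := by
  have h1 := h.n1
  have h2 := h.n2
  have h1' := h'.n1
  have h2' := h'.n2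
  have e1 : inner ℂ (omv w) (omv v) - ((tt v * tt w : ℝ) : ℂ) =
      (w.2 / ((‖w.2‖ * ‖w.1‖ : ℝ) : ℂ)) * (conj v.2 / ((‖v.2‖ * ‖v.1‖ : ℝ) : ℂ)) * hh v w := by
    rw [h'.inner_omv, hh, mul_sub]
    congr 1
    · rw [omv, inner_smul_right]; ring
    · have e2 : w.2 * conj w.2 = ((‖w.2‖ ^ 2 : ℝ) : ℂ) := by
        rw [Complex.mul_conj, Complex.normSq_eq_norm_sq]
      have e3 : conj v.2 * v.2 = ((‖v.2‖ ^ 2 : ℝ) : ℂ) := by
        rw [mul_comm, Complex.mul_conj, Complex.normSq_eq_norm_sq]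
      have e4 : w.2 / ((‖w.2‖ * ‖w.1‖ : ℝ) : ℂ) * (conj v.2 / ((‖v.2‖ * ‖v.1‖ : ℝ) : ℂ)) *
          (v.2 * conj w.2) = (w.2 * conj w.2) * (conj v.2 * v.2) /
            (((‖w.2‖ * ‖w.1‖ : ℝ) : ℂ) * ((‖v.2‖ * ‖v.1‖ : ℝ) : ℂ)) := by ring
      rw [e4, e2, e3, tt, tt]
      have : (‖v.2‖ : ℂ) ≠ 0 := by exact_mod_cast h2.ne'
      have : (‖v.1‖ : ℂ) ≠ 0 := by exact_mod_cast h1.ne'
      have : (‖w.2‖ : ℂ) ≠ 0 := by exact_mod_cast h2'.ne'
      have : (‖w.1‖ : ℂ) ≠ 0 := by exact_mod_cast h1'.ne'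
      push_cast
      field_simp
  have hp : ‖conj v.2 / ((‖v.2‖ * ‖v.1‖ : ℝ) : ℂ)‖ = ‖v.1‖⁻¹ := by
    rw [← h.phase, ← RCLike.norm_conj (v.2 / _)]
    congr 1
    rw [map_div₀, Complex.conj_ofReal]
  rw [e1, norm_mul, norm_mul, h'.phase, hp]
  field_simp

/-- `1 - t t' ≤ ep^2 + ep'^2`, and it is nonnegative. -/
theorem one_sub_tt (h : Pv N v) (h' : Pv N' w) :
    0 ≤ 1 - tt v * tt w ∧ 1 - tt v * tt w ≤ ep v ^ 2 + ep w ^ 2 := by
  rw [h.ep_sq, h'.ep_sq]
  have h1 := h.tt_pos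
  have h2 := h.tt_lt
  have h1' := h'.tt_pos
  have h2' := h'.tt_lt
  constructor <;> nlinarith

/-- upper bound of the Rudin distance of the directions of two vectors. -/
theorem rd_omv_sq_le (h : Pv N v) (h' : Pv N' w) :
    rd (omv v) (omv w) ^ 2 ≤ ep v ^ 2 + ep w ^ 2 + ‖hh v w‖ / (‖v.1‖ * ‖w.1‖) := by
  have h1 := h.n1
  have h1' := h'.n1
  have e := h.norm_hh h'
  have e' : ‖inner ℂ (omv w) (omv v) - ((tt v * tt w : ℝ) : ℂ)‖ =
      ‖hh v w‖ / (‖v.1‖ * ‖w.1‖) := by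
    rw [e]; field_simp
  rw [rd_sq, ← e']
  have h3 : (1 : ℂ) - inner ℂ (omv w) (omv v) = ((1 - tt v * tt w : ℝ) : ℂ) -
      (inner ℂ (omv w) (omv v) - ((tt v * tt w : ℝ) : ℂ)) := by push_cast; ring
  rw [h3]
  refine (norm_sub_le _ _).trans ?_
  have h4 := one_sub_tt h h'
  rw [Complex.norm_real, Real.norm_of_nonneg h4.1]
  linarith [h4.2]

/-- lower bound of the Rudin distance of the directions of two vectors. -/
theorem le_rd_omv_sq (h : Pv N v) (h' : Pv N' w) :
    ‖hh v w‖ / (‖v.1‖ * ‖w.1‖) - (ep v ^ 2 + ep w ^ 2) ≤ rd (omv v) (omv w) ^ 2 := by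
  have h1 := h.n1
  have h1' := h'.n1
  have e := h.norm_hh h'
  have e' : ‖inner ℂ (omv w) (omv v) - ((tt v * tt w : ℝ) : ℂ)‖ =
      ‖hh v w‖ / (‖v.1‖ * ‖w.1‖) := by
    rw [e]; field_simp
  rw [rd_sq, ← e']
  have h3 : (inner ℂ (omv w) (omv v) - ((tt v * tt w : ℝ) : ℂ)) =
      ((1 - tt v * tt w : ℝ) : ℂ) - ((1 : ℂ) - inner ℂ (omv w) (omv v)) := by push_cast; ring
  rw [h3]
  have h4 := one_sub_tt h h'
  have h5 := norm_sub_le (((1 - tt v * tt w : ℝ) : ℂ)) ((1 : ℂ) - inner ℂ (omv w) (omv v))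
  rw [Complex.norm_real, Real.norm_of_nonneg h4.1] at h5
  linarith [h4.2]

/-- `1/(|v'||w'|)` in terms of the sizes. -/
theorem inv_norm_mul (h : Pv N v) (h' : Pv N' w) :
    ep v * ep w / Real.sqrt (N * N') ≤ 1 / (‖v.1‖ * ‖w.1‖) ∧
      1 / (‖v.1‖ * ‖w.1‖) ≤ 2 * (ep v * ep w) / Real.sqrt (N * N') := by
  have h1 := h.n1
  have h1' := h'.n1
  have hN := h.pos
  have hN' := h'.pos
  have e1 := h.ep_pos
  have e1' := h'.ep_pos
  have hs : 0 < Real.sqrt (N * N') := Real.sqrt_pos.2 (by positivity)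
  have hs2 : Real.sqrt (N * N') ^ 2 = N * N' := Real.sq_sqrt (by positivity)
  have a1 := h.sq_le
  have a1' := h'.sq_le
  have a2 := h.le_sq
  have a2' := h'.le_sq
  constructor
  · rw [div_le_div_iff₀ hs (by positivity), one_mul]
    apply le_of_sq_le_sq _ hs.le
    rw [hs2]
    calc (ep v * ep w * (‖v.1‖ * ‖w.1‖)) ^ 2
        = (‖v.1‖ ^ 2 * ep v ^ 2) * (‖w.1‖ ^ 2 * ep w ^ 2) := by ring
      _ ≤ N * N' := mul_le_mul a1 a1' (by positivity) hN.le
  · rw [div_le_div_iff₀ (by positivity) hs, one_mul]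
    apply le_of_sq_le_sq _ (by positivity)
    rw [hs2]
    calc N * N' ≤ (2 * (‖v.1‖ ^ 2 * ep v ^ 2)) * (2 * (‖w.1‖ ^ 2 * ep w ^ 2)) :=
          mul_le_mul a2 a2' hN'.le (by positivity)
      _ = (2 * (ep v * ep w) * (‖v.1‖ * ‖w.1‖)) ^ 2 := by ring

/-- standard pairs: `rd^2 ≤ ep^2 + ep'^2 + (2 c / sqrt(N N')) ep ep'`. -/
theorem rd_omv_sq_le_std (h : Pv N v) (h' : Pv N' w) {c : ℝ} (hc : ‖hh v w‖ ≤ c) :
    rd (omv v) (omv w) ^ 2 ≤
      ep v ^ 2 + ep w ^ 2 + 2 * c / Real.sqrt (N * N') * (ep v * ep w) := by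
  have h1 := h.n1
  have h1' := h'.n1
  refine (rd_omv_sq_le h h').trans ?_
  have h2 := (inv_norm_mul h h').2
  have hc0 : 0 ≤ c := (norm_nonneg _).trans hc
  have h3 : ‖hh v w‖ / (‖v.1‖ * ‖w.1‖) ≤ c * (1 / (‖v.1‖ * ‖w.1‖)) := by
    rw [div_eq_mul_one_div]
    exact mul_le_mul_of_nonneg_right hc (by positivity)
  have h4 := mul_le_mul_of_nonneg_left h2 hc0
  have h5 : c * (2 * (ep v * ep w) / Real.sqrt (N * N')) =
      2 * c / Real.sqrt (N * N') * (ep v * ep w) := by ring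
  linarith

/-- far pairs: `Lam / sqrt(N N') ep ep' - ep^2 - ep'^2 ≤ rd^2`. -/
theorem le_rd_omv_sq_far (h : Pv N v) (h' : Pv N' w) {Lam : ℝ} (hL : Lam ≤ ‖hh v w‖) :
    Lam / Real.sqrt (N * N') * (ep v * ep w) - (ep v ^ 2 + ep w ^ 2) ≤
      rd (omv v) (omv w) ^ 2 := by
  have h1 := h.n1
  have h1' := h'.n1
  refine le_trans ?_ (le_rd_omv_sq h h')
  have h2 := (inv_norm_mul h h').1
  have h3 : ‖hh v w‖ * (1 / (‖v.1‖ * ‖w.1‖)) = ‖hh v w‖ / (‖v.1‖ * ‖w.1‖) := by
    rw [← div_eq_mul_one_div]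
  have h4 := mul_le_mul_of_nonneg_left h2 (norm_nonneg (hh v w))
  have h5 : 0 ≤ ep v * ep w / Real.sqrt (N * N') := by
    have := h.ep_pos
    have := h'.ep_pos
    positivity
  have h6 := mul_le_mul_of_nonneg_right hL h5
  have h7 : Lam * (ep v * ep w / Real.sqrt (N * N')) =
      Lam / Real.sqrt (N * N') * (ep v * ep w) := by ring
  linarith

end

end Crest.Agent.R272.LbCap_382
end

-- ▼ part R272/LbCap2_382

/-!
# LB-CAP, part 2 (row 272, lower bound for S0415, 585 #5391 (2),(3))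

Caps `Cap k v` of positive vectors: closed, radially upward closed, contain the hyperplane of `v`
and the `f₁`-cap of a type B vector; locally finite in the ball; intersecting caps are adjacent;
`Caps` instance (LbClu_382) from the arithmetic dichotomy; slopes of chain pieces.
-/

set_option autoImplicit false

open scoped ComplexConjugate

namespace Crest.Agent.R272.LbCap_382

open Crest.Agent.R272.EBase_641 Crest.Agent.R272.LbClu_382

noncomputable section

variable {n : ℕ} {N N' : ℝ} {v w : V1 n}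

/-- the direction of a point. -/
def dir (u : E n) : E n := ((‖u‖⁻¹ : ℝ) : ℂ) • u

theorem norm_dir {u : E n} (hu : u ≠ 0) : ‖dir u‖ = 1 := by
  have h : 0 < ‖u‖ := norm_pos_iff.2 hu
  rw [dir, norm_smul, Complex.norm_real, Real.norm_of_nonneg (by positivity)]
  field_simp

theorem norm_dir_le (u : E n) : ‖dir u‖ ≤ 1 := by
  by_cases hu : u = 0
  · subst hu; simp [dir]
  · exact (norm_dir hu).le

theorem inner_dir (a u : E n) : inner ℂ a (dir u) = ((‖u‖⁻¹ : ℝ) : ℂ) * inner ℂ a u := by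
  rw [dir, inner_smul_right]

theorem dir_smul {u : E n} {c : ℝ} (hc : 0 < c) : dir ((c : ℂ) • u) = dir u := by
  by_cases hu : u = 0
  · subst hu; simp [dir]
  have h : 0 < ‖u‖ := norm_pos_iff.2 hu
  rw [dir, dir, norm_smul, Complex.norm_real, Real.norm_of_nonneg hc.le, smul_smul]
  congr 1
  rw [← Complex.ofReal_mul]
  congr 1
  field_simp

theorem continuousOn_dir : ContinuousOn (dir : E n → E n) {u | u ≠ 0} := by
  have h : ContinuousOn (fun u : E n => ((‖u‖⁻¹ : ℝ) : ℂ)) {u | u ≠ 0} := by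
    apply Complex.continuous_ofReal.comp_continuousOn
    apply ContinuousOn.inv₀ continuous_norm.continuousOn
    intro x hx
    exact norm_ne_zero_iff.2 hx
  exact h.smul continuousOn_id

theorem continuous_rd (b : E n) : Continuous (fun a : E n => rd a b) := by
  unfold rd
  apply Real.continuous_sqrt.comp
  apply continuous_norm.comp
  exact continuous_const.sub (continuous_const.inner continuous_id)

/-- The cap of `v`. -/
def Cap (k : ℝ) (v : V1 n) : Set (E n) :=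
  {u | 1 - k ^ 2 * ep v ^ 2 ≤ ‖u‖ ∧ rd (dir u) (omv v) ≤ 2 * k * ep v}

theorem Cap.ne_zero {k : ℝ} (hk : k ^ 2 * ep v ^ 2 < 1) {u : E n} (hu : u ∈ Cap k v) : u ≠ 0 := by
  rintro rfl
  have := hu.1
  rw [norm_zero] at this
  linarith

theorem isClosed_Cap {k : ℝ} (hk : k ^ 2 * ep v ^ 2 < 1) : IsClosed (Cap k v) := by
  have h1 : IsClosed {u : E n | 1 - k ^ 2 * ep v ^ 2 ≤ ‖u‖} :=
    isClosed_le continuous_const continuous_norm
  have h2 : ContinuousOn (fun u : E n => rd (dir u) (omv v))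
      {u : E n | 1 - k ^ 2 * ep v ^ 2 ≤ ‖u‖} := by
    apply (continuous_rd (omv v)).comp_continuousOn
    apply continuousOn_dir.mono
    intro u hu
    rintro rfl
    simp only [Set.mem_ofPred_eq, norm_zero] at hu
    linarith
  have h3 := h2.preimage_isClosed_of_isClosed h1 (isClosed_Iic (a := 2 * k * ep v))
  exact h3

/-- caps are radially upward closed. -/
theorem Cap.smul_mem {k : ℝ} (hk : k ^ 2 * ep v ^ 2 < 1) {u : E n} (hu : u ∈ Cap k v) {c : ℝ}
    (hc : 1 ≤ c) : (c : ℂ) • u ∈ Cap k v := by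
  refine ⟨?_, ?_⟩
  · rw [norm_smul, Complex.norm_real, Real.norm_of_nonneg (by linarith)]
    have := hu.1
    nlinarith [norm_nonneg u]
  · rw [dir_smul (by linarith)]
    exact hu.2

/-- Points of the closed ball whose Rudin distance to `om` is at most `k ε` are in the cap. -/
theorem mem_Cap_of_rd {k : ℝ} (hv : Pv N v) (hk0 : 0 ≤ k) (hk : k ^ 2 * ep v ^ 2 < 1) {u : E n}
    (hu1 : ‖u‖ ≤ 1) (hu : rd u (omv v) ≤ k * ep v) : u ∈ Cap k v := by
  have he := hv.ep_pos
  have hD : rd u (omv v) ^ 2 ≤ k ^ 2 * ep v ^ 2 := by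
    rw [← mul_pow]
    exact pow_le_pow_left₀ (rd_nonneg _ _) hu 2
  rw [rd_sq] at hD
  have h1 : 1 - ‖(1 : ℂ) - inner ℂ (omv v) u‖ ≤ ‖(inner ℂ (omv v) u : ℂ)‖ := by
    have := norm_sub_norm_le (1 : ℂ) (1 - inner ℂ (omv v) u)
    simp only [norm_one, sub_sub_cancel] at this
    exact this
  have h2 : ‖(inner ℂ (omv v) u : ℂ)‖ ≤ ‖u‖ := by
    have := norm_inner_le_norm (𝕜 := ℂ) (omv v) u
    rwa [hv.norm_omv, one_mul] at this
  have hu0 : 0 < ‖u‖ := by linarith
  refine ⟨by linarith, ?_⟩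
  apply le_of_sq_le_sq _ (by positivity)
  rw [rd_sq, inner_dir]
  have e : (1 : ℂ) - ((‖u‖⁻¹ : ℝ) : ℂ) * inner ℂ (omv v) u =
      (1 - inner ℂ (omv v) u) - (((‖u‖⁻¹ - 1 : ℝ)) : ℂ) * inner ℂ (omv v) u := by
    push_cast; ring
  rw [e]
  refine (norm_sub_le _ _).trans ?_
  have h3 : 0 ≤ ‖u‖⁻¹ - 1 := by
    have : 1 ≤ ‖u‖⁻¹ := (one_le_inv₀ hu0).2 hu1
    linarith
  rw [norm_mul, Complex.norm_real, Real.norm_of_nonneg h3]
  have h4 : (‖u‖⁻¹ - 1) * ‖(inner ℂ (omv v) u : ℂ)‖ ≤ 1 - ‖u‖ := by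
    calc (‖u‖⁻¹ - 1) * ‖(inner ℂ (omv v) u : ℂ)‖ ≤ (‖u‖⁻¹ - 1) * ‖u‖ :=
          mul_le_mul_of_nonneg_left h2 h3
      _ = 1 - ‖u‖ := by field_simp
  have h5 : (2 * k * ep v) ^ 2 = 4 * (k ^ 2 * ep v ^ 2) := by ring
  rw [h5]
  have h6 : 0 ≤ k ^ 2 * ep v ^ 2 := by positivity
  linarith

/-- The hyperplane of `v` (in the closed ball) is in the cap. -/
theorem mem_Cap_of_lin_eq_zero {k : ℝ} (hv : Pv N v) (hk1 : 1 ≤ k) (hk : k ^ 2 * ep v ^ 2 < 1)
    {u : E n} (hu1 : ‖u‖ ≤ 1) (hu : lin v u = 0) : u ∈ Cap k v := by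
  apply mem_Cap_of_rd hv (by linarith) hk hu1
  have h := hv.norm_lin u
  rw [hu, norm_zero] at h
  have h1 : ‖inner ℂ (omv v) u - (tt v : ℂ)‖ = 0 := by
    rcases mul_eq_zero.1 h.symm with h | h
    · exact absurd h hv.n1.ne'
    · exact h
  have h2 : (inner ℂ (omv v) u : ℂ) = (tt v : ℂ) := sub_eq_zero.1 (norm_eq_zero.1 h1)
  have h3 : rd u (omv v) ^ 2 = ep v ^ 2 := by
    rw [rd_sq, h2, hv.ep_sq, ← Complex.ofReal_one, ← Complex.ofReal_sub, Complex.norm_real,
      Real.norm_of_nonneg (by linarith [hv.tt_lt])]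
  have h4 : rd u (omv v) = ep v := by
    have := rd_nonneg u (omv v)
    have := hv.ep_pos
    nlinarith
  rw [h4]
  nlinarith [hv.ep_pos]

/-- **The `f₁`-cap of a vector far from `f₁` is in the cap.**  `P` is any contraction (here the
projection to the first two coordinates). -/
theorem mem_Cap_of_lin_le {k C Lam : ℝ} (hv : Pv N v) (hk0 : 0 < k)
    (hk : k ^ 2 * ep v ^ 2 < 1) (P : E n →L[ℂ] E n) (hP : ∀ x, ‖P x‖ ≤ ‖x‖) (hC : 0 ≤ C)
    (hLam : 0 < Lam) (hfar : Lam ≤ ‖P v.1‖)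
    (hkC : 1 + 2 * C / N + 2 * C * Real.sqrt (2 / N) / Lam * k ≤ k ^ 2)
    {u : E n} (hu1 : ‖u‖ ≤ 1) (hu : ‖lin v u‖ * ‖P v.1‖ ≤ C * ‖P u‖) : u ∈ Cap k v := by
  apply mem_Cap_of_rd hv hk0.le hk hu1
  have hN := hv.pos
  have he := hv.ep_pos
  have hn1 := hv.n1
  set D := rd u (omv v) with hD
  have hD0 : 0 ≤ D := rd_nonneg _ _
  -- `‖P om‖ = ‖P v'‖ / ‖v'‖`
  have hPom : ‖P (omv v)‖ = ‖P v.1‖ / ‖v.1‖ := by
    rw [omv, map_smul, norm_smul]
    have h2 := hv.n2
    have : ‖conj v.2 / ((‖v.2‖ * ‖v.1‖ : ℝ) : ℂ)‖ = ‖v.1‖⁻¹ := by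
      rw [← hv.phase, ← RCLike.norm_conj (v.2 / _)]
      congr 1
      rw [map_div₀, Complex.conj_ofReal]
    rw [this]; field_simp
  have hPpos : 0 < ‖P v.1‖ := lt_of_lt_of_le hLam hfar
  -- bound of `‖P u‖`
  have h1 : ‖P u‖ ≤ ‖P v.1‖ / ‖v.1‖ + 2 * D := by
    have e : P u = P (omv v) + P (u - omv v) := by rw [map_sub]; abel
    rw [e, ← hPom]
    refine (norm_add_le _ _).trans ?_
    have := norm_sub_le_rd hu1 hv.norm_omv.le
    have := hP (u - omv v)
    linarith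
  -- `|<u,om> - t|`
  have h2 : ‖inner ℂ (omv v) u - (tt v : ℂ)‖ ≤ C / ‖v.1‖ ^ 2 + 2 * C * D / (‖v.1‖ * Lam) := by
    have h3 := hv.norm_lin u
    have h4 : ‖v.1‖ * ‖inner ℂ (omv v) u - (tt v : ℂ)‖ * ‖P v.1‖ ≤
        C * (‖P v.1‖ / ‖v.1‖ + 2 * D) := by
      rw [← h3]
      exact hu.trans (mul_le_mul_of_nonneg_left h1 hC)
    have h5 : ‖inner ℂ (omv v) u - (tt v : ℂ)‖ ≤
        C * (‖P v.1‖ / ‖v.1‖ + 2 * D) / (‖v.1‖ * ‖P v.1‖) := by
      rw [le_div_iff₀ (by positivity)]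
      linarith
    refine h5.trans ?_
    have h6 : C * (‖P v.1‖ / ‖v.1‖ + 2 * D) / (‖v.1‖ * ‖P v.1‖) =
        C / ‖v.1‖ ^ 2 + 2 * C * D / (‖v.1‖ * ‖P v.1‖) := by
      field_simp
    rw [h6]
    have h7 : 2 * C * D / (‖v.1‖ * ‖P v.1‖) ≤ 2 * C * D / (‖v.1‖ * Lam) := by
      apply div_le_div_of_nonneg_left (by positivity) (by positivity)
      exact mul_le_mul_of_nonneg_left hfar hn1.le
    linarith
  -- sizes
  have hs : 1 / ‖v.1‖ ^ 2 ≤ 2 / N * ep v ^ 2 := by
    rw [div_le_iff₀ (by positivity)]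
    have := hv.le_sq
    rw [show 2 / N * ep v ^ 2 * ‖v.1‖ ^ 2 = 2 * (‖v.1‖ ^ 2 * ep v ^ 2) / N by ring,
      le_div_iff₀ hN]
    linarith
  have hs2 : 1 / ‖v.1‖ ≤ Real.sqrt (2 / N) * ep v := by
    apply le_of_sq_le_sq _ (by positivity)
    rw [mul_pow, Real.sq_sqrt (by positivity), div_pow, one_pow]
    exact hs
  have h8 : C / ‖v.1‖ ^ 2 ≤ 2 * C / N * ep v ^ 2 := by
    have := mul_le_mul_of_nonneg_left hs hC
    calc C / ‖v.1‖ ^ 2 = C * (1 / ‖v.1‖ ^ 2) := by ring
      _ ≤ C * (2 / N * ep v ^ 2) := this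
      _ = 2 * C / N * ep v ^ 2 := by ring
  have h9 : 2 * C * D / (‖v.1‖ * Lam) ≤ 2 * C * Real.sqrt (2 / N) / Lam * (ep v * D) := by
    have h10 : 0 ≤ 2 * C * D / Lam := by positivity
    have := mul_le_mul_of_nonneg_left hs2 h10
    calc 2 * C * D / (‖v.1‖ * Lam) = 2 * C * D / Lam * (1 / ‖v.1‖) := by
          field_simp
      _ ≤ 2 * C * D / Lam * (Real.sqrt (2 / N) * ep v) := this
      _ = 2 * C * Real.sqrt (2 / N) / Lam * (ep v * D) := by ring
  have h11 : D ^ 2 ≤ ep v ^ 2 + ‖inner ℂ (omv v) u - (tt v : ℂ)‖ := by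
    rw [hD, rd_sq, hv.ep_sq]
    have e : (1 : ℂ) - inner ℂ (omv v) u =
        ((1 - tt v : ℝ) : ℂ) - (inner ℂ (omv v) u - (tt v : ℂ)) := by push_cast; ring
    rw [e]
    refine (norm_sub_le _ _).trans ?_
    rw [Complex.norm_real, Real.norm_of_nonneg (by linarith [hv.tt_lt])]
  set δ := 2 * C * Real.sqrt (2 / N) / Lam with hδ
  have hδ0 : 0 ≤ δ := by positivity
  have h12 : D ^ 2 ≤ (1 + 2 * C / N) * ep v ^ 2 + δ * (ep v * D) := by
    calc D ^ 2 ≤ ep v ^ 2 + (2 * C / N * ep v ^ 2 + δ * (ep v * D)) := by linarith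
      _ = _ := by ring
  by_contra hcon
  push Not at hcon
  -- `D > k ε`
  have h13 : (1 + 2 * C / N) * ep v ^ 2 ≤ (k ^ 2 - δ * k) * ep v ^ 2 := by
    apply mul_le_mul_of_nonneg_right _ (by positivity)
    linarith
  have hkδ : δ < k := by
    have h14 : 0 ≤ 2 * C / N := by positivity
    by_contra hle
    push Not at hle
    have : k * k ≤ δ * k := mul_le_mul_of_nonneg_right hle hk0.le
    nlinarith
  have h15 : D ^ 2 - δ * (ep v * D) ≤ (k * ep v) ^ 2 - δ * (ep v * (k * ep v)) := by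
    nlinarith
  have h16 : 0 < (D - k * ep v) * (D + k * ep v - δ * ep v) := by
    apply mul_pos (by linarith)
    have : δ * ep v < k * ep v := mul_lt_mul_of_pos_right hkδ he
    linarith
  nlinarith

/-! ### Local finiteness -/

/-- A cap meeting the ball of radius `ρ < 1` comes from a vector with small `v'`. -/
theorem Cap.norm_sq_le {k ρ : ℝ} (hv : Pv N v) (hρ : ρ < 1) {u : E n} (hu : u ∈ Cap k v)
    (hur : ‖u‖ ≤ ρ) : ‖v.1‖ ^ 2 ≤ N * k ^ 2 / (1 - ρ) := by
  have h1 := hu.1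
  have h2 : 1 - ρ ≤ k ^ 2 * ep v ^ 2 := by linarith
  have h3 := hv.sq_le
  rw [le_div_iff₀ (by linarith)]
  calc ‖v.1‖ ^ 2 * (1 - ρ) ≤ ‖v.1‖ ^ 2 * (k ^ 2 * ep v ^ 2) :=
        mul_le_mul_of_nonneg_left h2 (by positivity)
    _ = (‖v.1‖ ^ 2 * ep v ^ 2) * k ^ 2 := by ring
    _ ≤ N * k ^ 2 := mul_le_mul_of_nonneg_right h3 (by positivity)

/-- The caps of a discrete family of vectors are locally finite in the ball. -/
theorem Cap.locallyFinite {ι : Type*} {V : ι → V1 n} {Nn : ι → ℝ} {Nmax : ℝ}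
    (hV : ∀ i, Pv (Nn i) (V i)) (hN : ∀ i, Nn i ≤ Nmax)
    (hdisc : ∀ T : ℝ, {i | ‖(V i).1‖ ≤ T}.Finite) (k : ℝ) {x : E n} (hx : ‖x‖ < 1) :
    ∃ t ∈ nhds x, {i | (Cap k (V i) ∩ t).Nonempty}.Finite := by
  set ρ : ℝ := (1 + ‖x‖) / 2 with hρ
  have hρ1 : ρ < 1 := by rw [hρ]; linarith
  have hxρ : ‖x‖ < ρ := by rw [hρ]; linarith
  refine ⟨Metric.ball 0 ρ, Metric.isOpen_ball.mem_nhds (by simpa using hxρ), ?_⟩
  apply (hdisc (Real.sqrt (Nmax * k ^ 2 / (1 - ρ)))).subset
  rintro i ⟨u, hu, hut⟩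
  have hur : ‖u‖ ≤ ρ := by
    have : u ∈ Metric.ball (0 : E n) ρ := hut
    rw [mem_ball_zero_iff] at this
    exact this.le
  have h1 := Cap.norm_sq_le (hV i) hρ1 hu hur
  show ‖(V i).1‖ ≤ _
  apply Real.le_sqrt_of_sq_le
  refine h1.trans ?_
  apply div_le_div_of_nonneg_right _ (by linarith)
  exact mul_le_mul_of_nonneg_right (hN i) (by positivity)


/-! ### Adjacency and the `Caps` structure -/

/-- two caps with a common point are adjacent. -/
theorem Cap.rd_le {k : ℝ} (hv : Pv N v) (hw : Pv N' w) (hk : k ^ 2 * ep v ^ 2 < 1) {u : E n}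
    (h : u ∈ Cap k v) (h' : u ∈ Cap k w) :
    rd (omv v) (omv w) ≤ 2 * k * (ep v + ep w) := by
  have hu := Cap.ne_zero hk h
  have h1 := rd_tri (a := omv v) (b := dir u) (c := omv w) hv.norm_omv.le (norm_dir hu)
    hw.norm_omv.le
  have h2 := h.2
  have h3 := h'.2
  rw [rd_comm (omv v) (dir u)] at h1
  linarith

/-- the unit sphere of `E n`. -/
abbrev Sph (n : ℕ) := {x : E n // ‖x‖ = 1}

/-- The constant `A` of the first kind. -/
def capA (Nmin c0 : ℝ) : ℝ := Real.sqrt (2 + 2 * c0 / Nmin)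

/-- The direction of `v` as a point of the sphere. -/
def omS {N : ℝ} (v : V1 n) (h : Pv N v) : Sph n := ⟨omv v, h.norm_omv⟩

/-- **`Caps` from the arithmetic dichotomy.** -/
theorem capsOf {ι : Type*} {V : ι → V1 n} {Nn : ι → ℝ} {Nmin Nmax c0 Lam k : ℝ}
    (hV : ∀ i, Pv (Nn i) (V i)) (hmin0 : 0 < Nmin) (hmin : ∀ i, Nmin ≤ Nn i)
    (hmax : ∀ i, Nn i ≤ Nmax) (hk : 0 ≤ k) (hc0 : 0 ≤ c0)
    (hdich : ∀ i j, i ≠ j → ‖hh (V i) (V j)‖ ≤ c0 ∨ Lam ≤ ‖hh (V i) (V j)‖)
    (hLam : 4 * Nmax * (2 + (3 * (2 * (2 * k) + capA Nmin c0)) ^ 2) < Lam) :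
    Caps (fun a b : Sph n => rd a.1 b.1) (fun i => omS (V i) (hV i)) (fun i => ep (V i))
      1 (capA Nmin c0) (2 * k) := by
  have hA0 : 0 ≤ capA Nmin c0 := Real.sqrt_nonneg _
  have hA2 : capA Nmin c0 ^ 2 = 2 + 2 * c0 / Nmin := Real.sq_sqrt (by positivity)
  apply Caps.of_metric hA0 (by positivity)
  · intro x y; exact rd_comm _ _
  · intro x y; exact rd_nonneg _ _
  · intro x y z; exact rd_tri x.2.le y.2 z.2.le
  · intro i; exact (hV i).ep_pos
  · intro i j hij h1 h2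
    have ei := (hV i).ep_pos
    have ej := (hV j).ep_pos
    have hNi : 0 < Nn i := (hV i).pos
    have hNj : 0 < Nn j := (hV j).pos
    have hNmax : 0 < Nmax := lt_of_lt_of_le hNi (hmax i)
    set s := Real.sqrt (Nn i * Nn j) with hs
    have hs1 : Nmin ≤ s := by
      apply Real.le_sqrt_of_sq_le
      nlinarith [hmin i, hmin j]
    have hs2 : s ≤ Nmax := by
      rw [hs]
      apply (Real.sqrt_le_left hNmax.le).2
      nlinarith [hmax i, hmax j]
    have hs0 : 0 < s := lt_of_lt_of_le hmin0 hs1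
    rcases hdich i j hij with h | h
    · left
      show rd (omv (V i)) (omv (V j)) ≤ _
      apply le_of_sq_le_sq _ (by positivity)
      rw [mul_pow, hA2]
      refine (rd_omv_sq_le_std (hV i) (hV j) h).trans ?_
      rw [← hs]
      have h3 : 2 * c0 / s ≤ 2 * c0 / Nmin :=
        div_le_div_of_nonneg_left (by positivity) hmin0 hs1
      have h4 : ep (V i) * ep (V j) ≤ ep (V j) ^ 2 := by nlinarith
      have h5 : 0 ≤ ep (V i) * ep (V j) := by positivity
      have h6 : 0 ≤ 2 * c0 / Nmin := by positivity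
      have h7 : 2 * c0 / s * (ep (V i) * ep (V j)) ≤ 2 * c0 / Nmin * ep (V j) ^ 2 :=
        mul_le_mul h3 h4 h5 h6
      have h8 : ep (V i) ^ 2 ≤ ep (V j) ^ 2 := pow_le_pow_left₀ ei.le h2 2
      nlinarith
    · right
      show _ < rd (omv (V i)) (omv (V j))
      set c := 3 * (2 * (2 * k) + capA Nmin c0) with hc
      have hc0' : 0 ≤ c := by positivity
      have h3 := le_rd_omv_sq_far (hV i) (hV j) h
      rw [← hs] at h3
      have hLam0 : 0 < Lam := lt_of_le_of_lt (by positivity) hLam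
      have h4 : Lam / Nmax ≤ Lam / s := div_le_div_of_nonneg_left hLam0.le hs0 hs2
      have h5 : ep (V j) ^ 2 ≤ 4 * (ep (V i) * ep (V j)) := by nlinarith
      have h6 : 4 * (2 + c ^ 2) < Lam / Nmax := by
        rw [lt_div_iff₀ hNmax]; linarith
      have h7 : (2 + c ^ 2) * ep (V j) ^ 2 < Lam / s * (ep (V i) * ep (V j)) := by
        have h8 : 0 < ep (V i) * ep (V j) := by positivity
        calc (2 + c ^ 2) * ep (V j) ^ 2 ≤ (2 + c ^ 2) * (4 * (ep (V i) * ep (V j))) :=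
              mul_le_mul_of_nonneg_left h5 (by positivity)
          _ = 4 * (2 + c ^ 2) * (ep (V i) * ep (V j)) := by ring
          _ < Lam / s * (ep (V i) * ep (V j)) :=
              mul_lt_mul_of_pos_right (lt_of_lt_of_le h6 h4) h8
      have h8 : ep (V i) ^ 2 ≤ ep (V j) ^ 2 := pow_le_pow_left₀ ei.le h2 2
      have h9 : (c * ep (V j)) ^ 2 < rd (omv (V i)) (omv (V j)) ^ 2 := by
        rw [mul_pow]
        nlinarith
      exact lt_of_pow_lt_pow_left₀ 2 (rd_nonneg _ _) h9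

/-! ### Slopes -/

/-- `‖P om‖ = ‖P v'‖ / ‖v'‖`. -/
theorem Pv.norm_P_omv (hv : Pv N v) (P : E n →L[ℂ] E n) :
    ‖P (omv v)‖ = ‖P v.1‖ / ‖v.1‖ := by
  rw [omv, map_smul, norm_smul]
  have h1 := hv.n1
  have h2 := hv.n2
  have : ‖conj v.2 / ((‖v.2‖ * ‖v.1‖ : ℝ) : ℂ)‖ = ‖v.1‖⁻¹ := by
    rw [← hv.phase, ← RCLike.norm_conj (v.2 / _)]
    congr 1
    rw [map_div₀, Complex.conj_ofReal]
  rw [this]; field_simp

/-- a far vector has `‖P om‖ ≥ (Lam / sqrt N) ep`. -/
theorem Pv.le_norm_P_omv (hv : Pv N v) (P : E n →L[ℂ] E n) {Lam : ℝ}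
    (hfar : Lam ≤ ‖P v.1‖) : Lam / Real.sqrt N * ep v ≤ ‖P (omv v)‖ := by
  have h1 := hv.n1
  have hN := hv.pos
  have he := hv.ep_pos
  have hs : 0 < Real.sqrt N := Real.sqrt_pos.2 hN
  rw [hv.norm_P_omv]
  have h2 : ‖v.1‖ * ep v ≤ Real.sqrt N := by
    apply Real.le_sqrt_of_sq_le
    rw [mul_pow]
    exact hv.sq_le
  have h3 : ep v / Real.sqrt N ≤ 1 / ‖v.1‖ := by
    rw [div_le_div_iff₀ hs h1]
    linarith
  calc Lam / Real.sqrt N * ep v = Lam * (ep v / Real.sqrt N) := by ring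
    _ ≤ ‖P v.1‖ * (1 / ‖v.1‖) := mul_le_mul hfar h3 (by positivity) (norm_nonneg _)
    _ = ‖P v.1‖ / ‖v.1‖ := by ring

/-- direction of a point of a cap. -/
theorem Cap.norm_dir_sub_le {k : ℝ} (hv : Pv N v) {u : E n}
    (h : u ∈ Cap k v) : ‖dir u - omv v‖ ≤ 4 * k * ep v := by
  have h1 := norm_sub_le_rd (norm_dir_le u) hv.norm_omv.le
  have h2 := h.2
  linarith

/-- The slope constant. -/
def slopeδ (k A Nmax Lam' : ℝ) : ℝ := (4 * k + 2 * capC 1 A (2 * k)) * Real.sqrt Nmax / Lam'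

/-- Two points of the same chain piece have close `P`-directions. -/
theorem piece_slope {ι : Type*} {V : ι → V1 n} {Nn : ι → ℝ} {Nmax k A Lam' : ℝ}
    (hV : ∀ i, Pv (Nn i) (V i)) (hmax : ∀ i, Nn i ≤ Nmax) (hk : 0 ≤ k)
    (H : Caps (fun a b : Sph n => rd a.1 b.1) (fun i => omS (V i) (hV i)) (fun i => ep (V i))
      1 A (2 * k))
    (P : E n →L[ℂ] E n) (hP : ∀ x, ‖P x‖ ≤ ‖x‖) (hLam' : 0 < Lam')
    (hfar : ∀ i, Lam' ≤ ‖P (V i).1‖) {i j : ι}
    (hij : Quotient.mk (chainSetoid H) i = Quotient.mk (chainSetoid H) j)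
    {u u' : E n} (hu : u ∈ Cap k (V i)) (hu' : u' ∈ Cap k (V j)) :
    ∃ a : E n, 0 < ‖P a‖ ∧ ‖P (dir u) - P a‖ ≤ slopeδ k A Nmax Lam' * ‖P a‖ ∧
      ‖P (dir u') - P a‖ ≤ slopeδ k A Nmax Lam' * ‖P a‖ := by
  obtain ⟨m, -, hm1, hm2, hm3, hm4⟩ := chainSetoid_dist H hij
  have hC0 : 0 ≤ capC 1 A (2 * k) := capC_nonneg le_rfl H.hA (by positivity)
  have hem := (hV m).ep_pos
  have hNm : 0 < Nn m := (hV m).pos
  have hNmax : 0 < Nmax := lt_of_lt_of_le hNm (hmax m)
  have hsN : 0 < Real.sqrt Nmax := Real.sqrt_pos.2 hNmax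
  have hlow : Lam' / Real.sqrt Nmax * ep (V m) ≤ ‖P (omv (V m))‖ := by
    refine le_trans ?_ ((hV m).le_norm_P_omv P (hfar m))
    apply mul_le_mul_of_nonneg_right _ hem.le
    exact div_le_div_of_nonneg_left hLam'.le (Real.sqrt_pos.2 hNm) (Real.sqrt_le_sqrt (hmax m))
  have hpos : 0 < ‖P (omv (V m))‖ := lt_of_lt_of_le (by positivity) hlow
  -- general estimate
  have key : ∀ (l : ι) (x : E n), x ∈ Cap k (V l) → ep (V l) ≤ ep (V m) →
      (l ≠ m → rd (omv (V l)) (omv (V m)) ≤ capC 1 A (2 * k) * ep (V m)) →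
      ‖P (dir x) - P (omv (V m))‖ ≤ slopeδ k A Nmax Lam' * ‖P (omv (V m))‖ := by
    intro l x hx hl hlm
    have h1 : ‖dir x - omv (V l)‖ ≤ 4 * k * ep (V m) :=
      (Cap.norm_dir_sub_le (hV l) hx).trans (mul_le_mul_of_nonneg_left hl (by positivity))
    have h2 : ‖omv (V l) - omv (V m)‖ ≤ 2 * capC 1 A (2 * k) * ep (V m) := by
      by_cases hlm' : l = m
      · subst hlm'
        rw [sub_self, norm_zero]
        positivity
      · have h3 := norm_sub_le_rd (hV l).norm_omv.le (hV m).norm_omv.le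
        have h4 := hlm hlm'
        linarith
    have h5 : ‖P (dir x) - P (omv (V m))‖ ≤ (4 * k + 2 * capC 1 A (2 * k)) * ep (V m) := by
      rw [← map_sub]
      refine (hP _).trans ?_
      have e : dir x - omv (V m) = (dir x - omv (V l)) + (omv (V l) - omv (V m)) := by abel
      rw [e]
      refine (norm_add_le _ _).trans ?_
      linarith
    refine h5.trans ?_
    have h6 : ep (V m) ≤ Real.sqrt Nmax / Lam' * ‖P (omv (V m))‖ := by
      have h7 := mul_le_mul_of_nonneg_left hlow (show 0 ≤ Real.sqrt Nmax / Lam' by positivity)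
      have h8 : Real.sqrt Nmax / Lam' * (Lam' / Real.sqrt Nmax * ep (V m)) = ep (V m) := by
        field_simp
      linarith
    have h9 := mul_le_mul_of_nonneg_left h6
      (show 0 ≤ 4 * k + 2 * capC 1 A (2 * k) by positivity)
    refine h9.trans (le_of_eq ?_)
    unfold slopeδ
    ring
  exact ⟨omv (V m), hpos, key i u hu hm1 hm3, key j u' hu' hm2 hm4⟩


end

end Crest.Agent.R272.LbCap_382
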