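import Mathlib
import Crest.Agent.R266.SCV
import Crest.Agent.R272.EBase_641

-- ▼ part R272/Wei1_392
section

/-!
# R272 (S0415), division E, leaf E-WEI, part 1 (helper392)

Infinite products of holomorphic functions of several variables:
`prodF f z = ∏' i, (1 + f i z)`; holomorphy, zeros, splitting off finitely many factors.
-/

set_option autoImplicit false
set_option linter.unusedSectionVars false

open Set Filter Topology Metric Complex

noncomputable section

namespace Crest.Agent.R272.Wei_392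

variable {E : Type*} [NormedAddCommGroup E] [NormedSpace ℂ E] [FiniteDimensional ℂ E]
variable {ι : Type*}

/-- the infinite product -/
def prodF (f : ι → E → ℂ) (z : E) : ℂ := ∏' i, (1 + f i z)

/-- local uniform summable majorants (off finite sets of indices) on compact subsets of `U` -/
structure Maj (f : ι → E → ℂ) (U : Set E) : Prop where
  isOpen : IsOpen U
  diff : ∀ i, DifferentiableOn ℂ (f i) U
  bd : ∀ K ⊆ U, IsCompact K → ∃ u : ι → ℝ, Summable u ∧
    ∀ᶠ i in cofinite, ∀ z ∈ K, ‖f i z‖ ≤ u i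

variable {f : ι → E → ℂ} {U : Set E}

theorem Maj.hasProd (h : Maj f U) :
    HasProdLocallyUniformlyOn (fun i z => 1 + f i z) (prodF f) U := by
  have : LocallyCompactSpace E := by
    have : ProperSpace E := FiniteDimensional.proper ℂ E
    infer_instance
  refine hasProdLocallyUniformlyOn_of_forall_compact h.isOpen ?_
  intro K hK hc
  obtain ⟨u, hu, hb⟩ := h.bd K hK hc
  exact Summable.hasProdUniformlyOn_one_add hc hu hb
    (fun i => ((h.diff i).continuousOn).mono hK)

theorem Maj.analytic (h : Maj f U) : AnalyticOnNhd ℂ (prodF f) U := by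
  have h1 : TendstoLocallyUniformlyOn (fun (s : Finset ι) (z : E) => ∏ i ∈ s, (1 + f i z))
      (prodF f) atTop U := h.hasProd
  refine R266.SCV.analyticOnNhd_of_tendstoLocallyUniformlyOn h.isOpen h1
    (Eventually.of_forall fun s => ?_)
  intro z hz
  have h2 : ∀ i ∈ s, DifferentiableWithinAt ℂ (fun z => 1 + f i z) U z := fun i _ =>
    (differentiableWithinAt_const _).add (h.diff i z hz)
  classical
  induction s using Finset.induction_on with
  | empty => simpa using differentiableWithinAt_const (1 : ℂ)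
  | insert i s hi ih =>
    simp only [Finset.prod_insert hi]
    exact (h2 i (Finset.mem_insert_self _ _)).mul
      (ih fun j hj => h2 j (Finset.mem_insert_of_mem hj))

theorem Maj.summable (h : Maj f U) {z : E} (hz : z ∈ U) : Summable fun i => ‖f i z‖ := by
  obtain ⟨u, hu, hb⟩ := h.bd {z} (singleton_subset_iff.2 hz) isCompact_singleton
  refine hu.of_norm_bounded_eventually ?_
  filter_upwards [hb] with i hi
  simpa using hi z rfl

theorem Maj.multipliable (h : Maj f U) {z : E} (hz : z ∈ U) :
    Multipliable fun i => 1 + f i z :=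
  multipliable_one_add_of_summable (h.summable hz)

/-- changing the family on a finite set of indices -/
theorem Maj.indicator (h : Maj f U) (T : Finset ι) [DecidableEq ι] :
    Maj (fun i z => if i ∈ T then 0 else f i z) U := by
  refine ⟨h.isOpen, fun i => ?_, fun K hK hc => ?_⟩
  · by_cases hi : i ∈ T
    · simp only [hi, if_true]; exact differentiableOn_const 0
    · simp only [hi, if_false]; exact h.diff i
  · obtain ⟨u, hu, hb⟩ := h.bd K hK hc
    refine ⟨u, hu, ?_⟩
    have hT : ∀ᶠ i in cofinite, i ∉ T := by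
      rw [Filter.eventually_cofinite]
      simp
    filter_upwards [hb, hT] with i hi hiT z hz
    simp only [hiT, if_false]
    exact hi z hz

/-- splitting off finitely many factors -/
theorem Maj.split (h : Maj f U) (T : Finset ι) [DecidableEq ι] {z : E} (hz : z ∈ U) :
    prodF f z = (∏ i ∈ T, (1 + f i z)) * prodF (fun i z => if i ∈ T then 0 else f i z) z := by
  have h1 := (h.indicator T).multipliable hz
  have h2 : Multipliable (fun i => if i ∈ T then 1 + f i z else 1) := by
    refine multipliable_of_ne_finset_one (s := T) ?_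
    intro i hi
    simp [hi]
  have h3 := h2.tprod_mul h1
  unfold prodF
  rw [tprod_eq_prod (s := T) (f := fun i => if i ∈ T then 1 + f i z else 1)
    (fun i hi => by simp [hi])] at h3
  have h4 : ∏ i ∈ T, (if i ∈ T then 1 + f i z else 1) = ∏ i ∈ T, (1 + f i z) :=
    Finset.prod_congr rfl fun i hi => by simp [hi]
  rw [h4] at h3
  rw [← h3]
  refine tprod_congr fun i => ?_
  by_cases hi : i ∈ T <;> simp [hi]

theorem Maj.ne_zero (h : Maj f U) {z : E} (hz : z ∈ U) (hf : ∀ i, 1 + f i z ≠ 0) :
    prodF f z ≠ 0 :=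
  tprod_one_add_ne_zero_of_summable hf (h.summable hz)

theorem Maj.finite_zero (h : Maj f U) {z : E} (hz : z ∈ U) : {i | 1 + f i z = 0}.Finite := by
  have h1 := (h.summable hz).tendsto_cofinite_zero
  have h2 : ∀ᶠ i in cofinite, ‖f i z‖ < 1 := h1.eventually (gt_mem_nhds one_pos)
  rw [Filter.eventually_cofinite] at h2
  refine h2.subset ?_
  intro i hi
  simp only [mem_ofPred_eq, not_lt] at hi ⊢
  have h3 : f i z = -1 := by linear_combination hi
  rw [h3]; simp

theorem Maj.eq_zero_iff (h : Maj f U) {z : E} (hz : z ∈ U) :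
    prodF f z = 0 ↔ ∃ i, 1 + f i z = 0 := by
  classical
  constructor
  · intro h0
    by_contra hc
    push Not at hc
    exact h.ne_zero hz hc h0
  · rintro ⟨i, hi⟩
    rw [h.split {i} hz]
    simp [hi]

end Crest.Agent.R272.Wei_392
end
end

-- ▼ part R272/EPr1_368
section

/-!
Row 272 (S0414, S0415), division E, leaf E-PRIM (helper368).
Part 1: the exponential integral `E1 x = ∫_x^∞ e^{-t}/t dt`.
-/

set_option autoImplicit false

open MeasureTheory Set Filter Topology
open scoped ContDiff

namespace Crest.Agent.R272.EPr_368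

noncomputable section

/-- the exponential integral -/
def E1 (x : ℝ) : ℝ := ∫ t in Ioi x, Real.exp (-t) / t






/-- `(1 - e^{-t})/t` -/
def g1 (t : ℝ) : ℝ := dslope (fun s : ℝ => -Real.exp (-s)) 0 t

theorem g1_of_ne {t : ℝ} (ht : t ≠ 0) : g1 t = (1 - Real.exp (-t)) / t := by
  unfold g1
  rw [dslope_of_ne _ ht, slope_def_field]
  simp
  ring

theorem contDiff_g1 : ContDiff ℝ ∞ g1 := by
  rw [contDiff_iff_contDiffAt]
  intro t
  by_cases ht : t = 0
  · subst ht
    have h1 : AnalyticAt ℝ (fun s : ℝ => -Real.exp (-s)) 0 := by fun_prop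
    obtain ⟨p, hp⟩ := h1
    have h2 : AnalyticAt ℝ g1 0 := ⟨_, hp.has_fpower_series_dslope_fslope⟩
    exact h2.contDiffAt
  · have h3 : ContDiffAt ℝ ∞ (fun t : ℝ => (1 - Real.exp (-t)) / t) t := by
      refine ContDiffAt.div ?_ contDiffAt_id ht
      fun_prop
    refine h3.congr_of_eventuallyEq ?_
    filter_upwards [isOpen_ne.mem_nhds ht] with s hs
    exact g1_of_ne hs

/-- the entire exponential integral -/
def Ein (x : ℝ) : ℝ := ∫ t in (0 : ℝ)..x, g1 t

theorem hasDerivAt_Ein (x : ℝ) : HasDerivAt Ein (g1 x) x :=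
  intervalIntegral.integral_hasDerivAt_right
    (contDiff_g1.continuous.intervalIntegrable _ _)
    (contDiff_g1.continuous.stronglyMeasurableAtFilter _ _) contDiff_g1.continuous.continuousAt



/-- the constant in `E1 x = Ec + Ein x - log x` (minus the Euler constant) -/
def Ec : ℝ := E1 1 - Ein 1



end

end Crest.Agent.R272.EPr_368
end

-- ▼ part R272/Wei2_392
section

/-!
# R272 (S0415), division E, leaf E-WEI, part 2 (helper392)

The entire function `EE z = z * exp (-Ec - Ein z)` (`= exp (-E1 x)` for real `x > 0`).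
-/

set_option autoImplicit false

open Set Filter Topology Metric MeasureTheory
open Crest.Agent.R272.EPr_368

noncomputable section

namespace Crest.Agent.R272.Wei_392

/-- `(1 - e^{-z})/z`, entire -/
def cphi (z : ℂ) : ℂ := dslope (fun s : ℂ => -Complex.exp (-s)) 0 z

theorem cphi_of_ne {z : ℂ} (hz : z ≠ 0) : cphi z = (1 - Complex.exp (-z)) / z := by
  unfold cphi
  rw [dslope_of_ne _ hz, slope_def_field]
  simp
  ring

theorem cphi_zero : cphi 0 = 1 := by
  unfold cphi
  rw [dslope_same]
  have h : HasDerivAt (fun s : ℂ => -Complex.exp (-s)) 1 0 := by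
    have h1 := ((hasDerivAt_neg (0 : ℂ)).cexp).neg
    simp only [neg_zero, Complex.exp_zero, mul_neg, mul_one, neg_neg] at h1
    exact h1
  exact h.deriv

theorem mul_cphi (z : ℂ) : z * cphi z = 1 - Complex.exp (-z) := by
  by_cases hz : z = 0
  · subst hz; simp
  · rw [cphi_of_ne hz]; field_simp

theorem differentiable_cphi : Differentiable ℂ cphi := by
  rw [← differentiableOn_univ]
  refine (Complex.differentiableOn_dslope (s := univ) (c := (0 : ℂ)) univ_mem).2 ?_
  fun_prop

/-- the entire exponential integral -/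
def CEin (z : ℂ) : ℂ := ∫ t in (0 : ℝ)..1, z * cphi ((t : ℂ) * z)

theorem hasDerivAt_CEin (z : ℂ) : HasDerivAt CEin (cphi z) z := by
  obtain ⟨g, hg⟩ := (differentiable_cphi.differentiableOn
    (s := ball (0 : ℂ) (‖z‖ + 1))).isExactOn_ball
  have hmem : z ∈ ball (0 : ℂ) (‖z‖ + 1) := by simp
  have key : ∀ w ∈ ball (0 : ℂ) (‖z‖ + 1), CEin w = g w - g 0 := by
    intro w hw
    rw [mem_ball_zero_iff] at hw
    have h1 : ∀ t ∈ uIcc (0 : ℝ) 1, HasDerivAt (fun t : ℝ => g ((t : ℂ) * w))
        (w * cphi ((t : ℂ) * w)) t := by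
      intro t ht
      rw [uIcc_of_le zero_le_one] at ht
      have h2 : (t : ℂ) * w ∈ ball (0 : ℂ) (‖z‖ + 1) := by
        rw [mem_ball_zero_iff, norm_mul, Complex.norm_real, Real.norm_of_nonneg ht.1]
        calc t * ‖w‖ ≤ 1 * ‖w‖ := by gcongr; exact ht.2
          _ < ‖z‖ + 1 := by simpa using hw
      have h3 : HasDerivAt (fun t : ℝ => (t : ℂ) * w) w t := by
        simpa using (Complex.ofRealCLM.hasDerivAt (x := t)).mul_const w
      have h4 := (hg _ h2).comp t h3
      simpa [Function.comp_def, mul_comm] using h4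
    have h5 := intervalIntegral.integral_eq_sub_of_hasDerivAt h1
      (((continuous_const.mul (differentiable_cphi.continuous.comp
        (Complex.continuous_ofReal.mul continuous_const)))).intervalIntegrable _ _)
    unfold CEin
    rw [h5]
    simp
  have h6 : HasDerivAt (fun w => g w - g 0) (cphi z) z := (hg z hmem).sub_const _
  refine h6.congr_of_eventuallyEq ?_
  filter_upwards [isOpen_ball.mem_nhds hmem] with w hw
  exact key w hw

theorem differentiable_CEin : Differentiable ℂ CEin := fun z =>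
  (hasDerivAt_CEin z).differentiableAt

theorem CEin_zero : CEin 0 = 0 := by simp [CEin]

theorem cphi_ofReal (x : ℝ) : cphi x = (g1 x : ℂ) := by
  by_cases hx : x = 0
  · subst hx
    rw [Complex.ofReal_zero, cphi_zero]
    unfold g1
    rw [dslope_same]
    have h : HasDerivAt (fun s : ℝ => -Real.exp (-s)) 1 0 := by
      have h1 := ((hasDerivAt_neg (0 : ℝ)).exp).neg
      simp only [neg_zero, Real.exp_zero, mul_neg, mul_one, neg_neg] at h1
      exact h1
    rw [h.deriv, Complex.ofReal_one]
  · rw [cphi_of_ne (by exact_mod_cast hx), g1_of_ne hx]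
    push_cast
    rfl

theorem CEin_ofReal (x : ℝ) : CEin x = (Ein x : ℂ) := by
  have h1 : ∀ y : ℝ, HasDerivAt (fun y : ℝ => CEin y - (Ein y : ℂ)) 0 y := by
    intro y
    have h2 : HasDerivAt (fun y : ℝ => CEin y) (cphi y) y := (hasDerivAt_CEin y).comp_ofReal
    have h3 : HasDerivAt (fun y : ℝ => (Ein y : ℂ)) (g1 y : ℂ) y := (hasDerivAt_Ein y).ofReal_comp
    have h4 := h2.sub h3
    rw [cphi_ofReal, sub_self] at h4
    exact h4
  have h5 := is_const_of_deriv_eq_zero (fun y => (h1 y).differentiableAt)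
    (fun y => (h1 y).deriv) x 0
  simp only [Complex.ofReal_zero, CEin_zero] at h5
  have h6 : Ein 0 = 0 := by simp [Ein]
  rw [h6, Complex.ofReal_zero, sub_zero] at h5
  exact sub_eq_zero.1 h5

/-- the complex exponential integral on the right half plane -/
def CE1 (z : ℂ) : ℂ := ∫ t in Ioi (1 : ℝ), Complex.exp (-z * t) / t

theorem norm_int_le {z : ℂ} {t : ℝ} (ht : t ∈ Ioi (1 : ℝ)) :
    ‖Complex.exp (-z * t) / t‖ ≤ Real.exp (-z.re * t) := by
  have ht' : (1 : ℝ) < t := ht
  have h0 : (0 : ℝ) < t := one_pos.trans ht'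
  rw [norm_div, Complex.norm_exp, Complex.norm_real, Real.norm_of_nonneg h0.le]
  have h1 : (-z * (t : ℂ)).re = -z.re * t := by simp
  rw [h1]
  exact div_le_self (Real.exp_pos _).le ht'.le

theorem aesm {z : ℂ} : AEStronglyMeasurable (fun t : ℝ => Complex.exp (-z * t) / t)
    (volume.restrict (Ioi 1)) := by
  refine ContinuousOn.aestronglyMeasurable ?_ measurableSet_Ioi
  refine ContinuousOn.div (by fun_prop) (by fun_prop) ?_
  intro t ht
  have ht' : (1 : ℝ) < t := ht
  exact_mod_cast (one_pos.trans ht').ne'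

theorem integrable_CE1 {z : ℂ} (hz : 0 < z.re) :
    IntegrableOn (fun t : ℝ => Complex.exp (-z * t) / t) (Ioi 1) := by
  refine Integrable.mono' (g := fun t => Real.exp (-z.re * t))
    (exp_neg_integrableOn_Ioi 1 hz) aesm ?_
  exact (ae_restrict_iff' measurableSet_Ioi).2 (Eventually.of_forall fun t ht => norm_int_le ht)

theorem norm_CE1_le {z : ℂ} (hz : 0 < z.re) : ‖CE1 z‖ ≤ Real.exp (-z.re) / z.re := by
  have h1 : ‖CE1 z‖ ≤ ∫ t in Ioi (1 : ℝ), Real.exp (-z.re * t) := by
    refine norm_integral_le_of_norm_le (exp_neg_integrableOn_Ioi 1 hz) ?_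
    exact (ae_restrict_iff' measurableSet_Ioi).2
      (Eventually.of_forall fun t ht => norm_int_le ht)
  have h2 := integral_exp_mul_Ioi (a := -z.re) (by linarith) 1
  rw [h2] at h1
  rw [mul_one] at h1
  calc ‖CE1 z‖ ≤ _ := h1
    _ = Real.exp (-z.re) / z.re := by rw [neg_div_neg_eq]

theorem hasDerivAt_CE1 {z : ℂ} (hz : 0 < z.re) : HasDerivAt CE1 (-(Complex.exp (-z) / z)) z := by
  have hb : ball z (z.re / 2) ∈ 𝓝 z := ball_mem_nhds _ (by positivity)
  have h := hasDerivAt_integral_of_dominated_loc_of_deriv_le (𝕜 := ℂ)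
    (μ := volume.restrict (Ioi (1 : ℝ)))
    (F := fun w (t : ℝ) => Complex.exp (-w * t) / t)
    (F' := fun w (t : ℝ) => -Complex.exp (-w * t)) (x₀ := z)
    (s := ball z (z.re / 2)) (bound := fun t => Real.exp (-(z.re / 2) * t)) hb
    (Eventually.of_forall fun w => aesm) (integrable_CE1 hz)
    (Continuous.aestronglyMeasurable (by fun_prop)) ?_
    (exp_neg_integrableOn_Ioi 1 (by positivity)) ?_
  · have h2 := h.2
    have h3 : ∫ t in Ioi (1 : ℝ), -Complex.exp (-z * t) = -(Complex.exp (-z) / z) := by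
      rw [integral_neg]
      rw [integral_exp_mul_complex_Ioi (by simpa using hz) 1]
      simp
    rw [h3] at h2
    exact h2
  · refine (ae_restrict_iff' measurableSet_Ioi).2 (Eventually.of_forall fun t ht w hw => ?_)
    have ht' : (1 : ℝ) < t := ht
    rw [norm_neg, Complex.norm_exp]
    have h1 : (-w * (t : ℂ)).re = -w.re * t := by simp
    rw [h1]
    have h2 : z.re / 2 ≤ w.re := by
      have h3 := Complex.abs_re_le_norm (w - z)
      rw [mem_ball, dist_eq_norm] at hw
      have h4 : |w.re - z.re| < z.re / 2 := by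
        rw [Complex.sub_re] at h3; exact h3.trans_lt hw
      have := (abs_lt.1 h4).1
      linarith
    exact Real.exp_le_exp.2 (by nlinarith)
  · refine (ae_restrict_iff' measurableSet_Ioi).2 (Eventually.of_forall fun t ht w _ => ?_)
    have ht' : (1 : ℝ) < t := ht
    have h0 : (t : ℂ) ≠ 0 := by exact_mod_cast (one_pos.trans ht').ne'
    have h1 : HasDerivAt (fun w : ℂ => -w * t) (-(t : ℂ)) w := by
      simpa using (hasDerivAt_id w).neg.mul_const (t : ℂ)
    have h2 := (h1.cexp).div_const (t : ℂ)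
    have h3 : Complex.exp (-w * t) * -(t : ℂ) / t = -Complex.exp (-w * t) := by
      rw [div_eq_iff h0]; ring
    rw [h3] at h2
    exact h2

theorem CE1_one : CE1 1 = (E1 1 : ℂ) := by
  unfold CE1 E1
  rw [← integral_complex_ofReal]
  refine setIntegral_congr_fun measurableSet_Ioi fun t _ => ?_
  simp

theorem CE1_eq {z : ℂ} (hz : 0 < z.re) : CE1 z = Ec + CEin z - Complex.log z := by
  have hopen : IsOpen {z : ℂ | 0 < z.re} := isOpen_lt continuous_const Complex.continuous_re
  have hpre : IsPreconnected {z : ℂ | 0 < z.re} := by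
    have : Convex ℝ {z : ℂ | 0 < z.re} := (convex_halfSpace_re_gt 0)
    exact this.isPreconnected
  have key : ∀ y ∈ {z : ℂ | 0 < z.re},
      HasDerivAt (fun y => CE1 y - CEin y + Complex.log y) 0 y := by
    intro y hy
    have hy0 : 0 < y.re := hy
    have hne : y ≠ 0 := by rintro rfl; simp at hy0
    have h := ((hasDerivAt_CE1 hy0).sub (hasDerivAt_CEin y)).add
      (Complex.hasDerivAt_log (Or.inl hy0))
    have h0 : -(Complex.exp (-y) / y) - cphi y + y⁻¹ = 0 := by
      rw [cphi_of_ne hne]
      field_simp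
      ring
    rw [h0] at h
    exact h
  have hconst := hopen.is_const_of_deriv_eq_zero hpre
    (f := fun y => CE1 y - CEin y + Complex.log y)
    (fun y hy => (key y hy).differentiableAt.differentiableWithinAt)
    (fun y hy => (key y hy).deriv) (x := z) (y := 1) hz (by simp)
  rw [Complex.log_one, CE1_one] at hconst
  have h1 : CEin 1 = (Ein 1 : ℂ) := by simpa using CEin_ofReal 1
  rw [h1] at hconst
  unfold Ec
  push_cast
  linear_combination hconst

/-- the entire function `exp (-E1 z)` -/
def EE (z : ℂ) : ℂ := z * Complex.exp (-(Ec + CEin z))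

theorem differentiable_EE : Differentiable ℂ EE := by
  unfold EE
  have := differentiable_CEin
  fun_prop

theorem EE_eq_zero_iff {z : ℂ} : EE z = 0 ↔ z = 0 := by
  unfold EE
  simp [Complex.exp_ne_zero]

theorem EE_zero : EE 0 = 0 := EE_eq_zero_iff.2 rfl

theorem EE_eq_exp {z : ℂ} (hz : 0 < z.re) : EE z = Complex.exp (-CE1 z) := by
  have hne : z ≠ 0 := by rintro rfl; simp at hz
  rw [CE1_eq hz, EE]
  rw [show -(↑Ec + CEin z - Complex.log z) = Complex.log z + -(↑Ec + CEin z) by ring,
    Complex.exp_add, Complex.exp_log hne]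



theorem norm_EE_sub_one_le {z : ℂ} (hz : 1 ≤ z.re) : ‖EE z - 1‖ ≤ 2 * Real.exp (-z.re) := by
  have h0 : 0 < z.re := by linarith
  rw [EE_eq_exp h0]
  have h1 : ‖-CE1 z‖ ≤ Real.exp (-z.re) := by
    rw [norm_neg]
    refine (norm_CE1_le h0).trans (div_le_self (Real.exp_pos _).le hz)
  have h2 : ‖-CE1 z‖ ≤ 1 := h1.trans (by
    rw [Real.exp_le_one_iff]; linarith)
  exact (Complex.norm_exp_sub_one_le h2).trans (by gcongr)



end Crest.Agent.R272.Wei_392
end
end

-- ▼ part R272/Wei3_392
section

/-!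
# R272 (S0415), division E, leaf E-WEI, part 3 (helper392)

Products `FP x z = ∏' i, EE (x i z)` of holomorphic functions with prescribed divisor.
-/

set_option autoImplicit false
set_option linter.unusedSectionVars false

open Set Filter Topology Metric
open Crest.Agent.R272.EPr_368 Crest.Agent.R272.EBase_641
open scoped ComplexConjugate

noncomputable section

namespace Crest.Agent.R272.Wei_392

variable {E' : Type*} [NormedAddCommGroup E'] [NormedSpace ℂ E'] [FiniteDimensional ℂ E']
variable {ι : Type*}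

/-- admissible families of exponents: on every compact set the real parts are, off a finite set
of indices, bounded below by a `q i` with `∑ exp (-q i) < ∞` -/
structure EMaj (x : ι → E' → ℂ) (U : Set E') : Prop where
  isOpen : IsOpen U
  diff : ∀ i, DifferentiableOn ℂ (x i) U
  bd : ∀ K ⊆ U, IsCompact K → ∃ q : ι → ℝ, Summable (fun i => Real.exp (-q i)) ∧
    ∀ᶠ i in cofinite, ∀ z ∈ K, q i ≤ (x i z).re

variable {x : ι → E' → ℂ} {U : Set E'}

theorem EMaj.maj (h : EMaj x U) : Maj (fun i z => EE (x i z) - 1) U := by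
  refine ⟨h.isOpen, fun i => ?_, fun K hK hc => ?_⟩
  · exact (differentiable_EE.comp_differentiableOn (h.diff i)).sub_const 1
  · obtain ⟨q, hq, hb⟩ := h.bd K hK hc
    refine ⟨fun i => 2 * Real.exp (-q i), hq.mul_left 2, ?_⟩
    have h1 : ∀ᶠ i in cofinite, Real.exp (-q i) < Real.exp (-1) :=
      hq.tendsto_cofinite_zero.eventually (gt_mem_nhds (Real.exp_pos _))
    filter_upwards [hb, h1] with i hi h1i z hz
    have h2 : 1 < q i := by
      have := Real.exp_lt_exp.1 h1i
      linarith
    have h3 := hi z hz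
    refine (norm_EE_sub_one_le (h2.le.trans h3)).trans ?_
    have : Real.exp (-(x i z).re) ≤ Real.exp (-q i) := Real.exp_le_exp.2 (by linarith)
    linarith

/-- the product `∏' i, EE (x i z)` -/
def FP (x : ι → E' → ℂ) (z : E') : ℂ := ∏' i, EE (x i z)

theorem FP_eq (x : ι → E' → ℂ) (z : E') : FP x z = prodF (fun i z => EE (x i z) - 1) z := by
  unfold FP prodF
  refine tprod_congr fun i => ?_
  ring

theorem EMaj.analytic (h : EMaj x U) : AnalyticOnNhd ℂ (FP x) U := by
  have h1 := h.maj.analytic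
  have h2 : FP x = prodF (fun i z => EE (x i z) - 1) := funext (FP_eq x)
  rw [h2]; exact h1


theorem EMaj.multipliable (h : EMaj x U) {z : E'} (hz : z ∈ U) :
    Multipliable fun i => EE (x i z) := by
  have h1 := h.maj.multipliable hz
  refine h1.congr fun i => ?_
  ring


theorem EMaj.eq_zero_iff (h : EMaj x U) {z : E'} (hz : z ∈ U) :
    FP x z = 0 ↔ ∃ i, x i z = 0 := by
  rw [FP_eq, h.maj.eq_zero_iff hz]
  refine exists_congr fun i => ?_
  rw [← EE_eq_zero_iff (z := x i z)]
  constructor <;> intro h1 <;> linear_combination h1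

theorem EMaj.finite_zero (h : EMaj x U) {z : E'} (hz : z ∈ U) : {i | x i z = 0}.Finite := by
  have h1 := h.maj.finite_zero hz
  refine h1.subset fun i hi => ?_
  have h2 : x i z = 0 := hi
  show 1 + (EE (x i z) - 1) = 0
  rw [h2, EE_zero]; ring

/-- the zero-free cofactor at `z₀` -/
theorem EMaj.local (h : EMaj x U) {z₀ : E'} (hz₀ : z₀ ∈ U) (T : Finset ι)
    (hT : ∀ i, x i z₀ = 0 → i ∈ T) :
    ∃ u : E' → ℂ, AnalyticOnNhd ℂ u U ∧ u z₀ ≠ 0 ∧
      ∀ z ∈ U, FP x z = (∏ i ∈ T, x i z) * u z := by
  classical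
  have hm := h.maj
  have hi := hm.indicator T
  refine ⟨fun z => (∏ i ∈ T, Complex.exp (-((Ec : ℂ) + CEin (x i z)))) *
    prodF (fun i z => if i ∈ T then 0 else EE (x i z) - 1) z, ?_, ?_, ?_⟩
  · refine AnalyticOnNhd.mul ?_ hi.analytic
    refine Finset.analyticOnNhd_fun_prod T fun i _ => ?_
    refine R266.SCV.analyticOnNhd_of_differentiableOn h.isOpen ?_
    have h1 : DifferentiableOn ℂ (fun z => -((Ec : ℂ) + CEin (x i z))) U :=
      ((differentiable_CEin.comp_differentiableOn (h.diff i)).const_add _).neg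
    exact h1.cexp
  · refine mul_ne_zero (Finset.prod_ne_zero_iff.2 fun i _ => Complex.exp_ne_zero _) ?_
    refine hi.ne_zero hz₀ fun i => ?_
    by_cases hiT : i ∈ T
    · simp [hiT]
    · simp only [hiT, if_false]
      have h2 : x i z₀ ≠ 0 := fun h0 => hiT (hT i h0)
      have h3 : EE (x i z₀) ≠ 0 := fun h0 => h2 (EE_eq_zero_iff.1 h0)
      intro h4
      exact h3 (by linear_combination h4)
  · intro z hz
    rw [FP_eq, hm.split T hz, ← mul_assoc, ← Finset.prod_mul_distrib]
    congr 1
    refine Finset.prod_congr rfl fun i _ => ?_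
    unfold EE
    ring

end Crest.Agent.R272.Wei_392
end
end

-- ▼ part R272/Wei4_392

/-!
# R272 (S0415), division E, leaf E-WEI, part 4 (helper392)

Functions on the ball with divisor the union of the hyperplanes `v^⊥`, `v ∈ S` (each with
multiplicity one): `Div n S f`; construction from products `FP`; quotients; logarithms;
transport by the unitary group; constructor of `Root`.
-/

set_option autoImplicit false
set_option linter.unusedSectionVars false

open Set Filter Topology Metric
open Crest.Agent.R272.EPr_368 Crest.Agent.R272.EBase_641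
open scoped ComplexConjugate

noncomputable section

namespace Crest.Agent.R272.Wei_392

variable {n : ℕ}

theorem isOpen_Ball : IsOpen (Ball n) := Metric.isOpen_ball

/-- `f` has divisor `∑_{v ∈ S} v^⊥` on the ball (the first fields of `Root`) -/
structure Div (n : ℕ) (S : Set (V1 n)) (f : E n → ℂ) : Prop where
  hol : DifferentiableOn ℂ f (Ball n)
  fin : ∀ z ∈ Ball n, {v | v ∈ S ∧ lin v z = 0}.Finite
  div : ∀ z ∈ Ball n, ∃ U ∈ 𝓝 z, ∃ u : E n → ℂ, DifferentiableOn ℂ u U ∧ (∀ w ∈ U, u w ≠ 0) ∧
    ∃ F : Finset (V1 n), (∀ v, v ∈ F ↔ v ∈ S ∧ lin v z = 0) ∧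
      ∀ w ∈ U, f w = (∏ v ∈ F, lin v w) * u w

/-- the divisor of a product `FP x`, `x i = lin (v i) * (zero-free)` -/
theorem div_FP {ι : Type*} (v : ι → V1 n) (hv : Function.Injective v) (x c : ι → E n → ℂ)
    (h : EMaj x (Ball n)) (hc : ∀ i, DifferentiableOn ℂ (c i) (Ball n))
    (hc0 : ∀ i, ∀ z ∈ Ball n, c i z ≠ 0)
    (hx : ∀ i, ∀ z ∈ Ball n, x i z = lin (v i) z * c i z) : Div n (range v) (FP x) := by
  classical
  have hz : ∀ i, ∀ z ∈ Ball n, (x i z = 0 ↔ lin (v i) z = 0) := by
    intro i z hz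
    rw [hx i z hz]
    simp [hc0 i z hz]
  refine ⟨h.analytic.differentiableOn, fun z hzB => ?_, fun z hzB => ?_⟩
  · refine ((h.finite_zero hzB).image v).subset ?_
    rintro w ⟨⟨i, rfl⟩, hw⟩
    exact ⟨i, (hz i z hzB).2 hw, rfl⟩
  · have hT := h.finite_zero hzB
    obtain ⟨u, hu, hu0, hfu⟩ := h.local hzB hT.toFinset (fun i hi => by simpa using hi)
    set u' : E n → ℂ := fun w => (∏ i ∈ hT.toFinset, c i w) * u w with hu'
    have hu'd : DifferentiableOn ℂ u' (Ball n) := by
      have h1 : AnalyticOnNhd ℂ (fun w => ∏ i ∈ hT.toFinset, c i w) (Ball n) :=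
        Finset.analyticOnNhd_fun_prod _ fun i _ =>
          R266.SCV.analyticOnNhd_of_differentiableOn isOpen_Ball (hc i)
      exact h1.differentiableOn.mul hu.differentiableOn
    have hu'0 : u' z ≠ 0 :=
      mul_ne_zero (Finset.prod_ne_zero_iff.2 fun i _ => hc0 i z hzB) hu0
    have hcont : ContinuousAt u' z := (hu'd.continuousOn).continuousAt (isOpen_Ball.mem_nhds hzB)
    have hne : ∀ᶠ w in 𝓝 z, u' w ≠ 0 := hcont.eventually_ne hu'0
    have hB : ∀ᶠ w in 𝓝 z, w ∈ Ball n := isOpen_Ball.mem_nhds hzB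
    refine ⟨{w | w ∈ Ball n ∧ u' w ≠ 0}, hB.and hne, u', ?_, fun w hw => hw.2,
      hT.toFinset.image v, ?_, ?_⟩
    · exact hu'd.mono fun w hw => hw.1
    · intro w
      simp only [Finset.mem_image, Set.Finite.mem_toFinset, mem_ofPred_eq, mem_range]
      constructor
      · rintro ⟨i, hi, rfl⟩
        exact ⟨⟨i, rfl⟩, (hz i z hzB).1 hi⟩
      · rintro ⟨⟨i, rfl⟩, hi⟩
        exact ⟨i, (hz i z hzB).2 hi, rfl⟩
    · intro w hw
      rw [hfu w hw.1, Finset.prod_image (fun a _ b _ hab => hv hab), hu']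
      have h1 : ∏ i ∈ hT.toFinset, x i w =
          (∏ i ∈ hT.toFinset, lin (v i) w) * ∏ i ∈ hT.toFinset, c i w := by
        rw [← Finset.prod_mul_distrib]
        exact Finset.prod_congr rfl fun i _ => hx i w hw.1
      rw [h1, mul_assoc]


theorem Root.div {G : Type} [Group G] {ρ : G →* UG n} {S : Set (V1 n)} {k : ℕ}
    (r : Root n k ρ S) : Div n S r.f := ⟨r.f_hol, r.fin, r.f_div⟩

theorem Div.eq_zero_iff {S : Set (V1 n)} {f : E n → ℂ} (h : Div n S f) {z : E n}
    (hz : z ∈ Ball n) : f z = 0 ↔ ∃ v ∈ S, lin v z = 0 := by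
  obtain ⟨U, hU, u, -, hu0, F, hF, hf⟩ := h.div z hz
  have hzU : z ∈ U := mem_of_mem_nhds hU
  rw [hf z hzU, mul_eq_zero, Finset.prod_eq_zero_iff]
  constructor
  · rintro (⟨v, hv, h0⟩ | h0)
    · exact ⟨v, ((hF v).1 hv).1, h0⟩
    · exact absurd h0 (hu0 z hzU)
  · rintro ⟨v, hv, h0⟩
    exact Or.inl ⟨v, (hF v).2 ⟨hv, h0⟩, h0⟩

theorem lin_sub (v : V1 n) (z w : E n) : lin v (z + w) = lin v z + inner ℂ v.1 w := by
  simp only [lin, inner_add_right]; ring


end Crest.Agent.R272.Wei_392
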