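import Mathlib
import Crest.Agent.R272.Wei4_392
import Crest.Agent.R272.LbCap2_382

-- ▼ part R272/LbSq1_936
section

/-!
# LB-SQRT, part 1 (row 272, lower bound for S0415; helper936; Mathlib only)

Second half of (4) of 585 #5391:
(S1) `root_of_homotopy`, (S2) `root_star`, (S4) `root_annulus`, (S6) `theta_cont`.
-/

set_option autoImplicit false

open Set Filter Topology
open scoped unitInterval

noncomputable section

namespace Crest.Agent.R272.LbSq_936



/-- the principal root of `1 - w`, continuous on the unit disc -/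
def sq1 (w : ℂ) : ℂ := (1 - w) ^ (1 / 2 : ℂ)

theorem sq1_sq (w : ℂ) : sq1 w ^ 2 = 1 - w := by
  rw [sq1, one_div]
  exact_mod_cast Complex.cpow_nat_inv_pow (1 - w) (two_ne_zero)

theorem sq1_cont : ContinuousOn sq1 (Metric.ball 0 1) := by
  intro w hw
  rw [mem_ball_zero_iff] at hw
  have h1 : 1 - w ∈ Complex.slitPlane := by
    left
    have := Complex.abs_re_le_norm w
    have h3 := abs_le.1 this
    simp only [Complex.sub_re, Complex.one_re]
    linarith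
  have h2 : ContinuousAt sq1 w := by
    have : ContinuousAt (fun w : ℂ => 1 - w) w := by fun_prop
    exact ContinuousAt.comp (f := fun w : ℂ => 1 - w) (continuousAt_cpow_const h1) this
  exact h2.continuousWithinAt

/-- an affine factor on the annulus: `a + b s` -/
def An (c : ℂ) (r1 r2 : ℝ) : Set ℂ := {s | r1 < ‖s - c‖ ∧ ‖s - c‖ < r2}

/-- a factor with zero outside (or at infinity) has a continuous root on the annulus -/
theorem root_out {c : ℂ} {r1 r2 : ℝ} (a b : ℂ)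
    (h : ∀ s, ‖s - c‖ < r2 → a + b * s ≠ 0) (hr2 : 0 < r2) :
    ∃ q : ℂ → ℂ, ContinuousOn q (An c r1 r2) ∧ ∀ s ∈ An c r1 r2, q s ^ 2 = a + b * s := by
  have hc : a + b * c ≠ 0 := h c (by simpa using hr2)
  obtain ⟨k, hk⟩ : ∃ k : ℂ, k ^ 2 = a + b * c := IsAlgClosed.exists_pow_nat_eq _ two_pos
  refine ⟨fun s => k * sq1 (-(b * (s - c)) / (a + b * c)), ?_, ?_⟩
  · refine continuousOn_const.mul (sq1_cont.comp (by fun_prop) ?_)
    intro s hs
    rw [mem_ball_zero_iff, norm_div, norm_neg, norm_mul, div_lt_one (norm_pos_iff.2 hc)]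
    by_contra hcon
    push Not at hcon
    have hb : b ≠ 0 := by
      rintro rfl
      simp at hcon hc
      exact hc hcon
    have hb' : 0 < ‖b‖ := norm_pos_iff.2 hb
    have := h (-a / b) ?_
    · apply this
      field_simp
      ring
    · have e : -a / b - c = -(a + b * c) / b := by field_simp; ring
      rw [e, norm_div, norm_neg, div_lt_iff₀ hb']
      calc ‖a + b * c‖ ≤ ‖b‖ * ‖s - c‖ := hcon
        _ < r2 * ‖b‖ := by
          rw [mul_comm]
          exact mul_lt_mul_of_pos_right hs.2 hb'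
  · intro s hs
    rw [mul_pow, sq1_sq, hk]
    field_simp
    ring

/-- a pair of factors with zeros inside has a continuous root on the annulus -/
theorem root_in {c : ℂ} {r1 r2 : ℝ} (hr1 : 0 ≤ r1) (a b a' b' : ℂ) (hb : b ≠ 0) (hb' : b' ≠ 0)
    (h : ‖-a / b - c‖ ≤ r1) (h' : ‖-a' / b' - c‖ ≤ r1) :
    ∃ q : ℂ → ℂ, ContinuousOn q (An c r1 r2) ∧
      ∀ s ∈ An c r1 r2, q s ^ 2 = (a + b * s) * (a' + b' * s) := by
  obtain ⟨k, hk⟩ : ∃ k : ℂ, k ^ 2 = b * b' := IsAlgClosed.exists_pow_nat_eq _ two_pos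
  have hne : ∀ s ∈ An c r1 r2, s - c ≠ 0 := by
    intro s hs h0
    have := hs.1
    rw [h0, norm_zero] at this
    linarith
  have key : ∀ e : ℂ, ‖e - c‖ ≤ r1 →
      ContinuousOn (fun s => sq1 ((e - c) / (s - c))) (An c r1 r2) := by
    intro e he
    refine sq1_cont.comp ?_ ?_
    · exact continuousOn_const.div (by fun_prop) hne
    · intro s hs
      rw [mem_ball_zero_iff, norm_div, div_lt_one (norm_pos_iff.2 (hne s hs))]
      exact lt_of_le_of_lt he hs.1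
  refine ⟨fun s => k * (s - c) * (sq1 ((-a / b - c) / (s - c)) * sq1 ((-a' / b' - c) / (s - c))),
    ?_, ?_⟩
  · exact (by fun_prop : ContinuousOn (fun s : ℂ => k * (s - c)) _).mul ((key _ h).mul (key _ h'))
  · intro s hs
    have hs0 := hne s hs
    rw [mul_pow, mul_pow, mul_pow, sq1_sq, sq1_sq, hk]
    field_simp
    ring

/-- (S4) product form -/
theorem root_annulus {ι : Type*} [DecidableEq ι] (S : Finset ι) (a b : ι → ℂ) {c : ℂ} {r1 r2 : ℝ}
    (hr1 : 0 ≤ r1) (hr2 : 0 < r2) (i j : ι) (hi : i ∈ S) (hj : j ∈ S) (hij : i ≠ j)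
    (hbi : b i ≠ 0) (hbj : b j ≠ 0)
    (hin : ‖-a i / b i - c‖ ≤ r1) (hjn : ‖-a j / b j - c‖ ≤ r1)
    (hout : ∀ l ∈ S, l ≠ i → l ≠ j → ∀ s, ‖s - c‖ < r2 → a l + b l * s ≠ 0) :
    ∃ q : ℂ → ℂ, ContinuousOn q (An c r1 r2) ∧
      ∀ s ∈ An c r1 r2, q s ^ 2 = ∏ l ∈ S, (a l + b l * s) := by
  obtain ⟨q0, hq0, hq0'⟩ := root_in (r2 := r2) hr1 (a i) (b i) (a j) (b j) hbi hbj hin hjn
  have : ∀ T : Finset ι, (∀ l ∈ T, l ∈ S ∧ l ≠ i ∧ l ≠ j) → ∃ q : ℂ → ℂ,
      ContinuousOn q (An c r1 r2) ∧ ∀ s ∈ An c r1 r2, q s ^ 2 = ∏ l ∈ T, (a l + b l * s) := by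
    intro T
    induction T using Finset.induction_on with
    | empty => intro _; exact ⟨fun _ => 1, continuousOn_const, fun s _ => by simp⟩
    | insert l T hl ih =>
      intro hT
      obtain ⟨q, hq, hq'⟩ := ih fun l' hl' => hT l' (Finset.mem_insert_of_mem hl')
      have hl3 := hT l (Finset.mem_insert_self _ _)
      obtain ⟨q1, hq1, hq1'⟩ := root_out (r1 := r1) (a l) (b l) (hout l hl3.1 hl3.2.1 hl3.2.2) hr2
      refine ⟨fun s => q1 s * q s, hq1.mul hq, fun s hs => ?_⟩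
      rw [Finset.prod_insert hl, mul_pow, hq1' s hs, hq' s hs]
  obtain ⟨q, hq, hq'⟩ := this ((S.erase i).erase j) (by
    intro l hl
    simp only [Finset.mem_erase] at hl
    exact ⟨hl.2.2, hl.2.1, hl.1⟩)
  refine ⟨fun s => q0 s * q s, hq0.mul hq, fun s hs => ?_⟩
  rw [mul_pow, hq0' s hs, hq' s hs]
  have hj' : j ∈ S.erase i := Finset.mem_erase.2 ⟨hij.symm, hj⟩
  rw [mul_assoc, Finset.mul_prod_erase _ (fun l => a l + b l * s) hj',
    Finset.mul_prod_erase _ (fun l => a l + b l * s) hi]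

/-- (S5) the sheet function: if `y^2 = g^2`, `g ≠ 0`, then `y/g` is continuous with values `±1`. -/
theorem sheet {Y : Type*} [TopologicalSpace Y] {O : Set Y} {y g : Y → ℂ} (hy : ContinuousOn y O)
    (hg : ContinuousOn g O) (hg0 : ∀ x ∈ O, g x ≠ 0) (h : ∀ x ∈ O, y x ^ 2 = g x ^ 2) :
    ContinuousOn (fun x => (y x / g x).re) O ∧
      ∀ x ∈ O, ((y x / g x).re = 1 ∧ y x = g x) ∨ ((y x / g x).re = -1 ∧ y x = -g x) := by
  refine ⟨Complex.continuous_re.comp_continuousOn (hy.div hg hg0), fun x hx => ?_⟩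
  have h0 := hg0 x hx
  rcases sq_eq_sq_iff_eq_or_eq_neg.1 (h x hx) with h1 | h1
  · left
    refine ⟨?_, h1⟩
    rw [h1, div_self h0]
    simp
  · right
    refine ⟨?_, h1⟩
    rw [h1, neg_div, div_self h0]
    simp

/-- (S6) `ε T mod 1` is continuous. -/
theorem theta_cont {Y : Type*} [TopologicalSpace Y] (T : Y → ℝ) (hT : Continuous T)
    (hT0 : ∀ y, 0 ≤ T y) (hT1 : ∀ y, T y ≤ 1) (ε : Y → ℝ) (hε : ∀ y, ε y = 1 ∨ ε y = -1)
    (hεc : ContinuousOn ε {y | 0 < T y ∧ T y < 1}) :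
    Continuous (fun y => ((ε y * T y : ℝ) : AddCircle (1 : ℝ))) := by
  have hopen : IsOpen {y | 0 < T y ∧ T y < 1} :=
    (isOpen_lt continuous_const hT).inter (isOpen_lt hT continuous_const)
  rw [continuous_iff_continuousAt]
  intro y
  by_cases hy : 0 < T y ∧ T y < 1
  · have h1 : ContinuousAt ε y := hεc.continuousAt (hopen.mem_nhds hy)
    exact (AddCircle.continuous_mk' (1 : ℝ)).continuousAt.comp (h1.mul hT.continuousAt)
  · -- `T y ∈ {0, 1}`
    have h2 : T y = 0 ∨ T y = 1 := by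
      rcases (hT0 y).eq_or_lt with h | h
      · exact Or.inl h.symm
      · right
        by_contra h3
        exact hy ⟨h, lt_of_le_of_ne (hT1 y) h3⟩
    -- the norm on the circle
    have key : ∀ x, ‖((ε x * T x : ℝ) : AddCircle (1 : ℝ))‖ ≤ |T x| ∧
        ‖((ε x * T x : ℝ) : AddCircle (1 : ℝ))‖ ≤ |T x - 1| := by
      intro x
      have e1 : ‖((ε x * T x : ℝ) : AddCircle (1 : ℝ))‖ = ‖((T x : ℝ) : AddCircle (1 : ℝ))‖ := by
        rcases hε x with h | h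
        · rw [h, one_mul]
        · rw [h, neg_one_mul, AddCircle.coe_neg, norm_neg]
      rw [e1]
      constructor
      · rw [← Real.norm_eq_abs]
        exact QuotientAddGroup.norm_mk_le_norm (S := AddSubgroup.zmultiples (1 : ℝ)) (m := T x)
      · have e2 : ((T x : ℝ) : AddCircle (1 : ℝ)) = ((T x - 1 : ℝ) : AddCircle (1 : ℝ)) := by
          rw [AddCircle.coe_sub, AddCircle.coe_period, sub_zero]
        rw [e2, ← Real.norm_eq_abs]
        exact QuotientAddGroup.norm_mk_le_norm (S := AddSubgroup.zmultiples (1 : ℝ)) (m := T x - 1)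
    have hzero : ((ε y * T y : ℝ) : AddCircle (1 : ℝ)) = 0 := by
      rw [← norm_le_zero_iff]
      rcases h2 with h | h
      · exact (key y).1.trans (by rw [h]; simp)
      · exact (key y).2.trans (by rw [h]; simp)
    rw [ContinuousAt, hzero, tendsto_zero_iff_norm_tendsto_zero]
    rcases h2 with h | h
    · refine squeeze_zero (fun _ => norm_nonneg _) (fun x => (key x).1) ?_
      have : Tendsto (fun x => |T x|) (𝓝 y) (𝓝 |T y|) := hT.continuousAt.abs
      simpa [h] using this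
    · refine squeeze_zero (fun _ => norm_nonneg _) (fun x => (key x).2) ?_
      have : Tendsto (fun x => |T x - 1|) (𝓝 y) (𝓝 |T y - 1|) :=
        (hT.sub continuous_const).continuousAt.abs
      simpa [h] using this

end Crest.Agent.R272.LbSq_936
end
end

-- ▼ part R272/LbSq2_936
section

/-!
# LB-SQRT, part 2 (row 272, lower bound for S0415; helper936)

(S3) `Div.split`: a function on the ball with divisor `S` is, for every finite `S₀ ⊆ S`,
`(∏_{v ∈ S₀} lin v) * h₀` with `h₀` holomorphic with divisor `S \ S₀`.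
-/

set_option autoImplicit false

open Set Filter Topology Metric
open Crest.Agent.R272.EBase_641 Crest.Agent.R272.Wei_392
open scoped ComplexConjugate

noncomputable section

namespace Crest.Agent.R272.LbSq_936

variable {n : ℕ}

/-- the complement of finitely many proper affine hyperplanes is dense and open -/
theorem dense_prod (G : Finset (V1 n)) (hG : ∀ v ∈ G, v.1 ≠ 0) :
    Dense {w : E n | ∏ v ∈ G, lin v w ≠ 0} ∧ IsOpen {w : E n | ∏ v ∈ G, lin v w ≠ 0} := by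
  classical
  induction G using Finset.induction_on with
  | empty => simp
  | insert a G ha ih =>
    obtain ⟨ih1, ih2⟩ := ih fun v hv => hG v (Finset.mem_insert_of_mem hv)
    have e1 : {w : E n | ∏ v ∈ insert a G, lin v w ≠ 0} =
        {w | lin a w ≠ 0} ∩ {w | ∏ v ∈ G, lin v w ≠ 0} := by
      ext w
      simp [Finset.prod_insert ha]
    have e2 : IsOpen {w : E n | lin a w ≠ 0} :=
      isOpen_ne_fun (differentiable_lin a).continuous continuous_const
    have e3 : Dense {w : E n | lin a w ≠ 0} := by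
      rw [Metric.dense_iff]
      intro w r hr
      by_cases hw : lin a w = 0
      · have ha1 : a.1 ≠ 0 := hG a (Finset.mem_insert_self _ _)
        have ha2 : (0 : ℝ) < ‖a.1‖ := norm_pos_iff.2 ha1
        refine ⟨w + ((r / 2 / ‖a.1‖ : ℝ) : ℂ) • a.1, ?_, ?_⟩
        · rw [mem_ball, dist_eq_norm, add_sub_cancel_left, norm_smul, Complex.norm_real,
            Real.norm_of_nonneg (by positivity)]
          rw [div_mul_cancel₀ _ ha2.ne']
          linarith
        · show lin a _ ≠ 0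
          rw [lin_sub, hw, zero_add, inner_smul_right, inner_self_eq_norm_sq_to_K]
          refine mul_ne_zero ?_ ?_
          · have : r / 2 / ‖a.1‖ ≠ 0 := by positivity
            exact_mod_cast this
          · simpa using ha1
      · exact ⟨w, mem_ball_self hr, hw⟩
    rw [e1]
    exact ⟨e3.inter_of_isOpen_left ih1 e2, e2.inter ih2⟩

theorem differentiable_prod_lin (G : Finset (V1 n)) :
    Differentiable ℂ (fun w : E n => ∏ v ∈ G, lin v w) := by
  classical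
  induction G using Finset.induction_on with
  | empty => simp
  | insert a G ha ih =>
    have : (fun w : E n => ∏ v ∈ insert a G, lin v w) =
        fun w => lin a w * ∏ v ∈ G, lin v w := by
      funext w
      rw [Finset.prod_insert ha]
    rw [this]
    exact (differentiable_lin a).mul ih

/-- (S3) division by finitely many of the linear factors -/
theorem Div.split {S : Set (V1 n)} {f : E n → ℂ} (h : Div n S f) (S0 : Finset (V1 n))
    (hS0 : ∀ v ∈ S0, v ∈ S) (hne : ∀ v ∈ S0, v.1 ≠ 0) :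
    ∃ q : E n → ℂ, Div n (S \ (S0 : Set (V1 n))) q ∧
      ∀ z ∈ Ball n, f z = (∏ v ∈ S0, lin v z) * q z := by
  classical
  -- local quotients
  have loc : ∀ z ∈ Ball n, ∃ V : Set (E n), IsOpen V ∧ z ∈ V ∧ V ⊆ Ball n ∧ ∃ q u : E n → ℂ,
      DifferentiableOn ℂ q V ∧ DifferentiableOn ℂ u V ∧ (∀ w ∈ V, u w ≠ 0) ∧
      (∀ w ∈ V, f w = (∏ v ∈ S0, lin v w) * q w) ∧
      ∃ F : Finset (V1 n), (∀ v, v ∈ F ↔ v ∈ S \ (S0 : Set (V1 n)) ∧ lin v z = 0) ∧
        ∀ w ∈ V, q w = (∏ v ∈ F, lin v w) * u w := by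
    intro z hz
    obtain ⟨U, hU, u, hu, hu0, F, hF, hf⟩ := h.div z hz
    -- `S0 = (S0 ∩ F) ∪ (S0 \ F)`, and the second part does not vanish at `z`
    set P : E n → ℂ := fun w => ∏ v ∈ S0 \ F, lin v w with hP
    have hPz : P z ≠ 0 := by
      rw [hP]
      refine Finset.prod_ne_zero_iff.2 fun v hv h0 => ?_
      rw [Finset.mem_sdiff] at hv
      exact hv.2 ((hF v).2 ⟨hS0 v hv.1, h0⟩)
    have hPd : Differentiable ℂ P := differentiable_prod_lin _
    have hne' : {w | P w ≠ 0} ∈ 𝓝 z := (hPd.continuous.continuousAt).eventually_ne hPz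
    obtain ⟨V, hV, hVo, hzV⟩ := _root_.mem_nhds_iff.1
      (inter_mem (inter_mem hU hne') (isOpen_Ball.mem_nhds hz))
    have hPV : DifferentiableOn ℂ (P)⁻¹ V := (hPd.differentiableOn).inv
      fun w hw => (hV hw).1.2
    refine ⟨V, hVo, hzV, fun w hw => (hV hw).2,
      fun w => (∏ v ∈ F \ S0, lin v w) * (u w * (P w)⁻¹), fun w => u w * (P w)⁻¹, ?_, ?_, ?_, ?_,
      F \ S0, ?_, fun w _ => rfl⟩
    · exact (differentiable_prod_lin _).differentiableOn.mul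
        ((hu.mono fun w hw => (hV hw).1.1).mul hPV)
    · exact (hu.mono fun w hw => (hV hw).1.1).mul hPV
    · intro w hw
      exact mul_ne_zero (hu0 w (hV hw).1.1) (inv_ne_zero (hV hw).1.2)
    · intro w hw
      have hPw : P w ≠ 0 := (hV hw).1.2
      rw [hf w (hV hw).1.1]
      have e1 : ∏ v ∈ F, lin v w = (∏ v ∈ F ∩ S0, lin v w) * ∏ v ∈ F \ S0, lin v w := by
        rw [← Finset.prod_union (Finset.disjoint_left.2 fun v h1 h2 =>
          (Finset.mem_sdiff.1 h2).2 (Finset.mem_inter.1 h1).2)]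
        congr 1
        ext v
        simp only [Finset.mem_union, Finset.mem_inter, Finset.mem_sdiff]
        tauto
      have e2 : ∏ v ∈ S0, lin v w = (∏ v ∈ F ∩ S0, lin v w) * P w := by
        rw [hP, ← Finset.prod_union (Finset.disjoint_left.2 fun v h1 h2 =>
          (Finset.mem_sdiff.1 h2).2 (Finset.mem_inter.1 h1).1)]
        congr 1
        ext v
        simp only [Finset.mem_union, Finset.mem_inter, Finset.mem_sdiff]
        tauto
      rw [e1, e2]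
      field_simp
    · intro v
      rw [Finset.mem_sdiff, hF v, Set.mem_sdiff, Finset.mem_coe]
      tauto
  choose! V hVo hzV hVB q u hq hu hu0 hfq F hF hqF using loc
  -- density
  have hd := (dense_prod S0 hne).1
  -- two local quotients agree
  have agree : ∀ z ∈ Ball n, ∀ z' ∈ Ball n, ∀ w ∈ V z ∩ V z', q z w = q z' w := by
    intro z hz z' hz' w hw
    have hcl : w ∈ closure {y | y ∈ V z ∩ V z' ∧ ∏ v ∈ S0, lin v y ≠ 0} := by
      have hVV : IsOpen (V z ∩ V z') := (hVo z hz).inter (hVo z' hz')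
      exact hd.open_subset_closure_inter hVV hw
    have hc : ContinuousOn (fun y => q z y - q z' y) (V z ∩ V z') :=
      ((hq z hz).continuousOn.mono inter_subset_left).sub
        ((hq z' hz').continuousOn.mono inter_subset_right)
    have hc' : ContinuousWithinAt (fun y => q z y - q z' y)
        {y | y ∈ V z ∩ V z' ∧ ∏ v ∈ S0, lin v y ≠ 0} w := (hc w hw).mono fun y hy => hy.1
    have h0 : ∀ y ∈ {y | y ∈ V z ∩ V z' ∧ ∏ v ∈ S0, lin v y ≠ 0}, q z y - q z' y = 0 := by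
      intro y hy
      have h1 := hfq z hz y hy.1.1
      have h2 := hfq z' hz' y hy.1.2
      have h3 : (∏ v ∈ S0, lin v y) * (q z y - q z' y) = 0 := by
        rw [mul_sub, ← h1, ← h2, sub_self]
      exact (mul_eq_zero.1 h3).resolve_left hy.2
    have h4 : q z w - q z' w ∈ closure ({0} : Set ℂ) :=
      hc'.mem_closure hcl (fun y hy => by simpa using h0 y hy)
    rw [closure_singleton] at h4
    exact sub_eq_zero.1 h4
  refine ⟨fun z => q z z, ⟨?_, ?_, ?_⟩, fun z hz => hfq z hz z (hzV z hz)⟩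
  · intro z hz
    have h1 : DifferentiableAt ℂ (q z) z :=
      (hq z hz).differentiableAt ((hVo z hz).mem_nhds (hzV z hz))
    refine (h1.congr_of_eventuallyEq ?_).differentiableWithinAt
    filter_upwards [(hVo z hz).mem_nhds (hzV z hz)] with w hw
    exact agree w (hVB z hz hw) z hz w ⟨hzV w (hVB z hz hw), hw⟩
  · intro z hz
    refine (h.fin z hz).subset ?_
    rintro v ⟨hv, h0⟩
    exact ⟨hv.1, h0⟩
  · intro z hz
    refine ⟨V z, (hVo z hz).mem_nhds (hzV z hz), u z, hu z hz, hu0 z hz, F z, hF z hz, ?_⟩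
    intro w hw
    rw [← hqF z hz w hw]
    exact agree w (hVB z hz hw) z hz w ⟨hzV w (hVB z hz hw), hw⟩

end Crest.Agent.R272.LbSq_936
end
end

-- ▼ part R272/LbSq3_936
section

/-!
# LB-WALL, part 3 (row 272, lower bound for S0415; helper936; Mathlib only)

(4) of 585 #5391: the wall is one Urysohn function.
-/

set_option autoImplicit false

open Set Filter Topology

noncomputable section

namespace Crest.Agent.R272.LbSq_936

/-- (W1) Urysohn wall: closed, locally finite, pairwise disjoint pieces `κ i` on which `m`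
oscillates by less than `(m2-m1)/2`. -/
theorem wall {Q ι : Type*} [TopologicalSpace Q] [NormalSpace Q] (m : Q → ℝ) (hm : Continuous m)
    {m1 m2 : ℝ} (h12 : m1 < m2) (κ : ι → Set Q) (hc : ∀ i, IsClosed (κ i))
    (hlf : LocallyFinite κ) (hdisj : ∀ i j, i ≠ j → Disjoint (κ i) (κ j))
    (hosc : ∀ i, ∀ x ∈ κ i, ∀ y ∈ κ i, m x - m y < (m2 - m1) / 2) :
    ∃ T : C(Q, ℝ), (∀ x, 0 ≤ T x) ∧ (∀ x, T x ≤ 1) ∧ (∀ x, m x ≤ m1 → T x = 0) ∧
      (∀ x, m2 ≤ m x → T x = 1) ∧ ∀ i, (∀ x ∈ κ i, T x = 0) ∨ (∀ x ∈ κ i, T x = 1) := by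
  classical
  let I0 : Set ι := {i | ∃ x ∈ κ i, m x ≤ (m1 + m2) / 2}
  let A0 : Set Q := {x | m x ≤ m1} ∪ ⋃ i : I0, κ i
  let A1 : Set Q := {x | m2 ≤ m x} ∪ ⋃ i : (I0ᶜ : Set ι), κ i
  have hlf0 : LocallyFinite fun i : I0 => κ i := hlf.comp_injective Subtype.val_injective
  have hlf1 : LocallyFinite fun i : (I0ᶜ : Set ι) => κ i :=
    hlf.comp_injective Subtype.val_injective
  have hA0 : IsClosed A0 := (isClosed_le hm continuous_const).union
    (hlf0.isClosed_iUnion fun i => hc i)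
  have hA1 : IsClosed A1 := (isClosed_le continuous_const hm).union
    (hlf1.isClosed_iUnion fun i => hc i)
  have hdis : Disjoint A0 A1 := by
    rw [Set.disjoint_left]
    rintro x (hx | hx) (hx' | hx')
    · have h1 : m x ≤ m1 := hx
      have h2 : m2 ≤ m x := hx'
      linarith
    · obtain ⟨⟨i, hi⟩, hxi⟩ := mem_iUnion.1 hx'
      exact hi ⟨x, hxi, by have h1 : m x ≤ m1 := hx; linarith⟩
    · obtain ⟨⟨i, y, hy, hym⟩, hxi⟩ := mem_iUnion.1 hx
      have h1 := hosc i x hxi y hy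
      have h2 : m2 ≤ m x := hx'
      linarith
    · obtain ⟨⟨i, hi⟩, hxi⟩ := mem_iUnion.1 hx
      obtain ⟨⟨j, hj⟩, hxj⟩ := mem_iUnion.1 hx'
      have hij : i ≠ j := by
        rintro rfl
        exact hj hi
      exact (Set.disjoint_left.1 (hdisj i j hij)) hxi hxj
  obtain ⟨T, hT0, hT1, hT⟩ := exists_continuous_zero_one_of_isClosed hA0 hA1 hdis
  refine ⟨T, fun x => (hT x).1, fun x => (hT x).2, fun x hx => hT0 (Or.inl hx),
    fun x hx => hT1 (Or.inl hx), fun i => ?_⟩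
  by_cases hi : i ∈ I0
  · left
    intro x hx
    exact hT0 (Or.inr (mem_iUnion.2 ⟨⟨i, hi⟩, hx⟩))
  · right
    intro x hx
    exact hT1 (Or.inr (mem_iUnion.2 ⟨⟨i, hi⟩, hx⟩))

/-- (W1') the same for caps `K i` grouped into the classes of an adjacency relation. -/
theorem wall_adj {Q ι : Type*} [TopologicalSpace Q] [NormalSpace Q] (m : Q → ℝ)
    (hm : Continuous m) {m1 m2 : ℝ} (h12 : m1 < m2) (K : ι → Set Q) (hc : ∀ i, IsClosed (K i))
    (hlf : LocallyFinite K) (R : ι → ι → Prop)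
    (hR : ∀ i j, (K i ∩ K j).Nonempty → R i j)
    (hosc : ∀ i j, Relation.EqvGen R i j → ∀ x ∈ K i, ∀ y ∈ K j, m x - m y < (m2 - m1) / 2) :
    ∃ T : C(Q, ℝ), (∀ x, 0 ≤ T x) ∧ (∀ x, T x ≤ 1) ∧ (∀ x, m x ≤ m1 → T x = 0) ∧
      (∀ x, m2 ≤ m x → T x = 1) ∧ ∀ i, (∀ x ∈ K i, T x = 0) ∨ (∀ x ∈ K i, T x = 1) := by
  classical
  let s : Setoid ι := Relation.EqvGen.setoid R
  let κ : Quotient s → Set Q := fun c => ⋃ i : {i : ι // (Quotient.mk s i) = c}, K i
  have hcl : ∀ c, IsClosed (κ c) := fun c =>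
    (hlf.comp_injective Subtype.val_injective).isClosed_iUnion fun i => hc i
  have hlf' : LocallyFinite κ := by
    intro x
    obtain ⟨U, hU, hfin⟩ := hlf x
    refine ⟨U, hU, (hfin.image (fun i => Quotient.mk s i)).subset ?_⟩
    rintro c ⟨y, hy, hyU⟩
    obtain ⟨⟨i, hi⟩, hyi⟩ := mem_iUnion.1 hy
    exact ⟨i, ⟨y, hyi, hyU⟩, hi⟩
  obtain ⟨T, h0, h1, h2, h3, h4⟩ := wall m hm h12 κ hcl hlf' (by
    intro c d hcd
    rw [Set.disjoint_left]
    intro x hx hx'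
    obtain ⟨⟨i, hi⟩, hxi⟩ := mem_iUnion.1 hx
    obtain ⟨⟨j, hj⟩, hxj⟩ := mem_iUnion.1 hx'
    apply hcd
    rw [← hi, ← hj]
    exact Quotient.sound (s := s) (Relation.EqvGen.rel _ _ (hR i j ⟨x, hxi, hxj⟩))) (by
    intro c x hx y hy
    obtain ⟨⟨i, hi⟩, hxi⟩ := mem_iUnion.1 hx
    obtain ⟨⟨j, hj⟩, hyj⟩ := mem_iUnion.1 hy
    exact hosc i j (Quotient.exact (s := s) (hi.trans hj.symm)) x hxi y hyj)
  refine ⟨T, h0, h1, h2, h3, fun i => ?_⟩
  rcases h4 (Quotient.mk s i) with h | h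
  · exact Or.inl fun x hx => h x (mem_iUnion.2 ⟨⟨i, rfl⟩, hx⟩)
  · exact Or.inr fun x hx => h x (mem_iUnion.2 ⟨⟨i, rfl⟩, hx⟩)

/-! ### the real slope coordinate -/

abbrev E3 := EuclideanSpace ℂ (Fin 3)

/-- numerator of the real slope coordinate -/
def nu (c : ℂ) (z : E3) : ℝ := ‖z 1 - c * z 0‖

/-- denominator -/
def de (c : ℂ) (z : E3) : ℝ := ‖z 0‖ + ‖z 1 - c * z 0‖

/-- the real slope coordinate `|s - c| / (1 + |s - c|)` -/
def mm (c : ℂ) (z : E3) : ℝ := nu c z / de c z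

/-- the real form of the blow up of the ball along `z 0 = z 1 = 0` -/
def Q0 (c : ℂ) : Set (E3 × ℝ) :=
  {p | ‖p.1‖ < 1 ∧ 0 ≤ p.2 ∧ p.2 ≤ 1 ∧ p.2 * de c p.1 = nu c p.1}

theorem de_eq_zero {c : ℂ} {z : E3} : de c z = 0 ↔ z 0 = 0 ∧ z 1 = 0 := by
  unfold de
  constructor
  · intro h
    have h0 : ‖z 0‖ = 0 := by
      have := norm_nonneg (z 0); have := norm_nonneg (z 1 - c * z 0); linarith
    have h1 : ‖z 1 - c * z 0‖ = 0 := by
      have := norm_nonneg (z 0); have := norm_nonneg (z 1 - c * z 0); linarith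
    have h0' : z 0 = 0 := norm_eq_zero.1 h0
    have h1' : z 1 - c * z 0 = 0 := norm_eq_zero.1 h1
    refine ⟨h0', ?_⟩
    rw [h0'] at h1'
    simpa using h1'
  · rintro ⟨h0, h1⟩
    simp [h0, h1]

theorem Q0_eq {c : ℂ} {p : E3 × ℝ} (hp : p ∈ Q0 c) (h : ¬ (p.1 0 = 0 ∧ p.1 1 = 0)) :
    p.2 = mm c p.1 := by
  have : de c p.1 ≠ 0 := fun h0 => h (de_eq_zero.1 h0)
  rw [mm, eq_div_iff this]
  exact hp.2.2.2

/-- (W2) **the wall** on the real blow up: `K v` are closed subsets of the space, locally finite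
in the ball, disjoint from `z 0 = z 1 = 0`. -/
theorem wallQ0 (c : ℂ) {m1 m2 : ℝ} (h12 : m1 < m2) {ι : Type*} (K : ι → Set E3)
    (hc : ∀ i, IsClosed (K i))
    (hlf : ∀ z : E3, ‖z‖ < 1 → ∃ U ∈ 𝓝 z, {i | (K i ∩ U).Nonempty}.Finite)
    (hf1 : ∀ i, ∀ z ∈ K i, ‖z‖ < 1 → ¬ (z 0 = 0 ∧ z 1 = 0)) (R : ι → ι → Prop)
    (hR : ∀ i j, (∃ z, ‖z‖ < 1 ∧ z ∈ K i ∧ z ∈ K j) → R i j)
    (hosc : ∀ i j, Relation.EqvGen R i j → ∀ x ∈ K i, ∀ y ∈ K j, ‖x‖ < 1 → ‖y‖ < 1 →
      mm c x - mm c y < (m2 - m1) / 2) :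
    ∃ T : C(Q0 c, ℝ), (∀ x, 0 ≤ T x) ∧ (∀ x, T x ≤ 1) ∧ (∀ x, x.1.2 ≤ m1 → T x = 0) ∧
      (∀ x, m2 ≤ x.1.2 → T x = 1) ∧
      ∀ i, (∀ x : Q0 c, x.1.1 ∈ K i → T x = 0) ∨ (∀ x : Q0 c, x.1.1 ∈ K i → T x = 1) := by
  have hz : Continuous fun x : Q0 c => x.1.1 := by fun_prop
  refine wall_adj (fun x : Q0 c => x.1.2) (by fun_prop) h12
    (fun i => {x : Q0 c | x.1.1 ∈ K i}) (fun i => (hc i).preimage hz) ?_ R ?_ ?_
  · intro x
    obtain ⟨U, hU, hfin⟩ := hlf x.1.1 x.2.1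
    refine ⟨(fun x : Q0 c => x.1.1) ⁻¹' U, hz.continuousAt.preimage_mem_nhds hU,
      hfin.subset ?_⟩
    rintro i ⟨y, hy, hyU⟩
    exact ⟨y.1.1, hy, hyU⟩
  · rintro i j ⟨x, hx, hx'⟩
    exact hR i j ⟨x.1.1, x.2.1, hx, hx'⟩
  · intro i j hij x hx y hy
    have e1 := Q0_eq x.2 (hf1 i _ hx x.2.1)
    have e2 := Q0_eq y.2 (hf1 j _ hy y.2.1)
    show x.1.2 - y.1.2 < _
    rw [e1, e2]
    exact hosc i j hij _ hx _ hy x.2.1 y.2.1

end Crest.Agent.R272.LbSq_936
end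
end

-- ▼ part R272/LbSq4_936
section

/-!
# LB-WALL, part 4 (row 272, lower bound for S0415; helper936)

The wall of (4) of 585 #5391 on the real blow up `Q0 c` of the ball of `ℂ³`, for the caps
`Cap k (V i)` of 382's LbCap.
-/

set_option autoImplicit false

open Set Filter Topology
open Crest.Agent.R272.EBase_641 Crest.Agent.R272.LbCap_382 Crest.Agent.R272.LbClu_382
open scoped ComplexConjugate

noncomputable section

namespace Crest.Agent.R272.LbSq_936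

/-- the projection to the first two coordinates -/
def PPl : E3 →ₗ[ℂ] E3 where
  toFun z := WithLp.toLp 2 ![z 0, z 1, 0]
  map_add' x y := by
    ext i
    fin_cases i <;> simp
  map_smul' c x := by
    ext i
    fin_cases i <;> simp

def PP : E3 →L[ℂ] E3 := LinearMap.toContinuousLinearMap PPl

@[simp] theorem PP0 (z : E3) : PP z 0 = z 0 := rfl
@[simp] theorem PP1 (z : E3) : PP z 1 = z 1 := rfl
@[simp] theorem PP2 (z : E3) : PP z 2 = 0 := rfl

theorem norm_PP_sq (z : E3) : ‖PP z‖ ^ 2 = ‖z 0‖ ^ 2 + ‖z 1‖ ^ 2 := by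
  rw [EuclideanSpace.norm_sq_eq, Fin.sum_univ_three]
  simp

theorem norm_PP_le (z : E3) : ‖PP z‖ ≤ ‖z‖ := by
  apply le_of_sq_le_sq _ (norm_nonneg _)
  rw [norm_PP_sq, EuclideanSpace.norm_sq_eq, Fin.sum_univ_three]
  have := sq_nonneg ‖z 2‖
  linarith

theorem coord_le (z : E3) (i : Fin 3) : ‖z i‖ ≤ ‖z‖ := by
  apply le_of_sq_le_sq _ (norm_nonneg _)
  rw [EuclideanSpace.norm_sq_eq z, Fin.sum_univ_three]
  have h0 := sq_nonneg ‖z 0‖
  have h1 := sq_nonneg ‖z 1‖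
  have h2 := sq_nonneg ‖z 2‖
  fin_cases i <;> simp <;> linarith

theorem norm_PP_le_de (c : ℂ) (z : E3) : ‖PP z‖ ≤ (1 + ‖c‖) * de c z := by
  have h1 : ‖PP z‖ ≤ ‖z 0‖ + ‖z 1‖ := by
    apply le_of_sq_le_sq _ (by positivity)
    rw [norm_PP_sq]
    nlinarith [norm_nonneg (z 0), norm_nonneg (z 1)]
  have h2 : ‖z 1‖ ≤ ‖z 1 - c * z 0‖ + ‖c‖ * ‖z 0‖ := by
    have := norm_add_le (z 1 - c * z 0) (c * z 0)
    rw [sub_add_cancel, norm_mul] at this
    exact this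
  have h3 : 0 ≤ ‖c‖ * ‖z 1 - c * z 0‖ := by positivity
  unfold de
  nlinarith

theorem nu_le_de (c : ℂ) (z : E3) : nu c z ≤ de c z := by
  unfold nu de
  have := norm_nonneg (z 0)
  linarith

theorem nu_nonneg (c : ℂ) (z : E3) : 0 ≤ nu c z := norm_nonneg _
theorem de_nonneg (c : ℂ) (z : E3) : 0 ≤ de c z := by unfold de; positivity

theorem mm_nonneg (c : ℂ) (z : E3) : 0 ≤ mm c z := div_nonneg (nu_nonneg c z) (de_nonneg c z)
theorem mm_le_one (c : ℂ) (z : E3) : mm c z ≤ 1 :=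
  div_le_one_of_le₀ (nu_le_de c z) (de_nonneg c z)

theorem nu_smul (c : ℂ) (t : ℂ) (z : E3) : nu c (t • z) = ‖t‖ * nu c z := by
  unfold nu
  rw [← norm_mul]
  congr 1
  simp only [PiLp.smul_apply, smul_eq_mul]
  ring

theorem de_smul (c : ℂ) (t : ℂ) (z : E3) : de c (t • z) = ‖t‖ * de c z := by
  have h := nu_smul c t z
  unfold nu at h
  unfold de
  rw [h, mul_add]
  congr 1
  rw [PiLp.smul_apply, smul_eq_mul, norm_mul]

theorem mm_smul (c : ℂ) {t : ℂ} (ht : t ≠ 0) (z : E3) : mm c (t • z) = mm c z := by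
  unfold mm
  rw [nu_smul, de_smul, mul_div_mul_left _ _ (norm_ne_zero_iff.2 ht)]

theorem mm_PP (c : ℂ) (z : E3) : mm c (PP z) = mm c z := rfl

theorem nu_sub (c : ℂ) (x y : E3) : |nu c x - nu c y| ≤ (1 + ‖c‖) * ‖x - y‖ := by
  have h1 := abs_norm_sub_norm_le (x 1 - c * x 0) (y 1 - c * y 0)
  have e : x 1 - c * x 0 - (y 1 - c * y 0) = (x - y) 1 - c * (x - y) 0 := by
    simp only [PiLp.sub_apply]
    ring
  rw [e] at h1
  refine h1.trans ((norm_sub_le _ _).trans ?_)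
  rw [norm_mul]
  have h2 := coord_le (x - y) 1
  have h3 := mul_le_mul_of_nonneg_left (coord_le (x - y) 0) (norm_nonneg c)
  linarith

theorem de_sub (c : ℂ) (x y : E3) : |de c x - de c y| ≤ (2 + ‖c‖) * ‖x - y‖ := by
  have h1 := nu_sub c x y
  have h2 : |‖x 0‖ - ‖y 0‖| ≤ ‖x - y‖ := by
    refine (abs_norm_sub_norm_le (x 0) (y 0)).trans ?_
    have := coord_le (x - y) 0
    simpa using this
  have e : de c x - de c y = (‖x 0‖ - ‖y 0‖) + (nu c x - nu c y) := by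
    unfold de nu
    ring
  rw [e]
  refine (abs_add_le _ _).trans ?_
  linarith

/-- close directions have close real slopes -/
theorem mm_close {c : ℂ} {x y a : E3} {δ : ℝ} (hδ : δ ≤ 1 / 2) (ha : 0 < ‖a‖)
    (hx : ‖PP x - a‖ ≤ δ * ‖a‖) (hy : ‖PP y - a‖ ≤ δ * ‖a‖) :
    |mm c x - mm c y| ≤ 4 * δ * (1 + ‖c‖) * (3 + 2 * ‖c‖) ∧ PP x ≠ 0 := by
  rw [← mm_PP c x, ← mm_PP c y]
  set x' := PP x with hx'
  set y' := PP y with hy'
  have hδ0 : 0 ≤ δ := by
    by_contra h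
    push Not at h
    have := norm_nonneg (x' - a)
    nlinarith
  have h1 : ‖x' - y'‖ ≤ 2 * δ * ‖a‖ := by
    have e : x' - y' = (x' - a) - (y' - a) := by abel
    rw [e]
    refine (norm_sub_le _ _).trans ?_
    linarith
  have h2 : ‖a‖ ≤ 2 * ‖x'‖ := by
    have e : a = x' - (x' - a) := by abel
    have h3 : ‖a‖ ≤ ‖x'‖ + ‖x' - a‖ := by
      conv_lhs => rw [e]
      exact norm_sub_le _ _
    have h4 : δ * ‖a‖ ≤ 1 / 2 * ‖a‖ := mul_le_mul_of_nonneg_right hδ (norm_nonneg _)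
    linarith
  have h2y : ‖a‖ ≤ 2 * ‖y'‖ := by
    have e : a = y' - (y' - a) := by abel
    have h3 : ‖a‖ ≤ ‖y'‖ + ‖y' - a‖ := by
      conv_lhs => rw [e]
      exact norm_sub_le _ _
    have h4 : δ * ‖a‖ ≤ 1 / 2 * ‖a‖ := mul_le_mul_of_nonneg_right hδ (norm_nonneg _)
    linarith
  have hx0 : x' ≠ 0 := by
    intro h0
    rw [h0, norm_zero] at h2
    linarith
  refine ⟨?_, hx0⟩
  have h3 : ‖x' - y'‖ ≤ 4 * δ * ‖x'‖ := by
    refine h1.trans ?_
    have := mul_le_mul_of_nonneg_left h2 (show 0 ≤ 2 * δ by positivity)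
    linarith
  have hxd : ‖x'‖ ≤ (1 + ‖c‖) * de c x' := norm_PP_le_de c x
  have hyd : ‖y'‖ ≤ (1 + ‖c‖) * de c y' := norm_PP_le_de c y
  have hxn : 0 < ‖x'‖ := norm_pos_iff.2 hx0
  have hc0 : 0 < 1 + ‖c‖ := by positivity
  have hdx : 0 < de c x' := by
    by_contra h
    push Not at h
    have := mul_nonpos_of_nonneg_of_nonpos hc0.le h
    linarith
  have hdy : 0 < de c y' := by
    by_contra h
    push Not at h
    have := mul_nonpos_of_nonneg_of_nonpos hc0.le h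
    linarith
  have e : mm c x' - mm c y' =
      ((nu c x' - nu c y') - mm c y' * (de c x' - de c y')) / de c x' := by
    unfold mm
    field_simp
    ring
  rw [e, abs_div, abs_of_pos hdx, div_le_iff₀ hdx]
  have h5 : |nu c x' - nu c y' - mm c y' * (de c x' - de c y')| ≤
      (1 + ‖c‖) * ‖x' - y'‖ + (2 + ‖c‖) * ‖x' - y'‖ := by
    refine (abs_sub _ _).trans ?_
    refine add_le_add (nu_sub c x' y') ?_
    rw [abs_mul]
    have h6 : |mm c y'| ≤ 1 := by
      rw [abs_of_nonneg (mm_nonneg c y')]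
      exact mm_le_one c y'
    calc |mm c y'| * |de c x' - de c y'| ≤ 1 * |de c x' - de c y'| :=
          mul_le_mul_of_nonneg_right h6 (abs_nonneg _)
      _ ≤ _ := by rw [one_mul]; exact de_sub c x' y'
  have h7 : ‖x' - y'‖ ≤ 4 * δ * ((1 + ‖c‖) * de c x') :=
    h3.trans (mul_le_mul_of_nonneg_left hxd (by positivity))
  calc _ ≤ _ := h5
    _ = (3 + 2 * ‖c‖) * ‖x' - y'‖ := by ring
    _ ≤ (3 + 2 * ‖c‖) * (4 * δ * ((1 + ‖c‖) * de c x')) :=
        mul_le_mul_of_nonneg_left h7 (by positivity)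
    _ = _ := by ring

theorem mm_dir (c : ℂ) {u : E3} (hu : u ≠ 0) : mm c (dir u) = mm c u := by
  unfold dir
  apply mm_smul
  have : ‖u‖⁻¹ ≠ 0 := inv_ne_zero (norm_ne_zero_iff.2 hu)
  exact_mod_cast this

/-- The arithmetic input of the wall: aliens and type B mirrors. -/
structure WData (ι : Type*) (V : ι → V1 3) (Nn : ι → ℝ) (Nmin Nmax c0 Lam Lam' k : ℝ) : Prop where
  pv : ∀ i, Pv (Nn i) (V i)
  min_pos : 0 < Nmin
  le_min : ∀ i, Nmin ≤ Nn i
  le_max : ∀ i, Nn i ≤ Nmax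
  hk : 1 ≤ k
  hc0 : 0 ≤ c0
  dich : ∀ i j, i ≠ j → ‖hh (V i) (V j)‖ ≤ c0 ∨ Lam ≤ ‖hh (V i) (V j)‖
  hLam : 4 * Nmax * (2 + (3 * (2 * (2 * k) + capA Nmin c0)) ^ 2) < Lam
  disc : ∀ T : ℝ, {i | ‖(V i).1‖ ≤ T}.Finite
  hLam' : 0 < Lam'
  far : ∀ i, Lam' ≤ ‖PP (V i).1‖
  hkLam : k ^ 2 * Nmax < Lam' ^ 2

variable {ι : Type*} {V : ι → V1 3} {Nn : ι → ℝ} {Nmin Nmax c0 Lam Lam' k : ℝ}

theorem WData.small (W : WData ι V Nn Nmin Nmax c0 Lam Lam' k) (i : ι) :
    k ^ 2 * ep (V i) ^ 2 < 1 := by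
  have h1 := (W.pv i).sq_le
  have h2 : Lam' ≤ ‖(V i).1‖ := (W.far i).trans (norm_PP_le _)
  have h3 : Lam' ^ 2 ≤ ‖(V i).1‖ ^ 2 := pow_le_pow_left₀ W.hLam'.le h2 2
  have h4 := W.le_max i
  have h5 : Lam' ^ 2 * ep (V i) ^ 2 ≤ Nmax :=
    (mul_le_mul_of_nonneg_right h3 (sq_nonneg _)).trans (h1.trans h4)
  have h6 : 0 < Lam' ^ 2 := by have := W.hLam'; positivity
  have h7 : Lam' ^ 2 * (k ^ 2 * ep (V i) ^ 2) < Lam' ^ 2 * 1 := by
    calc Lam' ^ 2 * (k ^ 2 * ep (V i) ^ 2) = k ^ 2 * (Lam' ^ 2 * ep (V i) ^ 2) := by ring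
      _ ≤ k ^ 2 * Nmax := mul_le_mul_of_nonneg_left h5 (sq_nonneg _)
      _ < Lam' ^ 2 * 1 := by rw [mul_one]; exact W.hkLam
  exact lt_of_mul_lt_mul_left h7 h6.le

theorem WData.caps (W : WData ι V Nn Nmin Nmax c0 Lam Lam' k) :
    Caps (fun a b : Sph 3 => rd a.1 b.1) (fun i => omS (V i) (W.pv i)) (fun i => ep (V i))
      1 (capA Nmin c0) (2 * k) :=
  capsOf W.pv W.min_pos W.le_min W.le_max (by linarith [W.hk]) W.hc0 W.dich W.hLam

/-- **THE WALL.** -/
theorem wall_main (W : WData ι V Nn Nmin Nmax c0 Lam Lam' k) (c : ℂ) {m1 m2 : ℝ} (h12 : m1 < m2)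
    (hδ : slopeδ k (capA Nmin c0) Nmax Lam' ≤ 1 / 2)
    (hδ2 : 4 * slopeδ k (capA Nmin c0) Nmax Lam' * (1 + ‖c‖) * (3 + 2 * ‖c‖) < (m2 - m1) / 2) :
    ∃ T : C(Q0 c, ℝ), (∀ x, 0 ≤ T x) ∧ (∀ x, T x ≤ 1) ∧ (∀ x, x.1.2 ≤ m1 → T x = 0) ∧
      (∀ x, m2 ≤ x.1.2 → T x = 1) ∧
      ∀ i, (∀ x : Q0 c, x.1.1 ∈ Cap k (V i) → T x = 0) ∨
        (∀ x : Q0 c, x.1.1 ∈ Cap k (V i) → T x = 1) := by
  have H := W.caps
  refine wallQ0 c h12 (fun i => Cap k (V i)) (fun i => isClosed_Cap (W.small i)) ?_ ?_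
    (fun i j => Quotient.mk (chainSetoid H) i = Quotient.mk (chainSetoid H) j) ?_ ?_
  · intro z hz
    exact Cap.locallyFinite W.pv W.le_max W.disc k hz
  · rintro i z hz - ⟨h0, h1⟩
    obtain ⟨a, ha, h2, h3⟩ := piece_slope W.pv W.le_max (by linarith [W.hk]) H PP norm_PP_le
      W.hLam' W.far (rfl : Quotient.mk (chainSetoid H) i = Quotient.mk (chainSetoid H) i) hz hz
    have h4 := (mm_close (c := c) hδ ha h2 h3).2
    apply h4
    have hz0 : z ≠ 0 := Cap.ne_zero (W.small i) hz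
    ext l
    fin_cases l
    · show PP (dir z) 0 = 0
      rw [PP0]
      show ((‖z‖⁻¹ : ℝ) : ℂ) * z 0 = 0
      rw [h0, mul_zero]
    · show PP (dir z) 1 = 0
      rw [PP1]
      show ((‖z‖⁻¹ : ℝ) : ℂ) * z 1 = 0
      rw [h1, mul_zero]
    · rfl
  · rintro i j ⟨z, -, hzi, hzj⟩
    apply chainSetoid_of_adj H
    exact Cap.rd_le (W.pv i) (W.pv j) (W.small i) hzi hzj
  · intro i j hij x hx y hy _ _
    have hij' : Quotient.mk (chainSetoid H) i = Quotient.mk (chainSetoid H) j := by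
      clear hx hy
      induction hij with
      | rel _ _ h => exact h
      | refl _ => rfl
      | symm _ _ _ ih => exact ih.symm
      | trans _ _ _ _ _ ih1 ih2 => exact ih1.trans ih2
    obtain ⟨a, ha, h2, h3⟩ := piece_slope W.pv W.le_max (by linarith [W.hk]) H PP norm_PP_le
      W.hLam' W.far hij' hx hy
    have h4 := (mm_close (c := c) hδ ha h2 h3).1
    rw [mm_dir c (Cap.ne_zero (W.small i) hx), mm_dir c (Cap.ne_zero (W.small j) hy)] at h4
    exact lt_of_le_of_lt (le_abs_self _) (lt_of_le_of_lt h4 hδ2)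

end Crest.Agent.R272.LbSq_936
end
end

-- ▼ part R272/LbSq5_936

/-!
# LB-WALL, part 5 (row 272, lower bound for S0415; helper936)

The circle valued function `θ' = ε T mod 1` on any double cover `y² = F / z₀^6`.
-/

set_option autoImplicit false

open Set Filter Topology
open Crest.Agent.R272.EBase_641 Crest.Agent.R272.LbCap_382 Crest.Agent.R272.LbClu_382
  Crest.Agent.R272.Wei_392
open scoped ComplexConjugate

noncomputable section

namespace Crest.Agent.R272.LbSq_936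

/-- a hyperplane whose real slopes stay outside `(m1, m2)` and which misses `z 0 = z 1 = 0`
(bridges) -/
def Bridge (c : ℂ) (m1 m2 : ℝ) (v : V1 3) : Prop :=
  ∀ z : E3, ‖z‖ < 1 → lin v z = 0 → ¬ (z 0 = 0 ∧ z 1 = 0) ∧ (mm c z ≤ m1 ∨ m2 ≤ mm c z)

/-- the properties of the wall function which are used -/
structure IsWall {ι : Type*} (V : ι → V1 3) (k : ℝ) (c : ℂ) (m1 m2 : ℝ) (T : C(Q0 c, ℝ)) :
    Prop where
  nonneg : ∀ x, 0 ≤ T x
  le_one : ∀ x, T x ≤ 1
  lo : ∀ x, x.1.2 ≤ m1 → T x = 0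
  hi : ∀ x, m2 ≤ x.1.2 → T x = 1
  cap : ∀ i, (∀ x : Q0 c, x.1.1 ∈ Cap k (V i) → T x = 0) ∨
        (∀ x : Q0 c, x.1.1 ∈ Cap k (V i) → T x = 1)

variable {ι : Type*} {V : ι → V1 3} {Nn : ι → ℝ} {Nmin Nmax c0 Lam Lam' k : ℝ}

theorem exists_isWall (W : WData ι V Nn Nmin Nmax c0 Lam Lam' k) (c : ℂ) {m1 m2 : ℝ}
    (h12 : m1 < m2)
    (hδ : slopeδ k (capA Nmin c0) Nmax Lam' ≤ 1 / 2)
    (hδ2 : 4 * slopeδ k (capA Nmin c0) Nmax Lam' * (1 + ‖c‖) * (3 + 2 * ‖c‖) < (m2 - m1) / 2) :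
    ∃ T : C(Q0 c, ℝ), IsWall V k c m1 m2 T := by
  obtain ⟨T, h1, h2, h3, h4, h5⟩ := wall_main W c h12 hδ hδ2
  exact ⟨T, h1, h2, h3, h4, h5⟩

/-- the support of the wall: `0 < T < 1` -/
def OO {c : ℂ} (T : C(Q0 c, ℝ)) : Set (Q0 c) := {x | 0 < T x ∧ T x < 1}

theorem IsWall.mem {c : ℂ} {m1 m2 : ℝ} {T : C(Q0 c, ℝ)} (h : IsWall V k c m1 m2 T) {x : Q0 c}
    (hx : x ∈ OO T) : m1 < x.1.2 ∧ x.1.2 < m2 ∧ ∀ i, x.1.1 ∉ Cap k (V i) := by
  refine ⟨?_, ?_, fun i hi => ?_⟩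
  · by_contra h1
    have := h.lo x (not_lt.1 h1)
    have := hx.1
    linarith
  · by_contra h1
    have := h.hi x (not_lt.1 h1)
    have := hx.2
    linarith
  · rcases h.cap i with h1 | h1
    · have := h1 x hi
      have := hx.1
      linarith
    · have := h1 x hi
      have := hx.2
      linarith

/-- the segment from the origin to a point of the support of the wall avoids all the planes which
are far (`V i`) or bridges. -/
theorem IsWall.seg (W : WData ι V Nn Nmin Nmax c0 Lam Lam' k) {c : ℂ} {m1 m2 : ℝ}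
    {T : C(Q0 c, ℝ)} (h : IsWall V k c m1 m2 T) {x : Q0 c} (hx : x ∈ OO T) {v : V1 3}
    (hv : (∃ i, V i = v) ∨ Bridge c m1 m2 v) {t : ℝ} (ht0 : 0 ≤ t) (ht1 : t ≤ 1) :
    lin v (t • x.1.1) ≠ 0 := by
  intro h0
  obtain ⟨h1, h2, h3⟩ := h.mem hx
  have hxn : ‖x.1.1‖ < 1 := x.2.1
  have htx : ‖t • x.1.1‖ < 1 := by
    rw [norm_smul, Real.norm_of_nonneg ht0]
    nlinarith [norm_nonneg x.1.1]
  have hsm : t • x.1.1 = (t : ℂ) • x.1.1 := by
    ext i
    simp
  rcases hv with ⟨i, rfl⟩ | hb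
  · have hcap : t • x.1.1 ∈ Cap k (V i) :=
      mem_Cap_of_lin_eq_zero (W.pv i) W.hk (W.small i) htx.le h0
    have hne := Cap.ne_zero (W.small i) hcap
    have ht : 0 < t := by
      rcases ht0.eq_or_lt with h4 | h4
      · exfalso
        apply hne
        rw [← h4, zero_smul]
      · exact h4
    have h5 := Cap.smul_mem (W.small i) hcap (c := t⁻¹) (by
      rw [one_le_inv₀ ht]; exact ht1)
    apply h3 i
    rw [hsm, smul_smul, ← Complex.ofReal_mul, inv_mul_cancel₀ ht.ne', Complex.ofReal_one,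
      one_smul] at h5
    exact h5
  · obtain ⟨h4, h5⟩ := hb _ htx h0
    have ht : t ≠ 0 := by
      rintro rfl
      apply h4
      simp
    have hz : ¬ (x.1.1 0 = 0 ∧ x.1.1 1 = 0) := by
      rintro ⟨h6, h7⟩
      apply h4
      constructor
      · simp [h6]
      · simp [h7]
    rw [hsm, mm_smul c (by exact_mod_cast ht), ← Q0_eq x.2 hz] at h5
    rcases h5 with h5 | h5 <;> linarith

/-- the base vectors: coefficients of `lin v z = z₀ (a + b s)` -/
def ca (v : V1 3) : ℂ := conj (v.1 0)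
def cb (v : V1 3) : ℂ := conj (v.1 1)

theorem lin_base {v : V1 3} (h2 : v.2 = 0) (h3 : v.1 2 = 0) {z : E3} {s : ℂ}
    (hs : z 1 = s * z 0) : lin v z = z 0 * (ca v + cb v * s) := by
  unfold lin ca cb
  rw [h2, PiLp.inner_apply, Fin.sum_univ_three, h3, hs]
  simp only [RCLike.inner_apply]
  simp
  ring

/-- Data of the colour 1 divisor near `p = 0`. -/
structure FData (S : Set (V1 3)) (F : E3 → ℂ) (S0 : Finset (V1 3)) (v1 v2 : V1 3)
    {ι : Type*} (V : ι → V1 3) (c : ℂ) (r1 r2 m1 m2 : ℝ) : Prop where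
  div : Div 3 S F
  sub : ∀ v ∈ S0, v ∈ S
  base : ∀ v ∈ S0, v.1 ≠ 0 ∧ v.2 = 0 ∧ v.1 2 = 0
  r1_nonneg : 0 ≤ r1
  r2_pos : 0 < r2
  mem1 : v1 ∈ S0
  mem2 : v2 ∈ S0
  ne12 : v1 ≠ v2
  b1 : cb v1 ≠ 0
  b2 : cb v2 ≠ 0
  in1 : ‖-ca v1 / cb v1 - c‖ ≤ r1
  in2 : ‖-ca v2 / cb v2 - c‖ ≤ r1
  out : ∀ v ∈ S0, v ≠ v1 → v ≠ v2 → ∀ s, ‖s - c‖ < r2 → ca v + cb v * s ≠ 0
  rest : ∀ v ∈ S, v ∉ S0 → (∃ i, V i = v) ∨ Bridge c m1 m2 v


end Crest.Agent.R272.LbSq_936
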