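import Mathlib

-- ▼ part R272/Tp1_60
section

/-!
# R272 (S0415), MODEL, type tp (helper60): tools for `P1 = OnePoint ℂ`

`nn t, dd t` : homogeneous coordinates, `rat a b = [a : b]`, `mob α β γ δ t`, `iv t = dd t / nn t`,
continuity of all of them off the bad points.
-/

set_option autoImplicit false

open Set Filter Topology OnePoint

namespace Crest.Agent.R272.Tp1_60

abbrev P1 := OnePoint ℂ

/-- numerator -/
def nn (t : P1) : ℂ := t.elim 1 id
/-- denominator -/
def dd (t : P1) : ℂ := t.elim 0 fun _ => 1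

@[simp] theorem nn_inf : nn ∞ = 1 := rfl
@[simp] theorem dd_inf : dd ∞ = 0 := rfl
@[simp] theorem nn_coe (c : ℂ) : nn (c : P1) = c := rfl
@[simp] theorem dd_coe (c : ℂ) : dd (c : P1) = 1 := rfl

theorem nn_dd (t : P1) : nn t ≠ 0 ∨ dd t ≠ 0 := by
  induction t using OnePoint.rec with
  | infty => left; simp
  | coe c => right; simp

theorem dd_eq_zero {t : P1} : dd t = 0 ↔ t = ∞ := by
  induction t using OnePoint.rec with
  | infty => simp
  | coe c => simp

theorem dd_of_ne {t : P1} (h : t ≠ ∞) : dd t = 1 := by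
  induction t using OnePoint.rec with
  | infty => exact absurd rfl h
  | coe c => simp

theorem coe_nn {t : P1} (h : t ≠ ∞) : ((nn t : ℂ) : P1) = t := by
  induction t using OnePoint.rec with
  | infty => exact absurd rfl h
  | coe c => simp

theorem nn_eq_zero {t : P1} : nn t = 0 ↔ t = ((0 : ℂ) : P1) := by
  induction t using OnePoint.rec with
  | infty => simp
  | coe c => simp

open Classical in
/-- `[a : b]` -/
noncomputable def rat (a b : ℂ) : P1 := if b = 0 then ∞ else ((a / b : ℂ) : P1)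

theorem rat_zero (a : ℂ) : rat a 0 = ∞ := by simp [rat]

theorem rat_ne {a b : ℂ} (h : b ≠ 0) : rat a b = ((a / b : ℂ) : P1) := by simp [rat, h]

theorem rat_one (a : ℂ) : rat a 1 = ((a : ℂ) : P1) := by rw [rat_ne one_ne_zero, div_one]

theorem rat_mul {a b c : ℂ} (h : c ≠ 0) : rat (c * a) (c * b) = rat a b := by
  by_cases hb : b = 0
  · simp [hb, rat_zero]
  · rw [rat_ne hb, rat_ne (mul_ne_zero h hb), mul_div_mul_left _ _ h]

@[simp] theorem rat_nn_dd (t : P1) : rat (nn t) (dd t) = t := by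
  induction t using OnePoint.rec with
  | infty => simp [rat_zero]
  | coe c => simp [rat_one]

/-- homogeneous coordinates of `[a : b]` are proportional to `(a, b)` -/
theorem exists_rat {a b : ℂ} (h : a ≠ 0 ∨ b ≠ 0) :
    ∃ c : ℂ, c ≠ 0 ∧ a = c * nn (rat a b) ∧ b = c * dd (rat a b) := by
  by_cases hb : b = 0
  · subst hb
    refine ⟨a, by simpa using h, by simp [rat_zero], by simp [rat_zero]⟩
  · refine ⟨b, hb, ?_, ?_⟩
    · rw [rat_ne hb, nn_coe]; field_simp
    · rw [rat_ne hb, dd_coe, mul_one]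

theorem eq_rat_iff {a b : ℂ} (h : a ≠ 0 ∨ b ≠ 0) {t : P1} : t = rat a b ↔ a * dd t = b * nn t := by
  constructor
  · intro ht
    obtain ⟨c, hc, h1, h2⟩ := exists_rat h
    rw [← ht] at h1 h2
    calc a * dd t = c * nn t * dd t := by rw [← h1]
      _ = c * dd t * nn t := by ring
      _ = b * nn t := by rw [← h2]
  · intro ht
    induction t using OnePoint.rec with
    | infty =>
      simp only [dd_inf, mul_zero, nn_inf, mul_one] at ht
      rw [← ht, rat_zero]
    | coe c =>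
      simp only [dd_coe, mul_one, nn_coe] at ht
      have hb : b ≠ 0 := by
        rintro rfl
        rw [zero_mul] at ht
        simp [ht] at h
      rw [rat_ne hb, ht]
      congr 1
      field_simp

theorem rat_eq_rat {a b a' b' : ℂ} (h : a ≠ 0 ∨ b ≠ 0) (h' : a' ≠ 0 ∨ b' ≠ 0)
    (he : a * b' = a' * b) : rat a b = rat a' b' := by
  rw [eq_rat_iff h']
  obtain ⟨c, hc, h1, h2⟩ := exists_rat h
  have h3 : c * (a' * dd (rat a b)) = c * (b' * nn (rat a b)) := by
    calc c * (a' * dd (rat a b)) = a' * (c * dd (rat a b)) := by ring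
      _ = a' * b := by rw [← h2]
      _ = a * b' := he.symm
      _ = (c * nn (rat a b)) * b' := by rw [← h1]
      _ = _ := by ring
  exact mul_left_cancel₀ hc h3

/-- homogeneous relations of degree 1 can be checked on any representative -/
theorem rel1 {a b X Y : ℂ} (h : a ≠ 0 ∨ b ≠ 0) :
    nn (rat a b) * X = dd (rat a b) * Y ↔ a * X = b * Y := by
  obtain ⟨c, hc, h1, h2⟩ := exists_rat h
  constructor
  · intro he
    calc a * X = c * nn (rat a b) * X := by rw [← h1]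
      _ = c * (nn (rat a b) * X) := by ring
      _ = c * (dd (rat a b) * Y) := by rw [he]
      _ = c * dd (rat a b) * Y := by ring
      _ = b * Y := by rw [← h2]
  · intro he
    refine mul_left_cancel₀ hc ?_
    calc c * (nn (rat a b) * X) = c * nn (rat a b) * X := by ring
      _ = a * X := by rw [← h1]
      _ = b * Y := he
      _ = c * dd (rat a b) * Y := by rw [← h2]
      _ = _ := by ring

/-- degree 2 -/
theorem rel2 {a b X Y : ℂ} (h : a ≠ 0 ∨ b ≠ 0) :
    nn (rat a b) ^ 2 * X = dd (rat a b) ^ 2 * Y ↔ a ^ 2 * X = b ^ 2 * Y := by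
  obtain ⟨c, hc, h1, h2⟩ := exists_rat h
  constructor
  · intro he
    calc a ^ 2 * X = (c * nn (rat a b)) ^ 2 * X := by rw [← h1]
      _ = c ^ 2 * (nn (rat a b) ^ 2 * X) := by ring
      _ = c ^ 2 * (dd (rat a b) ^ 2 * Y) := by rw [he]
      _ = (c * dd (rat a b)) ^ 2 * Y := by ring
      _ = b ^ 2 * Y := by rw [← h2]
  · intro he
    refine mul_left_cancel₀ (pow_ne_zero 2 hc) ?_
    calc c ^ 2 * (nn (rat a b) ^ 2 * X) = (c * nn (rat a b)) ^ 2 * X := by ring
      _ = a ^ 2 * X := by rw [← h1]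
      _ = b ^ 2 * Y := he
      _ = (c * dd (rat a b)) ^ 2 * Y := by rw [← h2]
      _ = _ := by ring

/-! ### topology -/

theorem continuousAt_rat {a b : ℂ} (h : a ≠ 0 ∨ b ≠ 0) :
    ContinuousAt (fun x : ℂ × ℂ => rat x.1 x.2) (a, b) := by
  by_cases hb : b = 0
  · subst hb
    have ha : a ≠ 0 := by simpa using h
    unfold ContinuousAt
    simp only [rat_zero]
    rw [OnePoint.hasBasis_nhds_infty.tendsto_right_iff]
    rintro K ⟨-, hK⟩
    obtain ⟨R, hR0, hR⟩ := hK.isBounded.exists_pos_norm_le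
    have h1 : ∀ᶠ x : ℂ × ℂ in 𝓝 (a, (0 : ℂ)), ‖a‖ / 2 < ‖x.1‖ := by
      have : ContinuousAt (fun x : ℂ × ℂ => ‖x.1‖) (a, (0 : ℂ)) := by fun_prop
      exact this.eventually_const_lt (by simpa using half_lt_self (norm_pos_iff.2 ha))
    have h2 : ∀ᶠ x : ℂ × ℂ in 𝓝 (a, (0 : ℂ)), ‖x.2‖ < ‖a‖ / 2 / (R + 1) := by
      have : ContinuousAt (fun x : ℂ × ℂ => ‖x.2‖) (a, (0 : ℂ)) := by fun_prop
      refine this.eventually_lt_const ?_
      simp only [norm_zero]
      have := norm_pos_iff.2 ha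
      positivity
    filter_upwards [h1, h2] with x hx1 hx2
    by_cases hx : x.2 = 0
    · right; simp [hx, rat_zero]
    · left
      refine ⟨x.1 / x.2, ?_, (rat_ne hx).symm⟩
      intro hmem
      have h3 := hR _ hmem
      rw [norm_div, div_le_iff₀ (norm_pos_iff.2 hx)] at h3
      rw [lt_div_iff₀ (by linarith)] at hx2
      have h4 := norm_pos_iff.2 hx
      nlinarith
  · have h1 : ∀ᶠ x : ℂ × ℂ in 𝓝 (a, b), x.2 ≠ 0 :=
      continuousAt_snd.eventually_ne hb
    have h2 : ContinuousAt (fun x : ℂ × ℂ => ((x.1 / x.2 : ℂ) : P1)) (a, b) := by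
      refine ContinuousAt.comp (f := fun x : ℂ × ℂ => x.1 / x.2) (g := ((↑) : ℂ → P1))
        OnePoint.continuous_coe.continuousAt ?_
      exact continuousAt_fst.div₀ continuousAt_snd hb
    refine h2.congr ?_
    filter_upwards [h1] with x hx
    exact (rat_ne hx).symm

theorem _root_.ContinuousAt.rat60 {X : Type*} [TopologicalSpace X] {f g : X → ℂ} {x : X}
    (hf : ContinuousAt f x) (hg : ContinuousAt g x) (h : f x ≠ 0 ∨ g x ≠ 0) :
    ContinuousAt (fun x => rat (f x) (g x)) x :=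
  ContinuousAt.comp (f := fun x => (f x, g x)) (g := fun x : ℂ × ℂ => rat x.1 x.2)
    (continuousAt_rat h) (hf.prodMk hg)

theorem continuousAt_nn {t : P1} (h : t ≠ ∞) : ContinuousAt nn t := by
  induction t using OnePoint.rec with
  | infty => exact absurd rfl h
  | coe c =>
    rw [OnePoint.continuousAt_coe]
    exact continuousAt_id

theorem isOpen_ne_inf : IsOpen {t : P1 | t ≠ ∞} := isOpen_compl_singleton

/-- `1/t` -/
noncomputable def iv (t : P1) : ℂ := dd t / nn t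

@[simp] theorem iv_inf : iv ∞ = 0 := by simp [iv]
@[simp] theorem iv_coe (c : ℂ) : iv (c : P1) = c⁻¹ := by simp [iv]

theorem continuousAt_iv {t : P1} (h : t ≠ ((0 : ℂ) : P1)) : ContinuousAt iv t := by
  induction t using OnePoint.rec with
  | infty =>
    rw [OnePoint.continuousAt_infty']
    have h1 : iv ∘ ((↑) : ℂ → P1) = Inv.inv := by
      funext c; simp
    rw [h1, iv_inf, coclosedCompact_eq_cocompact, ← Metric.cobounded_eq_cocompact]
    exact tendsto_inv₀_cobounded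
  | coe c =>
    rw [OnePoint.continuousAt_coe]
    have h1 : iv ∘ ((↑) : ℂ → P1) = Inv.inv := by
      funext c; simp
    rw [h1]
    exact continuousAt_inv₀ (by simpa using h)

theorem isOpen_ne_zero : IsOpen {t : P1 | t ≠ ((0 : ℂ) : P1)} := isOpen_compl_singleton

theorem nn_ne {t : P1} (h : t ≠ ((0 : ℂ) : P1)) : nn t ≠ 0 := fun h1 => h (nn_eq_zero.1 h1)

theorem rat_iv {t : P1} (h : t ≠ ((0 : ℂ) : P1)) : rat 1 (iv t) = t := by
  have h1 := nn_ne h
  conv_rhs => rw [← rat_nn_dd t]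
  rw [← rat_mul (a := 1) (b := iv t) h1, mul_one]
  congr 1
  unfold iv
  field_simp

theorem nn_mul_iv {t : P1} (h : t ≠ ((0 : ℂ) : P1)) : nn t * iv t = dd t := by
  have h1 := nn_ne h
  unfold iv
  field_simp

theorem inv_nn {t : P1} (h : t ≠ ∞) : iv t = (nn t)⁻¹ := by
  unfold iv
  rw [dd_of_ne h, one_div]

/-- Möbius transformation with variable coefficients -/
noncomputable def mob (α β γ δ : ℂ) (t : P1) : P1 := rat (α * nn t + β * dd t) (γ * nn t + δ * dd t)

theorem mob_ne {α β γ δ : ℂ} (h : α * δ - β * γ ≠ 0) (t : P1) :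
    α * nn t + β * dd t ≠ 0 ∨ γ * nn t + δ * dd t ≠ 0 := by
  by_contra hc
  push Not at hc
  obtain ⟨h1, h2⟩ := hc
  have h3 : (α * δ - β * γ) * nn t = 0 := by linear_combination δ * h1 - β * h2
  have h4 : (α * δ - β * γ) * dd t = 0 := by linear_combination α * h2 - γ * h1
  rcases nn_dd t with h5 | h5
  · exact h5 ((mul_eq_zero.1 h3).resolve_left h)
  · exact h5 ((mul_eq_zero.1 h4).resolve_left h)

theorem _root_.ContinuousAt.mob60 {X : Type*} [TopologicalSpace X] {α β γ δ : X → ℂ} {t : X → P1}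
    {x : X} (hα : ContinuousAt α x) (hβ : ContinuousAt β x) (hγ : ContinuousAt γ x)
    (hδ : ContinuousAt δ x) (ht : ContinuousAt t x) (h : α x * δ x - β x * γ x ≠ 0) :
    ContinuousAt (fun x => mob (α x) (β x) (γ x) (δ x) (t x)) x := by
  by_cases hx : t x = ∞
  · have h0 : t x ≠ ((0 : ℂ) : P1) := by rw [hx]; simp
    have h1 : ∀ᶠ y in 𝓝 x, t y ≠ ((0 : ℂ) : P1) := ht.eventually_ne h0
    have h2 : ContinuousAt (fun y => iv (t y)) x :=
      ContinuousAt.comp (g := iv) (continuousAt_iv h0) ht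
    have h3 : ContinuousAt (fun y => rat (α y + β y * iv (t y)) (γ y + δ y * iv (t y))) x := by
      refine ContinuousAt.rat60 (hα.add (hβ.mul h2)) (hγ.add (hδ.mul h2)) ?_
      rw [hx]
      simp only [iv_inf, mul_zero, add_zero]
      by_contra hc
      push Not at hc
      exact h (by rw [hc.1, hc.2]; ring)
    refine h3.congr ?_
    filter_upwards [h1] with y hy
    have h4 := nn_ne hy
    unfold mob
    rw [← rat_mul h4]
    congr 1
    · rw [← nn_mul_iv hy]; ring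
    · rw [← nn_mul_iv hy]; ring
  · have h1 : ∀ᶠ y in 𝓝 x, t y ≠ ∞ := ht.eventually_ne hx
    have h2 : ContinuousAt (fun y => nn (t y)) x :=
      ContinuousAt.comp (g := nn) (continuousAt_nn hx) ht
    have h3 : ContinuousAt (fun y => rat (α y * nn (t y) + β y) (γ y * nn (t y) + δ y)) x := by
      refine ContinuousAt.rat60 ((hα.mul h2).add hβ) ((hγ.mul h2).add hδ) ?_
      have := mob_ne h (t x)
      rwa [dd_of_ne hx, mul_one, mul_one] at this
    refine h3.congr ?_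
    filter_upwards [h1] with y hy
    unfold mob
    rw [dd_of_ne hy, mul_one, mul_one]

end Crest.Agent.R272.Tp1_60
end

-- ▼ part R272/Tp2_60

/-!
# R272 (S0415), MODEL, type tp (helper60): the standard model

`K` a space with `T : K → P1` (the curve and its coordinate `t`).
`Std T` : all `((S₀,S₁,S₂), c, c', v)` with `S₁ = S₀ t`, `S₂ = S₀ t'`, `v = t S₂ = t' S₁`
(homogeneous relations); `D0, O0, e0 : D0 ≃ₜ O0`, `Di, Oi, ei : Di ≃ₜ Oi`.
-/

set_option autoImplicit false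
set_option linter.unusedSectionVars false

open Set Filter Topology OnePoint

namespace Crest.Agent.R272.Tp2_60

open Crest.Agent.R272.Tp1_60

noncomputable section

theorem mob_mob {α β γ δ α' β' γ' δ' : ℂ} (h : α * δ - β * γ ≠ 0) (t : P1) :
    mob α' β' γ' δ' (mob α β γ δ t) =
      mob (α' * α + β' * γ) (α' * β + β' * δ) (γ' * α + δ' * γ) (γ' * β + δ' * δ) t := by
  obtain ⟨c, hc, h1, h2⟩ := exists_rat (mob_ne h t)
  change _ = c * nn (mob α β γ δ t) at h1
  change _ = c * dd (mob α β γ δ t) at h2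
  set y := mob α β γ δ t
  conv_lhs => unfold mob
  rw [← rat_mul hc]
  unfold mob
  congr 1
  · linear_combination -α' * h1 - β' * h2
  · linear_combination -γ' * h1 - δ' * h2

theorem mob_smul {l : ℂ} (hl : l ≠ 0) (t : P1) : mob l 0 0 l t = t := by
  unfold mob
  rw [show l * nn t + 0 * dd t = l * nn t by ring, show 0 * nn t + l * dd t = l * dd t by ring,
    rat_mul hl, rat_nn_dd]

variable {K : Type} [TopologicalSpace K] (T : K → P1)

/-- the ambient of the standard model -/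
abbrev Amb (K : Type) : Type := (ℂ × ℂ × ℂ) × K × K × P1

/-- the relations of the standard model -/
structure Rel (y : Amb K) : Prop where
  r1 : y.1.2.1 * dd (T y.2.1) = y.1.1 * nn (T y.2.1)
  r2 : y.1.2.2 * dd (T y.2.2.1) = y.1.1 * nn (T y.2.2.1)
  v1 : nn y.2.2.2 * dd (T y.2.1) = dd y.2.2.2 * (nn (T y.2.1) * y.1.2.2)
  v2 : nn y.2.2.2 * dd (T y.2.2.1) = dd y.2.2.2 * (nn (T y.2.2.1) * y.1.2.1)

/-- the standard model -/
def Std : Set (Amb K) := {y | Rel T y}

/-- domain of `E0` -/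
def D0 (r : ℝ) : Set (K × K × ℂ) :=
  {p | T p.1 ≠ ∞ ∧ T p.2.1 ≠ ∞ ∧ ‖p.2.2‖ * (1 + ‖nn (T p.1)‖) * (1 + ‖nn (T p.2.1)‖) < r}

/-- domain of `Einf` -/
def Di (r : ℝ) : Set (K × K × ℂ) :=
  {p | T p.1 ≠ ((0 : ℂ) : P1) ∧ T p.2.1 ≠ ((0 : ℂ) : P1) ∧
    ‖p.2.2‖ * (1 + ‖iv (T p.1)‖) * (1 + ‖iv (T p.2.1)‖) < r}

/-- image of `E0` -/
def O0 (r : ℝ) : Set (Std T) :=
  {y | T y.1.2.1 ≠ ∞ ∧ T y.1.2.2.1 ≠ ∞ ∧
    ‖y.1.1.1‖ * (1 + ‖nn (T y.1.2.1)‖) * (1 + ‖nn (T y.1.2.2.1)‖) < r}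

/-- image of `Einf` -/
def Oi (r : ℝ) : Set (Std T) :=
  {y | T y.1.2.1 ≠ ((0 : ℂ) : P1) ∧ T y.1.2.2.1 ≠ ((0 : ℂ) : P1) ∧ y.1.2.2.2 ≠ ∞ ∧
    ‖nn y.1.2.2.2‖ * (1 + ‖iv (T y.1.2.1)‖) * (1 + ‖iv (T y.1.2.2.1)‖) < r}

/-- `E0` -/
def f0 (p : K × K × ℂ) : Amb K :=
  ((p.2.2, p.2.2 * nn (T p.1), p.2.2 * nn (T p.2.1)), p.1, p.2.1,
    ((nn (T p.1) * nn (T p.2.1) * p.2.2 : ℂ) : P1))

/-- `Einf` -/
def fi (p : K × K × ℂ) : Amb K :=
  ((p.2.2 * iv (T p.1) * iv (T p.2.1), p.2.2 * iv (T p.2.1), p.2.2 * iv (T p.1)), p.1, p.2.1,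
    ((p.2.2 : ℂ) : P1))

variable {T}

theorem f0_mem {p : K × K × ℂ} (h : T p.1 ≠ ∞) (h' : T p.2.1 ≠ ∞) : f0 T p ∈ Std T := by
  have e1 := dd_of_ne h
  have e2 := dd_of_ne h'
  constructor <;> simp only [f0, e1, e2, nn_coe, dd_coe] <;> ring

theorem fi_mem {p : K × K × ℂ} (h : T p.1 ≠ ((0 : ℂ) : P1)) (h' : T p.2.1 ≠ ((0 : ℂ) : P1)) :
    fi T p ∈ Std T := by
  have e1 := nn_mul_iv h
  have e2 := nn_mul_iv h'
  constructor <;> simp only [fi, nn_coe, dd_coe]
  · linear_combination (-p.2.2 * iv (T p.2.1)) * e1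
  · linear_combination (-p.2.2 * iv (T p.1)) * e2
  · linear_combination (-p.2.2) * e1
  · linear_combination (-p.2.2) * e2

theorem f0_eq {y : Amb K} (hy : y ∈ Std T) (h : T y.2.1 ≠ ∞) (h' : T y.2.2.1 ≠ ∞) :
    f0 T (y.2.1, y.2.2.1, y.1.1) = y := by
  have e1 := dd_of_ne h
  have e2 := dd_of_ne h'
  have h1 : y.1.2.1 = y.1.1 * nn (T y.2.1) := by have := hy.r1; rwa [e1, mul_one] at this
  have h2 : y.1.2.2 = y.1.1 * nn (T y.2.2.1) := by have := hy.r2; rwa [e2, mul_one] at this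
  have h3 : y.2.2.2 = ((nn (T y.2.1) * nn (T y.2.2.1) * y.1.1 : ℂ) : P1) := by
    rw [← rat_one, eq_rat_iff (Or.inr one_ne_zero)]
    have := hy.v1
    rw [e1, h2] at this
    linear_combination -this
  obtain ⟨⟨a, b, c⟩, k, k', v⟩ := y
  simp only at h1 h2 h3
  simp only [f0]
  rw [← h1, ← h2, ← h3]

theorem fi_eq {y : Amb K} (hy : y ∈ Std T) (h : T y.2.1 ≠ ((0 : ℂ) : P1))
    (h' : T y.2.2.1 ≠ ((0 : ℂ) : P1)) (hv : y.2.2.2 ≠ ∞) :
    fi T (y.2.1, y.2.2.1, nn y.2.2.2) = y := by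
  have e1 := nn_mul_iv h
  have e2 := nn_mul_iv h'
  have n1 := nn_ne h
  have n2 := nn_ne h'
  have e3 := dd_of_ne hv
  have h2 : y.1.2.2 = nn y.2.2.2 * iv (T y.2.1) := by
    have := hy.v1
    rw [e3, one_mul] at this
    refine mul_left_cancel₀ n1 ?_
    linear_combination -this - nn y.2.2.2 * e1
  have h1 : y.1.2.1 = nn y.2.2.2 * iv (T y.2.2.1) := by
    have := hy.v2
    rw [e3, one_mul] at this
    refine mul_left_cancel₀ n2 ?_
    linear_combination -this - nn y.2.2.2 * e2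
  have h0 : y.1.1 = nn y.2.2.2 * iv (T y.2.1) * iv (T y.2.2.1) := by
    have := hy.r1
    rw [h1] at this
    refine mul_left_cancel₀ n1 ?_
    linear_combination -this - nn y.2.2.2 * iv (T y.2.2.1) * e1
  have h3 := coe_nn hv
  obtain ⟨⟨a, b, c⟩, k, k', v⟩ := y
  simp only at h0 h1 h2 h3
  simp only [fi]
  rw [← h0, ← h1, ← h2, h3]

theorem fi_f0 {c c' : K} {x : ℂ} (h : T c ≠ ∞) (h' : T c' ≠ ∞) (h0 : T c ≠ ((0 : ℂ) : P1))
    (h0' : T c' ≠ ((0 : ℂ) : P1)) :
    fi T (c, c', x * nn (T c) * nn (T c')) = f0 T (c, c', x) := by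
  have n1 := nn_ne h0
  have n2 := nn_ne h0'
  simp only [fi, f0, inv_nn h, inv_nn h']
  refine Prod.ext (Prod.ext ?_ (Prod.ext ?_ ?_)) (Prod.ext rfl (Prod.ext rfl ?_))
  · simp only; field_simp
  · simp only; field_simp
  · simp only; field_simp
  · simp only; congr 1; ring

variable (T)

/-- `E0` as a homeomorphism onto an open set -/
def e0 (hT : Continuous T) (r : ℝ) : D0 T r ≃ₜ O0 T r where
  toFun p := ⟨⟨f0 T p.1, f0_mem p.2.1 p.2.2.1⟩, p.2.1, p.2.2.1, p.2.2.2⟩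
  invFun y := ⟨(y.1.1.2.1, y.1.1.2.2.1, y.1.1.1.1), y.2.1, y.2.2.1, y.2.2.2⟩
  left_inv p := rfl
  right_inv y := by
    refine Subtype.ext (Subtype.ext ?_)
    exact f0_eq y.1.2 y.2.1 y.2.2.1
  continuous_toFun := by
    refine Continuous.subtype_mk (Continuous.subtype_mk ?_ _) _
    rw [continuous_iff_continuousAt]
    intro p
    have c1 : ContinuousAt (fun p : D0 T r => nn (T p.1.1)) p :=
      ContinuousAt.comp (g := nn) (continuousAt_nn p.2.1) (by fun_prop)
    have c2 : ContinuousAt (fun p : D0 T r => nn (T p.1.2.1)) p :=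
      ContinuousAt.comp (g := nn) (continuousAt_nn p.2.2.1) (by fun_prop)
    have c3 : ContinuousAt (fun p : D0 T r => ((nn (T p.1.1) * nn (T p.1.2.1) * p.1.2.2 : ℂ) : P1))
        p := ContinuousAt.comp (g := ((↑) : ℂ → P1)) OnePoint.continuous_coe.continuousAt
          (by fun_prop)
    unfold f0
    fun_prop
  continuous_invFun := by
    refine Continuous.subtype_mk ?_ _
    fun_prop

/-- `Einf` as a homeomorphism onto an open set -/
def ei (hT : Continuous T) (r : ℝ) : Di T r ≃ₜ Oi T r where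
  toFun p := ⟨⟨fi T p.1, fi_mem p.2.1 p.2.2.1⟩, p.2.1, p.2.2.1, by simp [fi], by
    simpa [fi] using p.2.2.2⟩
  invFun y := ⟨(y.1.1.2.1, y.1.1.2.2.1, nn y.1.1.2.2.2), y.2.1, y.2.2.1, y.2.2.2.2⟩
  left_inv p := by
    refine Subtype.ext ?_
    simp [fi]
  right_inv y := by
    refine Subtype.ext (Subtype.ext ?_)
    exact fi_eq y.1.2 y.2.1 y.2.2.1 y.2.2.2.1
  continuous_toFun := by
    refine Continuous.subtype_mk (Continuous.subtype_mk ?_ _) _
    rw [continuous_iff_continuousAt]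
    intro p
    have c1 : ContinuousAt (fun p : Di T r => iv (T p.1.1)) p :=
      ContinuousAt.comp (g := iv) (continuousAt_iv p.2.1) (by fun_prop)
    have c2 : ContinuousAt (fun p : Di T r => iv (T p.1.2.1)) p :=
      ContinuousAt.comp (g := iv) (continuousAt_iv p.2.2.1) (by fun_prop)
    have c3 : ContinuousAt (fun p : Di T r => ((p.1.2.2 : ℂ) : P1))
        p := ContinuousAt.comp (g := ((↑) : ℂ → P1)) OnePoint.continuous_coe.continuousAt
          (by fun_prop)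
    unfold fi
    fun_prop
  continuous_invFun := by
    refine Continuous.subtype_mk ?_ _
    rw [continuous_iff_continuousAt]
    intro y
    have c1 : ContinuousAt (fun y : Oi T r => nn y.1.1.2.2.2) y :=
      ContinuousAt.comp (g := nn) (continuousAt_nn y.2.2.2.1) (by fun_prop)
    fun_prop

variable {T}

theorem isOpen_D0 (hT : Continuous T) (r : ℝ) : IsOpen (D0 T r) := by
  rw [isOpen_iff_mem_nhds]
  intro p hp
  have h1 : ∀ᶠ q : K × K × ℂ in 𝓝 p, T q.1 ≠ ∞ :=
    (hT.comp continuous_fst).continuousAt.eventually_ne hp.1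
  have h2 : ∀ᶠ q : K × K × ℂ in 𝓝 p, T q.2.1 ≠ ∞ :=
    (hT.comp (continuous_fst.comp continuous_snd)).continuousAt.eventually_ne hp.2.1
  have c1 : ContinuousAt (fun p : K × K × ℂ => nn (T p.1)) p :=
      ContinuousAt.comp (g := nn) (continuousAt_nn hp.1) (by fun_prop)
  have c2 : ContinuousAt (fun p : K × K × ℂ => nn (T p.2.1)) p :=
      ContinuousAt.comp (g := nn) (continuousAt_nn hp.2.1) (by fun_prop)
  have h3 : ContinuousAt (fun p : K × K × ℂ =>
    ‖p.2.2‖ * (1 + ‖nn (T p.1)‖) * (1 + ‖nn (T p.2.1)‖)) p := by fun_prop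
  filter_upwards [h1, h2, h3.eventually_lt_const hp.2.2] with q a b c
  exact ⟨a, b, c⟩

theorem isOpen_Di (hT : Continuous T) (r : ℝ) : IsOpen (Di T r) := by
  rw [isOpen_iff_mem_nhds]
  intro p hp
  have h1 : ∀ᶠ q : K × K × ℂ in 𝓝 p, T q.1 ≠ ((0 : ℂ) : P1) :=
    (hT.comp continuous_fst).continuousAt.eventually_ne hp.1
  have h2 : ∀ᶠ q : K × K × ℂ in 𝓝 p, T q.2.1 ≠ ((0 : ℂ) : P1) :=
    (hT.comp (continuous_fst.comp continuous_snd)).continuousAt.eventually_ne hp.2.1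
  have c1 : ContinuousAt (fun p : K × K × ℂ => iv (T p.1)) p :=
      ContinuousAt.comp (g := iv) (continuousAt_iv hp.1) (by fun_prop)
  have c2 : ContinuousAt (fun p : K × K × ℂ => iv (T p.2.1)) p :=
      ContinuousAt.comp (g := iv) (continuousAt_iv hp.2.1) (by fun_prop)
  have h3 : ContinuousAt (fun p : K × K × ℂ =>
    ‖p.2.2‖ * (1 + ‖iv (T p.1)‖) * (1 + ‖iv (T p.2.1)‖)) p := by fun_prop
  filter_upwards [h1, h2, h3.eventually_lt_const hp.2.2] with q a b c
  exact ⟨a, b, c⟩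

theorem isOpen_O0 (hT : Continuous T) (r : ℝ) : IsOpen (O0 T r) := by
  rw [isOpen_iff_mem_nhds]
  intro p hp
  have h1 : ∀ᶠ q : Std T in 𝓝 p, T q.1.2.1 ≠ ∞ :=
    ContinuousAt.eventually_ne (by fun_prop) hp.1
  have h2 : ∀ᶠ q : Std T in 𝓝 p, T q.1.2.2.1 ≠ ∞ :=
    ContinuousAt.eventually_ne (by fun_prop) hp.2.1
  have c1 : ContinuousAt (fun p : Std T => nn (T p.1.2.1)) p :=
      ContinuousAt.comp (g := nn) (continuousAt_nn hp.1) (by fun_prop)
  have c2 : ContinuousAt (fun p : Std T => nn (T p.1.2.2.1)) p :=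
      ContinuousAt.comp (g := nn) (continuousAt_nn hp.2.1) (by fun_prop)
  have h3 : ContinuousAt (fun p : Std T =>
    ‖p.1.1.1‖ * (1 + ‖nn (T p.1.2.1)‖) * (1 + ‖nn (T p.1.2.2.1)‖)) p := by fun_prop
  filter_upwards [h1, h2, h3.eventually_lt_const hp.2.2] with q a b c
  exact ⟨a, b, c⟩

theorem isOpen_Oi (hT : Continuous T) (r : ℝ) : IsOpen (Oi T r) := by
  rw [isOpen_iff_mem_nhds]
  intro p hp
  have h1 : ∀ᶠ q : Std T in 𝓝 p, T q.1.2.1 ≠ ((0 : ℂ) : P1) :=
    ContinuousAt.eventually_ne (by fun_prop) hp.1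
  have h2 : ∀ᶠ q : Std T in 𝓝 p, T q.1.2.2.1 ≠ ((0 : ℂ) : P1) :=
    ContinuousAt.eventually_ne (by fun_prop) hp.2.1
  have h2' : ∀ᶠ q : Std T in 𝓝 p, q.1.2.2.2 ≠ ∞ :=
    ContinuousAt.eventually_ne (by fun_prop) hp.2.2.1
  have c1 : ContinuousAt (fun p : Std T => iv (T p.1.2.1)) p :=
      ContinuousAt.comp (g := iv) (continuousAt_iv hp.1) (by fun_prop)
  have c2 : ContinuousAt (fun p : Std T => iv (T p.1.2.2.1)) p :=
      ContinuousAt.comp (g := iv) (continuousAt_iv hp.2.1) (by fun_prop)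
  have c3 : ContinuousAt (fun p : Std T => nn p.1.2.2.2) p :=
      ContinuousAt.comp (g := nn) (continuousAt_nn hp.2.2.1) (by fun_prop)
  have h3 : ContinuousAt (fun p : Std T =>
    ‖nn p.1.2.2.2‖ * (1 + ‖iv (T p.1.2.1)‖) * (1 + ‖iv (T p.1.2.2.1)‖)) p := by fun_prop
  filter_upwards [h1, h2, h2', h3.eventually_lt_const hp.2.2.2] with q a b c d
  exact ⟨a, b, c, d⟩

end

end Crest.Agent.R272.Tp2_60
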