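import Crest.Agent.R272.P1A_54
import Crest.Agent.R272.HFam_342
import Crest.Agent.R272.Refl3_246
import Crest.Agent.R272.Tp2_60
import Crest.Agent.R272.Tp4_60
import Crest.Agent.R272.IdnDefs_834

-- ▼ part R272/Tp5_60
section

/-!
# R272 (S0415), MODEL, type tp (helper60): pointwise holomorphy of maps to `P1`, to products, to
submanifolds

`HP F f x` : the map `f : X → P1` is holomorphic at `x` (local homogeneous coordinates);
`HP.nn`, `HP.iv`, `HP.mob`, `HP.comp`; `hC_prod`, `hC_amb`, `hC_sl`, `cpt_of`.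
-/

set_option autoImplicit false
set_option linter.unusedSectionVars false

open Set Filter Topology OnePoint

namespace Crest.Agent.R272.Tp5_60

open Crest.Agent.R275.Geo Crest.Agent.R273.Fam_835 Crest.Agent.R272.FamP_54
open Crest.Agent.R272.HFam_342 Crest.Agent.R272.Tp1_60 Crest.Agent.R272.Refl_246
open Crest.Agent.R272.P1F_54 (p1Fam ps pc pinv ln ld hmk pinv_pc ps_cover isOpen_ps hf_pc
  hfa_pc_hmk hmk_mem_ps)

noncomputable section

variable {n N k m : ℕ} {X Y Z : Type} [TopologicalSpace X] [TopologicalSpace Y]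
  [TopologicalSpace Z] {F : Fam N X} {G : Fam m Y} {E : Fam k Z}

theorem rat_eq (a b : ℂ) : rat a b = hmk a b := by
  by_cases hb : b = 0
  · subst hb
    rw [rat_zero, P1F_54.hmk_zero]
  · rw [rat_ne hb, P1F_54.hmk_of_ne hb]

/-- `f : X → P1` is holomorphic at `x` -/
def HP (F : Fam N X) (f : X → P1) (x : X) : Prop :=
  ∃ a b : X → ℂ, HFA F a x ∧ HFA F b x ∧ (a x ≠ 0 ∨ b x ≠ 0) ∧
    ∀ᶠ y in 𝓝 x, f y = rat (a y) (b y)

variable {f : X → P1} {x : X}

theorem hP_rat {a b : X → ℂ} (ha : HFA F a x) (hb : HFA F b x) (h : a x ≠ 0 ∨ b x ≠ 0) :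
    HP F (fun y => rat (a y) (b y)) x := ⟨a, b, ha, hb, h, Eventually.of_forall fun _ => rfl⟩

theorem hP_coe {a : X → ℂ} (ha : HFA F a x) : HP F (fun y => ((a y : ℂ) : P1)) x :=
  ⟨a, fun _ => 1, ha, HFA.const 1 x, Or.inr one_ne_zero,
    Eventually.of_forall fun _ => (rat_one _).symm⟩

theorem HP.congr {g : X → P1} (h : HP F f x) (he : ∀ᶠ y in 𝓝 x, g y = f y) : HP F g x := by
  obtain ⟨a, b, ha, hb, h0, h1⟩ := h
  exact ⟨a, b, ha, hb, h0, he.mp (h1.mono fun y h2 h3 => h3.trans h2)⟩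

theorem HP.contAt (h : HP F f x) : ContinuousAt f x := by
  obtain ⟨a, b, ha, hb, h0, h1⟩ := h
  exact (ContinuousAt.rat60 ha.continuousAt hb.continuousAt h0).congr
    (h1.mono fun y hy => hy.symm)

theorem HP.nn (h : HP F f x) (hx : f x ≠ ∞) : HFA F (fun y => Tp1_60.nn (f y)) x := by
  obtain ⟨a, b, ha, hb, h0, h1⟩ := h
  have hbx : b x ≠ 0 := by
    intro h2
    apply hx
    rw [h1.self_of_nhds, h2, rat_zero]
  refine (ha.div hb hbx).congr ?_
  filter_upwards [h1, hb.continuousAt.eventually_ne hbx] with y h2 h3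
  rw [h2, rat_ne h3, nn_coe]

theorem HP.iv (h : HP F f x) (hx : f x ≠ ((0 : ℂ) : P1)) :
    HFA F (fun y => Tp1_60.iv (f y)) x := by
  obtain ⟨a, b, ha, hb, h0, h1⟩ := h
  have hax : a x ≠ 0 := by
    intro h2
    apply hx
    have hbx : b x ≠ 0 := h0.resolve_left (fun h => h h2)
    rw [h1.self_of_nhds, rat_ne hbx, h2, zero_div]
  refine (hb.div ha hax).congr ?_
  filter_upwards [h1, ha.continuousAt.eventually_ne hax] with y h2 h3
  rw [h2]
  by_cases hb0 : b y = 0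
  · rw [hb0, rat_zero, iv_inf, zero_div]
  · rw [rat_ne hb0, iv_coe, inv_div]

theorem HP.mob (h : HP F f x) {α β γ δ : X → ℂ} (hα : HFA F α x) (hβ : HFA F β x)
    (hγ : HFA F γ x) (hδ : HFA F δ x) (h0 : α x * δ x - β x * γ x ≠ 0) :
    HP F (fun y => Tp1_60.mob (α y) (β y) (γ y) (δ y) (f y)) x := by
  obtain ⟨a, b, ha, hb, hab, h1⟩ := h
  have key : ∀ y, (a y ≠ 0 ∨ b y ≠ 0) → f y = rat (a y) (b y) →
      Tp1_60.mob (α y) (β y) (γ y) (δ y) (f y) =
        rat (α y * a y + β y * b y) (γ y * a y + δ y * b y) := by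
    intro y hy hf
    obtain ⟨c, hc, h2, h3⟩ := exists_rat hy
    rw [← hf] at h2 h3
    unfold Tp1_60.mob
    rw [← rat_mul hc]
    congr 1
    · conv_rhs => rw [h2, h3]
      ring
    · conv_rhs => rw [h2, h3]
      ring
  have hne : ∀ᶠ y in 𝓝 x, a y ≠ 0 ∨ b y ≠ 0 := by
    rcases hab with h2 | h2
    · exact (ha.continuousAt.eventually_ne h2).mono fun y hy => Or.inl hy
    · exact (hb.continuousAt.eventually_ne h2).mono fun y hy => Or.inr hy
  refine ⟨_, _, (hα.mul ha).add (hβ.mul hb), (hγ.mul ha).add (hδ.mul hb), ?_, ?_⟩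
  · by_contra hc
    push Not at hc
    obtain ⟨h2, h3⟩ := hc
    have h4 : (α x * δ x - β x * γ x) * a x = 0 := by linear_combination δ x * h2 - β x * h3
    have h5 : (α x * δ x - β x * γ x) * b x = 0 := by linear_combination α x * h3 - γ x * h2
    rcases hab with h6 | h6
    · exact h6 ((mul_eq_zero.1 h4).resolve_left h0)
    · exact h6 ((mul_eq_zero.1 h5).resolve_left h0)
  · filter_upwards [hne, h1] with y h2 h3
    exact key y h2 h3

/-! ### composition with holomorphic maps -/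

theorem hfa_comp {W : Type*} [NormedAddCommGroup W] [NormedSpace ℂ W] {g : Y → W} {p : X → Y}
    (hg : HFA G g (p x)) (hp : HC F G p x) : HFA F (fun y => g (p y)) x :=
  FC.comp (f := g) hg hp

theorem HP.comp {g : Y → P1} {p : X → Y} (hg : HP G g (p x)) (hp : HC F G p x) :
    HP F (fun y => g (p y)) x := by
  obtain ⟨a, b, ha, hb, hab, h1⟩ := hg
  exact ⟨_, _, hfa_comp ha hp, hfa_comp hb hp, hab, hp.1.eventually h1⟩

theorem hC_p1_iff : HC F p1Fam f x ↔ HP F f x := by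
  constructor
  · intro h
    obtain ⟨s, hs⟩ := ps_cover (f x)
    have h1 : HFA F (fun y => pc s (f y)) x := hfa_comp (G := p1Fam) (hf_pc s (f x) hs) h
    have h2 : ∀ᶠ y in 𝓝 x, f y ∈ ps s := h.1.preimage_mem_nhds ((isOpen_ps s).mem_nhds hs)
    refine ⟨fun y => ln s (pc s (f y)), fun y => ld s (pc s (f y)),
      HFA.comp_left (g := ln s) (P1F_54.differentiable_ln s _) h1,
      HFA.comp_left (g := ld s) (P1F_54.differentiable_ld s _) h1, P1F_54.lnd_ne s _, ?_⟩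
    filter_upwards [h2] with y hy
    rw [rat_eq]
    exact (pinv_pc hy).symm
  · rintro h
    obtain ⟨a, b, ha, hb, hab, h1⟩ := h
    have hc : ContinuousAt f x := HP.contAt ⟨a, b, ha, hb, hab, h1⟩
    obtain ⟨s, hs⟩ := ps_cover (f x)
    refine hC_of_fC (j := (s : p1Fam.ι)) hc hs ?_
    have e1 : f x = hmk (a x) (b x) := by rw [← rat_eq]; exact h1.self_of_nhds
    have h2 : HFA F (fun y => pc s (hmk (a y) (b y))) x :=
      hfa_pc_hmk ha hb s ((hmk_mem_ps hab s).1 (by rw [← e1]; exact hs))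
    have h3 : HFA F (fun y => pc s (f y)) x := h2.congr (by
      filter_upwards [h1] with y hy
      rw [hy, rat_eq])
    exact HFA.comp_left (g := oneL) oneL.differentiableAt h3

/-! ### products -/

theorem hC_prodMk {f : Z → X} {g : Z → Y} {z : Z} (hf : HC E F f z) (hg : HC E G g z) :
    HC E (prodFam F G) (fun y => (f y, g y)) z := by
  obtain ⟨i, hi⟩ := E.cover z
  obtain ⟨j, hj⟩ := F.cover (f z)
  obtain ⟨l, hl⟩ := G.cover (g z)
  refine HC.of (hf.1.prodMk hg.1) i (j, l) hi ⟨hj, hl⟩ ?_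
  exact DifferentiableAt.comp (E.e i z) (g := Crest.Agent.R275.Prod363.appL N m)
    (Crest.Agent.R275.Prod363.appL N m).differentiableAt ((hf.2 i j hi hj).prodMk (hg.2 i l hi hl))

open Crest.Agent.R272.P1A_54
open Crest.Agent.R272.Gr_559.GData (Amb)

theorem hC_two {f : Z → Fin 2 → Y} {z : Z} (h : ∀ i, HC E G (fun y => f y i) z) :
    HC E (twoFam G) f z := by
  have h1 := (tranH_symm_hol (Homeomorph.finTwoArrow (X := Y)) (prodFam G G)).hC
    ((f z 0, f z 1))
  have h2 : HC E (prodFam G G) (fun y => (f y 0, f y 1)) z := hC_prodMk (h 0) (h 1)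
  have h3 := HC.comp (p := fun y => (f y 0, f y 1)) h1 h2
  refine h3.congr (Eventually.of_forall fun y => ?_)
  exact (Homeomorph.finTwoArrow (X := Y)).symm_apply_apply (f y)

theorem hC_amb {f : Z → Amb X} {z : Z} (h1 : HC E F (fun y => (f y).1) z)
    (h2 : ∀ i, HP E (fun y => (f y).2.1 i) z) (h3 : HP E (fun y => (f y).2.2.1) z)
    (h4 : ∀ i, HP E (fun y => (f y).2.2.2 i) z) : HC E (ambFam F) f z :=
  hC_prodMk h1 (hC_prodMk (hC_two fun i => hC_p1_iff.2 (h2 i))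
    (hC_prodMk (hC_p1_iff.2 h3) (hC_two fun i => hC_p1_iff.2 (h4 i))))

/-! ### submanifolds -/

open Crest.Agent.R272.SubF_54

theorem hC_sl {S : Set X} (h : IsSl F S n) {f : Z → S} {z : Z} (hc : ContinuousAt f z)
    (hf : HC E F (fun y => (f y).1) z) : HC E (slFam h) f z := by
  obtain ⟨i, hi⟩ := E.cover z
  refine HC.of hc i (f z) hi (h.mem_sl (f z)) ?_
  set c := h.sl (f z) with hcdef
  have hxd : (f z).1 ∈ c.dom := h.mem_sl (f z)
  have h1 : HFA E (fun y => F.e c.j (f y).1) z := hfa_comp (G := F) (hfa_chart hxd.1) hf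
  have h2 : DifferentiableAt ℂ c.ψ (F.e c.j (f z).1) :=
    (c.dψ).differentiableAt (c.hV.mem_nhds hxd.2)
  have h3 : HFA E (fun y => c.ψ (F.e c.j (f y).1)) z := HFA.comp_left (g := c.ψ) h2 h1
  exact h3 i hi

/-! ### compatible charts -/

/-- a chart with holomorphic inverse and holomorphic coordinates is compatible -/
theorem cpt_of {e : OpenPartialHomeomorph X (Cn N)}
    (h1 : ∀ z ∈ e.target, HC (cnFam N) F e.symm z) (h2 : ∀ y ∈ e.source, HFA F e y) : Cpt F e := by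
  constructor
  · rintro j z ⟨hz, hz2⟩
    have h3 := (h1 z hz).2 () j trivial hz2
    exact h3.differentiableWithinAt
  · rintro j z ⟨hz, hz2⟩
    have h3 := h2 _ hz2 j ((F.e j).map_target hz)
    rw [(F.e j).right_inv hz] at h3
    exact h3.differentiableWithinAt

end

end Crest.Agent.R272.Tp5_60
end

-- ▼ part R272/Tp6_60

/-!
# R272 (S0415), MODEL, type tp (helper60): `E 0`, `E 1` are biholomorphic

`toA : E6 N ≃ₜ Amb N`; `HLoc F L` : the local data are holomorphic; `CH 𝒞` : the charts of the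
curve and the coordinates `t, κ` are holomorphic functions of each other;
`exists_EA` : `E i : OpenPartialHomeomorph ((C × C) × ℂ) X1`; `cpt_E` : compatible with `slFam`.
-/

set_option autoImplicit false
set_option linter.unusedSectionVars false

open Set Filter Topology OnePoint

namespace Crest.Agent.R272.Tp6_60

open Crest.Agent.R275.Geo Crest.Agent.R273.Fam_835 Crest.Agent.R272.FamP_54
open Crest.Agent.R272.HFam_342 Crest.Agent.R272.Tp1_60 Crest.Agent.R272.Refl_246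
open Crest.Agent.R272.Tp2_60 hiding Amb
open Crest.Agent.R272.Tp3_60 Crest.Agent.R272.Tp4_60
open Crest.Agent.R272.Tp5_60 Crest.Agent.R272.SubF_54
open Crest.Agent.R272.Cur_297 (Par Cv Cset Eqn hA hB tt kk continuous_tt continuous_kk)
open Crest.Agent.R272.P1A_54 (ambFam amb_z amb_t amb_v amb_k)
open Crest.Agent.R272.Gr_559.GData (Amb)
open Crest.Agent.R272.AJ_956 (Cur)
open Crest.Agent.R272.Idn_834 (h3 pc)

noncomputable section

variable {N : Type} [TopologicalSpace N] {F : Fam 3 N} {P : Par}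

/-- reordering of the ambient space of `X1` -/
def toA (N : Type) [TopologicalSpace N] : E6 N ≃ₜ Amb N where
  toFun y := (y.1, ![y.2.1, y.2.2.1], y.2.2.2.1, ![y.2.2.2.2.1, y.2.2.2.2.2])
  invFun p := (p.1, p.2.1 0, p.2.1 1, p.2.2.1, p.2.2.2 0, p.2.2.2 1)
  left_inv y := rfl
  right_inv p := by
    refine Prod.ext rfl (Prod.ext ?_ (Prod.ext rfl ?_))
    · funext i; fin_cases i <;> rfl
    · funext i; fin_cases i <;> rfl
  continuous_toFun := by
    refine continuous_fst.prodMk (Continuous.prodMk ?_ (Continuous.prodMk (by fun_prop) ?_))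
    · refine continuous_pi fun i => ?_
      fin_cases i
      · show Continuous fun y : E6 N => y.2.1
        fun_prop
      · show Continuous fun y : E6 N => y.2.2.1
        fun_prop
    · refine continuous_pi fun i => ?_
      fin_cases i
      · show Continuous fun y : E6 N => y.2.2.2.2.1
        fun_prop
      · show Continuous fun y : E6 N => y.2.2.2.2.2
        fun_prop
  continuous_invFun := by fun_prop

@[simp] theorem toA_1 (y : E6 N) : (toA N y).1 = y.1 := rfl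
@[simp] theorem toA_t0 (y : E6 N) : (toA N y).2.1 0 = y.2.1 := rfl
@[simp] theorem toA_t1 (y : E6 N) : (toA N y).2.1 1 = y.2.2.1 := rfl
@[simp] theorem toA_v (y : E6 N) : (toA N y).2.2.1 = y.2.2.2.1 := rfl
@[simp] theorem toA_k0 (y : E6 N) : (toA N y).2.2.2 0 = y.2.2.2.2.1 := rfl
@[simp] theorem toA_k1 (y : E6 N) : (toA N y).2.2.2 1 = y.2.2.2.2.2 := rfl

/-- the local data are holomorphic -/
structure HLoc (F : Fam 3 N) (L : Loc P N) : Prop where
  ha : ∀ z ∈ L.sh.source, HFA F L.a z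
  hb : ∀ i, ∀ z ∈ L.sh.source, HFA F (L.b i) z
  hm : ∀ i, ∀ z ∈ L.sh.source, HFA F (L.m i) z
  hS : ∀ z ∈ L.sh.source, HFA F L.sh z
  hs : ∀ S ∈ L.sh.target, ∀ j, L.sh.symm S ∈ (F.e j).source →
    DifferentiableAt ℂ (fun S => F.e j (L.sh.symm S)) S

/-- the charts of the curve and the coordinates `t`, `κ` are holomorphic functions of each other -/
structure CH (𝒞 : Cur (Cv P)) : Prop where
  hT : ∀ c, ∀ s ∈ (𝒞.k c).target, HP cFam (fun s => tt ((𝒞.k c).symm s)) s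
  hK : ∀ c, ∀ s ∈ (𝒞.k c).target, HP cFam (fun s => kk ((𝒞.k c).symm s)) s
  back : ∀ {n : ℕ} {X : Type} [TopologicalSpace X] (F : Fam n X) (γ : X → Cv P) (x : X),
    ContinuousAt γ x → HP F (fun y => tt (γ y)) x → HP F (fun y => kk (γ y)) x →
      ∀ c, γ x ∈ (𝒞.k c).source → HFA F (fun y => 𝒞.k c (γ y)) x
  w0 : ∀ c, 𝒞.w c 0 ≠ 0 ↔ tt c ≠ ∞
  w1 : ∀ c, 𝒞.w c 1 ≠ 0 ↔ tt c ≠ ((0 : ℂ) : P1)
  tv0 : ∀ c, tt c ≠ ∞ → Idn_834.tv 𝒞 0 c = nn (tt c)
  iv : ∀ c, tt (𝒞.iv c) = tt c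

section exist

variable (L : Loc P N) {X0 : Set (Amb N)}
  (hX : ∀ y : E6 N, y.1 ∈ L.sh.source → (toA N y ∈ X0 ↔ RelX L y))
  {r : ℝ} (hr : 0 < r) (hb : Metric.ball (0 : ℂ × ℂ × ℂ) r ⊆ L.sh.target)

include hX hr hb in
theorem exists_EA (hc : ∃ c : Cv P, tt c ≠ ∞ ∧ tt c ≠ ((0 : ℂ) : P1)) :
    ∃ E : Fin 2 → OpenPartialHomeomorph ((Cv P × Cv P) × ℂ) X0, (∀ i, (E i).source = DE P r i) ∧
      ∀ i, ∀ p ∈ DE P r i, ((E i p).1 = toA N (L.fro (FE P i p)) ∧
        FE P i p ∈ Std (tt : Cv P → P1)) ∧ (FE P i p).1 ∈ Metric.ball (0 : ℂ × ℂ × ℂ) r := by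
  set X : Set (E6 N) := toA N ⁻¹' X0 with hXdef
  have e : X ≃ₜ X0 := (toA N).subtype (fun _ => Iff.rfl)
  have he : ∃ e : X ≃ₜ X0, ∀ y : X, (e y).1 = toA N y.1 :=
    ⟨(toA N).subtype (fun _ => Iff.rfl), fun _ => rfl⟩
  obtain ⟨e, he⟩ := he
  choose E h1 h2 using fun i => exists_E L X hX hr hb i hc
  refine ⟨fun i => (E i).transHomeomorph e, fun i => ?_, fun i p hp => ?_⟩
  · rw [← h1 i]; rfl
  · obtain ⟨h3, h4, h5⟩ := h2 i p hp
    refine ⟨⟨?_, h4⟩, h5⟩
    show (e (E i p)).1 = _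
    rw [he, h3]

end exist

section cpt

variable {L : Loc P N} (H : HLoc F L) {𝒞 : Cur (Cv P)} (hC : CH 𝒞)

/-- evaluation at a coordinate -/
theorem hC_coord (i : Fin 3) (z : Cn 3) : HC (cnFam 3) cFam (fun z : Cn 3 => z i) z := by
  refine hC_of_fC (j := ()) (by fun_prop) trivial ?_
  have h1 : HFA (cnFam 3) (fun z : Cn 3 => z i) z := hfa_cn.2 (by fun_prop)
  exact HFA.comp_left (g := oneL) oneL.differentiableAt h1

theorem hfa_coord (i : Fin 3) (z : Cn 3) : HFA (cnFam 3) (fun z : Cn 3 => z i) z :=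
  hfa_cn.2 (by fun_prop)

include H in
/-- holomorphy of `fro` along holomorphic standard coordinates -/
theorem hC_fro {k : ℕ} {Z : Type} [TopologicalSpace Z] {E : Fam k Z} {g : Z → Tp2_60.Amb (Cv P)}
    {z : Z} (h : (g z).1 ∈ L.sh.target) (hS : HFA E (fun y => (g y).1) z)
    (hT : HP E (fun y => tt (g y).2.1) z) (hT' : HP E (fun y => tt (g y).2.2.1) z)
    (hV : HP E (fun y => (g y).2.2.2) z)
    (hK : HP E (fun y => kk (g y).2.1) z) (hK' : HP E (fun y => kk (g y).2.2.1) z) :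
    HC E (ambFam F) (fun y => toA N (L.fro (g y))) z := by
  have hm := L.sh.map_target h
  have h1 : HC E F (fun y => L.sh.symm (g y).1) z := by
    obtain ⟨i, hi⟩ := E.cover z
    obtain ⟨j, hj⟩ := F.cover (L.sh.symm (g z).1)
    refine HC.of (ContinuousAt.comp (g := L.sh.symm) (L.sh.continuousAt_symm h) hS.continuousAt)
      i j hi hj ?_
    have h2 := H.hs _ h j hj
    have h3 : HFA E (fun y => F.e j (L.sh.symm (g y).1)) z :=
      HFA.comp_left (g := fun S => F.e j (L.sh.symm S)) h2 hS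
    exact h3 i hi
  have ha : HFA E (fun y => L.a (L.sh.symm (g y).1)) z := hfa_comp (H.ha _ hm) h1
  have hb0 : HFA E (fun y => L.b 0 (L.sh.symm (g y).1)) z := hfa_comp (H.hb 0 _ hm) h1
  have hb1 : HFA E (fun y => L.b 1 (L.sh.symm (g y).1)) z := hfa_comp (H.hb 1 _ hm) h1
  have hm0 : HFA E (fun y => L.m 0 (L.sh.symm (g y).1)) z := hfa_comp (H.hm 0 _ hm) h1
  have hm1 : HFA E (fun y => L.m 1 (L.sh.symm (g y).1)) z := hfa_comp (H.hm 1 _ hm) h1
  have na := L.a0 _ hm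
  have nb0 := L.b0 0 _ hm
  have nb1 := L.b0 1 _ hm
  have nm0 := L.m0 0 _ hm
  have nm1 := L.m0 1 _ hm
  have hee : HFA E (fun y => Loc.ee P (g y).1) z := by
    refine HFA.comp_left (g := Loc.ee P) ?_ hS
    unfold Loc.ee
    fun_prop
  refine hC_amb h1 (fun i => ?_) ?_ (fun i => ?_)
  · fin_cases i
    · exact HP.mob hT hb0 ((HFA.const (P.c 5) z).mul hb0).neg (HFA.const 0 z) ha
        (by rw [mul_zero, sub_zero]; exact mul_ne_zero nb0 na)
    · exact HP.mob hT' hb1 ((HFA.const (P.c 5) z).mul hb1).neg (HFA.const 0 z) ha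
        (by rw [mul_zero, sub_zero]; exact mul_ne_zero nb1 na)
  · exact HP.mob hV (hb0.mul hb1) (hee.mul (hb0.mul hb1)) (HFA.const 0 z) ha
      (by rw [mul_zero, sub_zero]; exact mul_ne_zero (mul_ne_zero nb0 nb1) na)
  · fin_cases i
    · exact HP.mob hK hm0 (HFA.const 0 z) (HFA.const 0 z) (HFA.const 1 z)
        (by rw [mul_zero, sub_zero, mul_one]; exact nm0)
    · exact HP.mob hK' hm1 (HFA.const 0 z) (HFA.const 0 z) (HFA.const 1 z)
        (by rw [mul_zero, sub_zero, mul_one]; exact nm1)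

/-- `T`-coordinate of a point over the cluster, in the ambient space -/
def TA (L : Loc P N) (i : Fin 2) (y : Amb N) : P1 := Tm P (L.a y.1) (L.b i y.1) (y.2.1 i)
/-- `K`-coordinate -/
def KA (L : Loc P N) (i : Fin 2) (y : Amb N) : P1 := Km (L.m i y.1) (y.2.2.2 i)
/-- `V`-coordinate -/
def VA (L : Loc P N) (y : Amb N) : P1 := L.vv y.1 y.2.2.1

include H in
theorem hP_TA (i : Fin 2) {y : Amb N} (hy : y.1 ∈ L.sh.source) : HP (ambFam F) (TA L i) y := by
  have ha : HFA (ambFam F) (fun y => L.a y.1) y := hfa_comp (H.ha _ hy) (amb_z.hC y)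
  have hb : HFA (ambFam F) (fun y => L.b i y.1) y := hfa_comp (H.hb i _ hy) (amb_z.hC y)
  have ht : HP (ambFam F) (fun y : Amb N => y.2.1 i) y := hC_p1_iff.1 ((amb_t i).hC y)
  exact HP.mob ht ha ((HFA.const (P.c 5) y).mul hb) (HFA.const 0 y) hb
    (by rw [mul_zero, sub_zero]; exact mul_ne_zero (L.a0 _ hy) (L.b0 i _ hy))

include H in
theorem hP_KA (i : Fin 2) {y : Amb N} (hy : y.1 ∈ L.sh.source) : HP (ambFam F) (KA L i) y := by
  have hm : HFA (ambFam F) (fun y => L.m i y.1) y := hfa_comp (H.hm i _ hy) (amb_z.hC y)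
  have ht : HP (ambFam F) (fun y : Amb N => y.2.2.2 i) y := hC_p1_iff.1 ((amb_k i).hC y)
  exact HP.mob ht (HFA.const 1 y) (HFA.const 0 y) (HFA.const 0 y) hm
    (by rw [mul_zero, sub_zero, one_mul]; exact L.m0 i _ hy)

include H in
theorem hP_VA {y : Amb N} (hy : y.1 ∈ L.sh.source) : HP (ambFam F) (VA L) y := by
  have ha : HFA (ambFam F) (fun y => L.a y.1) y := hfa_comp (H.ha _ hy) (amb_z.hC y)
  have hb0 : HFA (ambFam F) (fun y => L.b 0 y.1) y := hfa_comp (H.hb 0 _ hy) (amb_z.hC y)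
  have hb1 : HFA (ambFam F) (fun y => L.b 1 y.1) y := hfa_comp (H.hb 1 _ hy) (amb_z.hC y)
  have hS : HFA (ambFam F) (fun y => L.sh y.1) y := hfa_comp (H.hS _ hy) (amb_z.hC y)
  have hee : HFA (ambFam F) (fun y => Loc.ee P (L.sh y.1)) y := by
    refine HFA.comp_left (g := Loc.ee P) ?_ hS
    unfold Loc.ee
    fun_prop
  have ht : HP (ambFam F) (fun y : Amb N => y.2.2.1) y := hC_p1_iff.1 (amb_v.hC y)
  have hne := mul_ne_zero (L.a0 _ hy) (mul_ne_zero (L.b0 0 _ hy) (L.b0 1 _ hy))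
  exact HP.mob ht ha (hee.mul (hb0.mul hb1)).neg (HFA.const 0 y) (hb0.mul hb1)
    (by rw [mul_zero, sub_zero]; exact hne)

/-- the standard coordinates of `toA (fro s)` -/
theorem co_fro {s : Tp2_60.Amb (Cv P)} (h : s.1 ∈ L.sh.target) :
    L.sh (toA N (L.fro s)).1 = s.1 ∧ TA L 0 (toA N (L.fro s)) = tt s.2.1 ∧
      TA L 1 (toA N (L.fro s)) = tt s.2.2.1 ∧ VA L (toA N (L.fro s)) = s.2.2.2 ∧
      KA L 0 (toA N (L.fro s)) = kk s.2.1 ∧ KA L 1 (toA N (L.fro s)) = kk s.2.2.1 := by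
  have hz := L.sh.map_target h
  have ha := L.a0 _ hz
  have hb := L.b0 0 _ hz
  have hb' := L.b0 1 _ hz
  have e0 : L.sh (L.fro s).1 = s.1 := L.sh.right_inv h
  refine ⟨e0, Tm_tm ha hb _, Tm_tm ha hb' _, ?_, Km_km (L.m0 0 _ hz) _, Km_km (L.m0 1 _ hz) _⟩
  show L.vv (L.fro s).1 (L.fro s).2.2.2.1 = s.2.2.2
  unfold Loc.vv
  rw [e0]
  exact Vm_vm _ ha (mul_ne_zero hb hb') _

end cpt

end

end Crest.Agent.R272.Tp6_60
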