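import Crest.Agent.R272.Tp6_60
import Crest.Agent.R272.Cur5_297
import Crest.Agent.R272.Tp7_60
import Crest.Agent.R272.Act1_302
import Crest.Agent.R272.Tq2_916
import Crest.Agent.R272.PEnd8_732

-- ▼ part R272/Tp8_60
section

/-!
# R272 (S0415), MODEL, type tp (helper60): `ch_cur : CH (cur P)`, the curve of helper297
-/

set_option autoImplicit false
set_option linter.unusedSectionVars false

open Set Filter Topology OnePoint

namespace Crest.Agent.R272.Tp8_60

open Crest.Agent.R273.Fam_835 Crest.Agent.R272.FamP_54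
open Crest.Agent.R272.Tp1_60 Crest.Agent.R272.Tp5_60 Crest.Agent.R272.Tp6_60
open Crest.Agent.R272.Cur_297 (Par Cv tt kk continuous_tt continuous_kk cur)

noncomputable section

variable {P : Par}

theorem tv_nn {c : Cv P} (h : tt c ≠ ∞) : Cur_297.tv c = nn (tt c) := by
  rw [Cur_297.tt_eq h]
  rfl

theorem sv_iv (c : Cv P) : Cur_297.sv c = iv (tt c) := by
  unfold Cur_297.sv
  generalize tt c = t
  induction t using OnePoint.rec with
  | infty => simp
  | coe z => simp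

theorem inv1_rat (s : ℂ) : Cur_297.inv1 s = rat 1 s := by
  by_cases h : s = 0
  · rw [h, Cur_297.inv1_zero, rat_zero]
  · rw [Cur_297.inv1_ne h, rat_ne h, one_div]

theorem kk0 {c : Cv P} (h : tt c ≠ ∞) : kk c = Cur_297.kap0 P (Cur_297.tv c) (Cur_297.yv c) := by
  conv_lhs => rw [← Cur_297.mk0_eq h]
  rfl

theorem kk1 {c : Cv P} (h : tt c ≠ ((0 : ℂ) : P1)) :
    kk c = Cur_297.kap1 P (Cur_297.sv c) (Cur_297.vv c) := by
  conv_lhs => rw [← Cur_297.mk1_eq h]
  rfl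

theorem kap_A {a y : ℂ} (ha : a ≠ 0) : (if a = 0 then ∞ else ((y / a : ℂ) : P1)) = rat y a := by
  rw [if_neg ha, rat_ne ha]

theorem kap_B {a b y : ℂ} (hb : b ≠ 0) (hy : y ^ 2 = a * b) :
    (if a = 0 then ∞ else ((y / a : ℂ) : P1)) = rat b y := by
  by_cases ha : a = 0
  · rw [if_pos ha]
    rw [ha, zero_mul] at hy
    rw [pow_eq_zero_iff two_ne_zero |>.1 hy, rat_zero]
  · have hy0 : y ≠ 0 := by
      rintro rfl
      rw [zero_pow two_ne_zero] at hy
      exact mul_ne_zero ha hb hy.symm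
    rw [if_neg ha, rat_ne hy0]
    congr 1
    field_simp
    linear_combination hy

/-- `y = B(t)/κ` where `κ ≠ 0` -/
theorem yv_B {c : Cv P} (h : tt c ≠ ∞) (hk : kk c ≠ ((0 : ℂ) : P1)) :
    Cur_297.yv c = P.BB (Cur_297.tv c) * iv (kk c) := by
  have hc := Cur_297.eqn c
  rw [Cur_297.tt_eq h] at hc
  unfold Cur_297.yv
  by_cases hk' : kk c = ∞
  · rw [hk', Cur_297.fin_infty, iv_inf, zero_mul, mul_zero]
  · rw [← Cur_297.coe_fin hk', Cur_297.eqn_coe_coe] at hc
    have h0 : Cur_297.fin (kk c) ≠ 0 := by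
      intro h0
      apply hk
      rw [← Cur_297.coe_fin hk', h0]
    rw [← Cur_297.coe_fin hk', iv_coe, ← hc, Cur_297.fin_coe]
    field_simp

section back

variable {n : ℕ} {X : Type} [TopologicalSpace X] {F : Fam n X} {γ : X → Cv P} {x : X}

theorem hfa_tv (hT : HP F (fun y => tt (γ y)) x) (h : tt (γ x) ≠ ∞) :
    HFA F (fun y => Cur_297.tv (γ y)) x := by
  refine (hT.nn h).congr ?_
  filter_upwards [hT.contAt.eventually_ne h] with y hy
  exact tv_nn hy

theorem hfa_sv (hT : HP F (fun y => tt (γ y)) x) (h : tt (γ x) ≠ ((0 : ℂ) : P1)) :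
    HFA F (fun y => Cur_297.sv (γ y)) x :=
  (hT.iv h).congr (Eventually.of_forall fun _ => sv_iv _)

theorem hfa_yv (hT : HP F (fun y => tt (γ y)) x) (hK : HP F (fun y => kk (γ y)) x)
    (h : tt (γ x) ≠ ∞) : HFA F (fun y => Cur_297.yv (γ y)) x := by
  have h1 := hfa_tv hT h
  by_cases hk : kk (γ x) = ∞
  · have hk0 : kk (γ x) ≠ ((0 : ℂ) : P1) := by rw [hk]; exact OnePoint.infty_ne_coe _
    have h2 : HFA F (fun y => P.BB (Cur_297.tv (γ y))) x :=
      HFA.comp_left (g := P.BB) (P.differentiable_BB _) h1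
    refine (h2.mul (hK.iv hk0)).congr ?_
    filter_upwards [hT.contAt.eventually_ne h, hK.contAt.eventually_ne hk0] with y h3 h4
    exact yv_B h3 h4
  · have h2 : HFA F (fun y => P.AA (Cur_297.tv (γ y))) x :=
      HFA.comp_left (g := P.AA) (P.differentiable_AA _) h1
    refine ((hK.nn hk).mul h2).congr ?_
    filter_upwards [hK.contAt.eventually_ne hk] with y h4
    unfold Cur_297.yv
    congr 1
    rw [← Cur_297.coe_fin h4]
    rfl

end back

theorem k_back {n : ℕ} {X : Type} [TopologicalSpace X] (F : Fam n X) (γ : X → Cv P) (x : X)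
    (_ : ContinuousAt γ x) (hT : HP F (fun y => tt (γ y)) x) (hK : HP F (fun y => kk (γ y)) x)
    (c : Cv P) (hx : γ x ∈ ((cur P).k c).source) : HFA F (fun y => (cur P).k c (γ y)) x := by
  by_cases h : tt c ≠ ∞
  · have h1 : tt (γ x) ≠ ∞ := Cur_297.k_source0 h hx
    by_cases h0 : Cur_297.yv c = 0
    · refine (hfa_yv hT hK h1).congr ?_
      filter_upwards [hT.contAt.eventually_ne h1] with y hy
      exact Cur_297.k_apply_y h h0 hy
    · refine ((hfa_tv hT h1).sub (HFA.const (Cur_297.tv c) x)).congr ?_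
      filter_upwards [hT.contAt.eventually_ne h1] with y hy
      exact Cur_297.k_apply_t h h0 hy
  · have h1 : tt (γ x) ≠ ((0 : ℂ) : P1) := Cur_297.k_source1 h hx
    refine (hfa_sv hT h1).congr ?_
    filter_upwards [hT.contAt.eventually_ne h1] with y hy
    exact Cur_297.k_apply_s h hy

theorem hp_T (c : Cv P) (s : ℂ) (hs : s ∈ ((cur P).k c).target) :
    HP cFam (fun s => tt (((cur P).k c).symm s)) s := by
  by_cases h0 : tt (((cur P).k c).symm s) ≠ ∞
  · have h1 : HFA cFam (fun z => Cur_297.tv (((cur P).k c).symm z)) s :=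
      hfa_c.2 (Cur_297.R0 c hs h0).f_an.differentiableAt
    refine (hP_coe h1).congr ?_
    filter_upwards [Cur_297.ev_source hs Cur_297.isOpen_ne_inf h0] with z hz
    exact Cur_297.tt_eq hz
  · have h0' : tt (((cur P).k c).symm s) ≠ ((0 : ℂ) : P1) :=
      Cur_297.ne_zero_of_inf (not_not.1 h0)
    have h1 : HFA cFam (fun z => Cur_297.sv (((cur P).k c).symm z)) s :=
      hfa_c.2 (Cur_297.R1 c hs h0').f_an.differentiableAt
    refine (hP_rat (HFA.const 1 s) h1 (Or.inl one_ne_zero)).congr ?_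
    filter_upwards [Cur_297.ev_source hs Cur_297.isOpen_ne_zero h0'] with z hz
    rw [← inv1_rat]
    exact (Cur_297.inv1_finv hz).symm

theorem hp_K (c : Cv P) (s : ℂ) (hs : s ∈ ((cur P).k c).target) :
    HP cFam (fun s => kk (((cur P).k c).symm s)) s := by
  by_cases h0 : tt (((cur P).k c).symm s) ≠ ∞
  · have ht : HFA cFam (fun z => Cur_297.tv (((cur P).k c).symm z)) s :=
      hfa_c.2 (Cur_297.R0 c hs h0).f_an.differentiableAt
    have hy : HFA cFam (fun z => Cur_297.yv (((cur P).k c).symm z)) s :=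
      hfa_c.2 (Cur_297.R0 c hs h0).g_an.differentiableAt
    have hev := Cur_297.ev_source hs Cur_297.isOpen_ne_inf h0
    have hA : HFA cFam (fun z => P.AA (Cur_297.tv (((cur P).k c).symm z))) s :=
      HFA.comp_left (g := P.AA) (P.differentiable_AA _) ht
    have hB : HFA cFam (fun z => P.BB (Cur_297.tv (((cur P).k c).symm z))) s :=
      HFA.comp_left (g := P.BB) (P.differentiable_BB _) ht
    by_cases hA0 : P.AA (Cur_297.tv (((cur P).k c).symm s)) = 0
    · have hB0 := P.BB_ne hA0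
      refine (hP_rat hB hy (Or.inl hB0)).congr ?_
      filter_upwards [hev, hB.continuousAt.eventually_ne hB0] with z h1 h2
      refine (kk0 h1).trans (kap_B h2 ?_)
      exact (Cur_297.yv_sq h1).trans (P.AA_mul_BB _).symm
    · refine (hP_rat hy hA (Or.inr hA0)).congr ?_
      filter_upwards [hev, hA.continuousAt.eventually_ne hA0] with z h1 h2
      exact (kk0 h1).trans (kap_A h2)
  · have h0' : tt (((cur P).k c).symm s) ≠ ((0 : ℂ) : P1) :=
      Cur_297.ne_zero_of_inf (not_not.1 h0)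
    have ht : HFA cFam (fun z => Cur_297.sv (((cur P).k c).symm z)) s :=
      hfa_c.2 (Cur_297.R1 c hs h0').f_an.differentiableAt
    have hy : HFA cFam (fun z => Cur_297.vv (((cur P).k c).symm z)) s :=
      hfa_c.2 (Cur_297.R1 c hs h0').g_an.differentiableAt
    have hev := Cur_297.ev_source hs Cur_297.isOpen_ne_zero h0'
    have hA : HFA cFam (fun z => P.At (Cur_297.sv (((cur P).k c).symm z))) s :=
      HFA.comp_left (g := P.At) (P.differentiable_At _) ht
    have hB : HFA cFam (fun z => P.Bt (Cur_297.sv (((cur P).k c).symm z))) s :=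
      HFA.comp_left (g := P.Bt) (P.differentiable_Bt _) ht
    by_cases hA0 : P.At (Cur_297.sv (((cur P).k c).symm s)) = 0
    · have hB0 := P.Bt_ne hA0
      refine (hP_rat hB hy (Or.inl hB0)).congr ?_
      filter_upwards [hev, hB.continuousAt.eventually_ne hB0] with z h1 h2
      refine (kk1 h1).trans (kap_B h2 ?_)
      exact (Cur_297.vv_sq h1).trans (P.At_mul_Bt _).symm
    · refine (hP_rat hy hA (Or.inr hA0)).congr ?_
      filter_upwards [hev, hA.continuousAt.eventually_ne hA0] with z h1 h2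
      exact (kk1 h1).trans (kap_A h2)

theorem w_eq (c : Cv P) : (cur P).w c = Cur_297.om c 0 := Cur_297.deriv_G c (Cur_297.zero_mem c)

/-- **the curve of helper297** -/
theorem ch_cur (P : Par) : CH (cur P) where
  hT := hp_T
  hK := hp_K
  back := k_back
  w0 c := by
    rw [w_eq]
    by_cases h : tt c ≠ ∞
    · rw [Cur_297.om_zero0 h]
      simp only [h, ne_eq, not_false_eq_true, iff_true]
      have := Cur_297.m0_ne (Cur_297.ch0 (Cur_297.aq c h))
      simpa [Cur_297.la] using this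
    · rw [Cur_297.om_zero1 h]
      simp only [h, iff_false]
      simp [Cur_297.lb]
  w1 c := by
    rw [w_eq]
    by_cases h : tt c ≠ ∞
    · rw [Cur_297.om_zero0 h]
      have := Cur_297.m0_ne (Cur_297.ch0 (Cur_297.aq c h))
      have h2 : tt c = ((0 : ℂ) : P1) ↔ Cur_297.tv c = 0 := by
        rw [Cur_297.tt_eq h]
        exact ⟨fun e => OnePoint.coe_injective e, fun e => by rw [e]⟩
      rw [ne_eq, ne_eq, h2]
      simp [Cur_297.la, this]
    · rw [Cur_297.om_zero1 h]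
      have := Cur_297.m0_ne (Cur_297.ch1 (Cur_297.bq c (Cur_297.nz h)))
      have h2 : tt c ≠ ((0 : ℂ) : P1) := Cur_297.nz h
      simp only [h2, ne_eq, not_false_eq_true, iff_true]
      simpa [Cur_297.lb] using this
  tv0 c h := by
    show (cur P).w c 1 / (cur P).w c 0 = _
    rw [w_eq, Cur_297.om_zero0 h, ← tv_nn h]
    have := Cur_297.m0_ne (Cur_297.ch0 (Cur_297.aq c h))
    simp only [Cur_297.la, Pi.smul_apply, smul_eq_mul]
    simp
    field_simp
  iv _ := rfl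

end

end Crest.Agent.R272.Tp8_60
end

-- ▼ part R272/Tp9_60
section

/-!
# R272 (S0415), MODEL, type tp (helper60): the swap in the standard coordinates

`SwRel A L s z` : the local data at `z` and `s • z` correspond; `co_sw` : the standard coordinates
of `s • y`; `ext_co` : a point over the cluster is determined by its standard coordinates.
-/

set_option autoImplicit false
set_option linter.unusedSectionVars false

open Set Filter Topology OnePoint

namespace Crest.Agent.R272.Tp9_60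

open Crest.Agent.R275.Geo Crest.Agent.R273.Fam_835 Crest.Agent.R272.FamP_54
open Crest.Agent.R272.HFam_342 Crest.Agent.R272.Tp1_60 Crest.Agent.R272.Refl_246
open Crest.Agent.R272.Tp2_60 hiding Amb
open Crest.Agent.R272.Tp3_60 Crest.Agent.R272.Tp4_60
open Crest.Agent.R272.Tp5_60 Crest.Agent.R272.SubF_54 Crest.Agent.R272.Tp6_60
open Crest.Agent.R272.Tp7_60
open Crest.Agent.R272.Cur_297 (Par Cv Cset Eqn hA hB tt kk continuous_tt continuous_kk)
open Crest.Agent.R272.P1A_54 (ambFam amb_z amb_t amb_v amb_k)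
open Crest.Agent.R272.Gr_559.GData (Amb)
open Crest.Agent.R272.Gr_559 (GData)
open Crest.Agent.R272.AJ_956 (Cur)
open Crest.Agent.R272.Idn_834 (h3 pc sw)
open Crest.Agent.R272.Act_302 (GAct)
open Crest.Agent.R272.P1F_54 (mulP)

noncomputable section

variable {N : Type} [TopologicalSpace N] {F : Fam 3 N} {P : Par} {L : Loc P N} {r : ℝ}

theorem mulP_mob (a b : ℂ) (t : P1) : mulP a b t = mob a 0 0 b t := by
  unfold mulP mob
  rw [← rat_eq]
  have e1 : a * nn t + 0 * dd t = a * nn t := by ring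
  have e2 : 0 * nn t + b * dd t = b * dd t := by ring
  rw [e1, e2]
  rfl

theorem mob_scale {l α β γ δ : ℂ} (hl : l ≠ 0) (t : P1) :
    mob (l * α) (l * β) (l * γ) (l * δ) t = mob α β γ δ t := by
  unfold mob
  rw [← rat_mul (a := α * nn t + β * dd t) (b := γ * nn t + δ * dd t) hl]
  congr 1 <;> ring

theorem mob_mulP {a b α β γ δ : ℂ} (ha : a ≠ 0) (hb : b ≠ 0) (t : P1) :
    mob α β γ δ (mulP a b t) = mob (α * a) (β * b) (γ * a) (δ * b) t := by
  rw [mulP_mob, mob_mob (by simpa using ⟨ha, hb⟩)]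
  congr 1 <;> ring

variable {D : GData F} {G : Type} [Group G] [MulAction G N] (A : GAct D G)

/-- the local data at `z` and at `s • z` correspond -/
structure SwRel (L : Loc P N) (s : G) (z : N) : Prop where
  m1 : z ∈ L.sh.source
  m2 : s • z ∈ L.sh.source
  hS : L.sh (s • z) = ((L.sh z).1, (L.sh z).2.2, (L.sh z).2.1)
  ha : L.a (s • z) = A.j0 s z * L.a z
  hb0 : L.b 0 (s • z) = A.j s 1 z * L.b 1 z
  hb1 : L.b 1 (s • z) = A.j s 0 z * L.b 0 z
  hm0 : L.m 0 (s • z) * A.q s 1 z = A.p s 1 z * L.m 1 z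
  hm1 : L.m 1 (s • z) * A.q s 0 z = A.p s 0 z * L.m 0 z

variable {A}

theorem Tm_sw {a b j0 j : ℂ} (h0 : j0 ≠ 0) (hj : j ≠ 0) (t : P1) :
    Tm P (j0 * a) (j * b) (mulP j j0 t) = Tm P a b t := by
  unfold Tm
  rw [mob_mulP hj h0]
  refine Eq.trans ?_ (mob_scale (mul_ne_zero h0 hj) t)
  congr 1 <;> ring

theorem Km_sw {m m' p q : ℂ} (hp : p ≠ 0) (hq : q ≠ 0) (h : m' * q = p * m) (k : P1) :
    Km m' (mulP p q k) = Km m k := by
  unfold Km
  rw [mob_mulP hp hq, h]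
  refine Eq.trans ?_ (mob_scale hp k)
  congr 1 <;> ring

theorem Vm_sw {a β e j0 j : ℂ} (h0 : j0 ≠ 0) (hj : j ≠ 0) (v : P1) :
    Vm (j0 * a) (j * β) e (mulP j j0 v) = Vm a β e v := by
  unfold Vm
  rw [mob_mulP hj h0]
  refine Eq.trans ?_ (mob_scale (mul_ne_zero h0 hj) v)
  congr 1 <;> ring

/-- **the standard coordinates of `s • y`** -/
theorem co_sw {s : G} (hσ : A.σ s 0 = 1) {y : Amb N} (h : SwRel A L s y.1) :
    TA L 0 (A.act s y) = TA L 1 y ∧ TA L 1 (A.act s y) = TA L 0 y ∧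
      VA L (A.act s y) = VA L y ∧ KA L 0 (A.act s y) = KA L 1 y ∧
      KA L 1 (A.act s y) = KA L 0 y := by
  have hσ1 : A.σ s 1 = 0 := by
    rcases GAct.perm_cases (A.σ s) with ⟨h1, -⟩ | ⟨-, h2⟩
    · rw [h1] at hσ
      exact absurd hσ (by decide)
    · exact h2
  have t0 : (A.act s y).2.1 0 = mulP (A.j s 1 y.1) (A.j0 s y.1) (y.2.1 1) := by
    rw [← A.act_t s y 1, hσ1]
  have t1 : (A.act s y).2.1 1 = mulP (A.j s 0 y.1) (A.j0 s y.1) (y.2.1 0) := by
    rw [← A.act_t s y 0, hσ]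
  have k0 : (A.act s y).2.2.2 0 = mulP (A.p s 1 y.1) (A.q s 1 y.1) (y.2.2.2 1) := by
    rw [← A.act_k s y 1, hσ1]
  have k1 : (A.act s y).2.2.2 1 = mulP (A.p s 0 y.1) (A.q s 0 y.1) (y.2.2.2 0) := by
    rw [← A.act_k s y 0, hσ]
  refine ⟨?_, ?_, ?_, ?_, ?_⟩
  · unfold TA
    rw [t0, A.act_z, h.ha, h.hb0]
    exact Tm_sw (A.j0_ne _ _) (A.j_ne _ _ _) _
  · unfold TA
    rw [t1, A.act_z, h.ha, h.hb1]
    exact Tm_sw (A.j0_ne _ _) (A.j_ne _ _ _) _
  · unfold VA Loc.vv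
    rw [A.act_v, A.act_z, h.ha, h.hb0, h.hb1]
    have e1 : A.j s 1 y.1 * L.b 1 y.1 * (A.j s 0 y.1 * L.b 0 y.1) =
        A.jv s y.1 * (L.b 0 y.1 * L.b 1 y.1) := by unfold GAct.jv; ring
    have e2 : Loc.ee P (L.sh (s • y.1)) = Loc.ee P (L.sh y.1) := by
      rw [h.hS]; unfold Loc.ee; ring
    rw [e1, e2]
    exact Vm_sw (A.j0_ne _ _) (A.jv_ne _ _) _
  · unfold KA
    rw [k0, A.act_z]
    exact Km_sw (A.p_ne _ _ _) (A.q_ne _ _ _) h.hm0 _
  · unfold KA
    rw [k1, A.act_z]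
    exact Km_sw (A.p_ne _ _ _) (A.q_ne _ _ _) h.hm1 _

/-- a point over the cluster is determined by its standard coordinates -/
theorem ext_co {y y' : Amb N} (hy : y.1 ∈ L.sh.source) (hy' : y'.1 ∈ L.sh.source)
    (hS : L.sh y.1 = L.sh y'.1) (h0 : TA L 0 y = TA L 0 y') (h1 : TA L 1 y = TA L 1 y')
    (hV : VA L y = VA L y') (k0 : KA L 0 y = KA L 0 y') (k1 : KA L 1 y = KA L 1 y') : y = y' := by
  have hz : y.1 = y'.1 := L.sh.injOn hy hy' hS
  have ha := L.a0 _ hy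
  have hb := L.b0 0 _ hy
  have hb' := L.b0 1 _ hy
  unfold TA at h0 h1
  unfold KA at k0 k1
  unfold VA Loc.vv at hV
  rw [← hz] at h0 h1 k0 k1 hV
  have e0 : y.2.1 0 = y'.2.1 0 := by
    rw [← tm_Tm (P := P) ha hb (y.2.1 0), h0, tm_Tm ha hb]
  have e1 : y.2.1 1 = y'.2.1 1 := by
    rw [← tm_Tm (P := P) ha hb' (y.2.1 1), h1, tm_Tm ha hb']
  have e2 : y.2.2.1 = y'.2.2.1 := by
    rw [← vm_Vm (Loc.ee P (L.sh y.1)) ha (mul_ne_zero hb hb') y.2.2.1, hV,
      vm_Vm _ ha (mul_ne_zero hb hb')]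
  have e3 : y.2.2.2 0 = y'.2.2.2 0 := by
    rw [← km_Km (L.m0 0 _ hy) (y.2.2.2 0), k0, km_Km (L.m0 0 _ hy)]
  have e4 : y.2.2.2 1 = y'.2.2.2 1 := by
    rw [← km_Km (L.m0 1 _ hy) (y.2.2.2 1), k1, km_Km (L.m0 1 _ hy)]
  refine Prod.ext hz (Prod.ext (funext fun i => ?_) (Prod.ext e2 (funext fun i => ?_)))
  · fin_cases i
    · exact e0
    · exact e1
  · fin_cases i
    · exact e3
    · exact e4

theorem sw_DE {i : Fin 2} {p : (Cv P × Cv P) × ℂ} (h : p ∈ DE P r i) : sw p ∈ DE P r i := by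
  fin_cases i
  · obtain ⟨h1, h2, h3⟩ := h
    refine ⟨h2, h1, ?_⟩
    show ‖p.2‖ * (1 + ‖nn (tt p.1.2)‖) * (1 + ‖nn (tt p.1.1)‖) < r
    calc _ = ‖p.2‖ * (1 + ‖nn (tt p.1.1)‖) * (1 + ‖nn (tt p.1.2)‖) := by ring
      _ < r := h3
  · obtain ⟨h1, h2, h3⟩ := h
    refine ⟨h2, h1, ?_⟩
    show ‖p.2‖ * (1 + ‖iv (tt p.1.2)‖) * (1 + ‖iv (tt p.1.1)‖) < r
    calc _ = ‖p.2‖ * (1 + ‖iv (tt p.1.1)‖) * (1 + ‖iv (tt p.1.2)‖) := by ring
      _ < r := h3

theorem FE_sw (i : Fin 2) (p : (Cv P × Cv P) × ℂ) : FE P i (sw p) =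
    (((FE P i p).1.1, (FE P i p).1.2.2, (FE P i p).1.2.1), (FE P i p).2.2.1, (FE P i p).2.1,
      (FE P i p).2.2.2) := by
  fin_cases i
  · refine Prod.ext rfl (Prod.ext rfl (Prod.ext rfl ?_))
    show ((nn (tt p.1.2) * nn (tt p.1.1) * p.2 : ℂ) : P1) = ((nn (tt p.1.1) * nn (tt p.1.2) * p.2 : ℂ) : P1)
    congr 1
    ring
  · refine Prod.ext (Prod.ext ?_ rfl) rfl
    show p.2 * iv (tt p.1.2) * iv (tt p.1.1) = p.2 * iv (tt p.1.1) * iv (tt p.1.2)
    ring

/-- **the swap exchanges the two points of the curve** -/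
theorem act_E {s : G} (hσ : A.σ s 0 = 1) {i : Fin 2} {p : (Cv P × Cv P) × ℂ}
    (h1 : (FE P i p).1 ∈ L.sh.target) (h2 : (FE P i (sw p)).1 ∈ L.sh.target)
    (h : SwRel A L s (L.fro (FE P i p)).1) :
    A.act s (toA N (L.fro (FE P i p))) = toA N (L.fro (FE P i (sw p))) := by
  obtain ⟨b1, b2, b3, b4, b5, b6⟩ := co_fro h1
  obtain ⟨c1, c2, c3, c4, c5, c6⟩ := co_fro h2
  obtain ⟨d1, d2, d3, d4, d5⟩ := co_sw (A := A) (L := L) hσ (y := toA N (L.fro (FE P i p))) h
  rw [FE_sw] at c1 c2 c3 c4 c5 c6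
  have e1 : L.sh (A.act s (toA N (L.fro (FE P i p)))).1 =
      ((FE P i p).1.1, (FE P i p).1.2.2, (FE P i p).1.2.1) := by
    rw [A.act_z, toA_1, h.hS]
    have : L.sh (L.fro (FE P i p)).1 = (FE P i p).1 := b1
    rw [this]
  rw [FE_sw]
  refine ext_co (L := L) h.m2 ?_ (e1.trans c1.symm) ((d1.trans b3).trans c2.symm)
    ((d2.trans b2).trans c3.symm) ((d3.trans b4).trans c4.symm) ((d4.trans b6).trans c5.symm)
    ((d5.trans b5).trans c6.symm)
  rw [FE_sw] at h2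
  exact L.sh.map_target h2

end

end Crest.Agent.R272.Tp9_60
end

-- ▼ part R272/Tp10_60
section

/-!
# R272 (S0415), MODEL, type tp (helper60): the germ of `X1` at the base cluster point

`BaseP A P s q` : the base cluster point with the swap `s`;
**`exists_germ`** : `Germ (cur P) (A.fam hsl) G s` (interface (I1) of helper834).
-/

set_option autoImplicit false
set_option linter.unusedSectionVars false

open Set Filter Topology OnePoint

namespace Crest.Agent.R272.Tp10_60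

open Crest.Agent.R275.Geo Crest.Agent.R273.Fam_835 Crest.Agent.R272.FamP_54
open Crest.Agent.R272.HFam_342 Crest.Agent.R272.Tp1_60 Crest.Agent.R272.Refl_246
open Crest.Agent.R272.Tp2_60 hiding Amb
open Crest.Agent.R272.Tp3_60 Crest.Agent.R272.Tp4_60
open Crest.Agent.R272.Tp5_60 Crest.Agent.R272.SubF_54 Crest.Agent.R272.Tp6_60
open Crest.Agent.R272.Tp7_60 Crest.Agent.R272.Tp8_60 Crest.Agent.R272.Tp9_60
open Crest.Agent.R272.Cur_297 (Par Cv Cset Eqn hA hB tt kk continuous_tt continuous_kk cur)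
open Crest.Agent.R272.P1A_54 (ambFam amb_z amb_t amb_v amb_k)
open Crest.Agent.R272.Gr_559.GData (Amb)
open Crest.Agent.R272.Gr_559 (GData Pen SNC)
open Crest.Agent.R272.AJ_956 (Cur)
open Crest.Agent.R272.Idn_834 (h3 pc sw Germ Ci)
open Crest.Agent.R272.Act_302 (GAct)
open Crest.Agent.R272.P1F_54 (mulP)

noncomputable section

variable {N : Type} [TopologicalSpace N] {F : Fam 3 N} {P : Par}

/-! ### density -/



/-! ### the base cluster point -/

variable {D : GData F} {G : Type} [Group G] [MulAction G N]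

/-- the base cluster point with its swap -/
structure BaseP (A : GAct D G) (P : Par) (s : G) (q : N) where
  p : Pen F D.f0 (D.x 0) (D.P 0) (D.Q 0) q
  p' : Pen F D.f0 (D.x 1) (D.P 1) (D.Q 1) q
  h0 : p'.s0 = p.s0
  hc : p.c = P.c
  hc' : p'.c = P.c
  snc : SNC F q ![p.s0, p.s1, p'.s1]
  f0q : D.f0 q = 0
  x0q : D.x 0 q = 0
  x1q : D.x 1 q = 0
  two : s * s = 1
  sig : A.σ s 0 = 1
  fix : s • q = q
  sw0 : ∀ᶠ z in 𝓝 q, p.s0 (s • z) = p.s0 z
  sw1 : ∀ᶠ z in 𝓝 q, p.s1 (s • z) = p'.s1 z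
  sw2 : ∀ᶠ z in 𝓝 q, p'.s1 (s • z) = p.s1 z
  stab : ∀ g : G, g • q = q → g = 1 ∨ g = s
  pd : ∃ U ∈ 𝓝 q, ∀ (g : G), ∀ z ∈ U, g • z ∈ U → g • q = q

variable {A : GAct D G} {s : G} {q : N}


/-! ### the germ -/

/-- the germ together with its description by the standard embeddings -/
structure GermE (hsl : IsSl (ambFam F) D.X1 3) (A : GAct D G) (P : Par) (s : G) (q : N) where
  L : Loc P N
  H : HLoc F L
  q_mem : q ∈ L.sh.source
  sh_q : L.sh q = 0
  hX : ∀ y : E6 N, y.1 ∈ L.sh.source → (toA N y ∈ D.X1 ↔ RelX L y)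
  r : ℝ
  hr : 0 < r
  ball : Metric.ball (0 : ℂ × ℂ × ℂ) r ⊆ L.sh.target
  sw : ∀ S ∈ Metric.ball (0 : ℂ × ℂ × ℂ) r, SwRel A L s (L.sh.symm S)
  g : Germ (cur P) (A.fam hsl) G s
  src : ∀ i, (g.E i).source = DE P r i
  isE : ∀ i, IsE L r i (X0 := D.X1) (g.E i)
  /-- over the ball only `1, s` act -/
  stab : ∀ (γ : G), ∀ S ∈ Metric.ball (0 : ℂ × ℂ × ℂ) r, ∀ S' ∈ Metric.ball (0 : ℂ × ℂ × ℂ) r,
    γ • L.sh.symm S = L.sh.symm S' → γ = 1 ∨ γ = s

/-- there is a point of the curve with `t ≠ 0, ∞` -/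
theorem exists_pt (P : Par) : ∃ c : Cv P, tt c ≠ ∞ ∧ tt c ≠ ((0 : ℂ) : P1) := by
  obtain ⟨c, hc⟩ := Cur_297.surjective_tt (P := P) ((1 : ℂ) : P1)
  refine ⟨c, ?_, ?_⟩
  · rw [hc]; exact OnePoint.coe_ne_infty _
  · rw [hc]
    intro h
    exact one_ne_zero (OnePoint.coe_injective h)


end

end Crest.Agent.R272.Tp10_60
end

-- ▼ part R272/PEnd9_732

/-!
# R272 (S0415), POS at `p0` (helper732): the neighbourhood of the cluster fibre for 60's `GermE`

`swp_of`    : 60's `SwRel` over `V` gives `Swp` (the swap on the whole standard model over `V`);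
`exists_VB` : the small neighbourhood `B : BV G q` of the base cluster point, `B.s = s`, all points over
              it in charts, swap.
-/

set_option autoImplicit false
set_option linter.unusedSectionVars false
set_option linter.unusedVariables false

open Set Filter Topology OnePoint

namespace Crest.Agent.R272.PEnd8_732

open Crest.Agent.R275.Geo Crest.Agent.R273.Fam_835 Crest.Agent.R272.Gr_559
open Crest.Agent.R272.Act_302 Crest.Agent.R272.Lc_220 Crest.Agent.R272.Refl_246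
open Crest.Agent.R272.MQ_783 Crest.Agent.R272.FamP_54 Crest.Agent.R272.P1A_54
open Crest.Agent.R272.Cur_297 (Par Cv tt kk)
open Crest.Agent.R272.Tp1_60 (iv nn dd)
open Crest.Agent.R272.Tp2_60 (Amb Std)
open Crest.Agent.R272.Tp3_60 (Loc RelX E6)
open Crest.Agent.R272.Tp6_60 (toA toA_1 co_fro TA KA VA)
open Crest.Agent.R272.Tp9_60 (SwRel co_sw ext_co)
open Crest.Agent.R272.Tp10_60 (GermE)
open Crest.Agent.R272.Tq1_916 (swA swA_mem)
open Crest.Agent.R272.SubF_54 (IsSl)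

noncomputable section

variable {N : Type} [TopologicalSpace N] {F : Fam 3 N} {D : GData F} {G : Type} [Group G]
  [MulAction G N] {A : GAct D G} {P : Par} {L : Loc P N}

/-- **the swap on the standard model** -/
theorem swp_of {s : G} (hσ : A.σ s 0 = 1) {V : Set N} (h : ∀ z ∈ V, SwRel A L s z) :
    Swp A L s V := by
  intro σ hσs hσt hz
  have hsw := h _ hz
  have hS : L.sh (s • L.sh.symm σ.1) = (swA σ).1 := by
    rw [hsw.hS, L.sh.right_inv hσt]
    rfl
  have ht : (swA σ).1 ∈ L.sh.target := by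
    rw [← hS]
    exact L.sh.map_source hsw.m2
  refine ⟨ht, ?_⟩
  obtain ⟨b1, b2, b3, b4, b5, b6⟩ := co_fro (L := L) hσt
  obtain ⟨c1, c2, c3, c4, c5, c6⟩ := co_fro (L := L) ht
  obtain ⟨d1, d2, d3, d4, d5⟩ := co_sw (A := A) (L := L) hσ (y := toA N (L.fro σ)) hsw
  have e1 : L.sh (A.act s (toA N (L.fro σ))).1 = (swA σ).1 := hS
  exact ext_co (L := L) hsw.m2 (L.sh.map_target ht) (e1.trans c1.symm) ((d1.trans b3).trans c2.symm)
    ((d2.trans b2).trans c3.symm) ((d3.trans b4).trans c4.symm) ((d4.trans b6).trans c5.symm)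
    ((d5.trans b5).trans c6.symm)

/-- the norm is swap invariant -/
theorem ball_sw {S : ℂ × ℂ × ℂ} {r : ℝ} (h : S ∈ Metric.ball (0 : ℂ × ℂ × ℂ) r) :
    (S.1, S.2.2, S.2.1) ∈ Metric.ball (0 : ℂ × ℂ × ℂ) r := by
  rw [Tq3_916.norm_prod_lt] at h ⊢
  exact ⟨h.1, h.2.2, h.2.1⟩

/-- the neighbourhood of 60's germ -/
def bvE {s : G} {q : N} {hsl : IsSl (ambFam F) D.X1 3} (Γ : GermE hsl A P s q) (hfix : s • q = q)
    (hss : s * s = 1) : BV G q where
  V := Γ.L.sh.source ∩ Γ.L.sh ⁻¹' Metric.ball (0 : ℂ × ℂ × ℂ) Γ.r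
  s := s
  op := Γ.L.sh.isOpen_inter_preimage Metric.isOpen_ball
  mem := ⟨Γ.q_mem, by
    show Γ.L.sh q ∈ Metric.ball (0 : ℂ × ℂ × ℂ) Γ.r
    rw [Γ.sh_q]
    exact Metric.mem_ball_self Γ.hr⟩
  ss := hss
  sV v hv := by
    have h1 := Γ.sw _ hv.2
    rw [Γ.L.sh.left_inv hv.1] at h1
    refine ⟨h1.m2, ?_⟩
    show Γ.L.sh (s • v) ∈ Metric.ball (0 : ℂ × ℂ × ℂ) Γ.r
    rw [h1.hS]
    exact ball_sw hv.2
  two g v hv hgv := by
    refine Γ.stab g _ hv.2 _ hgv.2 ?_
    rw [Γ.L.sh.left_inv hv.1, Γ.L.sh.left_inv hgv.1]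
  sz := hfix

/-- **the small neighbourhood of the base cluster point** -/
theorem exists_VB {s : G} {q : N} {hsl : IsSl (ambFam F) D.X1 3} [ContinuousConstSMul G N]
    (Γ : GermE hsl A P s q) (hσ : A.σ s 0 = 1) (hfix : s • q = q) (hss : s * s = 1) {O : Set N}
    (hO : IsOpen O) (hq : q ∈ O) :
    ∃ B : BV G q, B.s = s ∧ B.V ⊆ O ∧ B.V ⊆ Γ.L.sh.source ∧
      (∀ z ∈ B.V, Γ.L.sh z ∈ Metric.ball (0 : ℂ × ℂ × ℂ) Γ.r) ∧
      (∀ y : A.X, A.pz y ∈ B.V → InCh P Γ.r (st A Γ.L Γ.hX y)) ∧ Swp A Γ.L B.s B.V := by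
  obtain ⟨W, h1, h2, h3, h4, h5⟩ := exists_cover A (L := Γ.L) Γ.hX Γ.hr Γ.ball
  have hq' : Γ.L.sh.symm 0 = q := by rw [← Γ.sh_q]; exact Γ.L.sh.left_inv Γ.q_mem
  rw [hq'] at h2
  have h6 := shrink_sub (bvE Γ hfix hss) (W ∩ O) (h1.inter hO) ⟨h2, hq⟩
  have h7 := shrink_sub' (bvE Γ hfix hss) (W ∩ O) (h1.inter hO) ⟨h2, hq⟩
  refine ⟨shrink (bvE Γ hfix hss) (W ∩ O) (h1.inter hO) ⟨h2, hq⟩, rfl, fun z hz => (h6 hz).2,
    fun z hz => h3 (h6 hz).1, fun z hz => h4 z (h6 hz).1, fun y hy => h5 y (h6 hy).1,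
    swp_of (s := s) hσ fun z hz => ?_⟩
  have h8 := Γ.sw _ (h7 hz).2
  rwa [Γ.L.sh.left_inv (h7 hz).1] at h8

end

end Crest.Agent.R272.PEnd8_732
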