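import Crest.Agent.R272.Tq9_916
import Crest.Agent.R272.PEnd8_732
import Crest.Agent.R272.Tq2_916
import Crest.Agent.R272.PEnd9_732
import Crest.Agent.R272.Act1_302
import Crest.Agent.R272.Gr2_559
import Crest.Agent.R272.MQ2_783
import Crest.Agent.R272.HFam_342
import Crest.Agent.R272.Gr5_559
import Crest.Agent.R272.LbAsm3_990

-- ▼ part R272/Tq10_916
section

/-!
# R272 (S0415), MOD-TP (helper916): the swap at the base cluster point

`SymL A L s` : the local data are symmetric under the involution `s`; `SymL.swp` : 732's `Swp`,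
`s • (standard point σ) = standard point (swA σ)`;
`exists_locS` : symmetric local data at the base cluster point.
-/

set_option autoImplicit false
set_option linter.unusedSectionVars false

open Set Filter Topology OnePoint

namespace Crest.Agent.R272.Tq10_916

open Crest.Agent.R275.Geo Crest.Agent.R273.Fam_835 Crest.Agent.R272.FamP_54
open Crest.Agent.R272.HFam_342 Crest.Agent.R272.Tp1_60 Crest.Agent.R272.Refl_246
open Crest.Agent.R272.Tp2_60 hiding Amb
open Crest.Agent.R272.Tp3_60 Crest.Agent.R272.Tp4_60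
open Crest.Agent.R272.Tp5_60 Crest.Agent.R272.SubF_54 Crest.Agent.R272.Tp6_60
open Crest.Agent.R272.Tq1_916 Crest.Agent.R272.Tq3_916 Crest.Agent.R272.Tq4_916
  Crest.Agent.R272.Tq8_916 Crest.Agent.R272.Tq9_916
open Crest.Agent.R272.Cur_297 (Par Cv tt kk cur continuous_tt)
open Crest.Agent.R272.P1A_54 (ambFam holF_iff)
open Crest.Agent.R272.Gr_559 (GData)
open Crest.Agent.R272.Gr_559.GData (Amb)
open Crest.Agent.R272.P1F_54 (mulP)
open Crest.Agent.R272.Act_302 (GAct)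
open Crest.Agent.R272.Quot_783 (HolF)

noncomputable section

theorem mulP_eq (a b : ℂ) (t : P1) : mulP a b t = mob a 0 0 b t := by
  unfold mulP mob
  rw [rat_eq]
  congr 1
  · show a * nn t = _
    ring
  · show b * dd t = _
    ring

theorem mob_comp {α β γ δ α' β' γ' δ' x y z w : ℂ} (h : α * δ - β * γ ≠ 0)
    (h1 : α' * α + β' * γ = x) (h2 : α' * β + β' * δ = y) (h3 : γ' * α + δ' * γ = z)
    (h4 : γ' * β + δ' * δ = w) (t : P1) :
    mob α' β' γ' δ' (mob α β γ δ t) = mob x y z w t := by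
  subst h1; subst h2; subst h3; subst h4
  unfold mob
  obtain ⟨c, hc, e1, e2⟩ := exists_rat (mob_ne h t)
  rw [← rat_mul hc]
  congr 1
  · linear_combination -α' * e1 - β' * e2
  · linear_combination -γ' * e1 - δ' * e2

theorem mob_scale {k α β γ δ : ℂ} (hk : k ≠ 0) (t : P1) :
    mob (k * α) (k * β) (k * γ) (k * δ) t = mob α β γ δ t := by
  unfold mob
  rw [show k * α * nn t + k * β * dd t = k * (α * nn t + β * dd t) by ring,
    show k * γ * nn t + k * δ * dd t = k * (γ * nn t + δ * dd t) by ring, rat_mul hk]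

variable {N : Type} [TopologicalSpace N] {F : Fam 3 N} {P : Par} {D : GData F} {G : Type}
  [Group G] [MulAction G N]

/-- the local data are symmetric under `s` -/
structure SymL (A : GAct D G) (L : Loc P N) (s : G) : Prop where
  σ : A.σ s = Equiv.swap 0 1
  src : ∀ z ∈ L.sh.source, s • z ∈ L.sh.source
  sh : ∀ z ∈ L.sh.source, L.sh (s • z) = ((L.sh z).1, (L.sh z).2.2, (L.sh z).2.1)
  a : ∀ z ∈ L.sh.source, L.a (s • z) = A.j0 s z * L.a z
  b : ∀ z ∈ L.sh.source, ∀ i, L.b (A.σ s i) (s • z) = A.j s i z * L.b i z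
  m : ∀ z ∈ L.sh.source, ∀ i, L.m (A.σ s i) (s • z) * A.q s i z = A.p s i z * L.m i z

variable {A : GAct D G} {L : Loc P N} {s : G}

theorem tm_smul {a b a' b' j j0 : ℂ} (ha : a ≠ 0) (hb : b ≠ 0) (h1 : a' = j0 * a)
    (h2 : b' = j * b) (T : P1) : mulP j j0 (tm P a b T) = tm P a' b' T := by
  rw [mulP_eq]
  unfold tm
  subst h1; subst h2
  refine mob_comp ?_ (by ring) (by ring) (by ring) (by ring) T
  rw [mul_zero, sub_zero]
  exact mul_ne_zero hb ha

theorem vm_smul {a β a' β' e jv j0 : ℂ} (ha : a ≠ 0) (hb : β ≠ 0) (h1 : a' = j0 * a)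
    (h2 : β' = jv * β) (V : P1) : mulP jv j0 (vm a β e V) = vm a' β' e V := by
  rw [mulP_eq]
  unfold vm
  subst h1; subst h2
  refine mob_comp ?_ (by ring) (by ring) (by ring) (by ring) V
  rw [mul_zero, sub_zero]
  exact mul_ne_zero hb ha

theorem km_smul {m m' p q : ℂ} (hm : m ≠ 0) (hq : q ≠ 0) (h : m' * q = p * m) (K : P1) :
    mulP p q (km m K) = km m' K := by
  rw [mulP_eq]
  unfold km
  have e : mob m' 0 0 1 K = mob (q * m') (q * 0) (q * 0) (q * 1) K := (mob_scale hq K).symm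
  rw [e]
  refine mob_comp ?_ (by linear_combination -h) (by ring) (by ring) (by ring) K
  simpa using hm

/-- **the swap in standard coordinates** -/
theorem SymL.swp (h : SymL A L s) : PEnd8_732.Swp A L s univ := by
  intro σ hσ ht _
  have hz := L.sh.map_target ht
  set z := L.sh.symm σ.1 with hzd
  have e0 : L.sh z = σ.1 := L.sh.right_inv ht
  have e1 := h.sh z hz
  rw [e0] at e1
  have hs := h.src z hz
  have ht' : (swA σ).1 ∈ L.sh.target := by
    have := L.sh.map_source hs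
    rw [e1] at this
    exact this
  have e2 : L.sh.symm (swA σ).1 = s • z := by
    have := L.sh.left_inv hs
    rw [e1] at this
    exact this
  refine ⟨ht', ?_⟩
  have ha := L.a0 z hz
  have hb := L.b0 0 z hz
  have hb' := L.b0 1 z hz
  have s0 : A.σ s 0 = 1 := by rw [h.σ]; rfl
  have s1 : A.σ s 1 = 0 := by rw [h.σ]; rfl
  have b0 := h.b z hz 0
  have b1 := h.b z hz 1
  have m0 := h.m z hz 0
  have m1 := h.m z hz 1
  rw [s0] at b0 m0
  rw [s1] at b1 m1
  refine GAct.amb_ext (A.σ s) ?_ (fun i => ?_) ?_ (fun i => ?_)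
  · show s • z = L.sh.symm (swA σ).1
    exact e2.symm
  · rw [A.act_t]
    fin_cases i
    · show mulP (A.j s 0 z) (A.j0 s z) (tm P (L.a z) (L.b 0 z) (tt σ.2.1)) =
        (toA N (L.fro (swA σ))).2.1 (A.σ s 0)
      rw [s0]
      show _ = tm P (L.a (L.sh.symm (swA σ).1)) (L.b 1 (L.sh.symm (swA σ).1)) (tt σ.2.1)
      rw [e2]
      exact tm_smul ha hb (h.a z hz) b0 _
    · show mulP (A.j s 1 z) (A.j0 s z) (tm P (L.a z) (L.b 1 z) (tt σ.2.2.1)) =
        (toA N (L.fro (swA σ))).2.1 (A.σ s 1)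
      rw [s1]
      show _ = tm P (L.a (L.sh.symm (swA σ).1)) (L.b 0 (L.sh.symm (swA σ).1)) (tt σ.2.2.1)
      rw [e2]
      exact tm_smul ha hb' (h.a z hz) b1 _
  · rw [A.act_v]
    show mulP (A.jv s z) (A.j0 s z) (vm (L.a z) (L.b 0 z * L.b 1 z) (Loc.ee P σ.1) σ.2.2.2) =
      vm (L.a (L.sh.symm (swA σ).1)) (L.b 0 (L.sh.symm (swA σ).1) * L.b 1 (L.sh.symm (swA σ).1))
        (Loc.ee P (swA σ).1) σ.2.2.2
    rw [e2]
    have ee : Loc.ee P (swA σ).1 = Loc.ee P σ.1 := by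
      unfold Loc.ee swA
      ring
    rw [ee]
    refine vm_smul ha (mul_ne_zero hb hb') (h.a z hz) ?_ _
    rw [b0, b1]
    unfold GAct.jv
    ring
  · rw [A.act_k]
    fin_cases i
    · show mulP (A.p s 0 z) (A.q s 0 z) (km (L.m 0 z) (kk σ.2.1)) =
        (toA N (L.fro (swA σ))).2.2.2 (A.σ s 0)
      rw [s0]
      show _ = km (L.m 1 (L.sh.symm (swA σ).1)) (kk σ.2.1)
      rw [e2]
      exact km_smul (L.m0 0 z hz) (A.q_ne s 0 z) m0 _
    · show mulP (A.p s 1 z) (A.q s 1 z) (km (L.m 1 z) (kk σ.2.2.1)) =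
        (toA N (L.fro (swA σ))).2.2.2 (A.σ s 1)
      rw [s1]
      show _ = km (L.m 0 (L.sh.symm (swA σ).1)) (kk σ.2.2.1)
      rw [e2]
      exact km_smul (L.m0 1 z hz) (A.q_ne s 1 z) m1 _

/-! ### existence of symmetric local data -/

theorem freq_line {sh : OpenPartialHomeomorph N (ℂ × ℂ × ℂ)} {z : N} (hz : z ∈ sh.source)
    (v : ℂ × ℂ × ℂ) {p : ℂ × ℂ × ℂ → Prop} (h : ∀ᶠ ε in 𝓝[≠] (0 : ℂ), p (sh z + ε • v)) :
    ∃ᶠ y in 𝓝 z, p (sh y) := by
  have h0 : Tendsto (fun ε : ℂ => sh z + ε • v) (𝓝 0) (𝓝 (sh z)) := by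
    have : ContinuousAt (fun ε : ℂ => sh z + ε • v) 0 := by fun_prop
    have h5 := this.tendsto
    simp only [zero_smul, add_zero] at h5
    exact h5
  have hc : Tendsto (fun ε : ℂ => sh.symm (sh z + ε • v)) (𝓝[≠] 0) (𝓝 z) := by
    have h1 := sh.continuousAt_symm (sh.map_source hz)
    unfold ContinuousAt at h1
    rw [sh.left_inv hz] at h1
    exact (h1.comp h0).mono_left nhdsWithin_le_nhds
  have h2 : ∀ᶠ ε in 𝓝[≠] (0 : ℂ), sh z + ε • v ∈ sh.target :=
    nhdsWithin_le_nhds (h0.eventually (sh.open_target.mem_nhds (sh.map_source hz)))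
  have h3 : ∀ᶠ ε in 𝓝[≠] (0 : ℂ), p (sh (sh.symm (sh z + ε • v))) := by
    filter_upwards [h, h2] with ε a b
    rw [sh.right_inv b]
    exact a
  exact hc.frequently h3.frequently

theorem eq_of_freq {z : N} {f g h : N → ℂ} (hf : ContinuousAt f z) (hg : ContinuousAt g z)
    (hfr : ∃ᶠ y in 𝓝 z, h y ≠ 0) (he : ∀ᶠ y in 𝓝 z, f y * h y = g y * h y) : f z = g z := by
  by_contra hne
  have h1 : ∀ᶠ y in 𝓝 z, f y - g y ≠ 0 := (hf.sub hg).eventually_ne (sub_ne_zero.2 hne)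
  obtain ⟨y, hy1, hy2, hy3⟩ := (hfr.and_eventually (he.and h1)).exists
  exact hy3 (sub_eq_zero.2 (mul_right_cancel₀ hy1 hy2))

theorem ne_line (x : ℂ) : ∀ᶠ ε in 𝓝[≠] (0 : ℂ), x + ε ≠ 0 := by
  by_cases hx : x = 0
  · filter_upwards [self_mem_nhdsWithin] with ε hε
    rw [hx, zero_add]
    exact hε
  · refine nhdsWithin_le_nhds ?_
    have hc : ContinuousAt (fun ε : ℂ => x + ε) 0 := by fun_prop
    exact hc.eventually_ne (by simpa using hx)

/-- **symmetric local data at the base cluster point** -/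
theorem exists_locS (A : GAct D G) {p₀ : N} {s : G} (B : P0_939.BPt D P G p₀ s)
    (hσ : A.σ s = Equiv.swap 0 1) {O : Set N} (hO : IsOpen O) (hpO : p₀ ∈ O) :
    ∃ L : Loc P N, SymL A L s ∧ HLoc F L ∧ p₀ ∈ L.sh.source ∧
      L.sh.source ⊆ O ∩ B.p.U ∩ B.p'.U ∧ L.sh p₀ = 0 ∧
      (∀ z ∈ L.sh.source, L.sh z = (B.p.s0 z, B.p.s1 z, B.p'.s1 z) ∧ L.a z = B.p.a z ∧
        L.a z = B.p'.a z ∧ L.b 0 z = B.p.b z ∧ L.b 1 z = B.p'.b z ∧
        L.m 0 z ^ 2 * B.p.w z = B.p.u z ∧ L.m 1 z ^ 2 * B.p'.w z = B.p'.u z) ∧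
      ∀ y : E6 N, y.1 ∈ L.sh.source → (toA N y ∈ D.X1 ↔ RelX L y) := by
  obtain ⟨L0, q1, q2, q3, q4, q5, q6, q7⟩ := Tq2_916.exists_loc D P B.p B.p' B.s0_eq B.c_eq
    B.c'_eq B.snc B.f0_zero (B.x_zero 0) (B.x_zero 1) hO hpO
  set p := B.p with hp
  set p' := B.p' with hp'
  have hsc : Continuous fun z : N => s • z := (A.hol s).cont
  have hss : ∀ z : N, s • s • z = z := fun z => by rw [← mul_smul, B.s_sq, one_smul]
  set W : Set N := L0.sh.source ∩ (fun z => s • z) ⁻¹' L0.sh.source with hW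
  have hWo : IsOpen W := L0.sh.open_source.inter (L0.sh.open_source.preimage hsc)
  have hWs : ∀ z ∈ W, s • z ∈ W := fun z hz => ⟨hz.2, by
    show s • s • z ∈ L0.sh.source
    rw [hss]; exact hz.1⟩
  have hpW : p₀ ∈ W := ⟨q1, by
    show s • p₀ ∈ L0.sh.source
    rw [B.s_fix]; exact q1⟩
  have s0 : A.σ s 0 = 1 := by rw [hσ]; rfl
  have s1 : A.σ s 1 = 0 := by rw [hσ]; rfl
  have hU : ∀ {f : N → ℂ}, HolF F p.U f → HF F p.U f := fun h => (holF_iff p.U_open).1 h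
  have hU' : ∀ {f : N → ℂ}, HolF F p'.U f → HF F p'.U f := fun h => (holF_iff p'.U_open).1 h
  have hV : ∀ {f : N → ℂ}, HolF F univ f → ∀ z, HFA F f z :=
    fun h z => (holF_iff isOpen_univ).1 h z trivial
  have mU : ∀ z ∈ W, z ∈ p.U := fun z hz => (q2 hz.1).1.2
  have mU' : ∀ z ∈ W, z ∈ p'.U := fun z hz => (q2 hz.1).2
  have hcs : ∀ {f : N → ℂ} {z : N}, ContinuousAt f (s • z) → ContinuousAt (fun y => f (s • y)) z :=
    fun h => ContinuousAt.comp (f := fun y : N => s • y) h hsc.continuousAt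
  have ev : ∀ z ∈ W, ∀ᶠ y in 𝓝 z, y ∈ W := fun z hz => hWo.mem_nhds hz
  have fr1 : ∀ z ∈ W, ∀ v : ℂ × ℂ × ℂ, ∀ {r : ℂ × ℂ × ℂ → Prop},
      (∀ᶠ ε in 𝓝[≠] (0 : ℂ), r (L0.sh z + ε • v)) →
      ∃ᶠ y in 𝓝 z, r (p.s0 y, p.s1 y, p'.s1 y) := by
    intro z hz v r hr
    refine ((freq_line hz.1 v hr).and_eventually (ev z hz)).mono ?_
    rintro y ⟨h1, h2⟩
    rw [← (q4 y h2.1).1]
    exact h1
  -- densities
  have d0 : ∀ z ∈ W, ∃ᶠ y in 𝓝 z, p.s0 y ≠ 0 := fun z hz =>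
    fr1 z hz (1, 0, 0) (r := fun S => S.1 ≠ 0) (by
      simpa using ne_line (L0.sh z).1)
  have d1 : ∀ z ∈ W, ∀ j, ∃ᶠ y in 𝓝 z, p.s1 y - P.c j * p.s0 y ≠ 0 := fun z hz j =>
    fr1 z hz (0, 1, 0) (r := fun S => S.2.1 - P.c j * S.1 ≠ 0) (by
      filter_upwards [ne_line ((L0.sh z).2.1 - P.c j * (L0.sh z).1)] with ε h
      intro h2
      apply h
      simp at h2
      linear_combination h2)
  have d2 : ∀ z ∈ W, ∃ᶠ y in 𝓝 z, p'.s1 y - P.c 5 * p.s0 y ≠ 0 := fun z hz =>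
    fr1 z hz (0, 0, 1) (r := fun S => S.2.2 - P.c 5 * S.1 ≠ 0) (by
      filter_upwards [ne_line ((L0.sh z).2.2 - P.c 5 * (L0.sh z).1)] with ε h
      intro h2
      apply h
      simp at h2
      linear_combination h2)
  have d3 : ∀ z ∈ W, ∀ i j k, ∃ᶠ y in 𝓝 z, (p.s1 y - P.c i * p.s0 y) *
      (p.s1 y - P.c j * p.s0 y) * (p.s1 y - P.c k * p.s0 y) ≠ 0 := fun z hz i j k =>
    fr1 z hz (0, 1, 0) (r := fun S => (S.2.1 - P.c i * S.1) * (S.2.1 - P.c j * S.1) *
      (S.2.1 - P.c k * S.1) ≠ 0) (by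
      filter_upwards [ne_line ((L0.sh z).2.1 - P.c i * (L0.sh z).1),
        ne_line ((L0.sh z).2.1 - P.c j * (L0.sh z).1),
        ne_line ((L0.sh z).2.1 - P.c k * (L0.sh z).1)] with ε h1 h2 h3
      refine mul_ne_zero (mul_ne_zero ?_ ?_) ?_
      · intro h; apply h1; simp at h; linear_combination h
      · intro h; apply h2; simp at h; linear_combination h
      · intro h; apply h3; simp at h; linear_combination h)
  -- transformation laws
  have ea : ∀ z ∈ W, L0.a (s • z) = A.j0 s z * L0.a z := by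
    intro z hz
    refine eq_of_freq (f := fun y => L0.a (s • y)) (g := fun y => A.j0 s y * L0.a y)
      (hcs (q5 _ hz.2).1.continuousAt)
      ((hV (A.j0_hol s) z).continuousAt.mul (q5 z hz.1).1.continuousAt) (d0 z hz) ?_
    filter_upwards [ev z hz] with y hy
    have h1 := A.f0_smul s y
    have hy2 := hWs y hy
    rw [p.ef _ (mU _ hy2), p.ef _ (mU _ hy), B.s0_smul] at h1
    rw [(q4 _ hy2.1).2.1, (q4 _ hy.1).2.1]
    linear_combination h1
  have eb0 : ∀ z ∈ W, L0.b 1 (s • z) = A.j s 0 z * L0.b 0 z := by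
    intro z hz
    refine eq_of_freq (f := fun y => L0.b 1 (s • y)) (g := fun y => A.j s 0 y * L0.b 0 y)
      (hcs ((q5 _ hz.2).2.1 1).continuousAt)
      ((hV (A.j_hol s 0) z).continuousAt.mul ((q5 z hz.1).2.1 0).continuousAt) (d1 z hz 5) ?_
    filter_upwards [ev z hz] with y hy
    have h1 := A.x_smul s 0 y
    have hy2 := hWs y hy
    rw [s0, p'.ex _ (mU' _ hy2), p.ex _ (mU _ hy), B.s0_eq, B.s0_smul, B.s1'_smul, B.c_eq,
      B.c'_eq] at h1
    rw [(q4 _ hy2.1).2.2.2.2.1, (q4 _ hy.1).2.2.2.1]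
    linear_combination h1
  have eb1 : ∀ z ∈ W, L0.b 0 (s • z) = A.j s 1 z * L0.b 1 z := by
    intro z hz
    refine eq_of_freq (f := fun y => L0.b 0 (s • y)) (g := fun y => A.j s 1 y * L0.b 1 y)
      (hcs ((q5 _ hz.2).2.1 0).continuousAt)
      ((hV (A.j_hol s 1) z).continuousAt.mul ((q5 z hz.1).2.1 1).continuousAt) (d2 z hz) ?_
    filter_upwards [ev z hz] with y hy
    have h1 := A.x_smul s 1 y
    have hy2 := hWs y hy
    rw [s1, p.ex _ (mU _ hy2), p'.ex _ (mU' _ hy), B.s0_eq, B.s0_smul, B.s1_smul, B.c_eq,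
      B.c'_eq] at h1
    rw [(q4 _ hy2.1).2.2.2.1, (q4 _ hy.1).2.2.2.2.1]
    linear_combination h1
  have eu : ∀ z ∈ W, p'.u (s • z) = A.p s 0 z ^ 2 * p.u z := by
    intro z hz
    refine eq_of_freq (f := fun y => p'.u (s • y)) (g := fun y => A.p s 0 y ^ 2 * p.u y)
      (hcs (hU' p'.u_hol _ (mU' _ (hWs z hz))).continuousAt)
      (((hV (A.p_hol s 0) z).continuousAt.pow 2).mul (hU p.u_hol _ (mU z hz)).continuousAt)
      (d3 z hz 0 1 2) ?_
    filter_upwards [ev z hz] with y hy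
    have h1 := A.P_smul s 0 y
    have hy2 := hWs y hy
    rw [s0, p'.eP _ (mU' _ hy2), p.eP _ (mU _ hy), B.s0_eq, B.s0_smul, B.s1'_smul, B.c_eq,
      B.c'_eq] at h1
    linear_combination h1
  have ew : ∀ z ∈ W, p'.w (s • z) = A.q s 0 z ^ 2 * p.w z := by
    intro z hz
    refine eq_of_freq (f := fun y => p'.w (s • y)) (g := fun y => A.q s 0 y ^ 2 * p.w y)
      (hcs (hU' p'.w_hol _ (mU' _ (hWs z hz))).continuousAt)
      (((hV (A.q_hol s 0) z).continuousAt.pow 2).mul (hU p.w_hol _ (mU z hz)).continuousAt)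
      (d3 z hz 3 4 5) ?_
    filter_upwards [ev z hz] with y hy
    have h1 := A.Q_smul s 0 y
    have hy2 := hWs y hy
    rw [s0, p'.eQ _ (mU' _ hy2), p.eQ _ (mU _ hy), B.s0_eq, B.s0_smul, B.s1'_smul, B.c_eq,
      B.c'_eq] at h1
    linear_combination h1
  -- the second root
  set m1 : N → ℂ := fun z => A.p s 0 (s • z) / A.q s 0 (s • z) * L0.m 0 (s • z) with hm1
  have em1 : ∀ z ∈ W, m1 z ^ 2 * p'.w z = p'.u z := by
    intro z hz
    have hz2 := hWs z hz
    have h1 := eu _ hz2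
    have h2 := ew _ hz2
    rw [hss] at h1 h2
    have h3 := (q4 _ hz2.1).2.2.2.2.2.1
    have hq := A.q_ne s 0 (s • z)
    rw [h1, h2, ← h3]
    simp only [hm1]
    field_simp
  have hHC : ∀ z, HC F F (fun y : N => s • y) z := fun z => (A.hol s).hC z
  have hm1F : ∀ z ∈ W, HFA F m1 z := by
    intro z hz
    have h1 : HFA F (fun y => A.p s 0 (s • y)) z := hfa_comp (hV (A.p_hol s 0) _) (hHC z)
    have h2 : HFA F (fun y => A.q s 0 (s • y)) z := hfa_comp (hV (A.q_hol s 0) _) (hHC z)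
    have h3 : HFA F (fun y => L0.m 0 (s • y)) z := hfa_comp ((q5 _ hz.2).2.2.1 0) (hHC z)
    exact (h1.div h2 (A.q_ne s 0 _)).mul h3
  have hsrc : ∀ z, z ∈ (L0.sh.restrOpen W hWo).source ↔ z ∈ W := by
    intro z
    rw [OpenPartialHomeomorph.restrOpen_source]
    exact ⟨fun h => h.2, fun h => ⟨h.1, h⟩⟩
  let L : Loc P N :=
    { sh := L0.sh.restrOpen W hWo
      a := L0.a
      b := L0.b
      m := ![L0.m 0, m1]
      ca := fun z hz => (q5 z ((hsrc z).1 hz).1).1.continuousAt.continuousWithinAt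
      cb := fun i z hz => ((q5 z ((hsrc z).1 hz).1).2.1 i).continuousAt.continuousWithinAt
      cm := fun i z hz => by
        fin_cases i
        · exact ((q5 z ((hsrc z).1 hz).1).2.2.1 0).continuousAt.continuousWithinAt
        · exact (hm1F z ((hsrc z).1 hz)).continuousAt.continuousWithinAt
      a0 := fun z hz => L0.a0 z ((hsrc z).1 hz).1
      b0 := fun i z hz => L0.b0 i z ((hsrc z).1 hz).1
      m0 := fun i z hz => by
        fin_cases i
        · exact L0.m0 0 z ((hsrc z).1 hz).1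
        · exact mul_ne_zero (div_ne_zero (A.p_ne _ _ _) (A.q_ne _ _ _))
            (L0.m0 0 _ ((hsrc z).1 hz).2) }
  refine ⟨L, ⟨hσ, ?_, ?_, ?_, ?_, ?_⟩, ⟨?_, ?_, ?_, ?_, ?_⟩, (hsrc _).2 hpW, ?_, q3, ?_, ?_⟩
  · intro z hz
    exact (hsrc _).2 (hWs z ((hsrc z).1 hz))
  · intro z hz
    have hz1 := (hsrc z).1 hz
    show L0.sh (s • z) = ((L0.sh z).1, (L0.sh z).2.2, (L0.sh z).2.1)
    rw [(q4 _ hz1.1).1, (q4 _ hz1.2).1]
    show (p.s0 (s • z), p.s1 (s • z), p'.s1 (s • z)) = (p.s0 z, p'.s1 z, p.s1 z)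
    rw [B.s0_smul, B.s1_smul, B.s1'_smul]
  · intro z hz
    exact ea z ((hsrc z).1 hz)
  · intro z hz i
    fin_cases i
    · show L0.b (A.σ s 0) (s • z) = _
      rw [s0]
      exact eb0 z ((hsrc z).1 hz)
    · show L0.b (A.σ s 1) (s • z) = _
      rw [s1]
      exact eb1 z ((hsrc z).1 hz)
  · intro z hz i
    have hq := A.q_ne s 0 z
    have e1 : m1 (s • z) = A.p s 0 z / A.q s 0 z * L0.m 0 z := by
      simp only [hm1, hss]
    fin_cases i
    · show L.m (A.σ s 0) (s • z) * A.q s 0 z = A.p s 0 z * L0.m 0 z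
      rw [s0]
      show m1 (s • z) * A.q s 0 z = _
      rw [e1]
      field_simp
    · show L.m (A.σ s 1) (s • z) * A.q s 1 z = A.p s 1 z * m1 z
      rw [s1]
      show L0.m 0 (s • z) * A.q s 1 z = _
      have c1 := A.p_mul s s 1 z
      have c2 := A.q_mul s s 1 z
      rw [B.s_sq, A.p_one, s1] at c1
      rw [B.s_sq, A.q_one, s1] at c2
      have hq2 := A.q_ne s 0 (s • z)
      simp only [hm1]
      field_simp
      linear_combination (-L0.m 0 (s • z)) * c2 + L0.m 0 (s • z) * c1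
  · intro z hz
    exact (q5 z ((hsrc z).1 hz).1).1
  · intro i z hz
    exact (q5 z ((hsrc z).1 hz).1).2.1 i
  · intro i z hz
    fin_cases i
    · exact (q5 z ((hsrc z).1 hz).1).2.2.1 0
    · exact hm1F z ((hsrc z).1 hz)
  · intro z hz
    exact (q5 z ((hsrc z).1 hz).1).2.2.2
  · intro S hS j hj
    have : S ∈ L0.sh.target := by
      have h1 : S ∈ (L0.sh.restrOpen W hWo).target := hS
      have h2 := (L0.sh.restrOpen W hWo).map_target h1
      have h3 := (L0.sh.restrOpen W hWo).right_inv h1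
      have h4 : (L0.sh.restrOpen W hWo).symm S ∈ L0.sh.source := ((hsrc _).1 h2).1
      have h5 := L0.sh.map_source h4
      have h6 : L0.sh ((L0.sh.restrOpen W hWo).symm S) = S := h3
      rwa [h6] at h5
    exact q6 S this j hj
  · intro z hz
    exact q2 ((hsrc z).1 hz).1
  · intro z hz
    have hz1 := (hsrc z).1 hz
    obtain ⟨k1, k2, k3, k4, k5, k6, -⟩ := q4 z hz1.1
    exact ⟨k1, k2, k3, k4, k5, k6, em1 z hz1⟩
  · intro y hy
    have hy1 := (hsrc _).1 hy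
    have h1 : toA N y ∈ D.X1 ↔ RelX L0 y := q7 y hy1.1
    have h2 : L0.m 1 y.1 ^ 2 = m1 y.1 ^ 2 := by
      refine mul_right_cancel₀ (p'.w_ne _ (mU' _ hy1)) ?_
      rw [em1 _ hy1]
      exact (q4 _ hy1.1).2.2.2.2.2.2
    rw [h1]
    constructor
    · rintro ⟨r1, r2, v1, v2, c1, c2⟩
      refine ⟨r1, r2, v1, v2, c1, ?_⟩
      rw [h2] at c2
      exact c2
    · rintro ⟨r1, r2, v1, v2, c1, c2⟩
      refine ⟨r1, r2, v1, v2, c1, ?_⟩
      rw [h2]
      exact c2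

end

end Crest.Agent.R272.Tq10_916
end

-- ▼ part R272/Tq11_916
section

/-!
# R272 (S0415), MOD-TP (helper916): the germ and the zero section from the symmetric local data

`germ_of_L` : 60's `GermE` with a given symmetric `L`;
`exists_germE` : `GermE` together with the pen equations of `L`;
`GermE.swp`, `GermE.zsec` : 732's `Swp` over the ball, 834's `ZSec` for `Γ.g`, `z = zM`.
-/

set_option autoImplicit false
set_option linter.unusedSectionVars false

open Set Filter Topology OnePoint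

namespace Crest.Agent.R272.Tq11_916

open Crest.Agent.R275.Geo Crest.Agent.R273.Fam_835 Crest.Agent.R272.FamP_54
open Crest.Agent.R272.HFam_342 Crest.Agent.R272.Tp1_60 Crest.Agent.R272.Refl_246
open Crest.Agent.R272.Tp2_60 hiding Amb
open Crest.Agent.R272.Tp3_60 Crest.Agent.R272.Tp4_60
open Crest.Agent.R272.Tp5_60 Crest.Agent.R272.SubF_54 Crest.Agent.R272.Tp6_60
open Crest.Agent.R272.Tp7_60 (IsE cpt_E)
open Crest.Agent.R272.Tp9_60 (SwRel act_E sw_DE)
open Crest.Agent.R272.Tp10_60 (GermE exists_pt)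
open Crest.Agent.R272.Tq1_916 Crest.Agent.R272.Tq3_916 Crest.Agent.R272.Tq4_916
  Crest.Agent.R272.Tq8_916 Crest.Agent.R272.Tq9_916 Crest.Agent.R272.Tq10_916
open Crest.Agent.R272.Cur_297 (Par Cv tt kk cur continuous_tt)
open Crest.Agent.R272.P1A_54 (ambFam)
open Crest.Agent.R272.Gr_559 (GData)
open Crest.Agent.R272.Gr_559.GData (Amb)
open Crest.Agent.R272.AJ_956 (Cur)
open Crest.Agent.R272.Idn_834 (Germ sw)
open Crest.Agent.R272.Ax_834 (ZSec)
open Crest.Agent.R272.Act_302 (GAct)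

noncomputable section

variable {N : Type} [TopologicalSpace N] {F : Fam 3 N} {P : Par} {D : GData F} {G : Type}
  [Group G] [MulAction G N] {A : GAct D G} {s : G} {q : N}

theorem _root_.Crest.Agent.R272.Tq10_916.SymL.swRel {L : Loc P N} (h : SymL A L s) {z : N}
    (hz : z ∈ L.sh.source) : SwRel A L s z := by
  have s0 : A.σ s 0 = 1 := by rw [h.σ]; rfl
  have s1 : A.σ s 1 = 0 := by rw [h.σ]; rfl
  have b0 := h.b z hz 0
  have b1 := h.b z hz 1
  have m0 := h.m z hz 0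
  have m1 := h.m z hz 1
  rw [s0] at b0 m0
  rw [s1] at b1 m1
  exact ⟨hz, h.src z hz, h.sh z hz, h.a z hz, b1, b0, m1, m0⟩

/-- 60's germ over given symmetric local data -/
theorem germ_of_L (hsl : IsSl (ambFam F) D.X1 3) {L : Loc P N} (hS : SymL A L s)
    (H : HLoc F L) (hqL : q ∈ L.sh.source) (hLq : L.sh q = 0)
    (hX : ∀ y : E6 N, y.1 ∈ L.sh.source → (toA N y ∈ D.X1 ↔ RelX L y)) (two : s * s = 1)
    (stab : ∀ g : G, g • q = q → g = 1 ∨ g = s) (hpd : PD G q) :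
    ∃ Γ : GermE hsl A P s q, Γ.L = L := by
  obtain ⟨U, hUo, hqU, hUg⟩ := hpd
  have hsig : A.σ s 0 = 1 := by rw [hS.σ]; rfl
  have hsy : L.sh.symm 0 = q := by rw [← hLq]; exact L.sh.left_inv hqL
  have h0t : (0 : ℂ × ℂ × ℂ) ∈ L.sh.target := by rw [← hLq]; exact L.sh.map_source hqL
  have h1 : ∀ᶠ S in 𝓝 (0 : ℂ × ℂ × ℂ), S ∈ L.sh.target ∧ L.sh.symm S ∈ U := by
    have h2 : Tendsto L.sh.symm (𝓝 0) (𝓝 q) := by
      have := L.sh.continuousAt_symm h0t
      rw [ContinuousAt, hsy] at this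
      exact this
    filter_upwards [L.sh.open_target.mem_nhds h0t, h2.eventually (hUo.mem_nhds hqU)]
      with S a c
    exact ⟨a, c⟩
  obtain ⟨r, hr, hb⟩ := Metric.eventually_nhds_iff_ball.1 h1
  have hball : Metric.ball (0 : ℂ × ℂ × ℂ) r ⊆ L.sh.target := fun S hS => (hb S hS).1
  obtain ⟨E, hEs, hE⟩ := exists_EA L hX hr hball (exists_pt P)
  have hIs : ∀ i, IsE L r i (E i) := fun i p hp => by
    rw [hEs] at hp
    obtain ⟨⟨h2, h3⟩, h4⟩ := hE i p hp
    exact ⟨hp, h2, hball h4, h3⟩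
  have hC := Tq7_916.ch P
  have hstab : ∀ (γ : G), ∀ S ∈ Metric.ball (0 : ℂ × ℂ × ℂ) r,
      ∀ S' ∈ Metric.ball (0 : ℂ × ℂ × ℂ) r, γ • L.sh.symm S = L.sh.symm S' →
        γ = 1 ∨ γ = s := by
    intro γ S hS S' hS' he
    refine stab γ (hUg γ _ (hb S hS).2 ?_)
    rw [he]
    exact (hb S' hS').2
  have hfst : ∀ i, ∀ p ∈ DE P r i, ((E i p).1).1 = L.sh.symm (FE P i p).1 := by
    intro i p hp
    rw [(hE i p hp).1.1]
    rfl
  let g : Germ (cur P) (A.fam hsl) G s :=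
    { E := E
      cpt := fun i c c' => cpt_E H hC hsl (hIs i) c c'
      dom := by
        intro i p hp
        have hp' : p ∈ DE P r i := by rw [← hEs]; exact hp
        fin_cases i
        · exact ⟨(hC.w0 _).2 hp'.1, (hC.w0 _).2 hp'.2.1⟩
        · exact ⟨(hC.w1 _).2 hp'.1, (hC.w1 _).2 hp'.2.1⟩
      mem := by
        intro i c hc
        show ((c, (cur P).iv c), (0 : ℂ)) ∈ (E i).source
        rw [hEs]
        fin_cases i
        · have h2 := (hC.w0 c).1 hc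
          refine ⟨h2, h2, ?_⟩
          simpa using hr
        · have h2 := (hC.w1 c).1 hc
          refine ⟨h2, h2, ?_⟩
          simpa using hr
      ov := by
        intro p hp q' hq
        have hp' : p ∈ DE P r 0 := by rw [← hEs]; exact hp
        have hq' : q' ∈ DE P r 1 := by rw [← hEs]; exact hq
        obtain ⟨⟨a1, a2⟩, a3⟩ := hE 0 p hp'
        obtain ⟨⟨b1, b2⟩, b3⟩ := hE 1 q' hq'
        rw [hC.tv0 _ hp'.1, hC.tv0 _ hp'.2.1, ← FE_ov hp' hq']
        constructor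
        · intro h
          have h2 : (E 0 p).1 = (E 1 q').1 := congrArg Subtype.val h
          rw [a1, b1] at h2
          exact fro_inj L a2 (hball a3) b2 (hball b3) ((toA N).injective h2)
        · intro h
          refine Subtype.ext ?_
          show (E 0 p).1 = (E 1 q').1
          rw [a1, b1, h]
      swap_mem := by
        intro i p hp
        show sw p ∈ (E i).source
        have hp' : p ∈ DE P r i := by rw [← hEs]; exact hp
        rw [hEs]
        exact sw_DE hp'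
      swap := by
        intro i p hp
        have hp' : p ∈ DE P r i := by rw [← hEs]; exact hp
        obtain ⟨⟨a1, a2⟩, a3⟩ := hE i p hp'
        obtain ⟨⟨b1, b2⟩, b3⟩ := hE i (sw p) (sw_DE hp')
        refine Subtype.ext ?_
        show A.act s (E i p).1 = (E i (sw p)).1
        rw [a1, b1]
        exact act_E hsig (hball a3) (hball b3) (hS.swRel (L.sh.map_target (hball a3)))
      two := two
      grp := by
        intro γ i j p hp q' hq he
        have hp' : p ∈ DE P r i := by rw [← hEs]; exact hp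
        have hq' : q' ∈ DE P r j := by rw [← hEs]; exact hq
        have h2 : (A.act γ (E i p).1).1 = ((E j q').1).1 :=
          congrArg (fun y : D.X1 => y.1.1) he
        rw [A.act_z, hfst i p hp', hfst j q' hq'] at h2
        exact hstab γ _ (hE i p hp').2 _ (hE j q' hq').2 h2 }
  exact ⟨{ L := L, H := H, q_mem := hqL, sh_q := hLq, hX := hX, r := r, hr := hr, ball := hball,
           sw := fun S hS' => hS.swRel (L.sh.map_target (hball hS')), g := g, src := hEs,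
           isE := hIs, stab := hstab }, rfl⟩

/-- **the germ, with the pen equations** -/
theorem exists_germE (hsl : IsSl (ambFam F) D.X1 3) (B : P0_939.BPt D P G q s)
    (hσ : A.σ s = Equiv.swap 0 1) (hpd : PD G q) {O : Set N} (hO : IsOpen O) (hqO : q ∈ O) :
    ∃ Γ : GermE hsl A P s q, SymL A Γ.L s ∧ Γ.L.sh.source ⊆ O ∩ B.p.U ∩ B.p'.U ∧
      ∀ z ∈ Γ.L.sh.source, Γ.L.sh z = (B.p.s0 z, B.p.s1 z, B.p'.s1 z) ∧ Γ.L.a z = B.p.a z ∧
        Γ.L.a z = B.p'.a z ∧ Γ.L.b 0 z = B.p.b z ∧ Γ.L.b 1 z = B.p'.b z ∧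
        Γ.L.m 0 z ^ 2 * B.p.w z = B.p.u z ∧ Γ.L.m 1 z ^ 2 * B.p'.w z = B.p'.u z := by
  obtain ⟨L, hS, H, h1, h2, h3, h4, h5⟩ := exists_locS A B hσ hO hqO
  obtain ⟨Γ, hΓ⟩ := germ_of_L hsl hS H h1 h3 h5 B.s_sq B.stab hpd
  subst hΓ
  exact ⟨Γ, hS, h2, h4⟩

variable {hsl : IsSl (ambFam F) D.X1 3} (Γ : GermE hsl A P s q)

theorem h0t : (0 : ℂ × ℂ × ℂ) ∈ Γ.L.sh.target := by
  rw [← Γ.sh_q]; exact Γ.L.sh.map_source Γ.q_mem

theorem symm_zero : Γ.L.sh.symm 0 = q := by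
  rw [← Γ.sh_q]; exact Γ.L.sh.left_inv Γ.q_mem

/-- the zero section of the germ -/
def zG : Cv P × Cv P → A.X := zM A Γ.L Γ.hX (h0t Γ)


theorem pz_zG (x : Cv P × Cv P) : A.pz (zG Γ x) = q := symm_zero Γ

/-- the zero section in the frames `E i` of the germ -/
theorem zG_E {i : Fin 2} {x : Cv P × Cv P}
    (hx : ((x, 0) : (Cv P × Cv P) × ℂ) ∈ (Γ.g.E i).source) : Γ.g.E i (x, 0) = zG Γ x :=
  (zA_E' Γ.L Γ.hX (h0t Γ) (Γ.isE i) hx).symm

/-- the standard coordinates determine the point over the cluster -/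
theorem act_zst (hσ : A.σ s 0 = 1) (x : Cv P × Cv P) :
    A.act s (toA N (Γ.L.fro (zst x))) = toA N (Γ.L.fro (zst x.swap)) := by
  have hz : (0 : ℂ × ℂ × ℂ) ∈ Metric.ball (0 : ℂ × ℂ × ℂ) Γ.r := Metric.mem_ball_self Γ.hr
  have h := PEnd8_732.swp_of (A := A) (L := Γ.L) (s := s) (V := {q}) hσ (fun z hz' => by
    have h5 := Γ.sw 0 hz
    rw [symm_zero Γ] at h5
    rw [mem_singleton_iff.1 hz']
    exact h5)
  exact (h (zst x) (zst_mem x) (h0t Γ) (symm_zero Γ)).2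

/-- **the zero section** -/
theorem zpre (hσ : A.σ s 0 = 1) (stab : ∀ g : G, g • q = q → g = 1 ∨ g = s) :
    ZPre (cur P) (A.fam hsl) G s (zG Γ) where
  cont := continuous_zA Γ.L Γ.hX (h0t Γ)
  inj := zA_inj Γ.L Γ.hX (h0t Γ)
  imm := imm_zA Γ.L Γ.hX (h0t Γ) (Tq7_916.ch P) Γ.H Γ.hr Γ.ball hsl
  swap x := Subtype.ext (act_zst Γ hσ x)
  grp g x x' h := by
    have h1 := congrArg A.pz h
    rw [A.pz_smul, pz_zG, pz_zG] at h1
    exact stab g h1

/-- **`ZSec`** for 60's germ -/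
theorem zsec (hσ : A.σ s 0 = 1) (stab : ∀ g : G, g • q = q → g = 1 ∨ g = s) :
    ZSec Γ.g (zG Γ) :=
  (zpre Γ hσ stab).zsec Γ.g fun _ _ hx => zG_E Γ hx

end

end Crest.Agent.R272.Tq11_916
end

-- ▼ part R272/Act2_302
section

/-!
# R272 (S0415), ACTION (helper302), part 2: tools

* `hC_lift`, `hC_prod`, `hC_two`, `hC_amb`, `hC_hmk` : pointwise holomorphy of maps into a
  submanifold, a product, `Fin 2 → Y`, `Amb N`, `P1`;
* `reflAt_of_LC` : a locally biholomorphic equivariant map transports `ReflAt`;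
* `exists_sqrt_lim`, `exists_lift` : square roots along a filter, in `ℂ` and in `P1`;
* `Mir` : the fixed points near a reflection: `Mir.rel`, `Mir.mem`, `Mir.nhds_le`.
-/

set_option autoImplicit false
set_option linter.unusedSectionVars false

open Set Filter Topology

namespace Crest.Agent.R272.Act_302

open Crest.Agent.R275.Geo Crest.Agent.R273.Fam_835 Crest.Agent.R272.Quot_783
  Crest.Agent.R272.Gr_559 Crest.Agent.R272.FamP_54 Crest.Agent.R272.P1A_54
  Crest.Agent.R272.Flat2_302 Crest.Agent.R272.Refl_246 Crest.Agent.R272.MQ_783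
  Crest.Agent.R272.SubF_54 Crest.Agent.R272.HFam_342 Crest.Agent.R275.Prod363
open Crest.Agent.R272.P1F_54 (nn hmk mulP mulP_ne mulP_hmk mulP_mulP mulP_one mulP_scale
  mulP_rel mulP_holC p1Fam ps pc hmk_smul hfa_pc_hmk hmk_mem_ps ps_cover)

noncomputable section

/-! ### pointwise holomorphy -/

section HCtools

variable {n m k l N : ℕ} {X Y Z P : Type} [TopologicalSpace X] [TopologicalSpace Y]
  [TopologicalSpace Z] [TopologicalSpace P] {E : Fam k P} {F : Fam N X} {G : Fam m Y}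

/-- `HFA` into a chart gives `HC` -/
theorem hC_of_hfa {p : P → Y} {x : P} (hc : ContinuousAt p x) {j : G.ι}
    (hj : p x ∈ (G.e j).source) (h : HFA E (fun y => G.e j (p y)) x) : HC E G p x := by
  obtain ⟨i, hi⟩ := E.cover x
  exact HC.of hc i j hi hj (h i hi)


theorem hC_lift {S : Set X} (h : IsSl F S n) {f : P → S} {x : P}
    (hf : HC E F (fun y => (f y).1) x) : HC E (slFam h) f x := by
  have hfc : ContinuousAt f x := Topology.IsInducing.subtypeVal.continuousAt_iff.2 hf.1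
  obtain ⟨i, hi⟩ := E.cover x
  refine HC.of hfc i (f x) hi (h.mem_sl (f x)) ?_
  set c := h.sl (f x) with hc
  have hxd : (f x).1 ∈ c.dom := h.mem_sl (f x)
  have h1 : DifferentiableAt ℂ (fun z => F.e c.j ((f ((E.e i).symm z)).1)) (E.e i x) :=
    hf.2 i c.j hi hxd.1
  have e1 : F.e c.j ((f ((E.e i).symm (E.e i x))).1) = F.e c.j (f x).1 := by
    rw [(E.e i).left_inv hi]
  have h2 : DifferentiableAt ℂ c.ψ (F.e c.j (f x).1) :=
    c.dψ.differentiableAt (c.hV.mem_nhds hxd.2)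
  exact DifferentiableAt.comp (E.e i x) (g := c.ψ) (by rw [e1]; exact h2) h1

theorem hC_prod {f : P → X} {g : P → Y} {x : P} (hf : HC E F f x) (hg : HC E G g x) :
    HC E (prodFam F G) (fun y => (f y, g y)) x := by
  obtain ⟨i, hi⟩ := E.cover x
  obtain ⟨j, hj⟩ := F.cover (f x)
  obtain ⟨j', hj'⟩ := G.cover (g x)
  refine HC.of (hf.1.prodMk hg.1) i (j, j') hi ⟨hj, hj'⟩ ?_
  exact DifferentiableAt.comp (E.e i x) (g := appL N m) (appL N m).differentiableAt
    ((hf.2 i j hi hj).prodMk (hg.2 i j' hi hj'))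

theorem hC_two {f : P → Fin 2 → Y} {x : P} (h : ∀ i, HC E G (fun y => f y i) x) :
    HC E (twoFam G) f x := by
  have h1 := ((tranH_symm_hol (Homeomorph.finTwoArrow (X := Y)) (prodFam G G)).hC _).comp
    (hC_prod (h 0) (h 1))
  have h2 : (fun x => (Homeomorph.finTwoArrow (X := Y)).symm (f x 0, f x 1)) = f := by
    funext x
    exact (Homeomorph.finTwoArrow (X := Y)).symm_apply_apply (f x)
  rw [h2] at h1
  exact h1

theorem hC_amb {f : P → GData.Amb X} {x : P} (hz : HC E F (fun y => (f y).1) x)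
    (ht : ∀ i, HC E p1Fam (fun y => (f y).2.1 i) x) (hv : HC E p1Fam (fun y => (f y).2.2.1) x)
    (hk : ∀ i, HC E p1Fam (fun y => (f y).2.2.2 i) x) : HC E (ambFam F) f x :=
  hC_prod hz (hC_prod (hC_two ht) (hC_prod hv (hC_two hk)))

theorem hC_hmk {f g : P → ℂ} {x : P} (hf : HFA E f x) (hg : HFA E g x)
    (h0 : f x ≠ 0 ∨ g x ≠ 0) : HC E p1Fam (fun y => hmk (f y) (g y)) x := by
  obtain ⟨s, hs⟩ := ps_cover (hmk (f x) (g x))
  refine hC_of_hfa (P1F_54.ContinuousAt.hmk hf.continuousAt hg.continuousAt h0) (j := s) hs ?_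
  exact HFA.comp_left (g := oneL) (f := fun y => pc s (hmk (f y) (g y))) oneL.differentiableAt
    (hfa_pc_hmk hf hg s ((hmk_mem_ps h0 s).1 hs))

end HCtools

/-! ### reflections and local biholomorphisms -/

section LCtools

variable {X N : Type} [TopologicalSpace X] [TopologicalSpace N] {n : ℕ} {C : Fam n X}
  {F : Fam n N}

/-- a locally biholomorphic equivariant map transports `ReflAt` -/
theorem reflAt_of_LC {p : X → N} {S : X → X} {T : N → N} (hp : HolC C F p) (hS : HolC C C S)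
    (hT : HolC F F T) {y : X} (hL : LC C F p y) (hpS : ∀ x, p (S x) = T (p x)) (hSy : S y = y)
    (hr : ReflAt F T (p y)) : ReflAt C S y := by
  obtain ⟨i, hi⟩ := C.cover y
  obtain ⟨j, hj⟩ := F.cover (p y)
  have hTy : T (p y) = p y := by rw [← hpS, hSy]
  have cφ := cpt_e (C := C) i
  have cψ := cpt_e (C := F) j
  have h1 := hr.chart hT hTy cψ hj
  have hinj : Function.Injective (dC (C.e i) (F.e j) p y) := hL.2 i j hi hj
  let L : Cn n ≃L[ℂ] Cn n := (LinearEquiv.ofInjectiveEndo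
    (dC (C.e i) (F.e j) p y).toLinearMap hinj).toContinuousLinearEquiv
  have hL1 : ∀ w, L w = dC (C.e i) (F.e j) p y w := fun w => rfl
  have c1 := dC_comp cφ cφ cψ hS hp hi (show S y ∈ (C.e i).source by rw [hSy]; exact hi)
    (show p (S y) ∈ (F.e j).source by rw [hSy]; exact hj)
  have c2 := dC_comp cφ cψ cψ hp hT hi hj (show T (p y) ∈ (F.e j).source by rw [hTy]; exact hj)
  have e0 : (fun x => p (S x)) = fun x => T (p x) := funext hpS
  rw [hSy, e0] at c1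
  rw [c1] at c2
  -- `L ∘ dS = dT ∘ L`
  have e1 : dC (C.e i) (C.e i) S y =
      (L.symm : Cn n →L[ℂ] Cn n).comp ((dC (F.e j) (F.e j) T (p y)).comp
        (L : Cn n →L[ℂ] Cn n)) := by
    ext1 w
    have h2 := congrArg (fun M : Cn n →L[ℂ] Cn n => M w) c2
    change dC (C.e i) (F.e j) p y (dC (C.e i) (C.e i) S y w) =
      dC (F.e j) (F.e j) T (p y) (dC (C.e i) (F.e j) p y w) at h2
    rw [← hL1, ← hL1] at h2
    change dC (C.e i) (C.e i) S y w = L.symm (dC (F.e j) (F.e j) T (p y) (L w))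
    rw [← h2, L.symm_apply_apply]
  refine reflAt_iff_isRefl.2 ⟨C.e i, cφ, hi, ?_⟩
  rw [e1]
  exact h1.conj (fun w => L.symm_apply_apply w) (fun w => L.apply_symm_apply w)

end LCtools

/-! ### square roots -/

/-- a square root along a filter -/
theorem exists_sqrt_lim {ι : Type*} {l : Filter ι} {T : ι → ℂ} {c : ℂ}
    (h : Tendsto T l (𝓝 (c ^ 2))) : ∃ r : ι → ℂ, Tendsto r l (𝓝 c) ∧ ∀ i, r i ^ 2 = T i := by
  rcases eq_or_ne c 0 with rfl | hc
  · refine ⟨fun i => (T i) ^ (((2 : ℕ) : ℂ)⁻¹), ?_,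
      fun i => Complex.cpow_nat_inv_pow _ two_ne_zero⟩
    rw [tendsto_zero_iff_norm_tendsto_zero]
    have h1 : Tendsto (fun i => Real.sqrt ‖T i‖) l (𝓝 0) := by
      have h2 : Tendsto (fun i => Real.sqrt ‖T i‖) l (𝓝 (Real.sqrt ‖((0 : ℂ) ^ 2)‖)) :=
        (Real.continuous_sqrt.tendsto _).comp h.norm
      simpa using h2
    refine h1.congr fun i => ?_
    rw [Real.sqrt_eq_iff_mul_self_eq (norm_nonneg _) (norm_nonneg _), ← norm_mul, ← pow_two,
      Complex.cpow_nat_inv_pow _ two_ne_zero]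
  · refine ⟨fun i => c * (T i / c ^ 2) ^ (((2 : ℕ) : ℂ)⁻¹), ?_, fun i => ?_⟩
    · have h1 : Tendsto (fun i => T i / c ^ 2) l (𝓝 1) := by
        have := h.div_const (c ^ 2)
        rwa [div_self (pow_ne_zero 2 hc)] at this
      have h2 : ContinuousAt (fun w : ℂ => w ^ (((2 : ℕ) : ℂ)⁻¹)) 1 :=
        continuousAt_id.cpow continuousAt_const Complex.one_mem_slitPlane
      have h3 := (h2.tendsto.comp h1).const_mul c
      rw [Complex.one_cpow, mul_one] at h3
      exact h3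
    · rw [mul_pow, Complex.cpow_nat_inv_pow _ two_ne_zero]
      field_simp

/-- a square root of `[a : b]` along a filter -/
theorem exists_lift {ι : Type*} {l : Filter ι} {a b : ι → ℂ} {a0 b0 : ℂ}
    (ha : Tendsto a l (𝓝 a0)) (hb : Tendsto b l (𝓝 b0)) (h0 : ¬ (a0 = 0 ∧ b0 = 0)) {k : P1}
    (hk : P1.n k ^ 2 * b0 = P1.d k ^ 2 * a0) :
    ∃ κ : ι → P1, Tendsto κ l (𝓝 k) ∧ ∀ᶠ i in l, P1.n (κ i) ^ 2 * b i = P1.d (κ i) ^ 2 * a i := by
  induction k using OnePoint.rec with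
  | infty =>
    have hb0 : b0 = 0 := by simpa using hk
    have ha0 : a0 ≠ 0 := fun h => h0 ⟨h, hb0⟩
    have h1 : Tendsto (fun i => b i / a i) l (𝓝 ((0 : ℂ) ^ 2)) := by
      have h2 : Tendsto (fun i => b i / a i) l (𝓝 (b0 / a0)) := hb.div ha ha0
      rw [hb0, zero_div] at h2
      rwa [zero_pow two_ne_zero]
    obtain ⟨r, hr, hr2⟩ := exists_sqrt_lim h1
    refine ⟨fun i => hmk 1 (r i), ?_, ?_⟩
    · have h2 : ContinuousAt (fun c : ℂ => hmk 1 c) 0 :=
        P1F_54.ContinuousAt.hmk continuousAt_const continuousAt_id (Or.inl one_ne_zero)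
      have h3 := h2.tendsto.comp hr
      rw [P1F_54.hmk_zero] at h3
      exact h3
    · filter_upwards [ha.eventually_ne ha0] with i hi
      obtain ⟨c, hc, h2, h3⟩ := P1F_54.hmk_rel (a := 1) (b := r i) (Or.inl one_ne_zero)
      rw [n_eq, d_eq]
      apply mul_left_cancel₀ (pow_ne_zero 2 hc)
      have e1 : c ^ 2 * (nn (hmk 1 (r i)) ^ 2 * b i) = (c * nn (hmk 1 (r i))) ^ 2 * b i := by ring
      have e2 : c ^ 2 * (P1F_54.dd (hmk 1 (r i)) ^ 2 * a i) =
          (c * P1F_54.dd (hmk 1 (r i))) ^ 2 * a i := by ring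
      rw [e1, e2, ← h2, ← h3, hr2]
      field_simp
  | coe c =>
    have hk' : c ^ 2 * b0 = a0 := by simpa using hk
    have hb0 : b0 ≠ 0 := by
      rintro rfl
      exact h0 ⟨by rw [← hk', mul_zero], rfl⟩
    have h1 : Tendsto (fun i => a i / b i) l (𝓝 (c ^ 2)) := by
      have := ha.div hb hb0
      rwa [← hk', mul_div_assoc, div_self hb0, mul_one] at this
    obtain ⟨r, hr, hr2⟩ := exists_sqrt_lim h1
    refine ⟨fun i => (r i : P1), (OnePoint.continuous_coe.tendsto c).comp hr, ?_⟩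
    filter_upwards [hb.eventually_ne hb0] with i hi
    rw [P1.n_coe, P1.d_coe, hr2]
    field_simp

/-! ### the mirror -/

section Mirror

variable {N : Type} [TopologicalSpace N] {n : ℕ} {F : Fam n N} {W : Type*}
  [NormedAddCommGroup W] [NormedSpace ℂ W]

/-- the differential in a compatible chart -/
def dl (φ : OpenPartialHomeomorph N (Cn n)) (f : N → W) (z : N) : Cn n →L[ℂ] W :=
  fderiv ℂ (fun w => f (φ.symm w)) (φ z)

theorem hfa_cpt {φ : OpenPartialHomeomorph N (Cn n)} (hφ : Cpt F φ) {f : N → W} {u : N}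
    (hf : HFA F f u) (hu : u ∈ φ.source) : DifferentiableAt ℂ (fun w => f (φ.symm w)) (φ u) := by
  obtain ⟨i, hi⟩ := F.cover u
  have h1 : DifferentiableAt ℂ (fun w => F.e i (φ.symm w)) (φ u) := by
    refine (hφ.hol i).differentiableAt ((φ.isOpen_inter_preimage_symm
      (F.e i).open_source).mem_nhds ⟨φ.map_source hu, ?_⟩)
    rw [mem_preimage, φ.left_inv hu]
    exact hi
  have h2 : DifferentiableAt ℂ (fun z => f ((F.e i).symm z)) (F.e i (φ.symm (φ u))) := by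
    rw [φ.left_inv hu]; exact hf i hi
  have h3 := DifferentiableAt.comp (φ u) (g := fun z => f ((F.e i).symm z)) h2 h1
  refine h3.congr_of_eventuallyEq ?_
  have h4 : ∀ᶠ w in 𝓝 (φ u), φ.symm w ∈ (F.e i).source := by
    refine (φ.continuousAt_symm (φ.map_source hu)).preimage_mem_nhds ?_
    rw [φ.left_inv hu]
    exact (F.e i).open_source.mem_nhds hi
  filter_upwards [h4] with w hw
  simp only [Function.comp]
  rw [(F.e i).left_inv hw]

/-- change of chart for the differential -/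
theorem dd_eq_dl {φ : OpenPartialHomeomorph N (Cn n)} (hφ : Cpt F φ) {f : N → ℂ} {u : N}
    (hf : HFA F f u) (hu : u ∈ φ.source) {i : F.ι} (hi : u ∈ (F.e i).source) (v : Cn n) :
    Gr_559.dd F i f u v = dl φ f u (dC (F.e i) φ (fun x => x) u v) := by
  have h1 : DifferentiableAt ℂ (fun z => φ ((F.e i).symm z)) (F.e i u) :=
    (cpt_e (C := F) i).diffAt hφ (HolC.id F) hi hu
  have h2 : DifferentiableAt ℂ (fun w => f (φ.symm w)) (φ ((F.e i).symm (F.e i u))) := by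
    rw [(F.e i).left_inv hi]; exact hfa_cpt hφ hf hu
  have h3 := fderiv_comp (F.e i u) (g := fun w => f (φ.symm w)) h2 h1
  have h4 : (fun z => f ((F.e i).symm z)) =ᶠ[𝓝 (F.e i u)]
      (fun w => f (φ.symm w)) ∘ (fun z => φ ((F.e i).symm z)) := by
    have h5 : ∀ᶠ z in 𝓝 (F.e i u), (F.e i).symm z ∈ φ.source := by
      refine ((F.e i).continuousAt_symm ((F.e i).map_source hi)).preimage_mem_nhds ?_
      rw [(F.e i).left_inv hi]
      exact φ.open_source.mem_nhds hu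
    filter_upwards [h5] with z hz
    simp only [Function.comp]
    rw [φ.left_inv hz]
  unfold Gr_559.dd dl dC
  rw [h4.fderiv_eq, h3, (F.e i).left_inv hi]
  rfl

/-- a chart in which `S` is the reflection in the coordinate `a` -/
structure Mir (F : Fam n N) (S : N → N) (z : N) where
  e : OpenPartialHomeomorph N (Cn n)
  cpt : Cpt F e
  mem : z ∈ e.source
  a : Fin n
  inv : ∀ u ∈ e.source, S u ∈ e.source
  ref : ∀ u ∈ e.source, e (S u) = rf a (e u)
  fix : S z = z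

theorem exists_mir {G : Type} [Group G] [MulAction G N] [ContinuousConstSMul G N] (hR : RA F G)
    {s : G} (hs : s ≠ 1) {z : N} (hz : s • z = z) : Nonempty (Mir F (fun u => s • u) z) := by
  obtain ⟨c, hc⟩ := hR.cov z
  rcases hk : c.k with _ | ⟨s', a⟩
  · exact absurd (c.free hk s z hc (by rw [hz]; exact hc)) hs
  · obtain rfl : s = s' := (c.two s' a hk s z hc (by rw [hz]; exact hc)).resolve_left hs
    exact ⟨⟨c.e, ⟨c.hol, c.holi⟩, hc, a, c.inv s a hk, c.ref s a hk, hz⟩⟩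

namespace Mir

variable {S : N → N} {z : N} (m : Mir F S z)

/-- the projection to the mirror in the chart -/
def pj (a : Fin n) : Cn n →L[ℂ] Cn n :=
  ContinuousLinearMap.id ℂ (Cn n) -
    (EuclideanSpace.proj a : Cn n →L[ℂ] ℂ).smulRight (EuclideanSpace.single a (1 : ℂ))

theorem pj_apply (a : Fin n) (w : Cn n) : pj a w = w - w a • EuclideanSpace.single a (1 : ℂ) := rfl

theorem pj_same (a : Fin n) (w : Cn n) : pj a w a = 0 := by
  rw [pj_apply]
  simp

theorem pj_of (a : Fin n) {w : Cn n} (h : w a = 0) : pj a w = w := by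
  rw [pj_apply, h, zero_smul, sub_zero]

theorem fix_iff {u : N} (hu : u ∈ m.e.source) : S u = u ↔ m.e u m.a = 0 := by
  constructor
  · intro h
    have h1 := m.ref u hu
    rw [h] at h1
    have h2 := congrArg (fun w : Cn n => w m.a) h1
    simp only [rf_same] at h2
    linear_combination (1 / 2 : ℂ) * h2
  · intro h
    refine m.e.injOn (m.inv u hu) hu ?_
    rw [m.ref u hu]
    have h1 : rf m.a (m.e u) = up m.a (m.e u m.a) (m.e u) := by
      rw [rf, h, neg_zero]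
    rw [h1, up_self]

theorem ez : m.e z m.a = 0 := (m.fix_iff m.mem).1 m.fix

/-- the parametrisation of the mirror tends to `z` -/
theorem tendsto_param : Tendsto (fun w => m.e.symm (pj m.a w)) (𝓝 (m.e z))
    (𝓝[{u | S u = u}] z) := by
  have e1 : pj m.a (m.e z) = m.e z := pj_of m.a m.ez
  have h1 : ContinuousAt (fun w => m.e.symm (pj m.a w)) (m.e z) := by
    refine ContinuousAt.comp (g := m.e.symm) ?_ (pj m.a).continuous.continuousAt
    rw [e1]
    exact m.e.continuousAt_symm (m.e.map_source m.mem)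
  have h2 : Tendsto (fun w => m.e.symm (pj m.a w)) (𝓝 (m.e z)) (𝓝 z) := by
    have h3 := h1.tendsto
    rwa [e1, m.e.left_inv m.mem] at h3
  refine tendsto_nhdsWithin_iff.2 ⟨h2, ?_⟩
  have h4 : ∀ᶠ w in 𝓝 (m.e z), pj m.a w ∈ m.e.target := by
    refine (pj m.a).continuous.continuousAt.preimage_mem_nhds ?_
    rw [e1]
    exact m.e.open_target.mem_nhds (m.e.map_source m.mem)
  filter_upwards [h4] with w hw
  show S _ = _
  rw [m.fix_iff (m.e.map_target hw), m.e.right_inv hw, pj_same]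

/-- a relation `f = a g` on the mirror gives a relation of the differentials -/
theorem rel {f g b : N → ℂ} (hf : HFA F f z) (hg : HFA F g z) (hb : HFA F b z)
    (h : ∀ u, S u = u → f u = b u * g u) (h0 : g z = 0) {v : Cn n} (hv : v m.a = 0) :
    dl m.e f z v = b z * dl m.e g z v := by
  have e1 : pj m.a (m.e z) = m.e z := pj_of m.a m.ez
  have d1 : HasFDerivAt (fun w => f (m.e.symm w)) (dl m.e f z) (m.e z) :=
    (hfa_cpt m.cpt hf m.mem).hasFDerivAt
  have d2 : HasFDerivAt (fun w => g (m.e.symm w)) (dl m.e g z) (m.e z) :=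
    (hfa_cpt m.cpt hg m.mem).hasFDerivAt
  have d3 : HasFDerivAt (fun w => b (m.e.symm w)) (dl m.e b z) (m.e z) :=
    (hfa_cpt m.cpt hb m.mem).hasFDerivAt
  have d4 := d3.mul d2
  have dp : HasFDerivAt (fun w => pj m.a w) (pj m.a) (m.e z) := (pj m.a).hasFDerivAt
  have c1 : HasFDerivAt (fun w => f (m.e.symm (pj m.a w))) ((dl m.e f z).comp (pj m.a)) (m.e z) :=
    HasFDerivAt.comp (m.e z) (g := fun w => f (m.e.symm w)) (by rw [e1]; exact d1) dp
  have c2 := HasFDerivAt.comp (m.e z) (g := fun w => b (m.e.symm w) * g (m.e.symm w))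
    (f := fun w => pj m.a w) (by rw [e1]; exact d4) dp
  have h5 : (fun w => f (m.e.symm (pj m.a w))) =ᶠ[𝓝 (m.e z)]
      (fun w => b (m.e.symm w) * g (m.e.symm w)) ∘ fun w => pj m.a w := by
    have h6 := (tendsto_nhdsWithin_iff.1 m.tendsto_param).2
    filter_upwards [h6] with w hw
    exact h _ hw
  have h7 := (c1.congr_of_eventuallyEq h5.symm).unique c2
  have h8 := congrArg (fun L : Cn n →L[ℂ] ℂ => L v) h7
  change dl m.e f z (pj m.a v) = _ at h8
  rw [pj_of m.a hv] at h8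
  rw [h8]
  change (b (m.e.symm (m.e z)) • dl m.e g z + g (m.e.symm (m.e z)) • dl m.e b z) (pj m.a v) = _
  rw [m.e.left_inv m.mem, h0, zero_smul, add_zero, pj_of m.a hv]
  rfl

/-- directions satisfying the relation lie in the mirror -/
theorem mem_of {f g : N → ℂ} {κ : ℂ}
    (h : ∀ v : Cn n, v m.a = 0 → dl m.e f z v = κ * dl m.e g z v)
    (h1 : ∃ v, dl m.e f z v ≠ κ * dl m.e g z v) {v : Cn n}
    (hv : dl m.e f z v = κ * dl m.e g z v) : v m.a = 0 := by
  have key : ∀ w : Cn n, dl m.e f z w - κ * dl m.e g z w =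
      w m.a * (dl m.e f z (EuclideanSpace.single m.a 1) -
        κ * dl m.e g z (EuclideanSpace.single m.a 1)) := by
    intro w
    have h2 := h (pj m.a w) (pj_same m.a w)
    have h3 : w = pj m.a w + w m.a • EuclideanSpace.single m.a (1 : ℂ) := by
      rw [pj_apply]; abel
    have h4 : dl m.e f z w = dl m.e f z (pj m.a w) +
        w m.a * dl m.e f z (EuclideanSpace.single m.a 1) := by
      conv_lhs => rw [h3]
      rw [map_add, map_smul, smul_eq_mul]
    have h5 : dl m.e g z w = dl m.e g z (pj m.a w) +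
        w m.a * dl m.e g z (EuclideanSpace.single m.a 1) := by
      conv_lhs => rw [h3]
      rw [map_add, map_smul, smul_eq_mul]
    rw [h4, h5, h2]
    ring
  obtain ⟨w, hw⟩ := h1
  have h6 := key v
  rw [hv, sub_self] at h6
  refine (mul_eq_zero.1 h6.symm).resolve_right fun h7 => hw ?_
  have h8 := key w
  rw [h7, mul_zero] at h8
  exact sub_eq_zero.1 h8

/-- a function whose differential is onto on the mirror is open on the mirror -/
theorem nhds_le [CompleteSpace W] [FiniteDimensional ℂ W] {g : N → W} (hg : HF F univ g)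
    (hs : ∀ w : W, ∃ v : Cn n, v m.a = 0 ∧ dl m.e g z v = w) :
    𝓝 (g z) ≤ map g (𝓝[{u | S u = u}] z) := by
  have e1 : pj m.a (m.e z) = m.e z := pj_of m.a m.ez
  have hd : ∀ᶠ w in 𝓝 (m.e z), DifferentiableAt ℂ (fun w => g (m.e.symm w)) w := by
    filter_upwards [m.e.open_target.mem_nhds (m.e.map_source m.mem)] with w hw
    have h1 := hfa_cpt m.cpt (hg (m.e.symm w) trivial) (m.e.map_target hw)
    rwa [m.e.right_inv hw] at h1
  have hd' : ∀ᶠ w in 𝓝 (m.e z), DifferentiableAt ℂ (fun w => g (m.e.symm (pj m.a w))) w := by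
    have h1 : ∀ᶠ w in 𝓝 (m.e z), DifferentiableAt ℂ (fun w => g (m.e.symm w)) (pj m.a w) := by
      have h2 : Tendsto (pj m.a) (𝓝 (m.e z)) (𝓝 (m.e z)) := by
        have := (pj m.a).continuous.tendsto (m.e z)
        rwa [e1] at this
      exact h2.eventually hd
    filter_upwards [h1] with w hw
    exact DifferentiableAt.comp w (g := fun w => g (m.e.symm w)) hw (pj m.a).differentiableAt
  have han : AnalyticAt ℂ (fun w => g (m.e.symm (pj m.a w))) (m.e z) :=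
    Crest.Agent.R266.SCV.analyticAt_of_eventually_differentiableAt hd'
  have hst := han.hasStrictFDerivAt
  have hfd : fderiv ℂ (fun w => g (m.e.symm (pj m.a w))) (m.e z) =
      (dl m.e g z).comp (pj m.a) := by
    have d1 : HasFDerivAt (fun w => g (m.e.symm w)) (dl m.e g z) (m.e z) :=
      hd.self_of_nhds.hasFDerivAt
    exact (HasFDerivAt.comp (m.e z) (g := fun w => g (m.e.symm w))
      (by rw [e1]; exact d1) (pj m.a).hasFDerivAt).fderiv
  have hsurj : (fderiv ℂ (fun w => g (m.e.symm (pj m.a w))) (m.e z)).range = ⊤ := by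
    rw [LinearMap.range_eq_top, hfd]
    intro w
    obtain ⟨v, hv, hvw⟩ := hs w
    refine ⟨v, ?_⟩
    show dl m.e g z (pj m.a v) = w
    rw [pj_of m.a hv, hvw]
  have h1 := hst.map_nhds_eq_of_surj hsurj
  have e2 : g (m.e.symm (pj m.a (m.e z))) = g z := by rw [e1, m.e.left_inv m.mem]
  simp only [e2] at h1
  rw [← h1]
  have h2 : map (fun w => g (m.e.symm (pj m.a w))) (𝓝 (m.e z)) =
      map g (map (fun w => m.e.symm (pj m.a w)) (𝓝 (m.e z))) := by
    rw [map_map]; rfl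
  rw [h2]
  exact map_mono m.tendsto_param

end Mir

end Mirror

/-- lifting a curve through an open map -/
theorem neBot_lift {N E W : Type*} {l : Filter N} {l' : Filter E} [l'.NeBot] [TopologicalSpace W]
    {g : N → W} {w : W} (h : 𝓝 w ≤ map g l) {γ : E → W} (hγ : Tendsto γ l' (𝓝 w)) :
    ((l ×ˢ l') ⊓ 𝓟 {p : N × E | g p.1 = γ p.2}).NeBot := by
  rw [← frequently_mem_iff_neBot]
  intro hcon
  obtain ⟨s, hs, t, ht, hst⟩ := mem_prod_iff.1 hcon
  have h1 : g '' s ∈ 𝓝 w := h (image_mem_map hs)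
  have h2 : γ ⁻¹' (g '' s) ∈ l' := hγ h1
  obtain ⟨e, he1, he2⟩ := Filter.nonempty_of_mem (inter_mem h2 ht)
  obtain ⟨u, hu, hue⟩ := he1
  exact hst (show (u, e) ∈ s ×ˢ t from ⟨hu, he2⟩) hue

end

end Crest.Agent.R272.Act_302
end

-- ▼ part R272/Act3_302
section

/-!
# R272 (S0415), ACTION (helper302), part 3: the stabilisers on `X1`

* `lc_pz`      : `X1 → N` is locally biholomorphic at the unramified points;
* `GAct.ra`    : `RA F G` on the base gives `RA (A.fam h) G` on `X1`, if every element with a fixed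
                 point in `N` exchanges the two colours.
-/

set_option autoImplicit false
set_option linter.unusedSectionVars false

open Set Filter Topology

namespace Crest.Agent.R272.Act_302

open Crest.Agent.R275.Geo Crest.Agent.R273.Fam_835 Crest.Agent.R272.Quot_783
  Crest.Agent.R272.Gr_559 Crest.Agent.R272.FamP_54 Crest.Agent.R272.P1A_54
  Crest.Agent.R272.Flat2_302 Crest.Agent.R272.Refl_246 Crest.Agent.R272.MQ_783
  Crest.Agent.R272.SubF_54 Crest.Agent.R272.HFam_342 Crest.Agent.R275.Prod363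
open Crest.Agent.R272.P1F_54 (nn hmk mulP mulP_ne mulP_hmk mulP_mulP mulP_one mulP_scale
  mulP_rel mulP_holC p1Fam ps pc hmk_smul hfa_pc_hmk hmk_mem_ps ps_cover hmk_iff hmk_rel)

noncomputable section

variable {N : Type} [TopologicalSpace N] {F : Fam 3 N}

/-- a holomorphic square root of `P / Q` -/
theorem exists_hroot {P Q : N → ℂ} {z : N} (hP : HFA F P z) (hQ : HFA F Q z) (hP0 : P z ≠ 0)
    (hQ0 : Q z ≠ 0) {c : ℂ} (hc : c ^ 2 * Q z = P z) :
    ∃ r : N → ℂ, HFA F r z ∧ r z = c ∧ ∀ u, Q u ≠ 0 → r u ^ 2 * Q u = P u := by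
  have hc0 : c ≠ 0 := by
    rintro rfl
    exact hP0 (by rw [← hc]; ring)
  refine ⟨fun u => c * (P u * Q z / (Q u * P z)) ^ (((2 : ℕ) : ℂ)⁻¹), ?_, ?_, fun u hu => ?_⟩
  · have h1 : HFA F (fun u => P u * Q z / (Q u * P z)) z :=
      (hP.mul (HFA.const _ _)).div (hQ.mul (HFA.const _ _)) (mul_ne_zero hQ0 hP0)
    have h2 : P z * Q z / (Q z * P z) = 1 := by field_simp
    have h3 : DifferentiableAt ℂ (fun w : ℂ => w ^ (((2 : ℕ) : ℂ)⁻¹))
        (P z * Q z / (Q z * P z)) := by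
      rw [h2]
      exact (differentiableAt_id).cpow_const Complex.one_mem_slitPlane
    exact (HFA.const _ _).mul (HFA.comp_left (f := fun u => P u * Q z / (Q u * P z))
      (g := fun w : ℂ => w ^ (((2 : ℕ) : ℂ)⁻¹)) h3 h1)
  · have h2 : P z * Q z / (Q z * P z) = 1 := by field_simp
    simp only [h2, Complex.one_cpow, mul_one]
  · rw [mul_pow, Complex.cpow_nat_inv_pow _ two_ne_zero]
    have h3 : c ^ 2 * Q z / P z = 1 := by rw [hc, div_self hP0]
    field_simp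
    linear_combination P u * hc

namespace GAct

variable {D : GData F} {G : Type} [Group G] [MulAction G N] (A : GAct D G)
variable (h : IsSl (ambFam F) D.X1 3)



theorem continuous_k (i : Fin 2) : Continuous (fun y : A.X => D.k i y) := by
  have h1 : Continuous fun p : GData.Amb N => p.2.2.2 i := by fun_prop
  exact h1.comp A.continuous_val

/-- the coordinates of a point of `X1` over a regular point of the base -/
theorem t_eq (y : A.X) {i : Fin 2} (h0 : ¬ (D.f0 (A.pz y) = 0 ∧ D.x i (A.pz y) = 0)) :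
    D.t i y = hmk (D.x i (A.pz y)) (D.f0 (A.pz y)) := by
  have h1 := Y_rel D ((A.val_mem y).1 i)
  exact (hmk_iff (by tauto) _).1 h1

theorem k_sq (y : A.X) (i : Fin 2) : nn (D.k i y) ^ 2 * D.Q i (A.pz y) =
    P1F_54.dd (D.k i y) ^ 2 * D.P i (A.pz y) := by
  have h1 := Y_sq D ((A.val_mem y).1 i)
  have h2 : P1.n (D.k i y) ^ 2 * D.Q i (A.pz y) = P1.d (D.k i y) ^ 2 * D.P i (A.pz y) := h1
  exact h2

theorem v_eq (y : A.X) (h0 : ∀ i, ¬ (D.f0 (A.pz y) = 0 ∧ D.x i (A.pz y) = 0)) :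
    D.v y = hmk (D.x 0 (A.pz y) * D.x 1 (A.pz y)) (D.f0 (A.pz y)) := by
  have h1 := A.t_eq y (h0 0)
  have h2 : nn (D.v y) * P1F_54.dd (D.t 0 y) =
      P1F_54.dd (D.v y) * nn (D.t 0 y) * D.x 1 (A.pz y) := (A.val_mem y).2.1
  have h3 : D.x 0 (A.pz y) * D.x 1 (A.pz y) ≠ 0 ∨ D.f0 (A.pz y) ≠ 0 := by
    by_cases hf : D.f0 (A.pz y) = 0
    · left
      exact mul_ne_zero (fun h => h0 0 ⟨hf, h⟩) (fun h => h0 1 ⟨hf, h⟩)
    · exact Or.inr hf
  refine (hmk_iff h3 _).1 ?_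
  have h4 : D.x 0 (A.pz y) ≠ 0 ∨ D.f0 (A.pz y) ≠ 0 := by have := h0 0; tauto
  obtain ⟨c, hc, h5, h6⟩ := hmk_rel h4
  rw [← h1] at h5 h6
  calc D.x 0 (A.pz y) * D.x 1 (A.pz y) * P1F_54.dd (D.v y)
      = c * (P1F_54.dd (D.v y) * nn (D.t 0 y) * D.x 1 (A.pz y)) := by rw [h5]; ring
    _ = (c * P1F_54.dd (D.t 0 y)) * nn (D.v y) := by rw [← h2]; ring
    _ = D.f0 (A.pz y) * nn (D.v y) := by rw [← h6]

/-- `X1 → N` is locally biholomorphic at the unramified points -/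
theorem lc_pz {y : A.X} (h0 : ∀ i, ¬ (D.f0 (A.pz y) = 0 ∧ D.x i (A.pz y) = 0))
    (hP : ∀ i, D.P i (A.pz y) ≠ 0) (hQ : ∀ i, D.Q i (A.pz y) ≠ 0) :
    LC (A.fam h) F A.pz y := by
  set z := A.pz y with hz
  have aF : HFA F D.f0 z := hf_of D.f0_hol z trivial
  have aX : ∀ i, HFA F (D.x i) z := fun i => hf_of (D.x_hol i) z trivial
  have aP : ∀ i, HFA F (D.P i) z := fun i => hf_of (D.P_hol i) z trivial
  have aQ : ∀ i, HFA F (D.Q i) z := fun i => hf_of (D.Q_hol i) z trivial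
  -- the values of `k`
  have hk : ∀ i, ∃ c : ℂ, D.k i y = (c : P1) ∧ c ^ 2 * D.Q i z = D.P i z := by
    intro i
    have h1 : nn (D.k i y) ^ 2 * D.Q i z = P1F_54.dd (D.k i y) ^ 2 * D.P i z := A.k_sq y i
    rcases P1F_54.p1_cases (D.k i y) with h2 | ⟨c, h2⟩
    · rw [h2, P1F_54.nn_infty, P1F_54.dd_infty, one_pow, one_mul, zero_pow two_ne_zero,
        zero_mul] at h1
      exact absurd h1 (hQ i)
    · refine ⟨c, h2, ?_⟩
      rw [h2, P1F_54.nn_coe, P1F_54.dd_coe, one_pow, one_mul] at h1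
      exact h1
  choose c hkc hc using hk
  have hc0 : ∀ i, c i ≠ 0 := by
    intro i h1
    have := hc i
    rw [h1] at this
    exact hP i (by rw [← this]; ring)
  choose r hr hrz hr2 using fun i => exists_hroot (aP i) (aQ i) (hP i) (hQ i) (hc i)
  -- the section
  let w : N → GData.Amb N := fun u => (u, fun i => hmk (D.x i u) (D.f0 u),
    hmk (D.x 0 u * D.x 1 u) (D.f0 u), fun i => hmk (r i u) 1)
  have hreg : ∀ᶠ u in 𝓝 z, ∀ i, ¬ (D.f0 u = 0 ∧ D.x i u = 0) := by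
    rw [eventually_all]
    intro i
    by_cases hf : D.f0 z = 0
    · have hx : D.x i z ≠ 0 := fun h => h0 i ⟨hf, h⟩
      filter_upwards [(D.continuous_x i).continuousAt.eventually_ne hx] with u hu h1
      exact hu h1.2
    · filter_upwards [D.continuous_f0.continuousAt.eventually_ne hf] with u hu h1
      exact hu h1.1
  have hQe : ∀ᶠ u in 𝓝 z, ∀ i, D.Q i u ≠ 0 := by
    rw [eventually_all]
    intro i
    exact (D.continuous_Q i).continuousAt.eventually_ne (hQ i)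
  have hv0 : ∀ u, (∀ i, ¬ (D.f0 u = 0 ∧ D.x i u = 0)) →
      (D.x 0 u * D.x 1 u ≠ 0 ∨ D.f0 u ≠ 0) := by
    intro u hu
    by_cases hf : D.f0 u = 0
    · left
      exact mul_ne_zero (fun h => hu 0 ⟨hf, h⟩) (fun h => hu 1 ⟨hf, h⟩)
    · exact Or.inr hf
  have hw : ∀ᶠ u in 𝓝 z, w u ∈ D.X1 := by
    filter_upwards [hreg, hQe] with u hu hQu
    have ht : ∀ i, D.x i u * P1F_54.dd (hmk (D.x i u) (D.f0 u)) =
        D.f0 u * nn (hmk (D.x i u) (D.f0 u)) := by
      intro i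
      have hi : D.x i u ≠ 0 ∨ D.f0 u ≠ 0 := by have := hu i; tauto
      exact (hmk_iff hi _).2 rfl
    obtain ⟨e, he, hv1, hv2⟩ := hmk_rel (hv0 u hu)
    refine ⟨fun i => ?_, ?_, ?_⟩
    · refine (Y_reg D (hu i) _ _).2 ⟨ht i, ?_⟩
      show nn (hmk (r i u) 1) ^ 2 * D.Q i u = P1F_54.dd (hmk (r i u) 1) ^ 2 * D.P i u
      rw [P1F_54.hmk_one, P1F_54.nn_coe, P1F_54.dd_coe, hr2 i u (hQu i)]
      ring
    · show nn (hmk (D.x 0 u * D.x 1 u) (D.f0 u)) * P1F_54.dd (hmk (D.x 0 u) (D.f0 u)) =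
        P1F_54.dd (hmk (D.x 0 u * D.x 1 u) (D.f0 u)) * nn (hmk (D.x 0 u) (D.f0 u)) * D.x 1 u
      apply mul_left_cancel₀ he
      linear_combination D.x 1 u * ht 0 - P1F_54.dd (hmk (D.x 0 u) (D.f0 u)) * hv1 +
        D.x 1 u * nn (hmk (D.x 0 u) (D.f0 u)) * hv2
    · show nn (hmk (D.x 0 u * D.x 1 u) (D.f0 u)) * P1F_54.dd (hmk (D.x 1 u) (D.f0 u)) =
        P1F_54.dd (hmk (D.x 0 u * D.x 1 u) (D.f0 u)) * nn (hmk (D.x 1 u) (D.f0 u)) * D.x 0 u
      apply mul_left_cancel₀ he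
      linear_combination D.x 0 u * ht 1 - P1F_54.dd (hmk (D.x 1 u) (D.f0 u)) * hv1 +
        D.x 0 u * nn (hmk (D.x 1 u) (D.f0 u)) * hv2
  classical
  let q : N → A.X := fun u => if hu : w u ∈ D.X1 then ⟨w u, hu⟩ else y
  have hqd : ∀ u, w u ∈ D.X1 → A.val (q u) = w u := by
    intro u hu
    have h1 : q u = ⟨w u, hu⟩ := dif_pos hu
    rw [h1]
    rfl
  have hqv : ∀ᶠ u in 𝓝 z, w u = A.val (q u) := by
    filter_upwards [hw] with u hu
    exact (hqd u hu).symm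
  have hwz : HC F (ambFam F) w z := by
    refine hC_amb hC_id (fun i => ?_) ?_ (fun i => ?_)
    · exact hC_hmk (aX i) aF (by have := h0 i; tauto)
    · exact hC_hmk ((aX 0).mul (aX 1)) aF (hv0 z h0)
    · exact hC_hmk (hr i) (HFA.const _ _) (Or.inr one_ne_zero)
  have hq : HC F (A.fam h) q (A.pz y) := hC_lift h (hwz.congr hqv)
  refine LC.of_left_inverse ((A.holC_pz h).hC y) hq ?_
  have cz : Tendsto A.pz (𝓝 y) (𝓝 z) := A.continuous_pz.continuousAt
  -- near `y` the coordinates `k i` are the chosen roots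
  have hkr : ∀ᶠ x in 𝓝 y, ∀ i, D.k i x = hmk (r i (A.pz x)) 1 := by
    rw [eventually_all]
    intro i
    have h1 : ContinuousAt (fun x : A.X => pc false (D.k i x)) y := by
      refine ContinuousAt.comp (g := pc false) (P1F_54.continuousAt_pc (s := false) ?_)
        (A.continuous_k i).continuousAt
      rw [hkc i]
      exact P1F_54.coe_mem_ps_false _
    have h2 : ContinuousAt (fun x : A.X => r i (A.pz x)) y :=
      ContinuousAt.comp (g := r i) (hr i).continuousAt cz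
    have h3 : ∀ᶠ x in 𝓝 y, pc false (D.k i x) + r i (A.pz x) ≠ 0 := by
      refine (h1.add h2).eventually_ne ?_
      show pc false (D.k i y) + r i z ≠ 0
      rw [hkc i, P1F_54.pc_false_coe, hrz i]
      intro h4
      exact hc0 i (by linear_combination (1 / 2 : ℂ) * h4)
    have h4 : ∀ᶠ x : A.X in 𝓝 y, D.k i x ∈ ps false := by
      refine (A.continuous_k i).continuousAt.preimage_mem_nhds ((P1F_54.isOpen_ps _).mem_nhds ?_)
      rw [hkc i]
      exact P1F_54.coe_mem_ps_false _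
    filter_upwards [h3, h4, cz.eventually hQe] with x hx3 hx4 hx5
    obtain ⟨d, hd⟩ := OnePoint.ne_infty_iff_exists.1 (P1F_54.mem_ps_false.1 hx4)
    have h5 := A.k_sq x i
    rw [← hd] at h5 hx3
    rw [P1F_54.pc_false_coe] at hx3
    rw [P1F_54.nn_coe, P1F_54.dd_coe, ← hr2 i _ (hx5 i)] at h5
    have h6 : (d + r i (A.pz x)) * (d - r i (A.pz x)) = 0 := by
      apply mul_right_cancel₀ (hx5 i)
      linear_combination h5
    have h7 := (mul_eq_zero.1 h6).resolve_left hx3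
    rw [P1F_54.hmk_one, ← hd, sub_eq_zero.1 h7]
  filter_upwards [cz.eventually hreg, cz.eventually hw, hkr] with x hx1 hx2 hx3
  refine A.val_injective ?_
  rw [hqd _ hx2]
  refine Prod.ext rfl (Prod.ext (funext fun i => ?_) (Prod.ext ?_ (funext fun i => ?_)))
  · exact (A.t_eq x (hx1 i)).symm
  · exact (A.v_eq x hx1).symm
  · exact (hx3 i).symm

/-! ### fixed points -/

section Fixed

variable {s : G} (hσ : A.σ s = Equiv.swap 0 1)

include hσ

theorem σ0 : A.σ s 0 = 1 := by rw [hσ]; rfl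

theorem σ1 : A.σ s 1 = 0 := by rw [hσ]; rfl

theorem x1_fix {z : N} (hz : s • z = z) : D.x 1 z = A.j s 0 z * D.x 0 z := by
  have h1 := A.x_smul s 0 z
  rwa [A.σ0 hσ, hz] at h1

theorem x0_fix {z : N} (hz : s • z = z) : D.x 0 z = A.j s 1 z * D.x 1 z := by
  have h1 := A.x_smul s 1 z
  rwa [A.σ1 hσ, hz] at h1

omit hσ in
theorem f0_fix {z : N} (hz : s • z = z) : D.f0 z = A.j0 s z * D.f0 z := by
  have h1 := A.f0_smul s z
  rwa [hz] at h1

theorem P1_fix {z : N} (hz : s • z = z) : D.P 1 z = A.p s 0 z ^ 2 * D.P 0 z := by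
  have h1 := A.P_smul s 0 z
  rwa [A.σ0 hσ, hz] at h1

theorem Q1_fix {z : N} (hz : s • z = z) : D.Q 1 z = A.q s 0 z ^ 2 * D.Q 0 z := by
  have h1 := A.Q_smul s 0 z
  rwa [A.σ0 hσ, hz] at h1

theorem reg1_fix {z : N} (hz : s • z = z) (h0 : ¬ (D.f0 z = 0 ∧ D.x 0 z = 0)) :
    ∀ i, ¬ (D.f0 z = 0 ∧ D.x i z = 0) := by
  intro i
  fin_cases i
  · exact h0
  · rintro ⟨h1, h2⟩
    refine h0 ⟨h1, ?_⟩
    have h3 := A.x0_fix hσ hz
    have h4 : D.x 1 z = 0 := h2
    rw [h3, h4, mul_zero]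

omit hσ in
/-- the point of the ambient space over `(ζ, τ, κ)` -/
def W (s : G) (y : N × P1 × P1) (ν : P1) : GData.Amb N :=
  (y.1, ![y.2.1, (A.actY s 0 y).2.1], ν, ![y.2.2, (A.actY s 0 y).2.2])

omit hσ in
theorem continuous_W (s : G) : Continuous fun p : (N × P1 × P1) × P1 => A.W s p.1 p.2 := by
  have h1 : Continuous fun p : (N × P1 × P1) × P1 => A.actY s 0 p.1 :=
    (A.continuous_actY s 0).comp continuous_fst
  have h2 : Continuous fun p : (N × P1 × P1) × P1 =>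
      (![p.1.2.1, (A.actY s 0 p.1).2.1] : Fin 2 → P1) := by
    refine continuous_pi fun i => ?_
    fin_cases i
    · exact (continuous_fst.comp continuous_snd).comp continuous_fst
    · exact (continuous_fst.comp continuous_snd).comp h1
  have h3 : Continuous fun p : (N × P1 × P1) × P1 =>
      (![p.1.2.2, (A.actY s 0 p.1).2.2] : Fin 2 → P1) := by
    refine continuous_pi fun i => ?_
    fin_cases i
    · exact (continuous_snd.comp continuous_snd).comp continuous_fst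
    · exact (continuous_snd.comp continuous_snd).comp h1
  exact (continuous_fst.comp continuous_fst).prodMk (h2.prodMk (continuous_snd.prodMk h3))

/-- a fixed point is determined by `z, t 0, k 0, v` -/
theorem val_fix {y : A.X} (hy : s • y = y) :
    A.val y = A.W s (A.pz y, D.t 0 y, D.k 0 y) (D.v y) := by
  have h1 := A.t_smul s y 0
  have h2 := A.k_smul s y 0
  rw [A.σ0 hσ, hy] at h1 h2
  refine Prod.ext rfl (Prod.ext (funext fun i => ?_) (Prod.ext rfl (funext fun i => ?_)))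
  · fin_cases i
    · rfl
    · exact h1
  · fin_cases i
    · rfl
    · exact h2

variable (hs2 : s * s = 1)

include hs2

theorem jj {z : N} (hz : s • z = z) : A.j s 1 z * A.j s 0 z = 1 := by
  have h1 := A.j_mul s s 0 z
  rw [hs2, A.j_one, A.σ0 hσ, hz] at h1
  exact h1.symm

theorem pp {z : N} (hz : s • z = z) : A.p s 1 z * A.p s 0 z = 1 := by
  have h1 := A.p_mul s s 0 z
  rw [hs2, A.p_one, A.σ0 hσ, hz] at h1
  exact h1.symm

theorem qq {z : N} (hz : s • z = z) : A.q s 1 z * A.q s 0 z = 1 := by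
  have h1 := A.q_mul s s 0 z
  rw [hs2, A.q_one, A.σ0 hσ, hz] at h1
  exact h1.symm

omit hσ in
theorem j0j0 {z : N} (hz : s • z = z) : A.j0 s z * A.j0 s z = 1 := by
  have h1 := A.j0_mul s s z
  rw [hs2, A.j0_one, hz] at h1
  exact h1.symm

/-- **points of `X1` over the mirror** -/
theorem exists_fix {ζ : N} {τ κ ν : P1} (hz : s • ζ = ζ) (h0 : ¬ (D.f0 ζ = 0 ∧ D.x 0 ζ = 0))
    (hY : (ζ, τ, κ) ∈ D.Y 0) (hν : ν = hmk (D.x 0 ζ * D.x 1 ζ) (D.f0 ζ)) :
    ∃ y : A.X, s • y = y ∧ A.pz y = ζ ∧ A.val y = A.W s (ζ, τ, κ) ν := by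
  have hreg := A.reg1_fix hσ hz h0
  have hv0 : D.x 0 ζ * D.x 1 ζ ≠ 0 ∨ D.f0 ζ ≠ 0 := by
    by_cases hf : D.f0 ζ = 0
    · left
      exact mul_ne_zero (fun h => hreg 0 ⟨hf, h⟩) (fun h => hreg 1 ⟨hf, h⟩)
    · exact Or.inr hf
  have hY1 : (ζ, (A.actY s 0 (ζ, τ, κ)).2.1, (A.actY s 0 (ζ, τ, κ)).2.2) ∈ D.Y 1 := by
    have h1 := A.actY_mem_Y s 0 hY
    rw [A.σ0 hσ] at h1
    have h2 : A.actY s 0 (ζ, τ, κ) =
        (ζ, (A.actY s 0 (ζ, τ, κ)).2.1, (A.actY s 0 (ζ, τ, κ)).2.2) := Prod.ext hz rfl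
    rwa [h2] at h1
  have r0 : D.x 0 ζ * P1F_54.dd τ = D.f0 ζ * nn τ := Y_rel D hY
  have r1 : D.x 1 ζ * P1F_54.dd (A.actY s 0 (ζ, τ, κ)).2.1 =
      D.f0 ζ * nn (A.actY s 0 (ζ, τ, κ)).2.1 := Y_rel D hY1
  obtain ⟨e, he, hv1, hv2⟩ := hmk_rel hv0
  rw [← hν] at hv1 hv2
  have hmem : A.W s (ζ, τ, κ) ν ∈ D.X1 := by
    refine ⟨fun i => ?_, ?_, ?_⟩
    · fin_cases i
      · exact hY
      · exact hY1
    · show nn ν * P1F_54.dd τ = P1F_54.dd ν * nn τ * D.x 1 ζ
      apply mul_left_cancel₀ he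
      linear_combination D.x 1 ζ * r0 - P1F_54.dd τ * hv1 + D.x 1 ζ * nn τ * hv2
    · show nn ν * P1F_54.dd (A.actY s 0 (ζ, τ, κ)).2.1 =
        P1F_54.dd ν * nn (A.actY s 0 (ζ, τ, κ)).2.1 * D.x 0 ζ
      apply mul_left_cancel₀ he
      linear_combination D.x 0 ζ * r1 - P1F_54.dd (A.actY s 0 (ζ, τ, κ)).2.1 * hv1 +
        D.x 0 ζ * nn (A.actY s 0 (ζ, τ, κ)).2.1 * hv2
  refine ⟨⟨_, hmem⟩, ?_, rfl, rfl⟩
  refine A.val_injective ?_
  show A.act s (A.W s (ζ, τ, κ) ν) = A.W s (ζ, τ, κ) ν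
  refine amb_ext (A.σ s) hz (fun i => ?_) ?_ (fun i => ?_)
  · rw [A.act_t]
    fin_cases i
    · show mulP (A.j s 0 ζ) (A.j0 s ζ) τ = (A.W s (ζ, τ, κ) ν).2.1 (A.σ s 0)
      rw [A.σ0 hσ]
      rfl
    · show mulP (A.j s 1 ζ) (A.j0 s ζ) (mulP (A.j s 0 ζ) (A.j0 s ζ) τ) =
        (A.W s (ζ, τ, κ) ν).2.1 (A.σ s 1)
      rw [A.σ1 hσ, mulP_mulP _ _ (A.j_ne _ _ _) (A.j0_ne _ _), A.jj hσ hs2 hz, A.j0j0 hs2 hz,
        mulP_one]
      rfl
  · rw [A.act_v]
    show mulP (A.jv s ζ) (A.j0 s ζ) ν = ν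
    rw [hν, mulP_hmk _ _ hv0, ← A.f0_fix hz]
    congr 1
    have e0 := A.x0_fix hσ hz
    have e1 := A.x1_fix hσ hz
    unfold jv
    calc A.j s 0 ζ * A.j s 1 ζ * (D.x 0 ζ * D.x 1 ζ)
        = (A.j s 0 ζ * D.x 0 ζ) * (A.j s 1 ζ * D.x 1 ζ) := by ring
      _ = D.x 1 ζ * D.x 0 ζ := by rw [← e1, ← e0]
      _ = D.x 0 ζ * D.x 1 ζ := by ring
  · rw [A.act_k]
    fin_cases i
    · show mulP (A.p s 0 ζ) (A.q s 0 ζ) κ = (A.W s (ζ, τ, κ) ν).2.2.2 (A.σ s 0)
      rw [A.σ0 hσ]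
      rfl
    · show mulP (A.p s 1 ζ) (A.q s 1 ζ) (mulP (A.p s 0 ζ) (A.q s 0 ζ) κ) =
        (A.W s (ζ, τ, κ) ν).2.2.2 (A.σ s 1)
      rw [A.σ1 hσ, mulP_mulP _ _ (A.p_ne _ _ _) (A.q_ne _ _ _), A.pp hσ hs2 hz, A.qq hσ hs2 hz,
        mulP_one]
      rfl


/-- **density step**: if `ReflAt` holds at the fixed points over `good` base points, it holds at a
fixed point which can be approximated -/
theorem step {y : A.X} (hy : s • y = y) (good : N → Prop)
    (hgood : ∀ x : A.X, s • x = x → good (A.pz x) → ReflAt (A.fam h) (fun x => s • x) x)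
    {ι : Type*} {l : Filter ι} [l.NeBot] {ζ : ι → N} {τ κ ν : ι → P1}
    (hζ : Tendsto ζ l (𝓝 (A.pz y))) (hτ : Tendsto τ l (𝓝 (D.t 0 y)))
    (hκ : Tendsto κ l (𝓝 (D.k 0 y))) (hν : Tendsto ν l (𝓝 (D.v y)))
    (hev : ∀ᶠ i in l, s • ζ i = ζ i ∧ ¬ (D.f0 (ζ i) = 0 ∧ D.x 0 (ζ i) = 0) ∧ good (ζ i) ∧
      (ζ i, τ i, κ i) ∈ D.Y 0 ∧ ν i = hmk (D.x 0 (ζ i) * D.x 1 (ζ i)) (D.f0 (ζ i))) :
    ReflAt (A.fam h) (fun x => s • x) y := by
  refine reflAt_of_limit (A.holC_smul h s) (fun x => ?_) hy ?_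
  · show s • s • x = x
    rw [smul_smul, hs2, one_smul]
  have h1 : Tendsto (fun i => A.W s (ζ i, τ i, κ i) (ν i)) l (𝓝 (A.val y)) := by
    rw [A.val_fix hσ hy]
    exact ((A.continuous_W s).tendsto ((A.pz y, D.t 0 y, D.k 0 y), D.v y)).comp
      ((hζ.prodMk_nhds (hτ.prodMk_nhds hκ)).prodMk_nhds hν)
  have h2 : A.val y ∈ closure (A.val '' {x : A.X | s • x = x ∧
      ReflAt (A.fam h) (fun x => s • x) x}) := by
    refine mem_closure_of_tendsto h1 ?_
    filter_upwards [hev] with i hi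
    obtain ⟨h3, h4, h5, h6, h7⟩ := hi
    obtain ⟨x, hx1, hx2, hx3⟩ := A.exists_fix hσ hs2 h3 h4 h6 h7
    exact ⟨x, ⟨hx1, hgood x hx1 (by rw [hx2]; exact h5)⟩, hx3⟩
  have hind : Topology.IsInducing A.val := Topology.IsInducing.subtypeVal
  rw [hind.closure_eq_preimage_closure_image]
  exact h2

end Fixed

end GAct

end

end Crest.Agent.R272.Act_302
end

-- ▼ part R272/Act4_302
section

/-!
# R272 (S0415), ACTION (helper302), part 4: `RA (A.fam h) G`
-/

set_option autoImplicit false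
set_option linter.unusedSectionVars false

open Set Filter Topology

namespace Crest.Agent.R272.Act_302

open Crest.Agent.R275.Geo Crest.Agent.R273.Fam_835 Crest.Agent.R272.Quot_783
  Crest.Agent.R272.Gr_559 Crest.Agent.R272.FamP_54 Crest.Agent.R272.P1A_54
  Crest.Agent.R272.Flat2_302 Crest.Agent.R272.Refl_246 Crest.Agent.R272.MQ_783
  Crest.Agent.R272.SubF_54 Crest.Agent.R272.HFam_342 Crest.Agent.R275.Prod363
open Crest.Agent.R272.P1F_54 (nn hmk mulP mulP_ne mulP_hmk mulP_mulP mulP_one mulP_scale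
  mulP_rel mulP_holC p1Fam ps pc hmk_smul hfa_pc_hmk hmk_mem_ps ps_cover hmk_iff hmk_rel)

noncomputable section

variable {N : Type} [TopologicalSpace N] {F : Fam 3 N}

namespace GAct

variable {D : GData F} {G : Type} [Group G] [MulAction G N] (A : GAct D G)
variable (h : IsSl (ambFam F) D.X1 3)

section Base

variable {s : G} (hσ : A.σ s = Equiv.swap 0 1) (hs2 : s * s = 1) {z : N}
  (m : Mir F (fun u => s • u) z)

include hσ

/-- `P 0` and `Q 0` do not vanish simultaneously on the mirror off the flats -/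
theorem PQ_ne (hz : s • z = z) (h0 : ¬ (D.f0 z = 0 ∧ D.x 0 z = 0)) :
    ¬ (D.P 0 z = 0 ∧ D.Q 0 z = 0) := by
  rintro ⟨hP, hQ⟩
  obtain ⟨i, hi⟩ := F.cover z
  have hP' : ∀ a, D.P a z = 0 := by
    intro a
    fin_cases a
    · exact hP
    · show D.P 1 z = 0
      rw [A.P1_fix hσ hz, hP, mul_zero]
  have hQ' : ∀ a, D.Q a z = 0 := by
    intro a
    fin_cases a
    · exact hQ
    · show D.Q 1 z = 0
      rw [A.Q1_fix hσ hz, hQ, mul_zero]
  have hs : Function.Surjective ((LinearMap.pi fun a : Fin 2 =>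
      ((Gr_559.dd F i (D.P a) z : Cn 3 →L[ℂ] ℂ) : Cn 3 →ₗ[ℂ] ℂ)).prod (LinearMap.pi fun a : Fin 2 =>
      ((Gr_559.dd F i (D.Q a) z : Cn 3 →L[ℂ] ℂ) : Cn 3 →ₗ[ℂ] ℂ))) := by
    rintro ⟨φ, γ⟩
    obtain ⟨v, hv⟩ := D.rr' (A.reg1_fix hσ hz h0) hi φ γ
    refine ⟨v, Prod.ext (funext fun a => ?_) (funext fun a => ?_)⟩
    · exact (hv a).1 (hP' a)
    · exact (hv a).2 (hQ' a)
  have h1 := LinearMap.finrank_le_finrank_of_surjective hs
  rw [Module.finrank_prod, Module.finrank_pi, finrank_euclideanSpace, Fintype.card_fin,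
    Fintype.card_fin] at h1
  omega

/-- a function with values nonzero along the mirror -/
theorem P_dir (hz : s • z = z) (h0 : ¬ (D.f0 z = 0 ∧ D.x 0 z = 0)) (hP : D.P 0 z = 0) (w : ℂ) :
    ∃ v : Cn 3, v m.a = 0 ∧ dl m.e (D.P 0) z v = w := by
  obtain ⟨i, hi⟩ := F.cover z
  have hP1 : D.P 1 z = 0 := by rw [A.P1_fix hσ hz, hP, mul_zero]
  have a0 : HFA F (D.P 0) z := hf_of (D.P_hol 0) z trivial
  have a1 : HFA F (D.P 1) z := hf_of (D.P_hol 1) z trivial
  have ap : HFA F (A.p s 0) z := hf_of (A.p_hol s 0) z trivial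
  have key : ∀ α β : ℂ, ∃ v, dl m.e (D.P 0) z v = α ∧ dl m.e (D.P 1) z v = β := by
    intro α β
    obtain ⟨v, hv⟩ := D.rr' (A.reg1_fix hσ hz h0) hi ![α, β] 0
    refine ⟨dC (F.e i) m.e (fun x => x) z v, ?_, ?_⟩
    · rw [← dd_eq_dl m.cpt a0 m.mem hi]
      exact (hv 0).1 hP
    · rw [← dd_eq_dl m.cpt a1 m.mem hi]
      exact (hv 1).1 hP1
  have hrel : ∀ v : Cn 3, v m.a = 0 →
      dl m.e (D.P 1) z v = A.p s 0 z ^ 2 * dl m.e (D.P 0) z v := fun v hv =>
    m.rel (b := fun u => A.p s 0 u ^ 2) a1 a0 (ap.pow 2) (fun u hu => A.P1_fix hσ hu) hP hv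
  have hne : ∃ v, dl m.e (D.P 1) z v ≠ A.p s 0 z ^ 2 * dl m.e (D.P 0) z v := by
    obtain ⟨v, hv1, hv2⟩ := key 0 1
    exact ⟨v, by rw [hv1, hv2, mul_zero]; exact one_ne_zero⟩
  obtain ⟨v, hv1, hv2⟩ := key w (A.p s 0 z ^ 2 * w)
  exact ⟨v, m.mem_of hrel hne (by rw [hv1, hv2]), hv1⟩

theorem Q_dir (hz : s • z = z) (h0 : ¬ (D.f0 z = 0 ∧ D.x 0 z = 0)) (hP : D.Q 0 z = 0) (w : ℂ) :
    ∃ v : Cn 3, v m.a = 0 ∧ dl m.e (D.Q 0) z v = w := by
  obtain ⟨i, hi⟩ := F.cover z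
  have hP1 : D.Q 1 z = 0 := by rw [A.Q1_fix hσ hz, hP, mul_zero]
  have a0 : HFA F (D.Q 0) z := hf_of (D.Q_hol 0) z trivial
  have a1 : HFA F (D.Q 1) z := hf_of (D.Q_hol 1) z trivial
  have ap : HFA F (A.q s 0) z := hf_of (A.q_hol s 0) z trivial
  have key : ∀ α β : ℂ, ∃ v, dl m.e (D.Q 0) z v = α ∧ dl m.e (D.Q 1) z v = β := by
    intro α β
    obtain ⟨v, hv⟩ := D.rr' (A.reg1_fix hσ hz h0) hi 0 ![α, β]
    refine ⟨dC (F.e i) m.e (fun x => x) z v, ?_, ?_⟩
    · rw [← dd_eq_dl m.cpt a0 m.mem hi]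
      exact (hv 0).2 hP
    · rw [← dd_eq_dl m.cpt a1 m.mem hi]
      exact (hv 1).2 hP1
  have hrel : ∀ v : Cn 3, v m.a = 0 →
      dl m.e (D.Q 1) z v = A.q s 0 z ^ 2 * dl m.e (D.Q 0) z v := fun v hv =>
    m.rel (b := fun u => A.q s 0 u ^ 2) a1 a0 (ap.pow 2) (fun u hu => A.Q1_fix hσ hu) hP hv
  have hne : ∃ v, dl m.e (D.Q 1) z v ≠ A.q s 0 z ^ 2 * dl m.e (D.Q 0) z v := by
    obtain ⟨v, hv1, hv2⟩ := key 0 1
    exact ⟨v, by rw [hv1, hv2, mul_zero]; exact one_ne_zero⟩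
  obtain ⟨v, hv1, hv2⟩ := key w (A.q s 0 z ^ 2 * w)
  exact ⟨v, m.mem_of hrel hne (by rw [hv1, hv2]), hv1⟩

include m in
/-- the unramified points of the mirror are dense off the flats -/
theorem neBot_good (hz : s • z = z) (h0 : ¬ (D.f0 z = 0 ∧ D.x 0 z = 0)) :
    (𝓝 z ⊓ 𝓟 {u | s • u = u ∧ D.P 0 u ≠ 0 ∧ D.Q 0 u ≠ 0}).NeBot := by
  rw [← frequently_mem_iff_neBot]
  have hPQ := A.PQ_ne hσ hz h0
  have hfr : ∀ {g : N → ℂ}, g z = 0 → 𝓝 (g z) ≤ map g (𝓝[{u | s • u = u}] z) →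
      ∃ᶠ u in 𝓝[{u | s • u = u}] z, g u ≠ 0 := by
    intro g hg hle
    have h1 : ∃ᶠ w in 𝓝 (g z), w ≠ 0 := by
      rw [hg]
      have : (𝓝[≠] (0 : ℂ)).NeBot := inferInstance
      exact (self_mem_nhdsWithin (s := ({0}ᶜ : Set ℂ)) (a := (0 : ℂ)) |> fun h =>
        (Eventually.frequently h)).filter_mono nhdsWithin_le_nhds
    exact h1.filter_mono hle
  have hfin : ∃ᶠ u in 𝓝[{u | s • u = u}] z, D.P 0 u ≠ 0 ∧ D.Q 0 u ≠ 0 := by
    by_cases hP : D.P 0 z = 0
    · have hQ : D.Q 0 z ≠ 0 := fun hQ => hPQ ⟨hP, hQ⟩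
      have h1 := hfr hP (m.nhds_le (hf_of (D.P_hol 0)) (A.P_dir hσ m hz h0 hP))
      have h2 : ∀ᶠ u in 𝓝[{u | s • u = u}] z, D.Q 0 u ≠ 0 :=
        mem_nhdsWithin_of_mem_nhds ((D.continuous_Q 0).continuousAt.eventually_ne hQ)
      exact h1.and_eventually h2
    · by_cases hQ : D.Q 0 z = 0
      · have h1 := hfr hQ (m.nhds_le (hf_of (D.Q_hol 0)) (A.Q_dir hσ m hz h0 hQ))
        have h2 : ∀ᶠ u in 𝓝[{u | s • u = u}] z, D.P 0 u ≠ 0 :=
          mem_nhdsWithin_of_mem_nhds ((D.continuous_P 0).continuousAt.eventually_ne hP)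
        exact (h1.and_eventually h2).mono fun u hu => ⟨hu.2, hu.1⟩
      · intro hcon
        have h3 := mem_of_mem_nhdsWithin (show z ∈ {u | s • u = u} from hz) hcon
        exact h3 ⟨hP, hQ⟩
  have h4 : ∃ᶠ u in 𝓝 z, u ∈ {u | s • u = u} ∧ (D.P 0 u ≠ 0 ∧ D.Q 0 u ≠ 0) := by
    rw [frequently_nhdsWithin_iff] at hfin
    exact hfin.mono fun u hu => ⟨hu.2, hu.1⟩
  exact h4

include m in
/-- `(f0, x 0)` is open on the mirror at a flat -/
theorem flat_open (hz : s • z = z) (hf : D.f0 z = 0) (hx : D.x 0 z = 0) :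
    𝓝 ((0, 0) : ℂ × ℂ) ≤ map (fun u => (D.f0 u, D.x 0 u)) (𝓝[{u | s • u = u}] z) := by
  obtain ⟨i, hi⟩ := F.cover z
  have hx1 : D.x 1 z = 0 := by rw [A.x1_fix hσ hz, hx, mul_zero]
  have af : HFA F D.f0 z := hf_of D.f0_hol z trivial
  have a0 : HFA F (D.x 0) z := hf_of (D.x_hol 0) z trivial
  have a1 : HFA F (D.x 1) z := hf_of (D.x_hol 1) z trivial
  have aj : HFA F (A.j s 0) z := hf_of (A.j_hol s 0) z trivial
  have key : ∀ α ξ η : ℂ, ∃ v, dl m.e D.f0 z v = α ∧ dl m.e (D.x 0) z v = ξ ∧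
      dl m.e (D.x 1) z v = η := by
    intro α ξ η
    obtain ⟨v, hv0, hv1, hv2⟩ := D.ff' hf hx hx1 hi α ξ η
    refine ⟨dC (F.e i) m.e (fun x => x) z v, ?_, ?_, ?_⟩
    · rw [← dd_eq_dl m.cpt af m.mem hi]; exact hv0
    · rw [← dd_eq_dl m.cpt a0 m.mem hi]; exact hv1
    · rw [← dd_eq_dl m.cpt a1 m.mem hi]; exact hv2
  have hrel : ∀ v : Cn 3, v m.a = 0 →
      dl m.e (D.x 1) z v = A.j s 0 z * dl m.e (D.x 0) z v := fun v hv =>
    m.rel a1 a0 aj (fun u hu => A.x1_fix hσ hu) hx hv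
  have hne : ∃ v, dl m.e (D.x 1) z v ≠ A.j s 0 z * dl m.e (D.x 0) z v := by
    obtain ⟨v, hv0, hv1, hv2⟩ := key 0 0 1
    exact ⟨v, by rw [hv1, hv2, mul_zero]; exact one_ne_zero⟩
  have hg : HF F univ (fun u => (D.f0 u, D.x 0 u)) := fun u _ i hi =>
    (hf_of D.f0_hol u trivial i hi).prodMk (hf_of (D.x_hol 0) u trivial i hi)
  have e0 : ((0, 0) : ℂ × ℂ) = (fun u => (D.f0 u, D.x 0 u)) z := by
    show _ = (D.f0 z, D.x 0 z)
    rw [hf, hx]
  rw [e0]
  refine m.nhds_le hg fun w => ?_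
  obtain ⟨v, hv0, hv1, hv2⟩ := key w.1 w.2 (A.j s 0 z * w.2)
  refine ⟨v, m.mem_of hrel hne (by rw [hv1, hv2]), ?_⟩
  have d1 : HasFDerivAt (fun w => D.f0 (m.e.symm w)) (dl m.e D.f0 z) (m.e z) :=
    (hfa_cpt m.cpt af m.mem).hasFDerivAt
  have d2 : HasFDerivAt (fun w => D.x 0 (m.e.symm w)) (dl m.e (D.x 0) z) (m.e z) :=
    (hfa_cpt m.cpt a0 m.mem).hasFDerivAt
  have d3 : dl m.e (fun u => (D.f0 u, D.x 0 u)) z = (dl m.e D.f0 z).prod (dl m.e (D.x 0) z) :=
    (d1.prodMk d2).fderiv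
  rw [d3]
  exact Prod.ext hv0 hv1

end Base

section Refl

variable {s : G} (hσ : A.σ s = Equiv.swap 0 1) (hs2 : s * s = 1) (hs1 : s ≠ 1)
  [ContinuousConstSMul G N] (hR : RA F G)

include hσ hs2 hs1 hR

omit hs2 in
/-- the base reflection at a fixed point -/
theorem refl_base {z : N} (hz : s • z = z) : ReflAt F (fun u => s • u) z := by
  rcases hR.st z with h1 | ⟨s', -, -, h3, h4⟩
  · exact absurd (h1 s hz) hs1
  · obtain rfl := (h3 s hz).resolve_left hs1
    exact h4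

/-- unramified points -/
theorem refl_A {y : A.X} (hy : s • y = y) (h0 : ¬ (D.f0 (A.pz y) = 0 ∧ D.x 0 (A.pz y) = 0))
    (hP : D.P 0 (A.pz y) ≠ 0) (hQ : D.Q 0 (A.pz y) ≠ 0) :
    ReflAt (A.fam h) (fun x => s • x) y := by
  have hz : s • A.pz y = A.pz y := by rw [← A.pz_smul, hy]
  have hL : LC (A.fam h) F A.pz y := by
    refine A.lc_pz h (A.reg1_fix hσ hz h0) (fun i => ?_) (fun i => ?_)
    · fin_cases i
      · exact hP
      · show D.P 1 (A.pz y) ≠ 0
        rw [A.P1_fix hσ hz]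
        exact mul_ne_zero (pow_ne_zero 2 (A.p_ne _ _ _)) hP
    · fin_cases i
      · exact hQ
      · show D.Q 1 (A.pz y) ≠ 0
        rw [A.Q1_fix hσ hz]
        exact mul_ne_zero (pow_ne_zero 2 (A.q_ne _ _ _)) hQ
  exact reflAt_of_LC (T := fun u => s • u) (A.holC_pz h) (A.holC_smul h s) (hR.hol s) hL
    (fun x => A.pz_smul s x) hy (A.refl_base hσ hs1 hR hz)

/-- points off the flats -/
theorem refl_B {y : A.X} (hy : s • y = y) (h0 : ¬ (D.f0 (A.pz y) = 0 ∧ D.x 0 (A.pz y) = 0)) :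
    ReflAt (A.fam h) (fun x => s • x) y := by
  have hz : s • A.pz y = A.pz y := by rw [← A.pz_smul, hy]
  obtain ⟨m⟩ := exists_mir hR hs1 hz
  have hreg := A.reg1_fix hσ hz h0
  have hNB := A.neBot_good hσ m hz h0
  set z := A.pz y with hzd
  let l : Filter N := 𝓝 z ⊓ 𝓟 {u | s • u = u ∧ D.P 0 u ≠ 0 ∧ D.Q 0 u ≠ 0}
  have hl : l ≤ 𝓝 z := inf_le_left
  have hid : Tendsto (fun u : N => u) l (𝓝 z) := hl
  have tP : Tendsto (D.P 0) l (𝓝 (D.P 0 z)) := ((D.continuous_P 0).tendsto z).mono_left hl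
  have tQ : Tendsto (D.Q 0) l (𝓝 (D.Q 0 z)) := ((D.continuous_Q 0).tendsto z).mono_left hl
  obtain ⟨κ, hκ, hκ2⟩ := exists_lift tP tQ (A.PQ_ne hσ hz h0) (k := D.k 0 y)
    (by exact A.k_sq y 0)
  have h01 : D.x 0 z ≠ 0 ∨ D.f0 z ≠ 0 := by tauto
  have hv0 : D.x 0 z * D.x 1 z ≠ 0 ∨ D.f0 z ≠ 0 := by
    by_cases hf : D.f0 z = 0
    · left
      exact mul_ne_zero (fun h => hreg 0 ⟨hf, h⟩) (fun h => hreg 1 ⟨hf, h⟩)
    · exact Or.inr hf
  have hτ : Tendsto (fun u => hmk (D.x 0 u) (D.f0 u)) l (𝓝 (D.t 0 y)) := by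
    rw [A.t_eq y h0]
    exact (P1F_54.ContinuousAt.hmk (D.continuous_x 0).continuousAt D.continuous_f0.continuousAt
      h01).tendsto.mono_left hl
  have hν : Tendsto (fun u => hmk (D.x 0 u * D.x 1 u) (D.f0 u)) l (𝓝 (D.v y)) := by
    rw [A.v_eq y hreg]
    exact (P1F_54.ContinuousAt.hmk ((D.continuous_x 0).mul (D.continuous_x 1)).continuousAt
      D.continuous_f0.continuousAt hv0).tendsto.mono_left hl
  refine A.step h hσ hs2 hy (fun u => ¬ (D.f0 u = 0 ∧ D.x 0 u = 0) ∧ D.P 0 u ≠ 0 ∧ D.Q 0 u ≠ 0)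
    (fun x hx hg => A.refl_A h hσ hs2 hs1 hR hx hg.1 hg.2.1 hg.2.2) (l := l) hid hτ hκ hν ?_
  have hr : ∀ᶠ u in l, ¬ (D.f0 u = 0 ∧ D.x 0 u = 0) := by
    have h1 : ∀ᶠ u in 𝓝 z, ¬ (D.f0 u = 0 ∧ D.x 0 u = 0) := by
      rcases h01 with h2 | h2
      · filter_upwards [(D.continuous_x 0).continuousAt.eventually_ne h2] with u hu h3
        exact hu h3.2
      · filter_upwards [D.continuous_f0.continuousAt.eventually_ne h2] with u hu h3
        exact hu h3.1
    exact hl h1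
  have hm : ∀ᶠ u in l, s • u = u ∧ D.P 0 u ≠ 0 ∧ D.Q 0 u ≠ 0 :=
    mem_inf_of_right (mem_principal_self _)
  filter_upwards [hr, hm, hκ2] with u hu hu2 hu3
  refine ⟨hu2.1, hu, ⟨hu, hu2.2⟩, ?_, rfl⟩
  refine (Y_reg D hu _ _).2 ⟨?_, hu3⟩
  exact (hmk_iff (by tauto) _).2 rfl

omit [ContinuousConstSMul G N] in
omit hσ hs2 hs1 hR in
/-- limits of points of the projective line by scaling -/
theorem _root_.Crest.Agent.R272.Act_302.tendsto_hmk {ι : Type*} {l : Filter ι}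
    {a b cc X Y : ι → ℂ} {X0 Y0 : ℂ} (hcc : ∀ᶠ i in l, cc i ≠ 0)
    (ha : ∀ᶠ i in l, a i = cc i * X i) (hb : ∀ᶠ i in l, b i = cc i * Y i)
    (hX : Tendsto X l (𝓝 X0)) (hY : Tendsto Y l (𝓝 Y0)) (h0 : X0 ≠ 0 ∨ Y0 ≠ 0) :
    Tendsto (fun i => hmk (a i) (b i)) l (𝓝 (hmk X0 Y0)) := by
  have h1 : Tendsto (fun i => hmk (X i) (Y i)) l (𝓝 (hmk X0 Y0)) :=
    (P1F_54.continuousAt_hmk h0).tendsto.comp (hX.prodMk_nhds hY)
  refine h1.congr' ?_
  filter_upwards [hcc, ha, hb] with i h2 h3 h4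
  rw [h3, h4, hmk_smul h2]

omit hσ hs2 hs1 hR [ContinuousConstSMul G N] in
theorem _root_.Crest.Agent.R272.Act_302.hnd_ne (b : Bool) (c : ℂ) : hn b c ≠ 0 ∨ hd b c ≠ 0 := by
  cases b
  · right; rw [hd_false]; exact one_ne_zero
  · left; rw [hn_true]; exact one_ne_zero

/-- approximation of a fixed point over a flat -/
theorem step_flat {y : A.X} (hy : s • y = y) (hf : D.f0 (A.pz y) = 0)
    (hx : D.x 0 (A.pz y) = 0) {ι : Type*} {l : Filter ι} [l.NeBot] {ζ : ι → N}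
    (hζ : Tendsto ζ l (𝓝 (A.pz y))) (hM : ∀ᶠ i in l, s • ζ i = ζ i) (b : Bool) {p : ι → ℂ}
    {p0 : ℂ} (hp : Tendsto p l (𝓝 p0)) {cc : ι → ℂ} (hcc : ∀ᶠ i in l, cc i ≠ 0)
    (ex : ∀ᶠ i in l, D.x 0 (ζ i) = cc i * hn b (p i))
    (ef : ∀ᶠ i in l, D.f0 (ζ i) = cc i * hd b (p i)) (ht : D.t 0 y = hmk (hn b p0) (hd b p0))
    (hb : b = true → p0 = 0)
    (hν : Tendsto (fun i => hmk (D.x 0 (ζ i) * D.x 1 (ζ i)) (D.f0 (ζ i))) l (𝓝 (D.v y))) :
    ReflAt (A.fam h) (fun x => s • x) y := by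
  obtain ⟨C, hC⟩ := D.exists_loc 0 (A.pz y)
  obtain ⟨i, hi⟩ := F.cover (A.pz y)
  have hζi : Tendsto (fun j => F.e i (ζ j)) l (𝓝 (F.e i (A.pz y))) :=
    ((F.e i).continuousAt hi).tendsto.comp hζ
  have hzp : Tendsto (fun j => (F.e i (ζ j), p j)) l (𝓝 (F.e i (A.pz y), p0)) :=
    hζi.prodMk_nhds hp
  have ta : Tendsto (fun j => C.fc i b (F.e i (ζ j), p j)) l (𝓝 (C.fc i b (F.e i (A.pz y), p0))) :=
    (C.fc_diff hi b p0).continuousAt.tendsto.comp hzp
  have tb : Tendsto (fun j => C.gc i b (F.e i (ζ j), p j)) l (𝓝 (C.gc i b (F.e i (A.pz y), p0))) :=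
    (C.gc_diff hi b p0).continuousAt.tendsto.comp hzp
  have efc : ∀ u ∈ (F.e i).source, ∀ c : ℂ, C.fc i b (F.e i u, c) = C.f u (hn b c) (hd b c) := by
    intro u hu c
    simp only [Loc.fc, (F.e i).left_inv hu]
  have egc : ∀ u ∈ (F.e i).source, ∀ c : ℂ, C.gc i b (F.e i u, c) = C.g u (hn b c) (hd b c) := by
    intro u hu c
    simp only [Loc.gc, (F.e i).left_inv hu]
  have hne : ¬ (C.fc i b (F.e i (A.pz y), p0) = 0 ∧ C.gc i b (F.e i (A.pz y), p0) = 0) := by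
    rw [efc _ hi, egc _ hi]
    rintro ⟨h1, h2⟩
    cases b
    · rw [hn_false, hd_false] at h1 h2
      exact (hC.flat_f hf hx p0 h1).1 h2
    · rw [hb rfl, hn_true, hd_true] at h1
      exact (hC.flat_inf hf hx).1 h1
  obtain ⟨c0, hc0, e1, e2⟩ := hmk_rel (hnd_ne b p0)
  rw [← ht] at e1 e2
  change hn b p0 = c0 * P1.n (D.t 0 y) at e1
  change hd b p0 = c0 * P1.d (D.t 0 y) at e2
  have hk : P1.n (D.k 0 y) ^ 2 * C.gc i b (F.e i (A.pz y), p0) =
      P1.d (D.k 0 y) ^ 2 * C.fc i b (F.e i (A.pz y), p0) := by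
    have h1 : P1.n (D.k 0 y) ^ 2 * C.g (A.pz y) (P1.n (D.t 0 y)) (P1.d (D.t 0 y)) =
        P1.d (D.k 0 y) ^ 2 * C.f (A.pz y) (P1.n (D.t 0 y)) (P1.d (D.t 0 y)) :=
      ((C.iff (A.pz y) C.mem (D.t 0 y) (D.k 0 y)).1 ((A.val_mem y).1 0)).2
    rw [efc _ hi, egc _ hi, e1, e2, C.f_hom, C.g_hom]
    linear_combination c0 ^ C.e * h1
  obtain ⟨κ, hκ, hκ2⟩ := exists_lift ta tb hne hk
  have hτ : Tendsto (fun j => hmk (D.x 0 (ζ j)) (D.f0 (ζ j))) l (𝓝 (D.t 0 y)) := by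
    rw [ht]
    refine tendsto_hmk hcc ex ef ?_ ?_ (hnd_ne b p0)
    · exact ((differentiable_hn b).continuous.tendsto p0).comp hp
    · exact ((differentiable_hd b).continuous.tendsto p0).comp hp
  refine A.step h hσ hs2 hy (fun u => ¬ (D.f0 u = 0 ∧ D.x 0 u = 0))
    (fun x hx hg => A.refl_B h hσ hs2 hs1 hR hx hg) hζ hτ hκ hν ?_
  filter_upwards [hM, hcc, ex, ef, hκ2, hζ.eventually (C.U_open.mem_nhds C.mem),
    hζ.eventually ((F.e i).open_source.mem_nhds hi)] with j h1 h2 h3 h4 h5 h6 h7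
  have hreg : ¬ (D.f0 (ζ j) = 0 ∧ D.x 0 (ζ j) = 0) := by
    rw [h3, h4]
    rintro ⟨h8, h9⟩
    rcases hnd_ne b (p j) with h10 | h10
    · exact mul_ne_zero h2 h10 h9
    · exact mul_ne_zero h2 h10 h8
  refine ⟨h1, hreg, hreg, ?_, rfl⟩
  have hτe : hmk (D.x 0 (ζ j)) (D.f0 (ζ j)) = hmk (hn b (p j)) (hd b (p j)) := by
    rw [h3, h4, hmk_smul h2]
  obtain ⟨c1, hc1, e3, e4⟩ := hmk_rel (hnd_ne b (p j))
  rw [← hτe] at e3 e4
  change hn b (p j) = c1 * P1.n (hmk (D.x 0 (ζ j)) (D.f0 (ζ j))) at e3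
  change hd b (p j) = c1 * P1.d (hmk (D.x 0 (ζ j)) (D.f0 (ζ j))) at e4
  refine (C.iff (ζ j) h6 _ _).2 ⟨?_, ?_⟩
  · exact (hmk_iff (by tauto) _).2 rfl
  · rw [efc _ h7, egc _ h7, e3, e4, C.f_hom, C.g_hom] at h5
    apply mul_left_cancel₀ (pow_ne_zero C.e hc1)
    linear_combination h5

/-- points over the flats -/
theorem refl_C {y : A.X} (hy : s • y = y) (hf : D.f0 (A.pz y) = 0)
    (hx : D.x 0 (A.pz y) = 0) : ReflAt (A.fam h) (fun x => s • x) y := by
  have hz : s • A.pz y = A.pz y := by rw [← A.pz_smul, hy]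
  obtain ⟨m⟩ := exists_mir hR hs1 hz
  have hop := A.flat_open hσ m hz hf hx
  have hx1 : D.x 1 (A.pz y) = 0 := by rw [A.x1_fix hσ hz, hx, mul_zero]
  have hrel : nn (D.v y) * P1F_54.dd (D.t 0 y) = 0 := by
    have h1 : nn (D.v y) * P1F_54.dd (D.t 0 y) =
      P1F_54.dd (D.v y) * nn (D.t 0 y) * D.x 1 (A.pz y) := (A.val_mem y).2.1
    rw [h1, hx1, mul_zero]
  have hjc : ContinuousAt (A.j s 0) (A.pz y) :=
    (hf_of (A.j_hol s 0) (A.pz y) trivial).continuousAt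
  have hjne := A.j_ne s 0 (A.pz y)
  -- the common part
  have main : ∀ γ : ℂ → ℂ × ℂ, Tendsto γ (𝓝[≠] 0) (𝓝 (0, 0)) → ∃ l : Filter (N × ℂ), l.NeBot ∧
      Tendsto Prod.fst l (𝓝 (A.pz y)) ∧ Tendsto Prod.snd l (𝓝 (0 : ℂ)) ∧
      (∀ᶠ p : N × ℂ in l, s • p.1 = p.1) ∧ (∀ᶠ p : N × ℂ in l, p.2 ≠ 0) ∧
      (∀ᶠ p : N × ℂ in l, D.f0 p.1 = (γ p.2).1) ∧ (∀ᶠ p : N × ℂ in l, D.x 0 p.1 = (γ p.2).2) ∧
      (∀ᶠ p : N × ℂ in l, D.x 1 p.1 = A.j s 0 p.1 * (γ p.2).2) ∧
      Tendsto (fun p : N × ℂ => A.j s 0 p.1) l (𝓝 (A.j s 0 (A.pz y))) := by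
    intro γ hγ
    have hNB := neBot_lift hop hγ
    refine ⟨_, hNB, ?_⟩
    have t1 : Tendsto Prod.fst ((𝓝[{u | s • u = u}] (A.pz y) ×ˢ 𝓝[≠] (0 : ℂ)) ⊓
        𝓟 {p : N × ℂ | (D.f0 p.1, D.x 0 p.1) = γ p.2}) (𝓝[{u | s • u = u}] (A.pz y)) :=
      tendsto_fst.mono_left inf_le_left
    have t2 : Tendsto Prod.snd ((𝓝[{u | s • u = u}] (A.pz y) ×ˢ 𝓝[≠] (0 : ℂ)) ⊓
        𝓟 {p : N × ℂ | (D.f0 p.1, D.x 0 p.1) = γ p.2}) (𝓝[≠] (0 : ℂ)) :=
      tendsto_snd.mono_left inf_le_left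
    have t3 := (tendsto_nhdsWithin_iff.1 t1)
    have t4 := (tendsto_nhdsWithin_iff.1 t2)
    have t5 : ∀ᶠ p : N × ℂ in ((𝓝[{u | s • u = u}] (A.pz y) ×ˢ 𝓝[≠] (0 : ℂ)) ⊓
        𝓟 {p : N × ℂ | (D.f0 p.1, D.x 0 p.1) = γ p.2}), (D.f0 p.1, D.x 0 p.1) = γ p.2 :=
      mem_inf_of_right (mem_principal_self _)
    refine ⟨t3.1, t4.1, t3.2, t4.2, t5.mono fun p hp => congrArg Prod.fst hp,
      t5.mono fun p hp => congrArg Prod.snd hp, ?_, hjc.tendsto.comp t3.1⟩
    filter_upwards [t3.2, t5] with p hp1 hp2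
    rw [A.x1_fix hσ hp1]
    exact congrArg (fun w => A.j s 0 p.1 * w) (congrArg Prod.snd hp2)
  have hsm : ∀ {f : ℂ → ℂ × ℂ}, Continuous f → f 0 = (0, 0) →
      Tendsto f (𝓝[≠] 0) (𝓝 (0, 0)) := by
    intro f hf h0
    have := hf.tendsto 0
    rw [h0] at this
    exact this.mono_left nhdsWithin_le_nhds
  rcases P1F_54.p1_cases (D.t 0 y) with ht | ⟨c, ht⟩
  · by_cases hv : nn (D.v y) = 0
    · -- `t = ∞`, `v = 0`
      have hv0 : D.v y = ((0 : ℂ) : P1) := P1F_54.nn_eq_zero.1 hv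
      obtain ⟨l, hl, h1, h2, h3, h4, h5, h6, h7, h8⟩ := main (fun e => (e ^ 3, e ^ 2))
        (hsm (by fun_prop) (by simp))
      refine A.step_flat h hσ hs2 hs1 hR hy hf hx h1 h3 true (p := Prod.snd) h2
        (cc := fun p => p.2 ^ 2) (h4.mono fun p hp => pow_ne_zero 2 hp) ?_ ?_ ?_ (fun _ => rfl) ?_
      · filter_upwards [h6] with p hp
        rw [hp, hn_true, mul_one]
      · filter_upwards [h5] with p hp
        rw [hp, hd_true]
        ring
      · rw [ht, hn_true, hd_true, P1F_54.hmk_zero]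
      · rw [hv0, ← P1F_54.hmk_one]
        refine tendsto_hmk (cc := fun p => p.2 ^ 3) (X := fun p => A.j s 0 p.1 * p.2)
          (Y := fun _ => 1) (h4.mono fun p hp => pow_ne_zero 3 hp) ?_ ?_ ?_ tendsto_const_nhds
          (Or.inr one_ne_zero)
        · filter_upwards [h6, h7] with p hp hp'
          rw [hp, hp']
          ring
        · filter_upwards [h5] with p hp
          rw [hp, mul_one]
        · have := h8.mul h2
          rwa [mul_zero] at this
    · -- `t = ∞`, `v ≠ 0`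
      obtain ⟨l, hl, h1, h2, h3, h4, h5, h6, h7, h8⟩ := main
        (fun e => (e * (e * (A.j s 0 (A.pz y) * P1F_54.dd (D.v y) / nn (D.v y))), e))
        (hsm (by fun_prop) (by simp))
      refine A.step_flat h hσ hs2 hs1 hR hy hf hx h1 h3 true
        (p := fun p => p.2 * (A.j s 0 (A.pz y) * P1F_54.dd (D.v y) / nn (D.v y))) (p0 := 0) ?_
        (cc := fun p => p.2) h4 ?_ ?_ ?_ (fun _ => rfl) ?_
      · have := h2.mul_const (A.j s 0 (A.pz y) * P1F_54.dd (D.v y) / nn (D.v y))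
        rwa [zero_mul] at this
      · filter_upwards [h6] with p hp
        rw [hp, hn_true, mul_one]
      · filter_upwards [h5] with p hp
        rw [hp, hd_true]
      · rw [ht, hn_true, hd_true, P1F_54.hmk_zero]
      · have e1 : D.v y = hmk (A.j s 0 (A.pz y))
            (A.j s 0 (A.pz y) * P1F_54.dd (D.v y) / nn (D.v y)) := by
          refine (hmk_iff (Or.inl hjne) _).1 ?_
          field_simp
        have e2 := tendsto_hmk (l := l) (cc := fun p : N × ℂ => p.2 ^ 2)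
          (X := fun p => A.j s 0 p.1)
          (Y := fun _ => A.j s 0 (A.pz y) * P1F_54.dd (D.v y) / nn (D.v y))
          (a := fun p => D.x 0 p.1 * D.x 1 p.1) (b := fun p => D.f0 p.1)
          (h4.mono fun p hp => pow_ne_zero 2 hp) (by
            filter_upwards [h6, h7] with p hp hp'
            rw [hp, hp']
            ring) (by
            filter_upwards [h5] with p hp
            rw [hp]
            ring) h8 tendsto_const_nhds (Or.inl hjne)
        rw [← e1] at e2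
        exact e2
  · -- `t = c`, `v = 0`
    have hv : nn (D.v y) = 0 := by
      rw [ht, P1F_54.dd_coe, mul_one] at hrel
      exact hrel
    have hv0 : D.v y = ((0 : ℂ) : P1) := P1F_54.nn_eq_zero.1 hv
    obtain ⟨l, hl, h1, h2, h3, h4, h5, h6, h7, h8⟩ := main (fun e => (e, e * c))
      (hsm (by fun_prop) (by simp))
    refine A.step_flat h hσ hs2 hs1 hR hy hf hx h1 h3 false (p := fun _ => c) tendsto_const_nhds
      (cc := fun p => p.2) h4 ?_ ?_ ?_ (fun h => absurd h (by simp)) ?_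
    · filter_upwards [h6] with p hp
      rw [hp, hn_false]
    · filter_upwards [h5] with p hp
      rw [hp, hd_false, mul_one]
    · rw [ht, hn_false, hd_false, P1F_54.hmk_one]
    · rw [hv0, ← P1F_54.hmk_one]
      refine tendsto_hmk (cc := fun p => p.2) (X := fun p => A.j s 0 p.1 * p.2 * c ^ 2)
        (Y := fun _ => 1) h4 ?_ ?_ ?_ tendsto_const_nhds (Or.inr one_ne_zero)
      · filter_upwards [h6, h7] with p hp hp'
        rw [hp, hp']
        ring
      · filter_upwards [h5] with p hp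
        rw [hp, mul_one]
      · have := (h8.mul h2).mul_const (c ^ 2)
        rwa [mul_zero, zero_mul] at this

/-- **the derivative at every fixed point of `X1` is a reflection** -/
theorem reflAt {y : A.X} (hy : s • y = y) : ReflAt (A.fam h) (fun x => s • x) y := by
  by_cases h0 : D.f0 (A.pz y) = 0 ∧ D.x 0 (A.pz y) = 0
  · exact A.refl_C h hσ hs2 hs1 hR hy h0.1 h0.2
  · exact A.refl_B h hσ hs2 hs1 hR hy h0

end Refl

/-- **`RA` on `X1`** -/
theorem ra [T2Space N] [LocallyCompactSpace N] [ProperlyDiscontinuousSMul G N] (hR : RA F G)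
    (hfix : ∀ (s : G) (z : N), s ≠ 1 → s • z = z → A.σ s = Equiv.swap 0 1) :
    RA (A.fam h) G where
  hol := A.holC_smul h
  pd := A.pd
  st y := by
    have := hR.ccs
    rcases hR.st (A.pz y) with h1 | ⟨s, h1, h2, h3, h4⟩
    · left
      intro g hg
      exact h1 g (by rw [← A.pz_smul, hg])
    · by_cases hs : s = 1
      · left
        intro g hg
        rcases h3 g (by rw [← A.pz_smul, hg]) with h5 | h5
        · exact h5
        · rw [h5, hs]
      · by_cases hy : s • y = y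
        · right
          refine ⟨s, h1, hy, fun g hg => h3 g (by rw [← A.pz_smul, hg]), ?_⟩
          exact A.reflAt h (hfix s _ hs h2) h1 hs hR hy
        · left
          intro g hg
          rcases h3 g (by rw [← A.pz_smul, hg]) with h5 | h5
          · exact h5
          · exact absurd (h5 ▸ hg) hy




end GAct

end

end Crest.Agent.R272.Act_302
end

-- ▼ part R272/Act5_302

/-!
# R272 (S0415), ACTION (helper302), part 5: the statements with 559's complex structure of `X1`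

* `A.C1 : Fam 3 A.X` := 559's `famX1`; `A.ra1 : RA F G → RA A.C1 G`;
* `kAct` : 990's `KAct`.
-/

set_option autoImplicit false
set_option linter.unusedSectionVars false

open Set Filter Topology

namespace Crest.Agent.R272.Act_302

open Crest.Agent.R275.Geo Crest.Agent.R273.Fam_835 Crest.Agent.R272.Quot_783
  Crest.Agent.R272.Gr_559 Crest.Agent.R272.P1A_54 Crest.Agent.R272.MQ_783

noncomputable section

variable {N : Type} [TopologicalSpace N] {F : Fam 3 N}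

namespace GAct

variable {D : GData F} {G : Type} [Group G] [MulAction G N] (A : GAct D G)

/-- the complex structure of `X1` -/
abbrev C1 : Fam 3 A.X := A.fam (isSl_X1 D)

/-- **the quotient hypotheses on `X1`** -/
theorem ra1 [T2Space N] [LocallyCompactSpace N] [ProperlyDiscontinuousSMul G N] (hR : RA F G)
    (hfix : ∀ (s : G) (z : N), s ≠ 1 → s • z = z → A.σ s = Equiv.swap 0 1) : RA A.C1 G :=
  A.ra (isSl_X1 D) hR hfix


end GAct

end

end Crest.Agent.R272.Act_302
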