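import Crest.Agent.R273.Fam_835
import Crest.Agent.R272.DCov1_426
import Crest.Agent.R272.PImm1_102

-- ▼ part R272/DCov2_426
section

/-!
# R272 (S0414, S0415), DCOV (helper426), file 2: abelian covers of complex manifolds

`Data A ρ` : line bundles `L a`, exponents `k a ≥ 1`, holomorphic sections `s a` of `(L a)^(k a)`,
`a : ρ`, with `SNC` zero divisors.
`D.T`      : the total space of `⊕ L a` (a `FiberBundleCore`), charts `D.ch i`
`D.X`      : `{t ∈ T | ∀ a, (t_a)^(k a) = s a}`
`D.famX`   : the holomorphic charts of `X`.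
-/

set_option autoImplicit false
set_option linter.unusedSectionVars false

open Set Filter Topology

namespace Crest.Agent.R272.DCov_426

open Crest.Agent.R275.Geo Crest.Agent.R275.Core144
open Crest.Agent.R273.Map_835 Crest.Agent.R273.Fam_835

noncomputable section

variable {n : ℕ} {M : Type} [TopologicalSpace M]

/-- line bundles with roots of sections -/
structure Data (A : Atl n M) (ρ : Type) where
  L : ρ → LB A
  k : ρ → ℕ
  s : ρ → A.ι → M → ℂ
  kpos : ∀ a, 0 < k a
  hs : ∀ a, IsHS (L a ^ k a) univ (s a)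
  snc : ∀ i, ∀ x ∈ (A.e i).source, ∀ w : ρ → ℂ, ∃ v : Cn n, ∀ a, s a i x = 0 →
    fderiv ℂ (fun z => s a i ((A.e i).symm z)) (A.e i x) v = w a

variable {A : Atl n M} {ρ : Type} [Fintype ρ]

theorem LB_pow_g (L : LB A) (m : ℕ) (i j : A.ι) (x : M) : (L ^ m).g i j x = (L.g i j x) ^ m := by
  induction m with
  | zero => simp
  | succ m ih => rw [pow_succ, LB.mul_g, ih, pow_succ]

theorem continuousOn_g (L : LB A) (i j : A.ι) :
    ContinuousOn (L.g i j) ((A.e i).source ∩ (A.e j).source) := by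
  intro x hx
  have h1 := (L.hol i j).diffAt (A.e j).open_source hx.1 hx.2
  have h2 : ContinuousAt (fun y => L.g i j ((A.e i).symm (A.e i y))) x :=
    ContinuousAt.comp (g := fun z => L.g i j ((A.e i).symm z)) h1.continuousAt
      ((A.e i).continuousAt hx.1)
  refine ContinuousAt.continuousWithinAt (h2.congr ?_)
  filter_upwards [(A.e i).open_source.mem_nhds hx.1] with y hy
  rw [(A.e i).left_inv hy]

namespace Data

variable (D : Data A ρ)

/-- the total space of `⊕ L a` -/
def core : FiberBundleCore A.ι M (ρ → ℂ) where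
  baseSet i := (A.e i).source
  isOpen_baseSet i := (A.e i).open_source
  indexAt x := (A.cover x).choose
  mem_baseSet_at x := (A.cover x).choose_spec
  coordChange i j x v := fun a => (D.L a).g j i x * v a
  coordChange_self i x hx v := by
    funext a
    rw [(D.L a).self, one_mul]
  continuousOn_coordChange i j := by
    rw [continuousOn_pi]
    intro a
    refine ContinuousOn.mul ?_ (by fun_prop)
    exact (continuousOn_g (D.L a) j i).comp continuous_fst.continuousOn
      (fun p hp => ⟨hp.1.2, hp.1.1⟩)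
  coordChange_comp i j k x hx v := by
    funext a
    show (D.L a).g k j x * ((D.L a).g j i x * v a) = (D.L a).g k i x * v a
    rw [← (D.L a).mul k j i x ⟨⟨hx.2, hx.1.2⟩, hx.1.1⟩, mul_assoc]

/-- the total space -/
abbrev T : Type := D.core.TotalSpace

/-- the index chosen at a point -/
def idx (x : M) : A.ι := (A.cover x).choose

theorem idx_mem (x : M) : x ∈ (A.e (idx x)).source := (A.cover x).choose_spec

/-- fibre coordinate in the chart `i` -/
def cd (i : A.ι) (t : D.T) : ρ → ℂ := fun a => (D.L a).g i (idx t.1) t.1 * t.2 a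

/-- the charts of the total space -/
def ch (i : A.ι) : OpenPartialHomeomorph D.T (Cn n × (ρ → ℂ)) :=
  (D.core.localTriv i).toOpenPartialHomeomorph.trans
    ((A.e i).prod (OpenPartialHomeomorph.refl (ρ → ℂ)))

theorem ch_apply (i : A.ι) (t : D.T) : D.ch i t = (A.e i t.1, D.cd i t) := rfl

theorem mem_ch_source {i : A.ι} {t : D.T} : t ∈ (D.ch i).source ↔ t.1 ∈ (A.e i).source := by
  constructor
  · intro h
    exact h.1
  · intro h
    exact ⟨h, h, mem_univ _⟩

theorem mem_ch_target {i : A.ι} {w : Cn n × (ρ → ℂ)} :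
    w ∈ (D.ch i).target ↔ w.1 ∈ (A.e i).target := by
  constructor
  · intro h
    exact h.1.1
  · intro h
    refine ⟨⟨h, mem_univ _⟩, ?_⟩
    show ((A.e i).symm w.1, w.2) ∈ (D.core.localTriv i).toOpenPartialHomeomorph.target
    exact ⟨(A.e i).map_target h, mem_univ _⟩


theorem cd_ch_symm {i : A.ι} {w : Cn n × (ρ → ℂ)} (hw : w.1 ∈ (A.e i).target) :
    D.cd i ((D.ch i).symm w) = w.2 := by
  have h1 := (D.ch i).right_inv (D.mem_ch_target.2 hw)
  rw [ch_apply] at h1
  exact congrArg Prod.snd h1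

theorem cd_tr (i j : A.ι) (t : D.T) (hi : t.1 ∈ (A.e i).source) (hj : t.1 ∈ (A.e j).source)
    (a : ρ) : D.cd i t a = (D.L a).g i j t.1 * D.cd j t a := by
  show (D.L a).g i (idx t.1) t.1 * t.2 a = (D.L a).g i j t.1 * ((D.L a).g j (idx t.1) t.1 * t.2 a)
  rw [← (D.L a).mul i j (idx t.1) t.1 ⟨⟨hi, hj⟩, idx_mem _⟩, mul_assoc]

theorem continuous_proj : Continuous (fun t : D.T => t.1) := D.core.continuous_proj

/-- `A.e j (symm z)` and `cd` are holomorphic in the chart `i` -/
theorem diffAt_ch {i j : A.ι} {w : Cn n × (ρ → ℂ)} (hw : w.1 ∈ (A.e i).target)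
    (hj : (A.e i).symm w.1 ∈ (A.e j).source) :
    DifferentiableAt ℂ (fun w => D.ch j ((D.ch i).symm w)) w := by
  have h1 : DifferentiableAt ℂ (fun z => A.e j ((A.e i).symm z)) w.1 :=
    (A.holo i j).differentiableAt
      (((A.e i).isOpen_inter_preimage_symm (A.e j).open_source).mem_nhds ⟨hw, hj⟩)
  have h2 : ∀ a, DifferentiableAt ℂ (fun z => (D.L a).g j i ((A.e i).symm z)) w.1 := by
    intro a
    have h3 := (((D.L a).hol i j).diffAt (A.e j).open_source ((A.e i).map_target hw) hj)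
    rw [(A.e i).right_inv hw] at h3
    have h4 : (fun z => (D.L a).g j i ((A.e i).symm z)) =
        fun z => ((D.L a).g i j ((A.e i).symm z))⁻¹ := by
      funext z
      rw [LB.inv_eq]
    rw [h4]
    exact h3.inv ((D.L a).ne_zero _ _ _)
  have h5 : DifferentiableAt ℂ (fun w : Cn n × (ρ → ℂ) => (A.e j ((A.e i).symm w.1),
      fun a => (D.L a).g j i ((A.e i).symm w.1) * w.2 a)) w := by
    refine DifferentiableAt.prodMk (DifferentiableAt.comp w
      (g := fun z => A.e j ((A.e i).symm z)) h1 differentiableAt_fst) ?_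
    rw [differentiableAt_pi]
    intro a
    refine DifferentiableAt.mul (DifferentiableAt.comp w
      (g := fun z => (D.L a).g j i ((A.e i).symm z)) (h2 a) differentiableAt_fst) ?_
    fun_prop
  refine h5.congr_of_eventuallyEq ?_
  have ho : IsOpen {w : Cn n × (ρ → ℂ) | w.1 ∈ (A.e i).target ∩ (A.e i).symm ⁻¹' (A.e j).source} :=
    ((A.e i).isOpen_inter_preimage_symm (A.e j).open_source).preimage continuous_fst
  filter_upwards [ho.mem_nhds ⟨hw, hj⟩] with u hu
  rw [ch_apply]
  refine Prod.ext rfl ?_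
  funext a
  show D.cd j ((D.ch i).symm u) a = (D.L a).g j i ((A.e i).symm u.1) * u.2 a
  rw [D.cd_tr j i ((D.ch i).symm u) hu.2 ((A.e i).map_target hu.1), D.cd_ch_symm hu.1]
  rfl

/-- the cover, a subset of the total space -/
def X : Set D.T := {t | ∀ a, t.2 a ^ D.k a = D.s a (idx t.1) t.1}

theorem mem_X_iff {i : A.ι} {t : D.T} (hi : t.1 ∈ (A.e i).source) :
    t ∈ D.X ↔ ∀ a, D.cd i t a ^ D.k a = D.s a i t.1 := by
  have h1 : ∀ a, D.s a i t.1 = (D.L a).g i (idx t.1) t.1 ^ D.k a * D.s a (idx t.1) t.1 := by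
    intro a
    rw [(D.hs a).tr i (idx t.1) t.1 ⟨hi, idx_mem _⟩ (mem_univ _), LB_pow_g]
  refine forall_congr' fun a => ?_
  rw [h1 a]
  show _ ↔ ((D.L a).g i (idx t.1) t.1 * t.2 a) ^ D.k a = _
  rw [mul_pow]
  exact (mul_right_inj' (pow_ne_zero _ ((D.L a).ne_zero _ _ _))).symm

/-- the equations in the chart `i` -/
def Φ (i : A.ι) (w : Cn n × (ρ → ℂ)) : ρ → ℂ :=
  fun a => w.2 a ^ D.k a - D.s a i ((A.e i).symm w.1)

theorem diff_s (i : A.ι) (a : ρ) {z : Cn n} (hz : z ∈ (A.e i).target) :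
    DifferentiableAt ℂ (fun z => D.s a i ((A.e i).symm z)) z := by
  have h := ((D.hs a).hol i).diffAt isOpen_univ ((A.e i).map_target hz) (mem_univ _)
  rwa [(A.e i).right_inv hz] at h

theorem isOpen_tg (i : A.ι) : IsOpen {w : Cn n × (ρ → ℂ) | w.1 ∈ (A.e i).target} :=
  (A.e i).open_target.preimage continuous_fst

theorem hasFDerivAt_Φ (i : A.ι) {w : Cn n × (ρ → ℂ)} (hw : w.1 ∈ (A.e i).target) :
    HasFDerivAt (D.Φ i) (ContinuousLinearMap.pi fun a =>
      ((D.k a : ℂ) * w.2 a ^ (D.k a - 1)) •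
        ((ContinuousLinearMap.proj a).comp (ContinuousLinearMap.snd ℂ (Cn n) (ρ → ℂ))) -
      (fderiv ℂ (fun z => D.s a i ((A.e i).symm z)) w.1).comp
        (ContinuousLinearMap.fst ℂ (Cn n) (ρ → ℂ))) w := by
  rw [hasFDerivAt_pi]
  intro a
  have h1 : HasFDerivAt (fun w : Cn n × (ρ → ℂ) => w.2 a)
      ((ContinuousLinearMap.proj a).comp (ContinuousLinearMap.snd ℂ (Cn n) (ρ → ℂ))) w :=
    ((ContinuousLinearMap.proj (R := ℂ) (φ := fun _ : ρ => ℂ) a).comp
      (ContinuousLinearMap.snd ℂ (Cn n) (ρ → ℂ))).hasFDerivAt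
  have h2 := h1.pow (D.k a)
  have h3 := (D.diff_s i a hw).hasFDerivAt.comp w (hasFDerivAt_fst (𝕜 := ℂ) (p := w))
  have h4 := h2.sub h3
  refine h4.congr_fderiv ?_
  ext v <;> simp [smul_eq_mul]

theorem surj_Φ (i : A.ι) {w : Cn n × (ρ → ℂ)} (hw : w.1 ∈ (A.e i).target) (h0 : D.Φ i w = 0) :
    Function.Surjective (fderiv ℂ (D.Φ i) w) := by
  rw [(D.hasFDerivAt_Φ i hw).fderiv]
  intro c
  obtain ⟨v, hv⟩ := D.snc i ((A.e i).symm w.1) ((A.e i).map_target hw) (-c)
  rw [(A.e i).right_inv hw] at hv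
  have h0' : ∀ a, w.2 a ^ D.k a = D.s a i ((A.e i).symm w.1) := fun a =>
    sub_eq_zero.1 (congrFun h0 a)
  classical
  refine ⟨(v, fun a => if D.s a i ((A.e i).symm w.1) = 0 then 0 else
    ((D.k a : ℂ) * w.2 a ^ (D.k a - 1))⁻¹ *
      (c a + fderiv ℂ (fun z => D.s a i ((A.e i).symm z)) w.1 v)), ?_⟩
  funext a
  simp only [ContinuousLinearMap.coe_pi', FunLike.coe_sub, Pi.sub_apply,
    FunLike.coe_smul, Pi.smul_apply, ContinuousLinearMap.coe_comp,
    Function.comp_apply, ContinuousLinearMap.coe_snd', ContinuousLinearMap.proj_apply,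
    ContinuousLinearMap.coe_fst', smul_eq_mul]
  by_cases hs : D.s a i ((A.e i).symm w.1) = 0
  · rw [if_pos hs, hv a hs]
    simp
  · rw [if_neg hs]
    have h1 : w.2 a ≠ 0 := by
      intro h
      apply hs
      rw [← h0' a, h, zero_pow (D.kpos a).ne']
    have h2 : ((D.k a : ℂ) * w.2 a ^ (D.k a - 1)) ≠ 0 :=
      mul_ne_zero (by exact_mod_cast (D.kpos a).ne') (pow_ne_zero _ h1)
    rw [← mul_assoc, mul_inv_cancel₀ h2]
    ring

/-- straightened charts of the total space -/
structure K where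
  i : A.ι
  x0 : D.X
  χ : OpenPartialHomeomorph (Cn n × (ρ → ℂ)) (Cn n × (ρ → ℂ))
  sub : ∀ w ∈ χ.source, w.1 ∈ (A.e i).target
  eq : ∀ w, (χ w).2 = D.Φ i w
  d1 : DifferentiableOn ℂ χ χ.source
  d2 : DifferentiableOn ℂ χ.symm χ.target

theorem exists_K (x : D.X) (i : A.ι) (hi : (x : D.T).1 ∈ (A.e i).source) :
    ∃ c : D.K, c.i = i ∧ D.ch i x ∈ c.χ.source := by
  have h1 : (D.ch i x).1 ∈ (A.e i).target := (A.e i).map_source hi
  have h2 : D.Φ i (D.ch i x) = 0 := by
    funext a
    have h3 := (D.mem_X_iff hi).1 x.2 a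
    show D.cd i x a ^ D.k a - D.s a i ((A.e i).symm (A.e i (x : D.T).1)) = 0
    rw [(A.e i).left_inv hi, h3, sub_self]
  obtain ⟨χ, k1, k2, k3, k4, k5⟩ := straighten (V := Cn n) (F := ρ → ℂ) (isOpen_tg i)
    (fun w hw => (D.hasFDerivAt_Φ i hw).differentiableAt.differentiableWithinAt) h1
    (D.surj_Φ i h1 h2) (by rw [Module.finrank_prod])
  exact ⟨⟨i, x, χ, fun w hw => k2 hw, k3, k4, k5⟩, rfl, k1⟩

variable {D}

/-- the straightened chart on the total space -/
def K.G (c : D.K) : OpenPartialHomeomorph D.T (Cn n × (ρ → ℂ)) := (D.ch c.i).trans c.χ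

theorem K.mem_source (c : D.K) {t : D.T} : t ∈ c.G.source ↔
    t.1 ∈ (A.e c.i).source ∧ D.ch c.i t ∈ c.χ.source := by
  show t ∈ (D.ch c.i).source ∧ _ ↔ _
  rw [D.mem_ch_source]
  rfl

theorem K.mem_X (c : D.K) : ∀ t ∈ c.G.source, t ∈ D.X ↔ (c.G t).2 = 0 := by
  intro t ht
  obtain ⟨h1, h2⟩ := c.mem_source.1 ht
  show _ ↔ (c.χ (D.ch c.i t)).2 = 0
  rw [c.eq, D.mem_X_iff h1]
  constructor
  · intro h
    funext a
    show D.cd c.i t a ^ D.k a - D.s a c.i ((A.e c.i).symm (A.e c.i t.1)) = 0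
    rw [(A.e c.i).left_inv h1, h a, sub_self]
  · intro h a
    have h3 := congrFun h a
    change D.cd c.i t a ^ D.k a - D.s a c.i ((A.e c.i).symm (A.e c.i t.1)) = 0 at h3
    rw [(A.e c.i).left_inv h1] at h3
    exact sub_eq_zero.1 h3

/-- the chart of the cover -/
def K.e (c : D.K) : OpenPartialHomeomorph D.X (Cn n) := slice c.G D.X c.mem_X c.x0

theorem K.e_symm (c : D.K) {z : Cn n} (hz : z ∈ c.e.target) :
    ((c.e.symm z : D.X) : D.T) = (D.ch c.i).symm (c.χ.symm (z, 0)) := slice_symm hz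

theorem K.mem_target (c : D.K) {z : Cn n} (hz : z ∈ c.e.target) :
    (z, (0 : ρ → ℂ)) ∈ c.χ.target := by
  have h : (z, (0 : ρ → ℂ)) ∈ c.G.target := hz
  exact h.1

theorem K.base_mem (c : D.K) {z : Cn n} (hz : z ∈ c.e.target) :
    (c.χ.symm (z, 0)).1 ∈ (A.e c.i).target := c.sub _ (c.χ.map_target (c.mem_target hz))


/-- `z ↦ χ⁻¹(z, 0)` -/
def K.lift (c : D.K) (z : Cn n) : Cn n × (ρ → ℂ) := c.χ.symm (z, 0)

theorem K.lift_diffAt (c : D.K) {z : Cn n} (hz : z ∈ c.e.target) :
    DifferentiableAt ℂ c.lift z := by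
  have h1 : DifferentiableAt ℂ c.χ.symm (z, (0 : ρ → ℂ)) :=
    c.d2.differentiableAt (c.χ.open_target.mem_nhds (c.mem_target hz))
  exact DifferentiableAt.comp z (f := fun z : Cn n => (z, (0 : ρ → ℂ))) h1 (by fun_prop)

theorem K.ch_symm (c : D.K) {z : Cn n} (hz : z ∈ c.e.target) :
    D.ch c.i (c.e.symm z : D.X) = c.lift z := by
  rw [c.e_symm hz]
  exact (D.ch c.i).right_inv (D.mem_ch_target.2 (c.base_mem hz))

theorem K.proj_symm (c : D.K) {z : Cn n} (hz : z ∈ c.e.target) :
    ((c.e.symm z : D.X) : D.T).1 = (A.e c.i).symm (c.lift z).1 := by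
  rw [c.e_symm hz]
  rfl

/-- transition maps through the total space -/
theorem K.diffAt_ch (c : D.K) {j : A.ι} {z : Cn n} (hz : z ∈ c.e.target)
    (hj : ((c.e.symm z : D.X) : D.T).1 ∈ (A.e j).source) :
    DifferentiableAt ℂ (fun z => D.ch j (c.e.symm z : D.X)) z := by
  rw [c.proj_symm hz] at hj
  have h1 := D.diffAt_ch (w := c.lift z) (i := c.i) (j := j) (c.base_mem hz) hj
  have h2 : DifferentiableAt ℂ (fun z => D.ch j ((D.ch c.i).symm (c.lift z))) z :=
    DifferentiableAt.comp z (g := fun w => D.ch j ((D.ch c.i).symm w)) h1 (c.lift_diffAt hz)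
  refine h2.congr_of_eventuallyEq ?_
  filter_upwards [c.e.open_target.mem_nhds hz] with y hy
  rw [c.e_symm hy]
  rfl

variable (D)

/-- **the complex structure of the cover** -/
def famX : Fam n D.X where
  ι := D.K
  e c := c.e
  cover x := by
    obtain ⟨c, h1, h2⟩ := D.exists_K x (idx (x : D.T).1) (idx_mem _)
    refine ⟨c, ?_⟩
    show (x : D.T) ∈ c.G.source
    rw [c.mem_source, h1]
    exact ⟨idx_mem _, h2⟩
  holo c c' := by
    intro z hz
    have h1 : ((c.e.symm z : D.X) : D.T) ∈ c'.G.source := hz.2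
    obtain ⟨h2, h3⟩ := c'.mem_source.1 h1
    have h4 := c.diffAt_ch hz.1 h2
    have h5 : DifferentiableAt ℂ c'.χ (D.ch c'.i (c.e.symm z : D.X)) :=
      c'.d1.differentiableAt (c'.χ.open_source.mem_nhds h3)
    have h6 : DifferentiableAt ℂ (fun z => c'.χ (D.ch c'.i (c.e.symm z : D.X))) z :=
      DifferentiableAt.comp z (f := fun z => D.ch c'.i (c.e.symm z : D.X)) h5 h4
    exact h6.fst.differentiableWithinAt

/-- the projection -/
def p (q : D.X) : M := (q : D.T).1

theorem continuous_p : Continuous D.p := D.continuous_proj.comp continuous_subtype_val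

theorem holC_p : HolC D.famX (fam A) D.p := by
  refine ⟨D.continuous_p, fun c j => ?_⟩
  intro z hz
  exact (c.diffAt_ch hz.1 hz.2).fst.differentiableWithinAt

/-- the tautological coordinate in the chart `i` of the base -/
def y (a : ρ) (i : A.ι) (q : D.X) : ℂ := D.cd i q a

theorem y_pow (a : ρ) {i : A.ι} {q : D.X} (hi : D.p q ∈ (A.e i).source) :
    D.y a i q ^ D.k a = D.s a i (D.p q) := (D.mem_X_iff hi).1 q.2 a

theorem y_tr (a : ρ) {i j : A.ι} {q : D.X} (hi : D.p q ∈ (A.e i).source)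
    (hj : D.p q ∈ (A.e j).source) : D.y a i q = (D.L a).g i j (D.p q) * D.y a j q :=
  D.cd_tr i j q hi hj a

theorem y_diffAt (a : ρ) {j : A.ι} {c : D.K} {z : Cn n} (hz : z ∈ c.e.target)
    (hj : D.p (c.e.symm z) ∈ (A.e j).source) :
    DifferentiableAt ℂ (fun z => D.y a j (c.e.symm z)) z :=
  (differentiableAt_pi.1 (c.diffAt_ch hz hj).snd) a

end Data

end

end Crest.Agent.R272.DCov_426
end

-- ▼ part R272/DCov3_426
section

/-!
# R272 (S0414, S0415), DCOV (helper426), file 3: topology of the cover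

* `Data.mk'`, `cd_mk'`      : the point of the total space over `x` with coordinates `v` in chart `i`
* `ext_X`, `continuous_iff_X`, `lift`, `continuous_lift`, `holC_iff_X`, `holC_lift`
                            : universal property (continuous and holomorphic)
* `t2_T`, `isProperMap_p`, `compact_X`, `surjective_p`, `finite_fiber`, `isOpenMap_p`
* `deck`                    : deck transformations, transitive on the fibres
* `connected_X`             : `M` connected, every `s a` has a zero ⇒ `X` connected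
-/

set_option autoImplicit false
set_option linter.unusedSectionVars false

open Set Filter Topology

namespace Crest.Agent.R272.DCov_426

open Crest.Agent.R275.Geo Crest.Agent.R275.Core144
open Crest.Agent.R273.Map_835 Crest.Agent.R273.Fam_835

noncomputable section

variable {n : ℕ} {M : Type} [TopologicalSpace M] {A : Atl n M} {ρ : Type} [Fintype ρ]

namespace Data

variable (D : Data A ρ)

/-- the point over `x` with coordinates `v` in the chart `i` -/
def mk' (i : A.ι) (x : M) (v : ρ → ℂ) : D.T := ⟨x, fun a => (D.L a).g (idx x) i x * v a⟩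

@[simp] theorem mk'_fst (i : A.ι) (x : M) (v : ρ → ℂ) : (D.mk' i x v).1 = x := rfl

theorem cd_mk' {i : A.ι} {x : M} (_hx : x ∈ (A.e i).source) (v : ρ → ℂ) :
    D.cd i (D.mk' i x v) = v := by
  funext a
  show (D.L a).g i (idx x) x * ((D.L a).g (idx x) i x * v a) = v a
  rw [← mul_assoc, LB.mul_symm, one_mul]

theorem mk'_cd {i : A.ι} {t : D.T} : D.mk' i t.1 (D.cd i t) = t := by
  obtain ⟨x, v⟩ := t
  show (⟨x, fun a => (D.L a).g (idx x) i x * ((D.L a).g i (idx x) x * v a)⟩ : D.T) = ⟨x, v⟩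
  congr 1
  funext a
  rw [← mul_assoc, LB.mul_symm, one_mul]

theorem ext_T {t t' : D.T} (h : t.1 = t'.1) {i : A.ι}
    (hc : D.cd i t = D.cd i t') : t = t' := by
  rw [← D.mk'_cd (i := i) (t := t), ← D.mk'_cd (i := i) (t := t'), hc, h]

theorem ext_X {q q' : D.X} (h : D.p q = D.p q') {i : A.ι} (_ : D.p q ∈ (A.e i).source)
    (hc : ∀ a, D.y a i q = D.y a i q') : q = q' :=
  Subtype.ext (D.ext_T h (funext hc))

theorem mk'_mem {i : A.ι} {x : M} (hx : x ∈ (A.e i).source) {v : ρ → ℂ}
    (hv : ∀ a, v a ^ D.k a = D.s a i x) : D.mk' i x v ∈ D.X := by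
  rw [D.mem_X_iff (i := i) (t := D.mk' i x v) hx]
  intro a
  rw [D.cd_mk' hx]
  exact hv a

/-- the point of the cover -/
def mkX (i : A.ι) (x : M) (hx : x ∈ (A.e i).source) (v : ρ → ℂ)
    (hv : ∀ a, v a ^ D.k a = D.s a i x) : D.X := ⟨D.mk' i x v, D.mk'_mem hx hv⟩

@[simp] theorem p_mkX {i : A.ι} {x : M} (hx : x ∈ (A.e i).source) {v : ρ → ℂ}
    (hv : ∀ a, v a ^ D.k a = D.s a i x) : D.p (D.mkX i x hx v hv) = x := rfl

theorem y_mkX {i : A.ι} {x : M} (hx : x ∈ (A.e i).source) {v : ρ → ℂ}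
    (hv : ∀ a, v a ^ D.k a = D.s a i x) (a : ρ) : D.y a i (D.mkX i x hx v hv) = v a :=
  congrFun (D.cd_mk' hx v) a

/-! ### maps into the total space -/

theorem continuousAt_ch {i : A.ι} {t : D.T} (hi : t.1 ∈ (A.e i).source) :
    ContinuousAt (D.ch i) t := (D.ch i).continuousAt (D.mem_ch_source.2 hi)

theorem tendsto_T {Y : Type*} {l : Filter Y} {F : Y → D.T} {t : D.T} {i : A.ι}
    (hi : t.1 ∈ (A.e i).source) (h1 : Tendsto (fun q => (F q).1) l (𝓝 t.1))
    (h2 : Tendsto (fun q => D.cd i (F q)) l (𝓝 (D.cd i t))) : Tendsto F l (𝓝 t) := by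
  have h3 : Tendsto (fun q => D.ch i (F q)) l (𝓝 (D.ch i t)) :=
    Tendsto.prodMk_nhds (((A.e i).continuousAt hi).tendsto.comp h1) h2
  have h4 := ((D.ch i).continuousAt_symm ((D.ch i).map_source (D.mem_ch_source.2 hi))).tendsto
  rw [(D.ch i).left_inv (D.mem_ch_source.2 hi)] at h4
  refine (h4.comp h3).congr' ?_
  filter_upwards [h1 ((A.e i).open_source.mem_nhds hi)] with q hq
  exact (D.ch i).left_inv (D.mem_ch_source.2 hq)

theorem continuousAt_y {i : A.ι} {q : D.X} (hi : D.p q ∈ (A.e i).source) (a : ρ) :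
    ContinuousAt (D.y a i) q := by
  have h1 : ContinuousAt (fun q : D.X => D.ch i (q : D.T)) q :=
    ContinuousAt.comp (f := fun q : D.X => (q : D.T)) (D.continuousAt_ch hi)
      continuous_subtype_val.continuousAt
  exact (continuous_apply a).continuousAt.comp h1.snd

theorem continuousAt_X {Y : Type*} [TopologicalSpace Y] {F : Y → D.X} {q : Y} {i : A.ι}
    (hi : D.p (F q) ∈ (A.e i).source) (h1 : ContinuousAt (fun q => D.p (F q)) q)
    (h2 : ∀ a, ContinuousAt (fun q => D.y a i (F q)) q) : ContinuousAt F q := by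
  rw [ContinuousAt, tendsto_subtype_rng]
  exact D.tendsto_T hi h1 (tendsto_pi_nhds.2 h2)

variable {D} in
/-- sections with `t ^ k = f^* s` -/
structure LiftData (D : Data A ρ) {Y : Type*} (f : Y → M) (t : ρ → A.ι → Y → ℂ) : Prop where
  tr : ∀ a i j q, f q ∈ (A.e i).source → f q ∈ (A.e j).source →
    t a i q = (D.L a).g i j (f q) * t a j q
  pw : ∀ a i q, f q ∈ (A.e i).source → t a i q ^ D.k a = D.s a i (f q)

/-- the universal property -/
def lift {Y : Type*} {f : Y → M} {t : ρ → A.ι → Y → ℂ} (h : LiftData D f t) (q : Y) : D.X :=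
  ⟨⟨f q, fun a => t a (idx (f q)) q⟩, fun a => h.pw a _ q (idx_mem _)⟩


theorem y_lift {Y : Type*} {f : Y → M} {t : ρ → A.ι → Y → ℂ} (h : LiftData D f t) {q : Y}
    {i : A.ι} (hi : f q ∈ (A.e i).source) (a : ρ) : D.y a i (D.lift h q) = t a i q :=
  (h.tr a i (idx (f q)) q hi (idx_mem _)).symm

theorem continuous_lift {Y : Type*} [TopologicalSpace Y] {f : Y → M} {t : ρ → A.ι → Y → ℂ}
    (h : LiftData D f t) (hf : Continuous f)
    (ht : ∀ a i q, f q ∈ (A.e i).source → ContinuousAt (t a i) q) :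
    Continuous (D.lift h) := by
  rw [continuous_iff_continuousAt]
  intro q
  have hi := idx_mem (A := A) (f q)
  refine D.continuousAt_X (i := idx (f q)) (F := D.lift h) hi hf.continuousAt fun a => ?_
  refine (ht a _ q hi).congr ?_
  filter_upwards [hf.continuousAt ((A.e (idx (f q))).open_source.mem_nhds hi)] with q' hq'
  exact (D.y_lift h hq' a).symm


/-- holomorphic maps into the cover -/
theorem holC_X {m : ℕ} {Y : Type} [TopologicalSpace Y] {E : Fam m Y} {F : Y → D.X}
    (hc : Continuous F) (h1 : HolC E (fam A) (fun q => D.p (F q)))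
    (h2 : ∀ a (e : E.ι) (i : A.ι) (z : Cn m), z ∈ (E.e e).target →
      D.p (F ((E.e e).symm z)) ∈ (A.e i).source →
      DifferentiableAt ℂ (fun z => D.y a i (F ((E.e e).symm z))) z) : HolC E D.famX F := by
  refine ⟨hc, fun e c => ?_⟩
  intro z hz
  have h3 : ((F ((E.e e).symm z) : D.X) : D.T) ∈ c.G.source := hz.2
  obtain ⟨h4, h5⟩ := c.mem_source.1 h3
  have h6 : DifferentiableAt ℂ (fun z => D.ch c.i (F ((E.e e).symm z) : D.X)) z := by
    have h7 : DifferentiableAt ℂ (fun z => A.e c.i (D.p (F ((E.e e).symm z)))) z :=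
      h1.diffAt (i := e) (j := c.i) hz.1 h4
    exact h7.prodMk (differentiableAt_pi.2 fun a => h2 a e c.i z hz.1 h4)
  have h7 : DifferentiableAt ℂ c.χ (D.ch c.i (F ((E.e e).symm z) : D.X)) :=
    c.d1.differentiableAt (c.χ.open_source.mem_nhds h5)
  have h8 : DifferentiableAt ℂ (fun z => c.χ (D.ch c.i (F ((E.e e).symm z) : D.X))) z :=
    DifferentiableAt.comp z (f := fun z => D.ch c.i (F ((E.e e).symm z) : D.X)) h7 h6
  exact h8.fst.differentiableWithinAt

theorem holC_lift {m : ℕ} {Y : Type} [TopologicalSpace Y] {E : Fam m Y} {f : Y → M}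
    {t : ρ → A.ι → Y → ℂ} (h : LiftData D f t) (hf : HolC E (fam A) f)
    (ht : ∀ a (e : E.ι) (i : A.ι) (z : Cn m), z ∈ (E.e e).target →
      f ((E.e e).symm z) ∈ (A.e i).source →
      DifferentiableAt ℂ (fun z => t a i ((E.e e).symm z)) z) : HolC E D.famX (D.lift h) := by
  have hev : ∀ (e : E.ι) (i : A.ι) (z : Cn m), z ∈ (E.e e).target →
      f ((E.e e).symm z) ∈ (A.e i).source →
      ∀ᶠ w in 𝓝 z, f ((E.e e).symm w) ∈ (A.e i).source := by
    intro e i z hz hi
    have h1 : ContinuousAt (fun w => f ((E.e e).symm w)) z :=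
      ContinuousAt.comp (g := f) hf.cont.continuousAt ((E.e e).continuousAt_symm hz)
    exact h1 ((A.e i).open_source.mem_nhds hi)
  have hc : Continuous (D.lift h) := by
    refine D.continuous_lift h hf.cont fun a i q hi => ?_
    obtain ⟨e, he⟩ := E.cover q
    have h1 := ht a e i (E.e e q) ((E.e e).map_source he) (by rw [(E.e e).left_inv he]; exact hi)
    have h2 : ContinuousAt (fun q => t a i ((E.e e).symm (E.e e q))) q :=
      ContinuousAt.comp (g := fun z => t a i ((E.e e).symm z)) h1.continuousAt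
        ((E.e e).continuousAt he)
    refine h2.congr ?_
    filter_upwards [(E.e e).open_source.mem_nhds he] with q' hq'
    rw [(E.e e).left_inv hq']
  refine D.holC_X hc hf fun a e i z hz hi => ?_
  refine (ht a e i z hz hi).congr_of_eventuallyEq ?_
  filter_upwards [hev e i z hz hi] with w hw
  exact D.y_lift h hw a

/-! ### separation, properness -/

theorem t2_T [T2Space M] : T2Space D.T := by
  refine ⟨fun t t' hne => ?_⟩
  by_cases hb : t.1 = t'.1
  · have hi := idx_mem (A := A) t.1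
    have hi' : t'.1 ∈ (A.e (idx t.1)).source := hb ▸ hi
    have h1 : D.ch (idx t.1) t ≠ D.ch (idx t.1) t' := fun h =>
      hne ((D.ch (idx t.1)).injOn (D.mem_ch_source.2 hi) (D.mem_ch_source.2 hi') h)
    obtain ⟨U, V, hU, hV, hx, hy, hd⟩ := t2_separation h1
    refine ⟨_, _, (D.ch (idx t.1)).isOpen_inter_preimage hU,
      (D.ch (idx t.1)).isOpen_inter_preimage hV, ⟨D.mem_ch_source.2 hi, hx⟩,
      ⟨D.mem_ch_source.2 hi', hy⟩, ?_⟩
    rw [Set.disjoint_left]
    intro u hu hu'
    exact (Set.disjoint_left.1 hd) hu.2 hu'.2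
  · obtain ⟨U, V, hU, hV, hx, hy, hd⟩ := t2_separation hb
    exact ⟨_, _, hU.preimage D.continuous_proj, hV.preimage D.continuous_proj, hx, hy,
      hd.preimage _⟩

theorem t2_X [T2Space M] : T2Space D.X := by
  have := D.t2_T
  infer_instance

theorem surjective_p : Function.Surjective D.p := by
  intro x
  have h : ∀ a, ∃ v : ℂ, v ^ D.k a = D.s a (idx x) x := fun a =>
    IsAlgClosed.exists_pow_nat_eq _ (D.kpos a)
  choose v hv using h
  exact ⟨D.mkX (idx x) x (idx_mem x) v hv, rfl⟩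

theorem finite_fiber (x : M) : {q : D.X | D.p q = x}.Finite := by
  classical
  have h0 : ∀ a, {v : ℂ | v ^ D.k a = D.s a (idx x) x}.Finite := by
    intro a
    refine ((Polynomial.nthRoots (D.k a) (D.s a (idx x) x)).toFinset.finite_toSet).subset ?_
    intro v hv
    simp only [Finset.mem_coe, Multiset.mem_toFinset]
    exact (Polynomial.mem_nthRoots (D.kpos a)).2 hv
  have h1 : (Set.univ.pi fun a => {v : ℂ | v ^ D.k a = D.s a (idx x) x}).Finite :=
    Set.Finite.pi h0
  refine Set.Finite.of_injOn (f := fun q : D.X => fun a => D.y a (idx x) q) ?_ ?_ h1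
  · intro q hq a _
    have hi : D.p q ∈ (A.e (idx x)).source := by
      rw [show D.p q = x from hq]
      exact idx_mem x
    show D.y a (idx x) q ^ D.k a = _
    rw [D.y_pow a hi, show D.p q = x from hq]
  · intro q hq q' hq' h
    refine D.ext_X (i := idx x) ((show D.p q = x from hq).trans (show D.p q' = x from hq').symm) ?_
      (fun a => congrFun h a)
    rw [show D.p q = x from hq]
    exact idx_mem x

theorem continuousAt_s (a : ρ) {i : A.ι} {x : M} (hi : x ∈ (A.e i).source) :
    ContinuousAt (D.s a i) x := by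
  have h1 := D.diff_s i a ((A.e i).map_source hi)
  have h2 : ContinuousAt (fun y => D.s a i ((A.e i).symm (A.e i y))) x :=
    ContinuousAt.comp (g := fun z => D.s a i ((A.e i).symm z)) h1.continuousAt
      ((A.e i).continuousAt hi)
  refine h2.congr ?_
  filter_upwards [(A.e i).open_source.mem_nhds hi] with y hy
  rw [(A.e i).left_inv hy]

theorem isProperMap_p : IsProperMap D.p := by
  rw [isProperMap_iff_ultrafilter]
  refine ⟨D.continuous_p, fun 𝒰 x hx => ?_⟩
  set i := idx (A := A) x with hi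
  have him : x ∈ (A.e i).source := idx_mem x
  have h1 : ∀ᶠ q in (𝒰 : Filter D.X), D.p q ∈ (A.e i).source :=
    hx ((A.e i).open_source.mem_nhds him)
  have h2 : ∀ a, ∀ᶠ q in (𝒰 : Filter D.X), ‖D.s a i (D.p q)‖ < ‖D.s a i x‖ + 1 := by
    intro a
    have h3 : Tendsto (fun q => ‖D.s a i (D.p q)‖) (𝒰 : Filter D.X) (𝓝 ‖D.s a i x‖) :=
      ((D.continuousAt_s a him).norm).tendsto.comp hx
    exact h3.eventually (gt_mem_nhds (lt_add_one _))
  let C : Set (ρ → ℂ) := Set.univ.pi fun a => Metric.closedBall (0 : ℂ) (‖D.s a i x‖ + 1)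
  have hC : IsCompact C := isCompact_univ_pi fun a => isCompact_closedBall _ _
  have h3 : ∀ᶠ q in (𝒰 : Filter D.X), (fun a => D.y a i q) ∈ C := by
    filter_upwards [h1, eventually_all.2 h2] with q hq1 hq2 a _
    rw [mem_closedBall_zero_iff]
    by_contra hcon
    push Not at hcon
    have h4 : 1 ≤ ‖D.y a i q‖ := by
      have := norm_nonneg (D.s a i x)
      linarith
    have h5 : ‖D.y a i q‖ ≤ ‖D.y a i q‖ ^ D.k a := le_self_pow₀ h4 (D.kpos a).ne'
    have h6 : ‖D.y a i q‖ ^ D.k a = ‖D.s a i (D.p q)‖ := by rw [← norm_pow, D.y_pow a hq1]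
    have h7 := hq2 a
    linarith
  obtain ⟨v, hv, hv'⟩ := hC.ultrafilter_le_nhds (𝒰.map fun q => fun a => D.y a i q)
    (by rw [le_principal_iff]; exact h3)
  have h4 : Tendsto (fun q => fun a => D.y a i q) (𝒰 : Filter D.X) (𝓝 v) := hv'
  have h5 : ∀ a, v a ^ D.k a = D.s a i x := by
    intro a
    have h6 : Tendsto (fun q => D.y a i q ^ D.k a) (𝒰 : Filter D.X) (𝓝 (v a ^ D.k a)) :=
      ((tendsto_pi_nhds.1 h4 a).pow _)
    have h7 : Tendsto (fun q => D.s a i (D.p q)) (𝒰 : Filter D.X) (𝓝 (D.s a i x)) :=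
      (D.continuousAt_s a him).tendsto.comp hx
    refine tendsto_nhds_unique (h6.congr' ?_) h7
    filter_upwards [h1] with q hq
    exact D.y_pow a hq
  refine ⟨D.mkX i x him v h5, rfl, ?_⟩
  have h6 : Tendsto (fun q : D.X => (q : D.T)) (𝒰 : Filter D.X)
      (𝓝 ((D.mkX i x him v h5 : D.X) : D.T)) := by
    refine D.tendsto_T (i := i) him hx ?_
    have h8 : D.cd i ((D.mkX i x him v h5 : D.X) : D.T) = v := D.cd_mk' him v
    rw [h8]
    exact h4
  have h7 : Tendsto (fun q : D.X => q) (𝒰 : Filter D.X) (𝓝 (D.mkX i x him v h5)) :=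
    tendsto_subtype_rng.2 h6
  exact h7

theorem compact_X [CompactSpace M] : CompactSpace D.X :=
  ⟨by simpa using D.isProperMap_p.isCompact_preimage (isCompact_univ (X := M))⟩

end Data

/-- the power map is open -/
theorem isOpenMap_pow {k : ℕ} (hk : 0 < k) : IsOpenMap (fun v : ℂ => v ^ k) := by
  have h1 : AnalyticOnNhd ℂ (fun v : ℂ => v ^ k) univ := fun v _ => by fun_prop
  rcases h1.is_constant_or_isOpen isPreconnected_univ with ⟨w, hw⟩ | h2
  · exfalso
    have h3 := hw 0 (mem_univ _)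
    have h4 := hw 1 (mem_univ _)
    simp only [zero_pow hk.ne', one_pow] at h3 h4
    rw [← h4] at h3
    exact zero_ne_one h3
  · exact fun U hU => h2 U (subset_univ _) hU

namespace Data

variable (D : Data A ρ)

theorem isOpenMap_p : IsOpenMap D.p := by
  rw [isOpenMap_iff_nhds_le]
  intro q U hU
  -- it suffices that the image of every neighbourhood of `q` is a neighbourhood of `p q`
  rw [mem_map] at hU
  set i := idx (A := A) (D.p q) with hi
  have him : D.p q ∈ (A.e i).source := idx_mem _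
  set V := D.p ⁻¹' U with hV
  -- the neighbourhood in coordinates
  have h0 : V ∈ 𝓝 q := hU
  rw [mem_nhds_subtype] at h0
  obtain ⟨V', hV', hVV⟩ := h0
  have h1 : (D.ch i).symm ⁻¹' V' ∈ 𝓝 (D.ch i (q : D.T)) := by
    have h2 := (D.ch i).continuousAt_symm ((D.ch i).map_source (D.mem_ch_source.2 him))
    rw [ContinuousAt, (D.ch i).left_inv (D.mem_ch_source.2 him)] at h2
    exact h2 hV'
  rw [D.ch_apply, nhds_prod_eq, mem_prod_iff] at h1
  obtain ⟨N, hN, Ω, hΩ, hsub⟩ := h1
  -- powers
  let P : (ρ → ℂ) → (ρ → ℂ) := fun v a => v a ^ D.k a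
  have hP : IsOpenMap P := by
    have h3 := IsOpenMap.piMap (f := fun a : ρ => fun v : ℂ => v ^ D.k a)
      (fun a => isOpenMap_pow (D.kpos a)) (by simp)
    exact h3
  have h4 : P '' Ω ∈ 𝓝 (P (D.cd i (q : D.T))) := hP.image_mem_nhds hΩ
  have h5 : P (D.cd i (q : D.T)) = fun a => D.s a i (D.p q) := by
    funext a
    exact D.y_pow a him
  rw [h5] at h4
  have h6 : ContinuousAt (fun x => fun a => D.s a i x) (D.p q) :=
    continuousAt_pi.2 fun a => D.continuousAt_s a him
  have h7 : A.e i ⁻¹' N ∈ 𝓝 (D.p q) := (A.e i).continuousAt him hN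
  have h8 : (fun x => fun a => D.s a i x) ⁻¹' (P '' Ω) ∈ 𝓝 (D.p q) := h6 h4
  filter_upwards [h7, h8, (A.e i).open_source.mem_nhds him] with x hx1 hx2 hx3
  obtain ⟨v, hv, hv'⟩ := hx2
  have hv2 : ∀ a, v a ^ D.k a = D.s a i x := fun a => congrFun hv' a
  have h9 : D.mkX i x hx3 v hv2 ∈ V := by
    apply hVV
    show ((D.mkX i x hx3 v hv2 : D.X) : D.T) ∈ V'
    have h10 : D.ch i ((D.mkX i x hx3 v hv2 : D.X) : D.T) ∈ N ×ˢ Ω := by
      refine ⟨hx1, ?_⟩
      show D.cd i ((D.mkX i x hx3 v hv2 : D.X) : D.T) ∈ Ω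
      rw [show D.cd i ((D.mkX i x hx3 v hv2 : D.X) : D.T) = v from D.cd_mk' hx3 v]
      exact hv
    have h11 := hsub h10
    rw [mem_preimage, (D.ch i).left_inv (D.mem_ch_source.2 hx3)] at h11
    exact h11
  exact h9

/-! ### deck transformations -/

theorem deckData (ζ : ρ → ℂ) (hζ : ∀ a, ζ a ^ D.k a = 1) :
    LiftData D D.p (fun a i q => ζ a * D.y a i q) :=
  ⟨fun a i j q hi hj => by rw [D.y_tr a hi hj]; ring,
    fun a i q hi => by rw [mul_pow, hζ, one_mul, D.y_pow a hi]⟩

/-- deck transformation -/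
def deck (ζ : ρ → ℂ) (hζ : ∀ a, ζ a ^ D.k a = 1) (q : D.X) : D.X :=
  D.lift (D.deckData ζ hζ) q


theorem y_deck (ζ : ρ → ℂ) (hζ : ∀ a, ζ a ^ D.k a = 1) {q : D.X} {i : A.ι}
    (hi : D.p q ∈ (A.e i).source) (a : ρ) : D.y a i (D.deck ζ hζ q) = ζ a * D.y a i q :=
  D.y_lift _ hi a

theorem continuous_deck (ζ : ρ → ℂ) (hζ : ∀ a, ζ a ^ D.k a = 1) :
    Continuous (D.deck ζ hζ) :=
  D.continuous_lift (D.deckData ζ hζ) D.continuous_p fun a _ _ hi =>
    continuousAt_const.mul (D.continuousAt_y hi a)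

theorem holC_deck (ζ : ρ → ℂ) (hζ : ∀ a, ζ a ^ D.k a = 1) :
    HolC D.famX D.famX (D.deck ζ hζ) :=
  D.holC_lift (D.deckData ζ hζ) D.holC_p fun a _ _ _ hz hi => (D.y_diffAt a hz hi).const_mul (ζ a)


/-- the deck transformations are transitive on the fibres -/
theorem exists_deck {q q' : D.X} (h : D.p q = D.p q') :
    ∃ (ζ : ρ → ℂ) (hζ : ∀ a, ζ a ^ D.k a = 1), D.deck ζ hζ q = q' := by
  classical
  set i := idx (A := A) (D.p q) with hidef
  have hi : D.p q ∈ (A.e i).source := idx_mem _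
  have hi' : D.p q' ∈ (A.e i).source := h ▸ hi
  have h1 : ∀ a, D.y a i q ^ D.k a = D.y a i q' ^ D.k a := fun a => by
    rw [D.y_pow a hi, D.y_pow a hi', h]
  have h2 : ∀ a, D.y a i q = 0 → D.y a i q' = 0 := by
    intro a h0
    have h3 := h1 a
    rw [h0, zero_pow (D.kpos a).ne'] at h3
    exact pow_eq_zero_iff (D.kpos a).ne' |>.1 h3.symm
  refine ⟨fun a => if D.y a i q = 0 then 1 else D.y a i q' / D.y a i q, fun a => ?_, ?_⟩
  · show (if D.y a i q = 0 then 1 else D.y a i q' / D.y a i q) ^ D.k a = 1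
    split_ifs with h0
    · exact one_pow _
    · rw [div_pow, ← h1 a, div_self (pow_ne_zero _ h0)]
  · refine D.ext_X (i := i) h hi fun a => ?_
    rw [D.y_deck _ _ (q := q) hi]
    show (if D.y a i q = 0 then 1 else D.y a i q' / D.y a i q) * D.y a i q = D.y a i q'
    split_ifs with h0
    · rw [h0, h2 a h0, mul_zero]
    · rw [div_mul_cancel₀ _ h0]

/-! ### connectedness -/

theorem locallyConnected_X : LocallyConnectedSpace D.X := by
  let _ := D.famX.cs
  exact ChartedSpace.locallyConnectedSpace (Cn n) D.X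

/-- **the cover is connected** as soon as every section has a zero -/
theorem connected_X [ConnectedSpace M] (hz : ∀ a, ∃ x, ∃ i, x ∈ (A.e i).source ∧ D.s a i x = 0) :
    ConnectedSpace D.X := by
  classical
  have := D.locallyConnected_X
  obtain ⟨x0⟩ := (inferInstance : Nonempty M)
  obtain ⟨q0, hq0⟩ := D.surjective_p x0
  -- a connected component maps onto `M`
  have hsurj : ∀ q : D.X, D.p '' connectedComponent q = univ := by
    intro q
    have h1 : IsOpen (D.p '' connectedComponent q) := D.isOpenMap_p _ isOpen_connectedComponent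
    have h2 : IsClosed (D.p '' connectedComponent q) :=
      D.isProperMap_p.isClosedMap _ isClosed_connectedComponent
    have h3 : IsClopen (D.p '' connectedComponent q) := ⟨h2, h1⟩
    exact h3.eq_univ ⟨_, mem_image_of_mem _ mem_connectedComponent⟩
  -- single colour deck transformations preserve components
  have hone : ∀ (a : ρ) (z : ℂ) (hz1 : ∀ b, (Function.update (fun _ => (1 : ℂ)) a z) b ^ D.k b = 1)
      (q : D.X), D.deck (Function.update (fun _ => (1 : ℂ)) a z) hz1 q ∈
        connectedComponent q := by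
    intro a z hz1 q
    obtain ⟨x, i, hi, hs⟩ := hz a
    have h1 : x ∈ D.p '' connectedComponent q := by rw [hsurj q]; exact mem_univ _
    obtain ⟨q', hq', rfl⟩ := h1
    have hfix : D.deck (Function.update (fun _ => (1 : ℂ)) a z) hz1 q' = q' := by
      refine D.ext_X (i := i) rfl hi fun b => ?_
      rw [D.y_deck _ _ (q := q') hi]
      by_cases hb : b = a
      · subst hb
        have h2 : D.y b i q' = 0 := by
          have h3 := D.y_pow b hi
          rw [hs] at h3
          exact pow_eq_zero_iff (D.kpos b).ne' |>.1 h3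
        rw [h2, mul_zero]
      · rw [Function.update_of_ne hb, one_mul]
    have hcont := D.continuous_deck (Function.update (fun _ => (1 : ℂ)) a z) hz1
    have h4 : D.deck (Function.update (fun _ => (1 : ℂ)) a z) hz1 '' connectedComponent q ⊆
        connectedComponent q' :=
      (isPreconnected_connectedComponent.image _ hcont.continuousOn).subset_connectedComponent
        ⟨q', hq', hfix⟩
    rw [← connectedComponent_eq hq'] at h4
    exact h4 (mem_image_of_mem _ mem_connectedComponent)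
  -- all deck transformations preserve components
  have hall : ∀ (S : Finset ρ) (ζ : ρ → ℂ) (hζ : ∀ a, ζ a ^ D.k a = 1), (∀ a ∉ S, ζ a = 1) →
      ∀ q, D.deck ζ hζ q ∈ connectedComponent q := by
    intro S
    induction S using Finset.induction_on with
    | empty =>
      intro ζ hζ h1 q
      have h2 : D.deck ζ hζ q = q := by
        refine D.ext_X (i := idx (D.p q)) rfl (idx_mem _) fun b => ?_
        rw [D.y_deck _ _ (q := q) (idx_mem _), h1 b (by simp), one_mul]
      rw [h2]
      exact mem_connectedComponent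
    | insert a S ha ih =>
      intro ζ hζ h1 q
      have hu : ∀ b, (Function.update (fun _ => (1 : ℂ)) a (ζ a)) b ^ D.k b = 1 := by
        intro b
        by_cases hb : b = a
        · subst hb
          rw [Function.update_self]
          exact hζ b
        · rw [Function.update_of_ne hb, one_pow]
      have hw : ∀ b, (Function.update ζ a 1) b ^ D.k b = 1 := by
        intro b
        by_cases hb : b = a
        · subst hb
          rw [Function.update_self, one_pow]
        · rw [Function.update_of_ne hb]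
          exact hζ b
      have h2 := ih (Function.update ζ a 1) hw (fun b hb => by
        by_cases hba : b = a
        · subst hba
          rw [Function.update_self]
        · rw [Function.update_of_ne hba]
          exact h1 b (by simp [hba, hb])) q
      have h3 := hone a (ζ a) hu (D.deck (Function.update ζ a 1) hw q)
      have h4 : D.deck (Function.update (fun _ => (1 : ℂ)) a (ζ a)) hu
          (D.deck (Function.update ζ a 1) hw q) = D.deck ζ hζ q := by
        refine D.ext_X (i := idx (D.p q)) rfl (idx_mem _) fun b => ?_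
        have hi := idx_mem (A := A) (D.p q)
        rw [D.y_deck _ _ (q := D.deck (Function.update ζ a 1) hw q) (i := idx (D.p q)) hi,
          D.y_deck _ _ (q := q) hi, D.y_deck _ _ (q := q) hi]
        by_cases hb : b = a
        · subst hb
          rw [Function.update_self, Function.update_self, one_mul]
        · rw [Function.update_of_ne hb, Function.update_of_ne hb, one_mul]
      rw [h4] at h3
      rwa [← connectedComponent_eq h2] at h3
  have huniv : connectedComponent q0 = univ := by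
    refine eq_univ_of_forall fun q => ?_
    have h1 : D.p q ∈ D.p '' connectedComponent q0 := by rw [hsurj q0]; exact mem_univ _
    obtain ⟨q', hq', he⟩ := h1
    obtain ⟨ζ, hζ, h2⟩ := D.exists_deck he
    have h3 := hall Finset.univ ζ hζ (fun a ha => absurd (Finset.mem_univ a) ha) q'
    rw [h2] at h3
    rwa [← connectedComponent_eq hq'] at h3
  have hpre : PreconnectedSpace D.X := ⟨by rw [← huniv]; exact isPreconnected_connectedComponent⟩
  exact { toPreconnectedSpace := hpre, toNonempty := ⟨q0⟩ }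

end Data

end

end Crest.Agent.R272.DCov_426
end

-- ▼ part R272/PImm2_102
section

/-!
# R272, task P-IMM (helper102), part 2: the positivity lemma

`exists_pos_pow_ker` : `h0` on `F`, `h` semipositive on `O`, `h0` positive on the null vectors of `h`
                       ⟹ `h0 · h^m` positive for `m ≥ m0` (`M` compact);
`RS p F L`           : holomorphic section of `F ⊗ p^* L` on `M` (`f i j` read in the frame of `F` over the chart `i`
                       and of `L` over the chart `j`); `RS.ofPB` from a section of `F * L'`, `PB p L' L`;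
`relHM`              : the metric `(∑ |y_a|² h_a)⁻¹` on `F`;
`pimm`               : **P-IMM**.
-/

set_option autoImplicit false
set_option linter.unusedSectionVars false

open Set Filter Topology Complex
open scoped ContDiff Matrix ComplexConjugate Manifold ComplexOrder

namespace Crest.Agent.R272.PImm2_102

open Crest.Agent.R275.Geo Crest.Agent.R275.Core144 Crest.Agent.R275.EDR890
open Crest.Agent.R273.Defs_333 Crest.Agent.R273.Hess_333 Crest.Agent.R273.HessB_333
open Crest.Agent.R273.HM_333 Crest.Agent.R273.Kah_333 Crest.Agent.R273.SerD_945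
open Crest.Agent.R273.Map_835 Crest.Agent.R273.PB_835 Crest.Agent.R273.PB_835.PB
open Crest.Agent.R272.PImm1_102

noncomputable section

variable {n m : ℕ} {M N : Type} [TopologicalSpace M] [TopologicalSpace N]
  {A : Atl n M} {B : Atl m N} {p : M → N}

/-! ### powers of a semipositive bundle -/

theorem qf_cur {L : LB A} (h : HM L) (i : A.ι) {x : M} (hx : x ∈ (A.e i).source) (v : Fin n → ℂ) :
    qf (cur h i x) v =
      lev (h.wt i) (A.e i x) (WithLp.toLp 2 (fun a => conj (v a))) / 4 := by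
  unfold qf cur
  rw [hq_eq_dot, hq_re (wt_contDiffAt h i ((A.e i).map_source hx))]

/-- **positivity of large powers, semipositive version** -/
theorem exists_pos_pow_ker [CompactSpace M] {F O : LB A} (h0 : HM F) (h : HM O) (hs : h.Semipos)
    (hk : ∀ i, ∀ z ∈ (A.e i).target, ∀ v : Cn n, v ≠ 0 → lev (h.wt i) z v = 0 →
      0 < lev (h0.wt i) z v) :
    ∃ m0 : ℕ, ∀ k, m0 ≤ k → (mul h0 (pow h k)).Pos := by
  have hker : ∀ i, ∀ x ∈ (A.e i).source, ∀ v : Fin n → ℂ, v ≠ 0 → qf (cur h i x) v = 0 →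
      0 < qf (cur h0 i x) v := by
    intro i x hx v hv hq
    have h0' : (WithLp.toLp 2 (fun a => conj (v a)) : Cn n) ≠ 0 := by
      intro h1
      apply hv
      funext a
      have := congrArg (fun v : Cn n => v a) h1
      simpa using this
    rw [qf_cur h i hx] at hq
    rw [qf_cur h0 i hx]
    have := hk i _ ((A.e i).map_source hx) _ h0' (by linarith)
    linarith
  obtain ⟨t0, ht⟩ := exists_pos_add_ker (cur h) (cur h0) (cur_cont h) (cur_cont h0)
    (fun i x hx => cur_posSemidef hs i hx) (fun i x hx => cur_herm h0 i hx) hker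
    (fun i j x hx => cur_tr h hx) (fun i j x hx => cur_tr h0 hx)
  obtain ⟨m0, hm0⟩ := exists_nat_ge t0
  refine ⟨m0, fun k hk => pos_of_cur fun i x hx => ?_⟩
  rw [cur_mul h0 (pow h k) i hx, cur_pow h k i hx]
  have := ht k (hm0.trans (by exact_mod_cast hk)) i x hx
  exact_mod_cast this

/-! ### sections of `F ⊗ p^* L` -/

/-- holomorphic section of `F ⊗ p^* L`: `f i j` in the frames of the charts `i` (for `F`) and `j`
(for `L`) -/
structure RS (p : M → N) (F : LB A) (L : LB B) where
  f : A.ι → B.ι → M → ℂ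
  hol : ∀ i j, HolAt A i (p ⁻¹' (B.e j).source) (f i j)
  left : ∀ i i' j, ∀ x ∈ (A.e i).source ∩ (A.e i').source, p x ∈ (B.e j).source →
    f i j x = F.g i i' x * f i' j x
  right : ∀ i j j', ∀ x ∈ (A.e i).source, p x ∈ (B.e j).source ∩ (B.e j').source →
    f i j x = L.g j j' (p x) * f i j' x


/-- the constant section `1` of the trivial bundle -/
def RS.one (p : M → N) : RS p (1 : LB A) (1 : LB B) where
  f _ _ _ := 1
  hol _ _ := holAt_const 1
  left _ _ _ _ _ _ := by simp
  right _ _ _ _ _ _ := by simp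

variable {α : Type*} [Fintype α] {F : LB A} {L : α → LB B}

/-- the local expression of `∑ |y_a|² h_a` -/
def relS (y : ∀ a, RS p F (L a)) (h : ∀ a, HM (L a)) (i : A.ι) (j : B.ι) (x : M) : ℝ :=
  ∑ a, ‖(y a).f i j x‖ ^ 2 * (h a).w j (p x)

theorem relS_indep (y : ∀ a, RS p F (L a)) (h : ∀ a, HM (L a)) {i : A.ι} {j j' : B.ι} {x : M}
    (hx : x ∈ (A.e i).source) (hj : p x ∈ (B.e j).source) (hj' : p x ∈ (B.e j').source) :
    relS y h i j x = relS y h i j' x := by
  refine Finset.sum_congr rfl fun a _ => ?_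
  rw [(h a).tr j j' (p x) ⟨hj, hj'⟩, (y a).right i j j' x hx ⟨hj, hj'⟩, norm_mul]
  ring

theorem relS_left (y : ∀ a, RS p F (L a)) (h : ∀ a, HM (L a)) {i i' : A.ι} {j : B.ι} {x : M}
    (hx : x ∈ (A.e i).source ∩ (A.e i').source) (hj : p x ∈ (B.e j).source) :
    relS y h i j x = ‖F.g i i' x‖ ^ 2 * relS y h i' j x := by
  unfold relS
  rw [Finset.mul_sum]
  refine Finset.sum_congr rfl fun a _ => ?_
  rw [(y a).left i i' j x hx hj, norm_mul]
  ring

theorem relS_pos (y : ∀ a, RS p F (L a)) (h : ∀ a, HM (L a)) {i : A.ι} {j : B.ι} {x : M}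
    (hj : p x ∈ (B.e j).source) (h0 : ∃ a, (y a).f i j x ≠ 0) : 0 < relS y h i j x := by
  obtain ⟨a, ha⟩ := h0
  exact Finset.sum_pos' (fun b _ => by have := (h b).pos j _ hj; positivity)
    ⟨a, Finset.mem_univ a, by have := (h a).pos j _ hj; positivity⟩

/-- no common zeros -/
def NZ (y : ∀ a, RS p F (L a)) : Prop :=
  ∀ i j x, x ∈ (A.e i).source → p x ∈ (B.e j).source → ∃ a, (y a).f i j x ≠ 0

/-- `M → P(⊕ L_a)` is an immersion over `N` -/
def Imm (y : ∀ a, RS p F (L a)) : Prop :=
  ∀ i j, ∀ z ∈ dm A B p i j, ∀ v : Cn n, fderiv ℂ (rd A B p i j) z v = 0 →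
    (∃ c : ℂ, ∀ a, fderiv ℂ (fun w => (y a).f i j ((A.e i).symm w)) z v =
      c * (y a).f i j ((A.e i).symm z)) → v = 0

theorem rs_anal (hp : HolMap A B p) {L₁ : LB B} (y : RS p F L₁) {i : A.ι} {j : B.ι} {z : Cn n}
    (hz : z ∈ dm A B p i j) : AnalyticAt ℂ (fun w => y.f i j ((A.e i).symm w)) z :=
  Crest.Agent.R266.SCV.analyticOnNhd_of_differentiableOn (hp.isOpen_dm i j) (y.hol i j) z hz

/-- the metric `(∑ |y_a|² h_a)⁻¹` on `F` -/
def relHM (hp : HolMap A B p) (y : ∀ a, RS p F (L a)) (hnz : NZ y) (h : ∀ a, HM (L a)) :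
    HM F where
  w i x := (relS y h i (ch B (p x)) x)⁻¹
  pos i x hx := inv_pos.2 (relS_pos y h (ch_mem B (p x)) (hnz i _ x hx (ch_mem B (p x))))
  sm i := by
    intro z hz
    have hx := (A.e i).map_target hz
    set x := (A.e i).symm z with hxz
    set j := ch B (p x) with hj
    have hjm : p x ∈ (B.e j).source := ch_mem B (p x)
    have hzd : z ∈ dm A B p i j := ⟨hz, hjm⟩
    have h1 : ContDiffAt ℝ ∞ (fun w => ∑ a, ‖(y a).f i j ((A.e i).symm w)‖ ^ 2 *
        (h a).w j ((B.e j).symm (rd A B p i j w))) z := by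
      refine ContDiffAt.sum fun a _ => ?_
      have h2 : ContDiffAt ℝ ∞ (fun y => (h a).w j ((B.e j).symm y)) (rd A B p i j z) :=
        ((h a).sm j).contDiffAt ((B.e j).open_target.mem_nhds ((B.e j).map_source hjm))
      have h3 : ContDiffAt ℝ ∞ (rd A B p i j) z :=
        (hp.analyticAt hzd).contDiffAt.restrict_scalars ℝ
      exact (((rs_anal hp (y a) hzd).contDiffAt.restrict_scalars ℝ).norm_sq ℝ).mul (h2.comp z h3)
    have h4 : (fun w => ∑ a, ‖(y a).f i j ((A.e i).symm w)‖ ^ 2 *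
        (h a).w j ((B.e j).symm (rd A B p i j w))) z ≠ 0 := by
      have h5 := relS_pos y h hjm (hnz i j x hx hjm)
      have h6 : (B.e j).symm (rd A B p i j z) = p x := (B.e j).left_inv hjm
      simp only [h6]
      exact h5.ne'
    refine ((h1.inv h4).congr_of_eventuallyEq ?_).contDiffWithinAt
    filter_upwards [(hp.isOpen_dm i j).mem_nhds hzd] with w hw
    have h7 : (B.e j).symm (rd A B p i j w) = p ((A.e i).symm w) := (B.e j).left_inv hw.2
    show (relS y h i (ch B (p ((A.e i).symm w))) ((A.e i).symm w))⁻¹ =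
      (∑ a, ‖(y a).f i j ((A.e i).symm w)‖ ^ 2 *
        (h a).w j ((B.e j).symm (rd A B p i j w)))⁻¹
    rw [h7, relS_indep y h ((A.e i).map_target hw.1) (ch_mem B _) hw.2]
    rfl
  tr i i' x hx := by
    have h1 := relS_pos y h (ch_mem B (p x)) (hnz i' _ x hx.2 (ch_mem B (p x)))
    have h2 := F.ne_zero i i' x
    rw [relS_left y h hx (ch_mem B (p x))]
    field_simp

theorem relHM_wt (hp : HolMap A B p) (y : ∀ a, RS p F (L a)) (hnz : NZ y) (h : ∀ a, HM (L a))
    {i : A.ι} {j : B.ι} {z : Cn n} (hz : z ∈ dm A B p i j) :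
    (relHM hp y hnz h).wt i z =
      Real.log (wsum (fun a w => (y a).f i j ((A.e i).symm w))
        (fun a w => (h a).w j ((B.e j).symm (rd A B p i j w))) z) := by
  have h7 : (B.e j).symm (rd A B p i j z) = p ((A.e i).symm z) := (B.e j).left_inv hz.2
  show - Real.log ((relS y h i (ch B (p ((A.e i).symm z))) ((A.e i).symm z))⁻¹) = _
  rw [Real.log_inv, neg_neg, relS_indep y h ((A.e i).map_target hz.1) (ch_mem B _) hz.2]
  unfold wsum
  simp only [h7]
  rfl

/-- the curvature of `relHM` along `ker dp` -/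
theorem relHM_lev_pos (hp : HolMap A B p) (y : ∀ a, RS p F (L a)) (hnz : NZ y) (himm : Imm y)
    (h : ∀ a, HM (L a)) {i : A.ι} {j : B.ι} {z : Cn n} (hz : z ∈ dm A B p i j) {v : Cn n}
    (hv : v ≠ 0) (hk : fderiv ℂ (rd A B p i j) z v = 0) :
    0 < lev ((relHM hp y hnz h).wt i) z v := by
  have he : (relHM hp y hnz h).wt i =ᶠ[𝓝 z] fun z =>
      Real.log (wsum (fun a w => (y a).f i j ((A.e i).symm w))
        (fun a w => (h a).w j ((B.e j).symm (rd A B p i j w))) z) := by
    filter_upwards [(hp.isOpen_dm i j).mem_nhds hz] with w hw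
    exact relHM_wt hp y hnz h hw
  have hf : ∀ a, AnalyticAt ℂ (fun w => (y a).f i j ((A.e i).symm w)) z := fun a =>
    rs_anal hp (y a) hz
  have hw : ∀ a, 0 < (h a).w j ((B.e j).symm (rd A B p i j z)) := fun a => by
    have h7 : (B.e j).symm (rd A B p i j z) = p ((A.e i).symm z) := (B.e j).left_inv hz.2
    rw [h7]
    exact (h a).pos j _ hz.2
  have h0 := hnz i j _ ((A.e i).map_target hz.1) hz.2
  have hfl : ∀ a, Flat (fun w => (h a).w j ((B.e j).symm (rd A B p i j w))) z v := fun a =>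
    flat_comp (U := fun y => (h a).w j ((B.e j).symm y)) (hp.analyticAt hz)
      ((((h a).sm j).contDiffAt ((B.e j).open_target.mem_nhds
        ((B.e j).map_source hz.2))).of_le (by norm_cast)) hk
  rw [lev_congr' he, lev_bridge]
  have h1 := lev_log_wsum_nonneg (f := fun a w => (y a).f i j ((A.e i).symm w))
    (w := fun a w => (h a).w j ((B.e j).symm (rd A B p i j w))) hf hw h0 hfl
  rcases h1.lt_or_eq with h2 | h2
  · linarith
  · exact absurd (himm i j z hz v hk (lev_log_wsum_eq_zero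
      (f := fun a w => (y a).f i j ((A.e i).symm w))
      (w := fun a w => (h a).w j ((B.e j).symm (rd A B p i j w))) hf hw h0 hfl h2.symm)) hv

/-- **P-IMM** (metric form): if `M → P(⊕ L_a)` is an immersion over `N` and `H` is positive on `N`, then
`F ⊗ p^* H^k` is positive for `k ≥ m0`. -/
theorem pimm_metric [CompactSpace M] (hp : HolMap A B p) {H : LB B} {hH : HM H} (hHp : hH.Pos)
    {H' : LB A} (T : PB p H' H) (y : ∀ a, RS p F (L a)) (hnz : NZ y) (himm : Imm y)
    (h : ∀ a, HM (L a)) :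
    ∃ m0 : ℕ, ∀ k, m0 ≤ k → (mul (relHM hp y hnz h) (pow (T.pullHM hp hH) k)).Pos := by
  refine exists_pos_pow_ker _ _ (T.pullHM_semipos hp (Pos.semipos hHp)) fun i z hz v hv hl => ?_
  obtain ⟨j, hj⟩ := B.cover (p ((A.e i).symm z))
  have hzd : z ∈ dm A B p i j := ⟨hz, hj⟩
  refine relHM_lev_pos hp y hnz himm h hzd hv ?_
  by_contra hne
  rw [T.pullHM_lev hp hH hzd] at hl
  exact absurd hl (hHp j _ ((B.e j).map_source hj) _ hne).ne'

/-- **P-IMM** -/
theorem pimm [CompactSpace M] (hp : HolMap A B p) {H : LB B} {hH : HM H} (hHp : hH.Pos)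
    {H' : LB A} (T : PB p H' H) (y : ∀ a, RS p F (L a)) (hnz : NZ y) (himm : Imm y)
    (h : ∀ a, HM (L a)) :
    ∃ m0 : ℕ, ∀ k, m0 ≤ k → ∃ hh : HM (F * H' ^ k), hh.Pos := by
  obtain ⟨m0, h1⟩ := pimm_metric hp hHp T y hnz himm h
  exact ⟨m0, fun k hk => ⟨_, h1 k hk⟩⟩

end

end Crest.Agent.R272.PImm2_102
end

-- ▼ part R272/DCov4_426

/-!
# R272 (S0414, S0415), DCOV (helper426), file 4: atlases of the cover, immersion, line bundles

* `locAtl C O`       : every `Fam` (no compactness) has an atlas `Atl` subordinate to an open cover `O`;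
* `Cmp C A'`         : the atlas `A'` is compatible with the family `C`; `cmp_locAtl`, `exists_cmp`
                       (compact case: finite, good, partition of unity)
* `holMap_p`         : `p : X → M` is holomorphic for every compatible atlas
* `rs`, `nz_rs`, `imm_rs` : `X → P(O ⊕ L_1 ⊕ ..)` is an immersion over `M` (input of P-IMM, 102)
* `yS`, `isHS_yS`    : the tautological section of `pullLB (L a)`; `yS_pow`
* `inj_of_ne`, `det_of_ne` : `p` is locally biholomorphic off the branch divisor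
-/

set_option autoImplicit false
set_option linter.unusedSectionVars false

open Set Filter Topology Metric

namespace Crest.Agent.R272.DCov_426

open Crest.Agent.R275.Geo Crest.Agent.R275.Core144 Crest.Agent.R275.GC293
open Crest.Agent.R273.Map_835 Crest.Agent.R273.Fam_835 Crest.Agent.R273.PB_835
open Crest.Agent.R273.Defs_333 Crest.Agent.R272.PImm2_102

noncomputable section

section Loc

variable {n : ℕ} {X : Type} [TopologicalSpace X] (C : Fam n X) {κ : Type} (O : κ → Set X)

/-- index of a small ball in a chart, inside one of the sets `O k` -/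
structure LI where
  c : C.ι
  z0 : Cn n
  r : ℝ
  k : κ
  hr : 0 < r
  sub : ∀ z ∈ ball z0 r, z ∈ (C.e c).target ∧ (C.e c).symm z ∈ O k

variable {C O}

/-- the normalised chart -/
def LI.e (t : LI C O) : OpenPartialHomeomorph X (Cn n) :=
  (C.e t.c).trans ((aff t.z0 t.r t.hr).toOpenPartialHomeomorph.restrOpen (ball t.z0 t.r)
    isOpen_ball)


theorem LI.e_symm (t : LI C O) (z : Cn n) :
    t.e.symm z = (C.e t.c).symm ((aff t.z0 t.r t.hr).symm z) := rfl

theorem LI.mem_source (t : LI C O) {x : X} :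
    x ∈ t.e.source ↔ x ∈ (C.e t.c).source ∧ C.e t.c x ∈ ball t.z0 t.r := by
  constructor
  · intro h
    exact ⟨h.1, h.2.2⟩
  · intro h
    exact ⟨h.1, mem_univ _, h.2⟩

theorem LI.mem_target (t : LI C O) {z : Cn n} :
    z ∈ t.e.target ↔ (aff t.z0 t.r t.hr).symm z ∈ ball t.z0 t.r := by
  constructor
  · intro h
    exact h.1.2
  · intro h
    exact ⟨⟨mem_univ _, h⟩, (t.sub _ h).1⟩

theorem LI.source_sub (t : LI C O) : t.e.source ⊆ O t.k := by
  intro x hx
  obtain ⟨h1, h2⟩ := t.mem_source.1 hx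
  have h3 := (t.sub _ h2).2
  rwa [(C.e t.c).left_inv h1] at h3

variable (C O)

/-- **atlas subordinate to an open cover** (no compactness) -/
def locAtl (hO : ∀ k, IsOpen (O k)) (hOc : ∀ x, ∃ k, x ∈ O k) : Atl n X where
  ι := LI C O
  e t := t.e
  cover x := by
    obtain ⟨c, hc⟩ := C.cover x
    obtain ⟨k, hk⟩ := hOc x
    have h1 : (C.e c).target ∩ (C.e c).symm ⁻¹' (O k) ∈ 𝓝 (C.e c x) :=
      ((C.e c).isOpen_inter_preimage_symm (hO k)).mem_nhds
        ⟨(C.e c).map_source hc, by rw [mem_preimage, (C.e c).left_inv hc]; exact hk⟩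
    obtain ⟨r, hr, h2⟩ := Metric.mem_nhds_iff.1 h1
    refine ⟨⟨c, C.e c x, r, k, hr, fun z hz => h2 hz⟩, ?_⟩
    rw [LI.mem_source]
    exact ⟨hc, mem_ball_self hr⟩
  cube t z hz p := rc_mem_of_ball t.z0 t.r t.hr (t.mem_target.1 hz) p
  holo t t' := by
    intro z hz
    have h1 := t.mem_target.1 hz.1
    have h2 := (t.sub _ h1).1
    have h3 := (t'.mem_source.1 hz.2).1
    rw [t.e_symm] at h3
    have h4 : DifferentiableAt ℂ (fun z => C.e t'.c ((C.e t.c).symm z))
        ((aff t.z0 t.r t.hr).symm z) :=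
      (C.holo t.c t'.c).differentiableAt (((C.e t.c).isOpen_inter_preimage_symm
        (C.e t'.c).open_source).mem_nhds ⟨h2, h3⟩)
    have h5 := DifferentiableAt.comp z (g := fun z => C.e t'.c ((C.e t.c).symm z)) h4
      (differentiable_aff_symm t.z0 t.r t.hr).differentiableAt
    exact (DifferentiableAt.comp z (g := aff t'.z0 t'.r t'.hr)
      (differentiable_aff t'.z0 t'.r t'.hr).differentiableAt h5).differentiableWithinAt

/-- compatible atlases -/
structure Cmp (A' : Atl n X) : Prop where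
  fwd : HolC (fam A') C id
  bwd : HolC C (fam A') id

theorem cmp_locAtl (hO : ∀ k, IsOpen (O k)) (hOc : ∀ x, ∃ k, x ∈ O k) :
    Cmp C (locAtl C O hO hOc) := by
  refine ⟨⟨continuous_id, fun t c => ?_⟩, ⟨continuous_id, fun c t => ?_⟩⟩
  · intro z hz
    have h1 := t.mem_target.1 hz.1
    have h2 := (t.sub _ h1).1
    have h4 : DifferentiableAt ℂ (fun z => C.e c ((C.e t.c).symm z))
        ((aff t.z0 t.r t.hr).symm z) :=
      (C.holo t.c c).differentiableAt (((C.e t.c).isOpen_inter_preimage_symm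
        (C.e c).open_source).mem_nhds ⟨h2, hz.2⟩)
    exact (DifferentiableAt.comp z (g := fun z => C.e c ((C.e t.c).symm z)) h4
      (differentiable_aff_symm t.z0 t.r t.hr).differentiableAt).differentiableWithinAt
  · intro z hz
    have h3 : (C.e c).symm z ∈ (C.e t.c).source := (t.mem_source.1 hz.2).1
    have h4 : DifferentiableAt ℂ (fun z => C.e t.c ((C.e c).symm z)) z :=
      (C.holo c t.c).differentiableAt (((C.e c).isOpen_inter_preimage_symm
        (C.e t.c).open_source).mem_nhds ⟨hz.1, h3⟩)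
    exact (DifferentiableAt.comp z (g := aff t.z0 t.r t.hr)
      (differentiable_aff t.z0 t.r t.hr).differentiableAt h4).differentiableWithinAt

/-- the compact case -/
theorem exists_cmp [CompactSpace X] [T2Space X] (hO : ∀ k, IsOpen (O k))
    (hOc : ∀ x, ∃ k, x ∈ O k) : ∃ A' : Atl n X, Finite A'.ι ∧ GoodA A' ∧ Nonempty (Part A') ∧
      (∀ i, ∃ k, (A'.e i).source ⊆ O k) ∧ Cmp C A' := by
  obtain ⟨A', h1, h2, h3, h4, h5, h6⟩ := C.exists_atl O hO hOc
  exact ⟨A', h1, h2, h3, h4, h5, h6⟩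

end Loc

variable {n : ℕ} {M : Type} [TopologicalSpace M] {A : Atl n M} {ρ : Type} [Fintype ρ]

namespace Data

variable (D : Data A ρ) {A' : Atl n D.X} (hc : Cmp D.famX A')

include hc in
theorem holMap_p : HolMap A' A D.p := holC_iff.1 (D.holC_p.comp hc.fwd)

include hc in
theorem diffAt_ch' {i : A'.ι} {j : A.ι} {z : Cn n} (hz : z ∈ (A'.e i).target)
    (hj : D.p ((A'.e i).symm z) ∈ (A.e j).source) :
    DifferentiableAt ℂ (fun z => D.ch j ((A'.e i).symm z : D.X)) z := by
  obtain ⟨c, hcx⟩ := D.famX.cover ((A'.e i).symm z)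
  have h1 : DifferentiableAt ℂ (fun z => c.e ((A'.e i).symm z)) z := hc.fwd.diffAt hz hcx
  have h2 : DifferentiableAt ℂ (fun z => D.ch j (c.e.symm z : D.X)) (c.e ((A'.e i).symm z)) := by
    refine c.diffAt_ch (c.e.map_source hcx) ?_
    rw [c.e.left_inv hcx]
    exact hj
  have h3 := DifferentiableAt.comp z (g := fun z => D.ch j (c.e.symm z : D.X)) h2 h1
  refine h3.congr_of_eventuallyEq ?_
  have h4 : ∀ᶠ w in 𝓝 z, (A'.e i).symm w ∈ c.e.source :=
    (A'.e i).continuousAt_symm hz (c.e.open_source.mem_nhds hcx)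
  filter_upwards [h4] with w hw
  show _ = D.ch j ((c.e.symm (c.e ((A'.e i).symm w)) : D.X) : D.T)
  rw [c.e.left_inv hw]

/-- the tautological coordinate as a section of `p^* L a` -/
def rsY (a : ρ) : RS D.p (1 : LB A') (D.L a) where
  f _ j q := D.y a j q
  hol i j := by
    intro z hz
    exact (differentiableAt_pi.1 (D.diffAt_ch' hc hz.1 hz.2).snd a).differentiableWithinAt
  left _ _ _ _ _ _ := by simp
  right _ _ _ _ _ hx := D.y_tr a hx.1 hx.2

/-- the bundles `O, L a` -/
def Lo : Option ρ → LB A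
  | none => 1
  | some a => D.L a

/-- the sections `1, y a` -/
def rs : ∀ o : Option ρ, RS D.p (1 : LB A') (D.Lo o)
  | none => RS.one D.p
  | some a => D.rsY hc a

theorem nz_rs : NZ (D.rs hc) := fun _ _ _ _ _ => ⟨none, one_ne_zero⟩

/-- **the cover is immersed in the total space** -/
theorem imm_rs : Imm (D.rs hc) := by
  rintro i j z ⟨hz, hj⟩ v hv ⟨c0, hc0⟩
  have h0 : c0 = 0 := by
    have h1 := hc0 none
    have h2 : (fun w => ((D.rs hc) none).f i j ((A'.e i).symm w)) = fun _ : Cn n => (1 : ℂ) := rfl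
    have h3 : ((D.rs hc) none).f i j ((A'.e i).symm z) = 1 := rfl
    rw [h2, h3, fderiv_fun_const] at h1
    simpa using h1.symm
  have hj' : D.p ((A'.e i).symm z) ∈ (A.e j).source := hj
  have hy : ∀ a, fderiv ℂ (fun w => D.y a j ((A'.e i).symm w)) z v = 0 := by
    intro a
    have h1 := hc0 (some a)
    rw [h0, zero_mul] at h1
    exact h1
  set H : Cn n → Cn n × (ρ → ℂ) := fun w => D.ch j ((A'.e i).symm w : D.X) with hH
  have hHd : DifferentiableAt ℂ H z := D.diffAt_ch' hc hz hj'
  have hHv : fderiv ℂ H z v = 0 := by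
    have h1 : fderiv ℂ H z v = (fderiv ℂ (fun w => (H w).1) z v, fderiv ℂ (fun w => (H w).2) z v) := by
      have h2 : fderiv ℂ H z = (fderiv ℂ (fun w => (H w).1) z).prod
          (fderiv ℂ (fun w => (H w).2) z) :=
        (hHd.fst.hasFDerivAt.prodMk hHd.snd.hasFDerivAt).fderiv
      rw [h2]
      rfl
    rw [h1]
    refine Prod.ext hv ?_
    show fderiv ℂ (fun w => (H w).2) z v = 0
    rw [fderiv_pi (differentiableAt_pi.1 hHd.snd)]
    funext a
    exact hy a
  -- the left inverse
  obtain ⟨c, hcx⟩ := D.famX.cover ((A'.e i).symm z)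
  have hcx' : ((A'.e i).symm z : D.X) ∈ c.e.source := hcx
  obtain ⟨hb, hχ⟩ := c.mem_source.1 (show (((A'.e i).symm z : D.X) : D.T) ∈ c.G.source from hcx)
  set x : D.X := (A'.e i).symm z with hx
  have hHz : H z = D.ch j (x : D.T) := rfl
  have hw0 : (H z).1 ∈ (A.e j).target := (A.e j).map_source hj'
  have hinv : (D.ch j).symm (H z) = (x : D.T) := (D.ch j).left_inv (D.mem_ch_source.2 hj')
  have g1 : DifferentiableAt ℂ (fun u => D.ch c.i ((D.ch j).symm u)) (H z) := by
    refine D.diffAt_ch hw0 ?_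
    have : ((D.ch j).symm (H z)).1 ∈ (A.e c.i).source := by
      rw [hinv]
      exact hb
    exact this
  have g2 : DifferentiableAt ℂ c.χ (D.ch c.i ((D.ch j).symm (H z))) := by
    rw [hinv]
    exact c.d1.differentiableAt (c.χ.open_source.mem_nhds hχ)
  have g3 : DifferentiableAt ℂ (fun u => (c.χ (D.ch c.i ((D.ch j).symm u))).1) (H z) :=
    (DifferentiableAt.comp (H z) (f := fun u => D.ch c.i ((D.ch j).symm u)) g2 g1).fst
  have g4 : DifferentiableAt ℂ (fun z => A'.e i (c.e.symm z)) (c.e x) := by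
    have h1 := hc.bwd.diffAt (i := c) (j := i) (z := c.e x) (c.e.map_source hcx')
      (by
        show c.e.symm (c.e x) ∈ (A'.e i).source
        rw [c.e.left_inv hcx']
        exact (A'.e i).map_target hz)
    exact h1
  have g4' : DifferentiableAt ℂ (fun z => A'.e i (c.e.symm z))
      ((c.χ (D.ch c.i ((D.ch j).symm (H z)))).1) := by
    rw [hinv]
    exact g4
  have g5 : DifferentiableAt ℂ
      (fun u => A'.e i (c.e.symm ((c.χ (D.ch c.i ((D.ch j).symm u))).1))) (H z) :=
    DifferentiableAt.comp (H z) (g := fun z => A'.e i (c.e.symm z)) g4' g3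
  have g6 : (fun w => A'.e i (c.e.symm ((c.χ (D.ch c.i ((D.ch j).symm (H w)))).1))) =ᶠ[𝓝 z]
      id := by
    have k1 : ∀ᶠ w in 𝓝 z, (A'.e i).symm w ∈ c.e.source :=
      (A'.e i).continuousAt_symm hz (c.e.open_source.mem_nhds hcx')
    have k2 : ∀ᶠ w in 𝓝 z, D.p ((A'.e i).symm w) ∈ (A.e j).source := by
      have k3 : ContinuousAt (fun w => D.p ((A'.e i).symm w)) z :=
        ContinuousAt.comp (g := D.p) D.continuous_p.continuousAt ((A'.e i).continuousAt_symm hz)
      exact k3 ((A.e j).open_source.mem_nhds hj')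
    filter_upwards [k1, k2, (A'.e i).open_target.mem_nhds hz] with w hw1 hw2 hw3
    have k4 : (D.ch j).symm (H w) = (((A'.e i).symm w : D.X) : D.T) :=
      (D.ch j).left_inv (D.mem_ch_source.2 hw2)
    show A'.e i (c.e.symm ((c.χ (D.ch c.i ((D.ch j).symm (H w)))).1)) = w
    rw [k4]
    show A'.e i (c.e.symm (c.e ((A'.e i).symm w))) = w
    rw [c.e.left_inv hw1, (A'.e i).right_inv hw3]
  have g7 := fderiv_comp z (g := fun u => A'.e i (c.e.symm ((c.χ (D.ch c.i ((D.ch j).symm u))).1)))
    (f := H) g5 hHd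
  have g8 : fderiv ℂ ((fun u => A'.e i (c.e.symm ((c.χ (D.ch c.i ((D.ch j).symm u))).1))) ∘ H) z =
      ContinuousLinearMap.id ℂ (Cn n) := by
    have g9 : ((fun u => A'.e i (c.e.symm ((c.χ (D.ch c.i ((D.ch j).symm u))).1))) ∘ H) =ᶠ[𝓝 z]
      id := g6
    rw [g9.fderiv_eq, fderiv_id]
  rw [g8] at g7
  have g10 := congrArg (fun T : Cn n →L[ℂ] Cn n => T v) g7
  simpa [hHv] using g10

/-! ### the tautological sections -/

open Classical in
/-- the tautological section of the pull-back of `L a` -/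
def yS (R : Ref A' A D.p) (a : ρ) : A'.ι → D.X → ℂ := fun i q =>
  if q ∈ (A'.e i).source then D.y a (R.r i) q else 0

theorem yS_of_mem (R : Ref A' A D.p) (a : ρ) {i : A'.ι} {q : D.X} (hq : q ∈ (A'.e i).source) :
    D.yS R a i q = D.y a (R.r i) q := if_pos hq

theorem isHS_yS (R : Ref A' A D.p) (a : ρ) :
    IsHS (pullLB (D.holMap_p hc) R (D.L a)) univ (D.yS R a) := by
  refine ⟨fun i => ?_, fun i x hx => if_neg hx, fun i j x hx _ => ?_⟩
  · have h1 : HolAt A' i (D.p ⁻¹' (A.e (R.r i)).source) (D.y a (R.r i)) :=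
      (D.rsY hc a).hol i (R.r i)
    intro z hz
    have hx := (A'.e i).map_target hz.1
    have h2 := h1.diffAt ((A.e (R.r i)).open_source.preimage D.continuous_p) hx (R.sub i _ hx)
    rw [(A'.e i).right_inv hz.1] at h2
    refine (h2.congr_of_eventuallyEq ?_).differentiableWithinAt
    filter_upwards [(A'.e i).open_target.mem_nhds hz.1] with w hw
    exact D.yS_of_mem R a ((A'.e i).map_target hw)
  · rw [D.yS_of_mem R a hx.1, D.yS_of_mem R a hx.2, pullLB_g (D.holMap_p hc) R (D.L a) hx]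
    exact D.y_tr a (R.sub i x hx.1) (R.sub j x hx.2)

theorem yS_pow (R : Ref A' A D.p) (a : ρ) {i : A'.ι} {q : D.X} (hq : q ∈ (A'.e i).source) :
    D.yS R a i q ^ D.k a = D.s a (R.r i) (D.p q) := by
  rw [D.yS_of_mem R a hq]
  exact D.y_pow a (R.sub i q hq)

theorem yS_eq_zero_iff (R : Ref A' A D.p) (a : ρ) {i : A'.ι} {q : D.X}
    (hq : q ∈ (A'.e i).source) : D.yS R a i q = 0 ↔ D.s a (R.r i) (D.p q) = 0 := by
  rw [← D.yS_pow R a hq]
  exact (pow_eq_zero_iff (D.kpos a).ne').symm

/-! ### off the branch divisor -/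

include hc in
/-- a vector killed by `dp` is killed by `dy a` wherever `s a ≠ 0` -/
theorem dy_of_ne {i : A'.ι} {j : A.ι} {z : Cn n} (hz : z ∈ dm A' A D.p i j) {a : ρ}
    (hs : D.s a j (D.p ((A'.e i).symm z)) ≠ 0) {v : Cn n}
    (hv : fderiv ℂ (rd A' A D.p i j) z v = 0) :
    fderiv ℂ (fun w => D.y a j ((A'.e i).symm w)) z v = 0 := by
  have hp := D.holMap_p hc
  have hy : DifferentiableAt ℂ (fun w => D.y a j ((A'.e i).symm w)) z :=
    differentiableAt_pi.1 (D.diffAt_ch' hc hz.1 hz.2).snd a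
  have hsd : DifferentiableAt ℂ (fun u => D.s a j ((A.e j).symm u)) (rd A' A D.p i j z) :=
    D.diff_s j a ((A.e j).map_source hz.2)
  have h1 : (fun w => D.y a j ((A'.e i).symm w) ^ D.k a) =ᶠ[𝓝 z]
      (fun u => D.s a j ((A.e j).symm u)) ∘ (rd A' A D.p i j) := by
    filter_upwards [(hp.isOpen_dm i j).mem_nhds hz] with w hw
    rw [D.y_pow a (show D.p ((A'.e i).symm w) ∈ (A.e j).source from hw.2)]
    show _ = D.s a j ((A.e j).symm (A.e j (D.p ((A'.e i).symm w))))
    rw [(A.e j).left_inv hw.2]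
  have h2 := h1.fderiv_eq (𝕜 := ℂ)
  rw [fderiv_comp z hsd (hp.diffAt hz)] at h2
  have h3 : fderiv ℂ (fun w => D.y a j ((A'.e i).symm w) ^ D.k a) z = _ :=
    (hy.hasFDerivAt.pow (D.k a)).fderiv
  rw [h3] at h2
  have h4 := congrArg (fun T : Cn n →L[ℂ] ℂ => T v) h2
  have h5 : ((D.k a : ℂ) * D.y a j ((A'.e i).symm z) ^ (D.k a - 1)) *
      fderiv ℂ (fun w => D.y a j ((A'.e i).symm w)) z v = 0 := by
    simpa [hv, smul_eq_mul, mul_assoc] using h4
  have h6 : D.y a j ((A'.e i).symm z) ≠ 0 := by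
    intro h0
    apply hs
    rw [← D.y_pow a (show D.p ((A'.e i).symm z) ∈ (A.e j).source from hz.2), h0,
      zero_pow (D.kpos a).ne']
  exact (mul_eq_zero.1 h5).resolve_left
    (mul_ne_zero (by exact_mod_cast (D.kpos a).ne') (pow_ne_zero _ h6))

include hc in
/-- `p` is an immersion off the branch divisor -/
theorem inj_of_ne {i : A'.ι} {j : A.ι} {z : Cn n} (hz : z ∈ dm A' A D.p i j)
    (hs : ∀ a, D.s a j (D.p ((A'.e i).symm z)) ≠ 0) :
    Function.Injective (fderiv ℂ (rd A' A D.p i j) z) := by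
  rw [injective_iff_map_eq_zero]
  intro v hv
  refine D.imm_rs hc i j z hz v hv ⟨0, fun o => ?_⟩
  rw [zero_mul]
  match o with
  | none =>
    show fderiv ℂ (fun _ : Cn n => (1 : ℂ)) z v = 0
    simp
  | some a => exact D.dy_of_ne hc hz (hs a) hv


end Data

end

end Crest.Agent.R272.DCov_426
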