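import Crest.Agent.R272.Refl3_246
import Crest.Agent.R272.DCov4_426
import Crest.Agent.R272.Root5_83
import Crest.Agent.R272.Blup6_102
import Crest.Agent.R272.BlA1_266

-- ▼ part R272/Adp1_409
section

/-!
# R272 (S0414), leaf S14-ADAPT (helper409), part 1: adding adapted coordinate charts to an atlas

* `cpt_trans`      : two charts compatible with a family are compatible with each other;
* `addFam`         : a family enlarged by compatible charts;
* `Cen A`          : points `p s`, compatible charts `χ s` at `p s`, small radii `ρ s`;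
* `Cen.adp`        : the atlas `A` enlarged by the charts `(2 ρ s)⁻¹ • (χ s - χ s (p s)) + centre`;
* `Cen.ref`, `Cen.lbih`, `Cen.lbih'`, `Cen.part`, `Cen.cmp`;
* `mkCen`          : existence (radii as small as wanted).
-/

set_option autoImplicit false
set_option linter.unusedSectionVars false

open Set Filter Topology Metric
open scoped ContDiff Manifold

namespace Crest.Agent.R272.Adp_409

open Crest.Agent.R275.Geo Crest.Agent.R275.Core144 Crest.Agent.R275.GC293
open Crest.Agent.R273.Map_835 Crest.Agent.R273.Fam_835 Crest.Agent.R273.PB_835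
open Crest.Agent.R273.Defs_333 Crest.Agent.R272.Refl_246 Crest.Agent.R272.DCov_426

noncomputable section

variable {n : ℕ} {M : Type} [TopologicalSpace M]

/-! ### compatible charts -/

theorem Cpt.diffAt {C : Fam n M} {e : OpenPartialHomeomorph M (Cn n)} (h : Cpt C e) {j : C.ι}
    {z : Cn n} (hz : z ∈ e.target) (hj : e.symm z ∈ (C.e j).source) :
    DifferentiableAt ℂ (fun z => C.e j (e.symm z)) z :=
  (h.hol j).differentiableAt
    ((e.isOpen_inter_preimage_symm (C.e j).open_source).mem_nhds ⟨hz, hj⟩)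

theorem Cpt.diffAt' {C : Fam n M} {e : OpenPartialHomeomorph M (Cn n)} (h : Cpt C e) {j : C.ι}
    {z : Cn n} (hz : z ∈ (C.e j).target) (hj : (C.e j).symm z ∈ e.source) :
    DifferentiableAt ℂ (fun z => e ((C.e j).symm z)) z :=
  (h.holi j).differentiableAt
    (((C.e j).isOpen_inter_preimage_symm e.open_source).mem_nhds ⟨hz, hj⟩)

/-- two charts compatible with a family are compatible -/
theorem cpt_trans {C : Fam n M} {e e' : OpenPartialHomeomorph M (Cn n)} (h : Cpt C e)
    (h' : Cpt C e') : DifferentiableOn ℂ (fun z => e' (e.symm z))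
      (e.target ∩ e.symm ⁻¹' e'.source) := by
  intro z hz
  obtain ⟨j, hj⟩ := C.cover (e.symm z)
  have h1 := Cpt.diffAt h hz.1 hj
  have h2 : DifferentiableAt ℂ (fun z => e' ((C.e j).symm z)) (C.e j (e.symm z)) := by
    refine Cpt.diffAt' h' ((C.e j).map_source hj) ?_
    rw [(C.e j).left_inv hj]
    exact hz.2
  have h3 := DifferentiableAt.comp z (g := fun z => e' ((C.e j).symm z))
    (f := fun z => C.e j (e.symm z)) h2 h1
  refine (h3.congr_of_eventuallyEq ?_).differentiableWithinAt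
  filter_upwards [(e.isOpen_inter_preimage_symm (C.e j).open_source).mem_nhds ⟨hz.1, hj⟩]
    with w hw
  simp only [Function.comp]
  rw [(C.e j).left_inv hw.2]



/-- the normalised restriction of a chart to a small ball -/
def nrm (e : OpenPartialHomeomorph M (Cn n)) (c : Cn n) (r : ℝ) (hr : 0 < r) :
    OpenPartialHomeomorph M (Cn n) :=
  e.trans ((aff c r hr).toOpenPartialHomeomorph.restrOpen (ball c r) isOpen_ball)

section Nrm

variable (e : OpenPartialHomeomorph M (Cn n)) (c : Cn n) (r : ℝ) (hr : 0 < r)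



theorem mem_nrm_source {x : M} : x ∈ (nrm e c r hr).source ↔ x ∈ e.source ∧ e x ∈ ball c r := by
  constructor
  · intro h
    exact ⟨h.1, h.2.2⟩
  · intro h
    exact ⟨h.1, mem_univ _, h.2⟩

theorem mem_nrm_target {z : Cn n} : z ∈ (nrm e c r hr).target ↔
    (aff c r hr).symm z ∈ ball c r ∧ (aff c r hr).symm z ∈ e.target := by
  constructor
  · intro h
    exact ⟨h.1.2, h.2⟩
  · intro h
    exact ⟨⟨mem_univ _, h.1⟩, h.2⟩

theorem cpt_nrm {C : Fam n M} (h : Cpt C e) : Cpt C (nrm e c r hr) := by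
  constructor
  · intro j z hz
    have h1 := ((mem_nrm_target e c r hr).1 hz.1).2
    have h2 := DifferentiableAt.comp z (g := fun z => C.e j (e.symm z))
      (f := (aff c r hr).symm) (Cpt.diffAt h h1 hz.2)
      (differentiable_aff_symm c r hr).differentiableAt
    exact h2.differentiableWithinAt
  · intro j z hz
    have h1 := ((mem_nrm_source e c r hr).1 hz.2).1
    have h2 := DifferentiableAt.comp z (g := aff c r hr)
      (f := fun z => e ((C.e j).symm z)) (differentiable_aff c r hr).differentiableAt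
      (Cpt.diffAt' h hz.1 h1)
    exact h2.differentiableWithinAt

end Nrm

/-! ### adapted charts at given points -/

/-- points with compatible charts and small radii -/
structure Cen (A : Atl n M) where
  S : Type
  p : S → M
  χ : S → OpenPartialHomeomorph M (Cn n)
  cpt : ∀ s, Cpt (fam A) (χ s)
  i0 : S → A.ι
  ρ : S → ℝ
  hρ : ∀ s, 0 < ρ s
  mem : ∀ s, p s ∈ (χ s).source
  sub : ∀ s, ∀ z ∈ ball (χ s (p s)) (ρ s), z ∈ (χ s).target ∧ (χ s).symm z ∈ (A.e (i0 s)).source

namespace Cen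

variable {A : Atl n M} (K : Cen A)

/-- the adapted chart at `p s` -/
def c (s : K.S) : OpenPartialHomeomorph M (Cn n) := nrm (K.χ s) (K.χ s (K.p s)) (K.ρ s) (K.hρ s)

theorem c_apply (s : K.S) (x : M) : K.c s x =
    ((2 * K.ρ s : ℝ) : ℂ)⁻¹ • (K.χ s x - K.χ s (K.p s)) + ctr n := rfl

theorem mem_c_source {s : K.S} {x : M} : x ∈ (K.c s).source ↔
    x ∈ (K.χ s).source ∧ K.χ s x ∈ ball (K.χ s (K.p s)) (K.ρ s) := mem_nrm_source _ _ _ _

theorem p_mem (s : K.S) : K.p s ∈ (K.c s).source :=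
  K.mem_c_source.2 ⟨K.mem s, mem_ball_self (K.hρ s)⟩

theorem c_p (s : K.S) : K.c s (K.p s) = ctr n := by
  rw [c_apply, sub_self, smul_zero, zero_add]

/-- the coordinates of the adapted chart, centred at `p s` -/
theorem c_sub (s : K.S) (x : M) : K.c s x - K.c s (K.p s) =
    ((2 * K.ρ s : ℝ) : ℂ)⁻¹ • (K.χ s x - K.χ s (K.p s)) := by
  rw [c_p, c_apply, add_sub_cancel_right]

theorem source_sub (s : K.S) : (K.c s).source ⊆ (A.e (K.i0 s)).source := by
  intro x hx
  obtain ⟨h1, h2⟩ := K.mem_c_source.1 hx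
  have h3 := (K.sub s _ h2).2
  rwa [(K.χ s).left_inv h1] at h3

theorem source_sub' (s : K.S) : (K.c s).source ⊆ (K.χ s).source := fun _ hx =>
  (K.mem_c_source.1 hx).1

theorem c_target (s : K.S) : (K.c s).target = ball (ctr n) (1 / 2) := by
  have hρ := K.hρ s
  ext z
  have h1 : z ∈ (K.c s).target ↔ (aff (K.χ s (K.p s)) (K.ρ s) (K.hρ s)).symm z ∈
      ball (K.χ s (K.p s)) (K.ρ s) := by
    constructor
    · intro h
      exact ((mem_nrm_target _ _ _ _).1 h).1
    · intro h
      exact (mem_nrm_target _ _ _ _).2 ⟨h, (K.sub s _ h).1⟩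
  rw [h1, aff_symm_apply, mem_ball, mem_ball, dist_eq_norm, dist_eq_norm, add_sub_cancel_right,
    norm_smul, Complex.norm_real, Real.norm_of_nonneg (by positivity)]
  constructor
  · intro h
    by_contra h2
    push Not at h2
    have : 2 * K.ρ s * (1 / 2) ≤ 2 * K.ρ s * ‖z - ctr n‖ := by gcongr
    linarith
  · intro h
    calc 2 * K.ρ s * ‖z - ctr n‖ < 2 * K.ρ s * (1 / 2) := by gcongr
      _ = K.ρ s := by ring

theorem cptc (s : K.S) : Cpt (fam A) (K.c s) := cpt_nrm _ _ _ _ (K.cpt s)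

/-- the charts of the enlarged atlas -/
def ee : A.ι ⊕ K.S → OpenPartialHomeomorph M (Cn n) := Sum.elim A.e K.c

theorem cpt_ee (i : A.ι ⊕ K.S) : Cpt (fam A) (K.ee i) := by
  rcases i with i | s
  · exact cpt_e (C := fam A) i
  · exact K.cptc s

/-- **the enlarged atlas** -/
def adp : Atl n M where
  ι := A.ι ⊕ K.S
  e := K.ee
  cover x := by
    obtain ⟨i, hi⟩ := A.cover x
    exact ⟨Sum.inl i, hi⟩
  cube := by
    rintro (i | s) z hz p
    · exact A.cube i z hz p
    · exact rc_mem_of_ball _ _ (K.hρ s) ((mem_nrm_target _ _ _ _).1 hz).1 p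
  holo i j := cpt_trans (K.cpt_ee i) (K.cpt_ee j)

@[simp] theorem adp_inl (i : A.ι) : K.adp.e (Sum.inl i) = A.e i := rfl

@[simp] theorem adp_inr (s : K.S) : K.adp.e (Sum.inr s) = K.c s := rfl

instance [Finite A.ι] [Finite K.S] : Finite K.adp.ι := inferInstanceAs (Finite (A.ι ⊕ K.S))

/-- every chart of the enlarged atlas lies in a chart of `A` -/
def ref : Ref K.adp A id where
  r := Sum.elim id K.i0
  sub := by
    rintro (i | s) x hx
    · exact hx
    · exact K.source_sub s hx

@[simp] theorem ref_inl (i : A.ι) : K.ref.r (Sum.inl i) = i := rfl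

@[simp] theorem ref_inr (s : K.S) : K.ref.r (Sum.inr s) = K.i0 s := rfl


theorem hol : HolMap K.adp A id := ⟨continuous_id, fun i j => (K.cpt_ee i).hol j⟩

theorem hol' : HolMap A K.adp id := ⟨continuous_id, fun i j => (K.cpt_ee j).holi i⟩

theorem lbih : LBih K.adp A id := lBih_of_inv K.hol K.hol' fun _ => rfl




/-! ### partition of unity -/

theorem sm {f : M → ℝ} (hf : A.Sm f) : K.adp.Sm f := by
  intro i
  refine fun z hz => ContDiffAt.contDiffWithinAt ?_
  have hx : (K.adp.e i).symm z ∈ (A.e (K.ref.r i)).source := K.ref.sub i _ ((K.adp.e i).map_target hz)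
  set j := K.ref.r i with hj
  have h1 : ContDiffAt ℂ ω (fun z => A.e j ((K.adp.e i).symm z)) z := by
    have ho : IsOpen (dm K.adp A id i j) := K.hol.isOpen_dm i j
    have h2 := (Crest.Agent.R266.SCV.contDiffOn_omega_of_differentiableOn ho (K.hol.hol i j))
    exact h2.contDiffAt (ho.mem_nhds ⟨hz, hx⟩)
  have h3 : ContDiffAt ℝ ∞ (fun z => A.e j ((K.adp.e i).symm z)) z :=
    (h1.restrict_scalars ℝ).of_le (by exact_mod_cast le_top)
  have h4 : ContDiffAt ℝ ∞ (fun z => f ((A.e j).symm z)) (A.e j ((K.adp.e i).symm z)) :=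
    (hf j).contDiffAt ((A.e j).open_target.mem_nhds ((A.e j).map_source hx))
  have h5 := ContDiffAt.comp z (g := fun z => f ((A.e j).symm z)) h4 h3
  refine h5.congr_of_eventuallyEq ?_
  filter_upwards [(K.hol.isOpen_dm i j).mem_nhds ⟨hz, hx⟩] with w hw
  exact (congrArg f ((A.e j).left_inv hw.2)).symm


end Cen

/-! ### existence -/

section Mk

variable {A : Atl n M} {S : Type} (p : S → M) (χ : S → OpenPartialHomeomorph M (Cn n))
  (cpt : ∀ s, Cpt (fam A) (χ s)) (mem : ∀ s, p s ∈ (χ s).source) (O : S → Set M)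
  (hO : ∀ s, O s ∈ 𝓝 (p s))

theorem exists_rad {s : S} (mem : p s ∈ (χ s).source) (hO : O s ∈ 𝓝 (p s)) :
    ∃ r : ℝ, 0 < r ∧ ∀ z ∈ ball (χ s (p s)) r, z ∈ (χ s).target ∧
      (χ s).symm z ∈ (A.e (A.cover (p s)).choose).source ∩ O s := by
  have h1 : (χ s).symm ⁻¹' ((A.e (A.cover (p s)).choose).source ∩ O s) ∈ 𝓝 (χ s (p s)) := by
    refine ((χ s).continuousAt_symm ((χ s).map_source mem)).preimage_mem_nhds ?_
    rw [(χ s).left_inv mem]
    exact inter_mem ((A.e _).open_source.mem_nhds (A.cover (p s)).choose_spec) hO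
  obtain ⟨r, hr, h2⟩ := Metric.mem_nhds_iff.1
    (inter_mem ((χ s).open_target.mem_nhds ((χ s).map_source mem)) h1)
  exact ⟨r, hr, fun z hz => h2 hz⟩

/-- **adapted charts exist** -/
def mkCen : Cen A where
  S := S
  p := p
  χ := χ
  cpt := cpt
  i0 s := (A.cover (p s)).choose
  ρ s := (exists_rad (A := A) p χ O (mem s) (hO s)).choose
  hρ s := (exists_rad (A := A) p χ O (mem s) (hO s)).choose_spec.1
  mem := mem
  sub s z hz := ⟨((exists_rad (A := A) p χ O (mem s) (hO s)).choose_spec.2 z hz).1,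
    ((exists_rad (A := A) p χ O (mem s) (hO s)).choose_spec.2 z hz).2.1⟩


end Mk

end

end Crest.Agent.R272.Adp_409
end

-- ▼ part R272/Adp2_409
section

/-!
# R272 (S0414), leaf S14-ADAPT (helper409), part 2

* `exists_chi`    : `n` holomorphic functions with independent differentials are a compatible chart;
* `Crd A x u`, `cenOf`, `cenOf_c` : the enlarged atlas with charts `(2 ρ)⁻¹ (u - u p) + centre`;
* `Cen.up`, `isHS_up`, `Cen.hmUp`, `Cen.hmUp_pos`, `Cen.projUp` : transport of sections, metrics,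
  projective embeddings;
* `Cen.ctr`       : the centres of 102's blow-up for a finite injective family of points.
-/

set_option autoImplicit false
set_option linter.unusedSectionVars false

open Set Filter Topology Metric
open scoped ContDiff Manifold

namespace Crest.Agent.R272.Adp_409

open Crest.Agent.R275.Geo Crest.Agent.R275.Core144 Crest.Agent.R275.GC293
open Crest.Agent.R273.Map_835 Crest.Agent.R273.Fam_835 Crest.Agent.R273.PB_835
open Crest.Agent.R273.Defs_333 Crest.Agent.R272.Refl_246 Crest.Agent.R272.DCov_426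
open Crest.Agent.R272.Quot_783 Crest.Agent.R272.Root_83 Crest.Agent.R272.Blup1_102

noncomputable section

variable {n : ℕ} {M : Type} [TopologicalSpace M]

/-! ### charts from functions -/

/-- **a chart from `n` functions with independent differentials** -/
theorem exists_chi {C : Fam n M} {x : M} {O : Set M} (hO : O ∈ 𝓝 x) {u : Fin n → M → ℂ}
    (hu : ∀ b, HG C x (u b)) {c : C.ι} (hx : x ∈ (C.e c).source)
    (hd : ∀ v, (∀ b, fderiv ℂ (fun z => u b ((C.e c).symm z)) (C.e c x) v = 0) → v = 0) :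
    ∃ χ : OpenPartialHomeomorph M (Cn n), x ∈ χ.source ∧ χ.source ⊆ O ∧ Cpt C χ ∧
      ∀ y ∈ χ.source, ∀ b, χ y b = u b y := by
  classical
  choose U hU hxU hF using hu
  set z0 := C.e c x with hz0
  set F : Cn n → Cn n := fun z => WithLp.toLp 2 fun b => u b ((C.e c).symm z) with hFd
  -- the open set of the chart on which everything is holomorphic
  set V : Set M := ⋂ b, U b with hV
  have hVo : IsOpen V := isOpen_iInter_of_finite hU
  have hxV : x ∈ V := mem_iInter.2 hxU
  set W : Set (Cn n) := (C.e c).target ∩ (C.e c).symm ⁻¹' V with hW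
  have hWo : IsOpen W := (C.e c).isOpen_inter_preimage_symm hVo
  have hzW : z0 ∈ W := ⟨(C.e c).map_source hx, by
    rw [mem_preimage, hz0, (C.e c).left_inv hx]; exact hxV⟩
  have hdb : ∀ b, ∀ z ∈ W, DifferentiableAt ℂ (fun z => u b ((C.e c).symm z)) z := by
    intro b z hz
    exact ((hF b c).mono fun w hw => ⟨hw.1, mem_iInter.1 hw.2 b⟩).differentiableAt
      (hWo.mem_nhds hz)
  have hFd' : ∀ z ∈ W, DifferentiableAt ℂ F z := by
    intro z hz
    have h1 : DifferentiableAt ℂ (fun z => fun b => u b ((C.e c).symm z)) z :=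
      differentiableAt_pi.2 fun b => hdb b z hz
    exact ((PiLp.continuousLinearEquiv 2 ℂ fun _ : Fin n => ℂ).symm.differentiableAt).comp z h1
  have hA : AnalyticAt ℂ F z0 := Crest.Agent.R266.SCV.analyticOnNhd_of_differentiableOn hWo
    (fun z hz => (hFd' z hz).differentiableWithinAt) z0 hzW
  have hcomp : ∀ v b, (fderiv ℂ F z0 v) b = fderiv ℂ (fun z => u b ((C.e c).symm z)) z0 v := by
    intro v b
    have h1 : HasFDerivAt F (fderiv ℂ F z0) z0 := (hFd' z0 hzW).hasFDerivAt
    have h2 : HasFDerivAt (fun z => (F z) b) ((EuclideanSpace.proj b).comp (fderiv ℂ F z0)) z0 :=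
      (EuclideanSpace.proj b : Cn n →L[ℂ] ℂ).hasFDerivAt.comp z0 h1
    have h3 := h2.fderiv
    have h4 : fderiv ℂ (fun z => u b ((C.e c).symm z)) z0 =
        (EuclideanSpace.proj b).comp (fderiv ℂ F z0) := h3
    rw [h4]
    rfl
  have hinj : Function.Injective (fderiv ℂ F z0) := by
    rw [injective_iff_map_eq_zero]
    intro v hv
    refine hd v fun b => ?_
    rw [← hcomp, hv]
    rfl
  let T : Cn n ≃L[ℂ] Cn n := (LinearEquiv.ofInjectiveEndo (fderiv ℂ F z0).toLinearMap
    hinj).toContinuousLinearEquiv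
  have hT : HasFDerivAt F (T : Cn n →L[ℂ] Cn n) z0 := by
    have h2 := (hFd' z0 hzW).hasFDerivAt
    convert h2 using 1
    ext v
    rfl
  have hN : W ∩ (C.e c).symm ⁻¹' O ∈ 𝓝 z0 := by
    refine inter_mem (hWo.mem_nhds hzW) ?_
    refine ((C.e c).continuousAt_symm hzW.1).preimage_mem_nhds ?_
    rw [hz0, (C.e c).left_inv hx]
    exact hO
  obtain ⟨e, h1, h2, h3, h4, h5⟩ :=
    Crest.Agent.R266.SCV.exists_analytic_openPartialHomeomorph hA T hT hN
  refine ⟨(C.e c).trans e, ⟨hx, h1⟩, ?_, ?_, ?_⟩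
  · rintro y ⟨hy1, hy2⟩
    have h6 := (h2 hy2).2
    have h7 : (C.e c).symm (C.e c y) ∈ O := h6
    rwa [(C.e c).left_inv hy1] at h7
  · constructor
    · rintro j z ⟨⟨hz1, hz2⟩, hz3⟩
      have h6 : DifferentiableAt ℂ e.symm z := (h5 z hz1).differentiableAt
      have h7 : DifferentiableAt ℂ (fun z => C.e j ((C.e c).symm z)) (e.symm z) :=
        (C.holo c j).differentiableAt (((C.e c).isOpen_inter_preimage_symm
          (C.e j).open_source).mem_nhds ⟨hz2, hz3⟩)
      exact (DifferentiableAt.comp z (g := fun z => C.e j ((C.e c).symm z)) h7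
        h6).differentiableWithinAt
    · rintro j z ⟨hz1, ⟨hz2, hz3⟩⟩
      have h6 : DifferentiableAt ℂ e (C.e c ((C.e j).symm z)) := (h4 _ hz3).differentiableAt
      have h7 : DifferentiableAt ℂ (fun z => C.e c ((C.e j).symm z)) z :=
        (C.holo j c).differentiableAt (((C.e j).isOpen_inter_preimage_symm
          (C.e c).open_source).mem_nhds ⟨hz1, hz2⟩)
      exact (DifferentiableAt.comp z (g := e) h6 h7).differentiableWithinAt
  · rintro y ⟨hy1, hy2⟩ b
    show (e (C.e c y)) b = _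
    rw [h3]
    show u b ((C.e c).symm (C.e c y)) = _
    rw [(C.e c).left_inv hy1]

/-- `n` functions which are local coordinates at `x` -/
structure Crd (A : Atl n M) (x : M) (u : Fin n → M → ℂ) : Prop where
  hol : ∀ b, HG (fam A) x (u b)
  ind : ∃ i, x ∈ (A.e i).source ∧
    ∀ v, (∀ b, fderiv ℂ (fun z => u b ((A.e i).symm z)) (A.e i x) v = 0) → v = 0


section CenOf

variable (A : Atl n M) {S : Type} (p : S → M) (u : S → Fin n → M → ℂ)
  (hu : ∀ s, Crd A (p s) (u s)) (O : S → Set M) (hO : ∀ s, O s ∈ 𝓝 (p s))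

theorem exists_chi' (s : S) (hu : Crd A (p s) (u s)) (hO : O s ∈ 𝓝 (p s)) :
    ∃ χ : OpenPartialHomeomorph M (Cn n), p s ∈ χ.source ∧ χ.source ⊆ O s ∧ Cpt (fam A) χ ∧
      ∀ y ∈ χ.source, ∀ b, χ y b = u s b y := by
  obtain ⟨i, hi, h⟩ := hu.ind
  exact exists_chi (C := fam A) hO hu.hol hi h

/-- **the adapted atlas data of functions `u s b` at the points `p s`** -/
def cenOf : Cen A := mkCen p (fun s => (exists_chi' A p u O s (hu s) (hO s)).choose)
  (fun s => (exists_chi' A p u O s (hu s) (hO s)).choose_spec.2.2.1)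
  (fun s => (exists_chi' A p u O s (hu s) (hO s)).choose_spec.1) O hO


/-- the coordinates of the adapted chart -/
theorem cenOf_c (s : S) {x : M} (hx : x ∈ ((cenOf A p u hu O hO).c s).source) (b : Fin n) :
    ((cenOf A p u hu O hO).c s x - (cenOf A p u hu O hO).c s (p s)) b =
      ((2 * (cenOf A p u hu O hO).ρ s : ℝ) : ℂ)⁻¹ * (u s b x - u s b (p s)) := by
  have h1 := (exists_chi' A p u O s (hu s) (hO s)).choose_spec
  have h2 : x ∈ ((cenOf A p u hu O hO).χ s).source := (cenOf A p u hu O hO).source_sub' s hx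
  have h3 := (cenOf A p u hu O hO).c_sub s x
  have h4 : (cenOf A p u hu O hO).p s = p s := rfl
  rw [h4] at h3
  rw [h3]
  rw [PiLp.smul_apply, smul_eq_mul, PiLp.sub_apply]
  have h5 : ((cenOf A p u hu O hO).χ s) x b = u s b x := h1.2.2.2 x h2 b
  have h6 : ((cenOf A p u hu O hO).χ s) (p s) b = u s b (p s) := h1.2.2.2 (p s) h1.1 b
  rw [h5, h6]

/-- the functions in terms of the centred coordinates `z` of the adapted chart -/
theorem cenOf_u (s : S) {x : M} (hx : x ∈ ((cenOf A p u hu O hO).c s).source) (b : Fin n) :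
    u s b x = u s b (p s) + ((2 * (cenOf A p u hu O hO).ρ s : ℝ) : ℂ) *
      ((cenOf A p u hu O hO).adp.e (Sum.inr s) x -
        (cenOf A p u hu O hO).adp.e (Sum.inr s) (p s)) b := by
  have h1 := cenOf_c A p u hu O hO s hx b
  have h2 : ((2 * (cenOf A p u hu O hO).ρ s : ℝ) : ℂ) ≠ 0 := by
    exact_mod_cast (by have := (cenOf A p u hu O hO).hρ s; positivity :
      (2 * (cenOf A p u hu O hO).ρ s : ℝ) ≠ 0)
  have h3 : ((cenOf A p u hu O hO).adp.e (Sum.inr s) x -
        (cenOf A p u hu O hO).adp.e (Sum.inr s) (p s)) b =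
      ((cenOf A p u hu O hO).c s x - (cenOf A p u hu O hO).c s (p s)) b := rfl
  rw [h3, h1, mul_inv_cancel_left₀ h2]
  ring

end CenOf

/-! ### transport of sections, metrics, embeddings -/

namespace Cen

variable {A : Atl n M} (K : Cen A) {L : LB A}

/-- a section in the enlarged atlas -/
def up (s : A.ι → M → ℂ) : K.adp.ι → M → ℂ := fun i x =>
  open Classical in if x ∈ (K.adp.e i).source then s (K.ref.r i) x else 0

theorem up_of_mem (s : A.ι → M → ℂ) {i : K.adp.ι} {x : M} (hx : x ∈ (K.adp.e i).source) :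
    K.up s i x = s (K.ref.r i) x := if_pos hx

theorem isHS_up {U : Set M} {s : A.ι → M → ℂ} (h : IsHS L U s) :
    IsHS (pullLB K.hol K.ref L) U (K.up s) := by
  refine ⟨fun i => ?_, fun i x hx => if_neg hx, fun i j x hx hxU => ?_⟩
  · have h1 := K.hol.comp_holAt (i := i) (h.hol (K.ref.r i))
    intro z hz
    have hx := (K.adp.e i).map_target hz.1
    have h2 : (K.adp.e i).target ∩ (K.adp.e i).symm ⁻¹' U ⊆
        (K.adp.e i).target ∩ (K.adp.e i).symm ⁻¹' (id ⁻¹' (U ∩ (A.e (K.ref.r i)).source)) :=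
      fun w hw => ⟨hw.1, hw.2, K.ref.sub i _ ((K.adp.e i).map_target hw.1)⟩
    exact ((DifferentiableOn.mono h1 h2).congr fun w hw =>
      K.up_of_mem s ((K.adp.e i).map_target hw.1)) z hz
  · rw [K.up_of_mem s hx.1, K.up_of_mem s hx.2, pullLB_g K.hol K.ref L hx]
    exact h.tr _ _ _ ⟨K.ref.sub i x hx.1, K.ref.sub j x hx.2⟩ hxU

/-- a metric in the enlarged atlas -/
def hmUp (h : HM L) : HM (pullLB K.hol K.ref L) := (PB.ref K.hol K.ref L).pullHM K.hol h

theorem hmUp_pos {h : HM L} (hs : h.Pos) : (K.hmUp h).Pos :=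
  (PB.ref K.hol K.ref L).pullHM_pos K.hol hs fun _ _ _ hz => K.lbih.inj hz


/-! ### centres of the blow-up -/

theorem exists_r [T2Space M] [Finite K.S] (hp : Function.Injective K.p) {ρ0 : ℝ} (h0 : 0 < ρ0) :
    ∃ r : K.S → ℝ, (∀ s, 0 < r s) ∧ (∀ s, r s ≤ ρ0) ∧ (∀ s, r s < 1 / 2) ∧
      ∀ s t, s ≠ t → Disjoint ((K.c s).symm '' closedBall (K.c s (K.p s)) (r s))
        ((K.c t).symm '' closedBall (K.c t (K.p t)) (r t)) := by
  obtain ⟨U, hU, hd⟩ := (finite_range K.p).t2_separation
  have h1 : ∀ s, ∃ r : ℝ, 0 < r ∧ r ≤ ρ0 ∧ r < 1 / 2 ∧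
      (K.c s).symm '' closedBall (K.c s (K.p s)) r ⊆ U (K.p s) := by
    intro s
    have h2 : (K.c s).symm ⁻¹' U (K.p s) ∈ 𝓝 (K.c s (K.p s)) := by
      refine ((K.c s).continuousAt_symm ((K.c s).map_source (K.p_mem s))).preimage_mem_nhds ?_
      rw [(K.c s).left_inv (K.p_mem s)]
      exact (hU (K.p s)).2.mem_nhds (hU (K.p s)).1
    obtain ⟨r, hr, h3⟩ := Metric.nhds_basis_closedBall.mem_iff.1 h2
    refine ⟨min r (min ρ0 (1 / 4)), lt_min hr (lt_min h0 (by norm_num)),
      (min_le_right _ _).trans (min_le_left _ _),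
      ((min_le_right _ _).trans (min_le_right _ _)).trans_lt (by norm_num), ?_⟩
    rintro _ ⟨z, hz, rfl⟩
    exact h3 (closedBall_subset_closedBall (min_le_left _ _) hz)
  choose r hr hr1 hr2 hr3 using h1
  refine ⟨r, hr, hr1, hr2, fun s t hst => ?_⟩
  have h4 := hd (mem_range_self s) (mem_range_self t) (fun h => hst (hp h))
  exact h4.mono (hr3 s) (hr3 t)

/-- **the centres of 102's blow-up in the enlarged atlas** (chart `Sum.inr s` at `p s`, radii `≤ ρ0`) -/
def ctr [T2Space M] [Finite K.S] (hp : Function.Injective K.p) {ρ0 : ℝ} (h0 : 0 < ρ0)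
    (h1 : ρ0 ≤ 1) : Ctr K.adp where
  S := K.S
  i := Sum.inr
  p := K.p
  r := (K.exists_r hp h0).choose
  hp := K.p_mem
  r_pos := (K.exists_r hp h0).choose_spec.1
  r_le s := ((K.exists_r hp h0).choose_spec.2.1 s).trans h1
  sub s := by
    show closedBall (K.c s (K.p s)) _ ⊆ (K.c s).target
    rw [K.c_target, K.c_p]
    exact closedBall_subset_ball ((K.exists_r hp h0).choose_spec.2.2.1 s)
  disj := (K.exists_r hp h0).choose_spec.2.2.2
  lf := locallyFinite_of_finite _

@[simp] theorem ctr_S [T2Space M] [Finite K.S] (hp : Function.Injective K.p) {ρ0 : ℝ}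
    (h0 : 0 < ρ0) (h1 : ρ0 ≤ 1) : (K.ctr hp h0 h1).S = K.S := rfl

@[simp] theorem ctr_i [T2Space M] [Finite K.S] (hp : Function.Injective K.p) {ρ0 : ℝ}
    (h0 : 0 < ρ0) (h1 : ρ0 ≤ 1) (s : K.S) : (K.ctr hp h0 h1).i s = Sum.inr s := rfl

@[simp] theorem ctr_p [T2Space M] [Finite K.S] (hp : Function.Injective K.p) {ρ0 : ℝ}
    (h0 : 0 < ρ0) (h1 : ρ0 ≤ 1) (s : K.S) : (K.ctr hp h0 h1).p s = K.p s := rfl


end Cen

end

end Crest.Agent.R272.Adp_409
end

-- ▼ part R272/Adp3_409

/-!
# R272 (S0414), helper409: from functions `T, S` at the centres to the centred local forms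

* `Cen.pd K P`       : the data `P : PD A ρ` (266) on the enlarged atlas `K.adp`; `pd_snc`;
* `Shape`, `HasForm` : `φ = U * F (T, S, c)` near a point, `F` one of `1`, `S^(2k) - T^(2k) c`,
                       `S^2 - T^4 c`;
* `CForm`            : the same in centred coordinates of `ℂ²`;
* `Node P x`         : functions `T, S` at a centre with the forms of all sections;
* `nodeCen`, `nodeCen_form` : all centres at once.
-/

set_option autoImplicit false
set_option linter.unusedSectionVars false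

open Set Filter Topology Metric
open scoped ContDiff Manifold

namespace Crest.Agent.R272.Adp_409

open Crest.Agent.R275.Geo Crest.Agent.R275.Core144 Crest.Agent.R275.GC293
open Crest.Agent.R273.Map_835 Crest.Agent.R273.Fam_835 Crest.Agent.R273.PB_835
open Crest.Agent.R273.Defs_333 Crest.Agent.R272.Refl_246 Crest.Agent.R272.DCov_426
open Crest.Agent.R272.Quot_783 Crest.Agent.R272.Root_83 Crest.Agent.R272.Blup1_102
open Crest.Agent.R272.BlA_266

noncomputable section

variable {n : ℕ} {M : Type} [TopologicalSpace M]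

/-! ### powers of pulled back bundles (no instances, cf. `pullLB_pow` of Blup6) -/

theorem pull_mul {A : Atl n M} {m : ℕ} {N : Type} [TopologicalSpace N] {B : Atl m N} {p : M → N}
    (hp : HolMap A B p) (R : Ref A B p) (L L' : LB B) :
    pullLB hp R (L * L') = pullLB hp R L * pullLB hp R L' := by
  ext i j x
  rw [LB.mul_g]
  by_cases hx : x ∈ (A.e i).source ∩ (A.e j).source
  · rw [pullLB_g hp R _ hx, pullLB_g hp R _ hx, pullLB_g hp R _ hx, LB.mul_g]
  · rw [LB.off _ _ _ _ hx, LB.off _ _ _ _ hx, LB.off _ _ _ _ hx, one_mul]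

theorem pull_pow {A : Atl n M} {m : ℕ} {N : Type} [TopologicalSpace N] {B : Atl m N} {p : M → N}
    (hp : HolMap A B p) (R : Ref A B p) (L : LB B) (k : ℕ) :
    pullLB hp R (L ^ k) = (pullLB hp R L) ^ k := by
  induction k with
  | zero =>
    have h := pull_mul hp R 1 1
    rw [mul_one] at h
    rw [pow_zero, pow_zero]
    exact left_eq_mul.1 h
  | succ k ih => rw [pow_succ, pow_succ, pull_mul, ih]

/-! ### the data on the enlarged atlas -/

namespace Cen

variable {A : Atl n M} {ρ : Type} (K : Cen A) (P : PD A ρ)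

/-- the data on the enlarged atlas -/
def pd : PD K.adp ρ where
  L a := pullLB K.hol K.ref (P.L a)
  k := P.k
  s a := K.up (P.s a)
  kpos := P.kpos
  hs a := by
    rw [← pull_pow]
    exact K.isHS_up (P.hs a)

@[simp] theorem pd_k : (K.pd P).k = P.k := rfl



theorem pd_s_mem (a : ρ) {i : K.adp.ι} {x : M} (hx : x ∈ (K.adp.e i).source) :
    (K.pd P).s a i x = P.s a (K.ref.r i) x := K.up_of_mem _ hx

theorem pd_rd_inl (a : ρ) {i : A.ι} {z : Cn n} (hz : z ∈ (A.e i).target) :
    (K.pd P).rd (Sum.inl i) a z = P.rd i a z :=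
  K.up_of_mem (i := Sum.inl i) (P.s a) ((A.e i).map_target hz)


theorem pd_snc {x : M} : (K.pd P).Snc x ↔ P.Snc x := by
  constructor
  · intro h
    obtain ⟨i, hi⟩ := A.cover x
    have h1 := h.all (K.pd P) (j := Sum.inl i) hi
    refine ⟨i, hi, h1.congr fun a => ?_⟩
    filter_upwards [(A.e i).open_target.mem_nhds ((A.e i).map_source hi)] with z hz
    exact (K.pd_rd_inl P a hz).symm
  · rintro ⟨i, hi, h1⟩
    refine ⟨Sum.inl i, hi, ?_⟩
    refine Snc0.congr h1 fun a => ?_
    filter_upwards [(A.e i).open_target.mem_nhds ((A.e i).map_source hi)] with z hz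
    exact K.pd_rd_inl P a hz

end Cen

/-! ### shapes -/

/-- the shape of a local equation in two functions `T`, `S` -/
inductive Shape : Type
  | unit : Shape
  | star (k : ℕ) : Shape
  | tac : Shape

/-- the model function -/
def Shape.F : Shape → ℂ → ℂ → ℂ → ℂ
  | .unit, _, _, _ => 1
  | .star k, T, S, c => S ^ (2 * k) - T ^ (2 * k) * c
  | .tac, T, S, c => S ^ 2 - T ^ 4 * c

/-- scaling of the coordinates: the unit -/
def Shape.su : Shape → ℂ → ℂ
  | .unit, _ => 1
  | .star k, R => R ^ (2 * k)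
  | .tac, R => R ^ 2

/-- scaling of the coordinates: the coefficient -/
def Shape.sc : Shape → ℂ → ℂ
  | .unit, _ => 1
  | .star _, _ => 1
  | .tac, R => R ^ 2

theorem Shape.F_scale (sh : Shape) (R T S c : ℂ) :
    sh.F (R * T) (R * S) c = sh.su R * sh.F T S (sh.sc R * c) := by
  cases sh <;> simp only [Shape.F, Shape.su, Shape.sc] <;> ring

theorem Shape.su_ne (sh : Shape) {R : ℂ} (hR : R ≠ 0) : sh.su R ≠ 0 := by
  cases sh <;> simp [Shape.su, hR]

theorem Shape.sc_ne (sh : Shape) {R : ℂ} (hR : R ≠ 0) : sh.sc R ≠ 0 := by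
  cases sh <;> simp [Shape.sc, hR]

/-- near `x`: `φ = U * F (T, S, c)` with holomorphic units `U`, `c` -/
def HasForm (C : Fam n M) (sh : Shape) (φ T S : M → ℂ) (x : M) : Prop :=
  ∃ U c : M → ℂ, HG C x U ∧ HG C x c ∧ U x ≠ 0 ∧ c x ≠ 0 ∧
    ∀ᶠ y in 𝓝 x, φ y = U y * sh.F (T y) (S y) (c y)

/-- a change by a unit -/
theorem HasForm.mul {C : Fam n M} {sh : Shape} {φ φ' T S g : M → ℂ} {x : M}
    (h : HasForm C sh φ T S x) (hg : HG C x g) (hg0 : g x ≠ 0)
    (he : ∀ᶠ y in 𝓝 x, φ' y = g y * φ y) : HasForm C sh φ' T S x := by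
  obtain ⟨U, c, hU, hc, hU0, hc0, h1⟩ := h
  refine ⟨fun y => g y * U y, c, hg.mul hU, hc, mul_ne_zero hg0 hU0, hc0, ?_⟩
  filter_upwards [h1, he] with y h2 h3
  rw [h3, h2, mul_assoc]

/-- other functions `T`, `S` with the same germs -/
theorem HasForm.congr {C : Fam n M} {sh : Shape} {φ T S T' S' : M → ℂ} {x : M}
    (h : HasForm C sh φ T S x) (hT : T' =ᶠ[𝓝 x] T) (hS : S' =ᶠ[𝓝 x] S) :
    HasForm C sh φ T' S' x := by
  obtain ⟨U, c, hU, hc, hU0, hc0, h1⟩ := h
  refine ⟨U, c, hU, hc, hU0, hc0, ?_⟩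
  filter_upwards [h1, hT, hS] with y h2 h3 h4
  rw [h2, h3, h4]

/-- the transition functions are holomorphic near every point of the overlap -/
theorem hg_g {A : Atl n M} (L : LB A) {i j : A.ι} {x : M} (hi : x ∈ (A.e i).source)
    (hj : x ∈ (A.e j).source) : HG (fam A) x (L.g i j) := by
  refine ⟨(A.e j).source ∩ (A.e i).source, (A.e j).open_source.inter (A.e i).open_source,
    ⟨hj, hi⟩, fun k => ?_⟩
  exact (L.hol i j).chg (A.e j).open_source k

/-- the form in one frame is the form in every frame -/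
theorem HasForm.frame {A : Atl n M} {L : LB A} {σ : A.ι → M → ℂ} (hσ : IsHS L univ σ)
    {sh : Shape} {T S : M → ℂ} {x : M} {i j : A.ι} (hi : x ∈ (A.e i).source)
    (hj : x ∈ (A.e j).source) (h : HasForm (fam A) sh (σ i) T S x) :
    HasForm (fam A) sh (σ j) T S x := by
  refine h.mul (hg_g L hj hi) (L.ne_zero _ _ _) ?_
  filter_upwards [(A.e i).open_source.mem_nhds hi, (A.e j).open_source.mem_nhds hj] with y h1 h2
  exact hσ.tr j i y ⟨h2, h1⟩ (mem_univ _)

/-- the form in centred coordinates -/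
def CForm (sh : Shape) (φ : Cn 2 → ℂ) : Prop :=
  ∃ U c : Cn 2 → ℂ, AnalyticAt ℂ U 0 ∧ AnalyticAt ℂ c 0 ∧ U 0 ≠ 0 ∧ c 0 ≠ 0 ∧
    ∀ᶠ z in 𝓝 (0 : Cn 2), φ z = U z * sh.F (z 0) (z 1) (c z)

/-- a holomorphic germ read in a compatible chart -/
theorem HG.analyticAt {C : Fam n M} {x : M} {f : M → ℂ} (hf : HG C x f)
    {e : OpenPartialHomeomorph M (Cn n)} (he : Cpt C e) (hx : x ∈ e.source) :
    AnalyticAt ℂ (fun z => f (e.symm z)) (e x) := by
  obtain ⟨U, hU, hxU, h1⟩ := hf
  have ho : IsOpen (e.target ∩ e.symm ⁻¹' U) := e.isOpen_inter_preimage_symm hU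
  refine Crest.Agent.R266.SCV.analyticOnNhd_of_differentiableOn ho ?_ (e x)
    ⟨e.map_source hx, by rw [mem_preimage, e.left_inv hx]; exact hxU⟩
  intro z hz
  obtain ⟨j, hj⟩ := C.cover (e.symm z)
  have h2 := Cpt.diffAt he hz.1 hj
  have h3 : DifferentiableAt ℂ (fun w => f ((C.e j).symm w)) (C.e j (e.symm z)) := by
    refine (h1 j).differentiableAt (((C.e j).isOpen_inter_preimage_symm hU).mem_nhds
      ⟨(C.e j).map_source hj, ?_⟩)
    rw [mem_preimage, (C.e j).left_inv hj]
    exact hz.2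
  have h4 := DifferentiableAt.comp z (g := fun w => f ((C.e j).symm w))
    (f := fun z => C.e j (e.symm z)) h3 h2
  refine (h4.congr_of_eventuallyEq ?_).differentiableWithinAt
  filter_upwards [(e.isOpen_inter_preimage_symm (C.e j).open_source).mem_nhds ⟨hz.1, hj⟩]
    with w hw
  exact (congrArg f ((C.e j).left_inv hw.2)).symm

/-- **the form in the centred coordinates of a chart in which `T`, `S` are multiples of the
coordinates** -/
theorem cform_of_form {M : Type} [TopologicalSpace M] {C : Fam 2 M} {x : M}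
    {sh : Shape} {φ T S : M → ℂ} (h : HasForm C sh φ T S x)
    {e : OpenPartialHomeomorph M (Cn 2)} (he : Cpt C e) (hx : x ∈ e.source) {R : ℂ} (hR : R ≠ 0)
    (hT : ∀ᶠ y in 𝓝 x, T y = R * (e y - e x) 0) (hS : ∀ᶠ y in 𝓝 x, S y = R * (e y - e x) 1) :
    CForm sh fun v => φ (e.symm (e x + v)) := by
  obtain ⟨U, c, hU, hc, hU0, hc0, h1⟩ := h
  have ha : AnalyticAt ℂ (fun v : Cn 2 => e x + v) 0 := by fun_prop
  have h0 : e.symm (e x + 0) = x := by rw [add_zero, e.left_inv hx]
  refine ⟨fun v => sh.su R * U (e.symm (e x + v)), fun v => sh.sc R * c (e.symm (e x + v)),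
    ?_, ?_, ?_, ?_, ?_⟩
  · refine analyticAt_const.mul ?_
    have h2 := HG.analyticAt hU he hx
    exact AnalyticAt.fun_comp (g := fun z => U (e.symm z)) (f := fun v : Cn 2 => e x + v)
      (by rw [add_zero]; exact h2) ha
  · refine analyticAt_const.mul ?_
    have h2 := HG.analyticAt hc he hx
    exact AnalyticAt.fun_comp (g := fun z => c (e.symm z)) (f := fun v : Cn 2 => e x + v)
      (by rw [add_zero]; exact h2) ha
  · simp only [h0]
    exact mul_ne_zero (sh.su_ne hR) hU0
  · simp only [h0]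
    exact mul_ne_zero (sh.sc_ne hR) hc0
  · have ht : Tendsto (fun v : Cn 2 => e.symm (e x + v)) (𝓝 0) (𝓝 x) := by
      have h2 : ContinuousAt e.symm (e x) := e.continuousAt_symm (e.map_source hx)
      have h3 : ContinuousAt (fun v : Cn 2 => e.symm (e x + v)) 0 :=
        ContinuousAt.comp (g := e.symm) (f := fun v : Cn 2 => e x + v)
          (by rw [add_zero]; exact h2) ha.continuousAt
      have h4 := h3.tendsto
      rwa [h0] at h4
    have htt : ∀ᶠ v : Cn 2 in 𝓝 0, e x + v ∈ e.target := by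
      refine ha.continuousAt.eventually (e.open_target.mem_nhds ?_)
      show e x + 0 ∈ e.target
      rw [add_zero]
      exact e.map_source hx
    filter_upwards [ht.eventually h1, ht.eventually hT, ht.eventually hS, htt] with v h2 h3 h4 h5
    rw [h2, h3, h4, e.right_inv h5, add_sub_cancel_left, Shape.F_scale]
    ring

/-! ### all centres -/

/-- a centre: functions `T`, `S` and the local forms of the sections (in one frame) -/
structure Node {M : Type} [TopologicalSpace M] {A : Atl 2 M} {ρ : Type} (P : PD A ρ) (x : M) where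
  T : M → ℂ
  S : M → ℂ
  sh : ρ → Shape
  T0 : T x = 0
  S0 : S x = 0
  crd : Crd A x ![T, S]
  i : A.ι
  hi : x ∈ (A.e i).source
  form : ∀ a, HasForm (fam A) (sh a) (P.s a i) T S x

section NodeCen

variable {M : Type} [TopologicalSpace M] {A : Atl 2 M} {ρ : Type} {P : PD A ρ} {Z : Set M}
  (N : ∀ x : Z, Node P (x : M))

/-- the adapted charts of all centres -/
def nodeCen : Cen A := cenOf A (fun x : Z => (x : M)) (fun x => ![(N x).T, (N x).S])
  (fun x => (N x).crd) (fun _ => univ) (fun _ => univ_mem)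

@[simp] theorem nodeCen_S : (nodeCen N).S = Z := rfl

@[simp] theorem nodeCen_p (s : Z) : (nodeCen N).p s = s := rfl

theorem nodeCen_inj : Function.Injective (nodeCen N).p := Subtype.val_injective

/-- the scaling factor -/
def nodeR (s : Z) : ℂ := ((2 * (nodeCen N).ρ s : ℝ) : ℂ)

theorem nodeR_ne (s : Z) : nodeR N s ≠ 0 := by
  have h : (0 : ℝ) < (nodeCen N).ρ s := (nodeCen N).hρ s
  have h2 : (2 * (nodeCen N).ρ s : ℝ) ≠ 0 := by positivity
  exact Complex.ofReal_ne_zero.2 h2

/-- the functions `T`, `S` in the adapted chart -/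
theorem nodeCen_T (s : Z) {x : M} (hx : x ∈ ((nodeCen N).c s).source) :
    (N s).T x = nodeR N s * ((nodeCen N).adp.e (Sum.inr s) x -
      (nodeCen N).adp.e (Sum.inr s) (s : M)) 0 := by
  have h := cenOf_u A (fun x : Z => (x : M)) (fun x => ![(N x).T, (N x).S])
    (fun x => (N x).crd) (fun _ => univ) (fun _ => univ_mem) s hx 0
  have h1 : (N s).T x = (N s).T (s : M) + nodeR N s * ((nodeCen N).adp.e (Sum.inr s) x -
      (nodeCen N).adp.e (Sum.inr s) (s : M)) 0 := h
  rw [(N s).T0, zero_add] at h1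
  exact h1

theorem nodeCen_S' (s : Z) {x : M} (hx : x ∈ ((nodeCen N).c s).source) :
    (N s).S x = nodeR N s * ((nodeCen N).adp.e (Sum.inr s) x -
      (nodeCen N).adp.e (Sum.inr s) (s : M)) 1 := by
  have h := cenOf_u A (fun x : Z => (x : M)) (fun x => ![(N x).T, (N x).S])
    (fun x => (N x).crd) (fun _ => univ) (fun _ => univ_mem) s hx 1
  have h1 : (N s).S x = (N s).S (s : M) + nodeR N s * ((nodeCen N).adp.e (Sum.inr s) x -
      (nodeCen N).adp.e (Sum.inr s) (s : M)) 1 := h
  rw [(N s).S0, zero_add] at h1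
  exact h1

/-- **the local functions of the sections at every centre in centred coordinates** -/
theorem nodeCen_form [T2Space M] [Finite (nodeCen N).S] {ρ0 : ℝ} (h0 : 0 < ρ0) (h1 : ρ0 ≤ 1)
    (s : Z) (a : ρ) : CForm ((N s).sh a)
      (((nodeCen N).ctr (nodeCen_inj N) h0 h1).phi (((nodeCen N).pd P).s a) s) := by
  set K := nodeCen N with hK
  have hps : (s : M) ∈ (K.c s).source := K.p_mem s
  have hi0 : (s : M) ∈ (A.e (K.i0 s)).source := K.source_sub s hps
  have h2 : HasForm (fam A) ((N s).sh a) (P.s a (K.i0 s)) (N s).T (N s).S (s : M) :=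
    ((N s).form a).frame (P.hs a) (N s).hi hi0
  have h3 := cform_of_form h2 (K.cptc s) hps (nodeR_ne N s) (by
    filter_upwards [(K.c s).open_source.mem_nhds hps] with x hx
    exact nodeCen_T N s hx) (by
    filter_upwards [(K.c s).open_source.mem_nhds hps] with x hx
    exact nodeCen_S' N s hx)
  obtain ⟨U, c, hU, hc, hU0, hc0, h4⟩ := h3
  refine ⟨U, c, hU, hc, hU0, hc0, ?_⟩
  have h5 : ∀ᶠ v : Cn 2 in 𝓝 0, K.c s (s : M) + v ∈ (K.c s).target := by
    have h6 : ContinuousAt (fun v : Cn 2 => K.c s (s : M) + v) 0 := by fun_prop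
    refine h6.eventually ((K.c s).open_target.mem_nhds ?_)
    show K.c s (s : M) + 0 ∈ (K.c s).target
    have h7 := (K.c s).map_source hps
    rwa [← add_zero (K.c s (s : M))] at h7
  filter_upwards [h4, h5] with v h6 h7
  rw [← h6]
  exact K.up_of_mem (i := Sum.inr s) (P.s a) ((K.c s).map_target h7)

end NodeCen

end

end Crest.Agent.R272.Adp_409
private theorem rz_4720cdfde0 : type_of% @_root_.Crest.Agent.R272.Adp_409.Shape.F.eq_1 := @_root_.Crest.Agent.R272.Adp_409.Shape.F.eq_1 -- L113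
private theorem rz_f45e448eeb : type_of% @_root_.Crest.Agent.R272.Adp_409.Shape.sc.eq_1 := @_root_.Crest.Agent.R272.Adp_409.Shape.sc.eq_1 -- L125
private theorem rz_3067d7c113 : type_of% @_root_.Crest.Agent.R272.Adp_409.Shape.su.eq_1 := @_root_.Crest.Agent.R272.Adp_409.Shape.su.eq_1 -- L119
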