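import Crest.Agent.R272.UB1_20
import Crest.Agent.R272.GrDefs_559
import Crest.Agent.R272.GLoc1_620

-- ▼ part R272/UB3_20
section

/-!
# R272, leaf UB-DISC (helper20), part 3: the pillow theorem with one `P¹`-coordinate

`P` is any model of the projective line: a space with `mk : ℂ × ℂ → P` continuous off `0` and
invariant under scaling. `Q` is the space of all the other coordinates, `S ⊆ Q × P` the model.
Over the square `(σ,t)` the remaining coordinates are `g (σ,t)`, the last one is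
`κ² = r² t(1-t)/(1-σ)`, i.e. `κ = [± √(t(1-t)) r : √(1-σ)]`. The two corners `(1,0)`, `(1,1)` are
blown up: over them the whole projective line is in `S`. Then the two arcs over `σ = 0` are homotopic
rel end points in `S`.
-/

set_option autoImplicit false

open Set Topology

namespace Crest.Agent.R272.UB_20

noncomputable section

local notation "I" => unitInterval

universe u v

/-- the closed unit square -/
abbrev sqr : Set (ℝ × ℝ) := Icc 0 1 ×ˢ Icc 0 1

theorem starSet_sub : starSet ⊆ sqr := fun _ h => ⟨⟨h.1.1, h.1.2⟩, ⟨h.2.1.1, h.2.1.2⟩⟩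

variable {Q : Type u} [TopologicalSpace Q] {P : Type v} [TopologicalSpace P]

/-- the homogeneous coordinates of the last coordinate -/
def hom (r : ℝ × ℝ → ℂ) (b : ℂ) (p : ℝ × ℝ) : ℂ × ℂ :=
  (b * (√(p.2 * (1 - p.2)) : ℝ) * r p, ((√(1 - p.1) : ℝ) : ℂ))

theorem hom_ne {r : ℝ × ℝ → ℂ} (hr0 : ∀ p ∈ sqr, r p ≠ 0) {b : ℂ} (hb : b ≠ 0) {p : ℝ × ℝ}
    (hp : p ∈ starSet) : hom r b p ≠ 0 := by
  intro h
  have h1 : b * (√(p.2 * (1 - p.2)) : ℝ) * r p = 0 := congrArg Prod.fst h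
  have h2 : ((√(1 - p.1) : ℝ) : ℂ) = 0 := congrArg Prod.snd h
  have hs : p.1 = 1 := by
    have h3 : √(1 - p.1) = 0 := by exact_mod_cast h2
    rw [Real.sqrt_eq_zero (by linarith [hp.1.2])] at h3
    linarith
  obtain ⟨ht0, ht1⟩ := hp.2.2 hs
  have h4 : (0 : ℝ) < √(p.2 * (1 - p.2)) := Real.sqrt_pos.2 (mul_pos ht0 (by linarith))
  rcases mul_eq_zero.1 h1 with h5 | h5
  · rcases mul_eq_zero.1 h5 with h6 | h6
    · exact hb h6
    · have : √(p.2 * (1 - p.2)) = 0 := by exact_mod_cast h6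
      linarith
  · exact hr0 p (starSet_sub hp) h5

theorem hom_cont {r : ℝ × ℝ → ℂ} (hr : ContinuousOn r sqr) (b : ℂ) : ContinuousOn (hom r b) sqr := by
  refine ContinuousOn.prodMk ?_ ?_
  · refine ContinuousOn.mul ?_ hr
    refine ContinuousOn.mul continuousOn_const ?_
    exact (Complex.continuous_ofReal.comp (by fun_prop :
      Continuous fun p : ℝ × ℝ => √(p.2 * (1 - p.2)))).continuousOn
  · exact (Complex.continuous_ofReal.comp (by fun_prop :
      Continuous fun p : ℝ × ℝ => √(1 - p.1))).continuousOn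

/-- the data of the theorem -/
structure Pil (Q : Type u) [TopologicalSpace Q] (P : Type v) [TopologicalSpace P] where
  /-- homogeneous coordinates -/
  br : ℂ × ℂ → P
  cont_br : ContinuousOn br {0}ᶜ
  scale : ∀ c : ℂ, c ≠ 0 → ∀ p : ℂ × ℂ, p ≠ 0 → br (c • p) = br p
  /-- the model -/
  S : Set (Q × P)
  /-- the other coordinates over the square -/
  g : ℝ × ℝ → Q
  hg : ContinuousOn g sqr
  /-- the unit -/
  r : ℝ × ℝ → ℂ
  hr : ContinuousOn r sqr
  hr0 : ∀ p ∈ sqr, r p ≠ 0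
  mem : ∀ b : ℂ, (b = 1 ∨ b = -1) → ∀ p ∈ starSet, (g p, br (hom r b p)) ∈ S
  mem0 : ∀ k : ℂ × ℂ, k ≠ 0 → (g (1, 0), br k) ∈ S
  mem1 : ∀ k : ℂ × ℂ, k ≠ 0 → (g (1, 1), br k) ∈ S

namespace Pil

variable (D : Pil Q P)

/-- the two maps of the pillow theorem -/
def Psi (b : ℂ) (hb : b = 1 ∨ b = -1) : C(starSet, D.S) where
  toFun p := ⟨(D.g p.1, D.br (hom D.r b p.1)), D.mem b hb p.1 p.2⟩
  continuous_toFun := by
    refine Continuous.subtype_mk ?_ _
    refine Continuous.prodMk ?_ ?_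
    · exact (D.hg.mono starSet_sub).domRestrict
    · have hb0 : b ≠ 0 := by
        rcases hb with rfl | rfl
        · exact one_ne_zero
        · exact neg_ne_zero.2 one_ne_zero
      have h1 : ContinuousOn (fun p => D.br (hom D.r b p)) starSet :=
        D.cont_br.comp ((hom_cont D.hr b).mono starSet_sub)
          (fun p hp => hom_ne D.hr0 hb0 hp)
      exact h1.domRestrict

/-- the flipped data -/
def flipD : Pil Q P where
  br := D.br
  cont_br := D.cont_br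
  scale := D.scale
  S := D.S
  g := fun p => D.g (p.1, 1 - p.2)
  hg := D.hg.comp (by fun_prop) (fun p hp => ⟨hp.1, ⟨by linarith [hp.2.2], by linarith [hp.2.1]⟩⟩)
  r := fun p => D.r (p.1, 1 - p.2)
  hr := D.hr.comp (by fun_prop) (fun p hp => ⟨hp.1, ⟨by linarith [hp.2.2], by linarith [hp.2.1]⟩⟩)
  hr0 := fun p hp => D.hr0 _ ⟨hp.1, ⟨by linarith [hp.2.2], by linarith [hp.2.1]⟩⟩
  mem := fun b hb p hp => by
    have h := D.mem b hb (p.1, 1 - p.2) (flip ⟨p, hp⟩).2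
    have e : hom D.r b (p.1, 1 - p.2) = hom (fun p => D.r (p.1, 1 - p.2)) b p := by
      unfold hom
      simp only
      rw [show (1 - p.2) * (1 - (1 - p.2)) = p.2 * (1 - p.2) by ring]
    rw [e] at h
    exact h
  mem0 := fun k hk => by
    have := D.mem1 k hk
    simpa using this
  mem1 := fun k hk => by
    have := D.mem0 k hk
    simpa using this

theorem flip_Psi (b : ℂ) (hb : b = 1 ∨ b = -1) : (D.Psi b hb).comp flip = D.flipD.Psi b hb := by
  ext p : 1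
  apply Subtype.ext
  show (D.g (p.1.1, 1 - p.1.2), D.br (hom D.r b (p.1.1, 1 - p.1.2))) =
    (D.g (p.1.1, 1 - p.1.2), D.br (hom (fun p => D.r (p.1, 1 - p.2)) b p.1))
  unfold hom
  simp only
  rw [show (1 - p.1.2) * (1 - (1 - p.1.2)) = p.1.2 * (1 - p.1.2) by ring]

theorem cornerP : HR ((cut0 (1 / 2) (by norm_num) (by norm_num)).map
      (D.Psi 1 (Or.inl rfl)).continuous)
    ((cut0 (1 / 2) (by norm_num) (by norm_num)).map (D.Psi (-1) (Or.inr rfl)).continuous) := by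
  let pt : I × I → ℝ × ℝ := fun x =>
    (1 - (1 - (x.1 : ℝ)) * (1 / 2) * (1 - x.2), (1 - (x.1 : ℝ)) * (1 / 2) * x.2)
  have hpc : Continuous pt := by fun_prop
  have hpm : ∀ x, pt x ∈ sqr := by
    intro x
    have a1 := x.1.2.1
    have a2 := x.1.2.2
    have b1 := x.2.2.1
    have b2 := x.2.2.2
    have e0 : 0 ≤ (1 - (x.1 : ℝ)) * (1 / 2) := mul_nonneg (by linarith) (by norm_num)
    have e1 : (1 - (x.1 : ℝ)) * (1 / 2) ≤ 1 := by nlinarith
    refine ⟨⟨?_, ?_⟩, ?_, ?_⟩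
    · show 0 ≤ 1 - (1 - (x.1 : ℝ)) * (1 / 2) * (1 - x.2)
      nlinarith
    · show 1 - (1 - (x.1 : ℝ)) * (1 / 2) * (1 - x.2) ≤ 1
      nlinarith [mul_nonneg e0 (by linarith : (0:ℝ) ≤ 1 - x.2)]
    · show 0 ≤ (1 - (x.1 : ℝ)) * (1 / 2) * x.2
      exact mul_nonneg e0 b1
    · show (1 - (x.1 : ℝ)) * (1 / 2) * x.2 ≤ 1
      nlinarith
  have hp1 : ∀ θ : I, pt (1, θ) = (1, 0) := by
    intro θ
    simp [pt]
  have hgc : Continuous fun x => D.g (pt x) := D.hg.comp_continuous hpc hpm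
  have hrc : Continuous fun x => D.r (pt x) := D.hr.comp_continuous hpc hpm
  have hps : ∀ s θ : I, (s : ℝ) < 1 → pt (s, θ) ∈ starSet := by
    intro s θ hs
    obtain ⟨⟨m1, m2⟩, m3, m4⟩ := hpm (s, θ)
    have t1 := θ.2.1
    have t2 := θ.2.2
    have s1 := s.2.1
    have hpos : 0 < (1 - (s : ℝ)) * (1 / 2) := mul_pos (by linarith) (by norm_num)
    refine ⟨⟨m1, m2⟩, ⟨m3, m4⟩, fun h => ?_⟩
    have h' : 1 - (1 - (s : ℝ)) * (1 / 2) * (1 - θ) = 1 := h
    have : (θ : ℝ) = 1 := by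
      by_contra hne
      have h2 : 0 < 1 - (θ : ℝ) := by
        have := lt_of_le_of_ne t2 hne
        linarith
      have := mul_pos hpos h2
      linarith
    show 0 < (1 - (s : ℝ)) * (1 / 2) * θ ∧ (1 - (s : ℝ)) * (1 / 2) * θ < 1
    rw [this]
    constructor
    · linarith
    · nlinarith
  have hs_cases : ∀ s : I, (s : ℝ) < 1 ∨ s = 1 := by
    intro s
    rcases lt_or_eq_of_le s.2.2 with h | h
    · exact Or.inl h
    · exact Or.inr (Subtype.ext h)
  -- homogeneous coordinates of the square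
  let hc : ℂ → I × I → ℂ × ℂ := fun b x =>
    (b * (√((x.2 : ℝ) * (1 - (pt x).2)) : ℝ) * D.r (pt x), ((√(1 - (x.2 : ℝ)) : ℝ) : ℂ))
  have hcne : ∀ b : ℂ, b ≠ 0 → ∀ x, hc b x ≠ 0 := by
    intro b hb x h
    have h1 : b * (√((x.2 : ℝ) * (1 - (pt x).2)) : ℝ) * D.r (pt x) = 0 := congrArg Prod.fst h
    have h2 : ((√(1 - (x.2 : ℝ)) : ℝ) : ℂ) = 0 := congrArg Prod.snd h
    have h3 : √(1 - (x.2 : ℝ)) = 0 := by exact_mod_cast h2
    rw [Real.sqrt_eq_zero (by linarith [x.2.2.2])] at h3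
    have h4 : (x.2 : ℝ) = 1 := by linarith
    have h5 : (pt x).2 < 1 := by
      show (1 - (x.1 : ℝ)) * (1 / 2) * x.2 < 1
      have := x.1.2.1
      rw [h4]
      linarith
    have h6 : 0 < √((x.2 : ℝ) * (1 - (pt x).2)) := by
      refine Real.sqrt_pos.2 ?_
      rw [h4]
      linarith
    rcases mul_eq_zero.1 h1 with h7 | h7
    · rcases mul_eq_zero.1 h7 with h8 | h8
      · exact hb h8
      · have : √((x.2 : ℝ) * (1 - (pt x).2)) = 0 := by exact_mod_cast h8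
        linarith
    · exact D.hr0 _ (hpm x) h7
  have hcc : ∀ b : ℂ, Continuous (hc b) := by
    intro b
    refine Continuous.prodMk ?_ ?_
    · refine Continuous.mul (continuous_const.mul ?_) hrc
      exact Complex.continuous_ofReal.comp (by fun_prop)
    · exact Complex.continuous_ofReal.comp (by fun_prop)
  have hscale : ∀ (b : ℂ), b ≠ 0 → ∀ s θ : I, (s : ℝ) < 1 →
      D.br (hom D.r b (pt (s, θ))) = D.br (hc b (s, θ)) := by
    intro b hb s θ hs
    have hpos : 0 < (1 - (s : ℝ)) * (1 / 2) := mul_pos (by linarith) (by norm_num)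
    have hc0 : ((√((1 - (s : ℝ)) * (1 / 2)) : ℝ) : ℂ) ≠ 0 :=
      Complex.ofReal_ne_zero.2 (Real.sqrt_ne_zero'.2 hpos)
    rw [← D.scale _ hc0 _ (hcne b hb (s, θ))]
    congr 1
    refine Prod.ext ?_ ?_
    · show b * (√((pt (s, θ)).2 * (1 - (pt (s, θ)).2)) : ℝ) * D.r (pt (s, θ)) =
        ((√((1 - (s : ℝ)) * (1 / 2)) : ℝ) : ℂ) *
          (b * (√((θ : ℝ) * (1 - (pt (s, θ)).2)) : ℝ) * D.r (pt (s, θ)))
      have e : √((pt (s, θ)).2 * (1 - (pt (s, θ)).2)) =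
          √((1 - (s : ℝ)) * (1 / 2)) * √((θ : ℝ) * (1 - (pt (s, θ)).2)) := by
        rw [← Real.sqrt_mul hpos.le]
        congr 1
        show (1 - (s : ℝ)) * (1 / 2) * θ * (1 - (pt (s, θ)).2) = _
        ring
      rw [e, Complex.ofReal_mul]
      ring
    · show ((√(1 - (pt (s, θ)).1) : ℝ) : ℂ) =
        ((√((1 - (s : ℝ)) * (1 / 2)) : ℝ) : ℂ) * ((√(1 - (θ : ℝ)) : ℝ) : ℂ)
      rw [← Complex.ofReal_mul, ← Real.sqrt_mul hpos.le]
      congr 2
      show 1 - (1 - (1 - (s : ℝ)) * (1 / 2) * (1 - θ)) = _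
      ring
  have hmemH : ∀ (b : ℂ), (b = 1 ∨ b = -1) → ∀ x : I × I,
      (D.g (pt x), D.br (hc b x)) ∈ D.S := by
    rintro b hb ⟨s, θ⟩
    have hb0 : b ≠ 0 := by
      rcases hb with rfl | rfl
      · exact one_ne_zero
      · exact neg_ne_zero.2 one_ne_zero
    rcases hs_cases s with hs | rfl
    · rw [← hscale b hb0 s θ hs]
      exact D.mem b hb _ (hps s θ hs)
    · rw [hp1]
      exact D.mem0 _ (hcne b hb0 _)
  let H : ∀ (b : ℂ), (b = 1 ∨ b = -1) → C(I × I, D.S) := fun b hb =>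
    ⟨fun x => ⟨(D.g (pt x), D.br (hc b x)), hmemH b hb x⟩, by
      have hb0 : b ≠ 0 := by
        rcases hb with rfl | rfl
        · exact one_ne_zero
        · exact neg_ne_zero.2 one_ne_zero
      refine Continuous.subtype_mk ?_ _
      refine Continuous.prodMk hgc ?_
      exact D.cont_br.comp_continuous (hcc b) (hcne b hb0)⟩
  have hbot : ∀ (b : ℂ) (hb : b = 1 ∨ b = -1) (θ : I),
      ((cut0 (1 / 2) (by norm_num) (by norm_num)).map (D.Psi b hb).continuous) θ =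
        H b hb (0, θ) := by
    intro b hb θ
    have hb0 : b ≠ 0 := by
      rcases hb with rfl | rfl
      · exact one_ne_zero
      · exact neg_ne_zero.2 one_ne_zero
    have e0 : ((cut0 (1 / 2) (by norm_num) (by norm_num) θ : starSet) : ℝ × ℝ) = pt (0, θ) := by
      rw [cut0_apply]
      simp [pt]
    apply Subtype.ext
    show (D.g ((cut0 (1 / 2) (by norm_num) (by norm_num) θ : starSet) : ℝ × ℝ),
      D.br (hom D.r b ((cut0 (1 / 2) (by norm_num) (by norm_num) θ : starSet) : ℝ × ℝ))) =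
        (D.g (pt (0, θ)), D.br (hc b (0, θ)))
    rw [e0, hscale b hb0 0 θ (by simp)]
  let q₁ : Path (H 1 (Or.inl rfl) (1, 0)) (H 1 (Or.inl rfl) (1, 1)) :=
    ⟨⟨fun θ => H 1 (Or.inl rfl) (1, θ), by fun_prop⟩, rfl, rfl⟩
  let q₂ : Path (H (-1) (Or.inr rfl) (1, 0)) (H (-1) (Or.inr rfl) (1, 1)) :=
    ⟨⟨fun θ => H (-1) (Or.inr rfl) (1, θ), by fun_prop⟩, rfl, rfl⟩
  have hmk0 : ∀ (b : ℂ) (s : I), hc b (s, 0) = (0, 1) := by
    intro b s
    show ((b * (√(((0 : I) : ℝ) * (1 - (pt (s, 0)).2)) : ℝ) * D.r (pt (s, 0)),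
      ((√(1 - ((0 : I) : ℝ)) : ℝ) : ℂ)) : ℂ × ℂ) = (0, 1)
    simp
  have hmk1 : ∀ (b : ℂ), b ≠ 0 → ∀ (s : I), D.br (hc b (s, 1)) = D.br (1, 0) := by
    intro b hb s
    have h1 := hcne b hb (s, 1)
    have e : hc b (s, 1) = (b * (√(((1 : I) : ℝ) * (1 - (pt (s, 1)).2)) : ℝ) * D.r (pt (s, 1))) •
        ((1, 0) : ℂ × ℂ) := by
      show ((b * (√(((1 : I) : ℝ) * (1 - (pt (s, 1)).2)) : ℝ) * D.r (pt (s, 1)),
        ((√(1 - ((1 : I) : ℝ)) : ℝ) : ℂ)) : ℂ × ℂ) = _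
      simp
    have h2 : b * (√(((1 : I) : ℝ) * (1 - (pt (s, 1)).2)) : ℝ) * D.r (pt (s, 1)) ≠ 0 := by
      intro h0
      rw [h0, zero_smul] at e
      exact h1 e
    rw [e]
    exact D.scale _ h2 _ (by
      intro h
      have := congrArg Prod.fst h
      simp at this)
  refine slide (H 1 (Or.inl rfl)) (H (-1) (Or.inr rfl)) ?_ ?_ _ _ q₁ q₂ (hbot 1 _) (hbot (-1) _)
    (fun _ => rfl) (fun _ => rfl) ?_
  · intro s
    apply Subtype.ext
    show (D.g (pt (s, 0)), D.br (hc 1 (s, 0))) = (D.g (pt (s, 0)), D.br (hc (-1) (s, 0)))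
    rw [hmk0, hmk0]
  · intro s
    apply Subtype.ext
    show (D.g (pt (s, 1)), D.br (hc 1 (s, 1))) = (D.g (pt (s, 1)), D.br (hc (-1) (s, 1)))
    rw [hmk1 1 one_ne_zero, hmk1 (-1) (neg_ne_zero.2 one_ne_zero)]
  · -- rotation in the fibre over the corner
    let E : ℝ → ℂ := fun φ => Complex.exp (φ * (Real.pi * Complex.I))
    have hE0 : ∀ φ, E φ ≠ 0 := fun φ => Complex.exp_ne_zero _
    have hEc : Continuous E := by
      show Continuous fun φ : ℝ => Complex.exp (φ * (Real.pi * Complex.I))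
      fun_prop
    let kc : I × I → ℂ × ℂ := fun x => hc (E x.1) (1, x.2)
    have hkc : Continuous kc := by
      show Continuous fun x : I × I =>
        (E x.1 * (√((x.2 : ℝ) * (1 - (pt (1, x.2)).2)) : ℝ) * D.r (pt (1, x.2)),
          ((√(1 - (x.2 : ℝ)) : ℝ) : ℂ))
      have h1 : Continuous fun x : I × I => D.r (pt (1, x.2)) :=
        hrc.comp (by fun_prop : Continuous fun x : I × I => ((1 : I), x.2))
      have h2 : Continuous fun x : I × I => E x.1 := hEc.comp (by fun_prop)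
      refine Continuous.prodMk ?_ ?_
      · refine Continuous.mul (h2.mul ?_) h1
        exact Complex.continuous_ofReal.comp (by fun_prop)
      · exact Complex.continuous_ofReal.comp (by fun_prop)
    have hkm : ∀ x : I × I, (D.g (1, 0), D.br (kc x)) ∈ D.S := fun x =>
      D.mem0 _ (hcne _ (hE0 _) _)
    let K : C(I × I, D.S) := ⟨fun x => ⟨(D.g (1, 0), D.br (kc x)), hkm x⟩, by
      refine Continuous.subtype_mk ?_ _
      refine Continuous.prodMk continuous_const ?_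
      exact D.cont_br.comp_continuous hkc (fun x => hcne _ (hE0 _) _)⟩
    have hE00 : E 0 = 1 := by simp [E]
    have hE01 : E 1 = -1 := by simp [E, Complex.exp_pi_mul_I]
    refine ⟨⟨⟨K, ?_, ?_⟩, ?_⟩⟩
    · intro θ
      apply Subtype.ext
      show (D.g (1, 0), D.br (hc (E ((0 : I) : ℝ)) (1, θ))) =
        (D.g (pt (1, θ)), D.br (hc 1 (1, θ)))
      rw [hp1, Icc.coe_zero, hE00]
    · intro θ
      apply Subtype.ext
      show (D.g (1, 0), D.br (hc (E ((1 : I) : ℝ)) (1, θ))) =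
        (D.g (pt (1, θ)), D.br (hc (-1) (1, θ)))
      rw [hp1, Icc.coe_one, hE01]
    · rintro φ θ (rfl | rfl)
      · apply Subtype.ext
        show (D.g (1, 0), D.br (hc (E (φ : ℝ)) (1, 0))) =
          (D.g (pt (1, 0)), D.br (hc 1 (1, 0)))
        rw [hp1, hmk0, hmk0]
      · apply Subtype.ext
        show (D.g (1, 0), D.br (hc (E (φ : ℝ)) (1, 1))) =
          (D.g (pt (1, 1)), D.br (hc 1 (1, 1)))
        rw [hp1, hmk1 _ (hE0 _), hmk1 1 one_ne_zero]

/-- **pillow theorem with a `P¹`-coordinate** -/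
theorem pillowP : HR (sideA.map (D.Psi 1 (Or.inl rfl)).continuous)
    (sideA.map (D.Psi (-1) (Or.inr rfl)).continuous) := by
  have c1 := D.flipD.cornerP
  rw [← flip_Psi, ← flip_Psi] at c1
  refine pillow (D.Psi 1 (Or.inl rfl)) (D.Psi (-1) (Or.inr rfl)) ?_ ?_ ?_
    (by norm_num : (0 : ℝ) < 1 / 2) (by norm_num) (by norm_num : (0 : ℝ) < 1 / 2) (by norm_num)
    D.cornerP (corner1_of_corner0 _ _ _ _ c1)
  · intro p hp
    apply Subtype.ext
    show (D.g p.1, D.br (hom D.r 1 p.1)) = (D.g p.1, D.br (hom D.r (-1) p.1))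
    unfold hom
    rw [hp]
    simp
  · intro p hp
    apply Subtype.ext
    show (D.g p.1, D.br (hom D.r 1 p.1)) = (D.g p.1, D.br (hom D.r (-1) p.1))
    unfold hom
    rw [hp]
    simp
  · intro p hp
    apply Subtype.ext
    show (D.g p.1, D.br (hom D.r 1 p.1)) = (D.g p.1, D.br (hom D.r (-1) p.1))
    have hne : hom D.r 1 p.1 ≠ 0 := hom_ne D.hr0 one_ne_zero p.2
    have e : hom D.r (-1) p.1 = (-1 : ℂ) • hom D.r 1 p.1 := by
      unfold hom
      rw [hp]
      simp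
    rw [e, D.scale _ (neg_ne_zero.2 one_ne_zero) _ hne]

end Pil

end

end Crest.Agent.R272.UB_20
end

-- ▼ part R272/UB4_20
section

/-!
# R272, leaf UB-DISC (helper20), part 4: the discs in 559's model `X1`

`D : GData F` on a base `N`. Over a square `z : [0,1]² → N` with `f0 z = σ A0`, `x_i z = σ A_i`,
`P_1 z = σ³ BP`, `Q_1 z = σ³ BQ` (colour `1`), and for colour `0`: `P_0 z = σ³ t(1-t) AP`,
`Q_0 z = σ³ (1-σ) AQ` (`sw = false`) or `P_0 z = σ³ (1-σ) AP`, `Q_0 z = σ³ t(1-t) AQ` (`sw = true`),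
the two arcs over `σ = 0` are homotopic rel end points in `X1`.
-/

set_option autoImplicit false

open Set Filter Topology OnePoint

namespace Crest.Agent.R272.UB_20

open Crest.Agent.R272.Gr_559 Crest.Agent.R273.Fam_835 Crest.Agent.R272.Gr_559.GData

noncomputable section

local notation "I" => unitInterval

universe u

/-- the point `[a : b]` of the projective line -/
def br (p : ℂ × ℂ) : P1 := if p.2 = 0 then ∞ else ((p.1 / p.2 : ℂ) : OnePoint ℂ)

theorem br_of_ne {a b : ℂ} (h : b ≠ 0) : br (a, b) = ((a / b : ℂ) : OnePoint ℂ) := if_neg h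

theorem br_zero (a : ℂ) : br (a, 0) = ∞ := if_pos rfl

theorem br_scale (c : ℂ) (hc : c ≠ 0) (p : ℂ × ℂ) : br (c • p) = br p := by
  obtain ⟨a, b⟩ := p
  have e : c • ((a, b) : ℂ × ℂ) = (c * a, c * b) := rfl
  rw [e]
  rcases eq_or_ne b 0 with rfl | hb
  · rw [mul_zero, br_zero, br_zero]
  · rw [br_of_ne (mul_ne_zero hc hb), br_of_ne hb, mul_div_mul_left _ _ hc]

theorem br_cont : ContinuousOn br {0}ᶜ := by
  rintro ⟨a, b⟩ hp
  refine ContinuousAt.continuousWithinAt ?_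
  rcases eq_or_ne b 0 with rfl | hb
  · -- at infinity
    have ha : a ≠ 0 := by
      rintro rfl
      exact hp rfl
    rw [ContinuousAt, br_zero]
    intro s hs
    rw [OnePoint.nhds_infty_eq] at hs
    obtain ⟨hs1, hs2⟩ := hs
    have hs1' : (↑) ⁻¹' s ∈ coclosedCompact ℂ := hs1
    have hs2' : (∞ : OnePoint ℂ) ∈ s := hs2
    rw [coclosedCompact_eq_cocompact, ← Metric.cobounded_eq_cocompact] at hs1'
    have ht : Tendsto (fun p : ℂ × ℂ => p.1 / p.2) (𝓝[{p | p.2 ≠ 0}] (a, 0))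
        (Bornology.cobounded ℂ) := by
      have h1 : Tendsto (fun p : ℂ × ℂ => p.2⁻¹) (𝓝[{p | p.2 ≠ 0}] (a, 0))
          (Bornology.cobounded ℂ) := by
        refine Filter.tendsto_inv₀_nhdsNE_zero.comp ?_
        refine tendsto_nhdsWithin_iff.2 ⟨?_, ?_⟩
        · exact (continuous_snd.tendsto ((a, 0) : ℂ × ℂ)).mono_left nhdsWithin_le_nhds
        · exact eventually_mem_nhdsWithin
      have h2 : Tendsto (fun p : ℂ × ℂ => p.1) (𝓝[{p | p.2 ≠ 0}] (a, 0)) (𝓝 a) :=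
        (continuous_fst.tendsto ((a, 0) : ℂ × ℂ)).mono_left nhdsWithin_le_nhds
      have h3 : Tendsto (fun p : ℂ × ℂ => ‖p.1 / p.2‖) (𝓝[{p | p.2 ≠ 0}] (a, 0)) atTop := by
        have h4 : Tendsto (fun p : ℂ × ℂ => ‖p.1‖ * ‖p.2⁻¹‖) (𝓝[{p | p.2 ≠ 0}] (a, 0)) atTop :=
          Tendsto.pos_mul_atTop (norm_pos_iff.2 ha) h2.norm (tendsto_norm_cobounded_atTop.comp h1)
        refine h4.congr (fun p => ?_)
        rw [div_eq_mul_inv, norm_mul]
      exact tendsto_norm_atTop_iff_cobounded.1 h3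
    have h5 : ∀ᶠ p in 𝓝[{p : ℂ × ℂ | p.2 ≠ 0}] (a, 0), ((p.1 / p.2 : ℂ) : OnePoint ℂ) ∈ s :=
      ht hs1'
    rw [eventually_nhdsWithin_iff] at h5
    show ∀ᶠ p in 𝓝 (a, 0), br p ∈ s
    filter_upwards [h5] with p hp5
    by_cases h0 : p.2 = 0
    · have : br p = ∞ := if_pos h0
      rw [this]
      exact hs2'
    · have : br p = ((p.1 / p.2 : ℂ) : OnePoint ℂ) := if_neg h0
      rw [this]
      exact hp5 h0
  · have h1 : ∀ᶠ p : ℂ × ℂ in 𝓝 (a, b), br p = ((p.1 / p.2 : ℂ) : OnePoint ℂ) := by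
      have : ∀ᶠ p : ℂ × ℂ in 𝓝 (a, b), p.2 ≠ 0 := continuous_snd.continuousAt.eventually_ne hb
      filter_upwards [this] with p h0
      exact if_neg h0
    have h2 : ContinuousAt (fun p : ℂ × ℂ => ((p.1 / p.2 : ℂ) : OnePoint ℂ)) (a, b) := by
      refine OnePoint.continuous_coe.continuousAt.comp ?_
      exact continuousAt_fst.div continuousAt_snd hb
    exact h2.congr (h1.mono fun p hp => hp.symm)


theorem br_eq_mk (p : ℂ × ℂ) : br p = P1.mk p.1 p.2 := rfl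

theorem br_rel {p : ℂ × ℂ} (hp : p ≠ 0) : p.1 * P1.d (br p) = p.2 * P1.n (br p) := by
  rw [br_eq_mk]
  refine P1.rel_mk ?_
  rintro ⟨h1, h2⟩
  exact hp (Prod.ext h1 h2)

/-- the last coordinate, with the roles of `P` and `Q` exchanged if `sw` -/
def brs (sw : Bool) (p : ℂ × ℂ) : P1 := if sw then br (p.2, p.1) else br p

theorem brs_scale (sw : Bool) (c : ℂ) (hc : c ≠ 0) (p : ℂ × ℂ) : brs sw (c • p) = brs sw p := by
  cases sw
  · exact br_scale c hc p
  · exact br_scale c hc (p.2, p.1)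

theorem brs_cont (sw : Bool) : ContinuousOn (brs sw) {0}ᶜ := by
  cases sw
  · exact br_cont
  · have h : ContinuousOn (fun p : ℂ × ℂ => br (p.2, p.1)) {0}ᶜ := by
      refine br_cont.comp (by fun_prop) ?_
      rintro ⟨a, b⟩ hp h0
      apply hp
      have h1 : (b, a) = ((0 : ℂ), (0 : ℂ)) := h0
      have h2 : b = 0 := congrArg Prod.fst h1
      have h3 : a = 0 := congrArg Prod.snd h1
      rw [h2, h3]
      rfl
    exact h

variable {m : ℕ} {N : Type} [TopologicalSpace N] {F : Fam 3 N}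

/-- a square over the base adapted to a pair of planes and a bridge -/
structure SqD (D : GData F) (sw : Bool) where
  z : ℝ × ℝ → N
  hz : ContinuousOn z sqr
  A0 : ℝ × ℝ → ℂ
  A : Fin 2 → ℝ × ℝ → ℂ
  AP : ℝ × ℝ → ℂ
  AQ : ℝ × ℝ → ℂ
  /-- root of `AP / AQ` (or its inverse) -/
  r : ℝ × ℝ → ℂ
  /-- root of `P_1 / Q_1` -/
  rB : ℝ × ℝ → ℂ
  BQ : ℝ × ℝ → ℂ
  cA0 : ContinuousOn A0 sqr
  cA : ∀ i, ContinuousOn (A i) sqr
  cr : ContinuousOn r sqr
  crB : ContinuousOn rB sqr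
  nA0 : ∀ p ∈ sqr, A0 p ≠ 0
  nr : ∀ p ∈ sqr, r p ≠ 0
  ef : ∀ p ∈ sqr, D.f0 (z p) = p.1 * A0 p
  ex : ∀ i, ∀ p ∈ sqr, D.x i (z p) = p.1 * A i p
  eP : ∀ p ∈ sqr, (if sw then D.Q else D.P) 0 (z p) = p.1 ^ 3 * (p.2 * (1 - p.2)) * AP p
  eQ : ∀ p ∈ sqr, (if sw then D.P else D.Q) 0 (z p) = p.1 ^ 3 * (1 - p.1) * AQ p
  er : ∀ p ∈ sqr, r p ^ 2 * AQ p = AP p
  eQ1 : ∀ p ∈ sqr, D.Q 1 (z p) = p.1 ^ 3 * BQ p
  eP1 : ∀ p ∈ sqr, D.P 1 (z p) = p.1 ^ 3 * (rB p ^ 2 * BQ p)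

namespace SqD

variable {D : GData F} {sw : Bool} (S : SqD D sw)

/-- the coordinates `t` -/
def tc (p : ℝ × ℝ) : Fin 2 → P1 := fun i => ((S.A i p / S.A0 p : ℂ) : P1)

/-- the coordinate `v` -/
def vc (p : ℝ × ℝ) : P1 := ((p.1 * S.A 0 p * S.A 1 p / S.A0 p : ℂ) : P1)

/-- all coordinates -/
def pt (p : ℝ × ℝ) (k0 : P1) : Amb N :=
  (S.z p, S.tc p, S.vc p, ![k0, ((S.rB p : ℂ) : P1)])

theorem tc_cont : ContinuousOn S.tc sqr := by
  rw [continuousOn_pi]
  intro i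
  exact OnePoint.continuous_coe.comp_continuousOn ((S.cA i).div S.cA0 S.nA0)

theorem vc_cont : ContinuousOn S.vc sqr := by
  refine OnePoint.continuous_coe.comp_continuousOn ?_
  refine ContinuousOn.div ?_ S.cA0 S.nA0
  refine ContinuousOn.mul (ContinuousOn.mul ?_ (S.cA 0)) (S.cA 1)
  exact (Complex.continuous_ofReal.comp continuous_fst).continuousOn

theorem ofReal_ne {x : ℝ} (h : 0 < x) : (x : ℂ) ≠ 0 := Complex.ofReal_ne_zero.2 h.ne'

/-- the relation for the last coordinate -/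
theorem rel_k {p : ℝ × ℝ} (hp : p ∈ sqr) {k : ℂ × ℂ} (hk : k ≠ 0)
    (hk2 : k.1 ^ 2 * (1 - p.1 : ℝ) = k.2 ^ 2 * ((p.2 * (1 - p.2) : ℝ) * S.r p ^ 2)) :
    P1.n (brs sw k) ^ 2 * D.Q 0 (S.z p) = P1.d (brs sw k) ^ 2 * D.P 0 (S.z p) := by
  have eP := S.eP p hp
  have eQ := S.eQ p hp
  have er := S.er p hp
  cases sw
  · have eP' : D.P 0 (S.z p) = p.1 ^ 3 * (p.2 * (1 - p.2)) * S.AP p := eP
    have eQ' : D.Q 0 (S.z p) = p.1 ^ 3 * (1 - p.1) * S.AQ p := eQ
    have h1 := br_rel hk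
    show P1.n (br k) ^ 2 * D.Q 0 (S.z p) = P1.d (br k) ^ 2 * D.P 0 (S.z p)
    rw [eP', eQ', ← er]
    push_cast at hk2
    rcases eq_or_ne k.2 0 with h2 | h2
    · have h3 : k.1 ≠ 0 := fun h => hk (Prod.ext h h2)
      rw [h2, zero_mul] at h1
      have h4 : P1.d (br k) = 0 := (mul_eq_zero.1 h1).resolve_left h3
      have h5 : (1 - (p.1 : ℂ)) = 0 := by
        rw [h2] at hk2
        have : k.1 ^ 2 * (1 - (p.1 : ℂ)) = 0 := by rw [hk2]; ring
        exact (mul_eq_zero.1 this).resolve_left (pow_ne_zero 2 h3)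
      rw [h4, h5]
      ring
    · have h6 : P1.n (br k) = k.1 / k.2 * P1.d (br k) := by
        field_simp
        linear_combination -h1
      rw [h6]
      field_simp
      linear_combination (P1.d (br k) ^ 2 * (p.1 : ℂ) ^ 3 * S.AQ p) * hk2
  · have eP' : D.Q 0 (S.z p) = p.1 ^ 3 * (p.2 * (1 - p.2)) * S.AP p := eP
    have eQ' : D.P 0 (S.z p) = p.1 ^ 3 * (1 - p.1) * S.AQ p := eQ
    have hk' : ((k.2, k.1) : ℂ × ℂ) ≠ 0 := by
      intro h
      have g1 : k.2 = 0 := congrArg Prod.fst h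
      have g2 : k.1 = 0 := congrArg Prod.snd h
      exact hk (Prod.ext g2 g1)
    have h1 := br_rel hk'
    show P1.n (br (k.2, k.1)) ^ 2 * D.Q 0 (S.z p) = P1.d (br (k.2, k.1)) ^ 2 * D.P 0 (S.z p)
    rw [eP', eQ', ← er]
    simp only at h1
    push_cast at hk2
    rcases eq_or_ne k.2 0 with h2 | h2
    · have h3 : k.1 ≠ 0 := fun h => hk (Prod.ext h h2)
      rw [h2, zero_mul] at h1
      have h4 : P1.n (br (k.2, k.1)) = 0 := by
        rw [h2]
        exact (mul_eq_zero.1 h1.symm).resolve_left h3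
      have h5 : (1 - (p.1 : ℂ)) = 0 := by
        rw [h2] at hk2
        have : k.1 ^ 2 * (1 - (p.1 : ℂ)) = 0 := by rw [hk2]; ring
        exact (mul_eq_zero.1 this).resolve_left (pow_ne_zero 2 h3)
      rw [h4, h5]
      ring
    · have h6 : P1.d (br (k.2, k.1)) = k.1 / k.2 * P1.n (br (k.2, k.1)) := by
        field_simp
        linear_combination h1
      rw [h6]
      field_simp
      linear_combination (-P1.n (br (k.2, k.1)) ^ 2 * (p.1 : ℂ) ^ 3 * S.AQ p) * hk2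

/-- membership in the graphs for `σ > 0` -/
theorem mem_pos {p : ℝ × ℝ} (hp : p ∈ sqr) (h0 : 0 < p.1) {k : ℂ × ℂ} (hk : k ≠ 0)
    (hk2 : k.1 ^ 2 * (1 - p.1 : ℝ) = k.2 ^ 2 * ((p.2 * (1 - p.2) : ℝ) * S.r p ^ 2)) :
    ∀ i, ((S.pt p (brs sw k)).1, (S.pt p (brs sw k)).2.1 i, (S.pt p (brs sw k)).2.2.2 i) ∈
      D.G i := by
  have hf : D.f0 (S.z p) ≠ 0 := by
    rw [S.ef p hp]
    exact mul_ne_zero (ofReal_ne h0) (S.nA0 p hp)
  intro i
  refine ⟨fun h => hf h.1, ?_, ?_⟩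
  · show D.x i (S.z p) * P1.d (((S.A i p / S.A0 p : ℂ) : P1)) =
      D.f0 (S.z p) * P1.n (((S.A i p / S.A0 p : ℂ) : P1))
    rw [P1.d_coe, P1.n_coe, S.ef p hp, S.ex i p hp]
    have := S.nA0 p hp
    field_simp
  · fin_cases i
    · exact S.rel_k hp hk hk2
    · show P1.n (((S.rB p : ℂ) : P1)) ^ 2 * D.Q 1 (S.z p) =
        P1.d (((S.rB p : ℂ) : P1)) ^ 2 * D.P 1 (S.z p)
      rw [P1.d_coe, P1.n_coe, S.eQ1 p hp, S.eP1 p hp]
      ring

/-- the relations with `v` -/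
theorem rel_v {p : ℝ × ℝ} (hp : p ∈ sqr) :
    P1.n (S.vc p) * P1.d (S.tc p 0) = P1.d (S.vc p) * P1.n (S.tc p 0) * D.x 1 (S.z p) ∧
    P1.n (S.vc p) * P1.d (S.tc p 1) = P1.d (S.vc p) * P1.n (S.tc p 1) * D.x 0 (S.z p) := by
  have h0 := S.nA0 p hp
  constructor
  · show P1.n (((p.1 * S.A 0 p * S.A 1 p / S.A0 p : ℂ) : P1)) * P1.d (((S.A 0 p / S.A0 p : ℂ) : P1)) =
      P1.d (((p.1 * S.A 0 p * S.A 1 p / S.A0 p : ℂ) : P1)) * P1.n (((S.A 0 p / S.A0 p : ℂ) : P1)) *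
        D.x 1 (S.z p)
    rw [P1.n_coe, P1.d_coe, P1.d_coe, P1.n_coe, S.ex 1 p hp]
    field_simp
  · show P1.n (((p.1 * S.A 0 p * S.A 1 p / S.A0 p : ℂ) : P1)) * P1.d (((S.A 1 p / S.A0 p : ℂ) : P1)) =
      P1.d (((p.1 * S.A 0 p * S.A 1 p / S.A0 p : ℂ) : P1)) * P1.n (((S.A 1 p / S.A0 p : ℂ) : P1)) *
        D.x 0 (S.z p)
    rw [P1.n_coe, P1.d_coe, P1.d_coe, P1.n_coe, S.ex 0 p hp]
    field_simp

theorem hom_sq {r : ℝ × ℝ → ℂ} {b : ℂ} (hb : b = 1 ∨ b = -1) {p : ℝ × ℝ} (hp : p ∈ sqr) :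
    (hom r b p).1 ^ 2 * (1 - p.1 : ℝ) =
      (hom r b p).2 ^ 2 * ((p.2 * (1 - p.2) : ℝ) * r p ^ 2) := by
  have hb2 : b ^ 2 = 1 := by
    rcases hb with rfl | rfl <;> norm_num
  have h1 : ((√(p.2 * (1 - p.2)) : ℝ) : ℂ) ^ 2 = ((p.2 * (1 - p.2) : ℝ) : ℂ) := by
    rw [← Complex.ofReal_pow, Real.sq_sqrt (mul_nonneg hp.2.1 (by linarith [hp.2.2]))]
  have h2 : ((√(1 - p.1) : ℝ) : ℂ) ^ 2 = ((1 - p.1 : ℝ) : ℂ) := by
    rw [← Complex.ofReal_pow, Real.sq_sqrt (by linarith [hp.1.2])]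
  show (b * (√(p.2 * (1 - p.2)) : ℝ) * r p) ^ 2 * _ = ((√(1 - p.1) : ℝ) : ℂ) ^ 2 * _
  rw [h2, mul_pow, mul_pow, hb2, h1]
  ring

/-- the coordinate `k_0` over `starSet` -/
def kc (b : ℂ) (p : ℝ × ℝ) : P1 := brs sw (hom S.r b p)

theorem kc_cont {b : ℂ} (hb : b = 1 ∨ b = -1) : ContinuousOn (S.kc b) starSet := by
  have hb0 : b ≠ 0 := by
    rcases hb with rfl | rfl
    · exact one_ne_zero
    · exact neg_ne_zero.2 one_ne_zero
  exact (brs_cont sw).comp ((hom_cont S.cr b).mono starSet_sub)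
    (fun p hp => hom_ne S.nr hb0 hp)

/-- membership over `starSet` -/
theorem mem_star {b : ℂ} (hb : b = 1 ∨ b = -1) {p : ℝ × ℝ} (hp : p ∈ starSet) :
    S.pt p (S.kc b p) ∈ D.X1 := by
  have hb0 : b ≠ 0 := by
    rcases hb with rfl | rfl
    · exact one_ne_zero
    · exact neg_ne_zero.2 one_ne_zero
  refine ⟨?_, S.rel_v (starSet_sub hp)⟩
  intro i
  rcases eq_or_lt_of_le hp.1.1 with h0 | h0
  · -- limit `σ → 0`
    obtain ⟨σ, t⟩ := p
    simp only at h0
    subst h0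
    have hmem : ∀ s ∈ Ioo (0 : ℝ) 1, (s, t) ∈ starSet := by
      intro s hs
      exact ⟨⟨hs.1.le, hs.2.le⟩, hp.2.1, fun h => absurd h hs.2.ne⟩
    have hc : ContinuousWithinAt (fun q : ℝ × ℝ => ((S.pt q (S.kc b q)).1,
        (S.pt q (S.kc b q)).2.1 i, (S.pt q (S.kc b q)).2.2.2 i)) starSet (0, t) := by
      refine ContinuousWithinAt.prodMk ((S.hz.mono starSet_sub) _ hp)
        (ContinuousWithinAt.prodMk ?_ ?_)
      · exact (continuousWithinAt_pi.1 ((S.tc_cont.mono starSet_sub) _ hp)) i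
      · fin_cases i
        · exact S.kc_cont hb _ hp
        · exact ((OnePoint.continuous_coe.comp_continuousOn S.crB).mono starSet_sub) _ hp
    have ht : Tendsto (fun s : ℝ => (s, t)) (𝓝[Ioo 0 1] 0) (𝓝[starSet] (0, t)) := by
      refine tendsto_nhdsWithin_iff.2 ⟨?_, ?_⟩
      · have : Continuous fun s : ℝ => (s, t) := by fun_prop
        exact (this.tendsto 0).mono_left nhdsWithin_le_nhds
      · filter_upwards [self_mem_nhdsWithin] with s hs
        exact hmem s hs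
    have h1 := hc.tendsto.comp ht
    have : (𝓝[Ioo (0 : ℝ) 1] 0).NeBot := left_nhdsWithin_Ioo_neBot one_pos
    refine mem_closure_of_tendsto h1 ?_
    filter_upwards [self_mem_nhdsWithin] with s hs
    exact S.mem_pos (starSet_sub (hmem s hs)) hs.1 (hom_ne S.nr hb0 (hmem s hs))
      (hom_sq hb (starSet_sub (hmem s hs))) i
  · exact subset_closure (S.mem_pos (starSet_sub hp) h0 (hom_ne S.nr hb0 hp)
      (hom_sq hb (starSet_sub hp)) i)

/-- membership over the two corners -/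
theorem mem_corner {t : ℝ} (ht : t = 0 ∨ t = 1) {k : ℂ × ℂ} (hk : k ≠ 0) :
    S.pt (1, t) (brs sw k) ∈ D.X1 := by
  have hp : ((1 : ℝ), t) ∈ sqr := by
    rcases ht with rfl | rfl <;> exact ⟨⟨by norm_num, by norm_num⟩, by norm_num, by norm_num⟩
  refine ⟨fun i => subset_closure (S.mem_pos hp one_pos hk ?_ i), S.rel_v hp⟩
  simp only
  rcases ht with rfl | rfl <;> simp

/-- `X1` restricted by a condition on `(z, t)` -/
abbrev XW (D : GData F) (W : N × (Fin 2 → P1) → Prop) : Type :=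
  {y : D.X1 // W (y.1.1, y.1.2.1)}

/-- the data of the pillow theorem -/
def pil (W : N × (Fin 2 → P1) → Prop) (hW : ∀ p ∈ sqr, W (S.z p, S.tc p)) :
    Pil (N × (Fin 2 → P1) × P1 × P1) P1 where
  br := brs sw
  cont_br := brs_cont sw
  scale := fun c hc p _ => brs_scale sw c hc p
  S := {q | ((q.1.1, q.1.2.1, q.1.2.2.1, ![q.2, q.1.2.2.2]) : Amb N) ∈ D.X1 ∧
    W (q.1.1, q.1.2.1)}
  g := fun p => (S.z p, S.tc p, S.vc p, ((S.rB p : ℂ) : P1))
  hg := S.hz.prodMk (S.tc_cont.prodMk (S.vc_cont.prodMk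
    (OnePoint.continuous_coe.comp_continuousOn S.crB)))
  r := S.r
  hr := S.cr
  hr0 := S.nr
  mem := fun b hb p hp => ⟨S.mem_star hb hp, hW p (starSet_sub hp)⟩
  mem0 := fun k hk => ⟨S.mem_corner (Or.inl rfl) hk, hW _ ⟨⟨by norm_num, by norm_num⟩,
    by norm_num, by norm_num⟩⟩
  mem1 := fun k hk => ⟨S.mem_corner (Or.inr rfl) hk, hW _ ⟨⟨by norm_num, by norm_num⟩,
    by norm_num, by norm_num⟩⟩

/-- back to `X1` -/
def back (W : N × (Fin 2 → P1) → Prop) (hW : ∀ p ∈ sqr, W (S.z p, S.tc p)) :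
    C((S.pil W hW).S, XW D W) where
  toFun q := ⟨⟨(q.1.1.1, q.1.1.2.1, q.1.1.2.2.1, ![q.1.2, q.1.1.2.2.2]), q.2.1⟩, q.2.2⟩
  continuous_toFun := by
    refine Continuous.subtype_mk (Continuous.subtype_mk ?_ _) _
    refine Continuous.prodMk (by fun_prop) (Continuous.prodMk (by fun_prop)
      (Continuous.prodMk (by fun_prop) ?_))
    refine continuous_pi (fun i => ?_)
    fin_cases i
    · show Continuous fun q : (S.pil W hW).S => q.1.2
      fun_prop
    · show Continuous fun q : (S.pil W hW).S => q.1.1.2.2.2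
      fun_prop

theorem star0 (t : I) : ((0 : ℝ), (t : ℝ)) ∈ starSet :=
  ⟨⟨le_refl _, zero_le_one⟩, ⟨t.2.1, t.2.2⟩, fun h => absurd h zero_ne_one⟩

/-- the arc over `σ = 0` in the sheet `b` -/
def arc (W : N × (Fin 2 → P1) → Prop) (hW : ∀ p ∈ sqr, W (S.z p, S.tc p)) (b : ℂ)
    (hb : b = 1 ∨ b = -1) (t : I) : XW D W :=
  ⟨⟨S.pt (0, (t : ℝ)) (S.kc b (0, (t : ℝ))), S.mem_star hb (star0 t)⟩,
    hW _ (starSet_sub (star0 t))⟩

/-- **the two arcs over `σ = 0` are homotopic rel end points** in `X1` (restricted by `W`) -/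
theorem arcs (W : N × (Fin 2 → P1) → Prop) (hW : ∀ p ∈ sqr, W (S.z p, S.tc p))
    {a b a' b' : XW D W} (p : Path a b) (p' : Path a' b')
    (hp : ∀ t, p t = S.arc W hW 1 (Or.inl rfl) t)
    (hp' : ∀ t, p' t = S.arc W hW (-1) (Or.inr rfl) t) : HR p p' := by
  have h := HR_map (S.pil W hW).pillowP (S.back W hW)
  refine HR.trans (HR_of_eq (fun t => ?_)) (h.trans (HR_of_eq (fun t => ?_)))
  · rw [hp]
    apply Subtype.ext
    apply Subtype.ext
    have e := sideA_apply t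
    show S.pt (0, (t : ℝ)) (S.kc 1 (0, (t : ℝ))) =
      (S.z (sideA t).1, S.tc (sideA t).1, S.vc (sideA t).1,
        ![brs sw (hom S.r 1 (sideA t).1), ((S.rB (sideA t).1 : ℂ) : P1)])
    rw [e]
    rfl
  · rw [hp']
    apply Subtype.ext
    apply Subtype.ext
    have e := sideA_apply t
    show (S.z (sideA t).1, S.tc (sideA t).1, S.vc (sideA t).1,
        ![brs sw (hom S.r (-1) (sideA t).1), ((S.rB (sideA t).1 : ℂ) : P1)]) =
      S.pt (0, (t : ℝ)) (S.kc (-1) (0, (t : ℝ)))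
    rw [e]
    rfl

theorem arc_cont (W : N × (Fin 2 → P1) → Prop) (hW : ∀ p ∈ sqr, W (S.z p, S.tc p)) (b : ℂ)
    (hb : b = 1 ∨ b = -1) : Continuous (S.arc W hW b hb) := by
  have h := ((S.pil W hW).Psi b hb).continuous.comp sideA.continuous
  have h2 := (S.back W hW).continuous.comp h
  refine h2.congr (fun t => ?_)
  apply Subtype.ext
  apply Subtype.ext
  have e := sideA_apply t
  show (S.z (sideA t).1, S.tc (sideA t).1, S.vc (sideA t).1,
      ![brs sw (hom S.r b (sideA t).1), ((S.rB (sideA t).1 : ℂ) : P1)]) =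
    S.pt (0, (t : ℝ)) (S.kc b (0, (t : ℝ)))
  rw [e]
  rfl

end SqD

end

end Crest.Agent.R272.UB_20
end

-- ▼ part R272/UB5_20

/-!
# R272, leaf UB-DISC (helper20), part 5: square roots on the square, global units

* `exists_root_sqr` : a continuous zero free function on the closed unit square has a continuous root;
* `exists_unit` : `f` is near every point of `K` a unit times `lin v` ⟹ `f = lin v * U` on `K`, `U`
  continuous and zero free on `K`.
-/

set_option autoImplicit false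

open Set Filter Topology

namespace Crest.Agent.R272.UB_20

open Crest.Agent.R272.EBase_641 Crest.Agent.R272.GLoc_620

noncomputable section

/-- retraction of the plane to the square -/
def clamp (p : ℝ × ℝ) : ℝ × ℝ := (max 0 (min 1 p.1), max 0 (min 1 p.2))

theorem clamp_cont : Continuous clamp := by
  unfold clamp
  fun_prop

theorem clamp_mem (p : ℝ × ℝ) : clamp p ∈ sqr :=
  ⟨⟨le_max_left _ _, max_le zero_le_one (min_le_left _ _)⟩,
    le_max_left _ _, max_le zero_le_one (min_le_left _ _)⟩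

theorem clamp_eq {p : ℝ × ℝ} (hp : p ∈ sqr) : clamp p = p := by
  obtain ⟨⟨h1, h2⟩, h3, h4⟩ := hp
  unfold clamp
  rw [min_eq_right h2, min_eq_right h4, max_eq_right h1, max_eq_right h3]

theorem simply_univ : IsSimplyConnected (univ : Set (ℝ × ℝ)) := by
  have h : StarConvex ℝ (0 : ℝ × ℝ) (univ : Set (ℝ × ℝ)) := starConvex_univ _
  have : ContractibleSpace (univ : Set (ℝ × ℝ)) := h.contractibleSpace univ_nonempty
  exact SimplyConnectedSpace.ofContractible _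

/-- square roots on the square -/
theorem exists_root_sqr {g : ℝ × ℝ → ℂ} (hg : ContinuousOn g sqr) (h0 : ∀ p ∈ sqr, g p ≠ 0) :
    ∃ r : ℝ × ℝ → ℂ, ContinuousOn r sqr ∧ (∀ p ∈ sqr, r p ^ 2 = g p) ∧ ∀ p ∈ sqr, r p ≠ 0 := by
  have hc : Continuous fun p => g (clamp p) := hg.comp_continuous clamp_cont clamp_mem
  obtain ⟨f, hf, hf2⟩ := Complex.exists_continuousOn_pow_eq simply_univ isOpen_univ
    (g := fun p => g (clamp p)) hc.continuousOn (by
      rintro ⟨p, -, hp⟩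
      exact h0 _ (clamp_mem p) hp) (n := 2) (by norm_num)
  have h2 : ∀ p ∈ sqr, f p ^ 2 = g p := by
    intro p hp
    rw [hf2 p, clamp_eq hp]
  refine ⟨f, hf.mono (subset_univ _), h2, fun p hp h => h0 p hp ?_⟩
  rw [← h2 p hp, h]
  norm_num

/-- near every point there are points where `lin v ≠ 0` -/
theorem lin_ne_near {n : ℕ} {v : V1 n} (hv : v.1 ≠ 0) (q : E n) :
    ∃ᶠ w in 𝓝 q, lin v w ≠ 0 := by
  by_contra hcon
  rw [not_frequently] at hcon
  simp only [not_not] at hcon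
  -- along `q + ε v.1`
  have h1 : Tendsto (fun ε : ℝ => q + (ε : ℂ) • v.1) (𝓝 0) (𝓝 q) := by
    have : Continuous fun ε : ℝ => q + (ε : ℂ) • v.1 := by fun_prop
    have h := this.tendsto 0
    simpa using h
  have h2 := h1.eventually hcon
  have h3 : ∃ ε : ℝ, 0 < ε ∧ lin v (q + (ε : ℂ) • v.1) = 0 := by
    have h4 : ∃ᶠ ε : ℝ in 𝓝 0, 0 < ε := by
      have h41 : ∀ᶠ ε : ℝ in 𝓝[>] 0, 0 < ε := by
        filter_upwards [self_mem_nhdsWithin] with ε hε
        exact hε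
      exact h41.frequently.filter_mono nhdsWithin_le_nhds
    obtain ⟨ε, hε1, hε2⟩ := (h4.and_eventually h2).exists
    exact ⟨ε, hε1, hε2⟩
  obtain ⟨ε, hε, h5⟩ := h3
  have h6 : lin v q = 0 := hcon.self_of_nhds
  have h7 : lin v (q + (ε : ℂ) • v.1) = lin v q + ε * inner ℂ v.1 v.1 := by
    simp only [lin, inner_add_right, inner_smul_right]
    ring
  rw [h7, h6, zero_add] at h5
  rcases mul_eq_zero.1 h5 with h8 | h8
  · exact hε.ne' (by exact_mod_cast h8)
  · exact hv (inner_self_eq_zero.1 h8)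

/-- gluing local units -/
theorem exists_unit {n : ℕ} {v : V1 n} (hv : v.1 ≠ 0) {f : E n → ℂ} {K : Set (E n)}
    (h : ∀ q ∈ K, IsUM f (lin v) q) :
    ∃ U : E n → ℂ, ContinuousOn U K ∧ (∀ q ∈ K, U q ≠ 0) ∧ ∀ q ∈ K, f q = lin v q * U q := by
  classical
  choose! u hu he using h
  refine ⟨fun q => u q q, ?_, fun q hq => (hu q hq).ne, fun q hq => (he q hq).self_of_nhds⟩
  intro q hq
  -- near `q` (in `K`), `u q' q' = u q q'`
  have h1 : ContinuousAt (u q) q := (hu q hq).diffAt.continuousAt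
  obtain ⟨V, hV, hd, hne⟩ := hu q hq
  have h2 : ∀ᶠ q' in 𝓝 q, ContinuousAt (u q) q' := by
    obtain ⟨W, hWV, hWo, hqW⟩ := mem_nhds_iff.1 hV
    filter_upwards [hWo.mem_nhds hqW] with q' hq'
    exact (hd.differentiableAt (mem_of_superset (hWo.mem_nhds hq') hWV)).continuousAt
  have h3 : ∀ᶠ q' in 𝓝[K] q, u q' q' = u q q' := by
    have h4 : ∀ᶠ q' in 𝓝 q, ∀ᶠ w in 𝓝 q', f w = lin v w * u q w :=
      eventually_eventually_nhds.2 (he q hq)
    filter_upwards [nhdsWithin_le_nhds h4, nhdsWithin_le_nhds h2, self_mem_nhdsWithin]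
      with q' h5 h6 hq'K
    have h7 := he q' hq'K
    have h8 : ContinuousAt (u q') q' := (hu q' hq'K).diffAt.continuousAt
    by_contra hcon
    have h9 : ∀ᶠ w in 𝓝 q', u q' w - u q w ≠ 0 :=
      (h8.sub h6).eventually_ne (sub_ne_zero.2 hcon)
    obtain ⟨w, hw1, hw2, hw3, hw4⟩ :=
      ((lin_ne_near hv q').and_eventually (h5.and (h7.and h9))).exists
    apply hw4
    rw [hw2] at hw3
    have := mul_left_cancel₀ hw1 hw3
    rw [this, sub_self]
  have h10 : ContinuousWithinAt (u q) K q := h1.continuousWithinAt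
  exact h10.congr_of_eventuallyEq h3 rfl

end

end Crest.Agent.R272.UB_20
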