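import Crest.Agent.R272.Comp2_259
import Crest.Agent.R272.UB2_20
import Crest.Prelude.Def_RatCurveLoops
import Mathlib.RingTheory.Polynomial.Cyclotomic.Roots
import Mathlib.LinearAlgebra.Dimension.Finite
import Mathlib.Analysis.Complex.Basic
import Mathlib.Tactic
import Crest.Agent.R272.UB7_20
import Crest.Agent.R272.DCov4_426

-- ▼ part R272/Comp3_259
section

/-!
# R272, leaf COMP-RED (helper259), part 3: `GoodA` restricts to clopen subsets

* `subG` : `GoodA A → GoodA (subA A U)` for `U` clopen;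
* `KodEmbG` : the Kodaira embedding theorem with the extra hypothesis `GoodA`; the two ends.
-/

set_option autoImplicit false
set_option linter.unusedSectionVars false

open Set Filter Topology Complex TopologicalSpace
open Crest.AlgGeometry

namespace Crest.Agent.R272.Comp_259

open Crest.Agent.R275.Geo Crest.Agent.R275.Core144 Crest.Agent.R275.GC293
open Crest.Agent.R273.Defs_333
open CpTop_338 CpChow_338 CpMan_338 CpPi_338 CpRat423 G14a_414

noncomputable section

section Good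

variable {n : ℕ} {M : Type} [TopologicalSpace M] {A : Atl n M} {U : Opens M} [hU : Nonempty U]

theorem ov_sub (i j : A.ι) :
    (subA A U).ov i j = A.ov i j ∩ (A.e i).symm ⁻¹' U := by
  ext z
  constructor
  · rintro ⟨h1, h2⟩
    have h3 := mem_target.1 h1
    refine ⟨⟨h3.1, ?_⟩, h3.2⟩
    rw [← e_symm h1]
    exact mem_source.1 h2
  · rintro ⟨⟨h1, h2⟩, h3⟩
    have h4 : z ∈ ((subA A U).e i).target := mem_target.2 ⟨h1, h3⟩
    refine ⟨h4, mem_source.2 ?_⟩
    rw [e_symm h4]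
    exact h2

theorem convex_sub (hc : IsClosed (U : Set M)) {i j : A.ι} (h0 : Convex ℝ (A.ov i j)) :
    Convex ℝ ((subA A U).ov i j) := by
  rw [ov_sub]
  have h2 : IsPreconnected ((A.e i).symm '' (A.ov i j)) :=
    h0.isPreconnected.image _ ((A.e i).continuousOn_symm.mono fun z hz => hz.1)
  by_cases hne : (A.ov i j ∩ (A.e i).symm ⁻¹' U).Nonempty
  · obtain ⟨z, hz, hzU⟩ := hne
    have h3 := h2.subset_isClopen ⟨hc, U.isOpen⟩ ⟨_, ⟨z, hz, rfl⟩, hzU⟩
    have h4 : A.ov i j ∩ (A.e i).symm ⁻¹' U = A.ov i j :=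
      inter_eq_left.2 fun w hw => h3 ⟨w, hw, rfl⟩
    rw [h4]
    exact h0
  · rw [not_nonempty_iff_eq_empty.1 hne]
    exact convex_empty

/-- `GoodA` restricts to clopen subsets -/
theorem subG (hc : IsClosed (U : Set M)) (hA : GoodA A) : GoodA (subA A U) :=
  fun i j => convex_sub hc (hA i j)

end Good

/-- Kodaira embedding with `GoodA` (as a hypothesis) -/
def KodEmbG (n : ℕ) : Prop :=
  ∀ (Y : Type) [TopologicalSpace Y] [T2Space Y] [CompactSpace Y] [ConnectedSpace Y]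
    (B : Atl n Y) [Finite B.ι], GoodA B → Part B → ∀ (O : LB B) (h : HM O), h.Pos →
      Nonempty (ProjD B)

theorem KodEmbG.cmp {n : ℕ} (K : KodEmbG n) {X : Type} [TopologicalSpace X] [T2Space X]
    [CompactSpace X] {A : Atl n X} [Finite A.ι] (hA : GoodA A) (PA : Part A) {O : LB A}
    {h : HM O} (hp : h.Pos) (U : Opens X) [Nonempty U] (hU : IsClosed (U : Set X))
    (hc : ConnectedSpace U) : Nonempty (ProjD (subA A U)) := by
  have : CompactSpace U := isCompact_iff_compactSpace.1 hU.isCompact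
  exact K U (subA A U) (subG hU hA) (subP hU PA) (subL O) (subH h) (subH_pos hp)



end

end Crest.Agent.R272.Comp_259
end

-- ▼ part R272/UB8_20
section

/-!
# R272, leaf UB-DISC (helper20), part 8: algebra of the period lattice

`Λ ⊆ ℂ²` a lattice stable under a diagonal `D` whose entries are primitive 5th roots of unity,
`Q ∈ Λ` non-zero: every `l ∈ Λ` has a non-zero multiple in `ℤ Q + ℤ D Q + ℤ D² Q + ℤ D³ Q`.
If a homomorphism kills `Q`, `D² Q`, `D³ Q`, then up to multiples everything is a power of the image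
of `D Q`.
-/

set_option autoImplicit false

open Set Filter Topology Multiplicative

namespace Crest.Agent.R272.UB_20

noncomputable section

/-- `ℂ²` -/
local notation "E2" => (Fin 2 → ℂ)

/-- a primitive 5th root of unity is not a root of a non-zero integral polynomial of degree `≤ 3` -/
theorem prim5_indep {d : ℂ} (hd : IsPrimitiveRoot d 5) (a : Fin 4 → ℤ)
    (h : ∑ i, (a i : ℂ) * d ^ (i : ℕ) = 0) : ∀ i, a i = 0 := by
  have hdeg : (minpoly ℚ d).natDegree = 4 := by
    rw [← Polynomial.cyclotomic_eq_minpoly_rat hd (by norm_num), Polynomial.natDegree_cyclotomic]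
    decide
  have hli := linearIndependent_pow (K := ℚ) d
  rw [hdeg] at hli
  rw [Fintype.linearIndependent_iff] at hli
  have := hli (fun i => (a i : ℚ)) (by
    rw [← h]
    refine Finset.sum_congr rfl (fun i _ => ?_)
    rw [Algebra.smul_def]
    simp)
  intro i
  exact_mod_cast this i

/-- iterates of a diagonal map -/
theorem diag_iter {D : E2 → E2} {d : Fin 2 → ℂ} (hD : ∀ v i, D v i = d i * v i) (n : ℕ) (v : E2)
    (i : Fin 2) : (D^[n]) v i = d i ^ n * v i := by
  induction n generalizing v with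
  | zero => simp
  | succ n ih =>
    rw [Function.iterate_succ_apply, ih, hD, pow_succ]
    ring

theorem iter_mem {Λ : AddSubgroup E2} {D : E2 → E2} (hΛ : ∀ v ∈ Λ, D v ∈ Λ) {Q : E2} (hQ : Q ∈ Λ)
    (n : ℕ) : (D^[n]) Q ∈ Λ := by
  induction n with
  | zero => exact hQ
  | succ n ih =>
    rw [Function.iterate_succ_apply']
    exact hΛ _ ih

/-- **multiples of lattice vectors** -/
theorem exists_mult {Λ : AddSubgroup E2} [DiscreteTopology Λ]
    (hspan : Submodule.span ℝ (Λ : Set E2) = ⊤) {D : E2 → E2} {d : Fin 2 → ℂ}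
    (hD : ∀ v i, D v i = d i * v i) (hd : ∀ i, IsPrimitiveRoot (d i) 5)
    (hΛ : ∀ v ∈ Λ, D v ∈ Λ) {Q : E2} (hQ : Q ∈ Λ) (hQ0 : Q ≠ 0) (l : E2) (hl : l ∈ Λ) :
    ∃ m : ℤ, m ≠ 0 ∧ ∃ a : Fin 4 → ℤ, m • l = ∑ i, a i • (D^[(i : ℕ)]) Q := by
  let L : Submodule ℤ E2 := AddSubgroup.toIntSubmodule Λ
  have hLd : DiscreteTopology L := inferInstanceAs (DiscreteTopology Λ)
  have hLs : IsZLattice ℝ L := ⟨hspan⟩
  have hrank : Module.finrank ℤ L = 4 := by
    rw [ZLattice.rank ℝ L]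
    simp [Module.finrank_pi_fintype]
  have : Module.Finite ℤ L := ZLattice.module_finite ℝ L
  -- the five vectors
  let v : Fin 5 → L := Fin.cons ⟨l, hl⟩ (fun i : Fin 4 => ⟨(D^[(i : ℕ)]) Q, iter_mem hΛ hQ i⟩)
  have hnot : ¬ LinearIndependent ℤ v := by
    intro h
    have := h.fintype_card_le_finrank
    rw [hrank] at this
    simp at this
  rw [Fintype.not_linearIndependent_iff] at hnot
  obtain ⟨g, hg, i₀, hi₀⟩ := hnot
  have hg' : g 0 • l + ∑ i : Fin 4, g i.succ • (D^[(i : ℕ)]) Q = 0 := by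
    have h1 := congrArg Subtype.val hg
    rw [Fin.sum_univ_succ] at h1
    have h2 : ((g 0 • v 0 + ∑ i : Fin 4, g i.succ • v i.succ : L) : E2) =
        g 0 • l + ∑ i : Fin 4, g i.succ • (D^[(i : ℕ)]) Q := by
      rw [Submodule.coe_add, Submodule.coe_sum]
      rfl
    rw [h2] at h1
    exact h1
  have hg0 : g 0 ≠ 0 := by
    intro h0
    rw [h0, zero_smul, zero_add] at hg'
    -- a non-zero coordinate of `Q`
    obtain ⟨c, hc⟩ : ∃ c, Q c ≠ 0 := by
      by_contra hcon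
      push Not at hcon
      exact hQ0 (funext hcon)
    have h1 := congrFun hg' c
    rw [Finset.sum_apply] at h1
    have h2 : (∑ i : Fin 4, ((g i.succ : ℤ) : ℂ) * d c ^ (i : ℕ)) * Q c = 0 := by
      rw [Finset.sum_mul]
      rw [show (0 : E2) c = 0 from rfl] at h1
      rw [← h1]
      refine Finset.sum_congr rfl (fun i _ => ?_)
      rw [Pi.smul_apply, diag_iter hD, zsmul_eq_mul]
      ring
    have h3 := prim5_indep (hd c) (fun i => g i.succ) ((mul_eq_zero.1 h2).resolve_right hc)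
    refine hi₀ ?_
    refine Fin.cases h0 (fun i => h3 i) i₀
  refine ⟨g 0, hg0, fun i => - g i.succ, ?_⟩
  have h3 : g 0 • l = - ∑ i : Fin 4, g i.succ • (D^[(i : ℕ)]) Q := eq_neg_of_add_eq_zero_left hg'
  rw [h3, ← Finset.sum_neg_distrib]
  refine Finset.sum_congr rfl (fun i _ => ?_)
  rw [neg_smul]

/-- **the last brace of 338's end of S0415**: if `φ` kills `Q`, `D² Q`, `D³ Q` (`Q ≠ 0`) then every `l`
has a non-zero multiple congruent to a multiple of `D Q` modulo the kernel -/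
theorem brace {Λ : AddSubgroup E2} [DiscreteTopology Λ]
    (hspan : Submodule.span ℝ (Λ : Set E2) = ⊤) {D : E2 → E2} {d : Fin 2 → ℂ}
    (hD : ∀ v i, D v i = d i * v i) (hd : ∀ i, IsPrimitiveRoot (d i) 5)
    (hΛ : ∀ v ∈ Λ, D v ∈ Λ) {Q : E2} (hQ : Q ∈ Λ) (hQ0 : Q ≠ 0) {G : Type*} [Group G]
    (φ : Multiplicative Λ →* G) (h0 : φ (ofAdd ⟨Q, hQ⟩) = 1)
    (h2 : φ (ofAdd ⟨D (D Q), hΛ _ (hΛ _ hQ)⟩) = 1)
    (h3 : φ (ofAdd ⟨D (D (D Q)), hΛ _ (hΛ _ (hΛ _ hQ))⟩) = 1) (l : Λ) :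
    ∃ m : ℤ, m ≠ 0 ∧ ∃ k : ℤ, φ (ofAdd (m • l - k • (⟨D Q, hΛ _ hQ⟩ : Λ))) = 1 := by
  obtain ⟨m, hm, a, ha⟩ := exists_mult hspan hD hd hΛ hQ hQ0 l l.2
  refine ⟨m, hm, a 1, ?_⟩
  have e : m • l - a 1 • (⟨D Q, hΛ _ hQ⟩ : Λ) = a 0 • (⟨Q, hQ⟩ : Λ) +
      (a 2 • (⟨D (D Q), hΛ _ (hΛ _ hQ)⟩ : Λ) +
        a 3 • (⟨D (D (D Q)), hΛ _ (hΛ _ (hΛ _ hQ))⟩ : Λ)) := by
    apply Subtype.ext
    show m • (l : E2) - a 1 • D Q = a 0 • Q + (a 2 • D (D Q) + a 3 • D (D (D Q)))
    rw [ha, Fin.sum_univ_four]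
    show a 0 • Q + a 1 • D Q + a 2 • D (D Q) + a 3 • D (D (D Q)) - a 1 • D Q = _
    abel
  rw [e, ofAdd_add, map_mul, ofAdd_add, map_mul, ofAdd_zsmul, map_zpow, h0, one_zpow, one_mul,
    ofAdd_zsmul, map_zpow, h2, one_zpow, one_mul, ofAdd_zsmul, map_zpow, h3, one_zpow]

end

end Crest.Agent.R272.UB_20
end

-- ▼ part R272/Simple_729
section

/-!
Row 272, leaf A-SIMPLE: a period lattice of `ℂ²` which is stable under `diag(ζ, ζ²)`, `ζ` a primitive
fifth root of unity, satisfies the simplicity clause of `IsSimpleAbelianSurface`.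
-/

set_option autoImplicit false

open Crest.AlgGeometry

namespace Crest.Agent.R272.Simple_729

/-- The linear map `diag(a, b)` of `ℂ²`. -/
noncomputable def dg (a b : ℂ) : (Fin 2 → ℂ) →ₗ[ℂ] (Fin 2 → ℂ) where
  toFun v := ![a * v 0, b * v 1]
  map_add' v w := by
    ext i; fin_cases i <;> simp [mul_add]
  map_smul' c v := by
    ext i; fin_cases i <;> simp [mul_left_comm]

@[simp] lemma dg_zero (a b : ℂ) (v : Fin 2 → ℂ) : dg a b v 0 = a * v 0 := rfl
@[simp] lemma dg_one (a b : ℂ) (v : Fin 2 → ℂ) : dg a b v 1 = b * v 1 := rfl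

/-- Powers `1, ζ, ζ², ζ³` of a primitive fifth root of unity are linearly independent over `ℚ`. -/
lemma indep {ζ : ℂ} (hζ : IsPrimitiveRoot ζ 5) (c0 c1 c2 c3 : ℚ)
    (h : (c0 : ℂ) + c1 * ζ + c2 * ζ ^ 2 + c3 * ζ ^ 3 = 0) :
    c0 = 0 ∧ c1 = 0 ∧ c2 = 0 ∧ c3 = 0 := by
  classical
  set p : Polynomial ℚ := Polynomial.C c0 + Polynomial.C c1 * Polynomial.X
    + Polynomial.C c2 * Polynomial.X ^ 2 + Polynomial.C c3 * Polynomial.X ^ 3 with hp
  have hroot : Polynomial.aeval ζ p = 0 := by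
    simp only [hp, map_add, map_mul, map_pow, Polynomial.aeval_C, Polynomial.aeval_X]
    simpa using h
  have hcyc : Polynomial.cyclotomic 5 ℚ = minpoly ℚ ζ :=
    Polynomial.cyclotomic_eq_minpoly_rat hζ (by norm_num)
  have hdeg : (minpoly ℚ ζ).degree = 4 := by
    rw [← hcyc, Polynomial.degree_cyclotomic]
    rfl
  have hp0 : p = 0 := by
    by_contra hne
    have h1 := minpoly.degree_le_of_ne_zero ℚ ζ hne hroot
    have h2 : p.degree ≤ 3 := by
      rw [hp]; compute_degree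
    rw [hdeg] at h1
    have := h1.trans h2
    exact absurd this (by decide)
  have hc : ∀ n, p.coeff n = 0 := fun n => by rw [hp0]; simp
  refine ⟨?_, ?_, ?_, ?_⟩
  · simpa [hp, Polynomial.coeff_X, Polynomial.coeff_C] using hc 0
  · simpa [hp, Polynomial.coeff_X, Polynomial.coeff_C] using hc 1
  · simpa [hp, Polynomial.coeff_X, Polynomial.coeff_C] using hc 2
  · simpa [hp, Polynomial.coeff_X, Polynomial.coeff_C] using hc 3


lemma prim_sq {ζ : ℂ} (hζ : IsPrimitiveRoot ζ 5) : IsPrimitiveRoot (ζ ^ 2) 5 :=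
  hζ.pow_of_coprime 2 (by norm_num)

lemma pow_four {ζ : ℂ} (hζ : IsPrimitiveRoot ζ 5) : ζ ^ 4 = -1 - ζ - ζ ^ 2 - ζ ^ 3 := by
  have h := hζ.geom_sum_eq_zero (by norm_num)
  simp only [Finset.sum_range_succ, Finset.sum_range_zero, zero_add, pow_zero, pow_one] at h
  linear_combination h

/-- Five elements of a period lattice satisfy a rational relation. -/
lemma exists_rel (ω : Fin 4 → Fin 2 → ℂ) (v : Fin 5 → Fin 2 → ℂ)
    (hv : ∀ i, v i ∈ periodLattice ω) :
    ∃ g : Fin 5 → ℚ, g ≠ 0 ∧ ∀ s : Fin 2, ∑ i, (g i : ℂ) * v i s = 0 := by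
  classical
  have hv' : ∀ i, ∃ c : Fin 4 → ℤ, ∑ j, c j • ω j = v i := fun i => by
    have := hv i
    rw [periodLattice, Submodule.mem_span_range_iff_exists_fun] at this
    exact this
  choose c hc using hv'
  have hdep : ¬ LinearIndependent ℚ (fun i : Fin 5 => fun j : Fin 4 => (c i j : ℚ)) := by
    intro h
    have := h.fintype_card_le_finrank
    simp at this
  rw [Fintype.not_linearIndependent_iff] at hdep
  obtain ⟨g, hg, i0, hi0⟩ := hdep
  refine ⟨g, fun h => hi0 (by rw [h]; rfl), fun s => ?_⟩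
  have hj : ∀ j, ∑ i, (g i : ℂ) * (c i j : ℂ) = 0 := by
    intro j
    have := congrFun hg j
    simp only [Finset.sum_apply, Pi.smul_apply, smul_eq_mul, Pi.zero_apply] at this
    have h2 : ((∑ i, g i * (c i j : ℚ) : ℚ) : ℂ) = 0 := by rw [this]; simp
    push_cast at h2
    exact h2
  calc ∑ i, (g i : ℂ) * v i s = ∑ i, (g i : ℂ) * ∑ j, (c i j : ℂ) * ω j s := by
        refine Finset.sum_congr rfl fun i _ => ?_
        rw [← hc i]
        simp [Finset.sum_apply]
    _ = ∑ j, (∑ i, (g i : ℂ) * (c i j : ℂ)) * ω j s := by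
        simp_rw [Finset.mul_sum, Finset.sum_mul]
        rw [Finset.sum_comm]
        refine Finset.sum_congr rfl fun j _ => Finset.sum_congr rfl fun i _ => by ring
    _ = 0 := by simp [hj]

/-- In a lattice stable under `N • diag(ζ, ζ²)` every element `m` is a rational polynomial in
`diag(ζ, ζ²)` applied to a given non-zero element `l`. -/
lemma exists_poly (ω : Fin 4 → Fin 2 → ℂ) {ζ : ℂ} (hζ : IsPrimitiveRoot ζ 5) {N : ℤ} (hN : N ≠ 0)
    (hst : ∀ l ∈ periodLattice ω, N • dg ζ (ζ ^ 2) l ∈ periodLattice ω)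
    {l m : Fin 2 → ℂ} (hl : l ∈ periodLattice ω) (hm : m ∈ periodLattice ω) (hl0 : l ≠ 0) :
    ∃ q0 q1 q2 q3 : ℚ,
      m 0 = ((q0 : ℂ) + q1 * ζ + q2 * ζ ^ 2 + q3 * ζ ^ 3) * l 0 ∧
      m 1 = ((q0 : ℂ) + q1 * ζ ^ 2 + q2 * (ζ ^ 2) ^ 2 + q3 * (ζ ^ 2) ^ 3) * l 1 := by
  classical
  set T := dg ζ (ζ ^ 2) with hT
  have hNC : (N : ℂ) ≠ 0 := by exact_mod_cast hN
  have hNQ : (N : ℚ) ≠ 0 := by exact_mod_cast hN
  set l1 := N • T l with hl1
  set l2 := N • T l1 with hl2
  set l3 := N • T l2 with hl3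
  have m1 : l1 ∈ periodLattice ω := hst _ hl
  have m2 : l2 ∈ periodLattice ω := hst _ m1
  have m3 : l3 ∈ periodLattice ω := hst _ m2
  have e1 : ∀ s, l1 s = N * T l s := fun s => by simp [hl1]
  have e2 : ∀ s, l2 s = N * T l1 s := fun s => by simp [hl2]
  have e3 : ∀ s, l3 s = N * T l2 s := fun s => by simp [hl3]
  have a1 : l1 0 = N * ζ * l 0 := by rw [e1, hT, dg_zero]; ring
  have a2 : l2 0 = N ^ 2 * ζ ^ 2 * l 0 := by rw [e2, hT, dg_zero, a1]; ring
  have a3 : l3 0 = N ^ 3 * ζ ^ 3 * l 0 := by rw [e3, hT, dg_zero, a2]; ring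
  have b1 : l1 1 = N * ζ ^ 2 * l 1 := by rw [e1, hT, dg_one]; ring
  have b2 : l2 1 = N ^ 2 * (ζ ^ 2) ^ 2 * l 1 := by rw [e2, hT, dg_one, b1]; ring
  have b3 : l3 1 = N ^ 3 * (ζ ^ 2) ^ 3 * l 1 := by rw [e3, hT, dg_one, b2]; ring
  obtain ⟨g, hg, hs⟩ := exists_rel ω ![l, l1, l2, l3, m] (by
    intro i; fin_cases i
    · exact hl
    · exact m1
    · exact m2
    · exact m3
    · exact hm)
  have h0 := hs 0
  have h1 := hs 1
  rw [Fin.sum_univ_five] at h0 h1
  simp only [Matrix.cons_val_zero, Matrix.cons_val_one, Matrix.cons_val] at h0 h1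
  rw [a1, a2, a3] at h0
  rw [b1, b2, b3] at h1
  have hg4 : g 4 ≠ 0 := by
    intro h4
    apply hg
    rw [h4] at h0 h1
    have key : g 0 = 0 ∧ g 1 * N = 0 ∧ g 2 * N ^ 2 = 0 ∧ g 3 * N ^ 3 = 0 := by
      by_cases hz : l 0 = 0
      · have hz1 : l 1 ≠ 0 := by
          intro hz1; apply hl0; ext i; fin_cases i <;> simp [hz, hz1]
        apply indep (prim_sq hζ)
        have : l 1 * (((g 0 : ℚ) : ℂ) + ((g 1 * N : ℚ) : ℂ) * ζ ^ 2
            + ((g 2 * N ^ 2 : ℚ) : ℂ) * (ζ ^ 2) ^ 2 + ((g 3 * N ^ 3 : ℚ) : ℂ) * (ζ ^ 2) ^ 3) = 0 := by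
          push_cast
          push_cast at h1
          linear_combination h1
        exact (mul_eq_zero.mp this).resolve_left hz1
      · apply indep hζ
        have : l 0 * (((g 0 : ℚ) : ℂ) + ((g 1 * N : ℚ) : ℂ) * ζ
            + ((g 2 * N ^ 2 : ℚ) : ℂ) * ζ ^ 2 + ((g 3 * N ^ 3 : ℚ) : ℂ) * ζ ^ 3) = 0 := by
          push_cast
          push_cast at h0
          linear_combination h0
        exact (mul_eq_zero.mp this).resolve_left hz
    obtain ⟨k0, k1, k2, k3⟩ := key
    have k1' : g 1 = 0 := (mul_eq_zero.mp k1).resolve_right hNQ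
    have k2' : g 2 = 0 := (mul_eq_zero.mp k2).resolve_right (pow_ne_zero _ hNQ)
    have k3' : g 3 = 0 := (mul_eq_zero.mp k3).resolve_right (pow_ne_zero _ hNQ)
    ext i
    fin_cases i <;> simp [k0, k1', k2', k3', h4]
  have hg4C : ((g 4 : ℚ) : ℂ) ≠ 0 := by exact_mod_cast hg4
  refine ⟨-(g 0) / g 4, -(g 1 * N) / g 4, -(g 2 * N ^ 2) / g 4, -(g 3 * N ^ 3) / g 4, ?_, ?_⟩
  · push_cast
    field_simp
    linear_combination h0
  · push_cast
    field_simp
    linear_combination h1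

/-- Elements of a stable lattice have non-zero coordinates. -/
lemma coord_ne (ω : Fin 4 → Fin 2 → ℂ) (hω : LinearIndependent ℝ ω) {ζ : ℂ}
    (hζ : IsPrimitiveRoot ζ 5) {N : ℤ} (hN : N ≠ 0)
    (hst : ∀ l ∈ periodLattice ω, N • dg ζ (ζ ^ 2) l ∈ periodLattice ω)
    {l : Fin 2 → ℂ} (hl : l ∈ periodLattice ω) (hl0 : l ≠ 0) : l 0 ≠ 0 ∧ l 1 ≠ 0 := by
  classical
  have hmem : ∀ j, ω j ∈ periodLattice ω := fun j => Submodule.subset_span ⟨j, rfl⟩
  have aux : ∀ s : Fin 2, l s = 0 → False := by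
    intro s hs
    have hall : ∀ j, ω j s = 0 := by
      intro j
      obtain ⟨q0, q1, q2, q3, h0, h1⟩ := exists_poly ω hζ hN hst hl (hmem j) hl0
      fin_cases s
      · simp only [Fin.zero_eta, Fin.isValue] at hs ⊢
        rw [h0, hs, mul_zero]
      · simp only [Fin.mk_one, Fin.isValue] at hs ⊢
        rw [h1, hs, mul_zero]
    obtain ⟨t, ht⟩ : ∃ t : Fin 2, ∀ u : Fin 2, u ≠ s → u = t := by
      fin_cases s
      · exact ⟨1, by decide⟩
      · exact ⟨0, by decide⟩
    have hind : LinearIndependent ℝ (fun j => ω j t) := by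
      rw [Fintype.linearIndependent_iff] at hω ⊢
      intro g hg
      apply hω g
      ext u
      by_cases hu : u = s
      · rw [hu]
        simp [Finset.sum_apply, hall]
      · rw [ht u hu]
        simpa [Finset.sum_apply] using hg
    have := hind.fintype_card_le_finrank
    rw [Complex.finrank_real_complex] at this
    simp at this
  exact ⟨fun h => aux 0 h, fun h => aux 1 h⟩

/-- **A-SIMPLE.** A period lattice stable under `N • diag(ζ, ζ²)`, `ζ` a primitive fifth root of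
unity, `N ≠ 0`, satisfies the simplicity clause of `IsSimpleAbelianSurface`. -/
theorem simple (ω : Fin 4 → Fin 2 → ℂ) (hω : LinearIndependent ℝ ω) {ζ : ℂ}
    (hζ : IsPrimitiveRoot ζ 5) {N : ℤ} (hN : N ≠ 0)
    (hst : ∀ l ∈ periodLattice ω, N • dg ζ (ζ ^ 2) l ∈ periodLattice ω) :
    ∀ l m : Fin 2 → ℂ, l ∈ periodLattice ω → m ∈ periodLattice ω → l ≠ 0 →
      ∀ a : ℂ, m = a • l → a.im = 0 := by
  intro l m hl hm hl0 a ham
  obtain ⟨hz0, hz1⟩ := coord_ne ω hω hζ hN hst hl hl0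
  obtain ⟨q0, q1, q2, q3, h0, h1⟩ := exists_poly ω hζ hN hst hl hm hl0
  rw [ham] at h0 h1
  simp only [Pi.smul_apply, smul_eq_mul] at h0 h1
  have h0' := mul_right_cancel₀ hz0 h0
  have h1' := mul_right_cancel₀ hz1 h1
  have h4 := pow_four hζ
  have h5 : ζ ^ 5 = 1 := hζ.pow_eq_one
  have hk := indep hζ q2 (q1 + q2 - q3) (2 * q2 - q1) (q3 + q2) (by
    have e : (q0 : ℂ) + q1 * ζ + q2 * ζ ^ 2 + q3 * ζ ^ 3
        = (q0 : ℂ) + q1 * ζ ^ 2 + q2 * (ζ ^ 2) ^ 2 + q3 * (ζ ^ 2) ^ 3 := by rw [← h0', ← h1']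
    push_cast
    linear_combination e + (q2 : ℂ) * h4 + (q3 : ℂ) * ζ * h5)
  obtain ⟨k2, k1, k3, k4⟩ := hk
  have e3 : q3 = 0 := by linarith
  have e1 : q1 = 0 := by linarith
  rw [h0', k2, e1, e3]
  simp

/-- Version for an honestly stable lattice. -/
theorem simple' (ω : Fin 4 → Fin 2 → ℂ) (hω : LinearIndependent ℝ ω) {ζ : ℂ}
    (hζ : IsPrimitiveRoot ζ 5)
    (hst : ∀ l ∈ periodLattice ω, ![ζ * l 0, ζ ^ 2 * l 1] ∈ periodLattice ω) :
    ∀ l m : Fin 2 → ℂ, l ∈ periodLattice ω → m ∈ periodLattice ω → l ≠ 0 →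
      ∀ a : ℂ, m = a • l → a.im = 0 :=
  simple ω hω hζ (N := 1) one_ne_zero (fun l hl => by simpa [dg] using hst l hl)



/-- The four vectors `(ζᵏ, ζ²ᵏ)`, `k = 0, 1, 2, 3`: a basis of `Φ(ℤ[ζ])`. -/
noncomputable def om (ζ : ℂ) : Fin 4 → Fin 2 → ℂ := fun k => ![ζ ^ (k : ℕ), (ζ ^ 2) ^ (k : ℕ)]




end Crest.Agent.R272.Simple_729
end

-- ▼ part R272/As151_338
section

/-!
# R272, leaf S15-ASM (helper338), part 1: the end of S0415 for a lattice `Λ ⊆ ℂ²` stable under `D`

* `exists_omega`: a discrete spanning subgroup of `ℂ²` is a period lattice;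
* `simple_diag` : simplicity clause from `D = diag (d₀, d₁)`, `d₀, d₁` primitive fifth roots of unity,
                  `d₁ ≠ d₀`, `d₀ d₁ ≠ 1`;
* `s15_torus`   : `M` compact (connectedness not needed: 259), `f : ℂ² → M` holomorphic immersion with
                  `f z = f w ↔ z - w ∈ Λ`, the periods `Q`, `D² Q`, `D³ Q` die in `M` and `D Q` has
                  infinite order ⟹ S15.
-/

set_option autoImplicit false
set_option linter.unusedSectionVars false

open Set Filter Topology TopologicalSpace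
open Crest.AlgGeometry

namespace Crest.Agent.R272.As15_338

open Crest.Agent.R275.Geo Crest.Agent.R275.Core144 Crest.Agent.R275.GC293
open Crest.Agent.R273.Defs_333 Crest.Agent.R273.Fam_835
open CpEnd_338 TLoop_463 Crest.Agent.R272.AJ_956 UB_20 Simple_729 Comp_259

noncomputable section

/-- a discrete subgroup of `ℂ²` which spans over `ℝ` is a period lattice -/
theorem exists_omega {Λ : AddSubgroup E2} (hdisc : DiscreteTopology Λ)
    (hspan : Submodule.span ℝ (Λ : Set E2) = ⊤) :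
    ∃ ω : Fin 4 → E2, LinearIndependent ℝ ω ∧ (periodLattice ω).toAddSubgroup = Λ := by
  let L : Submodule ℤ E2 := AddSubgroup.toIntSubmodule Λ
  have hd : DiscreteTopology L := hdisc
  have hz : IsZLattice ℝ L := ⟨hspan⟩
  have hn : Module.finrank ℝ E2 = 4 := by
    rw [Module.finrank_pi_fintype]
    simp [Complex.finrank_real_complex]
  have : Module.Finite ℤ L := ZLattice.module_finite ℝ L
  have : Module.Free ℤ L := ZLattice.module_free ℝ L
  have hr : Module.finrank ℤ L = 4 := by rw [ZLattice.rank ℝ, hn]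
  let b := Module.finBasisOfFinrankEq ℤ L hr
  let B := b.ofZLatticeBasis ℝ L
  refine ⟨fun k => B k, B.linearIndependent, ?_⟩
  have h1 : periodLattice (fun k => B k) = L := Module.Basis.ofZLatticeBasis_span ℝ L b
  rw [h1]
  rfl

/-- a primitive fifth root of unity is a power of any other one -/
theorem eq_pow {a b : ℂ} (ha : IsPrimitiveRoot a 5) (hb : IsPrimitiveRoot b 5) (h1 : a ≠ b)
    (h2 : a * b ≠ 1) : b = a ^ 2 ∨ a = b ^ 2 := by
  obtain ⟨i, hi, rfl⟩ := ha.eq_pow_of_pow_eq_one hb.pow_eq_one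
  have h5 : a ^ 5 = 1 := ha.pow_eq_one
  interval_cases i
  · exact absurd hb (by
      intro h
      have := h.pow_inj (i := 0) (j := 1) (by norm_num) (by norm_num) (by simp)
      omega)
  · exact absurd (pow_one a).symm h1
  · exact Or.inl rfl
  · refine Or.inr ?_
    have : (a ^ 3) ^ 2 = a ^ 5 * a := by ring
    rw [this, h5, one_mul]
  · exact absurd (by
      have : a * a ^ 4 = a ^ 5 := by ring
      rw [this, h5]) h2

theorem simple_diag {ω : Fin 4 → E2} (hω : LinearIndependent ℝ ω) {d : Fin 2 → ℂ}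
    (hd : ∀ i, IsPrimitiveRoot (d i) 5) (h1 : d 0 ≠ d 1) (h2 : d 0 * d 1 ≠ 1)
    (hst : ∀ l ∈ periodLattice ω, (fun i => d i * l i) ∈ periodLattice ω) :
    ∀ l m : Fin 2 → ℂ, l ∈ periodLattice ω → m ∈ periodLattice ω → l ≠ 0 →
      ∀ a : ℂ, m = a • l → a.im = 0 := by
  rcases eq_pow (hd 0) (hd 1) h1 h2 with h | h
  · refine simple' ω hω (hd 0) fun l hl => ?_
    convert hst l hl using 1
    funext i
    fin_cases i
    · rfl
    · show d 0 ^ 2 * l 1 = d 1 * l 1
      rw [h]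
  · -- exchange the coordinates
    let e : E2 ≃ₗ[ℝ] E2 := LinearEquiv.funCongrLeft ℝ ℂ (Equiv.swap (0 : Fin 2) 1)
    have he : ∀ (v : E2) (i : Fin 2), e v i = v (Equiv.swap 0 1 i) := fun v i => rfl
    let ω' : Fin 4 → E2 := fun k => e (ω k)
    have hω' : LinearIndependent ℝ ω' := hω.map' e.toLinearMap e.ker
    have hmem : ∀ v, v ∈ periodLattice ω ↔ e v ∈ periodLattice ω' := by
      intro v
      let eZ : E2 ≃+ E2 := e.toAddEquiv
      let eL : E2 →ₗ[ℤ] E2 := eZ.toAddMonoidHom.toIntLinearMap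
      have h3 : periodLattice ω' = (periodLattice ω).map eL := by
        show Submodule.span ℤ (range ω') = (Submodule.span ℤ (range ω)).map eL
        rw [Submodule.map_span]
        congr 1
        rw [← range_comp]
        rfl
      rw [h3, Submodule.mem_map]
      constructor
      · intro hv
        exact ⟨v, hv, rfl⟩
      · rintro ⟨w, hw, hwv⟩
        have : w = v := e.injective hwv
        rwa [← this]
    have h4 := simple' ω' hω' (hd 1) (fun l hl => by
      obtain ⟨v, rfl⟩ := e.surjective l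
      have h5 := (hmem _).1 (hst v ((hmem v).2 hl))
      convert h5 using 1
      funext i
      fin_cases i
      · rfl
      · show d 1 ^ 2 * v (Equiv.swap 0 1 1) = d (Equiv.swap 0 1 1) * v (Equiv.swap 0 1 1)
        rw [Equiv.swap_apply_right, h])
    intro l m hl hm hl0 a ham
    refine h4 (e l) (e m) ((hmem l).1 hl) ((hmem m).1 hm) (fun h => hl0 ?_) a ?_
    · exact e.map_eq_zero_iff.1 h
    · rw [ham]
      rfl

variable {n : ℕ} {M : Type} [TopologicalSpace M] {A : Atl n M}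
variable [T2Space M] [CompactSpace M] [Finite A.ι]

/-- the components are projective -/
def CompProj (A : Atl n M) : Prop :=
  ∀ (U : Opens M) [Nonempty U], IsClosed (U : Set M) → ConnectedSpace U →
    Nonempty (ProjD (subA A U))

theorem compProj_of (P : ProjD A) : CompProj A := fun _ _ _ _ => ⟨subPD P⟩



/-- **S0415 from the immersed torus and its four periods** -/
theorem s15_torus (PA : Part A) (P : CompProj A) {Λ : AddSubgroup E2} (hdisc : DiscreteTopology Λ)
    (hspan : Submodule.span ℝ (Λ : Set E2) = ⊤) {d : Fin 2 → ℂ}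
    (hd : ∀ i, IsPrimitiveRoot (d i) 5) (hd1 : d 0 ≠ d 1) (hd2 : d 0 * d 1 ≠ 1)
    {D : E2 → E2} (hD : ∀ v i, D v i = d i * v i) (hΛ : ∀ v ∈ Λ, D v ∈ Λ)
    (f : C(E2, M)) (hf : HolTo A f) (him : ImmTo A f)
    (hinj : ∀ z w, f z = f w ↔ z - w ∈ Λ) (hper : Per f Λ) (z₀ : E2)
    {Q : E2} (hQ : Q ∈ Λ)
    (h0 : perHom hper z₀ (Multiplicative.ofAdd ⟨Q, hQ⟩) = 1)
    (h1 : ¬ IsOfFinOrder (perHom hper z₀ (Multiplicative.ofAdd ⟨D Q, hΛ _ hQ⟩)))
    (h2 : perHom hper z₀ (Multiplicative.ofAdd ⟨D (D Q), hΛ _ (hΛ _ hQ)⟩) = 1)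
    (h3 : perHom hper z₀ (Multiplicative.ofAdd ⟨D (D (D Q)), hΛ _ (hΛ _ (hΛ _ hQ))⟩) = 1) :
    S15 := by
  obtain ⟨ω, hω, rfl⟩ := exists_omega hdisc hspan
  have hQ0 : Q ≠ 0 := by
    rintro rfl
    apply h1
    have hD0 : D 0 = 0 := by
      funext i
      rw [hD]
      simp
    have : (⟨D 0, hΛ _ hQ⟩ : (periodLattice ω).toAddSubgroup) = 0 := Subtype.ext hD0
    rw [this, ofAdd_zero, map_one]
    exact IsOfFinOrder.one
  refine s15_aux PA hω (simple_diag hω hd hd1 hd2 fun l hl => ?_) f hf hper z₀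
    ⟨D Q, hΛ _ hQ⟩ h1 (fun l => ?_) P (Or.inr ⟨him, hinj⟩)
  · have h4 : D l ∈ (periodLattice ω).toAddSubgroup := hΛ l hl
    have h5 : D l = fun i => d i * l i := funext fun i => hD l i
    rwa [h5] at h4
  · exact brace hspan hD hd hΛ hQ hQ0 (perHom hper z₀) h0 h2 h3 l

end

end Crest.Agent.R272.As15_338
end

-- ▼ part R272/As152_338

/-!
# R272, leaf S15-ASM (helper338), part 2: holomorphic immersions `ℂ² → X` in the `Fam` language

* `ImmF C f` : at every point, in ONE chart of the family `C`, `f` is differentiable with injective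
               differential;
* `ImmF.holTo`, `ImmF.immTo` : `HolTo A f`, `ImmTo A f` for every atlas `A` compatible with `C`;
* `Pos C`    : a finite good atlas compatible with `C` whose components are projective;
* `s15_fam`  : S0415 from `f : ℂ² → X`.
-/

set_option autoImplicit false
set_option linter.unusedSectionVars false

open Set Filter Topology TopologicalSpace
open Crest.AlgGeometry

namespace Crest.Agent.R272.As15_338

open Crest.Agent.R275.Geo Crest.Agent.R275.Core144 Crest.Agent.R275.GC293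
open Crest.Agent.R273.Defs_333 Crest.Agent.R273.Fam_835
open CpEnd_338 TLoop_463 Crest.Agent.R272.AJ_956 UB_20 Simple_729 Comp_259 DCov_426

noncomputable section

variable {n m : ℕ} {X Y : Type} [TopologicalSpace X] [TopologicalSpace Y]

/-- at every point, in one chart of `C`, `f` is differentiable with injective differential -/
def ImmF (C : Fam n X) (f : E2 → X) : Prop :=
  ∀ z, ∃ i, f z ∈ (C.e i).source ∧ DifferentiableAt ℂ (fun w => C.e i (f w)) z ∧
    ∀ v, fderiv ℂ (fun w => C.e i (f w)) z v = 0 → v = 0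

variable {C : Fam n X} {D : Fam m Y} {A : Atl n X}

/-- differentiable in one chart, hence in all charts of a compatible atlas -/
theorem diff_chart (h : HolC C (fam A) id) {f : E2 → X} (hc : Continuous f) {z : E2} {i : C.ι}
    {j : A.ι} (hi : f z ∈ (C.e i).source) (hj : f z ∈ (A.e j).source)
    (hd : DifferentiableAt ℂ (fun w => C.e i (f w)) z) :
    DifferentiableAt ℂ (fun w => A.e j (f w)) z := by
  have h1 : DifferentiableAt ℂ (fun y => A.e j ((C.e i).symm y)) (C.e i (f z)) :=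
    h.diffAt (i := i) (j := j) ((C.e i).map_source hi) (by
      show (C.e i).symm (C.e i (f z)) ∈ (A.e j).source
      rw [(C.e i).left_inv hi]; exact hj)
  have h2 := h1.comp z (f := fun w => C.e i (f w)) hd
  refine h2.congr_of_eventuallyEq ?_
  filter_upwards [hc.continuousAt.eventually ((C.e i).open_source.mem_nhds hi)] with w hw
  simp only [Function.comp_apply, (C.e i).left_inv hw]

theorem ImmF.holTo (h : Cmp C A) {f : E2 → X} (hc : Continuous f) (hf : ImmF C f) : HolTo A f := by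
  intro j z hj
  obtain ⟨i, hi, hd, -⟩ := hf z
  exact diff_chart h.bwd hc hi hj hd

theorem ImmF.immTo (h : Cmp C A) {f : E2 → X} (hc : Continuous f) (hf : ImmF C f) : ImmTo A f := by
  intro z
  obtain ⟨i, hi, hd, hinj⟩ := hf z
  obtain ⟨j, hj⟩ := A.cover (f z)
  refine ⟨j, hj, fun v hv => hinj v ?_⟩
  have h0 := diff_chart h.bwd hc hi hj hd
  have h1 : DifferentiableAt ℂ (fun y => C.e i ((A.e j).symm y)) (A.e j (f z)) :=
    h.fwd.diffAt (i := j) (j := i) ((A.e j).map_source hj) (by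
      show (A.e j).symm (A.e j (f z)) ∈ (C.e i).source
      rw [(A.e j).left_inv hj]; exact hi)
  have h2 : HasFDerivAt (fun w => C.e i ((A.e j).symm (A.e j (f w))))
      ((fderiv ℂ (fun y => C.e i ((A.e j).symm y)) (A.e j (f z))).comp
        (fderiv ℂ (fun w => A.e j (f w)) z)) z :=
    HasFDerivAt.comp (g := fun y => C.e i ((A.e j).symm y)) (f := fun w => A.e j (f w)) z
      h1.hasFDerivAt h0.hasFDerivAt
  have h3 : HasFDerivAt (fun w => C.e i (f w))
      ((fderiv ℂ (fun y => C.e i ((A.e j).symm y)) (A.e j (f z))).comp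
        (fderiv ℂ (fun w => A.e j (f w)) z)) z := by
    refine h2.congr_of_eventuallyEq ?_
    filter_upwards [hc.continuousAt.eventually ((A.e j).open_source.mem_nhds hj)] with w hw
    rw [(A.e j).left_inv hw]
  rw [h3.fderiv, ContinuousLinearMap.comp_apply, hv, map_zero]


/-- a finite good atlas compatible with `C` whose components are projective -/
def PosF (C : Fam n X) : Prop :=
  ∃ A : Atl n X, Finite A.ι ∧ Nonempty (Part A) ∧ Cmp C A ∧ CompProj A

variable [T2Space X] [CompactSpace X]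

theorem posF_of_projD {A : Atl n X} [Finite A.ι] (PA : Part A) (h : Cmp C A) (P : ProjD A) :
    PosF C := ⟨A, inferInstance, ⟨PA⟩, h, compProj_of P⟩



/-- **S0415, `Fam` language** -/
theorem s15_fam (hC : PosF C) {Λ : AddSubgroup E2} (hdisc : DiscreteTopology Λ)
    (hspan : Submodule.span ℝ (Λ : Set E2) = ⊤) {d : Fin 2 → ℂ}
    (hd : ∀ i, IsPrimitiveRoot (d i) 5) (hd1 : d 0 ≠ d 1) (hd2 : d 0 * d 1 ≠ 1)
    {D : E2 → E2} (hD : ∀ v i, D v i = d i * v i) (hΛ : ∀ v ∈ Λ, D v ∈ Λ)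
    (f : C(E2, X)) (hf : ImmF C f)
    (hinj : ∀ z w, f z = f w ↔ z - w ∈ Λ) (hper : Per f Λ) (z₀ : E2)
    {Q : E2} (hQ : Q ∈ Λ)
    (h0 : perHom hper z₀ (Multiplicative.ofAdd ⟨Q, hQ⟩) = 1)
    (h1 : ¬ IsOfFinOrder (perHom hper z₀ (Multiplicative.ofAdd ⟨D Q, hΛ _ hQ⟩)))
    (h2 : perHom hper z₀ (Multiplicative.ofAdd ⟨D (D Q), hΛ _ (hΛ _ hQ)⟩) = 1)
    (h3 : perHom hper z₀ (Multiplicative.ofAdd ⟨D (D (D Q)), hΛ _ (hΛ _ (hΛ _ hQ))⟩) = 1) :
    S15 := by
  obtain ⟨A, _, ⟨PA⟩, hc, P⟩ := hC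
  exact s15_torus PA P hdisc hspan hd hd1 hd2 hD hΛ f (hf.holTo hc f.continuous)
    (hf.immTo hc f.continuous) hinj hper z₀ hQ h0 h1 h2 h3

end

end Crest.Agent.R272.As15_338
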