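import Mathlib
import Crest.Prelude.Def_RatCurveLoops
import Crest.Agent.R266.P1Poly
import Crest.Agent.R273.Defs_333

-- ▼ part R272/CpRat1_423
section

/-!
# R272 / CpRat1 (helper423): holomorphic maps from the projective line are binary forms

* `pt b z`: the two affine charts `(1,z)`, `(z,1)` of the parameters of a `RatCurve`;
* `vec_smul`, `deriv_smul`, `euler`, `hasDerivAt_vec`, `tangentPlane_pt`, `tangentPlane_smul`;
* `exists_ratCurve`: two maps `u false, u true : ℂ → CPn N` with local holomorphic non-vanishing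
  lifts and `u true z⁻¹ = u false z`, not constant, come from a `RatCurve N`.
-/

set_option autoImplicit false

open Set Filter Topology
open Crest.AlgGeometry
open Crest.Agent.R266.Rat (Par pev)

namespace Crest.Agent.R272.CpRat423

noncomputable section

/-! ### the two affine charts of the parameters -/

/-- the two affine charts of the parameter line -/
def pt (b : Bool) (z : ℂ) : Fin 2 → ℂ := if b then ![z, 1] else ![1, z]

/-- the index of the moving parameter -/
def mi (b : Bool) : Fin 2 := if b then 0 else 1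

@[simp] lemma pt_false (z : ℂ) : pt false z = ![1, z] := rfl
@[simp] lemma pt_true (z : ℂ) : pt true z = ![z, 1] := rfl

lemma pt_ne (b : Bool) (z : ℂ) : pt b z ≠ 0 := by
  intro h
  cases b
  · have := congrFun h 0
    simp at this
  · have := congrFun h 1
    simp at this

lemma exists_pt {st : Fin 2 → ℂ} (h : st ≠ 0) : ∃ (b : Bool) (z c : ℂ), c ≠ 0 ∧ st = c • pt b z := by
  by_cases h0 : st 0 = 0
  · have h1 : st 1 ≠ 0 := by
      intro h1
      apply h
      funext i
      fin_cases i <;> simp [h0, h1]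
    refine ⟨true, 0, st 1, h1, ?_⟩
    funext i
    fin_cases i <;> simp [h0]
  · refine ⟨false, st 1 / st 0, st 0, h0, ?_⟩
    funext i
    fin_cases i
    · simp
    · simp [mul_div_cancel₀ _ h0]

/-! ### evaluation of forms -/

theorem eval_smul' {σ : Type*} [Fintype σ] {φ : MvPolynomial σ ℂ} {d : ℕ} (h : φ.IsHomogeneous d)
    (c : ℂ) (v : σ → ℂ) : MvPolynomial.eval (c • v) φ = c ^ d * MvPolynomial.eval v φ := by
  rw [MvPolynomial.eval_eq', MvPolynomial.eval_eq', Finset.mul_sum]
  refine Finset.sum_congr rfl fun e he => ?_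
  have h1 : ∑ i, e i = d := by
    have h2 := h (MvPolynomial.mem_support_iff.1 he)
    rw [← h2, Finsupp.weight_apply, Finsupp.sum_fintype]
    · simp
    · intro i
      simp
  have h2 : ∏ i, (c • v) i ^ e i = c ^ d * ∏ i, v i ^ e i := by
    rw [← h1, ← Finset.prod_pow_eq_pow_sum, ← Finset.prod_mul_distrib]
    exact Finset.prod_congr rfl fun i _ => by rw [Pi.smul_apply, smul_eq_mul, mul_pow]
  rw [h2]
  ring

lemma hasDerivAt_pt (b : Bool) (i : Fin 2) (z : ℂ) :
    HasDerivAt (fun w => pt b w i) (if i = mi b then 1 else 0) z := by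
  cases b <;> fin_cases i
  · simpa [mi] using hasDerivAt_const z (1 : ℂ)
  · simpa [mi] using hasDerivAt_id' z
  · simpa [mi] using hasDerivAt_id' z
  · simpa [mi] using hasDerivAt_const z (1 : ℂ)

lemma hasDerivAt_eval (b : Bool) (p : MvPolynomial (Fin 2) ℂ) (z : ℂ) :
    HasDerivAt (fun w => MvPolynomial.eval (pt b w) p)
      (MvPolynomial.eval (pt b z) (MvPolynomial.pderiv (mi b) p)) z := by
  induction p using MvPolynomial.induction_on with
  | C a => simpa using hasDerivAt_const z a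
  | add p q hp hq =>
    simp only [map_add]
    exact hp.fun_add hq
  | mul_X p i hp =>
    have h := hp.fun_mul (hasDerivAt_pt b i z)
    simp only [map_mul, MvPolynomial.eval_X]
    refine h.congr_deriv ?_
    rw [Derivation.leibniz, MvPolynomial.pderiv_X]
    by_cases hi : i = mi b
    · subst hi
      simp
      ring
    · simp [hi, mul_comm]

variable {N : ℕ}

lemma vec_smul (φ : RatCurve N) (c : ℂ) (st : Fin 2 → ℂ) :
    φ.vec (c • st) = c ^ φ.deg • φ.vec st := by
  funext j
  exact eval_smul' (φ.homog j) c st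

lemma deriv_smul (φ : RatCurve N) (i : Fin 2) (c : ℂ) (st : Fin 2 → ℂ) :
    φ.deriv i (c • st) = c ^ (φ.deg - 1) • φ.deriv i st := by
  funext j
  exact eval_smul' (φ.homog j).pderiv c st

lemma euler (φ : RatCurve N) (st : Fin 2 → ℂ) :
    st 0 • φ.deriv 0 st + st 1 • φ.deriv 1 st = (φ.deg : ℂ) • φ.vec st := by
  funext j
  have h := congrArg (MvPolynomial.eval st) (φ.homog j).sum_X_mul_pderiv
  simp only [Fin.sum_univ_two, map_add, map_mul, MvPolynomial.eval_X, map_nsmul] at h
  simpa [RatCurve.deriv, RatCurve.vec, nsmul_eq_mul] using h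

lemma hasDerivAt_vec (φ : RatCurve N) (b : Bool) (z : ℂ) :
    HasDerivAt (fun w => φ.vec (pt b w)) (φ.deriv (mi b) (pt b z)) z := by
  rw [hasDerivAt_pi]
  intro j
  exact hasDerivAt_eval b (φ.form j) z

lemma tangentPlane_smul (φ : RatCurve N) {c : ℂ} (hc : c ≠ 0) (st : Fin 2 → ℂ) :
    φ.tangentPlane (c • st) = φ.tangentPlane st := by
  have hc' : c ^ (φ.deg - 1) ≠ 0 := pow_ne_zero _ hc
  unfold RatCurve.tangentPlane
  apply le_antisymm
  · rw [Submodule.span_le]
    rintro _ ⟨i, rfl⟩
    simp only [deriv_smul]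
    exact Submodule.smul_mem _ _ (Submodule.subset_span ⟨i, rfl⟩)
  · rw [Submodule.span_le]
    rintro _ ⟨i, rfl⟩
    have h : φ.deriv i st = (c ^ (φ.deg - 1))⁻¹ • φ.deriv i (c • st) := by
      rw [deriv_smul, inv_smul_smul₀ hc']
    simp only [h]
    exact Submodule.smul_mem _ _ (Submodule.subset_span ⟨i, rfl⟩)

lemma range_deriv_pt (φ : RatCurve N) (st : Fin 2 → ℂ) :
    (Set.range fun i : Fin 2 => φ.deriv i st) = {φ.deriv 0 st, φ.deriv 1 st} := by
  ext v
  simp only [Set.mem_range, Set.mem_insert_iff, Set.mem_singleton_iff, Fin.exists_fin_two]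
  constructor
  · rintro (h | h)
    · exact Or.inl h.symm
    · exact Or.inr h.symm
  · rintro (h | h)
    · exact Or.inl h.symm
    · exact Or.inr h.symm

/-- the tangent plane in an affine chart: value and derivative -/
lemma tangentPlane_pt (φ : RatCurve N) (b : Bool) (z : ℂ) :
    φ.tangentPlane (pt b z) =
      Submodule.span ℂ {φ.vec (pt b z), φ.deriv (mi b) (pt b z)} := by
  have hd : (φ.deg : ℂ) ≠ 0 := Nat.cast_ne_zero.2 φ.deg_pos.ne'
  have he := euler φ (pt b z)
  unfold RatCurve.tangentPlane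
  rw [range_deriv_pt]
  apply le_antisymm
  · rw [Submodule.span_le]
    intro v hv
    simp only [Set.mem_insert_iff, Set.mem_singleton_iff] at hv
    simp only [SetLike.mem_coe, Submodule.mem_span_pair]
    cases b
    · simp only [pt_false, Matrix.cons_val_zero, Matrix.cons_val_one, one_smul, mi] at he hv ⊢
      rcases hv with rfl | rfl
      · refine ⟨(φ.deg : ℂ), -z, ?_⟩
        simp only [Bool.false_eq_true, if_false]
        rw [← he]
        module
      · exact ⟨0, 1, by simp⟩
    · simp only [pt_true, Matrix.cons_val_zero, Matrix.cons_val_one, one_smul, mi] at he hv ⊢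
      rcases hv with rfl | rfl
      · exact ⟨0, 1, by simp⟩
      · refine ⟨(φ.deg : ℂ), -z, ?_⟩
        simp only [if_true]
        rw [← he]
        module
  · rw [Submodule.span_le]
    intro v hv
    simp only [Set.mem_insert_iff, Set.mem_singleton_iff] at hv
    simp only [SetLike.mem_coe, Submodule.mem_span_pair]
    rcases hv with rfl | rfl
    · refine ⟨(φ.deg : ℂ)⁻¹ * pt b z 0, (φ.deg : ℂ)⁻¹ * pt b z 1, ?_⟩
      rw [mul_smul, mul_smul, ← smul_add, he, inv_smul_smul₀ hd]
    · cases b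
      · exact ⟨0, 1, by simp [mi]⟩
      · exact ⟨1, 0, by simp [mi]⟩

/-- independence of the two partial derivatives in an affine chart -/
lemma linInd_pt (φ : RatCurve N) (b : Bool) (z : ℂ)
    (h : LinearIndependent ℂ ![φ.vec (pt b z), φ.deriv (mi b) (pt b z)]) :
    LinearIndependent ℂ (fun i : Fin 2 => φ.deriv i (pt b z)) := by
  have hd : (φ.deg : ℂ) ≠ 0 := Nat.cast_ne_zero.2 φ.deg_pos.ne'
  have he := euler φ (pt b z)
  have e0 : (fun i : Fin 2 => φ.deriv i (pt b z)) =
      ![φ.deriv 0 (pt b z), φ.deriv 1 (pt b z)] := by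
    funext i
    fin_cases i <;> rfl
  rw [e0, LinearIndependent.pair_iff]
  rw [LinearIndependent.pair_iff] at h
  intro s t hst
  cases b
  · simp only [pt_false, Matrix.cons_val_zero, Matrix.cons_val_one, one_smul, mi,
      Bool.false_eq_true, if_false] at he h hst
    have h0 : φ.deriv 0 ![1, z] = (φ.deg : ℂ) • φ.vec ![1, z] - z • φ.deriv 1 ![1, z] := by
      rw [← he]
      module
    rw [h0] at hst
    obtain ⟨h1, h2⟩ := h (s * φ.deg) (t - s * z) (by rw [← hst]; module)
    have hs : s = 0 := by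
      rcases mul_eq_zero.1 h1 with h | h
      · exact h
      · exact absurd h hd
    refine ⟨hs, ?_⟩
    rw [hs] at h2
    simpa using h2
  · simp only [pt_true, Matrix.cons_val_zero, Matrix.cons_val_one, one_smul, mi,
      if_true] at he h hst
    have h0 : φ.deriv 1 ![z, 1] = (φ.deg : ℂ) • φ.vec ![z, 1] - z • φ.deriv 0 ![z, 1] := by
      rw [← he]
      module
    rw [h0] at hst
    obtain ⟨h1, h2⟩ := h (t * φ.deg) (s - t * z) (by rw [← hst]; module)
    have hs : t = 0 := by
      rcases mul_eq_zero.1 h1 with h | h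
      · exact h
      · exact absurd h hd
    refine ⟨?_, hs⟩
    rw [hs] at h2
    simpa using h2

lemma linInd_smul (φ : RatCurve N) {c : ℂ} (hc : c ≠ 0) (st : Fin 2 → ℂ)
    (h : LinearIndependent ℂ (fun i : Fin 2 => φ.deriv i st)) :
    LinearIndependent ℂ (fun i : Fin 2 => φ.deriv i (c • st)) := by
  have hc' : c ^ (φ.deg - 1) ≠ 0 := pow_ne_zero _ hc
  have h1 := h.units_smul (fun _ => Units.mk0 _ hc')
  have h2 : (fun i : Fin 2 => φ.deriv i (c • st)) =
      (fun _ : Fin 2 => Units.mk0 _ hc') • fun i : Fin 2 => φ.deriv i st := by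
    funext i
    rw [deriv_smul]
    rfl
  rw [h2]
  exact h1

/-! ### the existence theorem -/

/-- `f` is a local holomorphic non-vanishing lift of `u` near `z0` -/
def IsLift (u : ℂ → CPn N) (f : ℂ → Fin (N + 1) → ℂ) (z0 : ℂ) : Prop :=
  AnalyticAt ℂ f z0 ∧ ∀ᶠ z in 𝓝 z0, ∃ h : f z ≠ 0, u z = CPn.mk (f z) h

/-- the binary form with coefficients `a` -/
def bform {d : ℕ} (a : Fin (d + 1) → ℂ) : MvPolynomial (Fin 2) ℂ :=
  ∑ i : Fin (d + 1), MvPolynomial.C (a i) *
    (MvPolynomial.X 0 ^ (d - (i : ℕ)) * MvPolynomial.X 1 ^ (i : ℕ))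

lemma bform_homog {d : ℕ} (a : Fin (d + 1) → ℂ) : (bform a).IsHomogeneous d := by
  unfold bform
  refine MvPolynomial.IsHomogeneous.sum _ _ _ fun i _ => ?_
  have h1 := ((MvPolynomial.isHomogeneous_X_pow (R := ℂ) (0 : Fin 2) (d - (i : ℕ))).mul
    (MvPolynomial.isHomogeneous_X_pow (R := ℂ) (1 : Fin 2) (i : ℕ)))
  have h2 : d - (i : ℕ) + (i : ℕ) = d := Nat.sub_add_cancel (Nat.lt_succ_iff.1 i.2)
  rw [h2] at h1
  simpa using (MvPolynomial.isHomogeneous_C (Fin 2) (a i)).mul h1

lemma eval_bform {d : ℕ} (a : Fin (d + 1) → ℂ) (st : Fin 2 → ℂ) :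
    MvPolynomial.eval st (bform a) = ∑ i, a i * (st 0 ^ (d - (i : ℕ)) * st 1 ^ (i : ℕ)) := by
  simp [bform]

lemma eval_bform_false {d : ℕ} (q : Fin (N + 1) → Fin (d + 1) → ℂ) (z : ℂ) :
    (fun j => MvPolynomial.eval (pt false z) (bform (q j))) = pev q z := by
  funext j
  rw [eval_bform]
  simp [pev]

lemma eval_bform_zero {d : ℕ} (q : Fin (N + 1) → Fin (d + 1) → ℂ) :
    (fun j => MvPolynomial.eval (pt true 0) (bform (q j))) = fun j => q j (Fin.last d) := by
  funext j
  rw [eval_bform, Finset.sum_eq_single (Fin.last d)]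
  · simp
  · intro i _ hi
    have : d - (i : ℕ) ≠ 0 := by
      have h1 : (i : ℕ) < d := by
        rcases (Nat.lt_succ_iff.1 i.2).lt_or_eq with h | h
        · exact h
        · exact absurd (Fin.ext (by simpa using h)) hi
      omega
    simp [this]
  · intro h
    exact absurd (Finset.mem_univ _) h

lemma pt_true_eq {z : ℂ} (hz : z ≠ 0) : pt true z = z • pt false z⁻¹ := by
  funext i
  fin_cases i
  · simp
  · simp [mul_inv_cancel₀ hz]

lemma mk_eq_of_par {v w : Fin (N + 1) → ℂ} (hv : v ≠ 0) (hw : w ≠ 0) (h : Par v w) :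
    CPn.mk v hv = CPn.mk w hw := by
  obtain ⟨i, hi⟩ : ∃ i, w i ≠ 0 := by
    by_contra hcon
    push Not at hcon
    exact hw (funext hcon)
  refine (Projectivization.mk_eq_mk_iff' ℂ _ _ _ _).2 ⟨v i / w i, ?_⟩
  funext j
  have := h i j
  simp only [Pi.smul_apply, smul_eq_mul]
  field_simp
  linear_combination this

lemma mk_eq_of_smul {v w : Fin (N + 1) → ℂ} (hv : v ≠ 0) (hw : w ≠ 0) {c : ℂ} (h : v = c • w) :
    CPn.mk v hv = CPn.mk w hw :=
  (Projectivization.mk_eq_mk_iff' ℂ _ _ _ _).2 ⟨c, h.symm⟩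

/-- **Holomorphic maps from the projective line to projective space are given by binary forms.** -/
theorem exists_ratCurve (u : Bool → ℂ → CPn N) (hl : ∀ b z0, ∃ f, IsLift (u b) f z0)
    (hg : ∀ z : ℂ, z ≠ 0 → u true z⁻¹ = u false z) (hne : ∃ z z', u false z ≠ u false z') :
    ∃ φ : RatCurve N, ∀ b z, u b z = CPn.mk (φ.vec (pt b z)) (φ.noBase _ (pt_ne b z)) := by
  classical
  set c : ℂ → Fin (N + 1) → ℂ := fun z => Projectivization.rep (u false z) with hc
  have hc0 : ∀ z, c z ≠ 0 := fun z => Projectivization.rep_nonzero _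
  have hcmk : ∀ z, CPn.mk (c z) (hc0 z) = u false z := fun z => Projectivization.mk_rep _
  have hlift : ∀ b z0 f, IsLift (u b) f z0 → ∀ᶠ z in 𝓝 z0, ∃ l : ℂ, l ≠ 0 ∧
      Projectivization.rep (u b z) = l • f z := by
    intro b z0 f hf
    filter_upwards [hf.2] with z hz
    obtain ⟨h, hz⟩ := hz
    have h1 : CPn.mk (Projectivization.rep (u b z)) (Projectivization.rep_nonzero _) =
        CPn.mk (f z) h := by
      rw [← hz]; exact Projectivization.mk_rep _
    obtain ⟨a, ha⟩ := (Projectivization.mk_eq_mk_iff ℂ _ _ _ _).1 h1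
    exact ⟨a, a.ne_zero, ha.symm⟩
  obtain ⟨κi, hκi⟩ := hl true 0
  have hκi0 : κi 0 ≠ 0 := hκi.2.self_of_nhds.1
  obtain ⟨d, q, hq, ⟨i, hi⟩, hpar, hpar0⟩ := Crest.Agent.R266.P1.p1_poly_pure c hc0
    (fun z0 => by
      obtain ⟨f, hf⟩ := hl false z0
      exact ⟨f, hf.1, hf.2.self_of_nhds.1, hlift false z0 f hf⟩)
    κi hκi.1 hκi0 (by
      have h1 := hlift true 0 κi hκi
      rw [eventually_nhdsWithin_iff]
      filter_upwards [h1] with w hw hw0
      obtain ⟨l, hl, hw⟩ := hw
      refine ⟨l, hl, ?_⟩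
      have h2 : u false w⁻¹ = u true w := by
        rw [← hg w⁻¹ (inv_ne_zero hw0), inv_inv]
      simp only [hc, h2]
      exact hw)
  have hlast : (fun j => q j (Fin.last d)) ≠ 0 := fun h => hi (congrFun h i)
  have hnb : ∀ st : Fin 2 → ℂ, st ≠ 0 → (fun j => MvPolynomial.eval st (bform (q j))) ≠ 0 := by
    intro st hst
    have hred : ∀ (c : ℂ) (v : Fin 2 → ℂ), (fun j => MvPolynomial.eval (c • v) (bform (q j))) =
        c ^ d • fun j => MvPolynomial.eval v (bform (q j)) := by
      intro c v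
      funext j
      exact eval_smul' (bform_homog (q j)) c v
    obtain ⟨b, z, c, hc, rfl⟩ := exists_pt hst
    rw [hred]
    refine smul_ne_zero (pow_ne_zero _ hc) ?_
    cases b
    · rw [eval_bform_false]
      exact hq z
    · by_cases hz : z = 0
      · rw [hz, eval_bform_zero]
        exact hlast
      · rw [pt_true_eq hz, hred]
        refine smul_ne_zero (pow_ne_zero _ hz) ?_
        rw [eval_bform_false]
        exact hq _
  have hdpos : 0 < d := by
    rcases Nat.eq_zero_or_pos d with h0 | h0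
    · exfalso
      subst h0
      obtain ⟨z, z', hzz⟩ := hne
      apply hzz
      have hconst : ∀ z z', pev q z = pev q z' := by
        intro z z'
        funext j
        simp [pev]
      rw [← hcmk z, ← hcmk z', ← mk_eq_of_par (hq z) (hc0 z) (hpar z),
        ← mk_eq_of_par (hq z') (hc0 z') (hpar z')]
      exact mk_eq_of_smul _ _ (c := 1) (by rw [one_smul]; exact hconst z z')
    · exact h0
  let φ : RatCurve N :=
    { deg := d
      deg_pos := hdpos
      form := fun j => bform (q j)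
      homog := fun j => bform_homog (q j)
      noBase := hnb }
  have hfalse : ∀ z, u false z = CPn.mk (φ.vec (pt false z)) (φ.noBase _ (pt_ne false z)) := by
    intro z
    rw [← hcmk z, ← mk_eq_of_par (hq z) (hc0 z) (hpar z)]
    congr 1
    exact (eval_bform_false q z).symm
  refine ⟨φ, fun b z => ?_⟩
  cases b
  · exact hfalse z
  · by_cases hz : z = 0
    · subst hz
      obtain ⟨h, hu⟩ := hκi.2.self_of_nhds
      rw [hu, ← mk_eq_of_par hlast h hpar0]
      congr 1
      exact (eval_bform_zero q).symm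
    · have h1 : u true z = u false z⁻¹ := by
        rw [← hg z⁻¹ (inv_ne_zero hz), inv_inv]
      rw [h1, hfalse]
      refine (mk_eq_of_smul _ _ (c := z ^ φ.deg) ?_).symm
      rw [← vec_smul, ← pt_true_eq hz]

/-- two lifts of the same germ of curves span the same plane together with their derivatives -/
theorem span_lift {u : ℂ → CPn N} {f g : ℂ → Fin (N + 1) → ℂ} {z0 : ℂ} (hf : IsLift u f z0)
    (hg : IsLift u g z0) :
    Submodule.span ℂ {f z0, deriv f z0} ≤ Submodule.span ℂ {g z0, deriv g z0} := by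
  obtain ⟨hf1, hf2⟩ := hf
  obtain ⟨hg1, hg2⟩ := hg
  obtain ⟨hg0, -⟩ := hg2.self_of_nhds
  obtain ⟨i, hi⟩ : ∃ i, g z0 i ≠ 0 := by
    by_contra hcon
    push Not at hcon
    exact hg0 (funext hcon)
  have hfd := hf1.differentiableAt
  have hgd := hg1.differentiableAt
  have hfi : DifferentiableAt ℂ (fun z => f z i) z0 := (differentiableAt_pi.1 hfd) i
  have hgi : DifferentiableAt ℂ (fun z => g z i) z0 := (differentiableAt_pi.1 hgd) i
  have hev : f =ᶠ[𝓝 z0] fun z => (f z i / g z i) • g z := by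
    filter_upwards [hf2, hg2, hgi.continuousAt.eventually_ne hi] with z h1 h2 h3
    obtain ⟨h1', h1⟩ := h1
    obtain ⟨h2', h2⟩ := h2
    rw [h1] at h2
    obtain ⟨a, ha⟩ := (Projectivization.mk_eq_mk_iff' ℂ _ _ _ _).1 h2
    rw [← ha]
    simp only [Pi.smul_apply, smul_eq_mul, mul_div_assoc, div_self h3, mul_one]
  have hlam : DifferentiableAt ℂ (fun z => f z i / g z i) z0 := hfi.div hgi hi
  have hder : deriv f z0 = (f z0 i / g z0 i) • deriv g z0 +
      deriv (fun z => f z i / g z i) z0 • g z0 := by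
    rw [hev.deriv_eq, deriv_fun_smul hlam hgd]
  rw [Submodule.span_le]
  intro v hv
  simp only [Set.mem_insert_iff, Set.mem_singleton_iff] at hv
  simp only [SetLike.mem_coe, Submodule.mem_span_pair]
  rcases hv with rfl | rfl
  · exact ⟨f z0 i / g z0 i, 0, by rw [zero_smul, add_zero]; exact hev.self_of_nhds.symm⟩
  · exact ⟨deriv (fun z => f z i / g z i) z0, f z0 i / g z0 i, by rw [hder]; exact add_comm _ _⟩

end

end Crest.Agent.R272.CpRat423
end

-- ▼ part R272/CpRat2_423

/-!
# R272 / CpRat2 (helper423): rational curves of an abstract projective manifold as `RatCurve` data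

* `P1C A`       : holomorphic injective immersion of the projective line (two charts `z`, `1/z`);
* `Trans γ δ`   : transversality of two such curves at common points;
* `Rep T γ φ`   : the rational curve `φ` represents `T ∘ γ`;
* `exists_rep`, `Rep.smooth`, `Rep.tangent_ne`, `Rep.carrier_eq`, `exists_nodal`.
-/

set_option autoImplicit false
set_option maxHeartbeats 400000

open Set Filter Topology
open Crest.AlgGeometry
open Crest.Agent.R275.Geo Crest.Agent.R275.Core144 Crest.Agent.R273.Defs_333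

namespace Crest.Agent.R272.CpRat423

noncomputable section

variable {n : ℕ} {M : Type} [TopologicalSpace M] {A : Atl n M}

/-- holomorphic injective immersion of the projective line into `M`, in the charts `z` (`false`)
and `1/z` (`true`); at every point ONE chart of `M` is enough -/
structure P1C (A : Atl n M) where
  g : Bool → ℂ → M
  glue : ∀ z : ℂ, z ≠ 0 → g true z⁻¹ = g false z
  cont : ∀ b, Continuous (g b)
  hol : ∀ b z, ∃ i, g b z ∈ (A.e i).source ∧ DifferentiableAt ℂ (fun w => A.e i (g b w)) z ∧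
    deriv (fun w => A.e i (g b w)) z ≠ 0
  inj : Function.Injective (g false)
  ninf : g true 0 ∉ range (g false)

/-- the image of the curve -/
def P1C.img (γ : P1C A) : Set M := range (γ.g false) ∪ range (γ.g true)

/-- transversality at all common points (ONE chart at each common point is enough) -/
def Trans (γ δ : P1C A) : Prop :=
  ∀ b z b' z', γ.g b z = δ.g b' z' → ∃ i, γ.g b z ∈ (A.e i).source ∧
    ¬ ∃ c : ℂ, deriv (fun w => A.e i (δ.g b' w)) z' = c • deriv (fun w => A.e i (γ.g b w)) z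

/-! ### change of chart for curves -/

theorem diff_chart {γ : ℂ → M} {z : ℂ} (hc : ContinuousAt γ z) {i j : A.ι}
    (hi : γ z ∈ (A.e i).source) (hj : γ z ∈ (A.e j).source)
    (hd : DifferentiableAt ℂ (fun w => A.e i (γ w)) z) :
    DifferentiableAt ℂ (fun w => A.e j (γ w)) z := by
  have ho : IsOpen {w | w ∈ (A.e i).target ∧ (A.e i).symm w ∈ (A.e j).source} :=
    isOpen_ov (A := A) i j
  have hm : A.e i (γ z) ∈ {w | w ∈ (A.e i).target ∧ (A.e i).symm w ∈ (A.e j).source} :=
    ⟨(A.e i).map_source hi, by rw [(A.e i).left_inv hi]; exact hj⟩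
  have h2 : DifferentiableAt ℂ (fun w => A.e j ((A.e i).symm w)) (A.e i (γ z)) :=
    (A.holo i j).differentiableAt (ho.mem_nhds hm)
  have h3 := DifferentiableAt.comp z (f := fun w => A.e i (γ w)) h2 hd
  refine h3.congr_of_eventuallyEq ?_
  filter_upwards [hc.eventually ((A.e i).open_source.mem_nhds hi)] with w hw
  simp [Function.comp, (A.e i).left_inv hw]

/-- the derivative in one chart is the image of the derivative in the other one -/
theorem deriv_chart {γ : ℂ → M} {z : ℂ} (hc : ContinuousAt γ z) {i j : A.ι}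
    (hi : γ z ∈ (A.e i).source) (hj : γ z ∈ (A.e j).source)
    (hd : DifferentiableAt ℂ (fun w => A.e i (γ w)) z) :
    deriv (fun w => A.e j (γ w)) z =
      fderiv ℂ (fun w => A.e j ((A.e i).symm w)) (A.e i (γ z)) (deriv (fun w => A.e i (γ w)) z) := by
  have ho : IsOpen {w | w ∈ (A.e i).target ∧ (A.e i).symm w ∈ (A.e j).source} :=
    isOpen_ov (A := A) i j
  have hm : A.e i (γ z) ∈ {w | w ∈ (A.e i).target ∧ (A.e i).symm w ∈ (A.e j).source} :=
    ⟨(A.e i).map_source hi, by rw [(A.e i).left_inv hi]; exact hj⟩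
  have h2 : DifferentiableAt ℂ (fun w => A.e j ((A.e i).symm w)) (A.e i (γ z)) :=
    (A.holo i j).differentiableAt (ho.mem_nhds hm)
  have h3 := h2.hasFDerivAt.comp_hasDerivAt z hd.hasDerivAt
  have h4 : HasDerivAt (fun w => A.e j (γ w))
      (fderiv ℂ (fun w => A.e j ((A.e i).symm w)) (A.e i (γ z))
        (deriv (fun w => A.e i (γ w)) z)) z := by
    refine h3.congr_of_eventuallyEq ?_
    filter_upwards [hc.eventually ((A.e i).open_source.mem_nhds hi)] with w hw
    simp [Function.comp, (A.e i).left_inv hw]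
  exact h4.deriv

namespace P1C

variable (γ δ : P1C A)

theorem diffAt {b : Bool} {z : ℂ} {i : A.ι} (hi : γ.g b z ∈ (A.e i).source) :
    DifferentiableAt ℂ (fun w => A.e i (γ.g b w)) z := by
  obtain ⟨j, hj, hd, -⟩ := γ.hol b z
  exact diff_chart (γ.cont b).continuousAt hj hi hd

theorem deriv_ne {b : Bool} {z : ℂ} {i : A.ι} (hi : γ.g b z ∈ (A.e i).source) :
    deriv (fun w => A.e i (γ.g b w)) z ≠ 0 := by
  obtain ⟨j, hj, hd, h0⟩ := γ.hol b z
  intro h
  apply h0
  rw [deriv_chart (γ.cont b).continuousAt hi hj (γ.diffAt hi), h, map_zero]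

theorem mem_img {b : Bool} {z : ℂ} : γ.g b z ∈ γ.img := by
  cases b
  · exact Or.inl ⟨z, rfl⟩
  · exact Or.inr ⟨z, rfl⟩

theorem mem_img_iff {x : M} : x ∈ γ.img ↔ ∃ b z, γ.g b z = x := by
  constructor
  · rintro (⟨z, h⟩ | ⟨z, h⟩)
    · exact ⟨_, _, h⟩
    · exact ⟨_, _, h⟩
  · rintro ⟨b, z, rfl⟩
    exact γ.mem_img

theorem glue' {z : ℂ} (hz : z ≠ 0) : γ.g true z = γ.g false z⁻¹ := by
  rw [← γ.glue z⁻¹ (inv_ne_zero hz), inv_inv]

/-- equal values only at the same point of the projective line -/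
theorem pt_of_eq {b b' : Bool} {z z' : ℂ} (h : γ.g b z = γ.g b' z') :
    ∃ a : ℂ, pt b' z' = a • pt b z := by
  have key : ∀ {z w : ℂ}, γ.g false z = γ.g true w → w ≠ 0 ∧ z = w⁻¹ := by
    intro z w h
    have hw : w ≠ 0 := by
      rintro rfl
      exact γ.ninf ⟨z, h⟩
    refine ⟨hw, ?_⟩
    rw [γ.glue' hw] at h
    exact γ.inj h
  cases b <;> cases b'
  · exact ⟨1, by rw [one_smul, γ.inj h]⟩
  · obtain ⟨hw, hz⟩ := key h
    exact ⟨z', by rw [hz, pt_true_eq hw]⟩
  · obtain ⟨hw, hz⟩ := key h.symm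
    refine ⟨z⁻¹, ?_⟩
    rw [hz, pt_true_eq hw, inv_smul_smul₀ hw]
  · by_cases hz : z = 0
    · by_cases hz' : z' = 0
      · exact ⟨1, by rw [hz, hz', one_smul]⟩
      · exfalso
        subst hz
        rw [γ.glue' hz'] at h
        exact γ.ninf ⟨_, h.symm⟩
    · rw [γ.glue' hz] at h
      obtain ⟨hw, hzz⟩ := key h
      have : z = z' := inv_injective hzz
      exact ⟨1, by rw [this, one_smul]⟩

end P1C

/-! ### homogeneous coordinates -/

section Proj

variable (P : ProjD A)

theorem diffF {i : A.ι} {x : M} (hx : x ∈ (A.e i).source) :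
    DifferentiableAt ℂ (fun w => P.F i ((A.e i).symm w)) (A.e i x) := by
  rw [differentiableAt_pi]
  intro k
  exact (P.hol i k).diffAt isOpen_univ hx (mem_univ x)

variable {P}

/-- `T` is the map to the frozen projective space given by the homogeneous coordinates of `P` -/
def IsCP (P : ProjD A) (T : M → CPn P.N) : Prop :=
  ∀ i x (hx : x ∈ (A.e i).source), T x = CPn.mk (P.F i x) (P.ne i x hx)

variable {T : M → CPn P.N} (hT : IsCP P T)

include hT

theorem IsCP.injective : Function.Injective T := by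
  intro x y hxy
  obtain ⟨i, hi⟩ := A.cover x
  obtain ⟨j, hj⟩ := A.cover y
  rw [hT i x hi, hT j y hj] at hxy
  obtain ⟨a, ha⟩ := (Projectivization.mk_eq_mk_iff' ℂ _ _ _ _).1 hxy
  exact P.inj i j x hi y hj ⟨a, ha.symm⟩

/-- the derivative of the homogeneous coordinates along the curve -/
theorem hasDerivAt_F (γ : P1C A) {b : Bool} {z : ℂ} {i : A.ι} (hi : γ.g b z ∈ (A.e i).source) :
    HasDerivAt (fun w => P.F i (γ.g b w))
      (fderiv ℂ (fun w => P.F i ((A.e i).symm w)) (A.e i (γ.g b z))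
        (deriv (fun w => A.e i (γ.g b w)) z)) z := by
  have h3 := (diffF P hi).hasFDerivAt.comp_hasDerivAt z (γ.diffAt hi).hasDerivAt
  refine h3.congr_of_eventuallyEq ?_
  filter_upwards [(γ.cont b).continuousAt.eventually ((A.e i).open_source.mem_nhds hi)] with w hw
  simp [Function.comp, (A.e i).left_inv hw]

theorem isLift_F (γ : P1C A) {b : Bool} {z : ℂ} {i : A.ι} (hi : γ.g b z ∈ (A.e i).source) :
    IsLift (fun w => T (γ.g b w)) (fun w => P.F i (γ.g b w)) z := by
  have hev : ∀ᶠ w in 𝓝 z, γ.g b w ∈ (A.e i).source :=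
    (γ.cont b).continuousAt.eventually ((A.e i).open_source.mem_nhds hi)
  refine ⟨?_, ?_⟩
  · rw [Complex.analyticAt_iff_eventually_differentiableAt]
    filter_upwards [hev] with w hw
    exact (hasDerivAt_F hT γ hw).differentiableAt
  · filter_upwards [hev] with w hw
    exact ⟨P.ne i _ hw, hT i _ hw⟩

omit hT in
/-- the rational curve `φ` represents the curve `T ∘ γ` -/
def Rep {N : ℕ} (T : M → CPn N) (γ : P1C A) (φ : RatCurve N) : Prop :=
  ∀ b z, T (γ.g b z) = CPn.mk (φ.vec (pt b z)) (φ.noBase _ (pt_ne b z))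

omit hT in
theorem Rep.mk_eq {N : ℕ} {T : M → CPn N} {γ : P1C A} {φ : RatCurve N} (h : Rep T γ φ)
    {b : Bool} {z c : ℂ} (hst : c • pt b z ≠ 0) :
    CPn.mk (φ.vec (c • pt b z)) (φ.noBase _ hst) = T (γ.g b z) := by
  rw [h b z]
  exact mk_eq_of_smul (φ.noBase _ hst) (φ.noBase _ (pt_ne b z)) (vec_smul φ c _)

/-- every `P1C` is given by binary forms -/
theorem exists_rep (γ : P1C A) : ∃ φ : RatCurve P.N, Rep T γ φ := by
  refine exists_ratCurve (fun b z => T (γ.g b z)) (fun b z => ?_) (fun z hz => ?_) ⟨0, 1, ?_⟩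
  · obtain ⟨i, hi⟩ := A.cover (γ.g b z)
    exact ⟨_, isLift_F hT γ hi⟩
  · show T _ = T _
    rw [γ.glue z hz]
  · intro h
    exact zero_ne_one (γ.inj (hT.injective h))

omit hT in
theorem Rep.isLift {N : ℕ} {T : M → CPn N} {γ : P1C A} {φ : RatCurve N} (h : Rep T γ φ)
    (b : Bool) (z : ℂ) : IsLift (fun w => T (γ.g b w)) (fun w => φ.vec (pt b w)) z := by
  refine ⟨?_, Eventually.of_forall fun w => ⟨φ.noBase _ (pt_ne b w), h b w⟩⟩
  have hd : Differentiable ℂ (fun w => φ.vec (pt b w)) := fun w =>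
    (hasDerivAt_vec φ b w).differentiableAt
  exact hd.analyticAt z

theorem Rep.tangent_eq {γ : P1C A} {φ : RatCurve P.N} (h : Rep T γ φ) {b : Bool} {z : ℂ}
    {i : A.ι} (hi : γ.g b z ∈ (A.e i).source) :
    φ.tangentPlane (pt b z) = Submodule.span ℂ {P.F i (γ.g b z),
      fderiv ℂ (fun w => P.F i ((A.e i).symm w)) (A.e i (γ.g b z))
        (deriv (fun w => A.e i (γ.g b w)) z)} := by
  have e1 : deriv (fun w => φ.vec (pt b w)) z = φ.deriv (mi b) (pt b z) :=
    (hasDerivAt_vec φ b z).deriv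
  have e2 := (hasDerivAt_F hT γ hi).deriv
  have k1 : IsLift (fun w => T (γ.g b w)) (fun w => φ.vec (pt b w)) z := h.isLift b z
  have k2 : IsLift (fun w => T (γ.g b w)) (fun w => P.F i (γ.g b w)) z := isLift_F hT γ hi
  have h1 := span_lift k1 k2
  have h2 := span_lift k2 k1
  beta_reduce at h1 h2
  rw [e1, e2] at h1 h2
  rw [tangentPlane_pt]
  exact le_antisymm h1 h2

omit hT in
theorem range_pair {V : Type*} (a b : V) : Set.range ![a, b] = {a, b} := by
  ext v
  simp only [Set.mem_range, Set.mem_insert_iff, Set.mem_singleton_iff, Fin.exists_fin_two,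
    Matrix.cons_val_zero, Matrix.cons_val_one]
  constructor
  · rintro (h | h)
    · exact Or.inl h.symm
    · exact Or.inr h.symm
  · rintro (h | h)
    · exact Or.inl h.symm
    · exact Or.inr h.symm

/-- `φ` is immersive -/
theorem Rep.linInd {γ : P1C A} {φ : RatCurve P.N} (h : Rep T γ φ) (b : Bool) (z : ℂ) :
    LinearIndependent ℂ (fun i : Fin 2 => φ.deriv i (pt b z)) := by
  obtain ⟨i, hi⟩ := A.cover (γ.g b z)
  have h1 : LinearIndependent ℂ ![P.F i (γ.g b z),
      fderiv ℂ (fun w => P.F i ((A.e i).symm w)) (A.e i (γ.g b z))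
        (deriv (fun w => A.e i (γ.g b w)) z)] := by
    rw [LinearIndependent.pair_iff]
    intro s t hst
    have ht : t = 0 := by
      by_contra ht
      have h2 : fderiv ℂ (fun w => P.F i ((A.e i).symm w)) (A.e i (γ.g b z))
          (deriv (fun w => A.e i (γ.g b w)) z) =
          (-(s / t)) • P.F i ((A.e i).symm (A.e i (γ.g b z))) := by
        rw [(A.e i).left_inv hi]
        have h3 : t • fderiv ℂ (fun w => P.F i ((A.e i).symm w)) (A.e i (γ.g b z))
          (deriv (fun w => A.e i (γ.g b w)) z) = -(s • P.F i (γ.g b z)) := by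
          rw [eq_neg_iff_add_eq_zero, ← hst]
          exact add_comm _ _
        calc _ = t⁻¹ • (t • fderiv ℂ (fun w => P.F i ((A.e i).symm w)) (A.e i (γ.g b z))
              (deriv (fun w => A.e i (γ.g b w)) z)) := (inv_smul_smul₀ ht _).symm
          _ = _ := by
            rw [h3, smul_neg, smul_smul, neg_smul]
            congr 2
            field_simp
      exact γ.deriv_ne hi (P.imm i _ ((A.e i).map_source hi) _ ⟨_, h2⟩)
    refine ⟨?_, ht⟩
    rw [ht, zero_smul, add_zero] at hst
    exact (smul_eq_zero.1 hst).resolve_right (P.ne i _ hi)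
  rw [linearIndependent_iff_card_eq_finrank_span, range_pair] at h1
  apply linInd_pt
  rw [linearIndependent_iff_card_eq_finrank_span, range_pair]
  have h2 := h.tangent_eq hT hi
  rw [tangentPlane_pt] at h2
  unfold Set.finrank at h1 ⊢
  rw [h2]
  exact h1

/-- `φ` is smoothly embedded -/
theorem Rep.smooth {γ : P1C A} {φ : RatCurve P.N} (h : Rep T γ φ) : φ.IsSmoothEmbedded := by
  constructor
  · intro st uv hst huv heq
    obtain ⟨b, z, c, hc, rfl⟩ := exists_pt hst
    obtain ⟨b', z', c', hc', rfl⟩ := exists_pt huv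
    rw [h.mk_eq hst, h.mk_eq huv] at heq
    obtain ⟨a, ha⟩ := γ.pt_of_eq (hT.injective heq)
    refine ⟨c' * a * c⁻¹, ?_⟩
    rw [ha, smul_smul, smul_smul, mul_assoc, inv_mul_cancel₀ hc, mul_one]
  · intro st hst
    obtain ⟨b, z, c, hc, rfl⟩ := exists_pt hst
    exact linInd_smul φ hc _ (h.linInd hT b z)

/-- transversal curves have different tangent planes at common points -/
theorem Rep.tangent_ne {γ δ : P1C A} {φ ψ : RatCurve P.N} (h : Rep T γ φ) (k : Rep T δ ψ)
    (ht : Trans γ δ) (st uv : Fin 2 → ℂ) (hst : st ≠ 0) (huv : uv ≠ 0)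
    (heq : CPn.mk (φ.vec st) (φ.noBase st hst) = CPn.mk (ψ.vec uv) (ψ.noBase uv huv)) :
    φ.tangentPlane st ≠ ψ.tangentPlane uv := by
  obtain ⟨b, z, c, hc, rfl⟩ := exists_pt hst
  obtain ⟨b', z', c', hc', rfl⟩ := exists_pt huv
  rw [h.mk_eq hst, k.mk_eq huv] at heq
  have hx := hT.injective heq
  obtain ⟨i, hi, hnp⟩ := ht b z b' z' hx
  have hi' : δ.g b' z' ∈ (A.e i).source := hx ▸ hi
  rw [tangentPlane_smul φ hc, tangentPlane_smul ψ hc', h.tangent_eq hT hi, k.tangent_eq hT hi',
    ← hx]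
  intro hsp
  have hmem : fderiv ℂ (fun w => P.F i ((A.e i).symm w)) (A.e i (γ.g b z))
      (deriv (fun w => A.e i (δ.g b' w)) z') ∈ Submodule.span ℂ {P.F i (γ.g b z),
      fderiv ℂ (fun w => P.F i ((A.e i).symm w)) (A.e i (γ.g b z))
        (deriv (fun w => A.e i (γ.g b w)) z)} := by
    rw [hsp]
    exact Submodule.subset_span (by simp)
  rw [Submodule.mem_span_pair] at hmem
  obtain ⟨s, t, hst'⟩ := hmem
  have h0 : deriv (fun w => A.e i (δ.g b' w)) z' - t • deriv (fun w => A.e i (γ.g b w)) z = 0 := by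
    refine P.imm i _ ((A.e i).map_source hi) _ ⟨s, ?_⟩
    rw [map_sub, map_smul, ← hst', (A.e i).left_inv hi]
    exact add_sub_cancel_right _ _
  exact hnp ⟨t, sub_eq_zero.1 h0⟩

omit hT in
theorem Rep.carrier_eq {N : ℕ} {T : M → CPn N} {γ : P1C A} {φ : RatCurve N} (h : Rep T γ φ) :
    φ.carrier = T '' γ.img := by
  ext x
  constructor
  · rintro ⟨st, hst, rfl⟩
    obtain ⟨b, z, c, hc, rfl⟩ := exists_pt hst
    refine ⟨γ.g b z, γ.mem_img, ?_⟩
    exact (h.mk_eq hst).symm
  · rintro ⟨y, hy, rfl⟩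
    obtain ⟨b, z, rfl⟩ := γ.mem_img_iff.1 hy
    exact ⟨pt b z, pt_ne b z, h b z⟩

/-- a transversal family of `P1C`s without triple points is a nodal union -/
theorem exists_nodal {k : ℕ} (γ : Fin k → P1C A) (ht : ∀ i j, i ≠ j → Trans (γ i) (γ j))
    (h3 : ∀ i j l, i ≠ j → j ≠ l → i ≠ l → (γ i).img ∩ (γ j).img ∩ (γ l).img = ∅) :
    ∃ φ : Fin k → RatCurve P.N, RatCurve.IsNodalUnion φ ∧
      RatCurve.union φ = T '' ⋃ i, (γ i).img := by
  choose φ hφ using fun i => exists_rep hT (γ i)
  refine ⟨φ, ⟨fun i => (hφ i).smooth hT, fun i j hij => (hφ i).tangent_ne hT (hφ j) (ht i j hij),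
    fun i j l h1 h2 h4 => ?_⟩, ?_⟩
  · rw [(hφ i).carrier_eq, (hφ j).carrier_eq, (hφ l).carrier_eq, ← image_inter hT.injective,
      ← image_inter hT.injective, h3 i j l h1 h2 h4, image_empty]
  · unfold RatCurve.union
    rw [image_iUnion]
    exact iUnion_congr fun i => (hφ i).carrier_eq

end Proj

end

end Crest.Agent.R272.CpRat423
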