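import Crest.Agent.R273.Defs_333
import Mathlib
import Crest.Agent.R272.TLoop_463
import Crest.Agent.R272.CpMan_338
import Crest.Agent.R272.CpTop_338
import Crest.Agent.R251.SC613
import Crest.Agent.R272.CpPi_338
import Crest.Agent.R275.CousC_686
import Crest.Prelude.Def_RatCurveLoops
import Crest.Agent.R272.G14a_414

-- ▼ part R272/Comp1_259
section

/-!
# R272, leaf COMP-RED (helper259), part 1: restriction to open / clopen subsets

* `subA A U` : the atlas `A : Atl n M` restricted to the nonempty open subset `U`; `subP` (`Part`),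
  `subPD` (`ProjD`) for clopen subsets;
* `locConn` : a space with an atlas is locally connected; `cmp x` : the connected component of `x` as
  an `Opens`, it is clopen;
* `ret x : C(M, cmp x)` : the retraction.
-/

set_option autoImplicit false
set_option linter.unusedSectionVars false

open Set Filter Topology Complex TopologicalSpace
open scoped ContDiff Manifold

namespace Crest.Agent.R272.Comp_259

open Crest.Agent.R275.Geo Crest.Agent.R275.Core144 Crest.Agent.R275.GC293
open Crest.Agent.R273.Defs_333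

noncomputable section

variable {n : ℕ} {M : Type} [TopologicalSpace M]

section Sub

variable (A : Atl n M) (U : Opens M) [hU : Nonempty U]

/-- the restricted chart -/
def rc' (i : A.ι) : OpenPartialHomeomorph U (Cn n) := (A.e i).subtypeRestr hU


theorem rc_source (i : A.ι) : (rc' A U i).source = Subtype.val ⁻¹' (A.e i).source :=
  (A.e i).subtypeRestr_source hU

theorem mem_rc_source {i : A.ι} {x : U} : x ∈ (rc' A U i).source ↔ (x : M) ∈ (A.e i).source := by
  rw [rc_source]; rfl

theorem rc_target (i : A.ι) :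
    (rc' A U i).target = (A.e i).target ∩ (A.e i).symm ⁻¹' U := by
  show ((U.openPartialHomeomorphSubtypeCoe hU).trans (A.e i)).target = _
  rw [OpenPartialHomeomorph.trans_target]
  simp

theorem mem_rc_target {i : A.ι} {z : Cn n} :
    z ∈ (rc' A U i).target ↔ z ∈ (A.e i).target ∧ (A.e i).symm z ∈ U := by
  rw [rc_target]; rfl

theorem rc_symm {i : A.ι} {z : Cn n} (hz : z ∈ (rc' A U i).target) :
    (((rc' A U i).symm z : U) : M) = (A.e i).symm z :=
  ((A.e i).subtypeRestr_symm_eqOn hU hz).symm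

/-- the atlas restricted to `U` -/
def subA : Atl n U where
  ι := A.ι
  e := rc' A U
  cover x := by
    obtain ⟨i, hi⟩ := A.cover (x : M)
    exact ⟨i, (mem_rc_source A U).2 hi⟩
  cube i z hz := A.cube i z ((mem_rc_target A U).1 hz).1
  holo i j := by
    refine ((A.holo i j).mono ?_).congr ?_
    · rintro z ⟨hz, hj⟩
      refine ⟨((mem_rc_target A U).1 hz).1, ?_⟩
      rw [← rc_symm A U hz]
      exact (mem_rc_source A U).1 hj
    · rintro z ⟨hz, -⟩
      show A.e j (((rc' A U i).symm z : U) : M) = _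
      rw [rc_symm A U hz]

instance [h : Finite A.ι] : Finite (subA A U).ι := h


variable {A U}

theorem mem_source {i : A.ι} {x : U} :
    x ∈ ((subA A U).e i).source ↔ (x : M) ∈ (A.e i).source := mem_rc_source A U

theorem mem_target {i : A.ι} {z : Cn n} :
    z ∈ ((subA A U).e i).target ↔ z ∈ (A.e i).target ∧ (A.e i).symm z ∈ U := mem_rc_target A U


theorem e_symm {i : A.ι} {z : Cn n} (hz : z ∈ ((subA A U).e i).target) :
    ((((subA A U).e i).symm z : U) : M) = (A.e i).symm z := rc_symm A U hz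

theorem target_sub (i : A.ι) : ((subA A U).e i).target ⊆ (A.e i).target := fun _ hz =>
  (mem_target.1 hz).1

/-- smooth functions restrict -/
theorem sm_sub {W : Type*} [NormedAddCommGroup W] [NormedSpace ℝ W] {i : A.ι} {f : M → W}
    (h : A.SmAt i f) : (subA A U).SmAt i (fun x => f x) := by
  refine (ContDiffOn.mono h (target_sub i)).congr fun z hz => ?_
  show f ((((subA A U).e i).symm z : U) : M) = _
  rw [e_symm hz]

/-- holomorphic functions restrict -/
theorem holAt_sub {i : A.ι} {V : Set M} {f : M → ℂ} (h : HolAt A i V f) :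
    HolAt (subA A U) i (Subtype.val ⁻¹' V) (fun x => f x) := by
  refine (DifferentiableOn.mono h ?_).congr fun z hz => ?_
  · rintro z ⟨hz, hV⟩
    refine ⟨target_sub i hz, ?_⟩
    have h1 : ((((subA A U).e i).symm z : U) : M) ∈ V := hV
    rwa [e_symm hz] at h1
  · show f ((((subA A U).e i).symm z : U) : M) = _
    rw [e_symm hz.1]

/-- line bundles restrict -/
def subL (L : LB A) : LB (subA A U) where
  g i j x := L.g i j x
  hol i j := by
    have h := holAt_sub (U := U) (L.hol i j)
    have h1 : ((subA A U).e j).source = Subtype.val ⁻¹' (A.e j).source := rc_source A U j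
    rw [h1]; exact h
  off i j x hx := L.off i j x fun h => hx ⟨mem_source.2 h.1, mem_source.2 h.2⟩
  self i x := L.self i x
  mul i j k x hx := L.mul i j k x ⟨⟨mem_source.1 hx.1.1, mem_source.1 hx.1.2⟩, mem_source.1 hx.2⟩

/-- Hermitian metrics restrict -/
def subH {L : LB A} (h : HM L) : HM (subL (U := U) L) where
  w i x := h.w i x
  pos i x hx := h.pos i x (mem_source.1 hx)
  sm i := sm_sub (h.sm i)
  tr i j x hx := h.tr i j x ⟨mem_source.1 hx.1, mem_source.1 hx.2⟩

theorem imm_sub {N : ℕ} {F : A.ι → M → Fin (N + 1) → ℂ} {i : A.ι} {z v : Cn n}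
    (hz : z ∈ ((subA A U).e i).target)
    (h : (∃ c : ℂ, fderiv ℂ (fun w => F i ((A.e i).symm w)) z v = c • F i ((A.e i).symm z)) →
      v = 0)
    (h' : ∃ c : ℂ, fderiv ℂ (fun w => F i ((((subA A U).e i).symm w : U) : M)) z v =
      c • F i ((((subA A U).e i).symm z : U) : M)) : v = 0 := by
  obtain ⟨c, hc⟩ := h'
  apply h
  refine ⟨c, ?_⟩
  have h1 : (fun w => F i ((((subA A U).e i).symm w : U) : M)) =ᶠ[𝓝 z]
      fun w => F i ((A.e i).symm w) := by
    filter_upwards [((subA A U).e i).open_target.mem_nhds hz] with w hw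
    rw [e_symm hw]
  rw [h1.fderiv_eq, e_symm hz] at hc
  exact hc

theorem subPD_imm (P : ProjD A) : ∀ (i : (subA A U).ι), ∀ z ∈ ((subA A U).e i).target,
    ∀ v : Cn n, (∃ c : ℂ, fderiv ℂ (fun w => P.F i ((((subA A U).e i).symm w : U) : M)) z v =
      c • P.F i ((((subA A U).e i).symm z : U) : M)) → v = 0 := by
  intro i z hz v hv
  have h0 : z ∈ (A.e i).target := target_sub (A := A) (U := U) i hz
  have h1 := P.imm i z h0 v
  exact imm_sub (N := P.N) (F := P.F) (i := i) hz h1 hv

/-- projective embeddings restrict -/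
def subPD (P : ProjD A) : ProjD (subA A U) where
  N := P.N
  F i x := P.F i x
  hol i k := holAt_sub (V := univ) (P.hol i k)
  ne i x hx := P.ne i x (mem_source.1 hx)
  tr i j x hx := P.tr i j x ⟨mem_source.1 hx.1, mem_source.1 hx.2⟩
  inj i j x hx y hy h := Subtype.ext (P.inj i j x (mem_source.1 hx) y (mem_source.1 hy) h)
  imm := subPD_imm P

theorem tsupport_val {W : Type*} [Zero W] (f : M → W) :
    tsupport (fun x : U => f x) = Subtype.val ⁻¹' tsupport f := by
  have h : IsOpenMap (Subtype.val : U → M) := U.isOpen.isOpenMap_subtype_val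
  exact (h.preimage_closure_eq_closure_preimage continuous_subtype_val (Function.support f)).symm

/-- partitions of unity restrict to clopen subsets -/
def subP (hc : IsClosed (U : Set M)) (PA : Part A) : Part (subA A U) where
  ψ i x := PA.ψ i x
  χ i x := PA.χ i x
  ψ_sm i j := sm_sub (PA.ψ_sm i j)
  χ_sm i j := sm_sub (PA.χ_sm i j)
  χ_cpt i := by
    rw [tsupport_val]
    exact hc.isClosedEmbedding_subtypeVal.isCompact_preimage (PA.χ_cpt i)
  χ_sub i x hx := by
    rw [tsupport_val] at hx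
    exact mem_source.2 (PA.χ_sub i hx)
  χ_one i x hx := by
    rw [tsupport_val] at hx
    exact continuous_subtype_val.continuousAt.eventually (PA.χ_one i x hx)
  lf K hK := by
    refine (PA.lf _ (hK.image continuous_subtype_val)).subset ?_
    rintro i ⟨x, hx, hxK⟩
    rw [tsupport_val] at hx
    exact ⟨x, hx, x, hxK, rfl⟩
  sum_one x := PA.sum_one x

end Sub

section Conn

variable (A : Atl n M)

include A in
/-- a space with an atlas is locally connected -/
theorem locConn : LocallyConnectedSpace M := by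
  classical
  let c : ChartedSpace (Cn n) M :=
    { atlas := range A.e
      chartAt := fun x => A.e (A.cover x).choose
      mem_chart_source := fun x => (A.cover x).choose_spec
      chart_mem_atlas := fun x => ⟨_, rfl⟩ }
  exact ChartedSpace.locallyConnectedSpace (Cn n) M

end Conn

section Comp

variable [LocallyConnectedSpace M]

/-- the connected component of `x` -/
def cmp (x : M) : Opens M := ⟨connectedComponent x, isOpen_connectedComponent⟩

instance (x : M) : Nonempty (cmp x) := ⟨⟨x, mem_connectedComponent⟩⟩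

/-- the base point -/
def bp (x : M) : cmp x := ⟨x, mem_connectedComponent⟩

theorem isClosed_cmp (x : M) : IsClosed (cmp x : Set M) := isClosed_connectedComponent

theorem isClopen_cmp (x : M) : IsClopen (cmp x : Set M) :=
  ⟨isClosed_connectedComponent, isOpen_connectedComponent⟩

instance (x : M) : ConnectedSpace (cmp x) := by
  have h : IsConnected (cmp x : Set M) := isConnected_connectedComponent
  exact isConnected_iff_connectedSpace.1 h

instance (x : M) [CompactSpace M] : CompactSpace (cmp x) :=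
  isCompact_iff_compactSpace.1 (isClosed_cmp x).isCompact

/-- a connected set meeting the component is contained in it -/
theorem sub_cmp {x : M} {s : Set M} (hs : IsPreconnected s) {y : M} (hy : y ∈ s)
    (hyx : y ∈ cmp x) : s ⊆ cmp x := by
  have h : connectedComponent y = connectedComponent x :=
    (connectedComponent_eq hyx).symm
  have h1 := hs.subset_connectedComponent hy
  rw [h] at h1
  exact h1

open Classical in
/-- the retraction onto the component -/
def ret (x : M) : C(M, cmp x) where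
  toFun y := if h : y ∈ cmp x then ⟨y, h⟩ else bp x
  continuous_toFun := by
    refine continuous_induced_rng.2 ?_
    have h1 : (Subtype.val ∘ fun y : M => if h : y ∈ cmp x then (⟨y, h⟩ : cmp x) else bp x) =
        fun y => if y ∈ cmp x then y else x := by
      funext y
      by_cases h : y ∈ cmp x
      · simp [h]
      · simp [h, bp]
    rw [h1]
    refine continuous_if ?_ continuous_id.continuousOn continuous_const.continuousOn
    intro a ha
    have h2 : frontier {a | a ∈ cmp x} = ∅ := (isClopen_cmp x).frontier_eq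
    rw [h2] at ha
    exact ha.elim

/-- the inclusion of the component -/
def inc (x : M) : C(cmp x, M) := ⟨Subtype.val, continuous_subtype_val⟩

theorem ret_of_mem {x y : M} (h : y ∈ cmp x) : ret x y = ⟨y, h⟩ := dif_pos h

theorem ret_val {x : M} (y : cmp x) : ret x (y : M) = y := ret_of_mem y.2

theorem val_ret {x y : M} (h : y ∈ cmp x) : ((ret x y : cmp x) : M) = y := by
  rw [ret_of_mem h]

end Comp

end

end Crest.Agent.R272.Comp_259
end

-- ▼ part R272/TLoopCP_463
section

/-!
# R272, leaf TORUS-LOOPS (helper463), part 2: the frozen `CPn N`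

* `T2Space (CPn N)`, `CompactSpace (CPn N)`, `PathConnectedSpace (CPn N)`;
* `continuous_mk` : `z ↦ [F z]` is continuous; `continuousOn_mk`;
* `toCP` : the continuous map `ℂ² → CPn N` of the data `(ω, F)` in `IsSimpleAbelianSurface`;
* `loopClassesIn_torus` : for a frozen torus `A ⊆ X` the loop classes are the range of the period
  homomorphism `periodLattice ω → FundamentalGroup X x`.
-/

set_option autoImplicit false
set_option linter.unusedSectionVars false

open Set Topology Crest.AlgGeometry Crest.Agent.R272.CovOrd_463 Crest.Agent.R272.TLoop_463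

namespace Crest.Agent.R272.TLoopCP_463

noncomputable section

local notation "I" => unitInterval

variable {N : ℕ}

/-- non-zero vectors -/
abbrev NZ (N : ℕ) : Type := {v : Fin (N + 1) → ℂ // v ≠ 0}

/-- the projection from non-zero vectors -/
def pr (N : ℕ) (v : NZ N) : CPn N := CPn.mk v.1 v.2

theorem continuous_pr : Continuous (pr N) := continuous_coinduced_rng

theorem pr_surjective : Function.Surjective (pr N) := by
  intro x
  induction x using Projectivization.ind with
  | h v hv => exact ⟨⟨v, hv⟩, rfl⟩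

theorem isQuotientMap_pr : IsQuotientMap (pr N) :=
  (isQuotientMap_iff _).2 ⟨⟨rfl⟩, pr_surjective⟩

theorem mk_eq_mk_iff {v w : Fin (N + 1) → ℂ} (hv : v ≠ 0) (hw : w ≠ 0) :
    CPn.mk v hv = CPn.mk w hw ↔ ∃ a : ℂ, a • w = v :=
  Projectivization.mk_eq_mk_iff' ℂ v w hv hw

/-- proportionality is detected by the 2 × 2 minors -/
theorem mk_eq_of_minors {v w : Fin (N + 1) → ℂ} (hv : v ≠ 0) (hw : w ≠ 0)
    (h : ∀ i j, v i * w j = v j * w i) : CPn.mk w hw = CPn.mk v hv := by
  rw [mk_eq_mk_iff]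
  obtain ⟨i, hi⟩ : ∃ i, v i ≠ 0 := by
    by_contra hc
    push Not at hc
    exact hv (funext hc)
  refine ⟨w i / v i, ?_⟩
  ext j
  have := h i j
  rw [Pi.smul_apply, smul_eq_mul, div_mul_eq_mul_div, div_eq_iff hi]
  rw [mul_comm (w i), ← this]
  ring

/-- the size of the minors of `v` and `w`, divided by the norm of `w` -/
def dist₀ (v : Fin (N + 1) → ℂ) (w : NZ N) : ℝ :=
  ‖fun ij : Fin (N + 1) × Fin (N + 1) => v ij.1 * w.1 ij.2 - v ij.2 * w.1 ij.1‖ / ‖w.1‖

theorem continuous_dist₀ (v : Fin (N + 1) → ℂ) : Continuous (dist₀ v) := by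
  unfold dist₀
  refine Continuous.div ?_ (by fun_prop) (fun w => norm_ne_zero_iff.2 w.2)
  refine Continuous.norm ?_
  refine continuous_pi fun ij => ?_
  have h : ∀ i, Continuous fun w : NZ N => w.1 i := fun i =>
    (continuous_apply i).comp continuous_subtype_val
  exact (continuous_const.mul (h ij.2)).sub (continuous_const.mul (h ij.1))

/-- the same as a function of the line of `w` -/
def distCP (v : Fin (N + 1) → ℂ) (x : CPn N) : ℝ :=
  dist₀ v ⟨x.rep, x.rep_nonzero⟩

theorem dist₀_congr (v : Fin (N + 1) → ℂ) (w w' : NZ N) (h : pr N w = pr N w') :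
    dist₀ v w = dist₀ v w' := by
  obtain ⟨a, ha⟩ := (mk_eq_mk_iff w.2 w'.2).1 h
  have ha0 : a ≠ 0 := by
    rintro rfl
    rw [zero_smul] at ha
    exact w.2 ha.symm
  unfold dist₀
  rw [← ha]
  have h1 : (fun ij : Fin (N + 1) × Fin (N + 1) => v ij.1 * (a • w'.1) ij.2 -
      v ij.2 * (a • w'.1) ij.1) = a • (fun ij : Fin (N + 1) × Fin (N + 1) =>
      v ij.1 * w'.1 ij.2 - v ij.2 * w'.1 ij.1) := by
    ext ij
    simp only [Pi.smul_apply, smul_eq_mul]
    ring
  rw [h1, norm_smul, norm_smul, mul_div_mul_left _ _ (norm_ne_zero_iff.2 ha0)]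

theorem distCP_pr (v : Fin (N + 1) → ℂ) (w : NZ N) : distCP v (pr N w) = dist₀ v w := by
  unfold distCP
  refine dist₀_congr v _ _ ?_
  exact Projectivization.mk_rep _

theorem continuous_distCP (v : Fin (N + 1) → ℂ) : Continuous (distCP v) := by
  rw [isQuotientMap_pr.continuous_iff]
  have : distCP v ∘ pr N = dist₀ v := funext fun w => distCP_pr v w
  rw [this]
  exact continuous_dist₀ v

instance instT2CPn (N : ℕ) : T2Space (CPn N) := by
  refine ⟨fun x y hxy => ?_⟩
  obtain ⟨v, rfl⟩ := pr_surjective x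
  obtain ⟨w, rfl⟩ := pr_surjective y
  have h1 : distCP v.1 (pr N v) = 0 := by
    rw [distCP_pr]
    unfold dist₀
    have : (fun ij : Fin (N + 1) × Fin (N + 1) => v.1 ij.1 * v.1 ij.2 - v.1 ij.2 * v.1 ij.1) =
        0 := by
      ext ij
      simp only [Pi.zero_apply]
      ring
    rw [this, norm_zero, zero_div]
  have h2 : distCP v.1 (pr N w) ≠ 0 := by
    rw [distCP_pr]
    intro h0
    unfold dist₀ at h0
    rw [div_eq_zero_iff] at h0
    rcases h0 with h0 | h0
    · rw [norm_eq_zero] at h0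
      refine hxy (mk_eq_of_minors v.2 w.2 fun i j => ?_).symm
      have := congrFun h0 (i, j)
      exact sub_eq_zero.1 this
    · exact w.2 (norm_eq_zero.1 h0)
  exact separated_by_continuous (continuous_distCP v.1) (by rw [h1]; exact h2.symm)

instance instCompactCPn (N : ℕ) : CompactSpace (CPn N) := by
  refine ⟨?_⟩
  let s : Set (NZ N) := {w | ‖w.1‖ = 1}
  have hs : IsCompact s := by
    rw [Subtype.isCompact_iff]
    have : (Subtype.val '' s : Set (Fin (N + 1) → ℂ)) = Metric.sphere 0 1 := by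
      ext w
      simp only [s, Set.mem_image, Set.mem_ofPred_eq, Subtype.exists, exists_and_left, exists_prop,
        exists_eq_right_right, mem_sphere_iff_norm, sub_zero]
      constructor
      · rintro ⟨h, -⟩; exact h
      · intro h
        refine ⟨h, ?_⟩
        rintro rfl
        simp at h
    rw [this]
    exact isCompact_sphere _ _
  have himg : (Set.univ : Set (CPn N)) = pr N '' s := by
    symm
    rw [Set.eq_univ_iff_forall]
    intro x
    obtain ⟨w, rfl⟩ := pr_surjective x
    have hw : ‖w.1‖ ≠ 0 := norm_ne_zero_iff.2 w.2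
    have hc : (‖w.1‖⁻¹ : ℂ) ≠ 0 := by
      simpa using w.2
    refine ⟨⟨(‖w.1‖⁻¹ : ℂ) • w.1, smul_ne_zero hc w.2⟩, ?_, ?_⟩
    · show ‖(‖w.1‖⁻¹ : ℂ) • w.1‖ = 1
      rw [norm_smul, norm_inv, Complex.norm_real, norm_norm, inv_mul_cancel₀ hw]
    · exact (mk_eq_mk_iff _ w.2).2 ⟨_, rfl⟩
  rw [himg]
  exact hs.image continuous_pr

/-- continuity of `z ↦ [F z]` -/
theorem continuous_mk {T : Type*} [TopologicalSpace T] {F : T → (Fin (N + 1) → ℂ)}
    (hF : Continuous F) (h0 : ∀ t, F t ≠ 0) : Continuous fun t => CPn.mk (F t) (h0 t) :=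
  continuous_pr.comp (hF.subtype_mk h0)


/-! ### the torus -/

section torus

variable {X A : Set (CPn N)} (ω : Fin 4 → (Fin 2 → ℂ)) (F : (Fin 2 → ℂ) → (Fin (N + 1) → ℂ))
  (hF : ∀ z, F z ≠ 0)

/-- the parametrisation of the torus as a map into `X` -/
def par (hc : Continuous F) (hX : ∀ z, CPn.mk (F z) (hF z) ∈ X) : C(Fin 2 → ℂ, X) :=
  ⟨fun z => ⟨CPn.mk (F z) (hF z), hX z⟩, (continuous_mk hc hF).subtype_mk hX⟩

theorem par_per (hc : Continuous F) (hX : ∀ z, CPn.mk (F z) (hF z) ∈ X)
    (hper : ∀ z w : Fin 2 → ℂ,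
      CPn.mk (F z) (hF z) = CPn.mk (F w) (hF w) ↔ z - w ∈ periodLattice ω) :
    Per (par F hF hc hX) (periodLattice ω).toAddSubgroup := by
  intro v l hl
  apply Subtype.ext
  show CPn.mk (F (v + l)) (hF (v + l)) = CPn.mk (F v) (hF v)
  rw [hper, add_sub_cancel_left]
  exact hl

theorem basis_of_li (hω : LinearIndependent ℝ ω) :
    ∃ b : Module.Basis (Fin 4) ℝ (Fin 2 → ℂ), ∀ i, b i = ω i := by
  have hr : Module.finrank ℝ (Fin 2 → ℂ) = 4 := by
    rw [Module.finrank_pi_fintype]
    simp
  refine ⟨basisOfLinearIndependentOfCardEqFinrank' ω hω (by rw [hr]; simp), fun i => by simp⟩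

theorem covering_par (hω : LinearIndependent ℝ ω) (hc : Continuous F)
    (hX : ∀ z, CPn.mk (F z) (hF z) ∈ X)
    (hper : ∀ z w : Fin 2 → ℂ,
      CPn.mk (F z) (hF z) = CPn.mk (F w) (hF w) ↔ z - w ∈ periodLattice ω) :
    IsCoveringMap (Set.rangeFactorization (par F hF hc hX)) := by
  obtain ⟨b, hb⟩ := basis_of_li ω hω
  have hbω : periodLattice ω = Submodule.span ℤ (Set.range b) := by
    unfold periodLattice
    congr 2
    ext i
    rw [hb]
  have : DiscreteTopology (periodLattice ω) := by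
    rw [hbω]; infer_instance
  have : IsZLattice ℝ (periodLattice ω) := by
    refine ⟨?_⟩
    rw [hbω]
    exact ZSpan.span_top b
  refine covering_of_lattice (periodLattice ω) (par_per ω F hF hc hX hper) ?_
  intro v w h
  exact (hper v w).1 (congrArg Subtype.val h)

/-- **TL3** : loop classes of a torus in the frozen sense -/
theorem loopClassesIn_torus (hω : LinearIndependent ℝ ω) (hc : Continuous F)
    (hX : ∀ z, CPn.mk (F z) (hF z) ∈ X)
    (hper : ∀ z w : Fin 2 → ℂ,
      CPn.mk (F z) (hF z) = CPn.mk (F w) (hF w) ↔ z - w ∈ periodLattice ω)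
    (hA : A = Set.range (fun z => CPn.mk (F z) (hF z))) (z₀ : Fin 2 → ℂ) :
    loopClassesIn X A (par F hF hc hX z₀) =
      Set.range (perHom (par_per ω F hF hc hX hper) z₀) := by
  ext g
  rw [mem_range_perHom_iff (par_per ω F hF hc hX hper)
    (fun v w h => (hper v w).1 (congrArg Subtype.val h)) (covering_par ω F hF hω hc hX hper) z₀ g]
  constructor
  · rintro ⟨p, hp, rfl⟩
    refine ⟨p, fun t => ?_, rfl⟩
    have h1 := hp t
    rw [hA] at h1
    obtain ⟨z, hz⟩ := h1
    exact ⟨z, Subtype.ext hz⟩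
  · rintro ⟨p, hp, rfl⟩
    refine ⟨p, fun t => ?_, rfl⟩
    obtain ⟨z, hz⟩ := hp t
    rw [hA, ← hz]
    exact ⟨z, rfl⟩

/-- the literal end of S0415: `Λ = K + ℤ l₀`, `K` dies in `X`, `l₀` has infinite order -/
theorem end_of_periods (hω : LinearIndependent ℝ ω) (hc : Continuous F)
    (hX : ∀ z, CPn.mk (F z) (hF z) ∈ X)
    (hper : ∀ z w : Fin 2 → ℂ,
      CPn.mk (F z) (hF z) = CPn.mk (F w) (hF w) ↔ z - w ∈ periodLattice ω)
    (hA : A = Set.range (fun z => CPn.mk (F z) (hF z))) (z₀ : Fin 2 → ℂ)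
    (l₀ : (periodLattice ω).toAddSubgroup)
    (h : ∀ l : (periodLattice ω).toAddSubgroup, ∃ k : ℤ,
      perHom (par_per ω F hF hc hX hper) z₀ (Multiplicative.ofAdd (l - k • l₀)) = 1)
    (h0 : ¬ IsOfFinOrder (perHom (par_per ω F hF hc hX hper) z₀ (Multiplicative.ofAdd l₀))) :
    ∃ x : X, (x : CPn N) ∈ A ∧ ∃ g : FundamentalGroup X x, ¬ IsOfFinOrder g ∧
      loopClassesIn X A x = Set.range (fun k : ℤ => g ^ k) := by
  refine ⟨par F hF hc hX z₀, ?_, ?_⟩
  · rw [hA]; exact ⟨z₀, rfl⟩
  · rw [loopClassesIn_torus ω F hF hω hc hX hper hA z₀]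
    exact exists_zpowers _ l₀ h h0

end torus

end

end Crest.Agent.R272.TLoopCP_463
end

-- ▼ part R272/CpTor_338
section

/-!
# R272 (S0415), leaf CP-MORPH, part 1 (helper338): Chow for a torus in projective space

* `TorD ω N` : an entire nowhere zero immersive `F : ℂ² → ℂ^(N+1)` with `[F z] = [F w]` iff
  `z - w` is a period;
* `torus_smooth` : the image is a smooth projective variety of dimension two;
* `isSimpleAbelianSurface` : with the simplicity clause the image is a simple abelian surface;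
* `TorD.tensor` (product with another periodic map), `TorD.scale` (the periods `n • ω`).
-/

set_option autoImplicit false
set_option linter.unusedSectionVars false

open Set Filter Topology Complex
open Crest.AlgGeometry

namespace Crest.Agent.R272.CpTor_338

open Crest.Agent.R273.RedA_333
open CpTop_338 CpSub_338 CpChow_338 CpMan_338
open TLoop_463 (Per covering_of_lattice exists_compact_fund)
open TLoopCP_463 (par par_per covering_par basis_of_li)

noncomputable section

universe u

/-! ### complex manifolds from local homeomorphisms -/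

section Quot

open scoped ContDiff Manifold

variable {n : ℕ} {X : Type u} [TopologicalSpace X] {p : Cs n → X}

/-- the charted space of a surjective local homeomorphism -/
@[reducible] def chartedP (hp : IsLocalHomeomorph p) (hs : Function.Surjective p) :
    ChartedSpace (Cs n) X where
  atlas := {c | ⇑c.symm = p}
  chartAt x := (hp (hs x).choose).choose.symm
  mem_chart_source x := by
    have h := (hp (hs x).choose).choose_spec
    have h1 : (hp (hs x).choose).choose (hs x).choose = x := by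
      rw [← h.2]
      exact (hs x).choose_spec
    have h2 := (hp (hs x).choose).choose.map_source h.1
    rw [h1] at h2
    exact h2
  chart_mem_atlas x := by
    show ⇑(hp (hs x).choose).choose.symm.symm = p
    rw [OpenPartialHomeomorph.symm_symm]
    exact (hp (hs x).choose).choose_spec.2.symm

theorem isManifold_chartedP (hp : IsLocalHomeomorph p) (hs : Function.Surjective p)
    (ht : ∀ z w : Cs n, p z = p w → ∀ h, p (z + h) = p (w + h)) :
    let _ := chartedP hp hs
    IsManifold 𝓘(ℂ, Cs n) ω X := by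
  let _ := chartedP hp hs
  apply isManifold_of_contDiffOn
  rintro c c' hc hc'
  have hc1 : ⇑c.symm = p := hc
  have hc1' : ⇑c'.symm = p := hc'
  intro z hz
  have hz' : z ∈ (c.symm ≫ₕ c').source := hz.1
  rw [OpenPartialHomeomorph.trans_source, OpenPartialHomeomorph.symm_source] at hz'
  obtain ⟨hz1, hz2⟩ := hz'
  have hz2' : p z ∈ c'.source := by
    rw [← hc1]
    exact hz2
  set w := c' (p z) with hw
  have hpw : p w = p z := by
    rw [hw, ← hc1']
    rw [hc1'] 
    have := c'.left_inv hz2'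
    rwa [hc1'] at this
  have hwt : w ∈ c'.target := c'.map_source hz2'
  have key : ∀ᶠ y in 𝓝 z, (c.symm ≫ₕ c') y = y + (w - z) := by
    have h1 : ContinuousAt (fun y : Cs n => y + (w - z)) z := by fun_prop
    have h2 : ∀ᶠ y in 𝓝 z, y + (w - z) ∈ c'.target := by
      refine h1.eventually (c'.open_target.mem_nhds ?_)
      show z + (w - z) ∈ c'.target
      rw [add_sub_cancel]
      exact hwt
    filter_upwards [h2] with y hy
    have h3 : p (y + (w - z)) = p y := by
      have h4 := ht w z hpw (y - z)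
      rw [add_sub_cancel] at h4
      rw [← h4]
      congr 1
      abel
    show c' (c.symm y) = _
    rw [hc1, ← h3]
    have h5 := c'.right_inv hy
    rwa [hc1'] at h5
  have h4 : ContDiffAt ℂ ω (fun y : Cs n => y + (w - z)) z := contDiffAt_id.add contDiffAt_const
  exact (h4.congr_of_eventuallyEq key).contDiffWithinAt

end Quot

/-! ### torus data -/

/-- an entire lift of an embedding of the torus `ℂ² / Λ` -/
structure TorD (ω : Fin 4 → (Fin 2 → ℂ)) (N : ℕ) where
  F : (Fin 2 → ℂ) → (Fin (N + 1) → ℂ)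
  ne : ∀ z, F z ≠ 0
  diff : Differentiable ℂ F
  imm : ∀ (z : Fin 2 → ℂ) (a : ℂ) (v : Fin 2 → ℂ), a • F z + fderiv ℂ F z v = 0 → v = 0
  per : ∀ z w : Fin 2 → ℂ, CPn.mk (F z) (ne z) = CPn.mk (F w) (ne w) ↔ z - w ∈ periodLattice ω

namespace TorD

variable {ω : Fin 4 → (Fin 2 → ℂ)} {N : ℕ} (D : TorD ω N)

/-- the map to projective space -/
def map (z : Fin 2 → ℂ) : CPn N := CPn.mk (D.F z) (D.ne z)

theorem continuous_map : Continuous D.map := continuous_mk D.diff.continuous D.ne

theorem map_add {z w : Fin 2 → ℂ} (h : D.map z = D.map w) (v : Fin 2 → ℂ) :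
    D.map (z + v) = D.map (w + v) := by
  refine (D.per _ _).2 ?_
  have := (D.per _ _).1 h
  rwa [add_sub_add_right_eq_sub]

end TorD

theorem lattice_props {ω : Fin 4 → (Fin 2 → ℂ)} (hω : LinearIndependent ℝ ω) :
    ∃ _ : DiscreteTopology (periodLattice ω), IsZLattice ℝ (periodLattice ω) := by
  obtain ⟨b, hb⟩ := basis_of_li ω hω
  have hbω : periodLattice ω = Submodule.span ℤ (Set.range b) := by
    unfold periodLattice
    congr 2
    ext i
    rw [hb]
  have h1 : DiscreteTopology (periodLattice ω) := by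
    rw [hbω]; infer_instance
  refine ⟨h1, ⟨?_⟩⟩
  rw [hbω]
  exact ZSpan.span_top b

/-- **Chow's theorem for a torus** -/
theorem torus_smooth {ω : Fin 4 → (Fin 2 → ℂ)} (hω : LinearIndependent ℝ ω) {N : ℕ}
    (D : TorD ω N) : ∃ c, c + 2 = N ∧ IsSmoothProjVariety c (range D.map) := by
  let f : C(Fin 2 → ℂ, (univ : Set (CPn N))) :=
    par D.F D.ne D.diff.continuous (fun _ => mem_univ _)
  let X : Type := range f
  let p : Cs 2 → X := rangeFactorization f
  have hcov : IsCoveringMap p :=
    covering_par ω D.F D.ne hω D.diff.continuous (fun _ => mem_univ _) D.per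
  have hs : Function.Surjective p := rangeFactorization_surjective
  have hlh : IsLocalHomeomorph p := hcov.isLocalHomeomorph
  have hpc : Continuous p := hcov.continuous
  have hpv : ∀ z, ((p z : X).1 : CPn N) = D.map z := fun z => rfl
  have ht : ∀ z w : Cs 2, p z = p w → ∀ h, p (z + h) = p (w + h) := by
    intro z w h v
    refine Subtype.ext (Subtype.ext ?_)
    have h1 : D.map z = D.map w := congrArg (fun x : X => ((x.1 : (univ : Set (CPn N))) : CPn N)) h
    exact D.map_add h1 v
  have : T2Space X := inferInstanceAs (T2Space (range f))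
  obtain ⟨hd, hz⟩ := lattice_props hω
  have hcomp : CompactSpace X := by
    obtain ⟨K, hK, hcK⟩ := exists_compact_fund (periodLattice ω)
    refine ⟨?_⟩
    have h1 : (univ : Set X) = p '' K := by
      refine (eq_univ_of_forall fun x => ?_).symm
      obtain ⟨z, rfl⟩ := hs x
      obtain ⟨l, hl, hlK⟩ := hcK z
      refine ⟨z + l, hlK, Subtype.ext (Subtype.ext ?_)⟩
      refine (D.per _ _).2 ?_
      rw [add_sub_cancel_left]
      exact hl
    rw [h1]
    exact hK.image hpc
  have : ConnectedSpace X := hs.connectedSpace hpc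
  let _ := chartedP hlh hs
  have := isManifold_chartedP hlh hs ht
  obtain ⟨c, hc, hsm⟩ := chow_manifold (n := 2) (X := X) (N := N) (fun _ => D.F)
    (fun e _ => ⟨D.diff.differentiableOn, fun z _ => D.ne z⟩)
    (fun e _ z _ v => by
      rintro ⟨c, hc⟩
      refine D.imm z (-c) v ?_
      rw [hc, neg_smul, neg_add_cancel])
    (fun x => ((x.1 : (univ : Set (CPn N))) : CPn N))
    (fun x y h => Subtype.ext (Subtype.ext h))
    (fun e he x hx => by
      refine ⟨D.ne _, ?_⟩
      have h1 : ⇑e.symm = p := he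
      have h2 : p (e x) = x := by
        rw [← h1]
        exact e.left_inv hx
      conv_lhs => rw [← h2]
      rfl)
  refine ⟨c, hc, ?_⟩
  have hr : range (fun x : X => ((x.1 : (univ : Set (CPn N))) : CPn N)) = range D.map := by
    ext y
    constructor
    · rintro ⟨x, rfl⟩
      obtain ⟨z, rfl⟩ := hs x
      exact ⟨z, rfl⟩
    · rintro ⟨z, rfl⟩
      exact ⟨p z, rfl⟩
  rw [← hr]
  exact hsm

/-- **the torus is a simple abelian surface** -/
theorem isSimpleAbelianSurface {ω : Fin 4 → (Fin 2 → ℂ)} (hω : LinearIndependent ℝ ω)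
    (hsim : ∀ l m : Fin 2 → ℂ, l ∈ periodLattice ω → m ∈ periodLattice ω → l ≠ 0 →
      ∀ a : ℂ, m = a • l → a.im = 0) {N : ℕ} (D : TorD ω N) :
    IsSimpleAbelianSurface (range D.map) :=
  ⟨torus_smooth hω D, ω, D.F, D.ne, hω, D.diff, D.imm, D.per, rfl, hsim⟩

/-! ### products and coverings -/

/-- the tensor product of two vectors -/
def tens {a b K : ℕ} (e : Fin (K + 1) ≃ Fin (a + 1) × Fin (b + 1)) (u : Fin (a + 1) → ℂ)
    (v : Fin (b + 1) → ℂ) : Fin (K + 1) → ℂ := fun k => u (e k).1 * v (e k).2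

section Tens

variable {a b K : ℕ} (e : Fin (K + 1) ≃ Fin (a + 1) × Fin (b + 1))

theorem tens_apply (u : Fin (a + 1) → ℂ) (v : Fin (b + 1) → ℂ) (i : Fin (a + 1))
    (j : Fin (b + 1)) : tens e u v (e.symm (i, j)) = u i * v j := by
  unfold tens
  rw [Equiv.apply_symm_apply]

theorem tens_ne {u : Fin (a + 1) → ℂ} {v : Fin (b + 1) → ℂ} (hu : u ≠ 0) (hv : v ≠ 0) :
    tens e u v ≠ 0 := by
  obtain ⟨i, hi⟩ := Function.ne_iff.1 hu
  obtain ⟨j, hj⟩ := Function.ne_iff.1 hv
  intro h
  have := congrFun h (e.symm (i, j))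
  rw [tens_apply] at this
  exact mul_ne_zero hi hj this

theorem tens_eq_iff {u u' : Fin (a + 1) → ℂ} {v v' : Fin (b + 1) → ℂ} (hu : u ≠ 0) (hv : v ≠ 0)
    (hu' : u' ≠ 0) (hv' : v' ≠ 0) :
    CPn.mk (tens e u v) (tens_ne e hu hv) = CPn.mk (tens e u' v') (tens_ne e hu' hv') ↔
      CPn.mk u hu = CPn.mk u' hu' ∧ CPn.mk v hv = CPn.mk v' hv' := by
  rw [mk_eq_iff_minor, mk_eq_iff_minor, mk_eq_iff_minor]
  constructor
  · intro h
    obtain ⟨i, hi⟩ := Function.ne_iff.1 hu
    obtain ⟨j, hj⟩ := Function.ne_iff.1 hv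
    have h1 : ∀ k l m o, u k * v l * (u' m * v' o) = u m * v o * (u' k * v' l) := by
      intro k l m o
      have := h (e.symm (k, l)) (e.symm (m, o))
      rwa [tens_apply, tens_apply, tens_apply, tens_apply] at this
    obtain ⟨i', hi'⟩ := Function.ne_iff.1 hu'
    obtain ⟨j', hj'⟩ := Function.ne_iff.1 hv'
    simp only [Pi.zero_apply] at hi hj hi' hj'
    have hv2 : v j' ≠ 0 := by
      intro h0
      have h2 := h1 i j i' j'
      rw [h0, mul_zero, zero_mul] at h2
      exact mul_ne_zero (mul_ne_zero hi hj) (mul_ne_zero hi' hj') h2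
    have hu2 : u i' ≠ 0 := by
      intro h0
      have h2 := h1 i j i' j'
      rw [h0, zero_mul, zero_mul] at h2
      exact mul_ne_zero (mul_ne_zero hi hj) (mul_ne_zero hi' hj') h2
    constructor
    · intro k m
      have h2 := h1 k j' m j'
      have h3 : (v j' * v' j') * (u k * u' m) = (v j' * v' j') * (u m * u' k) := by
        linear_combination h2
      exact mul_left_cancel₀ (mul_ne_zero hv2 hj') h3
    · intro l o
      have h2 := h1 i' l i' o
      have h3 : (u i' * u' i') * (v l * v' o) = (u i' * u' i') * (v o * v' l) := by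
        linear_combination h2
      exact mul_left_cancel₀ (mul_ne_zero hu2 hi') h3
  · rintro ⟨h1, h2⟩ k l
    unfold tens
    have h3 := h1 (e k).1 (e l).1
    have h4 := h2 (e k).2 (e l).2
    linear_combination (v (e k).2 * v' (e l).2) * h3 + (u (e l).1 * u' (e k).1) * h4

end Tens

/-- product of the embedding with a periodic map -/
def TorD.tensor {ω : Fin 4 → (Fin 2 → ℂ)} {a b K : ℕ}
    (e : Fin (K + 1) ≃ Fin (a + 1) × Fin (b + 1)) (G : (Fin 2 → ℂ) → (Fin (a + 1) → ℂ))
    (hG : ∀ z, G z ≠ 0) (hGd : Differentiable ℂ G)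
    (hGp : ∀ z w : Fin 2 → ℂ, z - w ∈ periodLattice ω → CPn.mk (G z) (hG z) = CPn.mk (G w) (hG w))
    (D : TorD ω b) : TorD ω K where
  F z := tens e (G z) (D.F z)
  ne z := tens_ne e (hG z) (D.ne z)
  diff := by
    rw [differentiable_pi]
    intro k
    exact (differentiable_pi.1 hGd _).mul (differentiable_pi.1 D.diff _)
  imm z c v h := by
    have hGk := fun k => (differentiable_pi.1 hGd k) z
    have hFk := fun k => (differentiable_pi.1 D.diff k) z
    have hd : ∀ k, fderiv ℂ (fun z => tens e (G z) (D.F z)) z v k =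
        fderiv ℂ (fun z => G z (e k).1) z v * D.F z (e k).2 +
          G z (e k).1 * fderiv ℂ (fun z => D.F z (e k).2) z v := by
      intro k
      have hT : ∀ k, DifferentiableAt ℂ (fun z => tens e (G z) (D.F z) k) z := fun k =>
        (hGk _).mul (hFk _)
      have h3 := fderiv_pi (h := hT)
      have h4 : (fun w => fun k => tens e (G w) (D.F w) k) = fun w => tens e (G w) (D.F w) := rfl
      rw [h4] at h3
      rw [h3]
      show fderiv ℂ (fun z => G z (e k).1 * D.F z (e k).2) z v = _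
      rw [fderiv_fun_mul (hGk _) (hFk _)]
      simp only [_root_.add_apply, _root_.smul_apply, smul_eq_mul]
      ring
    obtain ⟨i, hi⟩ := Function.ne_iff.1 (hG z)
    refine D.imm z (c + fderiv ℂ (fun z => G z i) z v / G z i) v (funext fun j => ?_)
    have h1 := congrFun h (e.symm (i, j))
    rw [Pi.add_apply, Pi.smul_apply, hd, smul_eq_mul] at h1
    change c * tens e (G z) (D.F z) (e.symm (i, j)) + _ = 0 at h1
    rw [tens_apply, Equiv.apply_symm_apply] at h1
    have h5 : fderiv ℂ (fun z => D.F z j) z v = fderiv ℂ D.F z v j := by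
      have h3 := fderiv_pi (h := hFk)
      have h4 : (fun w => fun k => D.F w k) = D.F := rfl
      rw [h4] at h3
      rw [h3]
      rfl
    rw [Pi.add_apply, Pi.smul_apply, smul_eq_mul, ← h5]
    have hi' : G z i ≠ 0 := hi
    have h6 : G z i * ((c + fderiv ℂ (fun z => G z i) z v / G z i) * D.F z j +
        fderiv ℂ (fun z => D.F z j) z v) = 0 := by
      field_simp
      linear_combination h1
    exact (mul_eq_zero.1 h6).resolve_left hi'
  per z w := by
    refine (tens_eq_iff e (hG z) (D.ne z) (hG w) (D.ne w)).trans ?_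
    constructor
    · exact fun h => (D.per z w).1 h.2
    · exact fun h => ⟨hGp z w h, (D.per z w).2 h⟩

theorem mem_scale {ω : Fin 4 → (Fin 2 → ℂ)} {n : ℕ} (hn : n ≠ 0) (z : Fin 2 → ℂ) :
    z ∈ periodLattice (fun i => n • ω i) ↔ (n : ℂ)⁻¹ • z ∈ periodLattice ω := by
  have hn' : (n : ℂ) ≠ 0 := Nat.cast_ne_zero.2 hn
  unfold periodLattice
  constructor
  · intro h
    induction h using Submodule.span_induction with
    | mem x hx =>
      obtain ⟨i, rfl⟩ := hx
      have : (n : ℂ)⁻¹ • (n • ω i) = ω i := by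
        rw [← Nat.cast_smul_eq_nsmul ℂ, smul_smul, inv_mul_cancel₀ hn', one_smul]
      show (n : ℂ)⁻¹ • (n • ω i) ∈ _
      rw [this]
      exact Submodule.subset_span ⟨i, rfl⟩
    | zero => rw [smul_zero]; exact Submodule.zero_mem _
    | add x y _ _ hx hy => rw [smul_add]; exact Submodule.add_mem _ hx hy
    | smul c x _ hx =>
      rw [smul_comm]
      exact Submodule.smul_mem _ c hx
  · intro h
    have h1 : ∀ y ∈ Submodule.span ℤ (range ω), n • y ∈ Submodule.span ℤ (range fun i => n • ω i) := by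
      intro y hy
      induction hy using Submodule.span_induction with
      | mem x hx =>
        obtain ⟨i, rfl⟩ := hx
        exact Submodule.subset_span ⟨i, rfl⟩
      | zero => rw [smul_zero]; exact Submodule.zero_mem _
      | add x y _ _ hx hy => rw [smul_add]; exact Submodule.add_mem _ hx hy
      | smul c x _ hx =>
        rw [smul_comm]
        exact Submodule.smul_mem _ c hx
    have h2 := h1 _ h
    rwa [← Nat.cast_smul_eq_nsmul ℂ, smul_smul, mul_inv_cancel₀ hn', one_smul] at h2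

/-- the covering torus `ℂ² / nΛ`, embedded through the isomorphism `z ↦ z / n` -/
def TorD.scale {ω : Fin 4 → (Fin 2 → ℂ)} {N : ℕ} (D : TorD ω N) {n : ℕ} (hn : n ≠ 0) :
    TorD (fun i => n • ω i) N where
  F z := D.F ((n : ℂ)⁻¹ • z)
  ne z := D.ne _
  diff := D.diff.comp ((n : ℂ)⁻¹ • ContinuousLinearMap.id ℂ (Fin 2 → ℂ)).differentiable
  imm z c v h := by
    have hn' : (n : ℂ) ≠ 0 := Nat.cast_ne_zero.2 hn
    have h1 : fderiv ℂ (fun z => D.F ((n : ℂ)⁻¹ • z)) z v =
        fderiv ℂ D.F ((n : ℂ)⁻¹ • z) ((n : ℂ)⁻¹ • v) := by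
      have h2 : HasFDerivAt (fun z : Fin 2 → ℂ => (n : ℂ)⁻¹ • z)
          ((n : ℂ)⁻¹ • ContinuousLinearMap.id ℂ (Fin 2 → ℂ)) z :=
        ((n : ℂ)⁻¹ • ContinuousLinearMap.id ℂ (Fin 2 → ℂ)).hasFDerivAt
      have h3 := ((D.diff ((n : ℂ)⁻¹ • z)).hasFDerivAt.comp z h2).fderiv
      have h4 : (D.F ∘ fun z : Fin 2 → ℂ => (n : ℂ)⁻¹ • z) = fun z => D.F ((n : ℂ)⁻¹ • z) := rfl
      rw [h4] at h3
      rw [h3]
      rfl
    rw [h1] at h
    have h2 := D.imm _ c _ h
    exact (smul_eq_zero.1 h2).resolve_left (inv_ne_zero hn')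
  per z w := by
    rw [D.per, mem_scale hn, smul_sub]

end

end Crest.Agent.R272.CpTor_338
end

-- ▼ part R272/CpSC_338
section

/-!
# R272 (S0415), leaf CP-PI1 (helper338): `CPn N` is simply connected

* `simplyConnected_of_cover` : open cover by sets in which all paths with the same ends are
  homotopic, a common point, path connected intersections;
* `isOpenEmbedding_affineChart`, `simplyConnected_CPn`.
-/

set_option autoImplicit false
set_option linter.unusedSectionVars false

open Set Filter Topology unitInterval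
open Crest.AlgGeometry

namespace Crest.Agent.R272.CpSC_338

open CpTop_338 Crest.Agent.R251.SCB

noncomputable section

section Gen

variable {E : Type*} [TopologicalSpace E]

theorem simplyConnected_of_cover {κ : Type*} (V : κ → Set E) (hV : ∀ i, IsOpen (V i))
    (hc : ∀ y, ∃ i, y ∈ V i) (y₀ : E)
    (hsc : ∀ i (x y : E) (p q : Path x y), (∀ t, p t ∈ V i) → (∀ t, q t ∈ V i) → p.Homotopic q)
    (hpc : ∀ i j, ∀ y ∈ V i ∩ V j, JoinedIn (V i ∩ V j) y₀ y) : SimplyConnectedSpace E := by
  choose c hcy using hc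
  let P : ∀ y : E, Path y₀ y := fun y => (hpc (c y) (c y) y ⟨hcy y, hcy y⟩).somePath
  have hP : ∀ y t, P y t ∈ V (c y) := fun y t =>
    ((hpc (c y) (c y) y ⟨hcy y, hcy y⟩).somePath_mem t).1
  have key : ∀ i y (p : Path y₀ y), (∀ t, p t ∈ V i) → cl (P y) = cl p := by
    intro i y p hp
    have hy : y ∈ V i := by
      have := hp 1
      rwa [p.target] at this
    let r : Path y₀ y := (hpc i (c y) y ⟨hy, hcy y⟩).somePath
    have hr : ∀ t, r t ∈ V i ∩ V (c y) := (hpc i (c y) y ⟨hy, hcy y⟩).somePath_mem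
    have h1 : (P y).Homotopic r := hsc (c y) _ _ _ _ (hP y) fun t => (hr t).2
    have h2 : r.Homotopic p := hsc i _ _ _ _ (fun t => (hr t).1) hp
    exact Quotient.sound (h1.trans h2)
  refine simplyConnected_of (V := V) (Φ := fun y => cl (P y)) ?_ hV fun y => ⟨c y, hcy y⟩
  intro i y y' γ hγ
  have hy : y ∈ V i := by
    have := hγ 0
    rwa [γ.source] at this
  let p : Path y₀ y := (hpc i i y ⟨hy, hy⟩).somePath
  have hp : ∀ t, p t ∈ V i := fun t => ((hpc i i y ⟨hy, hy⟩).somePath_mem t).1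
  show cl (P y') = (cl (P y)).trans (cl γ)
  rw [key i y p hp, key i y' (p.trans γ) fun t => ?_]
  · rfl
  · have h1 : p.trans γ t ∈ range (p.trans γ) := mem_range_self t
    rw [Path.trans_range] at h1
    rcases h1 with ⟨s, hs⟩ | ⟨s, hs⟩
    · rw [← hs]
      exact hp s
    · rw [← hs]
      exact hγ s

/-- paths in the range of an embedding of a simply connected space -/
theorem homotopic_of_embedding {X : Type*} [TopologicalSpace X] [SimplyConnectedSpace X] {f : X → E}
    (hf : IsEmbedding f) {x y : E} (p q : Path x y) (hp : ∀ t, p t ∈ range f)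
    (hq : ∀ t, q t ∈ range f) : p.Homotopic q := by
  obtain ⟨x', hx'⟩ : x ∈ range f := by
    have := hp 0
    rwa [p.source] at this
  obtain ⟨y', hy'⟩ : y ∈ range f := by
    have := hp 1
    rwa [p.target] at this
  subst hx' hy'
  have lift : ∀ r : Path (f x') (f y'), (∀ t, r t ∈ range f) →
      ∃ r' : Path x' y', r'.map hf.continuous = r := by
    intro r hr
    choose g hg using hr
    have hgc : Continuous g := by
      rw [hf.continuous_iff]
      have : f ∘ g = r := funext hg
      rw [this]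
      exact r.continuous
    refine ⟨⟨⟨g, hgc⟩, hf.injective ?_, hf.injective ?_⟩, ?_⟩
    · show f (g 0) = f x'
      rw [hg 0, r.source]
    · show f (g 1) = f y'
      rw [hg 1, r.target]
    · ext t
      exact hg t
  obtain ⟨p', rfl⟩ := lift p hp
  obtain ⟨q', rfl⟩ := lift q hq
  exact (SimplyConnectedSpace.paths_homotopic p' q').map ⟨f, hf.continuous⟩

end Gen

variable {N : ℕ}

theorem isOpenMap_affineChart (j : Fin (N + 1)) : IsOpenMap (CPn.affineChart (N := N) j) := by
  intro U hU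
  rw [← isQuotientMap_q.isOpen_preimage]
  have h : q ⁻¹' (CPn.affineChart j '' U) =
      {v : NZ N | v.1 j ≠ 0 ∧ (fun k => v.1 (j.succAbove k) / v.1 j) ∈ U} := by
    ext v
    constructor
    · rintro ⟨z, hz, h⟩
      have h1 := (mk_eq_affineChart v.2 j z).1 h.symm
      have h2 : (fun k => v.1 (j.succAbove k) / v.1 j) = z := funext fun k => (h1.2 k).symm
      exact ⟨h1.1, by rw [h2]; exact hz⟩
    · rintro ⟨h1, h2⟩
      exact ⟨_, h2, ((mk_eq_affineChart v.2 j _).2 ⟨h1, fun _ => rfl⟩).symm⟩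
  rw [h, isOpen_iff_mem_nhds]
  rintro v ⟨h1, h2⟩
  have hc : ∀ k, ContinuousAt (fun v : NZ N => v.1 k) v := fun k =>
    ((continuous_apply k).comp continuous_subtype_val).continuousAt
  have h3 : ContinuousAt (fun v : NZ N => (fun k => v.1 (j.succAbove k) / v.1 j :
      Fin N → ℂ)) v := continuousAt_pi.2 fun k => (hc _).div (hc j) h1
  filter_upwards [(hc j).eventually_ne h1, h3 (hU.mem_nhds h2)] with w hw1 hw2
  exact ⟨hw1, hw2⟩

theorem isOpenEmbedding_affineChart (j : Fin (N + 1)) :
    IsOpenEmbedding (CPn.affineChart (N := N) j) :=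
  .of_continuous_injective_isOpenMap (continuous_affineChart j) (affineChart_injective j)
    (isOpenMap_affineChart j)

theorem mem_range_affineChart {v : Fin (N + 1) → ℂ} (hv : v ≠ 0) (j : Fin (N + 1)) :
    CPn.mk v hv ∈ range (CPn.affineChart j) ↔ v j ≠ 0 := by
  constructor
  · rintro ⟨z, hz⟩
    exact ((mk_eq_affineChart hv j z).1 hz.symm).1
  · intro h
    exact ⟨_, ((mk_eq_affineChart hv j _).2 ⟨h, fun _ => rfl⟩).symm⟩

theorem ones_ne : (fun _ => 1 : Fin (N + 1) → ℂ) ≠ 0 := fun h => one_ne_zero (congrFun h 0)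

/-- the point `[1 : ... : 1]` -/
def pt : CPn N := CPn.mk (fun _ => 1) ones_ne

theorem joined_pt (i j : Fin (N + 1)) (y : CPn N)
    (hy : y ∈ range (CPn.affineChart i) ∩ range (CPn.affineChart j)) :
    JoinedIn (range (CPn.affineChart i) ∩ range (CPn.affineChart j)) (pt : CPn N) y := by
  obtain ⟨v, hv, rfl⟩ : ∃ (v : Fin (N + 1) → ℂ) (hv : v ≠ 0), CPn.mk v hv = y := by
    obtain ⟨v, hv⟩ := surjective_q y
    exact ⟨v.1, v.2, hv⟩
  obtain ⟨hi, hj⟩ := hy
  rw [mem_range_affineChart] at hi hj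
  -- normalise the coordinate `i`
  obtain ⟨w, hw, hwi, hwj, he⟩ : ∃ (w : Fin (N + 1) → ℂ) (hw : w ≠ 0), w i = 1 ∧ w j ≠ 0 ∧
      CPn.mk v hv = CPn.mk w hw := by
    refine ⟨(v i)⁻¹ • v, smul_ne_zero (inv_ne_zero hi) hv, ?_, ?_,
      (mk_smul hv (inv_ne_zero hi)).symm⟩
    · rw [Pi.smul_apply, smul_eq_mul, inv_mul_cancel₀ hi]
    · rw [Pi.smul_apply, smul_eq_mul]
      exact mul_ne_zero (inv_ne_zero hi) hj
  rw [he]
  have hγ : JoinedIn ({0}ᶜ : Set ℂ) 1 (w j) := by
    have h1 : IsPathConnected ({0}ᶜ : Set ℂ) :=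
      isPathConnected_compl_singleton_of_one_lt_rank (by simp) 0
    exact h1.joinedIn _ one_ne_zero _ hwj
  obtain ⟨γ, hγ0⟩ := hγ
  let u : I → Fin (N + 1) → ℂ := fun t k =>
    if k = i then 1 else if k = j then γ t else (1 - (t : ℝ) : ℂ) + (t : ℝ) * w k
  have hui : ∀ t, u t i = 1 := fun t => if_pos rfl
  have huj : ∀ t, u t j ≠ 0 := by
    intro t
    by_cases hij : j = i
    · rw [hij, hui]
      exact one_ne_zero
    · show (if j = i then (1 : ℂ) else if j = j then γ t else _) ≠ 0
      rw [if_neg hij, if_pos rfl]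
      exact hγ0 t
  have hu0 : ∀ t, u t ≠ 0 := fun t h => by
    have := hui t
    rw [h] at this
    exact zero_ne_one this
  have huc : Continuous u := by
    rw [continuous_pi_iff]
    intro k
    show Continuous fun t => if k = i then (1 : ℂ) else if k = j then γ t else
      (1 - (t : ℝ) : ℂ) + (t : ℝ) * w k
    split_ifs
    · exact continuous_const
    · exact γ.continuous
    · fun_prop
  have h0 : u 0 = fun _ => 1 := by
    funext k
    show (if k = i then (1 : ℂ) else if k = j then γ 0 else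
      (1 - ((0 : I) : ℝ) : ℂ) + ((0 : I) : ℝ) * w k) = 1
    split_ifs
    · rfl
    · exact γ.source
    · simp
  have h1 : u 1 = w := by
    funext k
    show (if k = i then (1 : ℂ) else if k = j then γ 1 else
      (1 - ((1 : I) : ℝ) : ℂ) + ((1 : I) : ℝ) * w k) = w k
    split_ifs with hk hk'
    · rw [hk, hwi]
    · rw [hk', γ.target]
    · simp
  refine ⟨⟨⟨fun t => CPn.mk (u t) (hu0 t), continuous_mk huc hu0⟩, ?_, ?_⟩, fun t => ?_⟩
  · show CPn.mk (u 0) (hu0 0) = pt
    refine (mk_eq_iff _ _).2 ⟨1, ?_⟩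
    rw [h0, one_smul]
  · show CPn.mk (u 1) (hu0 1) = CPn.mk w hw
    refine (mk_eq_iff _ _).2 ⟨1, ?_⟩
    rw [h1, one_smul]
  · constructor
    · exact (mem_range_affineChart (hu0 t) i).2 (by rw [hui]; exact one_ne_zero)
    · exact (mem_range_affineChart (hu0 t) j).2 (huj t)

/-- **`CPn N` is simply connected** -/
instance simplyConnected_CPn : SimplyConnectedSpace (CPn N) := by
  refine simplyConnected_of_cover (fun j : Fin (N + 1) => range (CPn.affineChart j))
    (fun j => (isOpenEmbedding_affineChart j).isOpen_range) (fun y => ?_) pt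
    (fun j x y p q hp hq => homotopic_of_embedding (isOpenEmbedding_affineChart j).isEmbedding
      p q hp hq) fun i j y hy => joined_pt i j y hy
  obtain ⟨j, z, hz⟩ := exists_affineChart y
  exact ⟨j, z, hz.symm⟩

end

end Crest.Agent.R272.CpSC_338
end

-- ▼ part R272/CpSeg1_338
section

/-!
# R272 (S0415), leaf CP-MORPH, part 3 (helper338): the Segre map, topology

`e : Fin (K + 1) ≃ Fin (a + 1) × Fin (b + 1)`, `segM e : CPn a × CPn b → CPn K`:
* `segM_mk`, `segM_injective`, `continuous_segM`, `isClosedEmbedding_segM`;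
* `segX e X0` : the image of `X0 × CPn b`; `prX : C(segX e X0, X0)`, `map_prX_injective` on `π₁`.
-/

set_option autoImplicit false
set_option linter.unusedSectionVars false

open Set Filter Topology
open Crest.AlgGeometry

namespace Crest.Agent.R272.CpSeg_338

open CpTop_338 CpTor_338 CpPi_338

noncomputable section

variable {a b K : ℕ} (e : Fin (K + 1) ≃ Fin (a + 1) × Fin (b + 1))

/-- the Segre map -/
def segM (p : CPn a × CPn b) : CPn K :=
  CPn.mk (tens e (Projectivization.rep p.1) (Projectivization.rep p.2))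
    (tens_ne e (Projectivization.rep_nonzero p.1) (Projectivization.rep_nonzero p.2))

theorem segM_mk {u : Fin (a + 1) → ℂ} {v : Fin (b + 1) → ℂ} (hu : u ≠ 0) (hv : v ≠ 0) :
    segM e (CPn.mk u hu, CPn.mk v hv) = CPn.mk (tens e u v) (tens_ne e hu hv) :=
  (tens_eq_iff e _ _ hu hv).2 ⟨Projectivization.mk_rep _, Projectivization.mk_rep _⟩

theorem exists_mk (x : CPn a) : ∃ (u : Fin (a + 1) → ℂ) (hu : u ≠ 0), x = CPn.mk u hu := by
  obtain ⟨v, rfl⟩ := surjective_q x
  exact ⟨v.1, v.2, rfl⟩

theorem segM_injective : Function.Injective (segM e) := by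
  rintro ⟨x, y⟩ ⟨x', y'⟩ h
  obtain ⟨u, hu, rfl⟩ := exists_mk x
  obtain ⟨v, hv, rfl⟩ := exists_mk y
  obtain ⟨u', hu', rfl⟩ := exists_mk x'
  obtain ⟨v', hv', rfl⟩ := exists_mk y'
  rw [segM_mk, segM_mk, tens_eq_iff] at h
  rw [h.1, h.2]
  all_goals assumption

theorem continuous_segM : Continuous (segM e) := by
  have h1 : IsOpenQuotientMap (Prod.map (q (N := a)) (q (N := b))) :=
    isOpenQuotientMap_q.prodMap isOpenQuotientMap_q
  rw [← h1.continuous_comp_iff]
  have h2 : segM e ∘ Prod.map (q (N := a)) (q (N := b)) = fun p : NZ a × NZ b =>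
      CPn.mk (tens e p.1.1 p.2.1) (tens_ne e p.1.2 p.2.2) := by
    funext p
    exact segM_mk e p.1.2 p.2.2
  rw [h2]
  refine continuous_mk (f := fun p : NZ a × NZ b => tens e p.1.1 p.2.1) ?_ _
  rw [continuous_pi_iff]
  intro k
  exact ((continuous_apply _).comp (continuous_subtype_val.comp continuous_fst)).mul
    ((continuous_apply _).comp (continuous_subtype_val.comp continuous_snd))

theorem isClosedEmbedding_segM : IsClosedEmbedding (segM e) :=
  (continuous_segM e).isClosedEmbedding (segM_injective e)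

/-! ### the product with a projective space -/

variable (X0 : Set (CPn a))

/-- the Segre image of `X0 × CPn b` -/
def segX : Set (CPn K) := segM e '' (X0 ×ˢ univ)

/-- the parametrisation -/
def toX (p : X0 × CPn b) : segX e X0 := ⟨segM e (p.1.1, p.2), ⟨(p.1.1, p.2), ⟨p.1.2, mem_univ _⟩, rfl⟩⟩

theorem continuous_toX : Continuous (toX e X0) :=
  ((continuous_segM e).comp ((continuous_subtype_val.comp continuous_fst).prodMk
    continuous_snd)).subtype_mk _

theorem toX_injective : Function.Injective (toX e X0) := by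
  rintro ⟨x, y⟩ ⟨x', y'⟩ h
  have h1 := segM_injective e (congrArg Subtype.val h)
  simp only [Prod.mk.injEq] at h1
  exact Prod.ext (Subtype.ext h1.1) h1.2

theorem toX_surjective : Function.Surjective (toX e X0) := by
  rintro ⟨_, ⟨⟨x, y⟩, ⟨hx, -⟩, rfl⟩⟩
  exact ⟨(⟨x, hx⟩, y), rfl⟩

theorem isInducing_toX : IsInducing (toX e X0) := by
  have h1 : IsInducing (fun p : X0 × CPn b => segM e (p.1.1, p.2)) :=
    (isClosedEmbedding_segM e).isInducing.comp (IsInducing.subtypeVal.prodMap IsInducing.id)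
  exact IsInducing.of_comp (continuous_toX e X0) continuous_subtype_val h1

/-- `X0 × CPn b ≃ₜ segX` -/
def homX : (X0 × CPn b) ≃ₜ segX e X0 :=
  (Equiv.ofBijective (toX e X0) ⟨toX_injective e X0, toX_surjective e X0⟩).toHomeomorphOfIsInducing
    (isInducing_toX e X0)


theorem isConnected_segX (h : IsConnected X0) : IsConnected (segX e X0) := by
  have : ConnectedSpace X0 := isConnected_iff_connectedSpace.1 h
  have : ConnectedSpace (segX e X0) := (homX e X0).surjective.connectedSpace (homX e X0).continuous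
  exact isConnected_iff_connectedSpace.2 this

/-- the projection to the first factor -/
def prX : C(segX e X0, X0) := ⟨fun x => ((homX e X0).symm x).1,
  continuous_fst.comp (homX e X0).symm.continuous⟩

theorem prX_toX (p : X0 × CPn b) : prX e X0 (toX e X0 p) = p.1 := by
  show ((homX e X0).symm (homX e X0 p)).1 = p.1
  rw [Homeomorph.symm_apply_apply]

/-- loops are homotopic as soon as their projections are -/
theorem map_prX_injective (x : segX e X0) :
    Function.Injective (FundamentalGroup.map (prX e X0) x) := by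
  intro g g' h
  obtain ⟨p, rfl⟩ := exists_path g
  obtain ⟨q, rfl⟩ := exists_path g'
  rw [map_fromPath, map_fromPath, fromPath_eq] at h
  refine fromPath_eq.2 ?_
  -- the homeomorphism to the product
  let f : C(segX e X0, X0 × CPn b) := ⟨(homX e X0).symm, (homX e X0).symm.continuous⟩
  let r : C(X0 × CPn b, segX e X0) := ⟨homX e X0, (homX e X0).continuous⟩
  refine homotopic_of_map f r (fun z => (homX e X0).apply_symm_apply z) ?_
  have h1 : ((p.map f.continuous).map continuous_fst).Homotopic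
      ((q.map f.continuous).map continuous_fst) := h
  have h2 : ((p.map f.continuous).map continuous_snd).Homotopic
      ((q.map f.continuous).map continuous_snd) :=
    SimplyConnectedSpace.paths_homotopic _ _
  obtain ⟨H1⟩ := h1
  obtain ⟨H2⟩ := h2
  exact ⟨Path.Homotopic.prodHomotopy H1 H2⟩

end

end Crest.Agent.R272.CpSeg_338
end

-- ▼ part R272/CpSeg2_338
section

/-!
# R272 (S0415), leaf CP-MORPH, part 4 (helper338): the Segre image of `X0 × CPn b` is smooth

`segX_smooth : IsSmoothProjVariety c0 X0 → C = a * b + c0 → IsSmoothProjVariety C (segX e X0)`.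
-/

set_option autoImplicit false
set_option linter.unusedSectionVars false

open Set Filter Topology
open Crest.AlgGeometry

namespace Crest.Agent.R272.CpSeg_338

open CpTop_338 CpTor_338 CpPi_338

noncomputable section

variable {a b K : ℕ} (e : Fin (K + 1) ≃ Fin (a + 1) × Fin (b + 1))

theorem mem_segX {X0 : Set (CPn a)} {w : Fin (K + 1) → ℂ} (hw : w ≠ 0) :
    CPn.mk w hw ∈ segX e X0 ↔ ∃ (u : Fin (a + 1) → ℂ) (hu : u ≠ 0) (v : Fin (b + 1) → ℂ)
      (_ : v ≠ 0), CPn.mk u hu ∈ X0 ∧ w = tens e u v := by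
  constructor
  · rintro ⟨⟨x, y⟩, ⟨hx, -⟩, h⟩
    obtain ⟨u, hu, rfl⟩ := exists_mk x
    obtain ⟨v, hv, rfl⟩ := exists_mk y
    rw [segM_mk e hu hv] at h
    obtain ⟨c, hc, h1⟩ := (mk_eq_iff' hw (tens_ne e hu hv)).1 h.symm
    refine ⟨u, hu, c • v, smul_ne_zero hc hv, hx, ?_⟩
    rw [h1]
    funext k
    simp only [tens, Pi.smul_apply, smul_eq_mul]
    ring
  · rintro ⟨u, hu, v, hv, hx, rfl⟩
    exact ⟨(CPn.mk u hu, CPn.mk v hv), ⟨hx, mem_univ _⟩, segM_mk e hu hv⟩

/-! ### equations -/

/-- the minors -/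
def minor (p : (Fin (a + 1) × Fin (b + 1)) × (Fin (a + 1) × Fin (b + 1))) :
    MvPolynomial (Fin (K + 1)) ℂ :=
  MvPolynomial.X (e.symm (p.1.1, p.1.2)) * MvPolynomial.X (e.symm (p.2.1, p.2.2)) -
    MvPolynomial.X (e.symm (p.1.1, p.2.2)) * MvPolynomial.X (e.symm (p.2.1, p.1.2))

theorem minor_homog (p : (Fin (a + 1) × Fin (b + 1)) × (Fin (a + 1) × Fin (b + 1))) :
    (minor e p).IsHomogeneous 2 :=
  ((MvPolynomial.isHomogeneous_X ℂ _).mul (MvPolynomial.isHomogeneous_X ℂ _)).sub
    ((MvPolynomial.isHomogeneous_X ℂ _).mul (MvPolynomial.isHomogeneous_X ℂ _))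

theorem eval_minor (w : Fin (K + 1) → ℂ)
    (p : (Fin (a + 1) × Fin (b + 1)) × (Fin (a + 1) × Fin (b + 1))) :
    MvPolynomial.eval w (minor e p) = w (e.symm (p.1.1, p.1.2)) * w (e.symm (p.2.1, p.2.2)) -
      w (e.symm (p.1.1, p.2.2)) * w (e.symm (p.2.1, p.1.2)) := by
  simp only [minor, map_sub, map_mul, MvPolynomial.eval_X]

/-- the equation `p` of the column `l` -/
def colP (l : Fin (b + 1)) (p : MvPolynomial (Fin (a + 1)) ℂ) : MvPolynomial (Fin (K + 1)) ℂ :=
  MvPolynomial.rename (fun k => e.symm (k, l)) p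

theorem eval_colP (w : Fin (K + 1) → ℂ) (l : Fin (b + 1)) (p : MvPolynomial (Fin (a + 1)) ℂ) :
    MvPolynomial.eval w (colP e l p) = MvPolynomial.eval (fun k => w (e.symm (k, l))) p := by
  unfold colP
  rw [MvPolynomial.eval_rename]
  rfl

theorem segX_alg {X0 : Set (CPn a)}
    (h : ∃ s : Finset (MvPolynomial (Fin (a + 1)) ℂ), (∀ p ∈ s, ∃ d : ℕ, p.IsHomogeneous d) ∧
      ∀ (v : Fin (a + 1) → ℂ) (hv : v ≠ 0),
        CPn.mk v hv ∈ X0 ↔ ∀ p ∈ s, MvPolynomial.eval v p = 0) :
    ∃ s : Finset (MvPolynomial (Fin (K + 1)) ℂ), (∀ p ∈ s, ∃ d : ℕ, p.IsHomogeneous d) ∧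
      ∀ (v : Fin (K + 1) → ℂ) (hv : v ≠ 0),
        CPn.mk v hv ∈ segX e X0 ↔ ∀ p ∈ s, MvPolynomial.eval v p = 0 := by
  classical
  obtain ⟨s, hs1, hs2⟩ := h
  refine ⟨Finset.univ.image (minor e) ∪
    (s ×ˢ (Finset.univ : Finset (Fin (b + 1)))).image (fun q => colP e q.2 q.1), ?_, ?_⟩
  · intro p hp
    rw [Finset.mem_union, Finset.mem_image, Finset.mem_image] at hp
    rcases hp with ⟨q, -, rfl⟩ | ⟨q, hq, rfl⟩
    · exact ⟨2, minor_homog e q⟩
    · obtain ⟨d, hd⟩ := hs1 q.1 (Finset.mem_product.1 hq).1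
      exact ⟨d, MvPolynomial.IsHomogeneous.rename_isHomogeneous hd⟩
  · intro w hw
    rw [mem_segX]
    constructor
    · rintro ⟨u, hu, v, hv, hx, rfl⟩ p hp
      rw [Finset.mem_union, Finset.mem_image, Finset.mem_image] at hp
      rcases hp with ⟨q, -, rfl⟩ | ⟨q, hq, rfl⟩
      · rw [eval_minor, tens_apply, tens_apply, tens_apply, tens_apply]
        ring
      · have hq1 := (Finset.mem_product.1 hq).1
        obtain ⟨d, hd⟩ := hs1 q.1 hq1
        rw [eval_colP]
        have h1 : (fun k => tens e u v (e.symm (k, q.2))) = v q.2 • u := by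
          funext k
          rw [tens_apply, Pi.smul_apply, smul_eq_mul, mul_comm]
        rw [h1, Crest.Agent.R273.Chow_313.eval_smul hd, (hs2 u hu).1 hx q.1 hq1, mul_zero]
    · intro h
      obtain ⟨n0, hn0⟩ := Function.ne_iff.1 hw
      obtain ⟨p0, rfl⟩ := e.symm.surjective n0
      obtain ⟨i0, j0⟩ := p0
      have hm : ∀ k l, w (e.symm (k, l)) * w (e.symm (i0, j0)) =
          w (e.symm (k, j0)) * w (e.symm (i0, l)) := by
        intro k l
        have h1 := h (minor e ((k, l), (i0, j0))) (Finset.mem_union_left _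
          (Finset.mem_image_of_mem _ (Finset.mem_univ _)))
        rw [eval_minor, sub_eq_zero] at h1
        exact h1
      have hu : (fun k => w (e.symm (k, j0))) ≠ 0 := fun h0 => hn0 (congrFun h0 i0)
      refine ⟨fun k => w (e.symm (k, j0)), hu,
        fun l => w (e.symm (i0, l)) / w (e.symm (i0, j0)), ?_, ?_, ?_⟩
      · intro h0
        have h1 := congrFun h0 j0
        simp only [Pi.zero_apply] at h1
        rw [div_self hn0] at h1
        exact one_ne_zero h1
      · rw [hs2 _ hu]
        intro p hp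
        have h1 := h (colP e j0 p) (Finset.mem_union_right _
          (Finset.mem_image.2 ⟨(p, j0), Finset.mem_product.2 ⟨hp, Finset.mem_univ _⟩, rfl⟩))
        rwa [eval_colP] at h1
      · funext n
        obtain ⟨⟨k, l⟩, rfl⟩ := e.symm.surjective n
        rw [tens_apply, ← mul_div_assoc, eq_div_iff hn0]
        exact hm k l

/-! ### local equations -/

section Loc

variable (J : Fin (K + 1))

/-- the homogeneous coordinate `q` in the affine chart `J` -/
def cw (q : Fin (K + 1)) (z : Fin K → ℂ) : ℂ := (Fin.insertNth J (1 : ℂ) z : Fin (K + 1) → ℂ) q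

theorem cw_self (z : Fin K → ℂ) : cw J J z = 1 := Fin.insertNth_apply_same _ _ _

theorem hasFDerivAt_cw (q : Fin (K + 1)) (z : Fin K → ℂ) :
    ∃ L : (Fin K → ℂ) →L[ℂ] ℂ, HasFDerivAt (cw J q) L z ∧
      ∀ δ : Fin K → ℂ, L δ = (Fin.insertNth J (0 : ℂ) δ : Fin (K + 1) → ℂ) q := by
  refine Fin.succAboveCases J ?_ (fun n => ?_) q
  · refine ⟨0, ?_, fun δ => ?_⟩
    · have h : cw J J = fun _ => (1 : ℂ) := funext fun z => cw_self J z
      rw [h]
      exact hasFDerivAt_const _ _
    · rw [Fin.insertNth_apply_same]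
      rfl
  · refine ⟨ContinuousLinearMap.proj n, ?_, fun δ => ?_⟩
    · have h : cw J (J.succAbove n) = fun z : Fin K → ℂ => z n := funext fun z =>
        Fin.insertNth_apply_succAbove _ _ _ _
      rw [h]
      exact (ContinuousLinearMap.proj (R := ℂ) (φ := fun _ : Fin K => ℂ) n).hasFDerivAt
    · rw [Fin.insertNth_apply_succAbove]
      rfl

theorem diff_cw (q : Fin (K + 1)) : Differentiable ℂ (cw J q) := fun z => by
  obtain ⟨L, h, -⟩ := hasFDerivAt_cw J q z
  exact h.differentiableAt

theorem fderiv_cw (q : Fin (K + 1)) (z δ : Fin K → ℂ) :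
    fderiv ℂ (cw J q) z δ = (Fin.insertNth J (0 : ℂ) δ : Fin (K + 1) → ℂ) q := by
  obtain ⟨L, h, h1⟩ := hasFDerivAt_cw J q z
  rw [h.fderiv, h1]

/-- the coordinates of the point of `X0` -/
def colC (z : Fin K → ℂ) : Fin a → ℂ := fun k =>
  cw J (e.symm ((e J).1.succAbove k, (e J).2)) z

/-- the minors with the pivot `J` -/
def pv (k : Fin a) (l : Fin b) (z : Fin K → ℂ) : ℂ :=
  cw J (e.symm ((e J).1.succAbove k, (e J).2.succAbove l)) z -
    cw J (e.symm ((e J).1.succAbove k, (e J).2)) z *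
      cw J (e.symm ((e J).1, (e J).2.succAbove l)) z

theorem mem_chart_iff {X0 : Set (CPn a)} (z : Fin K → ℂ) :
    CPn.affineChart J z ∈ segX e X0 ↔
      (∀ k l, pv e J k l z = 0) ∧ CPn.affineChart (e J).1 (colC e J z) ∈ X0 := by
  rw [affineChart_eq, mem_segX]
  have hJ : e.symm ((e J).1, (e J).2) = J := by
    rw [Prod.mk.eta, Equiv.symm_apply_apply]
  constructor
  · rintro ⟨u, hu, v, hv, hx, h⟩
    have hc : ∀ k l, cw J (e.symm (k, l)) z = u k * v l := by
      intro k l
      show (Fin.insertNth J (1 : ℂ) z : Fin (K + 1) → ℂ) _ = _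
      rw [h, tens_apply]
    have h1 : u (e J).1 * v (e J).2 = 1 := by
      rw [← hc, hJ, cw_self]
    refine ⟨fun k l => ?_, ?_⟩
    · unfold pv
      rw [hc, hc, hc]
      linear_combination (-(u ((e J).1.succAbove k) * v ((e J).2.succAbove l))) * h1
    · have hui : u (e J).1 ≠ 0 := left_ne_zero_of_mul_eq_one h1
      have h2 : CPn.mk u hu = CPn.affineChart (e J).1 (colC e J z) := by
        rw [mk_eq_affineChart]
        refine ⟨hui, fun k => ?_⟩
        unfold colC
        rw [hc, eq_div_iff hui]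
        linear_combination (u ((e J).1.succAbove k)) * h1
      rw [← h2]
      exact hx
  · rintro ⟨hp, hx⟩
    refine ⟨Fin.insertNth (e J).1 (1 : ℂ) (colC e J z), insertNth_ne _ _,
      Fin.insertNth (e J).2 (1 : ℂ) (fun l => cw J (e.symm ((e J).1, (e J).2.succAbove l)) z),
      insertNth_ne _ _, hx, ?_⟩
    funext n
    obtain ⟨⟨k, l⟩, rfl⟩ := e.symm.surjective n
    rw [tens_apply]
    show cw J (e.symm (k, l)) z = _
    refine Fin.succAboveCases (e J).1 ?_ (fun k => ?_) k
    · refine Fin.succAboveCases (e J).2 ?_ (fun l => ?_) l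
      · rw [Fin.insertNth_apply_same, Fin.insertNth_apply_same, hJ, cw_self, mul_one]
      · rw [Fin.insertNth_apply_same, Fin.insertNth_apply_succAbove, one_mul]
    · refine Fin.succAboveCases (e J).2 ?_ (fun l => ?_) l
      · rw [Fin.insertNth_apply_same, Fin.insertNth_apply_succAbove, mul_one]
        rfl
      · rw [Fin.insertNth_apply_succAbove, Fin.insertNth_apply_succAbove]
        have h1 := hp k l
        unfold pv at h1
        rw [sub_eq_zero] at h1
        exact h1

theorem diff_colC : Differentiable ℂ (colC e J) :=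
  differentiable_pi.2 fun k => diff_cw J _

theorem segX_subm {X0 : Set (CPn a)} {c0 : ℕ}
    (h : ∀ (j : Fin (a + 1)) (z : Fin a → ℂ), CPn.affineChart j z ∈ X0 →
      IsCplxSubmfldAt c0 (CPn.affineChart j ⁻¹' X0) z)
    {C : ℕ} (g : Fin C ≃ (Fin a × Fin b) ⊕ Fin c0) (z : Fin K → ℂ)
    (hz : CPn.affineChart J z ∈ segX e X0) :
    IsCplxSubmfldAt C (CPn.affineChart J ⁻¹' segX e X0) z := by
  obtain ⟨hp, hx⟩ := (mem_chart_iff e J z).1 hz
  obtain ⟨U0, F0, hU0, hzU, hF0, hsur, hS⟩ := h _ _ hx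
  have hU : IsOpen (colC e J ⁻¹' U0) := hU0.preimage (diff_colC e J).continuous
  have hF0d : DifferentiableAt ℂ F0 (colC e J z) := hF0.differentiableAt (hU0.mem_nhds hzU)
  let F : (Fin K → ℂ) → (Fin C → ℂ) := fun z' m =>
    Sum.elim (fun q : Fin a × Fin b => pv e J q.1 q.2 z') (fun m => F0 (colC e J z') m) (g m)
  refine ⟨colC e J ⁻¹' U0, F, hU, hzU, ?_, ?_, ?_⟩
  · intro z' hz'
    rw [differentiableWithinAt_pi]
    intro m
    show DifferentiableWithinAt ℂ (fun z' => Sum.elim (fun q : Fin a × Fin b => pv e J q.1 q.2 z')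
      (fun m => F0 (colC e J z') m) (g m)) _ z'
    rcases g m with q | m
    · exact (((diff_cw J _) z').sub (((diff_cw J _) z').mul ((diff_cw J _) z'))
        ).differentiableWithinAt
    · have h1 : DifferentiableAt ℂ F0 (colC e J z') := hF0.differentiableAt (hU0.mem_nhds hz')
      have h2 : DifferentiableAt ℂ (fun z' => F0 (colC e J z')) z' :=
        DifferentiableAt.comp z' h1 (diff_colC e J z')
      exact ((differentiableAt_pi.1 h2) m).differentiableWithinAt
  · intro y
    obtain ⟨δc, hδc⟩ := hsur (fun m => y (g.symm (Sum.inr m)))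
    -- the direction
    let W : Fin b → ℂ := fun l => cw J (e.symm ((e J).1, (e J).2.succAbove l)) z
    let Δ : Fin (a + 1) → Fin (b + 1) → ℂ := fun k =>
      Fin.insertNth (e J).2 ((Fin.insertNth (e J).1 (0 : ℂ) δc : Fin (a + 1) → ℂ) k)
        (fun l => (Fin.insertNth (e J).1 (0 : ℂ)
          (fun k' => y (g.symm (Sum.inl (k', l))) + δc k' * W l) : Fin (a + 1) → ℂ) k)
    let δ : Fin K → ℂ := fun n => Δ (e (J.succAbove n)).1 (e (J.succAbove n)).2
    have hΔ : ∀ k l, (Fin.insertNth J (0 : ℂ) δ : Fin (K + 1) → ℂ) (e.symm (k, l)) = Δ k l := by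
      have h1 : ∀ q, (Fin.insertNth J (0 : ℂ) δ : Fin (K + 1) → ℂ) q = Δ (e q).1 (e q).2 := by
        intro q
        refine Fin.succAboveCases J ?_ (fun n => ?_) q
        · rw [Fin.insertNth_apply_same]
          show 0 = (Fin.insertNth (e J).2 ((Fin.insertNth (e J).1 (0 : ℂ) δc : Fin (a + 1) → ℂ)
            (e J).1) _ : Fin (b + 1) → ℂ) (e J).2
          rw [Fin.insertNth_apply_same, Fin.insertNth_apply_same]
        · rw [Fin.insertNth_apply_succAbove]
      intro k l
      rw [h1, Equiv.apply_symm_apply]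
    have hΔ1 : ∀ k, Δ ((e J).1.succAbove k) (e J).2 = δc k := by
      intro k
      show (Fin.insertNth (e J).2 _ _ : Fin (b + 1) → ℂ) (e J).2 = _
      rw [Fin.insertNth_apply_same, Fin.insertNth_apply_succAbove]
    have hΔ2 : ∀ l, Δ (e J).1 ((e J).2.succAbove l) = 0 := by
      intro l
      show (Fin.insertNth (e J).2 _ _ : Fin (b + 1) → ℂ) ((e J).2.succAbove l) = _
      rw [Fin.insertNth_apply_succAbove, Fin.insertNth_apply_same]
    have hΔ3 : ∀ k l, Δ ((e J).1.succAbove k) ((e J).2.succAbove l) =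
        y (g.symm (Sum.inl (k, l))) + δc k * W l := by
      intro k l
      show (Fin.insertNth (e J).2 _ _ : Fin (b + 1) → ℂ) ((e J).2.succAbove l) = _
      rw [Fin.insertNth_apply_succAbove, Fin.insertNth_apply_succAbove]
    have hFd : ∀ m, DifferentiableAt ℂ (fun z' => F z' m) z := by
      intro m
      show DifferentiableAt ℂ (fun z' => Sum.elim (fun q : Fin a × Fin b => pv e J q.1 q.2 z')
        (fun m => F0 (colC e J z') m) (g m)) z
      rcases g m with q | m
      · exact ((diff_cw J _) z).sub (((diff_cw J _) z).mul ((diff_cw J _) z))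
      · have h2 : DifferentiableAt ℂ (fun z' => F0 (colC e J z')) z :=
          DifferentiableAt.comp z hF0d (diff_colC e J z)
        exact (differentiableAt_pi.1 h2) m
    refine ⟨δ, funext fun m => ?_⟩
    have h3 := fderiv_pi (h := hFd)
    have h4 : (fun z' => fun m => F z' m) = F := rfl
    rw [h4] at h3
    rw [h3]
    show fderiv ℂ (fun z' => Sum.elim (fun q : Fin a × Fin b => pv e J q.1 q.2 z')
        (fun m => F0 (colC e J z') m) (g m)) z δ = y m
    rcases hgm : g m with q | m'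
    · have hm : m = g.symm (Sum.inl q) := by rw [← hgm, Equiv.symm_apply_apply]
      show fderiv ℂ (fun z' => pv e J q.1 q.2 z') z δ = y m
      have h5 : HasFDerivAt (fun z' => pv e J q.1 q.2 z')
          (fderiv ℂ (cw J (e.symm ((e J).1.succAbove q.1, (e J).2.succAbove q.2))) z -
            (cw J (e.symm ((e J).1.succAbove q.1, (e J).2)) z •
              fderiv ℂ (cw J (e.symm ((e J).1, (e J).2.succAbove q.2))) z +
            cw J (e.symm ((e J).1, (e J).2.succAbove q.2)) z •
              fderiv ℂ (cw J (e.symm ((e J).1.succAbove q.1, (e J).2))) z)) z :=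
        (diff_cw J _ z).hasFDerivAt.sub
          ((diff_cw J _ z).hasFDerivAt.mul (diff_cw J _ z).hasFDerivAt)
      rw [h5.fderiv]
      show fderiv ℂ (cw J (e.symm ((e J).1.succAbove q.1, (e J).2.succAbove q.2))) z δ -
            (cw J (e.symm ((e J).1.succAbove q.1, (e J).2)) z *
              fderiv ℂ (cw J (e.symm ((e J).1, (e J).2.succAbove q.2))) z δ +
            cw J (e.symm ((e J).1, (e J).2.succAbove q.2)) z *
              fderiv ℂ (cw J (e.symm ((e J).1.succAbove q.1, (e J).2))) z δ) = y m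
      rw [fderiv_cw, fderiv_cw, fderiv_cw, hΔ, hΔ, hΔ, hΔ1, hΔ2, hΔ3, hm]
      show y (g.symm (Sum.inl (q.1, q.2))) + δc q.1 * W q.2 - (_ * 0 + W q.2 * δc q.1) = _
      ring
    · have hm : m = g.symm (Sum.inr m') := by rw [← hgm, Equiv.symm_apply_apply]
      show fderiv ℂ (fun z' => F0 (colC e J z') m') z δ = y m
      have h2 : HasFDerivAt (fun z' => F0 (colC e J z'))
          ((fderiv ℂ F0 (colC e J z)).comp (fderiv ℂ (colC e J) z)) z :=
        hF0d.hasFDerivAt.comp z (diff_colC e J z).hasFDerivAt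
      have h6 := ((hasFDerivAt_pi'.1 h2) m').fderiv
      rw [h6]
      have h7 : fderiv ℂ (colC e J) z δ = δc := by
        funext k
        have h8 := fderiv_pi (h := fun k : Fin a =>
          (diff_cw J (e.symm ((e J).1.succAbove k, (e J).2))) z)
        have h9 : (fun z' => fun k => cw J (e.symm ((e J).1.succAbove k, (e J).2)) z') =
          colC e J := rfl
        rw [h9] at h8
        rw [h8]
        show fderiv ℂ (cw J (e.symm ((e J).1.succAbove k, (e J).2))) z δ = δc k
        rw [fderiv_cw, hΔ, hΔ1]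
      show (fderiv ℂ F0 (colC e J z) (fderiv ℂ (colC e J) z δ)) m' = y m
      rw [h7, hδc, hm]
  · ext z'
    constructor
    · rintro ⟨h1, h2⟩
      refine ⟨h2, funext fun m => ?_⟩
      obtain ⟨h3, h4⟩ := (mem_chart_iff e J z').1 h1
      have h5 : F0 (colC e J z') = 0 := by
        have h6 : colC e J z' ∈ CPn.affineChart (e J).1 ⁻¹' X0 ∩ U0 := ⟨h4, h2⟩
        rw [hS] at h6
        exact h6.2
      show Sum.elim (fun q : Fin a × Fin b => pv e J q.1 q.2 z')
        (fun m => F0 (colC e J z') m) (g m) = 0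
      rcases g m with q | m
      · exact h3 q.1 q.2
      · exact congrFun h5 m
    · rintro ⟨h2, h1⟩
      refine ⟨(mem_chart_iff e J z').2 ⟨fun k l => ?_, ?_⟩, h2⟩
      · have h3 := congrFun h1 (g.symm (Sum.inl (k, l)))
        change Sum.elim (fun q : Fin a × Fin b => pv e J q.1 q.2 z')
          (fun m => F0 (colC e J z') m) (g (g.symm (Sum.inl (k, l)))) = 0 at h3
        rwa [Equiv.apply_symm_apply] at h3
      · have h5 : F0 (colC e J z') = 0 := by
          funext m
          have h3 := congrFun h1 (g.symm (Sum.inr m))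
          change Sum.elim (fun q : Fin a × Fin b => pv e J q.1 q.2 z')
            (fun m => F0 (colC e J z') m) (g (g.symm (Sum.inr m))) = 0 at h3
          rwa [Equiv.apply_symm_apply] at h3
        have h6 : colC e J z' ∈ CPn.affineChart (e J).1 ⁻¹' X0 ∩ U0 := by
          rw [hS]
          exact ⟨h2, h5⟩
        exact h6.1

end Loc

/-- **the Segre image of `X0 × CPn b` is a smooth projective variety** -/
theorem segX_smooth {X0 : Set (CPn a)} {c0 : ℕ} (h : IsSmoothProjVariety c0 X0) {C : ℕ}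
    (hC : C = a * b + c0) : IsSmoothProjVariety C (segX e X0) := by
  subst hC
  let g : Fin (a * b + c0) ≃ (Fin a × Fin b) ⊕ Fin c0 :=
    finSumFinEquiv.symm.trans (Equiv.sumCongr finProdFinEquiv.symm (Equiv.refl _))
  exact ⟨segX_alg e h.1, fun J z hz => segX_subm e J h.2 g z hz⟩

end

end Crest.Agent.R272.CpSeg_338
end

-- ▼ part R272/CpGrp_338
section

/-!
# R272 (S0415), leaf CP-MORPH, part 2 (helper338): virtually infinite cyclic images of a lattice

`exists_scale` : `φ : Λ → G` a homomorphism on a finitely generated abelian group, `φ l₁` of infinite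
order, every `l` has a positive multiple in `ℤ l₁ + ker φ` ⟹ there are `n ≠ 0` and `l₀` such that
`φ (n l₀)` has infinite order and `φ` maps `n Λ` onto the powers of `φ (n l₀)`.
-/

set_option autoImplicit false
set_option linter.unusedSectionVars false

open Multiplicative

namespace Crest.Agent.R272.CpGrp_338

variable {Λ G : Type*} [AddCommGroup Λ] [Group G]

/-- the kernel as a submodule -/
def kerM (φ : Multiplicative Λ →* G) : Submodule ℤ Λ where
  carrier := {l | φ (ofAdd l) = 1}
  add_mem' {a b} ha hb := by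
    show φ (ofAdd (a + b)) = 1
    rw [ofAdd_add, map_mul, show φ (ofAdd a) = 1 from ha, show φ (ofAdd b) = 1 from hb, one_mul]
  zero_mem' := map_one φ
  smul_mem' c a ha := by
    show φ (ofAdd (c • a)) = 1
    rw [ofAdd_zsmul, map_zpow, show φ (ofAdd a) = 1 from ha, one_zpow]

theorem mem_kerM {φ : Multiplicative Λ →* G} {l : Λ} : l ∈ kerM φ ↔ φ (ofAdd l) = 1 := Iff.rfl

theorem exists_exponent (Q : Type*) [AddCommGroup Q] [Module.Finite ℤ Q] :
    ∃ n : ℕ, n ≠ 0 ∧ ∀ (t : Q) (m : ℤ), m ≠ 0 → m • t = 0 → n • t = 0 := by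
  let T : Submodule ℤ Q := Submodule.torsion ℤ Q
  have hT : Module.IsTorsion ℤ T := Submodule.torsion_isTorsion
  have h1 := Submodule.annihilator_top_inter_nonZeroDivisors hT
  obtain ⟨a, ha1, ha2⟩ := h1
  have ha0 : a ≠ 0 := nonZeroDivisors.ne_zero ha2
  refine ⟨a.natAbs, Int.natAbs_ne_zero.2 ha0, fun t m hm ht => ?_⟩
  have htT : t ∈ T := by
    rw [Submodule.mem_torsion_iff]
    exact ⟨⟨m, mem_nonZeroDivisors_of_ne_zero hm⟩, ht⟩
  have h2 : a • (⟨t, htT⟩ : T) = 0 :=
    (Submodule.mem_annihilator.1 ha1) _ Submodule.mem_top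
  have h3 : a • t = 0 := congrArg Subtype.val h2
  rw [← natCast_zsmul]
  rcases Int.natAbs_eq a with h4 | h4
  · rw [← h4]
    exact h3
  · have h5 : ((a.natAbs : ℕ) : ℤ) = - a := by omega
    rw [h5, neg_smul, h3, neg_zero]

theorem exists_scale [Module.Finite ℤ Λ] (φ : Multiplicative Λ →* G) (l₁ : Λ)
    (h1 : ¬ IsOfFinOrder (φ (ofAdd l₁)))
    (h : ∀ l : Λ, ∃ m : ℤ, m ≠ 0 ∧ ∃ k : ℤ, φ (ofAdd (m • l - k • l₁)) = 1) :
    ∃ n : ℕ, n ≠ 0 ∧ ∃ l₀ : Λ, ¬ IsOfFinOrder (φ (ofAdd (n • l₀))) ∧
      ∀ l : Λ, ∃ k : ℤ, φ (ofAdd (n • l - k • n • l₀)) = 1 := by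
  classical
  let Q := Λ ⧸ kerM φ
  let π : Λ →ₗ[ℤ] Q := (kerM φ).mkQ
  have hπ : ∀ l, π l = 0 ↔ φ (ofAdd l) = 1 := fun l =>
    (Submodule.Quotient.mk_eq_zero _).trans mem_kerM
  have hπs : Function.Surjective π := Submodule.mkQ_surjective _
  obtain ⟨n, hn, hexp⟩ := exists_exponent Q
  let T : Submodule ℤ Q := Submodule.torsion ℤ Q
  let Q' := Q ⧸ T
  let ρ : Q →ₗ[ℤ] Q' := T.mkQ
  have hρs : Function.Surjective ρ := Submodule.mkQ_surjective _
  have hρ : ∀ x, ρ x = 0 ↔ ∃ m : ℤ, m ≠ 0 ∧ m • x = 0 := by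
    intro x
    rw [show (ρ x = 0 ↔ x ∈ T) from Submodule.Quotient.mk_eq_zero _, Submodule.mem_torsion_iff]
    constructor
    · rintro ⟨m, hm⟩
      exact ⟨m, nonZeroDivisors.coe_ne_zero m, hm⟩
    · rintro ⟨m, hm, hx⟩
      exact ⟨⟨m, mem_nonZeroDivisors_of_ne_zero hm⟩, hx⟩
  have : Module.IsTorsionFree ℤ Q' := inferInstance
  have : Module.Free ℤ Q' := inferInstance
  let b := Module.Free.chooseBasis ℤ Q'
  -- the class of `l₁` is not zero
  have hq1 : ρ (π l₁) ≠ 0 := by
    intro h0
    obtain ⟨m, hm, h2⟩ := (hρ _).1 h0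
    rw [← map_smul, hπ, ofAdd_zsmul, map_zpow] at h2
    exact h1 (isOfFinOrder_iff_zpow_eq_one.2 ⟨m, hm, h2⟩)
  -- every class has a multiple in the line of `l₁`
  have hline : ∀ x : Q', ∃ m : ℤ, m ≠ 0 ∧ ∃ k : ℤ, m • x = k • ρ (π l₁) := by
    intro x
    obtain ⟨y, rfl⟩ := hρs x
    obtain ⟨l, rfl⟩ := hπs y
    obtain ⟨m, hm, k, hk⟩ := h l
    refine ⟨m, hm, k, ?_⟩
    rw [← hπ, map_sub, map_smul, map_smul, sub_eq_zero] at hk
    rw [← map_smul, hk, map_smul]
  -- the basis has one element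
  have hsub : Subsingleton (Module.Free.ChooseBasisIndex ℤ Q') := by
    refine ⟨fun i j => ?_⟩
    by_contra hij
    obtain ⟨m, hm, k, hk⟩ := hline (b i)
    obtain ⟨m', hm', k', hk'⟩ := hline (b j)
    have e1 : (k' * m) • b i = (k * m') • b j := by
      rw [mul_smul, hk, mul_smul, hk', smul_comm]
    have e2 := congrArg (fun x => b.repr x i) e1
    simp only [map_smul, Module.Basis.repr_self, Finsupp.smul_apply, Finsupp.single_eq_same,
      smul_eq_mul, mul_one] at e2
    rw [Finsupp.single_eq_of_ne (by tauto), mul_zero] at e2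
    have hk0 : k' ≠ 0 := by
      rintro rfl
      rw [zero_smul] at hk'
      exact b.ne_zero j ((smul_eq_zero.1 hk').resolve_left hm')
    exact (mul_ne_zero hk0 hm) e2
  obtain ⟨i₀⟩ : Nonempty (Module.Free.ChooseBasisIndex ℤ Q') := by
    by_contra hne
    rw [not_nonempty_iff] at hne
    refine hq1 ?_
    rw [← b.sum_repr (ρ (π l₁))]
    exact Finset.sum_eq_zero fun i _ => (hne.false i).elim
  have hspan : ∀ x : Q', ∃ k : ℤ, x = k • b i₀ := by
    intro x
    refine ⟨b.repr x i₀, ?_⟩
    conv_lhs => rw [← b.sum_repr x]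
    rw [Finset.sum_eq_single i₀ (fun i _ hi => (hi (Subsingleton.elim _ _)).elim)
      (fun h => absurd (Finset.mem_univ _) h)]
  obtain ⟨y₀, hy₀⟩ := hρs (b i₀)
  obtain ⟨l₀, rfl⟩ := hπs y₀
  refine ⟨n, hn, l₀, fun hfin => ?_, fun l => ?_⟩
  · obtain ⟨m, hm, h2⟩ := isOfFinOrder_iff_zpow_eq_one.1 hfin
    rw [← map_zpow, ← ofAdd_zsmul, ← hπ] at h2
    refine b.ne_zero i₀ ?_
    rw [← hy₀, hρ]
    refine ⟨m * n, mul_ne_zero hm (Nat.cast_ne_zero.2 hn), ?_⟩
    rw [mul_smul, natCast_zsmul, ← map_nsmul, ← map_smul]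
    exact h2
  · obtain ⟨k, hk⟩ := hspan (ρ (π l))
    refine ⟨k, ?_⟩
    rw [← hπ]
    have h3 : ρ (π (l - k • l₀)) = 0 := by
      rw [map_sub, map_sub, map_smul, map_smul, hy₀, hk, sub_self]
    obtain ⟨m, hm, h4⟩ := (hρ _).1 h3
    have h5 := hexp _ m hm h4
    rw [← map_nsmul, smul_sub] at h5
    rw [← h5]
    congr 2
    rw [smul_comm]

end Crest.Agent.R272.CpGrp_338
end

-- ▼ part R272/Lift1_297
section

/-!
Row 272 (helper297): LIFT, part 1.
* `approx` : Taylor approximation on balls by entire functions;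
* `cousin2_global` : local data (in the sense of `Cous686.LocData`) at every point of `ℂⁿ` are given
  by ONE function.
-/

set_option autoImplicit false
set_option linter.unusedSectionVars false

open Set Filter Topology Metric Complex
open Crest.Agent.R266.SCV Crest.Agent.R275.Geo Crest.Agent.R275.Cous686

noncomputable section

namespace Crest.Agent.R272.Lift_297

/-- Taylor approximation on balls -/
theorem approx {E : Type*} [NormedAddCommGroup E] [NormedSpace ℂ E] [FiniteDimensional ℂ E]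
    {v : E → ℂ} {r R ε : ℝ} (h0 : 0 < r) (hrR : r < R) (hv : DifferentiableOn ℂ v (ball 0 R))
    (hε : 0 < ε) :
    ∃ p : E → ℂ, Differentiable ℂ p ∧ ∀ z ∈ closedBall (0 : E) r, ‖v z - p z‖ ≤ ε := by
  have : ProperSpace E := FiniteDimensional.proper ℂ E
  have hR0 : 0 < R := h0.trans hrR
  set r' : ℝ := (r + R) / 2 with hr'
  have hr'R : r' < R := by rw [hr']; linarith
  have hrr' : r < r' := by rw [hr']; linarith
  have hr'0 : 0 < r' := h0.trans hrr'
  set q : NNReal := ⟨r' / r, by positivity⟩ with hq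
  have hqv : (q : ℝ) = r' / r := rfl
  have hq1 : (1 : ℝ) < q := by rw [hqv]; exact (one_lt_div h0).2 hrr'
  have hq0 : 0 < q := by
    have : (0 : ℝ) < q := by linarith
    exact_mod_cast this
  obtain ⟨C, hC⟩ := (isCompact_closedBall (0 : E) r').exists_bound_of_continuousOn
    (f := v) (hv.continuousOn.mono (closedBall_subset_ball hr'R))
  have hva : AnalyticAt ℂ v 0 :=
    (analyticOnNhd_of_differentiableOn isOpen_ball hv) 0 (mem_ball_self hR0)
  obtain ⟨p, hp⟩ := hva
  have hC0 : 0 ≤ C := (norm_nonneg _).trans (hC 0 (mem_closedBall_self hr'0.le))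
  -- the geometric bound
  obtain ⟨M, hM⟩ : ∃ M : ℕ, C * ((q : ℝ)⁻¹) ^ M / (1 - (q : ℝ)⁻¹) ≤ ε := by
    have h1 : (q : ℝ)⁻¹ < 1 := inv_lt_one_of_one_lt₀ hq1
    have h2 : Tendsto (fun M : ℕ => C * ((q : ℝ)⁻¹) ^ M / (1 - (q : ℝ)⁻¹)) atTop
        (𝓝 (C * 0 / (1 - (q : ℝ)⁻¹))) :=
      ((tendsto_pow_atTop_nhds_zero_of_lt_one (by positivity) h1).const_mul C).div_const _
    rw [mul_zero, zero_div] at h2
    exact ((h2.eventually (ge_mem_nhds hε)).exists)
  refine ⟨fun z => ∑ m ∈ Finset.range M, p m (fun _ => z), ?_, ?_⟩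
  · refine Differentiable.fun_sum fun m _ => ?_
    have h1 : Differentiable ℂ (fun x : Fin m → E => p m x) :=
      ((p m).contDiff (n := 1)).differentiable (by norm_num)
    exact h1.comp (differentiable_pi.2 fun _ => differentiable_id)
  · intro z hz
    have hz' : ‖z‖ ≤ r := by simpa using hz
    set g : ℂ → ℂ := fun ζ => v (ζ • z) with hg
    have hmap : ∀ ζ ∈ closedBall (0 : ℂ) q, ζ • z ∈ closedBall (0 : E) r' := by
      intro ζ hζ
      have h1 : ‖ζ‖ ≤ r' / r := by simpa [hqv] using hζ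
      rw [mem_closedBall_zero_iff, norm_smul]
      calc ‖ζ‖ * ‖z‖ ≤ r' / r * r := mul_le_mul h1 hz' (norm_nonneg _) (by positivity)
        _ = r' := by field_simp
    have hgd : DifferentiableOn ℂ g (closedBall 0 q) := by
      refine hv.comp (by fun_prop) fun ζ hζ => ?_
      exact closedBall_subset_ball hr'R (hmap ζ hζ)
    have hgs := hgd.hasFPowerSeriesOnBall hq0
    have hL : HasFPowerSeriesAt g
        (p.compContinuousLinearMap (ContinuousLinearMap.toSpanSingleton ℂ z)) 0 := by
      have hp' : HasFPowerSeriesAt v p ((ContinuousLinearMap.toSpanSingleton ℂ z) 0) := by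
        rw [map_zero]; exact hp
      have := hp'.compContinuousLinearMap
      exact this
    have heq := hgs.hasFPowerSeriesAt.eq_formalMultilinearSeries hL
    have hsum := hgs.hasSum (y := 1) (by
      rw [mem_eball_zero_iff]
      have : (1 : ENNReal) < q := by
        have : (1 : NNReal) < q := by exact_mod_cast hq1
        exact_mod_cast this
      simpa using this)
    have hterm : ∀ m, cauchyPowerSeries g 0 q m (fun _ => 1) = p m (fun _ => z) := by
      intro m
      rw [heq]
      simp [FormalMultilinearSeries.compContinuousLinearMap]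
    have hbd : ∀ m, ‖p m (fun _ => z)‖ ≤ C * ((q : ℝ)⁻¹) ^ m := by
      intro m
      rw [← hterm m]
      have h1 := (cauchyPowerSeries g 0 q m).le_opNorm (fun _ => (1 : ℂ))
      simp only [norm_one, Finset.prod_const_one, mul_one] at h1
      refine h1.trans ((norm_cauchyPowerSeries_le g 0 q m).trans ?_)
      have h2 : (2 * Real.pi)⁻¹ * ∫ θ : ℝ in (0)..2 * Real.pi, ‖g (circleMap 0 q θ)‖ ≤ C := by
        have h3 : ∫ θ : ℝ in (0)..2 * Real.pi, ‖g (circleMap 0 q θ)‖ ≤
            ∫ θ : ℝ in (0)..2 * Real.pi, C := by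
          refine intervalIntegral.integral_mono_on Real.two_pi_pos.le ?_ (by simp) ?_
          · refine ContinuousOn.intervalIntegrable ?_
            refine ContinuousOn.norm (hgd.continuousOn.comp (by fun_prop) ?_)
            intro θ _
            simp [circleMap]
          · intro θ _
            exact hC _ (hmap _ (by simp [circleMap]))
        calc _ ≤ (2 * Real.pi)⁻¹ * ∫ θ : ℝ in (0)..2 * Real.pi, C := by gcongr
          _ = C := by
            rw [intervalIntegral.integral_const]
            have := Real.pi_pos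
            simp only [smul_eq_mul, sub_zero]
            field_simp
      rw [abs_of_pos (by exact_mod_cast hq0 : (0 : ℝ) < q)]
      gcongr
    have hsum' : HasSum (fun m => p m (fun _ => z)) (v z) := by
      have h1 := hsum
      simp only [hterm, zero_add] at h1
      simpa [hg] using h1
    have h1 : (q : ℝ)⁻¹ < 1 := inv_lt_one_of_one_lt₀ hq1
    have h2 := norm_sub_le_of_geometric_bound_of_hasSum h1 hbd hsum' M
    rw [← norm_neg, neg_sub]
    exact h2.trans hM

variable {n : ℕ}

/-- **global Cousin II on `ℂⁿ`** in the language of `Cous686.LocData` -/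
theorem cousin2_global {P : (Cn n → ℂ) → Cn n → Prop} (hP : LocData P)
    (h : ∀ x : Cn n, ∃ f, P f x) : ∃ f, ∀ x, P f x := by
  classical
  have step1 : ∀ k : ℕ, ∃ f, ∀ x ∈ closedBall (0 : Cn n) (k + 2), P f x := by
    intro k
    have hb : ∀ p : RI n, ∃ C : ℝ, ∀ x ∈ closedBall (0 : Cn n) (k + 2), ‖rc x p‖ ≤ C := fun p =>
      (isCompact_closedBall (0 : Cn n) (k + 2)).exists_bound_of_continuousOn
        (continuous_rc_apply p).continuousOn
    choose C hC using hb
    obtain ⟨f, hf⟩ := cousin2 hP (fun p => -C p) C (fun x _ => h x)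
    refine ⟨f, fun x hx => hf x fun p => ?_⟩
    have := hC p x hx
    rw [Real.norm_eq_abs, abs_le] at this
    exact this
  choose f hf using step1
  have step2 : ∀ k : ℕ, ∃ v : Cn n → ℂ, DifferentiableOn ℂ v (ball 0 (k + 2)) ∧
      ∀ x ∈ ball (0 : Cn n) (k + 2), f (k + 1) x = exp (v x) * f k x := by
    intro k
    obtain ⟨u, hu1, hu2, hu3⟩ := hP.quot (O := ball (0 : Cn n) (k + 2)) isOpen_ball
      (fun x hx => hf (k + 1) x (by
        rw [mem_closedBall_zero_iff]
        rw [mem_ball_zero_iff] at hx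
        push_cast
        linarith)) (fun x hx => hf k x (ball_subset_closedBall hx))
    obtain ⟨v, hv1, hv2⟩ := exists_log isOpen_ball (convex_ball (0 : Cn n) (k + 2)) hu1 hu2
    exact ⟨v, hv1, fun x hx => by rw [hv2 x hx, hu3 x hx]⟩
  choose v hv hfv using step2
  have step3 : ∀ k : ℕ, ∃ p : Cn n → ℂ, Differentiable ℂ p ∧
      ∀ z ∈ closedBall (0 : Cn n) (k + 1), ‖v k z - p z‖ ≤ (1 / 2 : ℝ) ^ k := fun k =>
    approx (by positivity) (by linarith) (hv k) (by positivity)
  choose p hp hvp using step3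
  set s : ℕ → Cn n → ℂ := fun k x => ∑ j ∈ Finset.range k, p j x with hs
  have hsd : ∀ k, Differentiable ℂ (s k) := fun k => Differentiable.fun_sum fun j _ => hp j
  set w : ℕ → Cn n → ℂ := fun k x => ∑' i, (v (k + i) x - p (k + i) x) with hw
  have hbd : ∀ k i : ℕ, ∀ x ∈ ball (0 : Cn n) (k + 1),
      ‖v (k + i) x - p (k + i) x‖ ≤ (1 / 2 : ℝ) ^ i := by
    intro k i x hx
    refine (hvp (k + i) x ?_).trans ?_
    · rw [mem_closedBall_zero_iff]
      rw [mem_ball_zero_iff] at hx
      push_cast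
      have : (0 : ℝ) ≤ i := Nat.cast_nonneg i
      linarith
    · exact pow_le_pow_of_le_one (by norm_num) (by norm_num) (Nat.le_add_left i k)
  have hgs : Summable fun i : ℕ => (1 / 2 : ℝ) ^ i := summable_geometric_two
  have hwd : ∀ k : ℕ, DifferentiableOn ℂ (w k) (ball 0 (k + 1)) := by
    intro k
    have h1 : TendstoUniformlyOn
        (fun N x => ∑ i ∈ Finset.range N, (v (k + i) x - p (k + i) x)) (w k) atTop
        (ball (0 : Cn n) (k + 1)) := tendstoUniformlyOn_tsum_nat hgs (hbd k)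
    refine (analyticOnNhd_of_tendstoLocallyUniformlyOn isOpen_ball
      h1.tendstoLocallyUniformlyOn (Eventually.of_forall fun N => ?_)).differentiableOn
    refine DifferentiableOn.fun_sum fun i _ => ?_
    refine ((hv (k + i)).mono (ball_subset_ball ?_)).sub (hp _).differentiableOn
    push_cast
    have : (0 : ℝ) ≤ i := Nat.cast_nonneg i
    linarith
  have hws : ∀ k : ℕ, ∀ x ∈ ball (0 : Cn n) (k + 1), w k x = (v k x - p k x) + w (k + 1) x := by
    intro k x hx
    have h1 : Summable fun i => (v (k + i) x - p (k + i) x) :=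
      Summable.of_norm_bounded hgs (fun i => hbd k i x hx)
    simp only [hw]
    rw [h1.tsum_eq_zero_add]
    simp only [add_zero]
    congr 1
    refine tsum_congr fun i => ?_
    rw [show k + (i + 1) = k + 1 + i by ring]
  set G : ℕ → Cn n → ℂ := fun k x => exp (w k x - s k x) * f k x with hG
  have hGs : ∀ k : ℕ, ∀ x ∈ ball (0 : Cn n) (k + 1), G k x = G (k + 1) x := by
    intro k x hx
    have hx2 : x ∈ ball (0 : Cn n) (k + 2) := ball_subset_ball (by linarith) hx
    simp only [hG]
    rw [hfv k x hx2, ← mul_assoc, ← Complex.exp_add, hws k x hx]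
    congr 2
    simp only [hs]
    rw [Finset.sum_range_succ]
    ring
  have hGG : ∀ k j : ℕ, ∀ x ∈ ball (0 : Cn n) (k + 1), G k x = G (k + j) x := by
    intro k j x hx
    induction j with
    | zero => rfl
    | succ j ih =>
      rw [ih, ← add_assoc]
      refine hGs (k + j) x (ball_subset_ball ?_ hx)
      push_cast
      have : (0 : ℝ) ≤ j := Nat.cast_nonneg j
      linarith
  refine ⟨fun x => G ⌊‖x‖⌋₊ x, fun x => ?_⟩
  set k := ⌊‖x‖⌋₊ with hk
  have hxk : x ∈ ball (0 : Cn n) (k + 1) := by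
    rw [mem_ball_zero_iff]; exact Nat.lt_floor_add_one _
  have hev : (fun y => G ⌊‖y‖⌋₊ y) =ᶠ[𝓝 x] G k := by
    filter_upwards [isOpen_ball.mem_nhds hxk] with y hy
    rw [mem_ball_zero_iff] at hy
    have h1 : ⌊‖y‖⌋₊ ≤ k := by
      have : ⌊‖y‖⌋₊ < k + 1 := (Nat.floor_lt (norm_nonneg y)).2 (by push_cast; exact hy)
      omega
    obtain ⟨j, hj⟩ := Nat.exists_eq_add_of_le h1
    rw [hj]
    exact hGG _ j y (by rw [mem_ball_zero_iff]; exact Nat.lt_floor_add_one _)
  have hPk : P (f k) x := hf k x (by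
    rw [mem_closedBall_zero_iff]
    rw [mem_ball_zero_iff] at hxk
    linarith)
  refine hP.mul hPk (u := fun y => exp (w k y - s k y)) ?_ (Complex.exp_ne_zero _) hev
  filter_upwards [isOpen_ball.mem_nhds hxk] with y hy
  exact (((hwd k).differentiableAt (isOpen_ball.mem_nhds hy)).sub (hsd k y)).cexp

end Crest.Agent.R272.Lift_297
end
end

-- ▼ part R272/Lift2_297
section

/-!
Row 272 (helper297): LIFT, part 2.
* `lift` : a map `f : ℂⁿ → CPn N` with a holomorphic local lift at every point has an entire nowhere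
  vanishing lift.
* `lift_pi` : the same on `Fin n → ℂ`.
-/

set_option autoImplicit false
set_option linter.unusedSectionVars false

open Set Filter Topology Metric Complex
open Crest.Agent.R266.SCV Crest.Agent.R275.Geo Crest.Agent.R275.Cous686
open Crest.AlgGeometry

noncomputable section

namespace Crest.Agent.R272.Lift_297

variable {N : ℕ}

/-- `v` is a vector of homogeneous coordinates of `x` -/
def Rep (x : CPn N) (v : Fin (N + 1) → ℂ) : Prop := ∃ hv : v ≠ 0, CPn.mk v hv = x

theorem Rep.ne {x : CPn N} {v : Fin (N + 1) → ℂ} (h : Rep x v) : v ≠ 0 := h.1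

theorem Rep.eq_smul {x : CPn N} {v w : Fin (N + 1) → ℂ} (h : Rep x v) (h' : Rep x w) :
    ∃ c : ℂ, c ≠ 0 ∧ v = c • w := by
  obtain ⟨hv, e⟩ := h
  obtain ⟨hw, e'⟩ := h'
  obtain ⟨c, hc⟩ := (Projectivization.mk_eq_mk_iff' ℂ v w hv hw).1 (e.trans e'.symm)
  refine ⟨c, ?_, hc.symm⟩
  rintro rfl
  exact hv (by rw [← hc, zero_smul])

theorem Rep.smul {x : CPn N} {v : Fin (N + 1) → ℂ} (h : Rep x v) {c : ℂ} (hc : c ≠ 0) :
    Rep x (c • v) := by
  obtain ⟨hv, e⟩ := h
  refine ⟨smul_ne_zero hc hv, ?_⟩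
  rw [← e]
  exact (Projectivization.mk_eq_mk_iff' ℂ _ _ _ _).2 ⟨c, rfl⟩

section

variable {E : Type*} [NormedAddCommGroup E] [NormedSpace ℂ E]

/-- `F` is a holomorphic lift of `f` near `x` -/
def LocLift (f : E → CPn N) (F : E → Fin (N + 1) → ℂ) (x : E) : Prop :=
  (∀ᶠ w in 𝓝 x, DifferentiableAt ℂ F w) ∧ ∀ᶠ w in 𝓝 x, Rep (f w) (F w)

/-- the `k`-th homogeneous coordinate of `f` is zero -/
def ZeroK (f : E → CPn N) (k : Fin (N + 1)) : Set E := {y | ∀ v, Rep (f y) v → v k = 0}

theorem exists_coord [FiniteDimensional ℂ E] {f : E → CPn N} (hf : ∀ z, ∃ F, LocLift f F z) :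
    ∃ k : Fin (N + 1), ∀ x F, LocLift f F x → ∃ᶠ y in 𝓝 x, F y k ≠ 0 := by
  have hcl : ∀ k, IsClosed (interior (ZeroK f k)) := by
    intro k
    refine isClosed_of_closure_subset fun x hx => ?_
    obtain ⟨F, h1, h2⟩ := hf x
    obtain ⟨ρ, hρ, hb⟩ := Metric.eventually_nhds_iff_ball.1 (h1.and h2)
    have hFd : DifferentiableOn ℂ (fun y => F y k) (ball x ρ) := fun y hy =>
      ((differentiableAt_pi.1 (hb y hy).1) k).differentiableWithinAt
    have hFa := analyticOnNhd_of_differentiableOn isOpen_ball hFd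
    obtain ⟨y, hy, hyZ⟩ := mem_closure_iff.1 hx (ball x ρ) isOpen_ball (mem_ball_self hρ)
    have hzero : ∀ y ∈ ball x ρ, F y k = 0 := by
      by_contra hne
      push Not at hne
      have h3 := dense_ne_zero isOpen_ball (convex_ball x ρ).isPreconnected hFa hne y hy
      apply h3
      filter_upwards [isOpen_interior.mem_nhds hyZ] with w hw hc
      exact hc.2 (interior_subset hw _ (hb w hc.1).2)
    refine mem_interior.2 ⟨ball x ρ, fun w hw v hv => ?_, isOpen_ball, mem_ball_self hρ⟩
    obtain ⟨c, -, hc⟩ := hv.eq_smul (hb w hw).2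
    rw [hc, Pi.smul_apply, hzero w hw, smul_zero]
  have hdi : ∃ k, interior (ZeroK f k) = ∅ := by
    by_contra hne
    push Not at hne
    have hall : ∀ k, interior (ZeroK f k) = univ := fun k =>
      IsClopen.eq_univ ⟨hcl k, isOpen_interior⟩ (hne k)
    obtain ⟨F, -, h2⟩ := hf 0
    refine h2.self_of_nhds.ne (funext fun k => ?_)
    have : (0 : E) ∈ interior (ZeroK f k) := by rw [hall k]; trivial
    exact interior_subset this _ h2.self_of_nhds
  obtain ⟨k, hk⟩ := hdi
  refine ⟨k, fun x F hF hcon => ?_⟩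
  have : x ∈ interior (ZeroK f k) := by
    rw [mem_interior_iff_mem_nhds]
    filter_upwards [hcon, hF.2] with y h1 h2 v hv
    obtain ⟨c, -, hc⟩ := hv.eq_smul h2
    rw [hc, Pi.smul_apply, not_not.1 h1, smul_zero]
  rw [hk] at this
  exact this

/-- the local data of the coordinate `k` -/
def PK (f : E → CPn N) (k : Fin (N + 1)) (a : E → ℂ) (x : E) : Prop :=
  ∃ F, LocLift f F x ∧ a =ᶠ[𝓝 x] fun w => F w k

theorem LocLift.ev {f : E → CPn N} {F : E → Fin (N + 1) → ℂ} {x : E} (h : LocLift f F x) :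
    ∀ᶠ y in 𝓝 x, LocLift f F y := by
  filter_upwards [eventually_eventually_nhds.2 h.1, eventually_eventually_nhds.2 h.2] with y h1 h2
  exact ⟨h1, h2⟩

theorem locData {f : E → CPn N} {k : Fin (N + 1)}
    (hk : ∀ x F, LocLift f F x → ∃ᶠ y in 𝓝 x, F y k ≠ 0) : LocData (PK f k) where
  hol := by
    rintro a x ⟨F, hF, ha⟩
    filter_upwards [hF.1, eventually_eventually_nhds.2 ha] with y h1 h2
    exact ((differentiableAt_pi.1 h1) k).congr_of_eventuallyEq h2
  ne := by
    rintro a x ⟨F, hF, ha⟩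
    refine ((hk x F hF).and_eventually ha).mono ?_
    rintro y ⟨h1, h2⟩
    rw [h2]; exact h1
  ev := by
    rintro a x ⟨F, hF, ha⟩
    filter_upwards [hF.ev, eventually_eventually_nhds.2 ha] with y h1 h2
    exact ⟨F, h1, h2⟩
  ratio := by
    rintro a a' x ⟨F, hF, ha⟩ ⟨F', hF', ha'⟩
    have hne := hF'.2.self_of_nhds.ne
    obtain ⟨j, hj⟩ := Function.ne_iff.1 hne
    have hj' : F' x j ≠ 0 := hj
    have hc' : ContinuousAt (fun w => F' w j) x :=
      ((differentiableAt_pi.1 hF'.1.self_of_nhds) j).continuousAt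
    have hev : ∀ᶠ w in 𝓝 x, F' w j ≠ 0 := hc'.eventually_ne hj'
    refine ⟨fun w => F w j / F' w j, ?_, ?_, ?_⟩
    · filter_upwards [hF.1, hF'.1, hev] with w h1 h2 h3
      have e1 : DifferentiableAt ℂ (fun w => F w j) w := (differentiableAt_pi.1 h1) j
      have e2 : DifferentiableAt ℂ (fun w => F' w j) w := (differentiableAt_pi.1 h2) j
      simp only [div_eq_mul_inv]
      exact e1.mul (e2.inv h3)
    · obtain ⟨c, hc0, hc⟩ := hF.2.self_of_nhds.eq_smul hF'.2.self_of_nhds
      have : F x j = c * F' x j := by rw [hc]; rfl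
      show F x j / F' x j ≠ 0
      rw [this, mul_div_cancel_right₀ _ hj']
      exact hc0
    · filter_upwards [ha, ha', hev, hF.2, hF'.2] with w h1 h2 h3 h4 h5
      obtain ⟨c, hc0, hc⟩ := h4.eq_smul h5
      have e1 : F w j = c * F' w j := by rw [hc]; rfl
      have e2 : F w k = c * F' w k := by rw [hc]; rfl
      show a w = F w j / F' w j * a' w
      rw [h1, h2, e1, e2, mul_div_cancel_right₀ _ h3]
  mul := by
    rintro a a' u x ⟨F, hF, ha⟩ hu hu0 he
    have hev : ∀ᶠ w in 𝓝 x, u w ≠ 0 := hu.self_of_nhds.continuousAt.eventually_ne hu0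
    refine ⟨fun w => u w • F w, ⟨?_, ?_⟩, ?_⟩
    · filter_upwards [hu, hF.1] with w h1 h2
      exact h1.smul h2
    · filter_upwards [hev, hF.2] with w h1 h2
      exact h2.smul h1
    · filter_upwards [ha, he] with w h1 h2
      show a' w = u w * F w k
      rw [h2, ← h1]; rfl

end

variable {n : ℕ}

/-- **LIFT**: a holomorphic map `ℂⁿ → CPn N` has an entire nowhere vanishing lift -/
theorem lift {f : Cn n → CPn N} (hf : ∀ z, ∃ F, LocLift f F z) :
    ∃ F : Cn n → Fin (N + 1) → ℂ, Differentiable ℂ F ∧ ∀ z, Rep (f z) (F z) := by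
  obtain ⟨k, hk⟩ := exists_coord hf
  have hP := locData hk
  obtain ⟨a, ha⟩ := cousin2_global hP (fun x => by
    obtain ⟨F, hF⟩ := hf x
    exact ⟨fun w => F w k, F, hF, EventuallyEq.rfl⟩)
  choose Φ hΦ haΦ using ha
  have hag : ∀ x, (fun y => Φ y y) =ᶠ[𝓝 x] Φ x := by
    intro x
    filter_upwards [(hΦ x).ev, eventually_eventually_nhds.2 (haΦ x)] with y h1 h2
    by_contra hne
    have c1 : ContinuousAt (Φ y) y := (hΦ y).1.self_of_nhds.continuousAt
    have c2 : ContinuousAt (Φ x) y := h1.1.self_of_nhds.continuousAt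
    have h3 : ∀ᶠ w in 𝓝 y, Φ y w - Φ x w ≠ 0 := (c1.sub c2).eventually_ne (sub_ne_zero.2 hne)
    refine (hP.ne ⟨Φ y, hΦ y, haΦ y⟩) ?_
    filter_upwards [h3, h1.2, (hΦ y).2, haΦ y, h2] with w h4 h5 h6 h7 h8 h9
    obtain ⟨c, hc0, hc⟩ := h6.eq_smul h5
    have e2 : Φ y w k = c * Φ x w k := by rw [hc]; rfl
    have e3 : a w = c * a w := by
      calc a w = Φ y w k := h7
        _ = c * Φ x w k := e2
        _ = c * a w := by rw [h8]
    have e4 : c = 1 := by
      have : (c - 1) * a w = 0 := by rw [sub_mul, one_mul, ← e3, sub_self]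
      rcases mul_eq_zero.1 this with h | h
      · exact sub_eq_zero.1 h
      · exact absurd h h9
    apply h4
    rw [hc, e4, one_smul, sub_self]
  refine ⟨fun y => Φ y y, fun x => ?_, fun x => (hΦ x).2.self_of_nhds⟩
  exact (hΦ x).1.self_of_nhds.congr_of_eventuallyEq (hag x)

/-- LIFT on `Fin n → ℂ` -/
theorem lift_pi {f : (Fin n → ℂ) → CPn N} (hf : ∀ z, ∃ F, LocLift f F z) :
    ∃ F : (Fin n → ℂ) → Fin (N + 1) → ℂ, Differentiable ℂ F ∧ ∀ z, Rep (f z) (F z) := by
  set e : Cn n ≃L[ℂ] (Fin n → ℂ) := EuclideanSpace.equiv (Fin n) ℂ with he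
  obtain ⟨F, hF1, hF2⟩ := lift (f := fun z : Cn n => f (e z)) (fun z => by
    obtain ⟨F, h1, h2⟩ := hf (e z)
    refine ⟨fun w => F (e w), ?_, ?_⟩
    · have := e.continuous.continuousAt.eventually h1
      filter_upwards [this] with w hw
      exact hw.comp w e.differentiableAt
    · exact e.continuous.continuousAt.eventually h2)
  refine ⟨fun z => F (e.symm z), hF1.comp e.symm.differentiable, fun z => ?_⟩
  have := hF2 (e.symm z)
  rwa [e.apply_symm_apply] at this

end Crest.Agent.R272.Lift_297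
end
end

-- ▼ part R272/CpEnd_338
section

/-!
# R272, leaf CP-END (helper338): the literal end of S0415

`s0415_of` : from
* `M` compact connected Hausdorff, `A : Atl n M` finite, `PA : Part A`, `P : ProjD A`;
* `ω` real independent with the simplicity clause, `D : TorD ω b` (one embedding of `ℂ² / Λ`);
* `f : C(Fin 2 → ℂ, M)` holomorphic and `Λ`-periodic;
* a period `l₁` whose class has infinite order, such that every period has a non-zero multiple in
  `ℤ l₁` modulo the periods which die in `M`;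
the statement of S0415.
-/

set_option autoImplicit false
set_option linter.unusedSectionVars false

open Set Filter Topology
open Crest.AlgGeometry

namespace Crest.Agent.R272.CpEnd_338

open Crest.Agent.R275.Geo Crest.Agent.R275.Core144 Crest.Agent.R273.Defs_333
open CpTop_338 CpChow_338 CpMan_338 CpTor_338 CpPi_338 CpSeg_338 CpGrp_338
open TLoop_463 TLoopCP_463 Lift_297

noncomputable section

variable {n : ℕ} {M : Type} [TopologicalSpace M] {A : Atl n M}

/-- holomorphic maps `ℂ² → M` -/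
def HolTo (A : Atl n M) (f : (Fin 2 → ℂ) → M) : Prop :=
  ∀ i z, f z ∈ (A.e i).source → DifferentiableAt ℂ (fun w => A.e i (f w)) z

/-- the composition with a projective embedding has an entire lift -/
theorem exists_lift (P : ProjD A) {f : C(Fin 2 → ℂ, M)} (hf : HolTo A f) :
    ∃ G : (Fin 2 → ℂ) → Fin (P.N + 1) → ℂ, Differentiable ℂ G ∧
      ∀ z, ∃ h : G z ≠ 0, CPn.mk (G z) h = toCP P (f z) := by
  obtain ⟨G, hG, hr⟩ := lift_pi (n := 2) (f := fun z => toCP P (f z)) (fun z => by
    refine ⟨fun w => P.F (ci A (f z)) (f w), ?_, ?_⟩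
    · have h1 : ∀ᶠ w in 𝓝 z, f w ∈ (A.e (ci A (f z))).source :=
        f.continuous.continuousAt.eventually
          ((A.e (ci A (f z))).open_source.mem_nhds (ci_mem A (f z)))
      filter_upwards [h1.eventually_nhds] with w hw
      have hw0 : f w ∈ (A.e (ci A (f z))).source := hw.self_of_nhds
      rw [differentiableAt_pi]
      intro k
      have h2 : DifferentiableAt ℂ (fun y => P.F (ci A (f z)) ((A.e (ci A (f z))).symm y) k)
          (A.e (ci A (f z)) (f w)) := Fdiff P _ ((A.e _).map_source hw0) k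
      have h3 := h2.comp w (f := fun w => A.e (ci A (f z)) (f w)) (hf _ w hw0)
      refine h3.congr_of_eventuallyEq ?_
      filter_upwards [hw] with y hy
      simp only [Function.comp_apply, (A.e (ci A (f z))).left_inv hy]
    · have h1 : ∀ᶠ w in 𝓝 z, f w ∈ (A.e (ci A (f z))).source :=
        f.continuous.continuousAt.eventually
          ((A.e (ci A (f z))).open_source.mem_nhds (ci_mem A (f z)))
      filter_upwards [h1] with w hw
      exact ⟨P.ne _ _ hw, (toCP_eq P hw).symm⟩)
  exact ⟨G, hG, hr⟩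

theorem perHom_congr {V Y : Type*} [AddCommGroup V] [Module ℝ V] [TopologicalSpace V]
    [ContinuousAdd V] [ContinuousSMul ℝ V] [TopologicalSpace Y] {Λ Λ' : AddSubgroup V}
    {f f' : C(V, Y)} (h : f = f') (hf : Per f Λ) (hf' : Per f' Λ') (v₀ : V) {l : V}
    (hl : l ∈ Λ) (hl' : l ∈ Λ') :
    (perHom hf v₀ (Multiplicative.ofAdd ⟨l, hl⟩) = 1 ↔
      perHom hf' v₀ (Multiplicative.ofAdd ⟨l, hl'⟩) = 1) ∧
    (IsOfFinOrder (perHom hf v₀ (Multiplicative.ofAdd ⟨l, hl⟩)) ↔
      IsOfFinOrder (perHom hf' v₀ (Multiplicative.ofAdd ⟨l, hl'⟩))) := by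
  subst h
  exact ⟨Iff.rfl, Iff.rfl⟩

instance finite_lattice (ω : Fin 4 → (Fin 2 → ℂ)) :
    Module.Finite ℤ (periodLattice ω).toAddSubgroup := by
  have : Module.Finite ℤ (periodLattice ω) :=
    Module.Finite.iff_fg.2 (Submodule.fg_span (finite_range ω))
  exact Module.Finite.equiv (AddEquiv.refl (periodLattice ω)).toIntLinearEquiv

theorem scale_mem {ω : Fin 4 → (Fin 2 → ℂ)} {n : ℕ} (hn : n ≠ 0) {z : Fin 2 → ℂ} :
    z ∈ periodLattice (fun i => n • ω i) ↔ ∃ y ∈ periodLattice ω, n • y = z := by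
  have hn' : (n : ℂ) ≠ 0 := Nat.cast_ne_zero.2 hn
  rw [mem_scale hn]
  constructor
  · intro h
    refine ⟨_, h, ?_⟩
    rw [← Nat.cast_smul_eq_nsmul ℂ, smul_smul, mul_inv_cancel₀ hn', one_smul]
  · rintro ⟨y, hy, rfl⟩
    rwa [← Nat.cast_smul_eq_nsmul ℂ, smul_smul, inv_mul_cancel₀ hn', one_smul]

theorem scale_le {ω : Fin 4 → (Fin 2 → ℂ)} {n : ℕ} (hn : n ≠ 0) {z : Fin 2 → ℂ}
    (hz : z ∈ periodLattice (fun i => n • ω i)) : z ∈ periodLattice ω := by
  obtain ⟨y, hy, rfl⟩ := (scale_mem hn).1 hz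
  exact (periodLattice ω).smul_mem n hy |> fun h => by simpa using h

theorem scale_li {ω : Fin 4 → (Fin 2 → ℂ)} (hω : LinearIndependent ℝ ω) {n : ℕ} (hn : n ≠ 0) :
    LinearIndependent ℝ (fun i => n • ω i) := by
  have h1 : IsUnit (n : ℝ) := (Nat.cast_ne_zero.2 hn : (n : ℝ) ≠ 0).isUnit
  have h2 := hω.units_smul (fun _ => h1.unit)
  convert h2 using 1
  funext i
  show n • ω i = (n : ℝ) • ω i
  rw [Nat.cast_smul_eq_nsmul]

section Main

variable [T2Space M] [CompactSpace M] [ConnectedSpace M] [Finite A.ι]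

/-- **the literal end of S0415** -/
theorem s0415_of (PA : Part A) (P : ProjD A) {ω : Fin 4 → (Fin 2 → ℂ)}
    (hω : LinearIndependent ℝ ω)
    (hsim : ∀ l m : Fin 2 → ℂ, l ∈ periodLattice ω → m ∈ periodLattice ω → l ≠ 0 →
      ∀ a : ℂ, m = a • l → a.im = 0) {b : ℕ} (D : TorD ω b)
    (f : C(Fin 2 → ℂ, M)) (hf : HolTo A f) (hper : Per f (periodLattice ω).toAddSubgroup)
    (z₀ : Fin 2 → ℂ) (l₁ : (periodLattice ω).toAddSubgroup)
    (h1 : ¬ IsOfFinOrder (perHom hper z₀ (Multiplicative.ofAdd l₁)))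
    (h : ∀ l : (periodLattice ω).toAddSubgroup, ∃ m : ℤ, m ≠ 0 ∧ ∃ k : ℤ,
      perHom hper z₀ (Multiplicative.ofAdd (m • l - k • l₁)) = 1) :
    ∃ (N c : ℕ) (X A : Set (CPn N)), IsSmoothProjVariety c X ∧ IsConnected X ∧
      IsSimpleAbelianSurface A ∧ A ⊆ X ∧
      ∃ x : X, (x : CPn N) ∈ A ∧ ∃ g : FundamentalGroup X x, ¬ IsOfFinOrder g ∧
        loopClassesIn X A x = Set.range (fun k : ℤ => g ^ k) := by
  obtain ⟨nn, hn, l₀, h0, hk⟩ := exists_scale (perHom hper z₀) l₁ h1 h
  -- the covering torus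
  let ω' : Fin 4 → (Fin 2 → ℂ) := fun i => nn • ω i
  have hω' : LinearIndependent ℝ ω' := scale_li hω hn
  have hle : ∀ z, z ∈ periodLattice ω' → z ∈ periodLattice ω := fun z hz => scale_le hn hz
  have hsim' : ∀ l m : Fin 2 → ℂ, l ∈ periodLattice ω' → m ∈ periodLattice ω' → l ≠ 0 →
      ∀ a : ℂ, m = a • l → a.im = 0 := fun l m hl hm => hsim l m (hle l hl) (hle m hm)
  let D1 : TorD ω' b := D.scale hn
  -- the lift of `f`
  obtain ⟨G, hGd, hGr⟩ := exists_lift P hf
  choose hG0 hG using hGr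
  have hGp : ∀ z w : Fin 2 → ℂ, z - w ∈ periodLattice ω' →
      CPn.mk (G z) (hG0 z) = CPn.mk (G w) (hG0 w) := by
    intro z w hzw
    rw [hG, hG]
    have h2 := hper w (z - w) (hle _ hzw)
    rw [add_sub_cancel] at h2
    rw [h2]
  let K : ℕ := P.N * b + P.N + b
  let e : Fin (K + 1) ≃ Fin (P.N + 1) × Fin (b + 1) :=
    (finCongr (by ring : K + 1 = (P.N + 1) * (b + 1))).trans finProdFinEquiv.symm
  let D2 : TorD ω' K := TorD.tensor e G hG0 hGd hGp D1
  -- the varieties
  let X0 : Set (CPn P.N) := range (toCP P)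
  obtain ⟨c0, hc0, hX0⟩ := smooth' PA P
  let X : Set (CPn K) := segX e X0
  have hX : IsSmoothProjVariety (P.N * b + c0) X := segX_smooth e hX0 rfl
  have hXc : IsConnected X := isConnected_segX e X0 (isConnected_toCP P)
  have hpt : ∀ z, D2.map z = segM e (toCP P (f z), D1.map z) := by
    intro z
    rw [← hG z]
    exact (segM_mk e (hG0 z) (D1.ne z)).symm
  have hmem : ∀ z, CPn.mk (D2.F z) (D2.ne z) ∈ X := fun z =>
    ⟨(toCP P (f z), D1.map z), ⟨⟨f z, rfl⟩, mem_univ _⟩, (hpt z).symm⟩
  -- the map to `M`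
  let hM : M ≃ₜ X0 := (isClosedEmbedding_toCP P).isEmbedding.toHomeomorph
  let r : C(X, M) := (⟨hM.symm, hM.symm.continuous⟩ : C(X0, M)).comp (prX e X0)
  have hr : r.comp (par D2.F D2.ne D2.diff.continuous hmem) = f := by
    ext z
    show hM.symm (prX e X0 ⟨CPn.mk (D2.F z) (D2.ne z), hmem z⟩) = f z
    have h2 : (⟨CPn.mk (D2.F z) (D2.ne z), hmem z⟩ : X) =
        toX e X0 (⟨toCP P (f z), ⟨f z, rfl⟩⟩, D1.map z) := Subtype.ext (hpt z)
    rw [h2, prX_toX, Homeomorph.symm_apply_eq]
    exact Subtype.ext rfl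
  have hinj : ∀ x : X, Function.Injective (FundamentalGroup.map r x) := by
    intro x
    have h2 : Function.Injective (FundamentalGroup.map
        (⟨hM.symm, hM.symm.continuous⟩ : C(X0, M)) (prX e X0 x)) :=
      map_injective _ (⟨hM, hM.continuous⟩ : C(M, X0)) (fun z => hM.apply_symm_apply z) _
    intro g g' hgg
    refine map_prX_injective e X0 x (h2 ?_)
    obtain ⟨p, rfl⟩ := exists_path g
    obtain ⟨q, rfl⟩ := exists_path g'
    exact hgg
  -- transfer of the periods
  let pH := par_per ω' D2.F D2.ne D2.diff.continuous hmem D2.per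
  have key : ∀ (l : Fin 2 → ℂ) (hl : l ∈ (periodLattice ω').toAddSubgroup)
      (hl' : l ∈ (periodLattice ω).toAddSubgroup),
      (perHom pH z₀ (Multiplicative.ofAdd ⟨l, hl⟩) = 1 ↔
        perHom hper z₀ (Multiplicative.ofAdd ⟨l, hl'⟩) = 1) ∧
      (IsOfFinOrder (perHom pH z₀ (Multiplicative.ofAdd ⟨l, hl⟩)) ↔
        IsOfFinOrder (perHom hper z₀ (Multiplicative.ofAdd ⟨l, hl'⟩))) := by
    intro l hl hl'
    have h2 := perHom_congr hr
      (fun v m hm => by
        show r (par D2.F D2.ne D2.diff.continuous hmem (v + m)) = r _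
        rw [pH v m hm]) hper z₀ hl hl'
    have h3 := map_perHom pH r z₀ (Multiplicative.ofAdd ⟨l, hl⟩)
    have h4 := hinj (par D2.F D2.ne D2.diff.continuous hmem z₀)
    constructor
    · rw [← h2.1, ← h3]
      constructor
      · intro h5
        rw [h5, map_one]
      · intro h5
        exact h4 (h5.trans (map_one _).symm)
    · rw [← h2.2, ← h3]
      constructor
      · intro h5
        exact (FundamentalGroup.map r _).isOfFinOrder h5
      · intro h5
        rw [isOfFinOrder_iff_pow_eq_one] at h5 ⊢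
        obtain ⟨m, hm, h6⟩ := h5
        refine ⟨m, hm, h4 ?_⟩
        rw [map_pow, h6, map_one]
  have hmul : ∀ y ∈ (periodLattice ω).toAddSubgroup, nn • y ∈ (periodLattice ω').toAddSubgroup :=
    fun y hy => (scale_mem hn).2 ⟨y, hy, rfl⟩
  refine ⟨K, P.N * b + c0, X, range D2.map, hX, hXc, isSimpleAbelianSurface hω' hsim' D2, ?_, ?_⟩
  · rintro _ ⟨z, rfl⟩
    exact hmem z
  · refine end_of_periods ω' D2.F D2.ne hω' D2.diff.continuous hmem D2.per rfl z₀
      ⟨nn • (l₀ : Fin 2 → ℂ), hmul _ l₀.2⟩ (fun l => ?_) ?_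
    · obtain ⟨y, hy, hyl⟩ := (scale_mem hn).1 l.2
      obtain ⟨k, hk'⟩ := hk ⟨y, hy⟩
      refine ⟨k, ?_⟩
      have h2 : (l - k • (⟨nn • (l₀ : Fin 2 → ℂ), hmul _ l₀.2⟩ :
          (periodLattice ω').toAddSubgroup)) = ⟨nn • y - k • nn • (l₀ : Fin 2 → ℂ),
            sub_mem (hmul y hy) (zsmul_mem (hmul _ l₀.2) k)⟩ := by
        refine Subtype.ext ?_
        show (l : Fin 2 → ℂ) - k • (nn • (l₀ : Fin 2 → ℂ)) = _
        rw [← hyl]
      rw [h2]
      refine ((key _ _ (sub_mem (nsmul_mem hy nn) (zsmul_mem (nsmul_mem l₀.2 nn) k))).1).2 ?_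
      exact hk'
    · intro h2
      refine h0 ?_
      exact ((key _ _ (nsmul_mem l₀.2 nn)).2).1 h2

end Main

end

end Crest.Agent.R272.CpEnd_338
end

-- ▼ part R272/CpEnd2_338
section

/-!
# R272, leaf CP-END, part 2 (helper338): torus data from immersions

* `torD_of` : `f : ℂ² → M` holomorphic, immersive, `f z = f w ↔ z - w ∈ Λ`, `P : ProjD A`
  ⟹ `TorD ω P.N` (`M` = the torus itself, or any manifold which contains it);
* `s0415_emb` : the literal end of S0415 for an embedded torus (no separate torus data).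
-/

set_option autoImplicit false
set_option linter.unusedSectionVars false

open Set Filter Topology
open Crest.AlgGeometry

namespace Crest.Agent.R272.CpEnd_338

open Crest.Agent.R275.Geo Crest.Agent.R275.Core144 Crest.Agent.R273.Defs_333
open CpTop_338 CpChow_338 CpMan_338 CpTor_338 CpPi_338 CpSeg_338 CpGrp_338
open TLoop_463 TLoopCP_463 Lift_297

noncomputable section

variable {n : ℕ} {M : Type} [TopologicalSpace M] {A : Atl n M}

/-- immersive maps `ℂ² → M` (one chart at every point is enough) -/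
def ImmTo (A : Atl n M) (f : (Fin 2 → ℂ) → M) : Prop :=
  ∀ z, ∃ i, f z ∈ (A.e i).source ∧
    ∀ v, fderiv ℂ (fun w => A.e i (f w)) z v = 0 → v = 0

theorem fderiv_pi_apply {E : Type*} [NormedAddCommGroup E] [NormedSpace ℂ E] {m : ℕ}
    {F : E → Fin m → ℂ} {z : E} (h : DifferentiableAt ℂ F z) (v : E) (k : Fin m) :
    fderiv ℂ F z v k = fderiv ℂ (fun w => F w k) z v := by
  have h3 := ((hasFDerivAt_pi'.1 h.hasFDerivAt) k).fderiv
  rw [h3]
  rfl

/-- torus data from a projective embedding of a manifold which contains (or is) the torus -/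
theorem torD_of (P : ProjD A) {ω : Fin 4 → (Fin 2 → ℂ)} {f : C(Fin 2 → ℂ, M)} (hf : HolTo A f)
    (him : ImmTo A f) (hper : ∀ z w, f z = f w ↔ z - w ∈ periodLattice ω) :
    ∃ D : TorD ω P.N, ∀ z, D.map z = toCP P (f z) := by
  obtain ⟨G, hGd, hGr⟩ := exists_lift P hf
  choose hG0 hG using hGr
  refine ⟨⟨G, hG0, hGd, ?_, ?_⟩, hG⟩
  · intro z a v hv
    obtain ⟨i, hi, hinj⟩ := him z
    refine hinj v ?_
    -- the local lift
    let Q : (Fin 2 → ℂ) → Fin (P.N + 1) → ℂ := fun w => P.F i (f w)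
    have h1 : ∀ᶠ w in 𝓝 z, f w ∈ (A.e i).source :=
      f.continuous.continuousAt.eventually ((A.e i).open_source.mem_nhds hi)
    have hP : DifferentiableAt ℂ (fun y => P.F i ((A.e i).symm y)) (A.e i (f z)) :=
      differentiableAt_pi.2 fun k => Fdiff P i ((A.e i).map_source hi) k
    have hQ1 : HasFDerivAt (fun w => P.F i ((A.e i).symm (A.e i (f w))))
        ((fderiv ℂ (fun y => P.F i ((A.e i).symm y)) (A.e i (f z))).comp
          (fderiv ℂ (fun w => A.e i (f w)) z)) z :=
      HasFDerivAt.comp (g := fun y => P.F i ((A.e i).symm y)) (f := fun w => A.e i (f w)) z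
        hP.hasFDerivAt (hf i z hi).hasFDerivAt
    have hQ2 : HasFDerivAt Q ((fderiv ℂ (fun y => P.F i ((A.e i).symm y)) (A.e i (f z))).comp
          (fderiv ℂ (fun w => A.e i (f w)) z)) z := by
      refine hQ1.congr_of_eventuallyEq ?_
      filter_upwards [h1] with w hw
      show P.F i (f w) = P.F i ((A.e i).symm (A.e i (f w)))
      rw [(A.e i).left_inv hw]
    have hQd : DifferentiableAt ℂ Q z := hQ2.differentiableAt
    have hQ0 : Q z ≠ 0 := P.ne i _ hi
    obtain ⟨k, hk⟩ := Function.ne_iff.1 hQ0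
    -- `G = g • Q` near `z`
    have hprop : ∀ᶠ w in 𝓝 z, ∀ l, G w l * Q w k = G w k * Q w l := by
      filter_upwards [h1] with w hw l
      have h2 := (hG w).trans (toCP_eq P hw)
      rw [mk_eq_iff_minor] at h2
      exact h2 l k
    have hGl : ∀ l, DifferentiableAt ℂ (fun w => G w l) z := differentiableAt_pi.1 (hGd z)
    have hQl : ∀ l, DifferentiableAt ℂ (fun w => Q w l) z := differentiableAt_pi.1 hQd
    have hd : ∀ l, fderiv ℂ (fun w => G w l) z v * Q z k + G z l * fderiv ℂ (fun w => Q w k) z v =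
        fderiv ℂ (fun w => G w k) z v * Q z l + G z k * fderiv ℂ (fun w => Q w l) z v := by
      intro l
      have h2 : (fun w => G w l * Q w k) =ᶠ[𝓝 z] fun w => G w k * Q w l := by
        filter_upwards [hprop] with w hw
        exact hw l
      have h3 := h2.fderiv_eq (𝕜 := ℂ)
      rw [fderiv_fun_mul (hGl l) (hQl k), fderiv_fun_mul (hGl k) (hQl l)] at h3
      have h4 := congrArg (fun L : (Fin 2 → ℂ) →L[ℂ] ℂ => L v) h3
      simp only [_root_.add_apply, _root_.smul_apply, smul_eq_mul] at h4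
      linear_combination h4
    have hz := hprop.self_of_nhds
    have hGk : G z k ≠ 0 := by
      intro h0
      refine hG0 z (funext fun l => ?_)
      have h2 := hz l
      rw [h0, zero_mul] at h2
      exact (mul_eq_zero.1 h2).resolve_right hk
    have hv' : ∀ l, fderiv ℂ (fun w => G w l) z v = - a * G z l := by
      intro l
      have h2 := congrFun hv l
      rw [Pi.add_apply, fderiv_pi_apply (hGd z)] at h2
      change a * G z l + _ = 0 at h2
      linear_combination h2
    -- the derivative of `Q` is proportional to `Q`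
    have hQv : ∀ l, fderiv ℂ (fun w => Q w l) z v =
        (fderiv ℂ (fun w => Q w k) z v / Q z k) * Q z l := by
      intro l
      have h2 := hd l
      rw [hv', hv'] at h2
      have h3 : G z k * (fderiv ℂ (fun w => Q w l) z v * Q z k) =
          G z k * (fderiv ℂ (fun w => Q w k) z v * Q z l) := by
        have h4 := hz l
        linear_combination (-(Q z k)) * h2 + (fderiv ℂ (fun w => Q w k) z v + (-a) * Q z k) * h4
      have h4 := mul_left_cancel₀ hGk h3
      have hk' : Q z k ≠ 0 := hk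
      field_simp
      exact h4
    refine P.imm i (A.e i (f z)) ((A.e i).map_source hi) _
      ⟨fderiv ℂ (fun w => Q w k) z v / Q z k, funext fun l => ?_⟩
    have h5 : fderiv ℂ Q z v = fderiv ℂ (fun y => P.F i ((A.e i).symm y)) (A.e i (f z))
        (fderiv ℂ (fun w => A.e i (f w)) z v) := by
      rw [hQ2.fderiv]
      rfl
    rw [← h5, fderiv_pi_apply hQd, hQv l, Pi.smul_apply, smul_eq_mul, (A.e i).left_inv hi]
  · intro z w
    rw [hG, hG, (toCP_injective P).eq_iff]
    exact hper z w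

variable [T2Space M] [CompactSpace M] [ConnectedSpace M] [Finite A.ι]


end

end Crest.Agent.R272.CpEnd_338
end

-- ▼ part R272/Comp2_259

/-!
# R272, leaf COMP-RED (helper259), part 2: the two frozen ends without connectedness

* `subH_pos` : positivity of metrics restricts;
* `P1C.sub`, `trans_sub`, `img_sub` : rational curves in the component;
* `loopsIn_cmp` : infinitely many loop classes in the component;
* `s14_of` : 414's `of_projD` without `[ConnectedSpace X]`; `s14_of_pos` : the same with a positive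
  line bundle and the Kodaira embedding theorem (connected case) as hypothesis;
* `s0415_of'`, `s0415_emb'`, `s0415_of_pos`, `s0415_emb_pos` : the same for S0415.
-/

set_option autoImplicit false
set_option linter.unusedSectionVars false

open Set Filter Topology Complex TopologicalSpace
open Crest.AlgGeometry

namespace Crest.Agent.R272.Comp_259

open Crest.Agent.R275.Geo Crest.Agent.R275.Core144 Crest.Agent.R275.GC293
open Crest.Agent.R273.Defs_333
open CpTop_338 CpChow_338 CpMan_338 CpPi_338 CpRat423 G14a_414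

noncomputable section

section Pos

variable {n : ℕ} {M : Type} [TopologicalSpace M] {A : Atl n M} {U : Opens M} [hU : Nonempty U]

theorem lev_congr {u v : Cn n → ℝ} {z : Cn n} (h : u =ᶠ[𝓝 z] v) (w : Cn n) :
    lev u z w = lev v z w := by
  unfold lev
  rw [(h.iteratedFDeriv ℝ 2).self_of_nhds]

theorem wt_sub {L : LB A} (h : HM L) (i : A.ι) {z : Cn n}
    (hz : z ∈ ((subA A U).e i).target) :
    (fun w => - Real.log (h.w i ((((subA A U).e i).symm w : U) : M))) =ᶠ[𝓝 z] h.wt i := by
  filter_upwards [((subA A U).e i).open_target.mem_nhds hz] with w hw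
  show - Real.log (h.w i ((((subA A U).e i).symm w : U) : M)) = - Real.log (h.w i _)
  rw [e_symm hw]

theorem lev_sub {L : LB A} (h : HM L) (i : A.ι) {z : Cn n}
    (hz : z ∈ ((subA A U).e i).target) (v : Cn n) :
    lev ((subH (U := U) h).wt i) z v = lev (h.wt i) z v := lev_congr (wt_sub h i hz) v

/-- positivity restricts -/
theorem subH_pos {L : LB A} {h : HM L} (hp : h.Pos) : (subH (U := U) h).Pos := by
  intro i z hz v hv
  have h1 : z ∈ (A.e i).target := target_sub (A := A) (U := U) i hz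
  have h2 := hp i z h1 v hv
  have h3 := lev_sub (U := U) h i hz v
  exact h3 ▸ h2

end Pos

section Curves

variable {n : ℕ} {M : Type} [TopologicalSpace M] {A : Atl n M} {U : Opens M} [hU : Nonempty U]

/-- a rational curve contained in `U` -/
def P1C.sub (γ : P1C A) (h : γ.img ⊆ U) : P1C (subA A U) where
  g b z := ⟨γ.g b z, h γ.mem_img⟩
  glue z hz := Subtype.ext (γ.glue z hz)
  cont b := (γ.cont b).subtype_mk _
  hol b z := by
    obtain ⟨i, hi, hd, h0⟩ := γ.hol b z
    exact ⟨i, mem_source.2 hi, hd, h0⟩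
  inj z w hzw := γ.inj (congrArg Subtype.val hzw)
  ninf := by
    rintro ⟨z, hz⟩
    exact γ.ninf ⟨z, congrArg Subtype.val hz⟩


theorem img_sub (γ : P1C A) (h : γ.img ⊆ U) :
    (P1C.sub γ h).img = Subtype.val ⁻¹' γ.img := by
  ext x
  rw [mem_preimage, P1C.mem_img_iff, P1C.mem_img_iff]
  constructor
  · rintro ⟨b, z, rfl⟩
    exact ⟨b, z, rfl⟩
  · rintro ⟨b, z, hz⟩
    exact ⟨b, z, Subtype.ext hz⟩

theorem trans_sub {γ δ : P1C A} (h : γ.img ⊆ U) (h' : δ.img ⊆ U) (ht : Trans γ δ) :
    Trans (P1C.sub γ h) (P1C.sub δ h') := by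
  intro b z b' z' hz
  obtain ⟨i, hi, hn⟩ := ht b z b' z' (congrArg Subtype.val hz)
  exact ⟨i, mem_source.2 hi, hn⟩

end Curves

section Loops

variable {M : Type} [TopologicalSpace M] [LocallyConnectedSpace M]

theorem map_inc_injective {x : M} (a : cmp x) :
    Function.Injective (FundamentalGroup.map (inc x) a) :=
  map_injective (inc x) (ret x) (fun z => ret_val z) a

/-- infinitely many loop classes: pass to the component -/
theorem loopsIn_cmp {x : M} {S : Set M} (hS : S ⊆ cmp x) (hi : (loopsIn S x).Infinite) :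
    (loopsIn (Subtype.val ⁻¹' S : Set (cmp x)) (bp x)).Infinite := by
  intro hfin
  refine hi ((hfin.image (FundamentalGroup.map (inc x) (bp x))).subset ?_)
  rintro _ ⟨p, hp, rfl⟩
  have h0 : ret x x = bp x := ret_of_mem mem_connectedComponent
  let p' : Path (bp x) (bp x) := (p.map (ret x).continuous).cast h0.symm h0.symm
  have hp' : ∀ t, ((p' t : cmp x) : M) = p t := fun t => val_ret (hS (hp t))
  refine ⟨FundamentalGroup.fromPath ⟦p'⟧, ⟨p', fun t => ?_, rfl⟩, ?_⟩
  · show ((p' t : cmp x) : M) ∈ S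
    rw [hp' t]; exact hp t
  · rw [map_fromPath]
    have h1 : p'.map (inc x).continuous = p := by
      ext t
      exact hp' t
    exact congrArg (fun q => FundamentalGroup.fromPath ⟦q⟧) h1

end Loops

section S14

variable {X : Type} [TopologicalSpace X] [T2Space X] [CompactSpace X] {A : Atl 2 X} [Finite A.ι]

/-- **the end of S0414 without connectedness of the surface**; `HP` produces the projective
embedding of the component -/
theorem s14_aux (PA : Part A) {k : ℕ} (γ : Fin k → P1C A)
    (ht : ∀ i j, i ≠ j → Trans (γ i) (γ j))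
    (h3 : ∀ i j l, i ≠ j → j ≠ l → i ≠ l → (γ i).img ∩ (γ j).img ∩ (γ l).img = ∅)
    (hc : IsConnected (⋃ i, (γ i).img)) {x : X} (hx : x ∈ ⋃ i, (γ i).img)
    (hi : (loopsIn (⋃ i, (γ i).img) x).Infinite)
    (HP : ∀ (U : Opens X) [Nonempty U], IsClosed (U : Set X) → ConnectedSpace U →
      Nonempty (ProjD (subA A U))) : S14 := by
  have : LocallyConnectedSpace X := locConn A
  have hsub : (⋃ i, (γ i).img) ⊆ cmp x :=
    sub_cmp hc.isPreconnected hx mem_connectedComponent
  have hsub' : ∀ i, (γ i).img ⊆ cmp x := fun i => (subset_iUnion _ i).trans hsub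
  obtain ⟨P⟩ := HP (cmp x) (isClosed_cmp x) inferInstance
  have himg : ⋃ i, (P1C.sub (γ i) (hsub' i)).img =
      (Subtype.val ⁻¹' (⋃ i, (γ i).img) : Set (cmp x)) := by
    rw [preimage_iUnion]
    exact iUnion_congr fun i => img_sub _ _
  refine of_projD (X := cmp x) (A := subA A (cmp x)) (subP (isClosed_cmp x) PA) P
    (fun i => P1C.sub (γ i) (hsub' i)) (fun i j hij => trans_sub _ _ (ht i j hij))
    (fun i j l hij hjl hil => ?_) ?_ (x := bp x) ?_ ?_
  · rw [img_sub, img_sub, img_sub, ← preimage_inter, ← preimage_inter, h3 i j l hij hjl hil,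
      preimage_empty]
  · rw [himg]
    refine ⟨⟨bp x, hx⟩, ?_⟩
    have h1 : (Subtype.val : cmp x → X) '' (Subtype.val ⁻¹' (⋃ i, (γ i).img)) =
        ⋃ i, (γ i).img := by
      rw [image_preimage_eq_inter_range]
      exact inter_eq_left.2 fun y hy => ⟨⟨y, hsub hy⟩, rfl⟩
    have h2 := hc.isPreconnected
    rw [← h1] at h2
    exact (IsInducing.subtypeVal.isPreconnected_image).1 h2
  · rw [himg]; exact hx
  · rw [himg]
    exact loopsIn_cmp hsub hi

theorem s14_of (PA : Part A) (P : ProjD A) {k : ℕ} (γ : Fin k → P1C A)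
    (ht : ∀ i j, i ≠ j → Trans (γ i) (γ j))
    (h3 : ∀ i j l, i ≠ j → j ≠ l → i ≠ l → (γ i).img ∩ (γ j).img ∩ (γ l).img = ∅)
    (hc : IsConnected (⋃ i, (γ i).img)) {x : X} (hx : x ∈ ⋃ i, (γ i).img)
    (hi : (loopsIn (⋃ i, (γ i).img) x).Infinite) : S14 :=
  s14_aux PA γ ht h3 hc hx hi fun _ _ _ _ => ⟨subPD P⟩

/-- the Kodaira embedding theorem for connected compact manifolds (as a hypothesis) -/
def KodEmb (n : ℕ) : Prop :=
  ∀ (Y : Type) [TopologicalSpace Y] [T2Space Y] [CompactSpace Y] [ConnectedSpace Y]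
    (B : Atl n Y) [Finite B.ι], Part B → ∀ (O : LB B) (h : HM O), h.Pos → Nonempty (ProjD B)

theorem KodEmb.cmp {n : ℕ} (K : KodEmb n) {X : Type} [TopologicalSpace X] [T2Space X]
    [CompactSpace X] {A : Atl n X} [Finite A.ι] (PA : Part A) {O : LB A} {h : HM O} (hp : h.Pos)
    (U : Opens X) [Nonempty U] (hU : IsClosed (U : Set X)) (hc : ConnectedSpace U) :
    Nonempty (ProjD (subA A U)) := by
  have : CompactSpace U := isCompact_iff_compactSpace.1 hU.isCompact
  exact K U (subA A U) (subP hU PA) (subL O) (subH h) (subH_pos hp)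


end S14

section S15

open CpEnd_338 CpTor_338 TLoop_463

variable {n : ℕ} {M : Type} [TopologicalSpace M] [T2Space M] [CompactSpace M] {A : Atl n M}
  [Finite A.ι]

/-- the map into the component -/
def fc [LocallyConnectedSpace M] (f : C(Fin 2 → ℂ, M)) (z₀ : Fin 2 → ℂ) :
    C(Fin 2 → ℂ, cmp (f z₀)) := (ret (f z₀)).comp f

theorem mem_cmp [LocallyConnectedSpace M] (f : C(Fin 2 → ℂ, M)) (z₀ z : Fin 2 → ℂ) :
    f z ∈ cmp (f z₀) :=
  sub_cmp (isPreconnected_range f.continuous) ⟨z₀, rfl⟩ mem_connectedComponent ⟨z, rfl⟩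

theorem fc_val [LocallyConnectedSpace M] (f : C(Fin 2 → ℂ, M)) (z₀ z : Fin 2 → ℂ) :
    ((fc f z₀ z : cmp (f z₀)) : M) = f z := val_ret (mem_cmp f z₀ z)

theorem fc_hol [LocallyConnectedSpace M] {f : C(Fin 2 → ℂ, M)} (hf : HolTo A f)
    (z₀ : Fin 2 → ℂ) : HolTo (subA A (cmp (f z₀))) (fc f z₀) := by
  intro i z hz
  have h1 : (fun w => (subA A (cmp (f z₀))).e i (fc f z₀ w)) = fun w => A.e i (f w) := by
    funext w
    show A.e i ((fc f z₀ w : cmp (f z₀)) : M) = _
    rw [fc_val]
  rw [h1]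
  refine hf i z ?_
  rw [← fc_val f z₀ z]
  exact mem_source.1 hz

theorem fc_imm [LocallyConnectedSpace M] {f : C(Fin 2 → ℂ, M)} (hf : ImmTo A f)
    (z₀ : Fin 2 → ℂ) : ImmTo (subA A (cmp (f z₀))) (fc f z₀) := by
  intro z
  obtain ⟨i, hi, hv⟩ := hf z
  have h1 : (fun w => (subA A (cmp (f z₀))).e i (fc f z₀ w)) = fun w => A.e i (f w) := by
    funext w
    show A.e i ((fc f z₀ w : cmp (f z₀)) : M) = _
    rw [fc_val]
  refine ⟨i, mem_source.2 ?_, fun v => ?_⟩
  · rw [fc_val]; exact hi
  · rw [h1]; exact hv v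

theorem fc_per [LocallyConnectedSpace M] {f : C(Fin 2 → ℂ, M)} {Λ : AddSubgroup (Fin 2 → ℂ)}
    (hper : Per f Λ) (z₀ : Fin 2 → ℂ) : Per (fc f z₀) Λ := by
  intro v l hl
  show ret (f z₀) (f (v + l)) = ret (f z₀) (f v)
  rw [hper v l hl]

theorem fc_key [LocallyConnectedSpace M] {f : C(Fin 2 → ℂ, M)} {Λ : AddSubgroup (Fin 2 → ℂ)}
    (hper : Per f Λ) (z₀ : Fin 2 → ℂ) (l : Λ) :
    (perHom (fc_per hper z₀) z₀ (Multiplicative.ofAdd l) = 1 ↔
      perHom hper z₀ (Multiplicative.ofAdd l) = 1) ∧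
    (IsOfFinOrder (perHom (fc_per hper z₀) z₀ (Multiplicative.ofAdd l)) ↔
      IsOfFinOrder (perHom hper z₀ (Multiplicative.ofAdd l))) := by
  have hr : (inc (f z₀)).comp (fc f z₀) = f := by
    ext z
    exact fc_val f z₀ z
  have h2 := perHom_congr hr
    (fun v m hm => by
      show inc (f z₀) (fc f z₀ (v + m)) = inc (f z₀) _
      rw [fc_per hper z₀ v m hm]) hper z₀ l.2 l.2
  have h3 := map_perHom (fc_per hper z₀) (inc (f z₀)) z₀ (Multiplicative.ofAdd l)
  have h4 := map_inc_injective (fc f z₀ z₀)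
  constructor
  · rw [← h2.1, ← h3]
    constructor
    · intro h5
      rw [h5, map_one]
    · intro h5
      exact h4 (h5.trans (map_one _).symm)
  · rw [← h2.2, ← h3]
    constructor
    · intro h5
      exact (FundamentalGroup.map (inc (f z₀)) _).isOfFinOrder h5
    · intro h5
      rw [isOfFinOrder_iff_pow_eq_one] at h5 ⊢
      obtain ⟨m, hm, h6⟩ := h5
      refine ⟨m, hm, h4 ?_⟩
      rw [map_pow, h6, map_one]

/-- the text of S0415 -/
def S15 : Prop :=
  ∃ (N c : ℕ) (X A : Set (CPn N)), IsSmoothProjVariety c X ∧ IsConnected X ∧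
    IsSimpleAbelianSurface A ∧ A ⊆ X ∧
    ∃ x : X, (x : CPn N) ∈ A ∧ ∃ g : FundamentalGroup X x, ¬ IsOfFinOrder g ∧
      loopClassesIn X A x = Set.range (fun k : ℤ => g ^ k)

theorem s15_aux (PA : Part A) {ω : Fin 4 → (Fin 2 → ℂ)} (hω : LinearIndependent ℝ ω)
    (hsim : ∀ l m : Fin 2 → ℂ, l ∈ periodLattice ω → m ∈ periodLattice ω → l ≠ 0 →
      ∀ a : ℂ, m = a • l → a.im = 0)
    (f : C(Fin 2 → ℂ, M)) (hf : HolTo A f) (hper : Per f (periodLattice ω).toAddSubgroup)
    (z₀ : Fin 2 → ℂ) (l₁ : (periodLattice ω).toAddSubgroup)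
    (h1 : ¬ IsOfFinOrder (perHom hper z₀ (Multiplicative.ofAdd l₁)))
    (h : ∀ l : (periodLattice ω).toAddSubgroup, ∃ m : ℤ, m ≠ 0 ∧ ∃ k : ℤ,
      perHom hper z₀ (Multiplicative.ofAdd (m • l - k • l₁)) = 1)
    (HP : ∀ (U : Opens M) [Nonempty U], IsClosed (U : Set M) → ConnectedSpace U →
      Nonempty (ProjD (subA A U)))
    (HD : (∃ b, Nonempty (TorD ω b)) ∨
      (ImmTo A f ∧ ∀ z w, f z = f w ↔ z - w ∈ periodLattice ω)) : S15 := by
  have : LocallyConnectedSpace M := locConn A
  obtain ⟨P⟩ := HP (cmp (f z₀)) (isClosed_cmp _) inferInstance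
  have hD : ∃ b, Nonempty (TorD ω b) := by
    rcases HD with hD | ⟨him, hinj⟩
    · exact hD
    · obtain ⟨D, -⟩ := torD_of P (fc_hol hf z₀) (fc_imm him z₀) (fun z w => by
        rw [← hinj z w]
        constructor
        · intro hzw
          have := congrArg (Subtype.val : cmp (f z₀) → M) hzw
          rwa [fc_val, fc_val] at this
        · intro hzw
          exact congrArg (ret (f z₀)) hzw)
      exact ⟨_, ⟨D⟩⟩
  obtain ⟨b, ⟨D⟩⟩ := hD
  exact s0415_of (M := cmp (f z₀)) (A := subA A (cmp (f z₀))) (subP (isClosed_cmp _) PA) P hω hsim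
    D (fc f z₀) (fc_hol hf z₀) (fc_per hper z₀) z₀ l₁
    (fun h5 => h1 ((fc_key hper z₀ l₁).2.1 h5))
    (fun l => by
      obtain ⟨m, hm, k, hk⟩ := h l
      exact ⟨m, hm, k, (fc_key hper z₀ _).1.2 hk⟩)

/-- **the end of S0415 without connectedness** -/
theorem s15_of (PA : Part A) (P : ProjD A) {ω : Fin 4 → (Fin 2 → ℂ)}
    (hω : LinearIndependent ℝ ω)
    (hsim : ∀ l m : Fin 2 → ℂ, l ∈ periodLattice ω → m ∈ periodLattice ω → l ≠ 0 →
      ∀ a : ℂ, m = a • l → a.im = 0) {b : ℕ} (D : TorD ω b)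
    (f : C(Fin 2 → ℂ, M)) (hf : HolTo A f) (hper : Per f (periodLattice ω).toAddSubgroup)
    (z₀ : Fin 2 → ℂ) (l₁ : (periodLattice ω).toAddSubgroup)
    (h1 : ¬ IsOfFinOrder (perHom hper z₀ (Multiplicative.ofAdd l₁)))
    (h : ∀ l : (periodLattice ω).toAddSubgroup, ∃ m : ℤ, m ≠ 0 ∧ ∃ k : ℤ,
      perHom hper z₀ (Multiplicative.ofAdd (m • l - k • l₁)) = 1) : S15 :=
  s15_aux PA hω hsim f hf hper z₀ l₁ h1 h (fun _ _ _ _ => ⟨subPD P⟩) (Or.inl ⟨b, ⟨D⟩⟩)



end S15

end

end Crest.Agent.R272.Comp_259
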