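import Crest.Agent.R272.LbExt2_259
import Crest.Agent.R272.MQ1_783
import Crest.Agent.R272.UB2_20
import Crest.Agent.R272.AJDefs_956
import Crest.Agent.R272.LBAsm1_585

-- ▼ part R272/LbEnd1_259
section

/-!
# R272 (S0415), leaf LB-ASM-3 (helper259), part 1: from `θ̂` on `X₁` to an infinite period in `X⁺`

* `regular_orb`   : the orbit space of a properly discontinuous action is regular;
* `qdata_orb`     : the literal `QData` for `P : E → B` equivariant (`Orb G E → Orb G B`,
  `Orb R B → Orb G B`);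
* `not_fin_base`  : infinite order of a period does not depend on the base point;
* `exists_period` : the lift to `ℂ²` of a closed path of the torus;
* `lb_end`, `lb_end'` : the last step of the lower bound, in terms of `perHom`.
-/

set_option autoImplicit false
set_option linter.unusedSectionVars false

open Topology Set Filter unitInterval

namespace Crest.Agent.R272.LbEnd_259

open Crest.Agent.R272.Per_939 Crest.Agent.R272.CovOrd_463
open Crest.Agent.R272.LbExt_259 Crest.Agent.R272.TLoop_463 Crest.Agent.R272.UB_20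
open Crest.Agent.R272.MQ_783 Crest.Agent.R272.Refl_246 Crest.Agent.R272.AJ_956

noncomputable section

section Orb

variable (G : Type) [Group G] {E B : Type} [TopologicalSpace E] [TopologicalSpace B]
  [MulAction G E] [MulAction G B] [ContinuousConstSMul G E] [ContinuousConstSMul G B]

theorem regular_orb [ProperlyDiscontinuousSMul G B] [T2Space B] [LocallyCompactSpace B] :
    RegularSpace (Orb G B) := by
  have h1 : T2Space (Orb G B) := t2_orb G B
  have h2 : LocallyCompactSpace (Orb G B) :=
    (isOpenQuotientMap_pr (G := G) (Y := B)).locallyCompactSpace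
  infer_instance

variable {G}

theorem pr_eq_orbit {Y : Type} [TopologicalSpace Y] [MulAction G Y] {y y' : Y} :
    pr G y = pr G y' ↔ y ∈ MulAction.orbit G y' := by
  rw [pr_eq_iff, MulAction.mem_orbit_iff]
  constructor
  · rintro ⟨g, hg⟩
    exact ⟨g⁻¹, by rw [← hg, inv_smul_smul]⟩
  · rintro ⟨g, hg⟩
    exact ⟨g⁻¹, by rw [← hg, inv_smul_smul]⟩

/-- **the literal `QData`** -/
theorem qdata_orb [ProperlyDiscontinuousSMul G B] [T2Space B] [LocallyCompactSpace B]
    (R : Subgroup G) [R.Normal] (hstab : ∀ (b : B) (g : G), g • b = b → g ∈ R)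
    {P : E → B} (hPc : Continuous P) (hP : ∀ (g : G) x, P (g • x) = g • P x) :
    QData R P (pr G : E → Orb G E) (pr G : B → Orb G B) (pr R : B → Orb R B)
      (up (sub_orb R)) (orbMap P hP) := by
  have hRc : ContinuousConstSMul R B := ⟨fun n => continuous_const_smul (n : G)⟩
  exact QData.of_stab hPc hP isOpenQuotientMap_pr.isQuotientMap
    isOpenQuotientMap_pr.isQuotientMap isOpenQuotientMap_pr.isQuotientMap (fun _ => rfl)
    (fun _ => rfl) pr_eq_orbit pr_eq_orbit pr_eq_orbit hstab

end Orb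

section Period

universe u v

variable {V : Type u} [AddCommGroup V] [Module ℝ V] [TopologicalSpace V] [ContinuousAdd V]
  [ContinuousSMul ℝ V] {Y : Type v} [TopologicalSpace Y]

/-- infinite order does not depend on the base point -/
theorem not_fin_base {f : C(V, Y)} {Λ : AddSubgroup V} (hf : Per f Λ) (v w : V) (l : Λ)
    (h : ¬ IsOfFinOrder (perHom hf v (Multiplicative.ofAdd l))) :
    ¬ IsOfFinOrder (perHom hf w (Multiplicative.ofAdd l)) := by
  intro h1
  apply h
  rw [isOfFinOrder_iff_pow_eq_one] at h1 ⊢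
  obtain ⟨m, hm, h2⟩ := h1
  refine ⟨m, hm, ?_⟩
  rw [← map_pow, ← ofAdd_nsmul] at h2 ⊢
  exact perHom_base hf w v (m • l) h2

/-- the class of any path ending at a translate -/
theorem not_fin_of_path {f : C(V, Y)} {Λ : AddSubgroup V} (hf : Per f Λ) (w : V) {v v' : V}
    (Γ : Path v v') (l : Λ) (hl : v' = v + (l : V)) {y : Y} (γ : Path y y)
    (hγ : ∀ t, γ t = f (Γ t)) (h : ¬ IsOfFinOrder (cls γ)) :
    ¬ IsOfFinOrder (perHom hf w (Multiplicative.ofAdd l)) := by
  subst hl
  apply not_fin_base hf v w l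
  have h1 : perHom hf v (Multiplicative.ofAdd l) = cls (lp f Γ (hf v l l.2)) :=
    (perCls_eq hf v l Γ).symm
  rw [h1]
  have hy : y = f v := by
    rw [← γ.source, hγ, Γ.source]
  exact cls_transport hy (lp f Γ (hf v l l.2)) γ (fun t => by rw [hγ t]; rfl) h

end Period

section Lift


end Lift

section End

variable {G : Type} [Group G] {E B X Z W X' : Type} [TopologicalSpace E] [TopologicalSpace B]
  [TopologicalSpace X] [TopologicalSpace Z] [TopologicalSpace W] [TopologicalSpace X']
  [MulAction G E] [MulAction G B] {R : Subgroup G} {β : E → B} {f : E → X} {k : B → Z}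
  {h : B → W} {p : W → Z} {π : X → Z} {π' : X' → Z} {V : Set X'} {ψ : X' → X} {eX : Set X}



end End

end

end Crest.Agent.R272.LbEnd_259
end

-- ▼ part R272/LbEnd2_259

/-!
# R272 (S0415), leaf LB-ASM-3 (helper259), part 2: 585's `lb_main` for orbit spaces, in terms of
`perHom`

`lb_per` : `G` acts on `E` (= `X₁`) and `B`, `P : E → B` equivariant; 585's `Alg`, `Ana`; surgery
`Surg (orbMap P) π' V ψ eX` on `X⁻ = Orb G E`; the torus map `F : ℂ² → X'` (periodic, factoring
through the covering `πA : ℂ² → A` and `inc : A → X'`); `j : C × C → E` the fibre; `c` a closed path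
of `C` and `P₀`; degrees `d + d' ≠ 0`: the period of the loop `q (c t, P₀)` has infinite order.
-/

set_option autoImplicit false
set_option linter.unusedSectionVars false

open Topology Set Filter unitInterval

namespace Crest.Agent.R272.LbEnd_259

open Crest.Agent.R272.Per_939 Crest.Agent.R272.CovOrd_463
open Crest.Agent.R272.LbExt_259 Crest.Agent.R272.TLoop_463 Crest.Agent.R272.UB_20
open Crest.Agent.R272.MQ_783 Crest.Agent.R272.Refl_246 Crest.Agent.R272.AJ_956
open Crest.Agent.R272.LBAsm_585

noncomputable section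

section Main

variable {G : Type} [Group G] {E B X' : Type} [TopologicalSpace E] [TopologicalSpace B]
  [TopologicalSpace X'] [MulAction G E] [MulAction G B] [ContinuousConstSMul G E]
  [ContinuousConstSMul G B] [ProperlyDiscontinuousSMul G B] [T2Space B] [LocallyCompactSpace B]

/-- **the lower bound in terms of periods** (paths of `ℂ²` given) -/
theorem lb_per {K R : Subgroup G} {sw : G} (A : Alg K R sw)
    (hstab : ∀ (b : B) (g : G), g • b = b → g ∈ R) {P : E → B} (hPc : Continuous P)
    (hP : ∀ (g : G) x, P (g • x) = g • P x) {th : E → Cir} {O : Set E}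
    (N : Ana (R ⊓ K) th O) {π' : X' → Orb G B} {V : Set X'} {ψ : X' → Orb G E}
    {eX : Set (Orb G E)} (S : Surg (orbMap P hP) π' V ψ eX) {e₀ : Set E}
    (heX : ∀ y : E, pr G y ∈ eX → ∃ g : G, ∃ x ∈ e₀, y = g • x)
    (hneg : ∀ x ∈ e₀, ∀ g ∈ K, th (g • sw • x) = - th (g • x))
    {F : C(E2, X')} {Λ : AddSubgroup E2} (hper : Per F Λ)
    (γ : C(I, E)) (hγ : ∀ t, γ t ∈ O) (hγ' : ∀ t, sw • γ t ∈ O)
    {g : G} (hg : g ∈ R) (hab : g • γ 0 = γ 1) {d d' : ℝ} (hdd : d + d' ≠ 0)
    (hd : HasDeg (fun t => th (γ t)) d) (hd' : HasDeg (fun t => th (sw • γ t)) d')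
    (Γ : C(I, E2)) (l : Λ) (hl : Γ 1 = Γ 0 + (l : E2))
    (hV : ∀ t, F (Γ t) ∈ V) (hψ : ∀ t, ψ (F (Γ t)) = pr G (γ t)) (z₀ : E2) :
    ¬ IsOfFinOrder (perHom hper z₀ (Multiplicative.ofAdd l)) := by
  have hR : R.Normal := A.Rn
  have hreg : RegularSpace (Orb G B) := regular_orb G
  have D := qdata_orb R hstab hPc hP
  let Γ' : Path (Γ 0) (Γ 1) := ⟨Γ, rfl, rfl⟩
  let γ' : Path (γ 0) (γ 1) := ⟨γ, rfl, rfl⟩
  have h01 : F (Γ 1) = F (Γ 0) := by rw [hl, hper _ _ l.2]
  let α : Path (F (Γ 0)) (F (Γ 0)) := ⟨F.comp Γ, rfl, h01⟩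
  have h1 := lb_main A N D S heX hneg γ' hγ hγ' hg hab hdd hd hd' α hV hψ
  exact not_fin_of_path hper z₀ Γ' l hl α (fun t => rfl) h1


end Main

end

end Crest.Agent.R272.LbEnd_259
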