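import Crest.Agent.R272.AJd_956
import Crest.Agent.R272.As152_338
import Crest.Agent.R272.Comp2_259
import Crest.Agent.R272.Mid_414
import Crest.Agent.R272.LbEnd2_259
import Mathlib
import Crest.Agent.R272.Cur6_297
import Crest.Agent.R272.PEnd6_732

-- ▼ part R272/AJe_956
section

/-!
# Row 272, A-AJ: local form of `U` near `Γ` (helper956)
-/

set_option autoImplicit false
set_option linter.unusedSectionVars false
set_option linter.unusedVariables false

open Set Filter Topology Metric Complex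
open Crest.Agent.R272.AJ_956 Crest.Agent.R272.AJa_956 Crest.Agent.R272.AJb_956
open Crest.Agent.R272.AJc_956 Crest.Agent.R272.AJd_956 Crest.Agent.R272.AJd_956.Basic

noncomputable section

namespace Crest.Agent.R272.AJe_956

variable {C : Type} [TopologicalSpace C] (𝒞 : Cur C)

theorem det2_zero_left (v : E2) : det2 0 v = 0 := by simp [det2]

theorem w_ne (c : C) : 𝒞.w c ≠ 0 := by
  intro h
  by_cases hc : 𝒞.iv c = c
  · apply 𝒞.nd3 c hc
    have h' : deriv (𝒞.G c) 0 = 0 := h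
    rw [h']
    exact det2_zero_left _
  · apply 𝒞.nd c hc
    have h' : deriv (𝒞.G c) 0 = 0 := h
    rw [h']
    exact det2_zero_left _

theorem exists_w (c : C) : ∃ i, 𝒞.w c i ≠ 0 := by
  by_contra h
  push Not at h
  exact w_ne 𝒞 c (funext h)

/-- the coordinates `(k c x.1, k c (iv x.2))` near `(c, iv c)` -/
def Z (c : C) (x : C × C) : ℂ × ℂ := (𝒞.k c x.1, 𝒞.k c (𝒞.iv x.2))

theorem tend_Z (c : C) : Tendsto (Z 𝒞 c) (𝓝 (c, 𝒞.iv c)) (𝓝 0) := by
  have h1 : Tendsto (fun x : C × C => 𝒞.k c x.1) (𝓝 (c, 𝒞.iv c)) (𝓝 0) :=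
    (tend_k 𝒞 c).comp (continuous_fst.tendsto _)
  have h2 : Tendsto (fun x : C × C => 𝒞.k c (𝒞.iv x.2)) (𝓝 (c, 𝒞.iv c)) (𝓝 0) := by
    refine (tend_k 𝒞 c).comp ?_
    have : Tendsto (fun x : C × C => 𝒞.iv x.2) (𝓝 (c, 𝒞.iv c)) (𝓝 (𝒞.iv (𝒞.iv c))) :=
      (𝒞.iv_cont.comp continuous_snd).tendsto ((c, 𝒞.iv c) : C × C)
    rwa [𝒞.iv_iv] at this
  have h3 := h1.prodMk_nhds h2
  exact h3

theorem source_Z (c : C) : ∀ᶠ x in 𝓝 ((c, 𝒞.iv c) : C × C),
    x.1 ∈ (𝒞.k c).source ∧ 𝒞.iv x.2 ∈ (𝒞.k c).source := by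
  have h1 : ∀ᶠ x in 𝓝 ((c, 𝒞.iv c) : C × C), x.1 ∈ (𝒞.k c).source :=
    (continuous_fst.tendsto ((c, 𝒞.iv c) : C × C)).eventually
      ((𝒞.k c).open_source.mem_nhds (𝒞.k_mem c))
  have h2 : ∀ᶠ x in 𝓝 ((c, 𝒞.iv c) : C × C), 𝒞.iv x.2 ∈ (𝒞.k c).source := by
    have := (𝒞.iv_cont.comp continuous_snd).tendsto ((c, 𝒞.iv c) : C × C)
    simp only [Function.comp_apply, 𝒞.iv_iv] at this
    exact this.eventually ((𝒞.k c).open_source.mem_nhds (𝒞.k_mem c))
  exact h1.and h2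

theorem Z_inj {c : C} {x x' : C × C} (h : x.1 ∈ (𝒞.k c).source ∧ 𝒞.iv x.2 ∈ (𝒞.k c).source)
    (h' : x'.1 ∈ (𝒞.k c).source ∧ 𝒞.iv x'.2 ∈ (𝒞.k c).source) (he : Z 𝒞 c x = Z 𝒞 c x') :
    x = x' := by
  have e1 : x.1 = x'.1 := (𝒞.k c).injOn h.1 h'.1 (congrArg Prod.fst he)
  have e2 : 𝒞.iv x.2 = 𝒞.iv x'.2 := (𝒞.k c).injOn h.2 h'.2 (congrArg Prod.snd he)
  have e3 : x.2 = x'.2 := by rw [← 𝒞.iv_iv x.2, e2, 𝒞.iv_iv]
  exact Prod.ext e1 e3

theorem Z_diag {c : C} {x : C × C} (h : x.1 ∈ (𝒞.k c).source ∧ 𝒞.iv x.2 ∈ (𝒞.k c).source) :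
    (Z 𝒞 c x).1 = (Z 𝒞 c x).2 ↔ x ∈ 𝒞.Gam := by
  rw [mem_Gam]
  constructor
  · intro he
    have := (𝒞.k c).injOn h.1 h.2 he
    rw [this, 𝒞.iv_iv]
  · intro he
    show 𝒞.k c x.1 = 𝒞.k c (𝒞.iv x.2)
    rw [he, 𝒞.iv_iv]

/-- data of the local form near `(c, iv c)` -/
structure LF (c : C) (U : C × C → E2) (V : ℂ × ℂ → E2) : Prop where
  an : AnalyticAt ℂ V 0
  dd : ∀ᶠ p in 𝓝 (0 : ℂ × ℂ), 𝒞.G c p.1 - 𝒞.G c p.2 = (p.1 - p.2) • V p ∧
    V (p.2, p.1) = V p ∧ V (p.1, p.1) = deriv (𝒞.G c) p.1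
  eq : ∀ᶠ x in 𝓝 ((c, 𝒞.iv c) : C × C), U x = ((Z 𝒞 c x).1 - (Z 𝒞 c x).2) • V (Z 𝒞 c x)

theorem exists_LF {U : C × C → E2} (c : C)
    (hU : ∀ᶠ x in 𝓝 ((c, 𝒞.iv c) : C × C), U x = 𝒞.P c x.1 - 𝒞.P c (𝒞.iv x.2)) :
    ∃ V, LF 𝒞 c U V := by
  obtain ⟨V, hV, hdd⟩ := exists_divdiff (G_an0 𝒞 c)
  refine ⟨V, hV, hdd, ?_⟩
  filter_upwards [hU, (tend_Z 𝒞 c).eventually hdd] with x h1 h2
  rw [h1]
  exact h2.1

namespace LF

variable {𝒞} {c : C} {U : C × C → E2} {V : ℂ × ℂ → E2}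

theorem V0 (h : LF 𝒞 c U V) : V 0 = 𝒞.w c := h.dd.self_of_nhds.2.2

theorem tend (h : LF 𝒞 c U V) : Tendsto (fun x => V (Z 𝒞 c x)) (𝓝 (c, 𝒞.iv c)) (𝓝 (𝒞.w c)) := by
  rw [← h.V0]
  exact h.an.continuousAt.tendsto.comp (tend_Z 𝒞 c)

theorem ne (h : LF 𝒞 c U V) (i : Fin 2) (hi : 𝒞.w c i ≠ 0) :
    ∀ᶠ x in 𝓝 ((c, 𝒞.iv c) : C × C), V (Z 𝒞 c x) i ≠ 0 := by
  have h1 : Tendsto (fun x => V (Z 𝒞 c x) i) (𝓝 (c, 𝒞.iv c)) (𝓝 (𝒞.w c i)) :=
    (continuous_apply i).continuousAt.tendsto.comp h.tend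
  exact h1.eventually_ne hi

theorem zero_iff (h : LF 𝒞 c U V) : ∀ᶠ x in 𝓝 ((c, 𝒞.iv c) : C × C), (U x = 0 ↔ x ∈ 𝒞.Gam) := by
  obtain ⟨i, hi⟩ := exists_w 𝒞 c
  filter_upwards [h.ne i hi, h.eq, source_Z 𝒞 c] with x h1 h2 h3
  rw [← Z_diag 𝒞 h3, h2, smul_eq_zero, sub_eq_zero]
  constructor
  · rintro (h4 | h4)
    · exact h4
    · exact absurd (congrFun h4 i) h1
  · exact fun h4 => Or.inl h4

end LF

theorem det2_smul (a b : ℂ) (u v : E2) : det2 (a • u) (b • v) = a * b * det2 u v := by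
  simp only [det2, Pi.smul_apply, smul_eq_mul]
  ring

theorem det2_self (u : E2) : det2 u u = 0 := by
  simp only [det2]; ring

theorem continuous_det2 : Continuous (fun q : E2 × E2 => det2 q.1 q.2) := by
  unfold det2
  fun_prop

theorem det2_nhds {u v : E2} (h : det2 u v ≠ 0) :
    ∃ A ∈ 𝓝 u, ∃ B ∈ 𝓝 v, ∀ x ∈ A, ∀ y ∈ B, det2 x y ≠ 0 := by
  have h1 : {q : E2 × E2 | det2 q.1 q.2 ≠ 0} ∈ 𝓝 (u, v) :=
    (isOpen_ne_fun continuous_det2 continuous_const).mem_nhds h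
  obtain ⟨A, hA, B, hB, hAB⟩ := mem_nhds_prod_iff.1 h1
  refine ⟨A, hA, B, hB, fun x hx y hy => ?_⟩
  have : (x, y) ∈ {q : E2 × E2 | det2 q.1 q.2 ≠ 0} := hAB (show (x, y) ∈ A ×ˢ B from ⟨hx, hy⟩)
  exact this

/-- different points of `e` have different slopes -/
theorem sep_near {U : C × C → E2} {c c' : C} {V V' : ℂ × ℂ → E2} (h : LF 𝒞 c U V)
    (h' : LF 𝒞 c' U V') (h1 : c' ≠ c) (h2 : c' ≠ 𝒞.iv c) :
    ∃ O ∈ 𝓝 ((c, 𝒞.iv c) : C × C), ∃ O' ∈ 𝓝 ((c', 𝒞.iv c') : C × C), ∀ y ∈ O, ∀ y' ∈ O',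
      U y = U y' → U y = 0 := by
  obtain ⟨A, hA, B, hB, hAB⟩ := det2_nhds (𝒞.nd2 c c' h1 h2)
  refine ⟨_, inter_mem (h.tend hA) h.eq, _, inter_mem (h'.tend hB) h'.eq, ?_⟩
  rintro y ⟨y1, y2⟩ y' ⟨y1', y2'⟩ heq
  have y2 : U y = ((Z 𝒞 c y).1 - (Z 𝒞 c y).2) • V (Z 𝒞 c y) := y2
  have y2' : U y' = ((Z 𝒞 c' y').1 - (Z 𝒞 c' y').2) • V' (Z 𝒞 c' y') := y2'
  have h4 : det2 (U y) (U y') = 0 := by rw [heq]; exact det2_self _
  rw [y2, y2', det2_smul] at h4
  rcases mul_eq_zero.1 h4 with h5 | h5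
  · rcases mul_eq_zero.1 h5 with h6 | h6
    · rw [y2, h6, zero_smul]
    · rw [heq, y2', h6, zero_smul]
  · exact absurd h5 (hAB _ y1 _ y1')

theorem odd_G {c : C} (hc : 𝒞.iv c = c) : ∀ᶠ z in 𝓝 (0 : ℂ), 𝒞.G c (-z) = - 𝒞.G c z := by
  rw [← map_k 𝒞 c, Filter.eventually_map]
  filter_upwards [𝒞.anti c, 𝒞.odd c hc] with y h1 h2
  rw [hc] at h1
  rw [← h2]
  exact h1

/-- the two coordinates determine the point, from `U` -/
theorem pair_eq {V : ℂ × ℂ → E2} {i : Fin 2} {a b : ℂ × ℂ} {u : E2}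
    (ha : u = (a.1 - a.2) • V a) (hb : u = (b.1 - b.2) • V b) (hu : u ≠ 0) (hai : V a i ≠ 0)
    (hbi : V b i ≠ 0) :
    V a (1 - i) / V a i = V b (1 - i) / V b i ∧ (a.1 - a.2) * V a i = (b.1 - b.2) * V b i := by
  have hane : a.1 - a.2 ≠ 0 := by
    intro h0
    rw [h0, zero_smul] at ha
    exact hu ha
  have hbne : b.1 - b.2 ≠ 0 := by
    intro h0
    rw [h0, zero_smul] at hb
    exact hu hb
  have ea : ∀ j, u j = (a.1 - a.2) * V a j := fun j => by rw [ha]; rfl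
  have eb : ∀ j, u j = (b.1 - b.2) * V b j := fun j => by
    have := congrFun hb j
    simpa using this
  constructor
  · have h1 : V a (1 - i) / V a i = u (1 - i) / u i := by
      rw [ea, ea, mul_div_mul_left _ _ hane]
    have h2 : V b (1 - i) / V b i = u (1 - i) / u i := by
      rw [eb, eb, mul_div_mul_left _ _ hbne]
    rw [h1, h2]
  · rw [← ea, ← eb]

/-- local injectivity modulo the swap near a point of `Γ` -/
theorem inj_near {U : C × C → E2} {c : C} {V : ℂ × ℂ → E2} (h : LF 𝒞 c U V) :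
    ∃ O ∈ 𝓝 ((c, 𝒞.iv c) : C × C), ∀ y ∈ O, ∀ y' ∈ O, U y = U y' → U y ≠ 0 →
      y' = y ∨ y' = y.swap := by
  obtain ⟨i, hi⟩ := exists_w 𝒞 c
  have hi' : deriv (𝒞.G c) 0 i ≠ 0 := hi
  by_cases hc : 𝒞.iv c = c
  · -- Weierstrass point
    obtain ⟨hh, han, hrel, h0, hFan, L', hL'⟩ :=
      coordB (G_an0 𝒞 c) i hi' (odd_G 𝒞 hc) (𝒞.nd3 c hc) h.an h.dd
    obtain ⟨-, O, hO, hinj⟩ := local_homeo hFan L' hL'
    -- coordinates `s = k x.1`, `s' = k x.2`
    let T : C × C → ℂ × ℂ := fun x => (𝒞.k c x.1, 𝒞.k c x.2)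
    have tT : Tendsto T (𝓝 (c, 𝒞.iv c)) (𝓝 0) := by
      have := (map_kk 𝒞 ((c, c) : C × C)).le
      rw [hc]
      exact this
    have tO : ∀ᶠ x in 𝓝 ((c, 𝒞.iv c) : C × C), sqm (T x) ∈ O := by
      have h1 : Tendsto (fun x => sqm (T x)) (𝓝 (c, 𝒞.iv c)) (𝓝 (sqm 0)) :=
        (continuous_sqm.tendsto 0).comp tT
      rw [sqm_zero] at h1
      exact h1.eventually hO
    have todd : ∀ᶠ x in 𝓝 ((c, 𝒞.iv c) : C × C), 𝒞.k c (𝒞.iv x.2) = - 𝒞.k c x.2 := by
      have h1 := 𝒞.odd c hc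
      have h2 : Tendsto (fun x : C × C => x.2) (𝓝 (c, 𝒞.iv c)) (𝓝 c) := by
        rw [hc]
        exact continuous_snd.tendsto ((c, c) : C × C)
      exact h2.eventually h1
    have tsrc : ∀ᶠ x in 𝓝 ((c, 𝒞.iv c) : C × C), x.2 ∈ (𝒞.k c).source := by
      have h2 : Tendsto (fun x : C × C => x.2) (𝓝 (c, 𝒞.iv c)) (𝓝 c) := by
        rw [hc]
        exact continuous_snd.tendsto ((c, c) : C × C)
      exact h2.eventually ((𝒞.k c).open_source.mem_nhds (𝒞.k_mem c))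
    have hall : ∀ᶠ x in 𝓝 ((c, 𝒞.iv c) : C × C),
        sqm (T x) ∈ O ∧ 𝒞.k c (𝒞.iv x.2) = - 𝒞.k c x.2 ∧ x.2 ∈ (𝒞.k c).source ∧
        x.1 ∈ (𝒞.k c).source ∧ V (Z 𝒞 c x) i ≠ 0 ∧
        U x = ((Z 𝒞 c x).1 - (Z 𝒞 c x).2) • V (Z 𝒞 c x) ∧
        V ((T x).1, -(T x).2) = hh (((T x).1 - (T x).2) ^ 2, (T x).1 + (T x).2) := by
      filter_upwards [tO, todd, tsrc, source_Z 𝒞 c, h.ne i hi, h.eq, tT.eventually hrel] with
        x h1 h2 h3 h4 h5 h6 h7
      exact ⟨h1, h2, h3, h4.1, h5, h6, h7⟩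
    refine ⟨_, hall, ?_⟩
    rintro y ⟨y1, y2, y3, y4, y5, y6, y7⟩ y' ⟨y1', y2', y3', y4', y5', y6', y7'⟩ heq hne
    have hZy : Z 𝒞 c y = ((T y).1, -(T y).2) := Prod.ext rfl y2
    have hZy' : Z 𝒞 c y' = ((T y').1, -(T y').2) := Prod.ext rfl y2'
    obtain ⟨p1, p2⟩ := pair_eq (u := U y) y6 (heq.trans y6') hne y5 y5'
    have q1 : (fun p : ℂ × ℂ => ((hh (p.2, p.1) (1 - i) / hh (p.2, p.1) i,
        p.1 * hh (p.2, p.1) i) : ℂ × ℂ)) (sqm (T y)) =
        (fun p : ℂ × ℂ => ((hh (p.2, p.1) (1 - i) / hh (p.2, p.1) i,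
        p.1 * hh (p.2, p.1) i) : ℂ × ℂ)) (sqm (T y')) := by
      rw [hZy, hZy', y7, y7'] at p1 p2
      simp only [sub_neg_eq_add] at p2
      exact Prod.ext p1 p2
    have q2 := hinj y1 y1' q1
    rcases (sqm_eq_iff _ _).1 q2 with q3 | q3
    · left
      exact Prod.ext ((𝒞.k c).injOn y4' y4 (congrArg Prod.fst q3))
        ((𝒞.k c).injOn y3' y3 (congrArg Prod.snd q3))
    · right
      exact Prod.ext ((𝒞.k c).injOn y4' y3 (congrArg Prod.fst q3))
        ((𝒞.k c).injOn y3' y4 (congrArg Prod.snd q3))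
  · obtain ⟨hFan, L', hL'⟩ := coordA (G_an0 𝒞 c) i hi' (𝒞.nd c hc) h.an
      (h.dd.mono fun p hp => hp.2.2)
    obtain ⟨-, O, hO, hinj⟩ := local_homeo hFan L' hL'
    have hall : ∀ᶠ x in 𝓝 ((c, 𝒞.iv c) : C × C),
        Z 𝒞 c x ∈ O ∧ (x.1 ∈ (𝒞.k c).source ∧ 𝒞.iv x.2 ∈ (𝒞.k c).source) ∧
        V (Z 𝒞 c x) i ≠ 0 ∧
        U x = ((Z 𝒞 c x).1 - (Z 𝒞 c x).2) • V (Z 𝒞 c x) := by
      filter_upwards [(tend_Z 𝒞 c).eventually hO, source_Z 𝒞 c, h.ne i hi, h.eq] with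
        x h1 h4 h5 h6
      exact ⟨h1, h4, h5, h6⟩
    refine ⟨_, hall, ?_⟩
    rintro y ⟨y1, y2, y5, y6⟩ y' ⟨y1', y2', y5', y6'⟩ heq hne
    left
    obtain ⟨p1, p2⟩ := pair_eq (u := U y) y6 (heq.trans y6') hne y5 y5'
    have q2 := hinj y1 y1' (Prod.ext p1 p2)
    exact (Z_inj 𝒞 y2 y2' q2).symm

end Crest.Agent.R272.AJe_956
end
end

-- ▼ part R272/AJf_956
section

/-!
# Row 272, A-AJ: **(K1)** existence of `U` near `Γ` (helper956)
-/

set_option autoImplicit false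
set_option linter.unusedSectionVars false
set_option linter.unusedVariables false

open Set Filter Topology Metric Complex
open Crest.Agent.R272.AJ_956 Crest.Agent.R272.AJa_956 Crest.Agent.R272.AJb_956
open Crest.Agent.R272.AJc_956 Crest.Agent.R272.AJd_956 Crest.Agent.R272.AJd_956.Basic
open Crest.Agent.R272.AJe_956

noncomputable section

namespace Crest.Agent.R272.AJf_956

variable {C : Type} [TopologicalSpace C] (𝒞 : Cur C)

/-- change of the base point of the primitive -/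
theorem deriv_rel (c y : C) (hy : y ∈ (𝒞.k c).source) :
    ∃ δ : ℂ, deriv (𝒞.G c) (𝒞.k c y) = δ • 𝒞.w y := by
  set z₀ := 𝒞.k c y with hz₀
  have hz : z₀ ∈ (𝒞.k c).target := (𝒞.k c).map_source hy
  have hsy : (𝒞.k c).symm z₀ = y := (𝒞.k c).left_inv hy
  let τ : ℂ → ℂ := fun z => 𝒞.k y ((𝒞.k c).symm z)
  have hτ : AnalyticAt ℂ τ z₀ := 𝒞.k_an c y y hy (𝒞.k_mem y)
  have hτ0 : τ z₀ = 0 := by
    show 𝒞.k y ((𝒞.k c).symm z₀) = 0
    rw [hsy, 𝒞.k_zero]
  have hts : Tendsto (𝒞.k c).symm (𝓝 z₀) (𝓝 y) := by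
    have := (𝒞.k c).continuousAt_symm hz
    rw [← hsy]
    exact this
  have h1 : ∀ᶠ z in 𝓝 z₀, 𝒞.G c z = 𝒞.P c y + 𝒞.G y (τ z) := by
    filter_upwards [hts.eventually (P_change 𝒞 c y hy), (𝒞.k c).open_target.mem_nhds hz] with z h2 h3
    have h4 : 𝒞.P c ((𝒞.k c).symm z) = 𝒞.G c z := by
      show 𝒞.G c (𝒞.k c ((𝒞.k c).symm z)) = _
      rw [(𝒞.k c).right_inv h3]
    rw [← h4, h2]
    rfl
  have hGy : HasDerivAt (𝒞.G y) (𝒞.w y) (τ z₀) := by
    rw [hτ0]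
    exact (G_an0 𝒞 y).differentiableAt.hasDerivAt
  have h5 := (hGy.scomp z₀ hτ.differentiableAt.hasDerivAt).const_add (𝒞.P c y)
  have h6 := h5.congr_of_eventuallyEq h1
  exact ⟨deriv τ z₀, h6.deriv⟩

theorem TT_near {c : C} {U : C × C → E2} {V : ℂ × ℂ → E2} (h : LF 𝒞 c U V) (i : Fin 2)
    (hi : 𝒞.w c i ≠ 0) : ∀ᶠ x in 𝓝 ((c, 𝒞.iv c) : C × C),
      𝒞.TT U i x = V (Z 𝒞 c x) (1 - i) / V (Z 𝒞 c x) i ∧
      U x i = ((Z 𝒞 c x).1 - (Z 𝒞 c x).2) * V (Z 𝒞 c x) i := by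
  filter_upwards [h.eq, h.ne i hi, source_Z 𝒞 c, (tend_Z 𝒞 c).eventually h.dd] with x h1 h2 h3 h4
  have hU : ∀ j, U x j = ((Z 𝒞 c x).1 - (Z 𝒞 c x).2) * V (Z 𝒞 c x) j := fun j => by rw [h1]; rfl
  refine ⟨?_, hU i⟩
  by_cases hx : x ∈ 𝒞.Gam
  · have hd : (Z 𝒞 c x).1 = (Z 𝒞 c x).2 := (Z_diag 𝒞 h3).2 hx
    have hZ : Z 𝒞 c x = ((Z 𝒞 c x).1, (Z 𝒞 c x).1) := Prod.ext rfl hd.symm
    have hV : V (Z 𝒞 c x) = deriv (𝒞.G c) (𝒞.k c x.1) := by
      rw [hZ]
      exact h4.2.2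
    obtain ⟨δ, hδ⟩ := deriv_rel 𝒞 c x.1 h3.1
    rw [Cur.TT, if_pos hx, hV, hδ]
    simp only [Pi.smul_apply, smul_eq_mul]
    have hδ0 : δ ≠ 0 := by
      intro h0
      apply h2
      rw [hV, hδ, h0]
      simp
    rw [mul_div_mul_left _ _ hδ0]
  · have hd : (Z 𝒞 c x).1 - (Z 𝒞 c x).2 ≠ 0 := by
      intro h0
      exact hx ((Z_diag 𝒞 h3).1 (sub_eq_zero.1 h0))
    rw [Cur.TT, if_neg hx, hU, hU, mul_div_mul_left _ _ hd]

/-- the involution in the charts -/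
def jm (c : C) (z : ℂ) : ℂ := 𝒞.k c (𝒞.iv ((𝒞.k (𝒞.iv c)).symm z))

theorem jm_an (c : C) : AnalyticAt ℂ (jm 𝒞 c) 0 := by
  have := 𝒞.iv_an (𝒞.iv c)
  rw [𝒞.iv_iv] at this
  exact this

theorem symm_zero (c : C) : (𝒞.k c).symm 0 = c := by
  rw [← 𝒞.k_zero c]
  exact (𝒞.k c).left_inv (𝒞.k_mem c)

theorem jm_zero (c : C) : jm 𝒞 c 0 = 0 := by
  rw [jm, symm_zero, 𝒞.iv_iv, 𝒞.k_zero]

theorem tend_symm (c : C) : Tendsto (𝒞.k c).symm (𝓝 0) (𝓝 c) := by
  have := (𝒞.k c).continuousAt_symm (zero_mem_target 𝒞 c)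
  rw [ContinuousAt, symm_zero] at this
  exact this

/-- `jm c` and `k (iv c) ∘ iv ∘ (k c).symm` are inverse -/
theorem jm_inv (c : C) : ∀ᶠ z in 𝓝 (0 : ℂ),
    (fun z => 𝒞.k (𝒞.iv c) (𝒞.iv ((𝒞.k c).symm z))) (jm 𝒞 c z) = z := by
  have h1 : Tendsto (fun z => 𝒞.iv ((𝒞.k (𝒞.iv c)).symm z)) (𝓝 0) (𝓝 c) := by
    have := (𝒞.iv_cont.tendsto (𝒞.iv c)).comp (tend_symm 𝒞 (𝒞.iv c))
    rwa [𝒞.iv_iv] at this
  filter_upwards [h1.eventually ((𝒞.k c).open_source.mem_nhds (𝒞.k_mem c)),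
    (𝒞.k (𝒞.iv c)).open_target.mem_nhds (zero_mem_target 𝒞 (𝒞.iv c))] with z h2 h3
  show 𝒞.k (𝒞.iv c) (𝒞.iv ((𝒞.k c).symm (𝒞.k c (𝒞.iv ((𝒞.k (𝒞.iv c)).symm z))))) = z
  rw [(𝒞.k c).left_inv h2, 𝒞.iv_iv, (𝒞.k (𝒞.iv c)).right_inv h3]

theorem jm_deriv (c : C) : deriv (jm 𝒞 c) 0 ≠ 0 := by
  intro h0
  have h1 : HasDerivAt (jm 𝒞 c) 0 0 := by
    have := (jm_an 𝒞 c).differentiableAt.hasDerivAt
    rwa [h0] at this
  have h2 : HasDerivAt (fun z => 𝒞.k (𝒞.iv c) (𝒞.iv ((𝒞.k c).symm z)))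
      (deriv (fun z => 𝒞.k (𝒞.iv c) (𝒞.iv ((𝒞.k c).symm z))) 0) (jm 𝒞 c 0) := by
    rw [jm_zero]
    exact (𝒞.iv_an c).differentiableAt.hasDerivAt
  have h3 := h2.comp (0 : ℂ) h1
  have h4 : HasDerivAt (fun z : ℂ => z) (deriv (fun z => 𝒞.k (𝒞.iv c) (𝒞.iv ((𝒞.k c).symm z))) 0 * 0)
      0 := h3.congr_of_eventuallyEq ((jm_inv 𝒞 c).mono fun z hz => hz.symm)
  have h5 := h4.unique (hasDerivAt_id (0 : ℂ))
  rw [mul_zero] at h5
  exact zero_ne_one h5

theorem coord_of {c : C} {U : C × C → E2} {V : ℂ × ℂ → E2} (h : LF 𝒞 c U V) (i : Fin 2)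
    (hc : 𝒞.iv c ≠ c) (hi : 𝒞.w c i ≠ 0) :
    ∃ (F : ℂ × ℂ → ℂ × ℂ) (F' : (ℂ × ℂ) ≃L[ℂ] (ℂ × ℂ)),
    AnalyticAt ℂ F 0 ∧ HasFDerivAt F (F' : (ℂ × ℂ) →L[ℂ] (ℂ × ℂ)) 0 ∧
      ∀ᶠ x in 𝓝 ((c, 𝒞.iv c) : C × C),
        (𝒞.TT U i x, U x i) = F (𝒞.k c x.1, 𝒞.k (𝒞.iv c) x.2) := by
  obtain ⟨hFan, L', hL'⟩ := coordA (G_an0 𝒞 c) i hi (𝒞.nd c hc) h.an
    (h.dd.mono fun p hp => hp.2.2)
  set Φ : ℂ × ℂ → ℂ × ℂ := fun p => ((V p (1 - i) / V p i, (p.1 - p.2) * V p i) : ℂ × ℂ) with hΦ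
  let J : ℂ × ℂ → ℂ × ℂ := fun p => (p.1, jm 𝒞 c p.2)
  have hJ0 : J 0 = 0 := Prod.ext rfl (jm_zero 𝒞 c)
  have hJan : AnalyticAt ℂ J 0 := by
    refine analyticAt_fst.prod ?_
    exact analytic_comp0 (jm_an 𝒞 c) analyticAt_snd rfl
  have hJd : HasFDerivAt J (ContinuousLinearMap.prod (ContinuousLinearMap.fst ℂ ℂ ℂ)
      ((deriv (jm 𝒞 c) 0) • (ContinuousLinearMap.snd ℂ ℂ ℂ))) 0 := by
    refine HasFDerivAt.prodMk hasFDerivAt_fst ?_
    have h1 : HasDerivAt (jm 𝒞 c) (deriv (jm 𝒞 c) 0) ((0 : ℂ × ℂ).2) :=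
      (jm_an 𝒞 c).differentiableAt.hasDerivAt
    exact h1.comp_hasFDerivAt (0 : ℂ × ℂ) hasFDerivAt_snd
  obtain ⟨J', hJ'⟩ := exists_equiv_of_injective (F := ℂ × ℂ) (by simp)
    (ContinuousLinearMap.prod (ContinuousLinearMap.fst ℂ ℂ ℂ)
      ((deriv (jm 𝒞 c) 0) • (ContinuousLinearMap.snd ℂ ℂ ℂ))) (by
      intro v hv
      have e1 : v.1 = 0 := congrArg Prod.fst hv
      have e2 : deriv (jm 𝒞 c) 0 * v.2 = 0 := congrArg Prod.snd hv
      exact Prod.ext e1 ((mul_eq_zero.1 e2).resolve_left (jm_deriv 𝒞 c)))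
  rw [← hJ'] at hJd
  refine ⟨fun p => Φ (J p), J'.trans L', analytic_comp0 hFan hJan hJ0, ?_, ?_⟩
  · have hL0 : HasFDerivAt Φ (L' : (ℂ × ℂ) →L[ℂ] (ℂ × ℂ)) (J 0) := by rw [hJ0]; exact hL'
    have := hL0.comp (0 : ℂ × ℂ) hJd
    exact this
  · have hsrc : ∀ᶠ x in 𝓝 ((c, 𝒞.iv c) : C × C), x.2 ∈ (𝒞.k (𝒞.iv c)).source :=
      (continuous_snd.tendsto ((c, 𝒞.iv c) : C × C)).eventually
        ((𝒞.k (𝒞.iv c)).open_source.mem_nhds (𝒞.k_mem _))
    filter_upwards [TT_near 𝒞 h i hi, hsrc] with x h1 h2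
    have hJx : J (𝒞.k c x.1, 𝒞.k (𝒞.iv c) x.2) = Z 𝒞 c x := by
      refine Prod.ext rfl ?_
      show 𝒞.k c (𝒞.iv ((𝒞.k (𝒞.iv c)).symm (𝒞.k (𝒞.iv c) x.2))) = 𝒞.k c (𝒞.iv x.2)
      rw [(𝒞.k (𝒞.iv c)).left_inv h2]
    rw [hJx, h1.1, h1.2]

theorem coordW_of {c : C} {U : C × C → E2} {V : ℂ × ℂ → E2} (h : LF 𝒞 c U V) (i : Fin 2)
    (hc : 𝒞.iv c = c) (hi : 𝒞.w c i ≠ 0) :
    ∃ (F : ℂ × ℂ → ℂ × ℂ) (F' : (ℂ × ℂ) ≃L[ℂ] (ℂ × ℂ)),
    AnalyticAt ℂ F 0 ∧ HasFDerivAt F (F' : (ℂ × ℂ) →L[ℂ] (ℂ × ℂ)) 0 ∧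
      ∀ᶠ x in 𝓝 ((c, c) : C × C),
        (𝒞.TT U i x, U x i) = F (𝒞.k c x.1 + 𝒞.k c x.2, (𝒞.k c x.1 - 𝒞.k c x.2) ^ 2) := by
  obtain ⟨hh, han, hrel, h0, hFan, L', hL'⟩ :=
    coordB (G_an0 𝒞 c) i hi (odd_G 𝒞 hc) (𝒞.nd3 c hc) h.an h.dd
  refine ⟨_, L', hFan, hL', ?_⟩
  have hTT := TT_near 𝒞 h i hi
  rw [hc] at hTT
  have tT : Tendsto (fun x : C × C => ((𝒞.k c x.1, 𝒞.k c x.2) : ℂ × ℂ)) (𝓝 (c, c)) (𝓝 0) :=
    (map_kk 𝒞 ((c, c) : C × C)).le
  have todd : ∀ᶠ x in 𝓝 ((c, c) : C × C), 𝒞.k c (𝒞.iv x.2) = - 𝒞.k c x.2 :=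
    (continuous_snd.tendsto ((c, c) : C × C)).eventually (𝒞.odd c hc)
  filter_upwards [hTT, tT.eventually hrel, todd] with x h1 h2 h3
  have hZ : Z 𝒞 c x = (𝒞.k c x.1, -𝒞.k c x.2) := Prod.ext rfl h3
  rw [h1.1, h1.2, hZ, h2]
  simp only [sub_neg_eq_add]

/-- the punctured ball is preconnected -/
theorem isPreconnected_punctured (δ : ℝ) : IsPreconnected (ball (0 : E2) δ \ {0}) := by
  have hrank : 1 < Module.rank ℝ E2 := by
    have : Module.finrank ℝ E2 = 4 := by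
      rw [Module.finrank_pi_fintype]
      simp [Complex.finrank_real_complex]
    have h2 : ((Module.finrank ℝ E2 : ℕ) : Cardinal) = Module.rank ℝ E2 :=
      Module.finrank_eq_rank ℝ E2
    rw [← h2, this]
    norm_num
  have hs := isPreconnected_sphere hrank (0 : E2) 1
  have himg : ball (0 : E2) δ \ {0} =
      (fun q : ℝ × E2 => q.1 • q.2) '' (Ioo (0 : ℝ) δ ×ˢ sphere (0 : E2) 1) := by
    ext v
    constructor
    · rintro ⟨h1, h2⟩
      rw [mem_ball_zero_iff] at h1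
      have h3 : v ≠ 0 := h2
      have h4 : 0 < ‖v‖ := norm_pos_iff.2 h3
      refine ⟨(‖v‖, ‖v‖⁻¹ • v), ⟨⟨h4, h1⟩, ?_⟩, ?_⟩
      · rw [mem_sphere_zero_iff_norm, norm_smul, norm_inv, norm_norm, inv_mul_cancel₀ h4.ne']
      · simp only [smul_smul]
        rw [mul_inv_cancel₀ h4.ne', one_smul]
    · rintro ⟨⟨r, u⟩, ⟨⟨hr1, hr2⟩, hu⟩, rfl⟩
      rw [mem_sphere_zero_iff_norm] at hu
      simp only at hr1 hr2 hu ⊢
      refine ⟨?_, ?_⟩
      · rw [mem_ball_zero_iff, norm_smul, hu, mul_one, Real.norm_eq_abs, abs_of_pos hr1]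
        exact hr2
      · intro h0
        have h1 : r • u = 0 := h0
        rcases smul_eq_zero.1 h1 with h2 | h2
        · exact hr1.ne' h2
        · rw [h2, norm_zero] at hu
          exact zero_ne_one hu
  rw [himg]
  exact (isPreconnected_Ioo.prod hs).image _ (by fun_prop)

theorem exists_pos_lower {X F : Type*} [TopologicalSpace X] [NormedAddCommGroup F] {K : Set X}
    (hK : IsCompact K) {f : X → F} (hf : ContinuousOn f K) (h0 : ∀ x ∈ K, f x ≠ 0) :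
    ∃ δ : ℝ, 0 < δ ∧ ∀ x ∈ K, δ ≤ ‖f x‖ := by
  rcases K.eq_empty_or_nonempty with rfl | hne
  · exact ⟨1, one_pos, by simp⟩
  · obtain ⟨x₀, hx₀, hmin⟩ := hK.exists_isMinOn hne hf.norm
    exact ⟨‖f x₀‖, norm_pos_iff.2 (h0 x₀ hx₀), fun x hx => hmin hx⟩

end Crest.Agent.R272.AJf_956
end
end

-- ▼ part R272/AJg_956
section

/-!
# Row 272, A-AJ: **(K1)** `exists_nearE` (helper956)
-/

set_option autoImplicit false
set_option linter.unusedSectionVars false
set_option linter.unusedVariables false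

open Set Filter Topology Metric Complex
open Crest.Agent.R272.AJ_956 Crest.Agent.R272.AJa_956 Crest.Agent.R272.AJb_956
open Crest.Agent.R272.AJc_956 Crest.Agent.R272.AJd_956 Crest.Agent.R272.AJd_956.Basic
open Crest.Agent.R272.AJe_956 Crest.Agent.R272.AJf_956

noncomputable section

namespace Crest.Agent.R272.AJg_956

variable {C : Type} [TopologicalSpace C] (𝒞 : Cur C)

/-- explicit local function -/
def fU (c : C) (x : C × C) : E2 := 𝒞.P c x.1 - 𝒞.P c (𝒞.iv x.2)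

def WU (c : C) : Set (C × C) := {x | x.1 ∈ (𝒞.k c).source ∧ 𝒞.iv x.2 ∈ (𝒞.k c).source}

theorem isOpen_WU (c : C) : IsOpen (WU 𝒞 c) := by
  apply IsOpen.and
  · exact (𝒞.k c).open_source.preimage continuous_fst
  · exact (𝒞.k c).open_source.preimage (𝒞.iv_cont.comp continuous_snd)

theorem fU_lp (c : C) {x : C × C} (hx : x ∈ WU 𝒞 c) :
    ∀ᶠ y in 𝓝 x, fU 𝒞 c y = fU 𝒞 c x + S 𝒞 x y := by
  have h1 := (continuous_fst.tendsto x).eventually (P_change 𝒞 c x.1 hx.1)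
  have h2 := (continuous_snd.tendsto x).eventually (P_iv' 𝒞 c x.2 hx.2)
  filter_upwards [h1, h2] with y h3 h4
  simp only [fU, S]
  rw [h3, h4]
  abel

theorem fU_gam (c : C) {x : C × C} (hx : x ∈ 𝒞.Gam) : fU 𝒞 c x = 0 := by
  rw [mem_Gam] at hx
  simp only [fU]
  rw [hx, 𝒞.iv_iv, sub_self]

theorem exists_U0 [CompactSpace C] [T2Space C] :
    ∃ (N : Set (C × C)) (U : C × C → E2), IsOpen N ∧ 𝒞.Gam ⊆ N ∧ 𝒞.LP U N ∧
      (∀ c, ∀ᶠ x in 𝓝 ((c, 𝒞.iv c) : C × C), U x = 𝒞.P c x.1 - 𝒞.P c (𝒞.iv x.2)) ∧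
      ∀ x ∈ 𝒞.Gam, U x = 0 := by
  obtain ⟨N, F, hN, hGN, h1, h2⟩ := glue_germs (Y := E2) (WU 𝒞) (isOpen_WU 𝒞) (fU 𝒞)
    (isClosed_Gam 𝒞).isCompact
    (fun x hx => ⟨x.1, 𝒞.k_mem _, by
      have : 𝒞.iv x.2 = x.1 := by
        rw [mem_Gam] at hx
        rw [hx, 𝒞.iv_iv]
      rw [this]; exact 𝒞.k_mem _⟩)
    (by
      intro x hx i j hi hj
      filter_upwards [fU_lp 𝒞 i hi, fU_lp 𝒞 j hj] with y hy1 hy2
      rw [hy1, hy2, fU_gam 𝒞 i hx, fU_gam 𝒞 j hx])
  refine ⟨N, F, hN, hGN, ?_, ?_, ?_⟩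
  · intro x hx
    obtain ⟨i, hi, h3⟩ := h1 x hx
    have h4 := h3.self_of_nhds
    filter_upwards [h3, fU_lp 𝒞 i hi] with y hy1 hy2
    rw [hy1, h4, hy2]
    rfl
  · intro c
    exact h2 (c, 𝒞.iv c) rfl c ⟨𝒞.k_mem c, by
      show 𝒞.iv (𝒞.iv c) ∈ _
      rw [𝒞.iv_iv]; exact 𝒞.k_mem c⟩
  · intro x hx
    obtain ⟨i, hi, h3⟩ := h1 x (hGN hx)
    rw [h3.self_of_nhds, fU_gam 𝒞 i hx]

theorem gam_eq {x : C × C} (hx : x ∈ 𝒞.Gam) : x = (x.1, 𝒞.iv x.1) := Prod.ext rfl hx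

/-- near a point of `Γ × Γ` there is no bad pair -/
theorem no_bad {U : C × C → E2} {N : Set (C × C)} (hN : IsOpen N) (hGN : 𝒞.Gam ⊆ N)
    (hlp : 𝒞.LP U N)
    (hnear : ∀ c, ∀ᶠ x in 𝓝 ((c, 𝒞.iv c) : C × C), U x = 𝒞.P c x.1 - 𝒞.P c (𝒞.iv x.2))
    (h0 : ∀ x ∈ 𝒞.Gam, U x = 0) {g g' : C × C} (hg : g ∈ 𝒞.Gam) (hg' : g' ∈ 𝒞.Gam) :
    ∃ O ∈ 𝓝 g, ∃ O' ∈ 𝓝 g', ∀ y ∈ O, ∀ y' ∈ O', U y = U y' → U y ≠ 0 →
      y' = y ∨ y' = y.swap := by
  obtain ⟨V, hV⟩ := exists_LF 𝒞 g.1 (hnear g.1)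
  obtain ⟨V', hV'⟩ := exists_LF 𝒞 g'.1 (hnear g'.1)
  by_cases h1 : g'.1 = g.1
  · have hgg : g' = g := by
      rw [gam_eq 𝒞 hg', gam_eq 𝒞 hg, h1]
    obtain ⟨O, hO, hinj⟩ := inj_near 𝒞 hV
    rw [← gam_eq 𝒞 hg] at hO
    exact ⟨O, hO, O, by rw [hgg]; exact hO, hinj⟩
  · by_cases h2 : g'.1 = 𝒞.iv g.1
    · -- `g'` is the swap of `g`
      have hgg : g' = g.swap := by
        rw [gam_eq 𝒞 hg', h2, 𝒞.iv_iv]
        rw [mem_Gam] at hg
        exact Prod.ext hg.symm rfl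
      obtain ⟨O, hO, hinj⟩ := inj_near 𝒞 hV
      rw [← gam_eq 𝒞 hg] at hO
      have hsw : ∀ᶠ y' in 𝓝 g', U y'.swap = U y' := by
        have e1 := hlp g' (hGN hg')
        have e2 : ∀ᶠ y' in 𝓝 g', U y'.swap = U g + S 𝒞 g y'.swap := by
          have t : Tendsto (Prod.swap : C × C → C × C) (𝓝 g') (𝓝 g) := by
            have := (continuous_swap.tendsto g' : Tendsto Prod.swap (𝓝 g') (𝓝 g'.swap))
            rw [hgg] at this ⊢
            simpa using this
          exact t.eventually (hlp g (hGN hg))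
        filter_upwards [e1, e2] with y' e3 e4
        rw [e3, e4, h0 g hg, h0 g' hg', hgg]
        have := S_swap 𝒞 g y'.swap
        rw [Prod.swap_swap] at this
        show 0 + S 𝒞 g y'.swap = 0 + S 𝒞 g.swap y'
        rw [this]
      have hO' : ∀ᶠ y' in 𝓝 g', y'.swap ∈ O := by
        have t : Tendsto (Prod.swap : C × C → C × C) (𝓝 g') (𝓝 g) := by
          have := (continuous_swap.tendsto g' : Tendsto Prod.swap (𝓝 g') (𝓝 g'.swap))
          rw [hgg] at this ⊢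
          simpa using this
        exact t.eventually hO
      refine ⟨O, hO, _, inter_mem hsw hO', ?_⟩
      rintro y hy y' ⟨hy1, hy2⟩ heq hne
      have hy1 : U y'.swap = U y' := hy1
      rcases hinj y hy y'.swap hy2 (heq.trans hy1.symm) hne with h3 | h3
      · right
        rw [← h3, Prod.swap_swap]
      · left
        exact Prod.swap_injective h3
    · obtain ⟨O, hO, O', hO', hsep⟩ := sep_near 𝒞 hV hV' h1 h2
      rw [← gam_eq 𝒞 hg] at hO
      rw [← gam_eq 𝒞 hg'] at hO'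
      exact ⟨O, hO, O', hO', fun y hy y' hy' heq hne => absurd (hsep y hy y' hy' heq) hne⟩

/-- **(K1)** -/
theorem exists_nearE [CompactSpace C] [T2Space C] [Nonempty C] :
    ∃ (N : Set (C × C)) (U : C × C → E2), 𝒞.NearE N U := by
  obtain ⟨N₀, U, hN₀, hGN₀, hlp, hnear, h0⟩ := exists_U0 𝒞
  have hGc : IsCompact 𝒞.Gam := (isClosed_Gam 𝒞).isCompact
  -- no bad pairs
  have hbad : ∃ N₁ : Set (C × C), IsOpen N₁ ∧ 𝒞.Gam ⊆ N₁ ∧ ∀ y ∈ N₁, ∀ y' ∈ N₁, U y = U y' →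
      U y ≠ 0 → y' = y ∨ y' = y.swap := by
    let B : Set ((C × C) × (C × C)) := {p | U p.1 = U p.2 → U p.1 ≠ 0 →
      p.2 = p.1 ∨ p.2 = p.1.swap}
    have hint : 𝒞.Gam ×ˢ 𝒞.Gam ⊆ interior B := by
      rintro ⟨g, g'⟩ ⟨hg, hg'⟩
      obtain ⟨O, hO, O', hO', h⟩ := no_bad 𝒞 hN₀ hGN₀ hlp hnear h0 hg hg'
      rw [mem_interior_iff_mem_nhds]
      refine Filter.mem_of_superset (prod_mem_nhds hO hO') ?_
      rintro ⟨y, y'⟩ ⟨hy, hy'⟩
      exact h y hy y' hy'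
    obtain ⟨u, v, hu, hv, hGu, hGv, huv⟩ := generalized_tube_lemma hGc hGc isOpen_interior hint
    refine ⟨u ∩ v, hu.inter hv, subset_inter hGu hGv, ?_⟩
    intro y hy y' hy'
    exact interior_subset (huv (show (y, y') ∈ u ×ˢ v from ⟨hy.1, hy'.2⟩))
  obtain ⟨N₁, hN₁, hGN₁, hN₁'⟩ := hbad
  -- zero set and swap
  let N₂ : Set (C × C) := {x | ∀ᶠ y in 𝓝 x, (U y = 0 → y ∈ 𝒞.Gam) ∧ U y.swap = U y}
  have hN₂ : IsOpen N₂ := isOpen_setOfPred_eventually_nhds
  have hGN₂ : 𝒞.Gam ⊆ N₂ := by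
    intro g hg
    obtain ⟨V, hV⟩ := exists_LF 𝒞 g.1 (hnear g.1)
    have e1 := hV.zero_iff
    rw [← gam_eq 𝒞 hg] at e1
    have t : Tendsto (Prod.swap : C × C → C × C) (𝓝 g) (𝓝 g.swap) := continuous_swap.tendsto g
    have e2 := hlp g (hGN₀ hg)
    have e3 := t.eventually (hlp g.swap (hGN₀ (swap_mem_Gam 𝒞 hg)))
    show ∀ᶠ y in 𝓝 g, (U y = 0 → y ∈ 𝒞.Gam) ∧ U y.swap = U y
    filter_upwards [e1, e2, e3] with y f1 f2 f3
    refine ⟨f1.1, ?_⟩
    rw [f2, f3, h0 g hg, h0 g.swap (swap_mem_Gam 𝒞 hg)]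
    show 0 + S 𝒞 g.swap y.swap = 0 + S 𝒞 g y
    rw [S_swap]
  -- all properties hold on `N₅`
  let N₅ : Set (C × C) := N₀ ∩ N₁ ∩ N₂
  have hN₅ : IsOpen N₅ := (hN₀.inter hN₁).inter hN₂
  have hGN₅ : 𝒞.Gam ⊆ N₅ := subset_inter (subset_inter hGN₀ hGN₁) hGN₂
  obtain ⟨N₆, hN₆, hGN₆, hcl⟩ := hGc.exists_isOpen_closure_subset (hN₅.mem_nhdsSet.2 hGN₅)
  let N : Set (C × C) := N₆ ∩ Prod.swap ⁻¹' N₆
  have hN : IsOpen N := hN₆.inter (hN₆.preimage continuous_swap)
  have hGN : 𝒞.Gam ⊆ N := fun x hx => ⟨hGN₆ hx, hGN₆ (swap_mem_Gam 𝒞 hx)⟩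
  have hclN : closure N ⊆ N₅ := (closure_mono inter_subset_left).trans hcl
  have hNN₅ : N ⊆ N₅ := subset_closure.trans hclN
  have hUc : ContinuousOn U N₅ := fun x hx =>
    (LP.continuousAt 𝒞 hlp hx.1.1).continuousWithinAt
  have hz : ∀ x ∈ N₅, U x = 0 → x ∈ 𝒞.Gam := fun x hx h => (hx.2.self_of_nhds).1 h
  refine ⟨N, U, hN, hGN, ?_, fun x hx => hlp x (hNN₅ hx).1.1, hnear, ?_, ?_, ?_, ?_, ?_, ?_⟩
  · rintro x ⟨h1, h2⟩
    refine ⟨h2, ?_⟩
    show x.swap.swap ∈ N₆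
    rw [Prod.swap_swap]; exact h1
  · intro x hx
    exact ((hNN₅ hx).2.self_of_nhds).2
  · intro x hx
    exact ⟨hz x (hNN₅ hx), h0 x⟩
  · intro x hx x' hx' h1 h2
    exact hN₁' x (hNN₅ hx).1.2 x' (hNN₅ hx').1.2 h1 h2
  · -- small
    intro O hO hGO
    have hA : IsCompact (closure N \ O) := isClosed_closure.isCompact.diff hO
    obtain ⟨δ₁, hδ₁, hl₁⟩ := exists_pos_lower hA
      (hUc.mono (sdiff_subset.trans hclN))
      (fun x hx h => hx.2 (hGO (hz x (hclN hx.1) h)))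
    have hGO' : 𝒞.Gam ⊆ N ∩ O := subset_inter hGN hGO
    obtain ⟨V, hV, hGV, hclV⟩ := hGc.exists_isOpen_closure_subset
      ((hN.inter hO).mem_nhdsSet.2 hGO')
    have hK : IsCompact (closure V) := isClosed_closure.isCompact
    have hKN₅ : closure V ⊆ N₅ := hclV.trans (inter_subset_left.trans hNN₅)
    obtain ⟨δ₂, hδ₂, hl₂⟩ := exists_pos_lower (hK.diff hV)
      (hUc.mono (sdiff_subset.trans hKN₅))
      (fun x hx h => hx.2 (hGV (hz x (hKN₅ hx.1) h)))
    refine ⟨min δ₁ δ₂, lt_min hδ₁ hδ₂, ?_, ?_⟩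
    · intro x hx hlt
      by_contra hxO
      have := hl₁ x ⟨subset_closure hx, hxO⟩
      exact absurd (lt_of_lt_of_le hlt (min_le_left _ _)) (not_lt.2 this)
    · intro v hv
      obtain ⟨c₀⟩ := ‹Nonempty C›
      have hg₀ : ((c₀, 𝒞.iv c₀) : C × C) ∈ 𝒞.Gam := gam_mem 𝒞 c₀
      by_cases hv0 : v = 0
      · exact ⟨(c₀, 𝒞.iv c₀), hGO' hg₀, by rw [h0 _ hg₀, hv0]⟩
      -- connectedness
      have hpre := isPreconnected_punctured (min δ₁ δ₂)
      have hopen : IsOpen (U '' (V \ 𝒞.Gam)) := by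
        rw [isOpen_iff_mem_nhds]
        rintro _ ⟨x, ⟨hxV, hxG⟩, rfl⟩
        have hxN₅ : x ∈ N₅ := hKN₅ (subset_closure hxV)
        rw [← LP.map_nhds 𝒞 hlp hxN₅.1.1 hxG]
        apply Filter.image_mem_map
        exact (hV.sdiff (isClosed_Gam 𝒞)).mem_nhds ⟨hxV, hxG⟩
      have hclosed : IsClosed (U '' closure V) := (hK.image_of_continuousOn (hUc.mono hKN₅)).isClosed
      have hsub : ball (0 : E2) (min δ₁ δ₂) \ {0} ⊆ U '' (V \ 𝒞.Gam) := by
        refine hpre.subset_left_of_subset_union hopen hclosed.isOpen_compl ?_ ?_ ?_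
        · rw [Set.disjoint_left]
          rintro _ ⟨x, ⟨hxV, _⟩, rfl⟩ h
          exact h ⟨x, subset_closure hxV, rfl⟩
        · intro u hu
          by_cases h : u ∈ U '' closure V
          · left
            obtain ⟨x, hx, rfl⟩ := h
            have hxG : x ∉ 𝒞.Gam := fun hxG => hu.2 (h0 x hxG)
            by_cases hxV : x ∈ V
            · exact ⟨x, ⟨hxV, hxG⟩, rfl⟩
            · exfalso
              have h1 := hl₂ x ⟨hx, hxV⟩
              have h2 : ‖U x‖ < min δ₁ δ₂ := mem_ball_zero_iff.1 hu.1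
              exact absurd (lt_of_lt_of_le h2 (min_le_right _ _)) (not_lt.2 h1)
          · exact Or.inr h
        · -- a point near `Γ`, off `Γ`
          let s : ℂ → C × C := fun z => ((𝒞.k c₀).symm z, 𝒞.iv c₀)
          have ts : Tendsto s (𝓝 0) (𝓝 (c₀, 𝒞.iv c₀)) :=
            (tend_symm 𝒞 c₀).prodMk_nhds tendsto_const_nhds
          have tU : Tendsto (fun z => U (s z)) (𝓝 0) (𝓝 0) := by
            have := (LP.continuousAt 𝒞 hlp (hGN₀ hg₀)).tendsto.comp ts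
            rw [h0 _ hg₀] at this
            exact this
          have e1 : ∀ᶠ z in 𝓝[≠] (0 : ℂ), s z ∈ V ∧ ‖U (s z)‖ < min δ₁ δ₂ ∧
              z ∈ (𝒞.k c₀).target ∧ z ≠ 0 := by
            have f1 : ∀ᶠ z in 𝓝[≠] (0 : ℂ), s z ∈ V :=
              (ts.eventually (hV.mem_nhds (hGV hg₀))).filter_mono nhdsWithin_le_nhds
            have f2 : ∀ᶠ z in 𝓝[≠] (0 : ℂ), U (s z) ∈ ball (0 : E2) (min δ₁ δ₂) :=
              (tU.eventually (ball_mem_nhds 0 (lt_min hδ₁ hδ₂))).filter_mono nhdsWithin_le_nhds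
            have f3 : ∀ᶠ z in 𝓝[≠] (0 : ℂ), z ∈ (𝒞.k c₀).target :=
              (Filter.Eventually.filter_mono nhdsWithin_le_nhds
                ((𝒞.k c₀).open_target.mem_nhds (zero_mem_target 𝒞 c₀)))
            filter_upwards [f1, f2, f3, self_mem_nhdsWithin] with z g1 g2 g3 g4
            exact ⟨g1, mem_ball_zero_iff.1 g2, g3, g4⟩
          obtain ⟨z, g1, g2, g3, g4⟩ := e1.exists
          have hnG : s z ∉ 𝒞.Gam := by
            intro h
            rw [mem_Gam] at h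
            have h' : 𝒞.iv c₀ = 𝒞.iv ((𝒞.k c₀).symm z) := h
            have h'' : c₀ = (𝒞.k c₀).symm z := by
              have := congrArg 𝒞.iv h'
              rwa [𝒞.iv_iv, 𝒞.iv_iv] at this
            apply g4
            have h3 := (𝒞.k c₀).right_inv g3
            rw [← h'', 𝒞.k_zero] at h3
            exact h3.symm
          refine ⟨U (s z), ⟨mem_ball_zero_iff.2 g2, ?_⟩, s z, ⟨g1, hnG⟩, rfl⟩
          intro h
          exact hnG (hz _ (hKN₅ (subset_closure g1)) h)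
      obtain ⟨x, ⟨hxV, _⟩, hx⟩ := hsub ⟨hv, hv0⟩
      exact ⟨x, hclV (subset_closure hxV), hx⟩
  · intro c i hc hi
    obtain ⟨V, hV⟩ := exists_LF 𝒞 c (hnear c)
    exact coord_of 𝒞 hV i hc hi
  · intro c i hc hi
    obtain ⟨V, hV⟩ := exists_LF 𝒞 c (hnear c)
    exact coordW_of 𝒞 hV i hc hi

end Crest.Agent.R272.AJg_956
end
end

-- ▼ part R272/As153_338
section

/-!
# R272, leaf S15-ASM (helper338), part 3: S0415 from the Abel-Jacobi description

`s15_top` : `X = X⁺` compact Hausdorff with a complex structure `CX : Fam 3 X` (66, 342) with a positive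
bundle (`PosF CX`; 876, 232, 848, 220, 246 and 410); the curve `𝒞 : Cur C` (297), `J : 𝒞.IsJac q Λ π`
(956), `ι : A → X` injective with `ι ∘ π` a holomorphic immersion (834), `D = diag (d 0, d 1)` (297, 956),
four periods `Q j`, `Q (j+1) = ± D (Q j)`, `Q 0`, `Q 2`, `Q 3` die in `X` (20) and `Q 1` has infinite
order (936, 990, 259) ⟹ S0415.
-/

set_option autoImplicit false
set_option linter.unusedSectionVars false

open Set Filter Topology TopologicalSpace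
open Crest.AlgGeometry

namespace Crest.Agent.R272.As15_338

open Crest.Agent.R275.Geo Crest.Agent.R275.Core144 Crest.Agent.R275.GC293
open Crest.Agent.R273.Defs_333 Crest.Agent.R273.Fam_835
open CpEnd_338 TLoop_463 Crest.Agent.R272.AJ_956 UB_20 Simple_729 Comp_259 DCov_426

noncomputable section

/-- the sign of a period is irrelevant -/
theorem perHom_pm {Y : Type} [TopologicalSpace Y] {Λ : AddSubgroup E2} {f : C(E2, Y)}
    (hper : Per f Λ) (z₀ : E2) {a b : Λ} (h : (a : E2) = b ∨ (a : E2) = - b) :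
    (perHom hper z₀ (Multiplicative.ofAdd a) = 1 ↔ perHom hper z₀ (Multiplicative.ofAdd b) = 1) ∧
    (IsOfFinOrder (perHom hper z₀ (Multiplicative.ofAdd a)) ↔
      IsOfFinOrder (perHom hper z₀ (Multiplicative.ofAdd b))) := by
  rcases h with h | h
  · rw [Subtype.ext h]
    exact ⟨Iff.rfl, Iff.rfl⟩
  · have h1 : a = - b := Subtype.ext h
    rw [h1, ofAdd_neg, map_inv]
    exact ⟨inv_eq_one, isOfFinOrder_inv_iff⟩

variable {n : ℕ} {X : Type} [TopologicalSpace X] [T2Space X] [CompactSpace X] {CX : Fam n X}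
variable {C : Type} [TopologicalSpace C] {𝒞 : Cur C} {A : Type} [TopologicalSpace A]
  {q : C × C → A} {Λ : AddSubgroup E2} {π : E2 → A}

theorem per_of {X : Type} {Λ : AddSubgroup E2} {π : E2 → A} {ι : A → X}
    (h : ∀ z w, π z = π w ↔ z - w ∈ Λ) : ∀ v, ∀ l ∈ Λ, ι (π (v + l)) = ι (π v) := by
  intro v l hl
  rw [(h (v + l) v).2 (by rwa [add_sub_cancel_left])]

/-- **S0415 from the final manifold, the Abel-Jacobi map and the four periods** -/
theorem s15_top (hC : PosF CX) (J : 𝒞.IsJac q Λ π) (f : C(E2, X)) {ι : A → X}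
    (hf : ∀ z, f z = ι (π z)) (hι : Function.Injective ι) (himm : ImmF CX f)
    (hper : Per f Λ) {d : Fin 2 → ℂ}
    (hd : ∀ i, IsPrimitiveRoot (d i) 5) (hd1 : d 0 ≠ d 1) (hd2 : d 0 * d 1 ≠ 1)
    {D : E2 → E2} (hD : ∀ v i, D v i = d i * v i) (hΛ : ∀ v ∈ Λ, D v ∈ Λ) (z₀ : E2)
    {Q : Fin 4 → E2} (hQ : ∀ j, Q j ∈ Λ)
    (hrel : ∀ j : Fin 3, Q j.succ = D (Q j.castSucc) ∨ Q j.succ = - D (Q j.castSucc))
    (die0 : perHom hper z₀ (Multiplicative.ofAdd ⟨Q 0, hQ 0⟩) = 1)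
    (live : ¬ IsOfFinOrder (perHom hper z₀ (Multiplicative.ofAdd ⟨Q 1, hQ 1⟩)))
    (die2 : perHom hper z₀ (Multiplicative.ofAdd ⟨Q 2, hQ 2⟩) = 1)
    (die3 : perHom hper z₀ (Multiplicative.ofAdd ⟨Q 3, hQ 3⟩) = 1) : S15 := by
  have hDn : ∀ v, D (-v) = - D v := by
    intro v
    funext i
    rw [hD, Pi.neg_apply, Pi.neg_apply, hD]
    ring
  have r1 : D (Q 0) = Q 1 ∨ D (Q 0) = - Q 1 := by
    rcases hrel 0 with h | h
    · exact Or.inl h.symm
    · refine Or.inr ?_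
      have : Q 1 = - D (Q 0) := h
      rw [this, neg_neg]
  have r2 : D (D (Q 0)) = Q 2 ∨ D (D (Q 0)) = - Q 2 := by
    have h2 : D (Q 1) = Q 2 ∨ D (Q 1) = - Q 2 := by
      rcases hrel 1 with h | h
      · exact Or.inl h.symm
      · refine Or.inr ?_
        have : Q 2 = - D (Q 1) := h
        rw [this, neg_neg]
    rcases r1 with h | h
    · rw [h]; exact h2
    · rw [h, hDn]
      rcases h2 with h2 | h2
      · exact Or.inr (by rw [h2])
      · exact Or.inl (by rw [h2, neg_neg])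
  have r3 : D (D (D (Q 0))) = Q 3 ∨ D (D (D (Q 0))) = - Q 3 := by
    have h3 : D (Q 2) = Q 3 ∨ D (Q 2) = - Q 3 := by
      rcases hrel 2 with h | h
      · exact Or.inl h.symm
      · refine Or.inr ?_
        have : Q 3 = - D (Q 2) := h
        rw [this, neg_neg]
    rcases r2 with h | h
    · rw [h]; exact h3
    · rw [h, hDn]
      rcases h3 with h3 | h3
      · exact Or.inr (by rw [h3])
      · exact Or.inl (by rw [h3, neg_neg])
  refine s15_fam hC J.disc J.span hd hd1 hd2 hD hΛ f himm (fun z w => ?_) hper z₀ (hQ 0) die0 ?_ ?_ ?_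
  · rw [hf, hf, hι.eq_iff]
    exact J.eq_iff z w
  · rw [(perHom_pm hper z₀ (a := ⟨D (Q 0), hΛ _ (hQ 0)⟩) (b := ⟨Q 1, hQ 1⟩) r1).2]
    exact live
  · rw [(perHom_pm hper z₀ (a := ⟨D (D (Q 0)), hΛ _ (hΛ _ (hQ 0))⟩) (b := ⟨Q 2, hQ 2⟩) r2).1]
    exact die2
  · rw [(perHom_pm hper z₀ (a := ⟨D (D (D (Q 0))), hΛ _ (hΛ _ (hΛ _ (hQ 0)))⟩)
      (b := ⟨Q 3, hQ 3⟩) r3).1]
    exact die3

end

end Crest.Agent.R272.As15_338
end

-- ▼ part R272/As154_338
section

/-!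
# R272, leaf S15-ASM (helper338), part 4: the doubled arc

* `dbl γ`      : the closed path `γ · (iv γ)⁻¹` of `C` (`γ` an arc between two Weierstrass points);
* `exists_dbl` : its image `q (dbl γ t, c')` lifts to `Γ : I → ℂ²`, `Γ 1 = Γ 0 + (h 1 + h 1)`,
                 `h` the integral of `ω` along `γ`;
* `lives`      : `¬ IsOfFinOrder` of the loop over `dbl γ` ⟹ `¬ IsOfFinOrder (perHom ⟨h 1 + h 1⟩)`.
-/

set_option autoImplicit false
set_option linter.unusedSectionVars false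

open Set Filter Topology TopologicalSpace

namespace Crest.Agent.R272.As15_338

open TLoop_463 CovOrd_463 Crest.Agent.R272.AJ_956 UB_20 LbEnd_259 LbExt_259

noncomputable section

local notation "I" => unitInterval

variable {C : Type} [TopologicalSpace C] {𝒞 : Cur C} {A : Type} [TopologicalSpace A]
  {q : C × C → A} {Λ : AddSubgroup E2} {π : E2 → A}

/-- first half -/
def lo (t : I) : I := ⟨min (2 * (t : ℝ)) 1, by
  constructor
  · have := t.2.1
    exact le_min (by linarith) zero_le_one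
  · exact min_le_right _ _⟩

/-- second half -/
def hi (t : I) : I := ⟨min (2 - 2 * (t : ℝ)) 1, by
  constructor
  · have := t.2.2
    exact le_min (by linarith) zero_le_one
  · exact min_le_right _ _⟩

theorem lo_cont : Continuous lo := by
  unfold lo
  fun_prop

theorem hi_cont : Continuous hi := by
  unfold hi
  fun_prop

theorem lo_of_ge {t : I} (h : (1 / 2 : ℝ) ≤ t) : lo t = 1 :=
  Subtype.ext (min_eq_right (by linarith))

theorem hi_of_le {t : I} (h : (t : ℝ) ≤ 1 / 2) : hi t = 1 :=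
  Subtype.ext (min_eq_right (by linarith))

theorem lo_zero : lo 0 = 0 := Subtype.ext (by simp [lo])
theorem hi_one : hi 1 = 0 := Subtype.ext (by simp [hi])

/-- gluing of two maps at `1/2` -/
theorem glue_half {Y : Type*} [TopologicalSpace Y] {F₁ F₂ : I → Y} (h₁ : Continuous F₁)
    (h₂ : Continuous F₂) (he : ∀ t : I, (t : ℝ) = 1 / 2 → F₁ t = F₂ t) :
    Continuous fun t : I => if (t : ℝ) ≤ 1 / 2 then F₁ t else F₂ t :=
  Continuous.if_le h₁ h₂ continuous_subtype_val continuous_const fun t ht => he t ht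

/-- the closed path `γ · (iv γ)⁻¹` -/
def dbl (𝒞 : Cur C) (γ : C(I, C)) (he : 𝒞.iv (γ 1) = γ 1) : C(I, C) where
  toFun t := if (t : ℝ) ≤ 1 / 2 then γ (lo t) else 𝒞.iv (γ (hi t))
  continuous_toFun := glue_half (γ.continuous.comp lo_cont)
    (𝒞.iv_cont.comp (γ.continuous.comp hi_cont)) fun t ht => by
      rw [lo_of_ge ht.ge, hi_of_le ht.le, he]

theorem dbl_le (γ : C(I, C)) (he : 𝒞.iv (γ 1) = γ 1) {t : I} (ht : (t : ℝ) ≤ 1 / 2) :
    dbl 𝒞 γ he t = γ (lo t) := if_pos ht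

theorem dbl_ge (γ : C(I, C)) (he : 𝒞.iv (γ 1) = γ 1) {t : I} (ht : (1 / 2 : ℝ) ≤ t) :
    dbl 𝒞 γ he t = 𝒞.iv (γ (hi t)) := by
  by_cases h : (t : ℝ) ≤ 1 / 2
  · have h2 : (t : ℝ) = 1 / 2 := le_antisymm h ht
    rw [dbl_le γ he h, lo_of_ge ht, hi_of_le h, he]
  · exact if_neg h


theorem exists_dbl (J : 𝒞.IsJac q Λ π) (hq : Continuous q) {γ : C(I, C)} {h : C(I, E2)}
    (H : IsInt 𝒞 γ h) (hs : 𝒞.iv (γ 0) = γ 0) (he : 𝒞.iv (γ 1) = γ 1) (c' : C) :
    ∃ Γ : C(I, E2), Γ 1 = Γ 0 + (h 1 + h 1) ∧ ∀ t, π (Γ t) = q (dbl 𝒞 γ he t, c') := by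
  obtain ⟨z₀, hz⟩ := J.surj (q (γ 0, c'))
  have h1 := lift_eq J hq H c' z₀ hz
  have h2 := lift_eq J hq H.neg c' z₀ (by
    show π z₀ = q (𝒞.iv (γ 0), c')
    rw [hs, hz])
  have h2' : ∀ t, π (z₀ + (h 1 + h 1) - h t) = q (𝒞.iv (γ t), c') := by
    intro t
    have h3 : π (z₀ + - h t) = q (𝒞.iv (γ t), c') := h2 t
    rw [← h3, J.eq_iff]
    have e : z₀ + (h 1 + h 1) - h t - (z₀ + - h t) = h 1 + h 1 := by abel
    rw [e]
    exact two_mem J hq H hs he
  let Γ : C(I, E2) := ⟨fun t => if (t : ℝ) ≤ 1 / 2 then z₀ + h (lo t) else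
      z₀ + (h 1 + h 1) - h (hi t), glue_half
    (continuous_const.add (h.continuous.comp lo_cont))
    (continuous_const.sub (h.continuous.comp hi_cont)) fun t ht => by
      rw [lo_of_ge ht.ge, hi_of_le ht.le]
      abel⟩
  have hle : ∀ t : I, (t : ℝ) ≤ 1 / 2 → Γ t = z₀ + h (lo t) := fun t ht => if_pos ht
  have hgt : ∀ t : I, ¬ (t : ℝ) ≤ 1 / 2 → Γ t = z₀ + (h 1 + h 1) - h (hi t) := fun t ht => if_neg ht
  refine ⟨Γ, ?_, fun t => ?_⟩
  · rw [hle 0 (by simp), hgt 1 (by norm_num), lo_zero, hi_one, H.zero, sub_zero, add_zero]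
  · by_cases ht : (t : ℝ) ≤ 1 / 2
    · rw [hle t ht, dbl_le γ he ht]
      exact h1 (lo t)
    · rw [hgt t ht, dbl_ge γ he (not_le.1 ht).le]
      exact h2' (hi t)

/-- the loop over `dbl γ` computes the period `h 1 + h 1` -/
theorem lives (J : 𝒞.IsJac q Λ π) (hq : Continuous q) {Y : Type} [TopologicalSpace Y]
    {ι : A → Y} {f : C(E2, Y)} (hf : ∀ v, f v = ι (π v)) (hper : Per f Λ) (z₀ : E2)
    {γ : C(I, C)} {h : C(I, E2)} (H : IsInt 𝒞 γ h) (hs : 𝒞.iv (γ 0) = γ 0)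
    (he : 𝒞.iv (γ 1) = γ 1) (c' : C) {y : Y} (δ : Path y y)
    (hδ : ∀ t, δ t = ι (q (dbl 𝒞 γ he t, c'))) (hn : ¬ IsOfFinOrder (cls δ)) :
    ¬ IsOfFinOrder (perHom hper z₀
      (Multiplicative.ofAdd (⟨h 1 + h 1, two_mem J hq H hs he⟩ : Λ))) := by
  obtain ⟨Γ, h1, h2⟩ := exists_dbl J hq H hs he c'
  refine not_fin_of_path hper z₀ (⟨Γ, rfl, rfl⟩ : Path (Γ 0) (Γ 1)) _ h1 δ (fun t => ?_) hn
  rw [hδ]
  show _ = f (Γ t)
  rw [hf, h2]

section Pos

open Crest.Agent.R275.Geo Crest.Agent.R275.Core144 Crest.Agent.R275.GC293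
open Crest.Agent.R273.Defs_333 Crest.Agent.R273.Fam_835 DCov_426


end Pos

end

end Crest.Agent.R272.As15_338
end

-- ▼ part R272/Tr1_956
section

/-!
# Row 272: compact spaces with a translation structure are tori

`TAtl φ`: a family of charts `φ i : OpenPartialHomeomorph A E` (`E` a finite dimensional real normed
space) covering `A`, all changes of charts being locally translations.  If `A` is compact, Hausdorff,
connected and non empty, then `A = E / Λ` for a discrete cocompact subgroup `Λ`.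
-/

set_option autoImplicit false
set_option linter.unusedSectionVars false
set_option linter.unusedVariables false

open Set Topology Filter Metric

namespace Crest.Agent.R272.Tr1_956

variable {E : Type*} [NormedAddCommGroup E] [NormedSpace ℝ E]
variable {A : Type*} [TopologicalSpace A] {ι : Type*}

/-- A translation atlas. -/
structure TAtl (φ : ι → OpenPartialHomeomorph A E) : Prop where
  cov : ∀ a : A, ∃ i, a ∈ (φ i).source
  trans : ∀ i j, ∀ a ∈ (φ i).source, a ∈ (φ j).source → ∃ c : E, ∀ᶠ x in 𝓝 a, φ j x = φ i x + c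

/-- `s` is, in the charts and locally on `S`, of the form `y ↦ D y + c`. -/
def TL (φ : ι → OpenPartialHomeomorph A E) (D : E → E) (s : E → A) (S : Set E) : Prop :=
  ∀ x ∈ S, ∃ i, ∃ c : E, D x + c ∈ (φ i).target ∧ ∀ᶠ y in 𝓝 x, s y = (φ i).symm (D y + c)

variable {φ : ι → OpenPartialHomeomorph A E} {D : E → E}

theorem TL.mono {s : E → A} {S T : Set E} (h : TL φ D s T) (hST : S ⊆ T) : TL φ D s S :=
  fun x hx => h x (hST hx)

theorem TL.congr {s t : E → A} {S : Set E} (h : TL φ D s S)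
    (hst : ∀ x ∈ S, ∀ᶠ y in 𝓝 x, t y = s y) : TL φ D t S := by
  intro x hx
  obtain ⟨i, c, hc, h'⟩ := h x hx
  refine ⟨i, c, hc, ?_⟩
  filter_upwards [h', hst x hx] with y h1 h2
  rw [h2, h1]

theorem TL.continuousAt (hD : Continuous D) {s : E → A} {S : Set E} (h : TL φ D s S) {x : E}
    (hx : x ∈ S) : ContinuousAt s x := by
  obtain ⟨i, c, hc, h'⟩ := h x hx
  have h1 : ContinuousAt (fun y => (φ i).symm (D y + c)) x := by
    have := (φ i).continuousAt_symm hc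
    exact ContinuousAt.comp (f := fun y => D y + c) this (by fun_prop)
  exact h1.congr (h'.mono fun y hy => hy.symm)

/-- Two `D`-maps agreeing at a point agree near this point. -/
theorem TL.eventuallyEq (hA : TAtl φ) (hD : Continuous D) {s t : E → A} {S : Set E}
    (hs : TL φ D s S) (ht : TL φ D t S) {x : E} (hx : x ∈ S) (hst : s x = t x) :
    ∀ᶠ y in 𝓝 x, s y = t y := by
  obtain ⟨i, c, hc, h1⟩ := hs x hx
  obtain ⟨j, c', hc', h2⟩ := ht x hx
  have es : s x = (φ i).symm (D x + c) := h1.self_of_nhds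
  have et : t x = (φ j).symm (D x + c') := h2.self_of_nhds
  have hsi : s x ∈ (φ i).source := by rw [es]; exact (φ i).map_target hc
  have htj : s x ∈ (φ j).source := by rw [hst, et]; exact (φ j).map_target hc'
  obtain ⟨d, hd⟩ := hA.trans i j (s x) hsi htj
  have cs : ContinuousAt s x := hs.continuousAt hD hx
  have ct : ContinuousAt t x := ht.continuousAt hD hx
  have key1 : ∀ᶠ y in 𝓝 x, φ j (s y) = φ i (s y) + d := cs.eventually hd
  -- the values in the chart `i`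
  have hopen : ∀ᶠ y in 𝓝 x, D y + c ∈ (φ i).target := by
    have : ContinuousAt (fun y => D y + c) x := by fun_prop
    exact this.preimage_mem_nhds ((φ i).open_target.mem_nhds hc)
  have hopen' : ∀ᶠ y in 𝓝 x, D y + c' ∈ (φ j).target := by
    have : ContinuousAt (fun y => D y + c') x := by fun_prop
    exact this.preimage_mem_nhds ((φ j).open_target.mem_nhds hc')
  have key2 : ∀ᶠ y in 𝓝 x, φ i (s y) = D y + c := by
    filter_upwards [h1, hopen] with y hy ho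
    rw [hy, (φ i).right_inv ho]
  have key3 : ∀ᶠ y in 𝓝 x, φ j (t y) = D y + c' := by
    filter_upwards [h2, hopen'] with y hy ho
    rw [hy, (φ j).right_inv ho]
  have hcc : c + d = c' := by
    have e1 := key1.self_of_nhds
    have e2 := key2.self_of_nhds
    have e3 := key3.self_of_nhds
    rw [e2, hst, e3, add_assoc] at e1
    exact (add_left_cancel e1).symm
  have hsj : ∀ᶠ y in 𝓝 x, s y ∈ (φ j).source := cs.preimage_mem_nhds ((φ j).open_source.mem_nhds htj)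
  have htj' : ∀ᶠ y in 𝓝 x, t y ∈ (φ j).source :=
    ct.preimage_mem_nhds ((φ j).open_source.mem_nhds (hst ▸ htj))
  filter_upwards [key1, key2, key3, hsj, htj'] with y e1 e2 e3 m1 m2
  apply (φ j).injOn m1 m2
  rw [e1, e2, e3, add_assoc, hcc]

/-- Uniqueness on a preconnected open set. -/
theorem TL.eqOn [T2Space A] (hA : TAtl φ) (hD : Continuous D) {s t : E → A} {S : Set E}
    (hSo : IsOpen S) (hS : IsPreconnected S)
    (hs : TL φ D s S) (ht : TL φ D t S) {x : E} (hx : x ∈ S) (hst : s x = t x) :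
    ∀ y ∈ S, s y = t y := by
  let U : Set E := {y | ∀ᶠ z in 𝓝 y, s z = t z}
  let V : Set E := {y | ∀ᶠ z in 𝓝 y, s z ≠ t z}
  have hU : IsOpen U := isOpen_setOfPred_eventually_nhds
  have hV : IsOpen V := isOpen_setOfPred_eventually_nhds
  have hUV : Disjoint U V := by
    rw [Set.disjoint_left]
    intro y h1 h2
    exact h2.self_of_nhds h1.self_of_nhds
  have hcov : S ⊆ U ∪ V := by
    intro y hy
    by_cases h : s y = t y
    · exact Or.inl (hs.eventuallyEq hA hD ht hy h)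
    · right
      have cs : ContinuousAt s y := hs.continuousAt hD hy
      have ct : ContinuousAt t y := ht.continuousAt hD hy
      exact (ContinuousAt.ne_iff_eventually_ne cs ct).1 h
  have := hS.subset_left_of_subset_union hU hV hUV hcov ⟨x, hx, hs.eventuallyEq hA hD ht hx hst⟩
  intro y hy
  exact (this hy).self_of_nhds

/-- A uniform radius of charts. -/
theorem exists_radius [CompactSpace A] (hA : TAtl φ) :
    ∃ r : ℝ, 0 < r ∧ ∀ a : A, ∃ i, a ∈ (φ i).source ∧ ball (φ i a) r ⊆ (φ i).target := by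
  have key : ∃ r : ℝ, 0 < r ∧ ∀ a ∈ (univ : Set A), ∃ i, a ∈ (φ i).source ∧
      ball (φ i a) r ⊆ (φ i).target := by
    refine isCompact_univ.induction_on (p := fun K : Set A => ∃ r : ℝ, 0 < r ∧ ∀ a ∈ K, ∃ i,
      a ∈ (φ i).source ∧ ball (φ i a) r ⊆ (φ i).target) ?_ ?_ ?_ ?_
    · exact ⟨1, one_pos, by simp⟩
    · rintro K L hKL ⟨r, hr, h⟩
      exact ⟨r, hr, fun a ha => h a (hKL ha)⟩
    · rintro K L ⟨r, hr, h⟩ ⟨r', hr', h'⟩
      refine ⟨min r r', lt_min hr hr', ?_⟩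
      rintro a (ha | ha)
      · obtain ⟨i, h1, h2⟩ := h a ha
        exact ⟨i, h1, (ball_subset_ball (min_le_left _ _)).trans h2⟩
      · obtain ⟨i, h1, h2⟩ := h' a ha
        exact ⟨i, h1, (ball_subset_ball (min_le_right _ _)).trans h2⟩
    · intro a _
      obtain ⟨i, hi⟩ := hA.cov a
      obtain ⟨r, hr, hb⟩ := Metric.isOpen_iff.1 (φ i).open_target (φ i a) ((φ i).map_source hi)
      refine ⟨(φ i).source ∩ φ i ⁻¹' ball (φ i a) (r / 2), mem_nhdsWithin_of_mem_nhds ?_,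
        r / 2, half_pos hr, ?_⟩
      · exact inter_mem ((φ i).open_source.mem_nhds hi)
          (((φ i).continuousAt hi).preimage_mem_nhds (ball_mem_nhds _ (half_pos hr)))
      · rintro b ⟨hb1, hb2⟩
        refine ⟨i, hb1, ?_⟩
        refine subset_trans ?_ hb
        intro z hz
        have h1 : dist z (φ i b) < r / 2 := hz
        have h2 : dist (φ i b) (φ i a) < r / 2 := hb2
        have := dist_triangle z (φ i b) (φ i a)
        exact mem_ball.2 (by linarith)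
  obtain ⟨r, hr, h⟩ := key
  exact ⟨r, hr, fun a => h a (mem_univ a)⟩

/-- Local sections. -/
theorem exists_section {r : ℝ} (hr : ∀ a : A, ∃ i, a ∈ (φ i).source ∧
    ball (φ i a) r ⊆ (φ i).target) (hr0 : 0 < r) (a : A) (x : E) :
    ∃ s : E → A, s x = a ∧ TL φ id s (ball x r) := by
  obtain ⟨i, hi, hb⟩ := hr a
  refine ⟨fun y => (φ i).symm (y + (φ i a - x)), ?_, ?_⟩
  · simp [hi]
  · intro y hy
    refine ⟨i, φ i a - x, hb ?_, Eventually.of_forall fun z => rfl⟩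
    simp only [id, mem_ball, dist_eq_norm] at hy ⊢
    convert hy using 2
    abel

theorem isPreconnected_ball' (x : E) (r : ℝ) : IsPreconnected (ball x r) :=
  (convex_ball x r).isPreconnected

/-- Extension step. -/
theorem extend_step [T2Space A] (hA : TAtl φ) {r : ℝ} (hr0 : 0 < r)
    (hr : ∀ a : A, ∃ i, a ∈ (φ i).source ∧ ball (φ i a) r ⊆ (φ i).target)
    {ρ : ℝ} (hρ : 0 < ρ) {s : E → A} (hs : TL φ id s (ball 0 ρ)) :
    ∃ t : E → A, t 0 = s 0 ∧ TL φ id t (ball 0 (ρ + r / 2)) := by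
  choose σ hσ1 hσ2 using fun x : E => exists_section hr hr0 (s x) x
  -- coincidence
  have hcoin0 : ∀ x ∈ ball (0 : E) ρ, ∀ y ∈ ball x r ∩ ball 0 ρ, s y = σ x y := by
    intro x hx
    have hconv : IsPreconnected (ball x r ∩ ball (0 : E) ρ) :=
      ((convex_ball x r).inter (convex_ball 0 ρ)).isPreconnected
    exact TL.eqOn hA continuous_id (isOpen_ball.inter isOpen_ball) hconv
      (hs.mono inter_subset_right) ((hσ2 x).mono inter_subset_left)
      ⟨mem_ball_self hr0, hx⟩ (hσ1 x).symm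
  have hcoin : ∀ x ∈ ball (0 : E) ρ, ∀ x' ∈ ball (0 : E) ρ, ∀ y, dist y x < r / 2 →
      dist y x' < r / 2 → σ x y = σ x' y := by
    intro x hx x' hx' y hy hy'
    have hconv : IsPreconnected (ball x r ∩ ball x' r) :=
      ((convex_ball x r).inter (convex_ball x' r)).isPreconnected
    have hxx' : dist x x' < r := by
      have := dist_triangle x y x'
      rw [dist_comm x y] at this
      linarith
    have h1 : x' ∈ ball x r := by rw [mem_ball, dist_comm]; exact hxx'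
    have h2 : σ x x' = σ x' x' := by
      rw [← hcoin0 x hx x' ⟨h1, hx'⟩, hσ1 x']
    refine TL.eqOn hA continuous_id (isOpen_ball.inter isOpen_ball) hconv
      ((hσ2 x).mono inter_subset_left) ((hσ2 x').mono inter_subset_right)
      ⟨h1, mem_ball_self hr0⟩ h2 y ⟨?_, ?_⟩
    · exact mem_ball.2 (by linarith)
    · exact mem_ball.2 (by linarith)
  have hnear : ∀ y ∈ ball (0 : E) (ρ + r / 2), ∃ x ∈ ball (0 : E) ρ, dist y x < r / 2 := by
    intro y hy
    have h := thickening_ball (half_pos hr0) hρ (0 : E)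
    rw [add_comm] at hy
    rw [← h] at hy
    exact (mem_thickening_iff.1 hy)
  choose! p hp1 hp2 using hnear
  refine ⟨fun y => σ (p y) y, ?_, ?_⟩
  · have h0 : (0 : E) ∈ ball (0 : E) (ρ + r / 2) := mem_ball_self (by linarith)
    have h0' : (0 : E) ∈ ball (0 : E) ρ := mem_ball_self hρ
    have h1 := hp1 0 h0
    have h2 := hp2 0 h0
    exact (hcoin0 (p 0) h1 0 ⟨mem_ball.2 (by linarith), h0'⟩).symm
  · intro y hy
    have h1 := hp1 y hy
    have h2 := hp2 y hy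
    have hyb : y ∈ ball (p y) r := mem_ball.2 (by linarith)
    obtain ⟨i, c, hc, hcy⟩ := hσ2 (p y) y hyb
    refine ⟨i, c, hc, ?_⟩
    have hev1 : ∀ᶠ z in 𝓝 y, z ∈ ball (0 : E) (ρ + r / 2) := isOpen_ball.mem_nhds hy
    have hev2 : ∀ᶠ z in 𝓝 y, z ∈ ball (p y) (r / 2) := isOpen_ball.mem_nhds (mem_ball.2 h2)
    filter_upwards [hcy, hev1, hev2] with z hz hz1 hz2
    rw [← hz]
    exact hcoin (p z) (hp1 z hz1) (p y) h1 z (hp2 z hz1) hz2

theorem exists_ball_section [T2Space A] (hA : TAtl φ) {r : ℝ} (hr0 : 0 < r)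
    (hr : ∀ a : A, ∃ i, a ∈ (φ i).source ∧ ball (φ i a) r ⊆ (φ i).target) (a₀ : A) (k : ℕ) :
    ∃ t : E → A, t 0 = a₀ ∧ TL φ id t (ball 0 (r + k * (r / 2))) := by
  induction k with
  | zero =>
    obtain ⟨s, h1, h2⟩ := exists_section hr hr0 a₀ (0 : E)
    exact ⟨s, h1, by simpa using h2⟩
  | succ k ih =>
    obtain ⟨s, h1, h2⟩ := ih
    obtain ⟨t, h3, h4⟩ := extend_step hA hr0 hr (ρ := r + k * (r / 2)) (by positivity) h2
    refine ⟨t, h3.trans h1, ?_⟩
    convert h4 using 2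
    push_cast
    ring

/-- The developing map. -/
theorem exists_global [CompactSpace A] [T2Space A] (hA : TAtl φ) (a₀ : A) :
    ∃ t : E → A, t 0 = a₀ ∧ TL φ id t univ := by
  obtain ⟨r, hr0, hr⟩ := exists_radius hA
  choose s hs1 hs2 using exists_ball_section hA hr0 hr a₀
  -- coincidence
  have hmono : ∀ {k l : ℕ}, k ≤ l → ball (0 : E) (r + k * (r / 2)) ⊆ ball 0 (r + l * (r / 2)) := by
    intro k l hkl
    apply ball_subset_ball
    have : (k : ℝ) ≤ l := by exact_mod_cast hkl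
    nlinarith
  have hcoin : ∀ k l : ℕ, k ≤ l → ∀ y ∈ ball (0 : E) (r + k * (r / 2)), s k y = s l y := by
    intro k l hkl
    refine TL.eqOn hA continuous_id isOpen_ball (isPreconnected_ball' _ _) (hs2 k)
      ((hs2 l).mono (hmono hkl)) (x := 0) (mem_ball_self (by positivity)) ?_
    rw [hs1, hs1]
  have hex : ∀ y : E, ∃ k : ℕ, y ∈ ball (0 : E) (r + k * (r / 2)) := by
    intro y
    obtain ⟨k, hk⟩ := exists_nat_gt (‖y‖ / (r / 2))
    refine ⟨k, ?_⟩
    rw [div_lt_iff₀ (half_pos hr0)] at hk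
    rw [mem_ball_zero_iff]
    linarith
  choose K hK using hex
  refine ⟨fun y => s (K y) y, hs1 _, ?_⟩
  intro y _
  obtain ⟨i, c, hc, hcy⟩ := hs2 (K y) y (hK y)
  refine ⟨i, c, hc, ?_⟩
  have hev : ∀ᶠ z in 𝓝 y, z ∈ ball (0 : E) (r + K y * (r / 2)) := isOpen_ball.mem_nhds (hK y)
  filter_upwards [hcy, hev] with z hz hz1
  rw [← hz]
  rcases le_total (K z) (K y) with h | h
  · exact hcoin _ _ h z (hK z)
  · exact (hcoin _ _ h z hz1).symm

section Global

variable {t : E → A}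

theorem TL.continuous (hD : Continuous D) (ht : TL φ D t univ) : Continuous t :=
  continuous_iff_continuousAt.2 fun x => ht.continuousAt hD (mem_univ x)

/-- translating the source -/
theorem TL.comp_add (ht : TL φ id t univ) (v : E) : TL φ id (fun y => t (y + v)) univ := by
  intro x _
  obtain ⟨i, c, hc, h⟩ := ht (x + v) (mem_univ _)
  refine ⟨i, v + c, by simpa [add_assoc] using hc, ?_⟩
  have hcont : ContinuousAt (fun y : E => y + v) x := by fun_prop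
  have := hcont.eventually h
  filter_upwards [this] with y hy
  simpa [add_assoc] using hy

theorem TL.periodic [T2Space A] (hA : TAtl φ) (ht : TL φ id t univ) {x x' : E}
    (h : t x = t x') (y : E) : t (y + (x' - x)) = t y := by
  have := TL.eqOn hA continuous_id isOpen_univ isPreconnected_univ (ht.comp_add (x' - x)) ht
    (mem_univ x) (by simp [h])
  exact this y (mem_univ y)

/-- The period group. -/
def periods (t : E → A) : AddSubgroup E where
  carrier := {v | ∀ y, t (y + v) = t y}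
  zero_mem' := by intro y; simp
  add_mem' := by
    intro a b ha hb y
    rw [← add_assoc, hb, ha]
  neg_mem' := by
    intro a ha y
    have := ha (y + -a)
    rw [← this]
    simp


theorem eq_iff_sub_mem [T2Space A] (hA : TAtl φ) (ht : TL φ id t univ) (x y : E) :
    t x = t y ↔ x - y ∈ periods t := by
  constructor
  · intro h z
    exact ht.periodic hA h.symm z
  · intro h
    have := h y
    simpa using this

/-- local injectivity at each point, and openness -/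
theorem TL.local_inj (ht : TL φ id t univ) (x : E) : ∃ δ > 0, InjOn t (ball x δ) := by
  obtain ⟨i, c, hc, h⟩ := ht x (mem_univ x)
  have hopen : ∀ᶠ y in 𝓝 x, y + c ∈ (φ i).target := by
    have : ContinuousAt (fun y : E => y + c) x := by fun_prop
    exact this.preimage_mem_nhds ((φ i).open_target.mem_nhds hc)
  obtain ⟨δ, hδ, hb⟩ := Metric.eventually_nhds_iff_ball.1 (h.and hopen)
  refine ⟨δ, hδ, ?_⟩
  intro y hy z hz hyz
  obtain ⟨e1, m1⟩ := hb y hy
  obtain ⟨e2, m2⟩ := hb z hz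
  rw [e1, e2] at hyz
  have := (φ i).symm.injOn (by simpa using m1) (by simpa using m2) hyz
  simpa using this

theorem TL.isOpenMap (ht : TL φ id t univ) : IsOpenMap t := by
  rw [isOpenMap_iff_nhds_le]
  intro x
  obtain ⟨i, c, hc, h⟩ := ht x (mem_univ x)
  have h1 : Filter.map t (𝓝 x) = Filter.map (fun y => (φ i).symm (y + c)) (𝓝 x) :=
    Filter.map_congr h
  have h2 : Filter.map (fun y : E => y + c) (𝓝 x) = 𝓝 (x + c) :=
    (Homeomorph.addRight c).map_nhds_eq x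
  have h3 : Filter.map (fun y => (φ i).symm (y + c)) (𝓝 x) = 𝓝 ((φ i).symm (x + c)) := by
    have : (fun y => (φ i).symm (y + c)) = (φ i).symm ∘ (fun y => y + c) := rfl
    rw [this, ← Filter.map_map, h2]
    exact (φ i).symm.map_nhds_eq (by simpa using hc)
  have h4 : t x = (φ i).symm (x + c) := h.self_of_nhds
  rw [h1, h3, h4]

/-- The developing map is onto. -/
theorem TL.surjective [CompactSpace A] [T2Space A] [PreconnectedSpace A] (hA : TAtl φ)
    (ht : TL φ id t univ) : Function.Surjective t := by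
  obtain ⟨r, hr0, hr⟩ := exists_radius hA
  have hopen : IsOpen (range t) := ht.isOpenMap.isOpen_range
  have hclosed : IsClosed (range t) := by
    rw [← closure_subset_iff_isClosed]
    intro a ha
    obtain ⟨i, hi, hb⟩ := hr a
    have hN : (φ i).source ∩ φ i ⁻¹' ball (φ i a) r ∈ 𝓝 a :=
      inter_mem ((φ i).open_source.mem_nhds hi)
        (((φ i).continuousAt hi).preimage_mem_nhds (ball_mem_nhds _ hr0))
    obtain ⟨b, ⟨hb1, hb2⟩, x, rfl⟩ := mem_closure_iff_nhds.1 ha _ hN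
    -- the section through `t x`
    let s : E → A := fun y => (φ i).symm (y + (φ i (t x) - x))
    have hs : TL φ id s (ball (x + (φ i a - φ i (t x))) r) := by
      intro y hy
      refine ⟨i, φ i (t x) - x, hb ?_, Eventually.of_forall fun z => rfl⟩
      simp only [id, mem_ball, dist_eq_norm] at hy ⊢
      convert hy using 2
      abel
    have hxm : x ∈ ball (x + (φ i a - φ i (t x))) r := by
      have : dist (φ i (t x)) (φ i a) < r := hb2
      rw [dist_eq_norm] at this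
      simp only [mem_ball, dist_eq_norm]
      convert this using 2
      abel
    have heq := TL.eqOn hA continuous_id isOpen_ball (isPreconnected_ball' _ _)
      (ht.mono (subset_univ _)) hs hxm (by simp [s, hb1])
    refine ⟨x + (φ i a - φ i (t x)), ?_⟩
    rw [heq _ (mem_ball_self hr0)]
    simp only [s]
    have : x + (φ i a - φ i (t x)) + (φ i (t x) - x) = φ i a := by abel
    rw [this, (φ i).left_inv hi]
  have : IsClopen (range t) := ⟨hclosed, hopen⟩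
  have huniv : range t = univ := this.eq_univ ⟨t 0, mem_range_self 0⟩
  exact range_eq_univ.1 huniv

theorem periods_discrete (ht : TL φ id t univ) :
    DiscreteTopology (periods t) := by
  obtain ⟨δ, hδ, hinj⟩ := ht.local_inj 0
  have : ∀ v ∈ periods t, ‖v‖ < δ → v = 0 := by
    intro v hv hvn
    have h1 : t v = t 0 := by simpa using hv 0
    exact hinj (mem_ball_zero_iff.2 hvn) (mem_ball_self hδ) h1
  rw [discreteTopology_iff_isOpen_singleton_zero]
  rw [Metric.isOpen_iff]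
  intro x hx
  rw [mem_singleton_iff] at hx
  subst hx
  refine ⟨δ, hδ, ?_⟩
  intro v hv
  rw [mem_singleton_iff]
  apply Subtype.ext
  apply this v v.2
  have : dist (v : E) ((0 : periods t) : E) < δ := hv
  simpa [dist_eq_norm] using this

/-- cocompactness -/
theorem exists_bounded [CompactSpace A] [T2Space A] [PreconnectedSpace A] (hA : TAtl φ)
    (ht : TL φ id t univ) : ∃ R : ℝ, 0 < R ∧ ∀ y : E, ∃ v ∈ periods t, ‖y - v‖ < R := by
  have hsurj := ht.surjective hA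
  have hcov : (univ : Set A) ⊆ ⋃ n : ℕ, t '' ball 0 (n : ℝ) := by
    intro a _
    obtain ⟨x, rfl⟩ := hsurj a
    obtain ⟨n, hn⟩ := exists_nat_gt ‖x‖
    exact mem_iUnion.2 ⟨n, x, mem_ball_zero_iff.2 hn, rfl⟩
  have hdir : Directed (· ⊆ ·) fun n : ℕ => t '' ball (0 : E) (n : ℝ) := by
    intro m n
    refine ⟨max m n, image_mono (ball_subset_ball ?_), image_mono (ball_subset_ball ?_)⟩
    · exact_mod_cast le_max_left m n
    · exact_mod_cast le_max_right m n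
  obtain ⟨n, hn⟩ := isCompact_univ.elim_directed_cover (fun n : ℕ => t '' ball (0 : E) (n : ℝ))
    (fun n => ht.isOpenMap _ isOpen_ball) hcov hdir
  refine ⟨(n : ℝ) + 1, by positivity, ?_⟩
  intro y
  obtain ⟨x, hx, hxy⟩ := hn (mem_univ (t y))
  refine ⟨y - x, (eq_iff_sub_mem hA ht y x).1 hxy.symm, ?_⟩
  rw [mem_ball_zero_iff] at hx
  have : y - (y - x) = x := by abel
  rw [this]
  linarith

theorem span_top_of_bounded [FiniteDimensional ℝ E] {L : Set E} {R : ℝ} (hR : 0 < R)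
    (h : ∀ y : E, ∃ v ∈ L, ‖y - v‖ < R) : Submodule.span ℝ L = ⊤ := by
  by_contra hne
  have hclosed : IsClosed ((Submodule.span ℝ L : Submodule ℝ E) : Set E) :=
    Submodule.closed_of_finiteDimensional _
  have hex : ∃ x, x ∉ Submodule.span ℝ L := by
    by_contra hcon
    push Not at hcon
    exact hne (Submodule.eq_top_iff'.2 hcon)
  obtain ⟨x₀, hx₀, hr⟩ := riesz_lemma hclosed hex (r := 1 / 2) (by norm_num)
  have hx0n : x₀ ≠ 0 := by
    rintro rfl
    exact hx₀ (Submodule.zero_mem _)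
  have hpos : 0 < ‖x₀‖ := norm_pos_iff.2 hx0n
  -- scale
  let c : ℝ := 2 * R / ‖x₀‖
  have hc : 0 < c := by positivity
  obtain ⟨v, hv, hvR⟩ := h (c • x₀)
  have hv' : c⁻¹ • v ∈ Submodule.span ℝ L := Submodule.smul_mem _ _ (Submodule.subset_span hv)
  have h1 := hr _ hv'
  have h2 : c • x₀ - v = c • (x₀ - c⁻¹ • v) := by
    rw [smul_sub, smul_smul, mul_inv_cancel₀ hc.ne', one_smul]
  rw [h2, norm_smul, Real.norm_eq_abs, abs_of_pos hc] at hvR
  have h3 : c * (1 / 2 * ‖x₀‖) ≤ c * ‖x₀ - c⁻¹ • v‖ := by gcongr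
  have h4 : c * (1 / 2 * ‖x₀‖) = R := by
    simp only [c]
    field_simp
  linarith

end Global

/-- `π : E → A` exhibits `A` as the torus `E / Λ`, compatibly with the translation atlas. -/
structure IsTorus (φ : ι → OpenPartialHomeomorph A E) (Λ : AddSubgroup E) (π : E → A) : Prop where
  tl : TL φ id π univ
  cont : Continuous π
  surj : Function.Surjective π
  cov : IsCoveringMap π
  quot : IsAddQuotientCoveringMap π Λ
  eq_iff : ∀ x y, π x = π y ↔ x - y ∈ Λ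
  disc : DiscreteTopology Λ
  span : Submodule.span ℝ (Λ : Set E) = ⊤
  bdd : ∃ R : ℝ, 0 < R ∧ ∀ y : E, ∃ v ∈ Λ, ‖y - v‖ < R

/-- **Translation theorem.** -/
theorem exists_torus [FiniteDimensional ℝ E] [CompactSpace A] [T2Space A] [PreconnectedSpace A]
    (hA : TAtl φ) (a₀ : A) : ∃ (Λ : AddSubgroup E) (π : E → A), π 0 = a₀ ∧ IsTorus φ Λ π := by
  obtain ⟨t, ht0, ht⟩ := exists_global hA a₀
  have hsurj := ht.surjective hA
  have hcont : Continuous t := ht.continuous continuous_id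
  have hdisc : DiscreteTopology (periods t) := periods_discrete ht
  have hopen := ht.isOpenMap
  obtain ⟨R, hR, hb⟩ := exists_bounded hA ht
  have hq : IsQuotientMap t := (hopen.isQuotientMap hcont hsurj)
  have hquot : IsAddQuotientCoveringMap t (periods t) := by
    refine hq.isAddQuotientCoveringMap_of_addSubgroup (periods t) ⟨hdisc⟩ ?_
    intro x y
    rw [eq_comm, eq_iff_sub_mem hA ht, sub_eq_add_neg]
  exact ⟨periods t, t, ht0, ht, hcont, hsurj, hquot.isCoveringMap, hquot,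
    eq_iff_sub_mem hA ht, hdisc, span_top_of_bounded hR hb, R, hR, hb⟩

namespace IsTorus

variable {Λ : AddSubgroup E} {π : E → A}

theorem add_mem (hT : IsTorus φ Λ π) {v : E} (hv : v ∈ Λ) (x : E) : π (x + v) = π x :=
  (hT.eq_iff _ _).2 (by simpa using hv)

theorem add_left (hT : IsTorus φ Λ π) {x y : E} (h : π x = π y) (v : E) : π (x + v) = π (y + v) := by
  rw [hT.eq_iff] at h ⊢
  convert h using 1
  abel

theorem isOpenMap (hT : IsTorus φ Λ π) : IsOpenMap π := hT.tl.isOpenMap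


/-- charts composed with `π` are locally translations (any chart) -/
theorem chart_comp (hA : TAtl φ) (hT : IsTorus φ Λ π) (x : E) (i : ι) (hi : π x ∈ (φ i).source) :
    ∃ c : E, x + c ∈ (φ i).target ∧ (∀ᶠ y in 𝓝 x, π y ∈ (φ i).source) ∧
      (∀ᶠ y in 𝓝 x, φ i (π y) = y + c) ∧ ∀ᶠ y in 𝓝 x, π y = (φ i).symm (y + c) := by
  obtain ⟨j, c, hc, h⟩ := hT.tl x (mem_univ x)
  have e0 : π x = (φ j).symm (x + c) := h.self_of_nhds
  have hxj : π x ∈ (φ j).source := by rw [e0]; exact (φ j).map_target hc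
  obtain ⟨d, hd⟩ := hA.trans j i (π x) hxj hi
  have h1 : ∀ᶠ y in 𝓝 x, φ i (π y) = φ j (π y) + d := hT.cont.continuousAt.eventually hd
  have hopen : ∀ᶠ y in 𝓝 x, y + c ∈ (φ j).target := by
    have : ContinuousAt (fun y : E => y + c) x := by fun_prop
    exact this.preimage_mem_nhds ((φ j).open_target.mem_nhds hc)
  have h2 : ∀ᶠ y in 𝓝 x, φ i (π y) = y + (c + d) := by
    filter_upwards [h1, h, hopen] with y hy1 hy2 hy3
    rw [hy1, hy2, id, (φ j).right_inv hy3, add_assoc]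
  have h3 : ∀ᶠ y in 𝓝 x, π y ∈ (φ i).source :=
    hT.cont.continuousAt.preimage_mem_nhds ((φ i).open_source.mem_nhds hi)
  refine ⟨c + d, ?_, h3, h2, ?_⟩
  · rw [← h2.self_of_nhds]
    exact (φ i).map_source hi
  · filter_upwards [h2, h3] with y hy1 hy2
    rw [← hy1, (φ i).left_inv hy2]

/-- **Developing a family**: if `u` is, locally, the chart of `γ` up to a constant, then
`γ = π (u - u τ₀ + w₀)`. -/
theorem develop [T2Space A] (hA : TAtl φ) (hT : IsTorus φ Λ π) {T : Type*} [TopologicalSpace T]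
    [PreconnectedSpace T] {γ : T → A} (hγ : Continuous γ) {u : T → E} (hu : Continuous u)
    (h : ∀ τ, ∃ i, ∃ c : E, γ τ ∈ (φ i).source ∧ ∀ᶠ s in 𝓝 τ, u s = φ i (γ s) + c)
    (τ₀ : T) {w₀ : E} (hw : π w₀ = γ τ₀) : ∀ τ, γ τ = π (u τ - u τ₀ + w₀) := by
  let f : T → A := fun τ => π (u τ - u τ₀ + w₀)
  have hf : Continuous f := hT.cont.comp ((hu.sub continuous_const).add continuous_const)
  have hcl : IsClosed {τ | γ τ = f τ} := isClosed_eq hγ hf
  have hop : IsOpen {τ | γ τ = f τ} := by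
    rw [isOpen_iff_mem_nhds]
    intro τ hτ
    have hτ' : γ τ = f τ := hτ
    obtain ⟨i, c, hi, hc⟩ := h τ
    have hfi : π (u τ - u τ₀ + w₀) ∈ (φ i).source := by
      have : π (u τ - u τ₀ + w₀) = f τ := rfl
      rw [this, ← hτ']; exact hi
    obtain ⟨d, hd1, hd2, hd3, hd4⟩ := hT.chart_comp hA (u τ - u τ₀ + w₀) i hfi
    have hcu : ContinuousAt (fun s => u s - u τ₀ + w₀) τ :=
      ((hu.sub continuous_const).add continuous_const).continuousAt
    have h2 := hcu.eventually hd2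
    have h3 := hcu.eventually hd3
    have h4 : ∀ᶠ s in 𝓝 τ, γ s ∈ (φ i).source :=
      hγ.continuousAt.preimage_mem_nhds ((φ i).open_source.mem_nhds hi)
    have e1 : φ i (γ τ) = u τ - c := by rw [hc.self_of_nhds]; abel
    have e2 : φ i (f τ) = u τ - u τ₀ + w₀ + d := h3.self_of_nhds
    have e3 : u τ - c = u τ - u τ₀ + w₀ + d := by rw [← e1, ← e2, hτ']
    filter_upwards [hc, h2, h3, h4] with s s1 s2 s3 s4
    show γ s = f s
    apply (φ i).injOn s4 s2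
    have : φ i (γ s) = u s - c := by rw [s1]; abel
    rw [this]
    have e4 : φ i (f s) = u s - u τ₀ + w₀ + d := s3
    show u s - c = φ i (f s)
    rw [e4]
    have e5 : u s - c = (u s - u τ) + (u τ - c) := by abel
    rw [e5, e3]
    abel
  have : IsClopen {τ | γ τ = f τ} := ⟨hcl, hop⟩
  have huniv := this.eq_univ ⟨τ₀, by show γ τ₀ = f τ₀; simp [f, hw]⟩
  intro τ
  have : τ ∈ {τ | γ τ = f τ} := by rw [huniv]; exact mem_univ τ
  exact this


/-- **Endomorphisms**: a continuous self map with constant derivative `D` in the charts. -/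
theorem endo [T2Space A] (hA : TAtl φ) (hT : IsTorus φ Λ π) {g : A → A} (hg : Continuous g)
    (D : E →L[ℝ] E)
    (hloc : ∀ a, ∃ i j, ∃ c : E, a ∈ (φ i).source ∧ g a ∈ (φ j).source ∧
      ∀ᶠ x in 𝓝 a, φ j (g x) = D (φ i x) + c) :
    ∃ w₀ : E, (∀ y, g (π y) = π (D y + w₀)) ∧ ∀ v ∈ Λ, D v ∈ Λ := by
  obtain ⟨w₀, hw⟩ := hT.surj (g (π 0))
  have h1 : ∀ y, g (π y) = π (D y + w₀) := by
    have := hT.develop hA (T := E) (γ := fun y => g (π y)) (hg.comp hT.cont) (u := fun y => D y)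
      D.continuous ?_ (0 : E) (w₀ := w₀) hw
    · intro y
      simpa using this y
    · intro y
      obtain ⟨i, j, c, hi, hj, hc⟩ := hloc (π y)
      obtain ⟨d, hd1, hd2, hd3, hd4⟩ := hT.chart_comp hA y i hi
      refine ⟨j, -(D d + c), hj, ?_⟩
      have := hT.cont.continuousAt.eventually hc
      filter_upwards [this, hd3] with s s1 s2
      rw [s1, s2, map_add]
      abel
  refine ⟨w₀, h1, ?_⟩
  intro v hv
  have h2 := h1 (0 + v)
  rw [hT.add_mem hv 0, h1 0, eq_comm, hT.eq_iff] at h2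
  simpa using h2

end IsTorus

end Crest.Agent.R272.Tr1_956
end

-- ▼ part R272/AJh_956
section

/-!
# Row 272, A-AJ: **(K2)** `exists_jac` (helper956)
-/

set_option autoImplicit false
set_option linter.unusedSectionVars false
set_option linter.unusedVariables false

open Set Filter Topology Metric Complex
open Crest.Agent.R272.AJ_956 Crest.Agent.R272.AJa_956 Crest.Agent.R272.AJb_956
open Crest.Agent.R272.AJc_956 Crest.Agent.R272.AJd_956 Crest.Agent.R272.AJd_956.Basic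
open Crest.Agent.R272.AJe_956 Crest.Agent.R272.AJf_956 Crest.Agent.R272.AJg_956
open Crest.Agent.R272.Tr1_956

noncomputable section

namespace Crest.Agent.R272.AJh_956

variable {C : Type} [TopologicalSpace C] (𝒞 : Cur C) {A : Type} [TopologicalSpace A]

/-- chart data on the quotient -/
structure CD (q : C × C → A) (N : Set (C × C)) (f : C × C → E2) : Prop where
  open_N : IsOpen N
  sat : ∀ y ∈ N, ∀ y', q y' = q y → y' ∈ N
  lp : 𝒞.LP f N
  iff : ∀ y ∈ N, ∀ y' ∈ N, (f y = f y' ↔ q y = q y')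
  sm : ∀ g ∈ 𝒞.Gam, g ∈ N → ∀ O, IsOpen O → 𝒞.Gam ⊆ O → f '' (N ∩ O) ∈ 𝓝 (f g)

variable {𝒞} {q : C × C → A}

theorem IsQ.swap (hq : 𝒞.IsQ q) (x : C × C) : q x.swap = q x :=
  ((hq.fib x x.swap).2 (Or.inr (Or.inl rfl))).symm

theorem IsQ.gam (hq : 𝒞.IsQ q) {x x' : C × C} (hx : x ∈ 𝒞.Gam) (hx' : x' ∈ 𝒞.Gam) : q x = q x' :=
  (hq.fib x x').2 (Or.inr (Or.inr ⟨hx, hx'⟩))

theorem IsQ.closedMap [CompactSpace C] [T2Space A] (hq : 𝒞.IsQ q) : IsClosedMap q :=
  hq.cont.isClosedMap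

theorem IsQ.nhds_fiber [CompactSpace C] [T2Space A] (hq : 𝒞.IsQ q) {p : C × C → Prop} (a : A)
    (H : ∀ x, q x = a → ∀ᶠ y in 𝓝 x, p y) : ∀ᶠ b in 𝓝 a, ∀ x, q x = b → p x := by
  have := (IsQ.closedMap hq).eventually_nhds_fiber (p := p) a (fun x hx => H x hx)
  exact this

namespace CD

variable {N : Set (C × C)} {f : C × C → E2}

theorem open_image (h : CD 𝒞 q N f) {O : Set (C × C)} (hO : IsOpen O) (hON : O ⊆ N)
    (hq : 𝒞.IsQ q) (hsat : ∀ y ∈ O, ∀ y', q y' = q y → y' ∈ O) : IsOpen (f '' O) := by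
  rw [isOpen_iff_mem_nhds]
  rintro _ ⟨y, hy, rfl⟩
  by_cases hyG : y ∈ 𝒞.Gam
  · have hGO : 𝒞.Gam ⊆ O := fun g hg => hsat y hy g (IsQ.gam hq hg hyG)
    have := h.sm y hyG (hON hy) O hO hGO
    rwa [inter_eq_self_of_subset_right hON] at this
  · rw [← LP.map_nhds 𝒞 h.lp (hON hy) hyG]
    exact Filter.image_mem_map (hO.mem_nhds hy)

open Classical in
/-- the chart -/
def chart [CompactSpace C] [T2Space A] (hq : 𝒞.IsQ q) (a₀ : A) (h : CD 𝒞 q N f) :
    OpenPartialHomeomorph A E2 where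
  toFun a := f (Function.surjInv hq.surj a)
  invFun v := if hv : ∃ y ∈ N, f y = v then q hv.choose else a₀
  source := q '' N
  target := f '' N
  map_source' := by
    rintro _ ⟨y, hy, rfl⟩
    exact ⟨_, h.sat y hy _ (Function.surjInv_eq hq.surj (q y)), rfl⟩
  map_target' := by
    rintro _ ⟨y, hy, rfl⟩
    have hv : ∃ y' ∈ N, f y' = f y := ⟨y, hy, rfl⟩
    rw [dif_pos hv]
    exact ⟨_, hv.choose_spec.1, rfl⟩
  left_inv' := by
    rintro _ ⟨y, hy, rfl⟩
    have h1 : Function.surjInv hq.surj (q y) ∈ N :=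
      h.sat y hy _ (Function.surjInv_eq hq.surj (q y))
    have hv : ∃ y' ∈ N, f y' = f (Function.surjInv hq.surj (q y)) := ⟨_, h1, rfl⟩
    rw [dif_pos hv]
    have h2 := (h.iff _ hv.choose_spec.1 _ h1).1 hv.choose_spec.2
    rw [h2, Function.surjInv_eq hq.surj]
  right_inv' := by
    rintro _ ⟨y, hy, rfl⟩
    have hv : ∃ y' ∈ N, f y' = f y := ⟨y, hy, rfl⟩
    rw [dif_pos hv]
    have h1 : Function.surjInv hq.surj (q hv.choose) ∈ N :=
      h.sat _ hv.choose_spec.1 _ (Function.surjInv_eq hq.surj _)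
    have h2 := (h.iff _ h1 _ hv.choose_spec.1).2 (Function.surjInv_eq hq.surj _)
    rw [h2, hv.choose_spec.2]
  open_source := by
    rw [isOpen_iff_mem_nhds]
    rintro _ ⟨y, hy, rfl⟩
    have h1 : ∀ᶠ b in 𝓝 (q y), ∀ x, q x = b → x ∈ N :=
      IsQ.nhds_fiber hq (q y) fun x hx => h.open_N.mem_nhds (h.sat y hy x hx)
    filter_upwards [h1] with b hb
    obtain ⟨x, rfl⟩ := hq.surj b
    exact ⟨x, hb x rfl, rfl⟩
  open_target := h.open_image h.open_N Subset.rfl hq h.sat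
  continuousOn_toFun := by
    rintro _ ⟨y, hy, rfl⟩
    apply ContinuousAt.continuousWithinAt
    have hr : Function.surjInv hq.surj (q y) ∈ N :=
      h.sat y hy _ (Function.surjInv_eq hq.surj (q y))
    intro W hW
    have h1 : ∀ᶠ b in 𝓝 (q y), ∀ x, q x = b → f x ∈ W := by
      refine IsQ.nhds_fiber hq (q y) fun x hx => ?_
      have hxN : x ∈ N := h.sat y hy x hx
      have hfx : f x = f (Function.surjInv hq.surj (q y)) :=
        (h.iff x hxN _ hr).2 (by rw [hx, Function.surjInv_eq hq.surj])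
      have := (LP.continuousAt 𝒞 h.lp hxN)
      apply this
      rw [hfx]
      exact hW
    rw [Filter.mem_map]
    filter_upwards [h1] with b hb
    exact hb _ (Function.surjInv_eq hq.surj b)
  continuousOn_invFun := by
    rintro _ ⟨y, hy, rfl⟩
    apply ContinuousAt.continuousWithinAt
    have hv : ∃ y' ∈ N, f y' = f y := ⟨y, hy, rfl⟩
    intro B hB
    have hB' : B ∈ 𝓝 (q y) := by
      have hB : B ∈ 𝓝 (if hv : ∃ y' ∈ N, f y' = f y then q hv.choose else a₀) := hB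
      rw [dif_pos hv] at hB
      rwa [(h.iff _ hv.choose_spec.1 _ hy).1 hv.choose_spec.2] at hB
    -- a saturated open set
    let O : Set (C × C) := N ∩ q ⁻¹' (interior B)
    have hO : IsOpen O := h.open_N.inter (isOpen_interior.preimage hq.cont)
    have hsat : ∀ z ∈ O, ∀ z', q z' = q z → z' ∈ O := by
      rintro z ⟨h1, h2⟩ z' hz
      refine ⟨h.sat z h1 z' hz, ?_⟩
      show q z' ∈ interior B
      rw [hz]; exact h2
    have hfO : IsOpen (f '' O) := h.open_image hO inter_subset_left hq hsat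
    have hyO : y ∈ O := ⟨hy, mem_interior_iff_mem_nhds.2 hB'⟩
    rw [Filter.mem_map]
    refine Filter.mem_of_superset (hfO.mem_nhds ⟨y, hyO, rfl⟩) ?_
    rintro _ ⟨z, hz, rfl⟩
    have hv' : ∃ y' ∈ N, f y' = f z := ⟨z, hz.1, rfl⟩
    show (if hv : ∃ y ∈ N, f y = f z then q hv.choose else a₀) ∈ B
    rw [dif_pos hv', (h.iff _ hv'.choose_spec.1 _ hz.1).1 hv'.choose_spec.2]
    exact interior_subset hz.2


theorem chart_apply [CompactSpace C] [T2Space A] (hq : 𝒞.IsQ q) (a₀ : A) (h : CD 𝒞 q N f)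
    {y : C × C} (hy : y ∈ N) : h.chart hq a₀ (q y) = f y := by
  have h1 : Function.surjInv hq.surj (q y) ∈ N :=
    h.sat y hy _ (Function.surjInv_eq hq.surj (q y))
  exact (h.iff _ h1 _ hy).2 (Function.surjInv_eq hq.surj _)

/-- transitions are translations -/
theorem trans [CompactSpace C] [T2Space A] (hq : 𝒞.IsQ q) (a₀ : A) {N' : Set (C × C)}
    {f' : C × C → E2} (h : CD 𝒞 q N f) (h' : CD 𝒞 q N' f') (a : A) (ha : a ∈ q '' N)
    (ha' : a ∈ q '' N') :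
    ∃ c : E2, ∀ᶠ b in 𝓝 a, h'.chart hq a₀ b = h.chart hq a₀ b + c := by
  obtain ⟨y, hy, rfl⟩ := ha
  obtain ⟨y', hy', he⟩ := ha'
  have hyN' : y ∈ N' := h'.sat y' hy' y he.symm
  refine ⟨f' y - f y, ?_⟩
  have h1 : ∀ᶠ b in 𝓝 (q y), ∀ x, q x = b → (x ∈ N ∧ x ∈ N' ∧ f' x = f x + (f' y - f y)) := by
    refine IsQ.nhds_fiber hq (q y) fun x hx => ?_
    have hxN : x ∈ N := h.sat y hy x hx
    have hxN' : x ∈ N' := h'.sat y hyN' x hx
    have e1 : f x = f y := (h.iff x hxN y hy).2 hx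
    have e2 : f' x = f' y := (h'.iff x hxN' y hyN').2 hx
    filter_upwards [h.open_N.mem_nhds hxN, h'.open_N.mem_nhds hxN', h.lp x hxN, h'.lp x hxN'] with
      z z1 z2 z3 z4
    refine ⟨z1, z2, ?_⟩
    rw [z3, z4, e1, e2]
    abel
  filter_upwards [h1] with b hb
  obtain ⟨x, rfl⟩ := hq.surj b
  obtain ⟨x1, x2, x3⟩ := hb x rfl
  rw [h.chart_apply hq a₀ x1, h'.chart_apply hq a₀ x2, x3]

end CD

/-- chart data at a point off `Γ` -/
theorem exists_CD_off [T2Space C] (hq : 𝒞.IsQ q) (x : C × C) (hx : x ∉ 𝒞.Gam) :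
    ∃ N f, CD 𝒞 q N f ∧ x ∈ N := by
  classical
  let W : Set (C × C) := {y | y.1 ∈ (𝒞.k x.1).source ∧ y.2 ∈ (𝒞.k x.2).source}
  have hW : IsOpen W := by
    apply IsOpen.and
    · exact (𝒞.k x.1).open_source.preimage continuous_fst
    · exact (𝒞.k x.2).open_source.preimage continuous_snd
  have hxW : x ∈ W := ⟨𝒞.k_mem _, 𝒞.k_mem _⟩
  have hlpW : ∀ y ∈ W, ∀ᶠ z in 𝓝 y, S 𝒞 x z = S 𝒞 x y + S 𝒞 y z := by
    rintro y ⟨hy1, hy2⟩
    have h1 := (continuous_fst.tendsto y).eventually (P_change 𝒞 x.1 y.1 hy1)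
    have h2 := (continuous_snd.tendsto y).eventually (P_change 𝒞 x.2 y.2 hy2)
    filter_upwards [h1, h2] with z h3 h4
    simp only [S]
    rw [h3, h4]
    abel
  obtain ⟨O, hO, hinj⟩ := inj_S 𝒞 x hx
  have hGc : IsOpen (𝒞.Gamᶜ) := (isClosed_Gam 𝒞).isOpen_compl
  have hfib : ∀ y, y ∉ 𝒞.Gam → ∀ y', q y' = q y → y' = y ∨ y' = y.swap := by
    intro y hy y' h
    rcases (hq.fib y y').1 h.symm with h1 | h1 | h1
    · exact Or.inl h1
    · exact Or.inr h1
    · exact absurd h1.1 hy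
  have hsG : ∀ y, y ∉ 𝒞.Gam → y.swap ∉ 𝒞.Gam := by
    intro y hy h
    apply hy
    have := swap_mem_Gam 𝒞 h
    rwa [Prod.swap_swap] at this
  by_cases hd : x.2 = x.1
  · -- diagonal
    let O₁ : Set (C × C) := interior O ∩ W ∩ 𝒞.Gamᶜ
    have hO₁ : IsOpen O₁ := (isOpen_interior.inter hW).inter hGc
    have hxO₁ : x ∈ O₁ := ⟨⟨mem_interior_iff_mem_nhds.2 hO, hxW⟩, hx⟩
    have hxs : x.swap = x := Prod.ext hd hd.symm
    have hSs : ∀ y, S 𝒞 x y.swap = S 𝒞 x y := by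
      intro y
      have := S_swap 𝒞 x y
      rwa [hxs] at this
    let N : Set (C × C) := O₁ ∩ Prod.swap ⁻¹' O₁
    have hNG : ∀ y ∈ N, y ∉ 𝒞.Gam := fun y hy => hy.1.2
    refine ⟨N, S 𝒞 x, ⟨hO₁.inter (hO₁.preimage continuous_swap), ?_, ?_, ?_, ?_⟩, hxO₁, ?_⟩
    · intro y hy y' h
      rcases hfib y (hNG y hy) y' h with rfl | rfl
      · exact hy
      · refine ⟨hy.2, ?_⟩
        show y.swap.swap ∈ O₁
        rw [Prod.swap_swap]; exact hy.1
    · intro y hy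
      exact hlpW y hy.1.1.2
    · intro y hy y' hy'
      constructor
      · intro h
        rcases hinj y (interior_subset hy.1.1.1) y' (interior_subset hy'.1.1.1) h with rfl | ⟨rfl, -⟩
        · rfl
        · exact (IsQ.swap hq y).symm
      · intro h
        rcases hfib y' (hNG y' hy') y h with rfl | rfl
        · rfl
        · exact hSs y'
    · intro g hg hgN
      exact absurd hg (hNG g hgN)
    · show x.swap ∈ O₁
      rw [hxs]; exact hxO₁
  · -- off the diagonal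
    obtain ⟨Oa, Ob, hOa, hOb, haO, hbO, hab⟩ := t2_separation (Ne.symm hd : x.1 ≠ x.2)
    let D : Set (C × C) := {y | y.1 ∈ Oa ∧ y.2 ∈ Ob}
    have hD : IsOpen D := by
      apply IsOpen.and
      · exact hOa.preimage continuous_fst
      · exact hOb.preimage continuous_snd
    let O₁ : Set (C × C) := interior O ∩ W ∩ 𝒞.Gamᶜ ∩ D
    have hO₁ : IsOpen O₁ := ((isOpen_interior.inter hW).inter hGc).inter hD
    have hxO₁ : x ∈ O₁ := ⟨⟨⟨mem_interior_iff_mem_nhds.2 hO, hxW⟩, hx⟩, haO, hbO⟩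
    have hdis : ∀ y ∈ O₁, y.swap ∉ O₁ := by
      intro y hy hy'
      exact Set.disjoint_left.1 hab hy.2.1 hy'.2.2
    let N : Set (C × C) := O₁ ∪ Prod.swap ⁻¹' O₁
    have hNG : ∀ y ∈ N, y ∉ 𝒞.Gam := by
      rintro y (hy | hy)
      · exact hy.1.2
      · have := hsG _ hy.1.2
        rwa [Prod.swap_swap] at this
    -- the representative in `O₁`
    let r : C × C → C × C := fun y => if y ∈ O₁ then y else y.swap
    have hr : ∀ y ∈ N, r y ∈ O₁ := by
      intro y hy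
      by_cases h : y ∈ O₁
      · simp only [r, if_pos h]; exact h
      · simp only [r, if_neg h]
        exact hy.resolve_left h
    have hrq : ∀ y, q (r y) = q y := by
      intro y
      by_cases h : y ∈ O₁
      · simp only [r, if_pos h]
      · simp only [r, if_neg h]
        exact IsQ.swap hq y
    have hrs : ∀ y ∈ N, r y.swap = r y := by
      rintro y (hy | hy)
      · have h1 : y.swap ∉ O₁ := hdis y hy
        simp only [r, if_pos hy, if_neg h1, Prod.swap_swap]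
      · have hy : y.swap ∈ O₁ := hy
        have h1 : y ∉ O₁ := by
          have := hdis _ hy
          rwa [Prod.swap_swap] at this
        simp only [r, if_pos hy, if_neg h1]
    refine ⟨N, fun y => S 𝒞 x (r y), ⟨hO₁.union (hO₁.preimage continuous_swap), ?_, ?_, ?_, ?_⟩,
      Or.inl hxO₁⟩
    · intro y hy y' h
      rcases hfib y (hNG y hy) y' h with rfl | rfl
      · exact hy
      · rcases hy with hy | hy
        · right
          show y.swap.swap ∈ O₁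
          rw [Prod.swap_swap]; exact hy
        · exact Or.inl hy
    · rintro y (hy | hy)
      · have h1 : r y = y := by simp only [r, if_pos hy]
        filter_upwards [hO₁.mem_nhds hy, hlpW y hy.1.1.2] with z hz1 hz2
        have h2 : r z = z := by simp only [r, if_pos hz1]
        show S 𝒞 x (r z) = S 𝒞 x (r y) + _
        rw [h1, h2, hz2]
        rfl
      · have hy : y.swap ∈ O₁ := hy
        have h1 : r y = y.swap := by
          have h1 : y ∉ O₁ := by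
            have := hdis _ hy
            rwa [Prod.swap_swap] at this
          simp only [r, if_neg h1]
        have e1 : ∀ᶠ z in 𝓝 y, z.swap ∈ O₁ :=
          (continuous_swap.tendsto y).eventually (hO₁.mem_nhds hy)
        have e2 : ∀ᶠ z in 𝓝 y, S 𝒞 x z.swap = S 𝒞 x y.swap + S 𝒞 y.swap z.swap :=
          (continuous_swap.tendsto y).eventually (hlpW y.swap hy.1.1.2)
        filter_upwards [e1, e2] with z hz1 hz2
        have h2 : r z = z.swap := by
          have h1 : z ∉ O₁ := by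
            have := hdis _ hz1
            rwa [Prod.swap_swap] at this
          simp only [r, if_neg h1]
        show S 𝒞 x (r z) = S 𝒞 x (r y) + S 𝒞 y z
        rw [h1, h2, hz2, S_swap]
    · intro y hy y' hy'
      constructor
      · intro h
        rcases hinj _ (interior_subset (hr y hy).1.1.1) _ (interior_subset (hr y' hy').1.1.1) h with
          h1 | ⟨-, h1⟩
        · rw [← hrq y, ← hrq y', h1]
        · exact absurd h1 hd
      · intro h
        rcases hfib y' (hNG y' hy') y h with rfl | rfl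
        · rfl
        · show S 𝒞 x (r y'.swap) = S 𝒞 x (r y')
          rw [hrs y' hy']
    · intro g hg hgN
      exact absurd hg (hNG g hgN)

/-- chart data at `o` -/
theorem CD_of_nearE (hq : 𝒞.IsQ q) {N : Set (C × C)} {U : C × C → E2} (h : 𝒞.NearE N U) :
    CD 𝒞 q N U := by
  refine ⟨h.open_N, ?_, h.lp, ?_, ?_⟩
  · intro y hy y' hq'
    rcases (hq.fib y y').1 hq'.symm with rfl | rfl | ⟨-, h2⟩
    · exact hy
    · exact h.swap_N y hy
    · exact h.sub h2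
  · intro y hy y' hy'
    constructor
    · intro he
      by_cases h0 : U y = 0
      · have h0' : U y' = 0 := by rw [← he]; exact h0
        exact IsQ.gam hq ((h.zero y hy).1 h0) ((h.zero y' hy').1 h0')
      · rcases h.inj y hy y' hy' he h0 with rfl | rfl
        · rfl
        · exact (IsQ.swap hq y).symm
    · intro he
      rcases (hq.fib y y').1 he with rfl | rfl | ⟨h1, h2⟩
      · rfl
      · exact (h.swap y hy).symm
      · rw [(h.zero y hy).2 h1, (h.zero y' hy').2 h2]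
  · intro g hg hgN O hO hGO
    obtain ⟨δ, hδ, -, hb⟩ := h.small O hO hGO
    rw [(h.zero g hgN).2 hg]
    exact Filter.mem_of_superset (ball_mem_nhds 0 hδ) hb

variable (𝒞 q) in
/-- index type of the translation atlas -/
def Idx : Type := {p : Set (C × C) × (C × C → E2) // CD 𝒞 q p.1 p.2}

/-- the translation atlas of `A` -/
def atl [CompactSpace C] [T2Space A] (hq : 𝒞.IsQ q) (a₀ : A) (i : Idx 𝒞 q) :
    OpenPartialHomeomorph A E2 := i.2.chart hq a₀

theorem isTAtl [CompactSpace C] [T2Space C] [Nonempty C] [T2Space A] (hq : 𝒞.IsQ q) (a₀ : A) :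
    TAtl (atl hq a₀) := by
  constructor
  · intro a
    obtain ⟨x, rfl⟩ := hq.surj a
    by_cases hx : x ∈ 𝒞.Gam
    · obtain ⟨N, U, hNU⟩ := exists_nearE 𝒞
      exact ⟨⟨(N, U), CD_of_nearE hq hNU⟩, x, hNU.sub hx, rfl⟩
    · obtain ⟨N, f, hNf, hxN⟩ := exists_CD_off hq x hx
      exact ⟨⟨(N, f), hNf⟩, x, hxN, rfl⟩
  · intro i j a hi hj
    exact CD.trans hq a₀ i.2 j.2 a hi hj

/-- every point of `C × C` lies in some chart datum -/
theorem exists_CD [CompactSpace C] [T2Space C] [Nonempty C] (hq : 𝒞.IsQ q) (x : C × C) :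
    ∃ N f, CD 𝒞 q N f ∧ x ∈ N := by
  by_cases hx : x ∈ 𝒞.Gam
  · obtain ⟨N, U, hNU⟩ := exists_nearE 𝒞
    exact ⟨N, U, CD_of_nearE hq hNU, hNU.sub hx⟩
  · exact exists_CD_off hq x hx

theorem compactSpace_of [CompactSpace C] (hq : 𝒞.IsQ q) : CompactSpace A :=
  ⟨by rw [← hq.surj.range_eq]; exact isCompact_range hq.cont⟩

theorem preconnectedSpace_of [ConnectedSpace C] (hq : 𝒞.IsQ q) : PreconnectedSpace A :=
  ⟨by rw [← hq.surj.range_eq]; exact isPreconnected_range hq.cont⟩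

/-- **(K2), torus form** -/
theorem exists_jac' [CompactSpace C] [T2Space C] [ConnectedSpace C] [T2Space A] (hq : 𝒞.IsQ q) :
    ∃ (a₀ : A) (Λ : AddSubgroup E2) (π : E2 → A), IsTorus (atl hq a₀) Λ π ∧ 𝒞.IsJac q Λ π := by
  have := compactSpace_of hq
  have := preconnectedSpace_of hq
  obtain ⟨c₀⟩ := (inferInstance : Nonempty C)
  obtain ⟨Λ, π, hπ0, hT⟩ := exists_torus (isTAtl hq (q (c₀, 𝒞.iv c₀))) (q (c₀, 𝒞.iv c₀))
  have hloc : ∀ (x : C × C) (z₀ : E2), π z₀ = q x →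
      ∀ᶠ y in 𝓝 x, q y = π (z₀ + (𝒞.P x.1 y.1 + 𝒞.P x.2 y.2)) := by
    intro x z₀ hz
    obtain ⟨N, f, hNf, hxN⟩ := exists_CD hq x
    let i : Idx 𝒞 q := ⟨(N, f), hNf⟩
    have hi : π z₀ ∈ (atl hq (q (c₀, 𝒞.iv c₀)) i).source := by
      rw [hz]; exact ⟨x, hxN, rfl⟩
    obtain ⟨d, hd1, hd2, hd3, hd4⟩ := hT.chart_comp (isTAtl hq (q (c₀, 𝒞.iv c₀))) z₀ i hi
    have e0 : f x = z₀ + d := by
      have h1 := hd3.self_of_nhds
      rw [hz] at h1
      have h2 : atl hq (q (c₀, 𝒞.iv c₀)) i (q x) = f x := hNf.chart_apply hq _ hxN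
      rw [← h2, h1]
    have t : Tendsto (fun y => z₀ + S 𝒞 x y) (𝓝 x) (𝓝 z₀) := by
      have := tendsto_const_nhds (x := z₀) (f := 𝓝 x) |>.add (S_tendsto 𝒞 x)
      rwa [add_zero] at this
    filter_upwards [hNf.open_N.mem_nhds hxN, hNf.lp x hxN, t.eventually hd2, t.eventually hd3]
      with y y1 y2 y3 y4
    show q y = π (z₀ + S 𝒞 x y)
    have hqy : q y ∈ (atl hq (q (c₀, 𝒞.iv c₀)) i).source := ⟨y, y1, rfl⟩
    apply (atl hq (q (c₀, 𝒞.iv c₀)) i).injOn hqy y3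
    rw [y4]
    have h2 : atl hq (q (c₀, 𝒞.iv c₀)) i (q y) = f y := hNf.chart_apply hq _ y1
    rw [h2, y2, e0]
    show z₀ + d + S 𝒞 x y = z₀ + S 𝒞 x y + d
    abel
  have hzero : ∀ c, π 0 = q (c, 𝒞.iv c) := by
    intro c
    rw [hπ0]
    exact IsQ.gam hq (gam_mem 𝒞 c₀) (gam_mem 𝒞 c)
  refine ⟨q (c₀, 𝒞.iv c₀), Λ, π, hT, ⟨hT.cont, hT.isOpenMap, hT.surj, hT.cov, hT.eq_iff, hT.disc,
    hT.span, hzero, hloc, ?_⟩⟩
  intro N U hNU
  rw [nhdsSet, Filter.eventually_sSup]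
  rintro _ ⟨g, hg, rfl⟩
  have hg' : π 0 = q g := by
    rw [hzero g.1]
    exact IsQ.gam hq (gam_mem 𝒞 g.1) hg
  filter_upwards [hloc g 0 hg', hNU.lp g (hNU.sub hg)] with y y1 y2
  rw [y1, y2, (hNU.zero g (hNU.sub hg)).2 hg]

/-- **(K2)** -/
theorem exists_jac [CompactSpace C] [T2Space C] [ConnectedSpace C] [T2Space A] (hq : 𝒞.IsQ q) :
    ∃ (Λ : AddSubgroup E2) (π : E2 → A), 𝒞.IsJac q Λ π := by
  obtain ⟨_, Λ, π, -, h⟩ := exists_jac' hq
  exact ⟨Λ, π, h⟩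

end Crest.Agent.R272.AJh_956
end
end

-- ▼ part R272/AJi_956
section

/-!
# Row 272, A-AJ: endomorphisms of the Jacobian (helper956)

`IsJac.map_eq`  : an automorphism `al` of the curve (commuting with `iv`, `al^* ω = D ω`) acts on
`A = ℂ² / Λ` by the linear map `D`;
`IsJac.endo`    : hence `D Λ ⊆ Λ`.
`IsJac.unique`  : the lattice and the covering are unique.
-/

set_option autoImplicit false
set_option linter.unusedSectionVars false
set_option linter.unusedVariables false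

open Set Filter Topology Metric Complex
open Crest.Agent.R272.AJ_956 Crest.Agent.R272.AJd_956 Crest.Agent.R272.AJd_956.Basic
open Crest.Agent.R272.AJh_956

noncomputable section

namespace Crest.Agent.R272.AJi_956

variable {C : Type} [TopologicalSpace C] {𝒞 : Cur C} {A : Type} [TopologicalSpace A]
  {q : C × C → A} {Λ : AddSubgroup E2} {π : E2 → A}

/-- local injectivity of the covering -/
theorem IsJac.inj_near (J : 𝒞.IsJac q Λ π) (z : E2) :
    ∃ δ > 0, ∀ x ∈ ball z δ, ∀ y ∈ ball z δ, π x = π y → x = y := by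
  have hd := J.disc
  obtain ⟨δ, hδ, h⟩ : ∃ δ > 0, ∀ v ∈ Λ, ‖v‖ < δ → v = 0 := by
    have h0 : ({(0 : Λ)} : Set Λ) ∈ 𝓝 (0 : Λ) := by
      rw [discreteTopology_iff_singleton_mem_nhds] at hd
      exact hd 0
    rw [Metric.mem_nhds_iff] at h0
    obtain ⟨ε, hε, hb⟩ := h0
    refine ⟨ε, hε, fun v hv hlt => ?_⟩
    have : (⟨v, hv⟩ : Λ) ∈ ball (0 : Λ) ε := by
      rw [mem_ball, dist_zero_right]
      exact hlt
    have h2 := hb this
    rw [mem_singleton_iff] at h2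
    exact congrArg Subtype.val h2
  refine ⟨δ / 2, by positivity, fun x hx y hy hxy => ?_⟩
  rw [J.eq_iff] at hxy
  have h1 : ‖x - y‖ < δ := by
    rw [mem_ball, dist_eq_norm] at hx hy
    calc ‖x - y‖ = ‖(x - z) - (y - z)‖ := by congr 1; abel
      _ ≤ ‖x - z‖ + ‖y - z‖ := norm_sub_le _ _
      _ < δ / 2 + δ / 2 := add_lt_add hx hy
      _ = δ := by ring
  exact sub_eq_zero.1 (h _ hxy h1)

/-- **comparison**: two maps out of `C × C` (through `A`) with the same local formula -/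
theorem IsJac.comparison [CompactSpace C] [T2Space A] (hq : 𝒞.IsQ q) (J : 𝒞.IsJac q Λ π)
    {B : Type} [TopologicalSpace B] [T2Space B] {r : C × C → B} {ρ : E2 → B}
    (hr : Continuous r) (hρ : Continuous ρ) (hfac : ∀ x x', q x = q x' → r x = r x')
    {D : E2 → E2} (hDc : Continuous D)
    (h0 : ∀ c, r (c, 𝒞.iv c) = ρ (D 0))
    (hloc' : ∀ x z, q x = π z → r x = ρ (D z) → ∀ᶠ y in 𝓝 x, r y = ρ (D (z + S 𝒞 x y))) :
    ∀ x z, q x = π z → r x = ρ (D z) := by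
  classical
  -- the descended map
  have hqm : IsQuotientMap q := (IsQ.closedMap hq).isQuotientMap hq.cont hq.surj
  let g : A → B := fun a => r (hq.surj a).choose
  have hg : ∀ x, g (q x) = r x := fun x => hfac _ _ (hq.surj (q x)).choose_spec
  have hgc : Continuous g := by
    rw [hqm.continuous_iff]
    have : g ∘ q = r := funext hg
    rw [this]
    exact hr
  have hcl : IsClosed {z | g (π z) = ρ (D z)} :=
    isClosed_eq (hgc.comp J.cont) (hρ.comp hDc)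
  have hop : IsOpen {z | g (π z) = ρ (D z)} := by
    rw [isOpen_iff_mem_nhds]
    intro z hz
    have hz' : g (π z) = ρ (D z) := hz
    obtain ⟨δ, hδ, hinj⟩ := IsJac.inj_near J z
    -- near the fibre of `π z`
    have key : ∀ x, q x = π z → ∀ᶠ y in 𝓝 x, ∀ w ∈ ball z δ, q y = π w → r y = ρ (D w) := by
      intro x hx
      have hrx : r x = ρ (D z) := by rw [← hz', ← hx, hg]
      have h1 := hloc' x z hx hrx
      have h2 := J.loc x z hx.symm
      have t : Tendsto (fun y => z + S 𝒞 x y) (𝓝 x) (𝓝 z) := by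
        have := tendsto_const_nhds (x := z) (f := 𝓝 x) |>.add (S_tendsto 𝒞 x)
        rwa [add_zero] at this
      filter_upwards [h1, h2, t.eventually (ball_mem_nhds z hδ)] with y y1 y2 y3 w hw hyw
      have e : z + S 𝒞 x y = w := by
        refine hinj _ y3 w hw ?_
        rw [← hyw, y2]
        rfl
      rw [y1, e]
    have h3 := IsQ.nhds_fiber hq (π z) key
    have h4 := J.cont.continuousAt.eventually h3
    filter_upwards [h4, ball_mem_nhds z hδ] with w w1 w2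
    obtain ⟨y, hy⟩ := hq.surj (π w)
    show g (π w) = ρ (D w)
    rw [← hy, hg]
    exact w1 y hy w w2 hy
  have huniv : {z | g (π z) = ρ (D z)} = univ := by
    refine IsClopen.eq_univ ⟨hcl, hop⟩ ⟨0, ?_⟩
    obtain ⟨x, hx⟩ := hq.surj (π 0)
    show g (π 0) = ρ (D 0)
    rw [J.zero x.1, hg, h0]
  intro x z hxz
  have : z ∈ {z | g (π z) = ρ (D z)} := by rw [huniv]; exact mem_univ z
  have h5 : g (π z) = ρ (D z) := this
  rw [← h5, ← hxz, hg]

/-- **an automorphism of the curve acts linearly on the Jacobian** -/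
theorem IsJac.map_eq [CompactSpace C] [T2Space A] (hq : 𝒞.IsQ q) (J : 𝒞.IsJac q Λ π)
    {al : C → C} (hal : Continuous al) (hiv : ∀ c, al (𝒞.iv c) = 𝒞.iv (al c))
    {D : E2 → E2} (hDc : Continuous D) (hDa : ∀ v w, D (v + w) = D v + D w)
    (hP : ∀ c, ∀ᶠ y in 𝓝 c, 𝒞.P (al c) (al y) = D (𝒞.P c y)) :
    ∀ x z, q x = π z → q (al x.1, al x.2) = π (D z) := by
  have hD0 : D 0 = 0 := by
    have := hDa 0 0
    rw [add_zero] at this
    exact left_eq_add.1 this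
  refine IsJac.comparison hq J (r := fun x => q (al x.1, al x.2)) (ρ := π) ?_ J.cont ?_ hDc ?_ ?_
  · exact hq.cont.comp ((hal.comp continuous_fst).prodMk (hal.comp continuous_snd))
  · intro x x' hxx'
    rw [hq.fib] at hxx'
    show q (al x.1, al x.2) = q (al x'.1, al x'.2)
    rcases hxx' with rfl | rfl | ⟨h1, h2⟩
    · rfl
    · exact (IsQ.swap hq _).symm
    · apply IsQ.gam hq
      · show al x.2 = 𝒞.iv (al x.1)
        rw [← hiv]
        exact congrArg al h1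
      · show al x'.2 = 𝒞.iv (al x'.1)
        rw [← hiv]
        exact congrArg al h2
  · intro c
    show q (al c, al (𝒞.iv c)) = π (D 0)
    rw [hD0, hiv]
    exact (J.zero (al c)).symm
  · intro x z hxz hr
    have h1 := J.loc (al x.1, al x.2) (D z) hr.symm
    have t : Tendsto (fun y : C × C => ((al y.1, al y.2) : C × C)) (𝓝 x) (𝓝 (al x.1, al x.2)) :=
      (((hal.comp continuous_fst).prodMk (hal.comp continuous_snd)).tendsto x)
    have h2 := t.eventually h1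
    have h3 : ∀ᶠ y in 𝓝 x, 𝒞.P (al x.1) (al y.1) = D (𝒞.P x.1 y.1) :=
      (continuous_fst.tendsto x).eventually (hP x.1)
    have h4 : ∀ᶠ y in 𝓝 x, 𝒞.P (al x.2) (al y.2) = D (𝒞.P x.2 y.2) :=
      (continuous_snd.tendsto x).eventually (hP x.2)
    filter_upwards [h2, h3, h4] with y y1 y2 y3
    rw [y1, y2, y3, ← hDa, ← hDa]
    rfl

/-- **`D Λ ⊆ Λ`** -/
theorem IsJac.endo [CompactSpace C] [T2Space A] (hq : 𝒞.IsQ q) (J : 𝒞.IsJac q Λ π)
    {al : C → C} (hal : Continuous al) (hiv : ∀ c, al (𝒞.iv c) = 𝒞.iv (al c))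
    {D : E2 → E2} (hDc : Continuous D) (hDa : ∀ v w, D (v + w) = D v + D w)
    (hP : ∀ c, ∀ᶠ y in 𝓝 c, 𝒞.P (al c) (al y) = D (𝒞.P c y)) : ∀ v ∈ Λ, D v ∈ Λ := by
  intro v hv
  obtain ⟨x, hx⟩ := hq.surj (π 0)
  have h1 := IsJac.map_eq hq J hal hiv hDc hDa hP x 0 hx
  have h2 := IsJac.map_eq hq J hal hiv hDc hDa hP x v (by
    rw [hx, eq_comm, J.eq_iff, sub_zero]
    exact hv)
  have hD0 : D 0 = 0 := by
    have := hDa 0 0
    rw [add_zero] at this
    exact left_eq_add.1 this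
  rw [h1, eq_comm, J.eq_iff, hD0, sub_zero] at h2
  exact h2

/-- diagonal form (338's `hD`) -/
theorem IsJac.endo_diag [CompactSpace C] [T2Space A] (hq : 𝒞.IsQ q) (J : 𝒞.IsJac q Λ π)
    {al : C → C} (hal : Continuous al) (hiv : ∀ c, al (𝒞.iv c) = 𝒞.iv (al c))
    {d : Fin 2 → ℂ} {D : E2 → E2} (hD : ∀ v i, D v i = d i * v i)
    (hP : ∀ c, ∀ᶠ y in 𝓝 c, 𝒞.P (al c) (al y) = D (𝒞.P c y)) : ∀ v ∈ Λ, D v ∈ Λ := by
  refine IsJac.endo hq J hal hiv ?_ ?_ hP
  · refine continuous_pi fun i => ?_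
    have : (fun v : E2 => D v i) = fun v => d i * v i := funext fun v => hD v i
    rw [this]
    exact continuous_const.mul (continuous_apply i)
  · intro v w
    funext i
    rw [Pi.add_apply, hD, hD, hD, Pi.add_apply]
    ring

/-- the covering is unique -/
theorem IsJac.unique [CompactSpace C] [T2Space A] (hq : 𝒞.IsQ q) (J : 𝒞.IsJac q Λ π)
    {Λ' : AddSubgroup E2} {π' : E2 → A} (J' : 𝒞.IsJac q Λ' π') : π' = π ∧ Λ' = Λ := by
  have h1 : π' = π := by
    funext z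
    obtain ⟨x, hx⟩ := hq.surj (π z)
    rw [← hx, eq_comm]
    refine IsJac.comparison hq J (r := q) (ρ := π') (D := id) hq.cont J'.cont (fun _ _ h => h)
      continuous_id (fun c => (J'.zero c).symm) ?_ x z hx
    intro x z _ hr
    exact J'.loc x z hr.symm
  subst h1
  refine ⟨rfl, ?_⟩
  ext v
  have h2 := J.eq_iff v 0
  have h3 := J'.eq_iff v 0
  rw [sub_zero] at h2 h3
  rw [← h2, ← h3]

end Crest.Agent.R272.AJi_956
end
end

-- ▼ part R272/AJz_956
section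

/-!
# Row 272, A-AJ: the Jacobian of 297's curve `cur Pz` (helper956)

The literal inputs `J`, `d`, `hd`, `hd1`, `hd2`, `D`, `hD`, `hΛ` of 338's `s15_model`.
-/

set_option autoImplicit false
set_option linter.unusedSectionVars false
set_option linter.unusedVariables false

open Set Filter Topology Metric Complex
open Crest.Agent.R272.AJ_956 Crest.Agent.R272.AJh_956 Crest.Agent.R272.Cur_297

noncomputable section

namespace Crest.Agent.R272.AJz_956

/-- the eigenvalues of the complex multiplication -/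
def dz : Fin 2 → ℂ := ![ze ^ 3, ze ^ 4]

theorem dz_prim (i : Fin 2) : IsPrimitiveRoot (dz i) 5 := by
  fin_cases i
  · exact ze_prim.pow_of_coprime 3 (by norm_num)
  · exact ze_prim.pow_of_coprime 4 (by norm_num)

theorem dz_ne : dz 0 ≠ dz 1 := fun h => by
  have := ze_inj (i := 3) (j := 4) (by norm_num) (by norm_num) h
  omega

theorem dz_mul_ne : dz 0 * dz 1 ≠ 1 := fun h => by
  have h1 : ze ^ 2 = ze ^ 0 := by
    have h2 : dz 0 * dz 1 = ze ^ 2 * ze ^ 5 := by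
      show ze ^ 3 * ze ^ 4 = _
      ring
    rw [h2, ze_pow, mul_one] at h
    rw [h, pow_zero]
  have := ze_inj (i := 2) (j := 0) (by norm_num) (by norm_num) h1
  omega

theorem Dz_apply (v : E2) (i : Fin 2) : Dz v i = dz i * v i := by
  fin_cases i <;> rfl

/-- `hΛ` -/
theorem hL {A : Type} [TopologicalSpace A] [T2Space A] {q : Cz × Cz → A} (hq : (cur Pz).IsQ q)
    {Λ : AddSubgroup E2} {π : E2 → A} (J : (cur Pz).IsJac q Λ π) : ∀ v ∈ Λ, Dz v ∈ Λ :=
  AJi_956.IsJac.endo_diag hq J continuous_al al_iv (D := fun v => Dz v) Dz_apply al_P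

/-- **everything on the Jacobian** -/
theorem exists_jac_z {A : Type} [TopologicalSpace A] [T2Space A] {q : Cz × Cz → A}
    (hq : (cur Pz).IsQ q) : ∃ (Λ : AddSubgroup E2) (π : E2 → A), (cur Pz).IsJac q Λ π ∧
      ∀ v ∈ Λ, Dz v ∈ Λ := by
  obtain ⟨Λ, π, J⟩ := exists_jac hq
  exact ⟨Λ, π, J, hL hq J⟩

end Crest.Agent.R272.AJz_956
end
end

-- ▼ part R272/As156_338

/-!
# R272, leaf S15-ASM (helper338), part 6: S0415 for the curve `cur Pz` (297) and its Jacobian (956)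

* `Dies 𝒞 hq inc γ`, `Lives 𝒞 hq inc γ` : the period `2 ∫_γ ω` of an arc `γ` between Weierstrass points
  is trivial (has infinite order) in `π₁(X)`, for every description `T = ℂ² / Λ`;
* `s15_z` : S0415 from `PosF CX`, `q : C × C → T`, `inc : T → X` (immersion), ONE arc `g` between two
  Weierstrass points such that `g`, `α² g`, `α³ g` die and `α g` lives.
-/

set_option autoImplicit false
set_option linter.unusedSectionVars false

open Set Filter Topology TopologicalSpace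
open Crest.AlgGeometry

namespace Crest.Agent.R272.As15_338

open Crest.Agent.R275.Geo Crest.Agent.R275.Core144 Crest.Agent.R275.GC293
open Crest.Agent.R273.Defs_333 Crest.Agent.R273.Fam_835
open Crest.Agent.R272.Per_939 CovOrd_463 LbExt_259 TLoop_463 Crest.Agent.R272.AJ_956 UB_20
open MQ_783 Refl_246 LBAsm_585 LbEnd_259 Comp_259 DCov_426
open Cur_297 AJz_956

noncomputable section

local notation "I" => unitInterval

/-! ### positivity in 732's form -/

/-- the conclusion of `PEnd_732.pos_gen2` is `PosF` -/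
theorem posF_of_gen2 {n : ℕ} {X : Type} [TopologicalSpace X] [T2Space X] [CompactSpace X]
    {CX : Fam n X} (h : ∃ A : Atl n X, Finite A.ι ∧ GoodA A ∧ Nonempty (Part A) ∧
      HolC (fam A) CX id ∧ HolC CX (fam A) id ∧ Nonempty (ProjD A)) : PosF CX := by
  obtain ⟨A, _, -, ⟨PA⟩, h1, h2, ⟨P⟩⟩ := h
  exact posF_of_projD PA ⟨h1, h2⟩ P

/-! ### dying and living arcs -/

section DL

variable {C T X : Type} [TopologicalSpace C] [TopologicalSpace T] [TopologicalSpace X]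

/-- the period of the arc `γ` dies in `π₁(X)` -/
def Dies (𝒞 : Cur C) {q : C × C → T} (hq : Continuous q) (inc : T → X) (γ : C(I, C)) : Prop :=
  ∀ (Λ : AddSubgroup E2) (π : E2 → T) (J : 𝒞.IsJac q Λ π) (F : C(E2, X))
    (_ : ∀ z, F z = inc (π z)) (hper : Per F Λ) (v₀ : E2) (h : C(I, E2)) (H : IsInt 𝒞 γ h)
    (hs : 𝒞.iv (γ 0) = γ 0) (he : 𝒞.iv (γ 1) = γ 1),
    perHom hper v₀ (Multiplicative.ofAdd (⟨h 1 + h 1, two_mem J hq H hs he⟩ : Λ)) = 1

/-- the period of the arc `γ` has infinite order in `π₁(X)` -/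
def Lives (𝒞 : Cur C) {q : C × C → T} (hq : Continuous q) (inc : T → X) (γ : C(I, C)) : Prop :=
  ∀ (Λ : AddSubgroup E2) (π : E2 → T) (J : 𝒞.IsJac q Λ π) (F : C(E2, X))
    (_ : ∀ z, F z = inc (π z)) (hper : Per F Λ) (v₀ : E2) (h : C(I, E2)) (H : IsInt 𝒞 γ h)
    (hs : 𝒞.iv (γ 0) = γ 0) (he : 𝒞.iv (γ 1) = γ 1),
    ¬ IsOfFinOrder
      (perHom hper v₀ (Multiplicative.ofAdd (⟨h 1 + h 1, two_mem J hq H hs he⟩ : Λ)))

variable {𝒞 : Cur C} {q : C × C → T} {hq : Continuous q} {inc : T → X} {γ γ' : C(I, C)}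

theorem Dies.congr (h : Dies 𝒞 hq inc γ) (e : ∀ t, γ' t = γ t) : Dies 𝒞 hq inc γ' := by
  have : γ' = γ := by ext t; exact e t
  rwa [this]

theorem Lives.congr (h : Lives 𝒞 hq inc γ) (e : ∀ t, γ' t = γ t) : Lives 𝒞 hq inc γ' := by
  have : γ' = γ := by ext t; exact e t
  rwa [this]

/-- the two lifts `γ`, `iv ∘ γ` -/
theorem Dies.iv (h : Dies 𝒞 hq inc γ) (e : ∀ t, γ' t = 𝒞.iv (γ t)) : Dies 𝒞 hq inc γ' := by
  intro Λ π J F hF hper v₀ g H hs he
  have e1 : γ' = ⟨fun t => 𝒞.iv (γ t), 𝒞.iv_cont.comp γ.continuous⟩ := by ext t; exact e t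
  have hs' : 𝒞.iv (γ 0) = γ 0 := by
    have := hs
    rw [e, 𝒞.iv_iv] at this
    exact this.symm
  have he' : 𝒞.iv (γ 1) = γ 1 := by
    have := he
    rw [e, 𝒞.iv_iv] at this
    exact this.symm
  obtain ⟨g0, H0⟩ := exists_int J hq γ
  have H1 : IsInt 𝒞 γ' ⟨fun t => - g0 t, by fun_prop⟩ := by rw [e1]; exact H0.neg
  have e2 := IsInt.unique H H1
  have h1 := h Λ π J F hF hper v₀ g0 H0 hs' he'
  have e3 : (⟨g 1 + g 1, two_mem J hq H hs he⟩ : Λ) = -⟨g0 1 + g0 1, two_mem J hq H0 hs' he'⟩ := by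
    apply Subtype.ext
    show g 1 + g 1 = -(g0 1 + g0 1)
    rw [e2]
    show - g0 1 + - g0 1 = _
    abel
  rw [e3, ofAdd_neg, map_inv, h1, inv_one]

theorem Lives.iv (h : Lives 𝒞 hq inc γ) (e : ∀ t, γ' t = 𝒞.iv (γ t)) : Lives 𝒞 hq inc γ' := by
  intro Λ π J F hF hper v₀ g H hs he hfin
  have e1 : γ' = ⟨fun t => 𝒞.iv (γ t), 𝒞.iv_cont.comp γ.continuous⟩ := by ext t; exact e t
  have hs' : 𝒞.iv (γ 0) = γ 0 := by
    have := hs
    rw [e, 𝒞.iv_iv] at this
    exact this.symm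
  have he' : 𝒞.iv (γ 1) = γ 1 := by
    have := he
    rw [e, 𝒞.iv_iv] at this
    exact this.symm
  obtain ⟨g0, H0⟩ := exists_int J hq γ
  have H1 : IsInt 𝒞 γ' ⟨fun t => - g0 t, by fun_prop⟩ := by rw [e1]; exact H0.neg
  have e2 := IsInt.unique H H1
  refine h Λ π J F hF hper v₀ g0 H0 hs' he' ?_
  have e3 : (⟨g 1 + g 1, two_mem J hq H hs he⟩ : Λ) = -⟨g0 1 + g0 1, two_mem J hq H0 hs' he'⟩ := by
    apply Subtype.ext
    show g 1 + g 1 = -(g0 1 + g0 1)
    rw [e2]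
    show - g0 1 + - g0 1 = _
    abel
  rw [e3, ofAdd_neg, map_inv] at hfin
  exact isOfFinOrder_inv_iff.1 hfin

/-- 20's `per_dies` : the two arcs over `γ` are homotopic rel end points in `X` -/
theorem dies_of (c' : C) {a b a' b' : X} (p : Path a b) (p' : Path a' b')
    (hp : ∀ t, p t = inc (q (γ t, c'))) (hp' : ∀ t, p' t = inc (q (𝒞.iv (γ t), c')))
    (hh : HR p p') : Dies 𝒞 hq inc γ :=
  fun _ _ J F hF hper v₀ _ H hs he =>
    per_dies J hq inc F hF hper v₀ H hs he c' p p' hp hp' hh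

end DL

/-! ### the curve `cur Pz` -/

/-- the automorphism of order five as a continuous map -/
def alC : C(Cz, Cz) := ⟨al, continuous_al⟩

theorem alC_fix {c : Cz} (h : (cur Pz).iv c = c) : (cur Pz).iv (alC c) = alC c := by
  show (cur Pz).iv (al c) = al c
  have h1 : al ((cur Pz).iv c) = (cur Pz).iv (al c) := al_iv c
  rw [← h1, h]

variable {X : Type} [TopologicalSpace X] [T2Space X] [CompactSpace X]

/-- **S0415 from the manifold, the surface `T` and one arc** -/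
theorem s15_z {n : ℕ} {CX : Fam n X} (hC : PosF CX) {T : Type} [TopologicalSpace T] [T2Space T]
    {q : Cz × Cz → T} (hq : (cur Pz).IsQ q) {inc : T → X} (hi : Continuous inc)
    (hinc : Function.Injective inc)
    (himm : ∀ (Λ : AddSubgroup E2) (π : E2 → T), (cur Pz).IsJac q Λ π →
      ImmF CX fun z => inc (π z))
    (g : C(I, Cz)) (hs : (cur Pz).iv (g 0) = g 0) (he : (cur Pz).iv (g 1) = g 1)
    (die0 : Dies (cur Pz) hq.cont inc g)
    (live : Lives (cur Pz) hq.cont inc (alC.comp g))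
    (die2 : Dies (cur Pz) hq.cont inc (alC.comp (alC.comp g)))
    (die3 : Dies (cur Pz) hq.cont inc (alC.comp (alC.comp (alC.comp g)))) : S15 := by
  obtain ⟨Λ, π, J, hΛ⟩ := exists_jac_z hq
  let F : C(E2, X) := ⟨fun z => inc (π z), hi.comp J.cont⟩
  have hF : ∀ z, F z = inc (π z) := fun _ => rfl
  have hper : Per F Λ := fun v l hl => per_of (ι := inc) J.eq_iff v l hl
  let γ : Fin 4 → C(I, Cz) := ![g, alC.comp g, alC.comp (alC.comp g),
    alC.comp (alC.comp (alC.comp g))]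
  obtain ⟨h0, H0⟩ := exists_int J hq.cont g
  let DL : E2 →L[ℂ] E2 := LinearMap.toContinuousLinearMap Dz
  have hDL : ∀ c, ∀ᶠ y in 𝓝 c, (cur Pz).P (alC c) (alC y) = DL ((cur Pz).P c y) := al_P
  have H1 := H0.map alC DL hDL
  have H2 := H1.map alC DL hDL
  have H3 := H2.map alC DL hDL
  have s1 := alC_fix hs
  have s2 := alC_fix s1
  have s3 := alC_fix s2
  have e1 := alC_fix he
  have e2 := alC_fix e1
  have e3 := alC_fix e2
  refine s15_top hC J F hF hinc (himm Λ π J) hper dz_prim dz_ne dz_mul_ne (D := fun v => Dz v)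
    Dz_apply hΛ 0 (Q := ![h0 1 + h0 1, Dz (h0 1) + Dz (h0 1), Dz (Dz (h0 1)) + Dz (Dz (h0 1)),
      Dz (Dz (Dz (h0 1))) + Dz (Dz (Dz (h0 1)))]) ?_ ?_ ?_ ?_ ?_ ?_
  · intro j
    fin_cases j
    · exact two_mem J hq.cont H0 hs he
    · exact two_mem J hq.cont H1 s1 e1
    · exact two_mem J hq.cont H2 s2 e2
    · exact two_mem J hq.cont H3 s3 e3
  · intro j
    left
    fin_cases j
    · show Dz (h0 1) + Dz (h0 1) = Dz (h0 1 + h0 1)
      rw [map_add]
    · show Dz (Dz (h0 1)) + Dz (Dz (h0 1)) = Dz (Dz (h0 1) + Dz (h0 1))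
      rw [map_add Dz (Dz (h0 1))]
    · show Dz (Dz (Dz (h0 1))) + Dz (Dz (Dz (h0 1))) = Dz (Dz (Dz (h0 1)) + Dz (Dz (h0 1)))
      rw [map_add Dz (Dz (Dz (h0 1)))]
  · exact die0 Λ π J F hF hper 0 _ H0 hs he
  · exact live Λ π J F hF hper 0 _ H1 s1 e1
  · exact die2 Λ π J F hF hper 0 _ H2 s2 e2
  · exact die3 Λ π J F hF hper 0 _ H3 s3 e3

end

end Crest.Agent.R272.As15_338
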