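import Crest.Agent.R272.Cls5_620

-- ▼ part R272/Cls6_620
section

/-!
Row 272, AR-CLS (helper620), part 6: classification of the planes through a point of the ball.
-/

set_option linter.unusedSectionVars false

namespace Crest.Agent.R272.Cls_620

open Finset

/-- `p` is a negative vector of the ball place. -/
def Neg (z : Fin 2 → ℂ) (p : Fin 4 → ℂ) : Prop := (h1 (c0 0 (HH z)) p p).re < 0

/-- `v` is orthogonal to `p` at the ball place. -/
def Perp (z : Fin 2 → ℂ) (p : Fin 4 → ℂ) (v : Fin 4 → Fin 2 → ℂ) : Prop :=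
  h1 (c0 0 (HH z)) (at0 0 v) p = 0

/-- a plane of the class `a` passes through `p`. -/
def Occ (O : Subring (Fin 2 → ℂ)) (z μ : Fin 2 → ℂ) (a : Lb) (p : Fin 4 → ℂ) : Prop :=
  ∃ v ∈ VV O z μ a, Perp z p v

section

variable {O : Subring (Fin 2 → ℂ)} {z μ : Fin 2 → ℂ} {p : Fin 4 → ℂ}

lemma Perp.add {v w : Fin 4 → Fin 2 → ℂ} (hv : Perp z p v) (hw : Perp z p w) :
    Perp z p (v + w) := by
  unfold Perp at *
  have : at0 (0 : Fin 2) (v + w) = at0 0 v + at0 0 w := rfl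
  rw [this, h1_add_left, hv, hw, add_zero]

lemma Perp.smul {v : Fin 4 → Fin 2 → ℂ} (x : Fin 2 → ℂ) (hv : Perp z p v) :
    Perp z p (x • v) := by
  unfold Perp at *
  have : at0 (0 : Fin 2) (x • v) = x 0 • at0 0 v := rfl
  rw [this, h1_smul_left, hv, mul_zero]

lemma Perp.sub {v w : Fin 4 → Fin 2 → ℂ} (hv : Perp z p v) (hw : Perp z p w) :
    Perp z p (v - w) := by
  have : v - w = v + (-1 : Fin 2 → ℂ) • w := by
    funext i t
    simp only [Pi.sub_apply, Pi.add_apply, Pi.smul_apply, smul_eq_mul, Pi.mul_apply, Pi.neg_apply,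
      Pi.one_apply]
    ring
  rw [this]
  exact hv.add (hw.smul _)

lemma Perp.cancel {v : Fin 4 → Fin 2 → ℂ} {x : Fin 2 → ℂ} (hx : x 0 ≠ 0)
    (hv : Perp z p (x • v)) : Perp z p v := by
  unfold Perp at *
  have : at0 (0 : Fin 2) (x • v) = x 0 • at0 0 v := rfl
  rw [this, h1_smul_left] at hv
  exact (mul_eq_zero.mp hv).resolve_left hx

lemma meet_of (hp : Neg z p) {v w : Fin 4 → Fin 2 → ℂ} (hv : Perp z p v) (hw : Perp z p w) :
    Meet z v w := ⟨p, hp, hv, hw⟩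

/-- the plane of a class through `p` is unique. -/
lemma occ_unique (h : Z5 O z) (hD : Deep O z μ 2) (hp : Neg z p) {a : Lb}
    {v w : Fin 4 → Fin 2 → ℂ} (hv : v ∈ VV O z μ a) (hw : w ∈ VV O z μ a) (hv' : Perp z p v)
    (hw' : Perp z p w) : v = w := meet_same h hD hv hw (meet_of hp hv' hw')

/-- a complete flat of colour `i` with orthonormal frame `(f0, f1)`. -/
structure Flat (O : Subring (Fin 2 → ℂ)) (z μ : Fin 2 → ℂ) (i : Bool)
    (f0 f1 : Fin 4 → Fin 2 → ℂ) : Prop where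
  m0 : f0 ∈ VV O z μ .o
  m1 : f1 ∈ VV O z μ (.n i)
  orth : hh (HH z) f1 f0 = 0
  mv : ∀ j, f1 - z ^ (j : ℕ) • f0 ∈ VV O z μ (.v i j)


/-- the frame of a flat from one member and `e0`-plane. -/
lemma flat_of (h : Z5 O z) {i : Bool} {j : Fin 5} {v f : Fin 4 → Fin 2 → ℂ}
    (hv : v ∈ VV O z μ (.v i j)) (hf : f ∈ VV O z μ .o) (hst : hh (HH z) v f = -z ^ (j : ℕ)) :
    Flat O z μ i f (v + z ^ (j : ℕ) • f) := by
  have hvl := VV.low h hv
  have hst' : hh (HH z) v f = hh (HH z) (base z (.v i j)) e0 := by rw [hst, g_vo]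
  have hff : hh (HH z) f f = 1 := hf.2.2.trans hh_e00
  refine ⟨hf, ?_, ?_, ?_⟩
  · have := comb h.frm hvl hf hst' O.one_mem (h.pmem j)
    simp only [one_smul] at this
    have e : base z (.v i j) + z ^ (j : ℕ) • base z .o = ei i := by
      simp [base]
    rw [e] at this
    exact this
  · rw [hh_add_left, hh_smul_left, hst, hff]; ring
  · intro l
    have e : v + z ^ (j : ℕ) • f - z ^ (l : ℕ) • f = v + (z ^ (j : ℕ) - z ^ (l : ℕ)) • f := by
      rw [sub_smul]; abel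
    rw [e]
    by_cases hjl : l = j
    · subst hjl
      rw [sub_self, zero_smul, add_zero]
      exact hv
    · obtain ⟨ε, hε, ε', hε', hu, hz⟩ := h.diff l j hjl
      rw [hz]
      exact complete_mem h.frm h.pz_mem hε hz (e := ei i) (f := e0) hv hf hst'

/-- (T2a) two different members `v i j`, `v i k` through `p` give a complete flat. -/
theorem flat_vv (h : Z5 O z) (hμ : μ ∈ O) (hD : Deep O z μ 2) (hp : Neg z p) {i : Bool}
    {j k : Fin 5} (hjk : j ≠ k) {v w : Fin 4 → Fin 2 → ℂ} (hv : v ∈ VV O z μ (.v i j))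
    (hw : w ∈ VV O z μ (.v i k)) (hv' : Perp z p v) (hw' : Perp z p w) :
    ∃ f0 f1, Flat O z μ i f0 f1 ∧ Perp z p f0 ∧ Perp z p f1 ∧ v = f1 - z ^ (j : ℕ) • f0 ∧
      w = f1 - z ^ (k : ℕ) • f0 := by
  have hst := meet_std h hD hv hw (meet_of hp hv' hw')
  obtain ⟨ε, hε, ε', hε', hu, hz⟩ := h.diff j k hjk
  have hI : Int' O e0 := base_mem h .o
  obtain ⟨f, hf, e1, e2, e3⟩ := complete h.frm hμ hε' hu h.pz_ne hz (e := ei i) (f := e0) hI hv hw
    hst
  have hf' : f ∈ VV O z μ .o := hf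
  have e2' : hh (HH z) v f = -z ^ (j : ℕ) := e2.trans (g_vo i j)
  have hpe : (pz z * ε) 0 ≠ 0 := by
    refine mul_ne_zero (h.pz_ne 0) fun h0 => ?_
    have := congrFun hu 0
    simp [h0] at this
  have hfp : Perp z p f := Perp.cancel hpe (e1 ▸ hv'.sub hw')
  refine ⟨f, v + z ^ (j : ℕ) • f, flat_of h hv hf' e2', hfp, hv'.add (hfp.smul _), by abel, ?_⟩
  have : w = v - (pz z * ε) • f := by rw [← e1]; abel
  rw [this, ← hz, sub_smul]; abel

/-- (T2b) `v i j` and `o` through `p` give a complete flat. -/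
theorem flat_vo (h : Z5 O z) (hD : Deep O z μ 2) (hp : Neg z p) {i : Bool}
    {j : Fin 5} {v f : Fin 4 → Fin 2 → ℂ} (hv : v ∈ VV O z μ (.v i j))
    (hf : f ∈ VV O z μ .o) (hv' : Perp z p v) (hf' : Perp z p f) :
    Flat O z μ i f (v + z ^ (j : ℕ) • f) ∧ Perp z p (v + z ^ (j : ℕ) • f) := by
  have hst := meet_std h hD hv hf (meet_of hp hv' hf')
  exact ⟨flat_of h hv hf (hst.trans (g_vo i j)), hv'.add (hf'.smul _)⟩

/-- (T2c) `v i j` and `n i` through `p` give a complete flat. -/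
theorem flat_vn (h : Z5 O z) (hD : Deep O z μ 2) (hp : Neg z p) {i : Bool}
    {j : Fin 5} {v w : Fin 4 → Fin 2 → ℂ} (hv : v ∈ VV O z μ (.v i j))
    (hw : w ∈ VV O z μ (.n i)) (hv' : Perp z p v) (hw' : Perp z p w) :
    ∃ f0, Flat O z μ i f0 w ∧ Perp z p f0 ∧ v = w - z ^ (j : ℕ) • f0 := by
  have hst := meet_std h hD hv hw (meet_of hp hv' hw')
  have hst2 : hh (HH z) v w = 1 := by
    rw [hst]
    show hh (HH z) (base z (.v i j)) (ei i) = 1
    rw [g_vn, dl_self]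
  have hww : hh (HH z) w w = 1 := hw.2.2.trans (hh_ei i)
  have hvv : hh (HH z) v v = 2 := hv.2.2.trans (n_v h i j)
  have hwv : hh (HH z) w v = 1 := by rw [← hh_star (HH z) h.frm.real v w, hst2, star_one]
  have hz : z ^ (j : ℕ) * z ^ (5 - (j : ℕ)) = 1 := by
    rw [← pow_add, show (j : ℕ) + (5 - (j : ℕ)) = 5 by omega, h.z5]
  set f : Fin 4 → Fin 2 → ℂ := z ^ (5 - (j : ℕ)) • w + (-z ^ (5 - (j : ℕ))) • v with hf
  have hvw : v = w - z ^ (j : ℕ) • f := by
    funext i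
    simp only [hf, Pi.sub_apply, Pi.smul_apply, Pi.add_apply, smul_eq_mul]
    linear_combination ((w i) - v i) * hz
  have hfm : f ∈ VV O z μ .o := by
    have := comb h.frm hw (VV.low h hv) (x := z ^ (5 - (j : ℕ))) (y := -z ^ (5 - (j : ℕ)))
      (by rw [← hh_star (HH z) h.frm.real v w, hst, hh_star (HH z) h.frm.real]) (h.pmem _)
      (O.neg_mem (h.pmem _))
    have e : z ^ (5 - (j : ℕ)) • base z (.n i) + (-z ^ (5 - (j : ℕ))) • base z (.v i j)
        = base z .o := by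
      simp only [base]
      funext l
      simp only [Pi.sub_apply, Pi.smul_apply, Pi.add_apply, smul_eq_mul]
      linear_combination (e0 l) * hz
    rw [e] at this
    exact this
  have hfp : Perp z p f := (hw'.smul _).add (hv'.smul _)
  have hvf : hh (HH z) v f = -z ^ (j : ℕ) := by
    have hs : star (z ^ (5 - (j : ℕ))) = z ^ (j : ℕ) := by
      rw [h.spow]
      have hj := j.isLt
      have : z ^ (4 * (5 - (j : ℕ))) = z ^ (4 * (5 - (j : ℕ))) * 1 := by ring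
      have e5 : (z ^ 5) ^ (4 - (j : ℕ)) = 1 := by rw [h.z5, one_pow]
      have e6 : z ^ (4 * (5 - (j : ℕ))) = (z ^ 5) ^ (4 - (j : ℕ)) * z ^ (j : ℕ) := by
        rw [← pow_mul, ← pow_add]
        congr 1
        omega
      rw [e6, e5, one_mul]
    simp only [hf, hh_add_right, hh_smul_right, star_neg, hs, hst2, hvv]; ring
  have hfl := flat_of h hv hfm hvf
  have e : v + z ^ (j : ℕ) • f = w := by rw [hvw]; abel
  rw [e] at hfl
  exact ⟨f, hfl, hfp, hvw⟩

end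

end Crest.Agent.R272.Cls_620
end

-- ▼ part R272/Cls7_620
section

/-!
Row 272, AR-CLS (helper620), part 7: classification of the planes through a point of the ball
(bridges, flats, clusters, mirrors).
-/

set_option linter.unusedSectionVars false

namespace Crest.Agent.R272.Cls_620

open Finset

/-- the swap of the colours on labels. -/
def sw : Lb → Lb
  | .o => .o
  | .n i => .n (!i)
  | .v i j => .v (!i) j
  | .b i k => .b (!i) k

/-- the six branch labels of colour `i`. -/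
def Brn (i : Bool) (a : Lb) : Prop := a = .n i ∨ ∃ j, a = .v i j

/-- a complete flat of colour `i` passes through `p`. -/
def FlatAt (O : Subring (Fin 2 → ℂ)) (z μ : Fin 2 → ℂ) (i : Bool) (p : Fin 4 → ℂ) : Prop :=
  ∃ f0 f1, Flat O z μ i f0 f1 ∧ Perp z p f0 ∧ Perp z p f1

section

variable {O : Subring (Fin 2 → ℂ)} {z μ : Fin 2 → ℂ} {p : Fin 4 → ℂ}

lemma FlatAt.o {i : Bool} (hf : FlatAt O z μ i p) : Occ O z μ .o p := by
  obtain ⟨f0, f1, hF, h0, h1⟩ := hf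
  exact ⟨f0, hF.m0, h0⟩

lemma FlatAt.n {i : Bool} (hf : FlatAt O z μ i p) : Occ O z μ (.n i) p := by
  obtain ⟨f0, f1, hF, h0, h1⟩ := hf
  exact ⟨f1, hF.m1, h1⟩

lemma FlatAt.v {i : Bool} (hf : FlatAt O z μ i p) (j : Fin 5) : Occ O z μ (.v i j) p := by
  obtain ⟨f0, f1, hF, h0, h1⟩ := hf
  exact ⟨_, hF.mv j, h1.sub (h0.smul _)⟩


/-- no bridge passes through a flat. -/
lemma FlatAt.no_b (h : Z5 O z) (hD : Deep O z μ 2) (hp : Neg z p) {i : Bool}
    (hf : FlatAt O z μ i p) (i' : Bool) (k : Fin 5) : ¬ Occ O z μ (.b i' k) p := by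
  rintro ⟨v, hv, hv'⟩
  obtain ⟨w, hw, hw'⟩ := hf.o
  exact not_meet_bo h hD hv hw (meet_of hp hv' hw')

/-- `v i j` and `o` at `p`: flat. -/
lemma flatAt_vo (h : Z5 O z) (hD : Deep O z μ 2) (hp : Neg z p) {i : Bool} {j : Fin 5}
    (hv : Occ O z μ (.v i j) p) (ho : Occ O z μ .o p) : FlatAt O z μ i p := by
  obtain ⟨v, hv, hv'⟩ := hv
  obtain ⟨w, hw, hw'⟩ := ho
  obtain ⟨h1, h2⟩ := flat_vo h hD hp hv hw hv' hw'
  exact ⟨_, _, h1, hw', h2⟩

/-- `v i j` and `v i k`, `j ≠ k` at `p`: flat. -/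
lemma flatAt_vv (h : Z5 O z) (hμ : μ ∈ O) (hD : Deep O z μ 2) (hp : Neg z p) {i : Bool}
    {j k : Fin 5} (hjk : j ≠ k)
    (hv : Occ O z μ (.v i j) p) (ho : Occ O z μ (.v i k) p) : FlatAt O z μ i p := by
  obtain ⟨v, hv, hv'⟩ := hv
  obtain ⟨w, hw, hw'⟩ := ho
  obtain ⟨f0, f1, h1, h2, h3, -, -⟩ := flat_vv h hμ hD hp hjk hv hw hv' hw'
  exact ⟨f0, f1, h1, h2, h3⟩

/-- `v i j` and `n i` at `p`: flat. -/
lemma flatAt_vn (h : Z5 O z) (hD : Deep O z μ 2) (hp : Neg z p) {i : Bool} {j : Fin 5}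
    (hv : Occ O z μ (.v i j) p) (ho : Occ O z μ (.n i) p) : FlatAt O z μ i p := by
  obtain ⟨v, hv, hv'⟩ := hv
  obtain ⟨w, hw, hw'⟩ := ho
  obtain ⟨f0, h1, h2, -⟩ := flat_vn h hD hp hv hw hv' hw'
  exact ⟨f0, w, h1, h2, hw'⟩

/-- (T2) two different branch planes of the same colour: complete flat. -/
theorem flatAt_of_two (h : Z5 O z) (hμ : μ ∈ O) (hD : Deep O z μ 2) (hp : Neg z p) {i : Bool}
    {a b : Lb} (ha : Brn i a) (hb : Brn i b) (hab : a ≠ b) (hao : Occ O z μ a p)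
    (hbo : Occ O z μ b p) : FlatAt O z μ i p := by
  rcases ha with rfl | ⟨j, rfl⟩ <;> rcases hb with rfl | ⟨k, rfl⟩
  · exact absurd rfl hab
  · exact flatAt_vn h hD hp hbo hao
  · exact flatAt_vn h hD hp hao hbo
  · exact flatAt_vv h hμ hD hp (fun e => hab (by rw [e])) hao hbo

/-- (T1) what can occur together with a bridge. -/
theorem bridge_at (h : Z5 O z) (hμ : μ ∈ O) (hD : Deep O z μ 2) (hp : Neg z p) {i : Bool}
    {k : Fin 5} (hb : Occ O z μ (.b i k) p) :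
    ¬ Occ O z μ .o p ∧ ¬ Occ O z μ (.n i) p ∧
    (∀ i' l, Occ O z μ (.b i' l) p → i' = i ∧ l = k) ∧
    (∀ i' j, Occ O z μ (.v i' j) p →
      i' = i ∧ (((k : ℕ) + 4 * j) % 5 = 2 ∨ ((k : ℕ) + 4 * j) % 5 = 3)) ∧
    (∀ j j', Occ O z μ (.v i j) p → Occ O z μ (.v i j') p → j = j') ∧
    (∀ i', ¬ FlatAt O z μ i' p) := by
  have hf : ∀ i', ¬ FlatAt O z μ i' p := fun i' hf => hf.no_b h hD hp i k hb
  obtain ⟨v, hv, hv'⟩ := hb
  refine ⟨?_, ?_, ?_, ?_, ?_, hf⟩
  · rintro ⟨w, hw, hw'⟩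
    exact not_meet_bo h hD hv hw (meet_of hp hv' hw')
  · rintro ⟨w, hw, hw'⟩
    exact not_meet_bn h hD hv hw (meet_of hp hv' hw')
  · rintro i' l ⟨w, hw, hw'⟩
    obtain ⟨h1, h2, -⟩ := meet_bb h hD hv hw (meet_of hp hv' hw')
    exact ⟨h1.symm, h2.symm⟩
  · rintro i' j ⟨w, hw, hw'⟩
    obtain ⟨h1, h2⟩ := meet_bv h hD hv hw (meet_of hp hv' hw')
    exact ⟨h1.symm, h2⟩
  · intro j j' h1 h2
    by_contra hne
    exact hf i (flatAt_vv h hμ hD hp hne h1 h2)

/-- a branch plane `v (!i) k` through a flat of colour `i`: both flats. -/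
theorem flatAt_other (h : Z5 O z) (hD : Deep O z μ 2) (hp : Neg z p) {i i' : Bool}
    (hf : FlatAt O z μ i p) {k : Fin 5} (hv : Occ O z μ (.v i' k) p) : FlatAt O z μ i' p :=
  flatAt_vo h hD hp hv hf.o

/-- planes `v false j`, `v true k` at `p` without flats: no `o`, no `n`, and they are the only
ones. -/
theorem two_colours (h : Z5 O z) (hμ : μ ∈ O) (hD : Deep O z μ 2) (hp : Neg z p) {i : Bool}
    {j k : Fin 5} (hv : Occ O z μ (.v i j) p) (hw : Occ O z μ (.v (!i) k) p)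
    (hf : ¬ FlatAt O z μ i p) (hf' : ¬ FlatAt O z μ (!i) p) :
    ¬ Occ O z μ .o p ∧ (∀ i', ¬ Occ O z μ (.n i') p) ∧ (∀ i' l, ¬ Occ O z μ (.b i' l) p) ∧
    (∀ l, Occ O z μ (.v i l) p → l = j) ∧ (∀ l, Occ O z μ (.v (!i) l) p → l = k) := by
  refine ⟨fun ho => hf (flatAt_vo h hD hp hv ho), ?_, ?_, ?_, ?_⟩
  · intro i' hn
    have : i' = i ∨ i' = !i := by cases i <;> cases i' <;> simp
    rcases this with rfl | rfl
    · exact hf (flatAt_vn h hD hp hv hn)
    · exact hf' (flatAt_vn h hD hp hw hn)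
  · intro i' l hb
    obtain ⟨-, -, -, h1, -, -⟩ := bridge_at h hμ hD hp hb
    have e1 := (h1 _ _ hv).1
    have e2 := (h1 _ _ hw).1
    rw [← e2] at e1
    cases i <;> simp at e1
  · intro l hl
    by_contra hne
    exact hf (flatAt_vv h hμ hD hp hne hl hv)
  · intro l hl
    by_contra hne
    exact hf' (flatAt_vv h hμ hD hp hne hl hw)

/-- (T3) cluster points are orthonormal triples. -/
theorem cluster_at (h : Z5 O z) (hD : Deep O z μ 2) (hp : Neg z p) {f0 f1 g0 g1 : Fin 4 → Fin 2 → ℂ}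
    (hf : Flat O z μ false f0 f1) (hg : Flat O z μ true g0 g1) (hf0 : Perp z p f0)
    (hf1 : Perp z p f1) (hg0 : Perp z p g0) (hg1 : Perp z p g1) :
    g0 = f0 ∧ hh (HH z) f1 f0 = 0 ∧ hh (HH z) g1 f0 = 0 ∧ hh (HH z) f1 g1 = 0 ∧
      hh (HH z) f0 f0 = 1 ∧ hh (HH z) f1 f1 = 1 ∧ hh (HH z) g1 g1 = 1 := by
  have e0 : g0 = f0 := occ_unique h hD hp hg.m0 hf.m0 hg0 hf0
  subst e0
  refine ⟨rfl, hf.orth, hg.orth, ?_, hf.m0.2.2.trans hh_e00, hf.m1.2.2.trans (hh_ei false),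
    hg.m1.2.2.trans (hh_ei true)⟩
  have := meet_std h hD hf.m1 hg.m1 (meet_of hp hf1 hg1)
  exact this.trans (hh_ei' (i := false) (i' := true) (by decide))


end

end Crest.Agent.R272.Cls_620
private theorem rz_48df12aecf : type_of% @_root_.Crest.Agent.R272.Cls_620.sw.eq_1 := @_root_.Crest.Agent.R272.Cls_620.sw.eq_1 -- L15
end

-- ▼ part R272/Cls8_620

/-!
Row 272, AR-CLS (helper620), part 8: mirrors.
-/

set_option linter.unusedSectionVars false

namespace Crest.Agent.R272.Cls_620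

open Finset

/-- a mirror vector: integral, norm two, its reflection is the swap modulo `π μ`. -/
structure Mir (O : Subring (Fin 2 → ℂ)) (z μ : Fin 2 → ℂ) (r : Fin 4 → Fin 2 → ℂ) : Prop where
  int : Int' O r
  two : hh (HH z) r r = 2
  cong : ∀ x, Int' O x → Cg O (pz z * μ) (rf (HH z) r x) (rf (HH z) mi x)

section

variable {O : Subring (Fin 2 → ℂ)} {z μ : Fin 2 → ℂ} {p : Fin 4 → ℂ}

lemma hh_mi (x : Fin 4 → Fin 2 → ℂ) : hh (HH z) x mi = x 1 - x 2 := by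
  simp [hh, Fin.sum_univ_four, HH, mi, e1, e2, sub_eq_add_neg]

lemma rf_mi (x : Fin 4 → Fin 2 → ℂ) : rf (HH z) mi x = ![x 0, x 2, x 1, x 3] := by
  funext i
  simp only [rf, hh_mi]
  fin_cases i <;> simp [mi, e1, e2]

lemma sw_sw (a : Lb) : sw (sw a) = a := by cases a <;> simp [sw]

lemma rf_mi_base (a : Lb) : rf (HH z) mi (base z a) = base z (sw a) := by
  rw [rf_mi]
  funext i
  cases a with
  | o => fin_cases i <;> simp [base, sw, e0]
  | n j => cases j <;> fin_cases i <;> simp [base, sw, ei, e1, e2]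
  | v j k => cases j <;> fin_cases i <;> simp [base, sw, ei, e0, e1, e2]
  | b j k => cases j <;> fin_cases i <;> simp [base, sw, ei, e0, e1, e2, e3]

lemma cg_rf_mi {ν : Fin 2 → ℂ} {x y : Fin 4 → Fin 2 → ℂ} (h : Cg O ν x y) :
    Cg O ν (rf (HH z) mi x) (rf (HH z) mi y) := by
  rw [rf_mi, rf_mi]
  intro i
  fin_cases i
  · exact h 0
  · exact h 2
  · exact h 1
  · exact h 3

lemma lev_sw (a : Lb) : lev z μ (sw a) = lev z μ a := by cases a <;> rfl

lemma lev_dvd (h : Z5 O z) (a : Lb) : ∃ ν ∈ O, pz z * μ = ν * lev z μ a := by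
  cases a with
  | o => exact ⟨pz z, h.pz_mem, rfl⟩
  | n i => exact ⟨pz z, h.pz_mem, rfl⟩
  | v i j => exact ⟨1, O.one_mem, by simp [lev]⟩
  | b i j => exact ⟨1, O.one_mem, by simp [lev]⟩

lemma Cg.mono' {ν μ' : Fin 2 → ℂ} (hν : ν ∈ O) {x y : Fin 4 → Fin 2 → ℂ}
    (h : Cg O (ν * μ') x y) : Cg O μ' x y := fun i => by
  obtain ⟨u, hu, e⟩ := h i
  exact ⟨ν * u, O.mul_mem hν hu, by rw [e]; ring⟩

/-- (M1) the reflection in a mirror maps `VV a` to `VV (sw a)`. -/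
theorem Mir.map (h : Z5 O z) {r : Fin 4 → Fin 2 → ℂ} (hr : Mir O z μ r) {a : Lb}
    {v : Fin 4 → Fin 2 → ℂ} (hv : v ∈ VV O z μ a) : rf (HH z) r v ∈ VV O z μ (sw a) := by
  refine ⟨hv.1.sub (hr.int.smul (hh_mem h.ord h.frm hv.1 hr.int)), ?_, ?_⟩
  · obtain ⟨ν, hν, e⟩ := lev_dvd (μ := μ) h a
    have h1 := hr.cong v hv.1
    rw [e] at h1
    have h2 := Cg.mono' hν h1
    have h3 : Cg O (lev z μ a) (rf (HH z) mi v) (rf (HH z) mi (base z a)) := cg_rf_mi hv.2.1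
    rw [rf_mi_base] at h3
    rw [lev_sw]
    exact h2.trans h3
  · rw [rf_hh h.frm hr.two, hv.2.2, ← rf_mi_base, rf_hh h.frm g_mm]

lemma Mir.perp {r v : Fin 4 → Fin 2 → ℂ} (hrp : Perp z p r) (hv : Perp z p v) :
    Perp z p (rf (HH z) r v) := hv.sub (hrp.smul _)

/-- (M2) occurrences at a point of a mirror are symmetric. -/
theorem Mir.occ (h : Z5 O z) {r : Fin 4 → Fin 2 → ℂ} (hr : Mir O z μ r) (hrp : Perp z p r) {a : Lb}
    (ha : Occ O z μ a p) : Occ O z μ (sw a) p := by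
  obtain ⟨v, hv, hv'⟩ := ha
  exact ⟨_, hr.map h hv, Mir.perp hrp hv'⟩


/-- the reflection maps flats to flats. -/
theorem Mir.flat (h : Z5 O z) {r : Fin 4 → Fin 2 → ℂ} (hr : Mir O z μ r) {i : Bool}
    {f0 f1 : Fin 4 → Fin 2 → ℂ} (hf : Flat O z μ i f0 f1) :
    Flat O z μ (!i) (rf (HH z) r f0) (rf (HH z) r f1) where
  m0 := hr.map h hf.m0
  m1 := hr.map h hf.m1
  orth := by rw [rf_hh h.frm hr.two, hf.orth]
  mv := fun j => by
    have := hr.map h (hf.mv j)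
    have e : rf (HH z) r (f1 - z ^ (j : ℕ) • f0)
        = rf (HH z) r f1 - z ^ (j : ℕ) • rf (HH z) r f0 := by
      simp only [rf, hh_sub_left, hh_smul_left]
      funext i
      simp only [Pi.sub_apply, Pi.smul_apply, smul_eq_mul]
      ring
    rw [e] at this
    exact this


/-- no bridges on mirrors. -/
theorem Mir.no_b (h : Z5 O z) (hμ : μ ∈ O) (hD : Deep O z μ 2) (hp : Neg z p)
    {r : Fin 4 → Fin 2 → ℂ} (hr : Mir O z μ r) (hrp : Perp z p r) (i : Bool) (k : Fin 5) :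
    ¬ Occ O z μ (.b i k) p := by
  intro hb
  have hb' := hr.occ h hrp hb
  have := ((bridge_at h hμ hD hp hb).2.2.1 (!i) k hb').1
  cases i <;> simp at this


/-- a mirror vector does not vanish at any place. -/
lemma Mir.smul_zero {r : Fin 4 → Fin 2 → ℂ} (hr : Mir O z μ r) {x : Fin 2 → ℂ}
    (hx : x • r = 0) : x = 0 := by
  have h1 : x * hh (HH z) r r = 0 := by
    rw [← hh_smul_left, hx]
    simp [hh]
  rw [hr.two] at h1
  funext t
  have := congrFun h1 t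
  simpa using this



/-- unit multiples of mirrors are mirrors. -/
theorem Mir.smul {r : Fin 4 → Fin 2 → ℂ} (hr : Mir O z μ r) {c : Fin 2 → ℂ}
    (hc : c ∈ O) (hcc : c * star c = 1) : Mir O z μ (c • r) := by
  have e : ∀ x, rf (HH z) (c • r) x = rf (HH z) r x := by
    intro x
    simp only [rf, hh_smul_right, smul_smul]
    congr 2
    linear_combination (hh (HH z) x r) * hcc
  exact ⟨hr.int.smul hc, by rw [hh_smul_left, hh_smul_right, hr.two]; linear_combination 2 * hcc,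
    fun x hx => by rw [e]; exact hr.cong x hx⟩


end

end Crest.Agent.R272.Cls_620
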