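import Crest.Agent.R272.GLoc2_620
import Crest.Agent.R272.GrDefs_559
import Crest.Agent.R272.Quot3_783

-- ▼ part R272/GLoc3_620
section

/-!
Row 272, GINST-LOC (helper620), part 3: the data `GData` (559) of the arrangement over the ball from
the root functions of the classes.
-/

set_option autoImplicit false
set_option linter.unusedSectionVars false

open Set Filter Topology
open scoped ComplexConjugate

namespace Crest.Agent.R272.GI_620

open Crest.Agent.R272.EBase_641 Crest.Agent.R272.GLoc_620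
open Crest.Agent.R272.Cls_620 Crest.Agent.R272.Quot_783
open Crest.Agent.R272.In_68 (Z5r io)
open Crest.Agent.R272.Gr_559 (Pen GData SNC)

noncomputable section

/-! ### the ball as a manifold -/

section ball

variable {Γ : Type} [Group Γ] (ρ' : Γ →* UG 3)

lemma symm_val (j : (ballFam ρ').ι) {w : E 3} (hw : w ∈ Ball 3) :
    (((ballFam ρ').e j).symm w).val = w := ballFam_symm ρ' j hw

lemma holF_of {f : E 3 → ℂ} {U : Set (BX ρ')} (hf : ∀ x ∈ U, DifferentiableAt ℂ f x.val) :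
    HolF (ballFam ρ') U (fun x => f x.val) := by
  intro j w hw
  have hwB : w ∈ Ball 3 := by
    have := hw.1
    rwa [ballFam_target] at this
  have h1 := hf _ hw.2
  rw [symm_val ρ' j hwB] at h1
  refine (h1.congr_of_eventuallyEq ?_).differentiableWithinAt
  filter_upwards [Metric.isOpen_ball.mem_nhds hwB] with y hy
  rw [symm_val ρ' j hy]

lemma dd_eq {f : E 3 → ℂ} (j : (ballFam ρ').ι) (q : BX ρ') :
    Gr_559.dd (ballFam ρ') j (fun x => f x.val) q = fderiv ℂ f q.val := by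
  rw [Gr_559.dd, ballFam_apply]
  apply Filter.EventuallyEq.fderiv_eq
  filter_upwards [Metric.isOpen_ball.mem_nhds q.mem] with y hy
  rw [symm_val ρ' j hy]

lemma snc_of {κ : Type} {f : κ → E 3 → ℂ} {q : BX ρ'}
    (H : ∀ w : κ → ℂ, ∃ X : E 3, ∀ k, f k q.val = 0 → fderiv ℂ (f k) q.val X = w k) :
    SNC (ballFam ρ') q (fun k (x : BX ρ') => f k x.val) := by
  intro j _ w
  obtain ⟨X, hX⟩ := H w
  refine ⟨X, fun k hk => ?_⟩
  rw [dd_eq]
  exact hX k hk

lemma diff_root {G : Type} [Group G] {ρ : G →* UG 3} {k : ℕ} {S : Set (V1 3)}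
    (R : Root 3 k ρ S) {q : E 3} (hq : q ∈ Ball 3) : DifferentiableAt ℂ R.f q :=
  R.f_hol.differentiableAt (Metric.isOpen_ball.mem_nhds hq)

end ball

/-! ### open neighbourhoods -/

lemma IsU.prod {κ : Type} (s : Finset κ) {F : κ → E 3 → ℂ} {q : E 3}
    (h : ∀ a ∈ s, IsU (F a) q) : IsU (fun w => ∏ a ∈ s, F a w) q := by
  classical
  induction s using Finset.induction_on with
  | empty => simpa using IsU.one q
  | insert a s ha ih =>
    have h1 := (h a (Finset.mem_insert_self a s)).mul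
      (ih fun b hb => h b (Finset.mem_insert_of_mem hb))
    exact h1.congr (Eventually.of_forall fun w => by rw [Finset.prod_insert ha])

lemma IsUM.nbhd {f g : E 3 → ℂ} {q : E 3} (h : IsUM f g q) :
    ∃ (u : E 3 → ℂ) (V : Set (E 3)), IsOpen V ∧ q ∈ V ∧ DifferentiableOn ℂ u V ∧
      (∀ w ∈ V, u w ≠ 0) ∧ ∀ w ∈ V, f w = g w * u w := by
  obtain ⟨u, ⟨U, hU, h1, h2⟩, e⟩ := h
  obtain ⟨V, hV, hVo, hqV⟩ := mem_nhds_iff.mp (inter_mem hU e)
  exact ⟨u, V, hVo, hqV, h1.mono fun w hw => (hV hw).1, fun w hw => h2 w (hV hw).1,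
    fun w hw => (hV hw).2⟩

lemma IsUM.congr_right {f g g' : E 3 → ℂ} {q : E 3} (h : IsUM f g q) (e : ∀ w, g w = g' w) :
    IsUM f g' q := by
  obtain ⟨u, hu, e'⟩ := h
  exact ⟨u, hu, e'.mono fun w hw => by rw [hw, e]⟩

lemma IsUM.congr_left {f f' g : E 3 → ℂ} {q : E 3} (h : IsUM f g q) (e : ∀ w, f' w = f w) :
    IsUM f' g q := by
  obtain ⟨u, hu, e'⟩ := h
  exact ⟨u, hu, e'.mono fun w hw => by rw [e, hw]⟩

/-! ### the products -/

/-- labels of `P i` -/
def PL (i : Bool) : Finset Lb := {.v i 1, .v i 2, .n i, .b i 1, .b i 2}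
/-- labels of `Q i` -/
def QL (i : Bool) : Finset Lb := {.v i 3, .v i 4, .v i 0, .b i 4}

/-- the colours -/
def col (i : Fin 2) : Bool := decide (i = 1)

lemma col_ne {i j : Fin 2} (h : i ≠ j) : col j = !(col i) := by
  fin_cases i <;> fin_cases j <;> simp_all [col]

section main

variable {O : Subring (Fin 2 → ℂ)} {z μ : Fin 2 → ℂ} (h : Z5r O z)
variable {G : Type} [Group G] {ρ : G →* UG 3} {kk : ℕ} (R : ∀ a : Lb, Root 3 kk ρ (SS h μ a))

/-- `P i = F_{i1} F_{i2} F_{i5} E_1 E_2` -/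
def FP (i : Bool) (q : E 3) : ℂ :=
  (R (.v i 1)).f q * (R (.v i 2)).f q * (R (.n i)).f q * ((R (.b i 1)).f q * (R (.b i 2)).f q)

/-- `Q i = F_{i3} F_{i4} F_{i0} E_4` -/
def FQ (i : Bool) (q : E 3) : ℂ :=
  (R (.v i 3)).f q * (R (.v i 4)).f q * (R (.v i 0)).f q * (R (.b i 4)).f q

lemma FP_eq (i : Bool) (q : E 3) : FP h R i q = ∏ a ∈ PL i, (R a).f q := by
  unfold FP PL
  rw [Finset.prod_insert (by cases i <;> decide), Finset.prod_insert (by cases i <;> decide),
    Finset.prod_insert (by cases i <;> decide), Finset.prod_insert (by cases i <;> decide),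
    Finset.prod_singleton]
  ring

lemma FQ_eq (i : Bool) (q : E 3) : FQ h R i q = ∏ a ∈ QL i, (R a).f q := by
  unfold FQ QL
  rw [Finset.prod_insert (by cases i <;> decide), Finset.prod_insert (by cases i <;> decide),
    Finset.prod_insert (by cases i <;> decide), Finset.prod_singleton]
  ring

/-- a product in which at most one factor vanishes. -/
lemma slot (hD : Deep O z μ 2) (L : Finset Lb) {q : E 3} (hq : q ∈ Ball 3)
    (hu : ∀ a ∈ L, ∀ b ∈ L, Occ O z μ a (pt h q) → Occ O z μ b (pt h q) → a = b) :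
    IsU (fun w => ∏ a ∈ L, (R a).f w) q ∨
      ∃ a ∈ L, ∃ v ∈ VV O z μ a, Perp z (pt h q) v ∧
        IsUM (fun w => ∏ a ∈ L, (R a).f w) (lin (io h v).1) q := by
  classical
  by_cases hex : ∃ a ∈ L, Occ O z μ a (pt h q)
  · right
    obtain ⟨a, haL, v, hv, hvp⟩ := hex
    refine ⟨a, haL, v, hv, hvp, ?_⟩
    have h1 : IsU (fun w => ∏ b ∈ L.erase a, (R b).f w) q := by
      apply IsU.prod
      intro b hb
      apply root_U h (R b) hq
      intro hOb
      exact (Finset.ne_of_mem_erase hb)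
        (hu b (Finset.mem_of_mem_erase hb) a haL hOb ⟨v, hv, hvp⟩)
    have h2 := root_L h hD (R a) hq hv hvp
    refine IsUM.congr_left (h2.mulU h1) fun w => ?_
    rw [Finset.mul_prod_erase L (fun b => (R b).f w) haL]
  · left
    apply IsU.prod
    intro a ha
    exact root_U h (R a) hq fun hO => hex ⟨a, ha, hO⟩

lemma uniqP (hμ : μ ∈ O) (hD : Deep O z μ 2) {q : E 3} (hq : q ∈ Ball 3) {i : Bool}
    (hreg : ¬ FlatAt O z μ i (pt h q)) :
    ∀ a ∈ PL i, ∀ b ∈ PL i, Occ O z μ a (pt h q) → Occ O z μ b (pt h q) → a = b := by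
  have hp := neg_pt h hq
  have h5 := h.toZ5
  intro a ha b hb hOa hOb
  by_contra hab
  have key : ∀ {a b : Lb}, a ∈ PL i → b ∈ PL i → a ≠ b → Occ O z μ a (pt h q) →
      Occ O z μ b (pt h q) → (∀ k, a ≠ .b i k) := by
    intro a b ha hb hab hOa hOb k e
    subst e
    obtain ⟨h1, h2, h3, h4, -, -⟩ := bridge_at h5 hμ hD hp hOa
    simp only [PL, Finset.mem_insert, Finset.mem_singleton, reduceCtorEq, Lb.b.injEq, true_and,
      false_or] at ha
    simp only [PL, Finset.mem_insert, Finset.mem_singleton] at hb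
    rcases hb with rfl | rfl | rfl | rfl | rfl
    · have := (h4 _ _ hOb).2
      rcases ha with rfl | rfl <;> simp at this
    · have := (h4 _ _ hOb).2
      rcases ha with rfl | rfl <;> simp at this
    · exact h2 hOb
    · exact hab (by rw [(h3 _ _ hOb).2])
    · exact hab (by rw [(h3 _ _ hOb).2])
  have hbr : ∀ {a : Lb}, a ∈ PL i → (∀ k, a ≠ .b i k) → Brn i a := by
    intro a ha hk
    simp only [PL, Finset.mem_insert, Finset.mem_singleton] at ha
    rcases ha with rfl | rfl | rfl | rfl | rfl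
    · exact Or.inr ⟨_, rfl⟩
    · exact Or.inr ⟨_, rfl⟩
    · exact Or.inl rfl
    · exact absurd rfl (hk _)
    · exact absurd rfl (hk _)
  exact hreg (flatAt_of_two h5 hμ hD hp (hbr ha (key ha hb hab hOa hOb))
    (hbr hb (key hb ha (Ne.symm hab) hOb hOa)) hab hOa hOb)

lemma uniqQ (hμ : μ ∈ O) (hD : Deep O z μ 2) {q : E 3} (hq : q ∈ Ball 3) {i : Bool}
    (hreg : ¬ FlatAt O z μ i (pt h q)) :
    ∀ a ∈ QL i, ∀ b ∈ QL i, Occ O z μ a (pt h q) → Occ O z μ b (pt h q) → a = b := by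
  have hp := neg_pt h hq
  have h5 := h.toZ5
  intro a ha b hb hOa hOb
  by_contra hab
  have key : ∀ {a b : Lb}, a ∈ QL i → b ∈ QL i → a ≠ b → Occ O z μ a (pt h q) →
      Occ O z μ b (pt h q) → (∀ k, a ≠ .b i k) := by
    intro a b ha hb hab hOa hOb k e
    subst e
    obtain ⟨h1, h2, h3, h4, -, -⟩ := bridge_at h5 hμ hD hp hOa
    simp only [QL, Finset.mem_insert, Finset.mem_singleton, reduceCtorEq, Lb.b.injEq, true_and,
      false_or] at ha
    simp only [QL, Finset.mem_insert, Finset.mem_singleton] at hb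
    subst ha
    rcases hb with rfl | rfl | rfl | rfl
    · have := (h4 _ _ hOb).2
      simp at this
    · have := (h4 _ _ hOb).2
      simp at this
    · have := (h4 _ _ hOb).2
      simp at this
    · exact hab rfl
  have hbr : ∀ {a : Lb}, a ∈ QL i → (∀ k, a ≠ .b i k) → Brn i a := by
    intro a ha hk
    simp only [QL, Finset.mem_insert, Finset.mem_singleton] at ha
    rcases ha with rfl | rfl | rfl | rfl
    · exact Or.inr ⟨_, rfl⟩
    · exact Or.inr ⟨_, rfl⟩
    · exact Or.inr ⟨_, rfl⟩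
    · exact absurd rfl (hk _)
  exact hreg (flatAt_of_two h5 hμ hD hp (hbr ha (key ha hb hab hOa hOb))
    (hbr hb (key hb ha (Ne.symm hab) hOb hOa)) hab hOa hOb)

end main

end

end Crest.Agent.R272.GI_620
end

-- ▼ part R272/GLoc4_620
section

/-!
Row 272, GINST-LOC (helper620), part 4: flats, the data `GData` (559) of the arrangement.
-/

set_option autoImplicit false
set_option linter.unusedSectionVars false

open Set Filter Topology
open scoped ComplexConjugate

namespace Crest.Agent.R272.GI_620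

open Crest.Agent.R272.EBase_641 Crest.Agent.R272.GLoc_620
open Crest.Agent.R272.Cls_620 Crest.Agent.R272.Quot_783
open Crest.Agent.R272.In_68 (Z5r io)
open Crest.Agent.R272.Gr_559 (Pen GData SNC)

noncomputable section

section flat

variable {O : Subring (Fin 2 → ℂ)} {z μ : Fin 2 → ℂ} (h : Z5r O z)
variable {G : Type} [Group G] {ρ : G →* UG 3} {kk : ℕ} (R : ∀ a : Lb, Root 3 kk ρ (SS h μ a))

lemma io_sub_smul (x y : Fin 4 → Fin 2 → ℂ) (c : Fin 2 → ℂ) :
    (io h (x - c • y)).1 = (io h x).1 - c 0 • (io h y).1 := by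
  rw [In_68.io_fst, In_68.io_fst, In_68.io_fst, ← map_smul, ← map_sub]
  rfl

/-- the six slopes of a flat. -/
def sl (z : Fin 2 → ℂ) : Fin 6 → ℂ :=
  ![conj (z 0 ^ 1), conj (z 0 ^ 2), 0, conj (z 0 ^ 3), conj (z 0 ^ 4), conj (z 0 ^ 0)]

include h in
lemma z0_ne {j k : ℕ} (hj : j < 5) (hk : k < 5) (hjk : j ≠ k) : z 0 ^ j ≠ z 0 ^ k := by
  intro e
  obtain ⟨ε, -, ε', -, he, hd⟩ := h.toZ5.diff ⟨j, hj⟩ ⟨k, hk⟩ (fun e => hjk (Fin.ext_iff.mp e))
  have h1 := congrFun hd 0
  simp only [Pi.sub_apply, Pi.pow_apply, Pi.mul_apply] at h1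
  rw [← e, sub_self] at h1
  have h2 : ε 0 ≠ 0 := by
    intro h0
    have := congrFun he 0
    simp [h0] at this
  exact mul_ne_zero (h.toZ5.pz_ne 0) h2 h1.symm

include h in
lemma sl_inj : Function.Injective (sl z) := by
  have h0 : ∀ j : ℕ, z 0 ^ j ≠ 0 := by
    intro j h0
    have := (re_pow h.toZ5 j).2
    rw [h0, norm_zero] at this
    exact zero_ne_one this
  have hc0 : ∀ j : ℕ, conj (z 0 ^ j) ≠ 0 := fun j hc => h0 j ((map_eq_zero _).mp hc)
  have hc : ∀ {j k : ℕ}, j < 5 → k < 5 → conj (z 0 ^ j) = conj (z 0 ^ k) → j = k := by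
    intro j k hj hk e
    by_contra hne
    exact z0_ne h hj hk hne ((starRingEnd ℂ).injective e)
  intro a b hab
  fin_cases a <;> fin_cases b <;> first
    | rfl
    | (exfalso; exact absurd (hc (by norm_num) (by norm_num) hab) (by norm_num))
    | (exfalso; exact hc0 _ hab)
    | (exfalso; exact hc0 _ hab.symm)

variable {i : Bool} {f0 f1 : Fin 4 → Fin 2 → ℂ} {q : E 3}

lemma flat_v (hD : Deep O z μ 2) (hq : q ∈ Ball 3) (hf : Flat O z μ i f0 f1)
    (hf0 : Perp z (pt h q) f0) (hf1 : Perp z (pt h q) f1) (j : Fin 5) :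
    IsUM (R (.v i j)).f
      (fun w => lin (io h f1).1 w - conj (z 0 ^ (j : ℕ)) * lin (io h f0).1 w) q := by
  have h1 := root_L h hD (R (.v i j)) hq (hf.mv j) (hf1.sub (hf0.smul _))
  refine IsUM.congr_right h1 fun w => ?_
  rw [io_sub_smul, lin_sub_smul]
  rfl

lemma flat_P (hD : Deep O z μ 2) (hq : q ∈ Ball 3) (hf : Flat O z μ i f0 f1)
    (hf0 : Perp z (pt h q) f0) (hf1 : Perp z (pt h q) f1) :
    IsUM (FP h R i) (fun w =>
      (lin (io h f1).1 w - sl z 0 * lin (io h f0).1 w) *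
        (lin (io h f1).1 w - sl z 1 * lin (io h f0).1 w) *
        (lin (io h f1).1 w - sl z 2 * lin (io h f0).1 w)) q := by
  have hp := neg_pt h hq
  have hFA : FlatAt O z μ i (pt h q) := ⟨f0, f1, hf, hf0, hf1⟩
  have h1 := flat_v h R hD hq hf hf0 hf1 1
  have h2 := flat_v h R hD hq hf hf0 hf1 2
  have h3 := root_L h hD (R (.n i)) hq hf.m1 hf1
  have h4 := root_U h (R (.b i 1)) hq (hFA.no_b h.toZ5 hD hp i 1)
  have h5 := root_U h (R (.b i 2)) hq (hFA.no_b h.toZ5 hD hp i 2)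
  have h6 := ((h1.mul h2).mul h3).mulU (h4.mul h5)
  refine IsUM.congr_right (IsUM.congr_left h6 fun w => rfl) fun w => ?_
  have e2 : sl z 2 = 0 := rfl
  rw [e2, zero_mul, sub_zero]
  rfl

lemma flat_Q (hD : Deep O z μ 2) (hq : q ∈ Ball 3) (hf : Flat O z μ i f0 f1)
    (hf0 : Perp z (pt h q) f0) (hf1 : Perp z (pt h q) f1) :
    IsUM (FQ h R i) (fun w =>
      (lin (io h f1).1 w - sl z 3 * lin (io h f0).1 w) *
        (lin (io h f1).1 w - sl z 4 * lin (io h f0).1 w) *
        (lin (io h f1).1 w - sl z 5 * lin (io h f0).1 w)) q := by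
  have hp := neg_pt h hq
  have hFA : FlatAt O z μ i (pt h q) := ⟨f0, f1, hf, hf0, hf1⟩
  have h1 := flat_v h R hD hq hf hf0 hf1 3
  have h2 := flat_v h R hD hq hf hf0 hf1 4
  have h3 := flat_v h R hD hq hf hf0 hf1 0
  have h4 := root_U h (R (.b i 4)) hq (hFA.no_b h.toZ5 hD hp i 4)
  have h6 := ((h1.mul h2).mul h3).mulU h4
  exact IsUM.congr_right (IsUM.congr_left h6 fun w => rfl) fun w => rfl

variable {Γ : Type} [Group Γ] (ρ' : Γ →* UG 3)

/-- **normal form at a flat**. -/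
lemma pen_exists (hD : Deep O z μ 2) {x : BX ρ'} (hf : Flat O z μ i f0 f1)
    (hf0 : Perp z (pt h x.val) f0) (hf1 : Perp z (pt h x.val) f1) :
    ∃ p : Pen (ballFam ρ') (fun y => (R .o).f y.val) (fun y => (R (.v i 0)).f y.val)
        (fun y => FP h R i y.val) (fun y => FQ h R i y.val) x,
      p.s0 = (fun y => lin (io h f0).1 y.val) ∧ p.s1 = (fun y => lin (io h f1).1 y.val) := by
  obtain ⟨a, V1, o1, m1, d1, n1, e1⟩ := IsUM.nbhd (root_L h hD (R .o) x.mem hf.m0 hf0)
  obtain ⟨b, V2, o2, m2, d2, n2, e2⟩ := IsUM.nbhd (flat_v h R hD x.mem hf hf0 hf1 0)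
  obtain ⟨u, V3, o3, m3, d3, n3, e3⟩ := IsUM.nbhd (flat_P h R hD x.mem hf hf0 hf1)
  obtain ⟨w, V4, o4, m4, d4, n4, e4⟩ := IsUM.nbhd (flat_Q h R hD x.mem hf hf0 hf1)
  set U : Set (BX ρ') := BX.val ⁻¹' (V1 ∩ V2 ∩ (V3 ∩ V4)) with hU
  have hUo : IsOpen U := ((o1.inter o2).inter (o3.inter o4)).preimage BX.continuous_val
  refine ⟨{
    U := U
    U_open := hUo
    mem := ⟨⟨m1, m2⟩, m3, m4⟩
    s0 := fun y => lin (io h f0).1 y.val
    s1 := fun y => lin (io h f1).1 y.val
    a := fun y => a y.val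
    b := fun y => b y.val
    u := fun y => u y.val
    w := fun y => w y.val
    c := sl z
    c_inj := sl_inj h
    s0_hol := holF_of ρ' fun y _ => (differentiable_lin _) _
    s1_hol := holF_of ρ' fun y _ => (differentiable_lin _) _
    a_hol := holF_of ρ' fun y hy => d1.differentiableAt (o1.mem_nhds hy.1.1)
    b_hol := holF_of ρ' fun y hy => d2.differentiableAt (o2.mem_nhds hy.1.2)
    u_hol := holF_of ρ' fun y hy => d3.differentiableAt (o3.mem_nhds hy.2.1)
    w_hol := holF_of ρ' fun y hy => d4.differentiableAt (o4.mem_nhds hy.2.2)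
    a_ne := fun y hy => n1 _ hy.1.1
    b_ne := fun y hy => n2 _ hy.1.2
    u_ne := fun y hy => n3 _ hy.2.1
    w_ne := fun y hy => n4 _ hy.2.2
    ef := fun y hy => by rw [e1 _ hy.1.1, mul_comm]
    ex := fun y hy => by
      rw [e2 _ hy.1.2, mul_comm]
      rfl
    eP := fun y hy => by rw [e3 _ hy.2.1, mul_comm]
    eQ := fun y hy => by rw [e4 _ hy.2.2, mul_comm] }, rfl, rfl⟩

end flat

end

end Crest.Agent.R272.GI_620
end

-- ▼ part R272/GLoc5_620

/-!
Row 272, GINST-LOC (helper620), part 5: **the data `GData` (559) of the arrangement**, from the root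
functions (641) of the classes and AR-CLS (620).
-/

set_option autoImplicit false
set_option linter.unusedSectionVars false

open Set Filter Topology
open scoped ComplexConjugate

namespace Crest.Agent.R272.GI_620

open Crest.Agent.R272.EBase_641 Crest.Agent.R272.GLoc_620
open Crest.Agent.R272.Cls_620 Crest.Agent.R272.Quot_783
open Crest.Agent.R272.In_68 (Z5r io)
open Crest.Agent.R272.Gr_559 (Pen GData SNC)

noncomputable section

variable {O : Subring (Fin 2 → ℂ)} {z μ : Fin 2 → ℂ} (h : Z5r O z)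
variable {G : Type} [Group G] {ρ : G →* UG 3} {kk : ℕ} (R : ∀ a : Lb, Root 3 kk ρ (SS h μ a))

lemma root_zero (hD : Deep O z μ 2) {q : E 3} (hq : q ∈ Ball 3) {a : Lb}
    (ha : Occ O z μ a (pt h q)) : (R a).f q = 0 := by
  obtain ⟨v, hv, hvp⟩ := ha
  exact (root_L h hD (R a) hq hv hvp).self_eq.mpr ((perp_iff h v q).mp hvp)

lemma root_occ {q : E 3} (hq : q ∈ Ball 3) {a : Lb} (ha : (R a).f q = 0) :
    Occ O z μ a (pt h q) := by
  by_contra hn
  exact (root_U h (R a) hq hn).ne ha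

/-- a root function vanishes exactly on the planes of its class. -/
theorem root_iff (hD : Deep O z μ 2) {q : E 3} (hq : q ∈ Ball 3) {a : Lb} :
    (R a).f q = 0 ↔ Occ O z μ a (pt h q) := ⟨root_occ h R hq, root_zero h R hD hq⟩

/-- flats are the common zeros of `f0` and `x i`. -/
theorem flat_iff (hD : Deep O z μ 2) {q : E 3} (hq : q ∈ Ball 3) (i : Bool) :
    ((R .o).f q = 0 ∧ (R (.v i 0)).f q = 0) ↔ FlatAt O z μ i (pt h q) := by
  rw [root_iff h R hD hq, root_iff h R hD hq]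
  exact ⟨fun ⟨h1, h2⟩ => flatAt_vo h.toZ5 hD (neg_pt h hq) h2 h1, fun hf => ⟨hf.o, hf.v 0⟩⟩

lemma slotP (hμ : μ ∈ O) (hD : Deep O z μ 2) {q : E 3} (hq : q ∈ Ball 3) {i : Bool}
    (hreg : ¬ FlatAt O z μ i (pt h q)) :
    IsU (FP h R i) q ∨ ∃ v, (∃ a ∈ PL i, v ∈ VV O z μ a) ∧ Perp z (pt h q) v ∧
      IsUM (FP h R i) (lin (io h v).1) q := by
  rcases slot h R hD (PL i) hq (uniqP h hμ hD hq hreg) with h1 | ⟨a, ha, v, hv, hvp, h1⟩
  · exact Or.inl (h1.congr (Eventually.of_forall fun w => FP_eq h R i w))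
  · exact Or.inr ⟨v, ⟨a, ha, hv⟩, hvp, IsUM.congr_left h1 fun w => FP_eq h R i w⟩

lemma slotQ (hμ : μ ∈ O) (hD : Deep O z μ 2) {q : E 3} (hq : q ∈ Ball 3) {i : Bool}
    (hreg : ¬ FlatAt O z μ i (pt h q)) :
    IsU (FQ h R i) q ∨ ∃ v, (∃ a ∈ QL i, v ∈ VV O z μ a) ∧ Perp z (pt h q) v ∧
      IsUM (FQ h R i) (lin (io h v).1) q := by
  rcases slot h R hD (QL i) hq (uniqQ h hμ hD hq hreg) with h1 | ⟨a, ha, v, hv, hvp, h1⟩
  · exact Or.inl (h1.congr (Eventually.of_forall fun w => FQ_eq h R i w))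
  · exact Or.inr ⟨v, ⟨a, ha, hv⟩, hvp, IsUM.congr_left h1 fun w => FQ_eq h R i w⟩

/-- the labels of the list `P 0, Q 0, P 1, Q 1` -/
def LL : Fin 4 → Finset Lb := ![PL false, QL false, PL true, QL true]

lemma LL_disj : ∀ k l : Fin 4, ∀ a ∈ LL k, a ∈ LL l → k = l := by decide

lemma LL_o : ∀ k : Fin 4, Lb.o ∉ LL k := by decide

/-- normal crossings at regular points -/
theorem snc_reg (hμ : μ ∈ O) (hD : Deep O z μ 2) {q : E 3} (hq : q ∈ Ball 3)
    (hreg : ∀ i, ¬ FlatAt O z μ i (pt h q)) (w : Fin 4 → ℂ) :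
    ∃ X : E 3, ∀ k, (![FP h R false, FQ h R false, FP h R true, FQ h R true] : Fin 4 → E 3 → ℂ) k q = 0 →
      fderiv ℂ ((![FP h R false, FQ h R false, FP h R true, FQ h R true] : Fin 4 → E 3 → ℂ) k) q X
        = w k := by
  refine snc_list h (Pr := fun k v => ∃ a ∈ LL k, v ∈ VV O z μ a) ?_ ?_ w
  · intro k
    fin_cases k
    · exact slotP h R hμ hD hq (hreg false)
    · exact slotQ h R hμ hD hq (hreg false)
    · exact slotP h R hμ hD hq (hreg true)
    · exact slotQ h R hμ hD hq (hreg true)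
  · intro s v hv hvp
    choose a ha hva using hv
    have : Fintype s := Fintype.ofFinite _
    refine indep_labels h.toZ5 hμ hD (neg_pt h hq) hreg (a := a) ?_ ?_ hva hvp
    · intro k l hkl
      have h1 := ha k
      rw [hkl] at h1
      exact Subtype.ext (LL_disj _ _ _ h1 (ha l))
    · intro k hk
      have h1 := ha k
      rw [hk] at h1
      exact LL_o _ h1

include h in
lemma sym0 {x y : Fin 4 → Fin 2 → ℂ} (hxy : Cls_620.hh (HH z) x y = 0) :
    Cls_620.hh (HH z) y x = 0 := by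
  rw [← Cls_620.hh_star (HH z) h.toZ5.frm.real x y, hxy, star_zero]

/-- normal crossings on a flat of colour `i`, off the flats of colour `j` -/
theorem snc_flat (hμ : μ ∈ O) (hD : Deep O z μ 2) {q : E 3} (hq : q ∈ Ball 3) {i j : Bool}
    (hij : i ≠ j) (hj : ¬ FlatAt O z μ j (pt h q)) {f0 f1 : Fin 4 → Fin 2 → ℂ}
    (hf : Flat O z μ i f0 f1) (hf0 : Perp z (pt h q) f0) (hf1 : Perp z (pt h q) f1)
    (w : Fin 4 → ℂ) :
    ∃ X : E 3, ∀ k, (![lin (io h f0).1, lin (io h f1).1, FP h R j, FQ h R j] :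
        Fin 4 → E 3 → ℂ) k q = 0 →
      fderiv ℂ ((![lin (io h f0).1, lin (io h f1).1, FP h R j, FQ h R j] :
        Fin 4 → E 3 → ℂ) k) q X = w k := by
  have hp := neg_pt h hq
  have h5 := h.toZ5
  have hFA : FlatAt O z μ i (pt h q) := ⟨f0, f1, hf, hf0, hf1⟩
  have hone : ∀ f : E 3 → ℂ, IsUM f f q := fun f =>
    ⟨fun _ => 1, IsU.one q, Eventually.of_forall fun w => by rw [mul_one]⟩
  -- labels of colour `j` at `q`
  have hlab : ∀ a v, (a ∈ PL j ∨ a ∈ QL j) → v ∈ VV O z μ a → Perp z (pt h q) v → a = .n j := by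
    intro a v ha hv hvp
    have hOc : Occ O z μ a (pt h q) := ⟨v, hv, hvp⟩
    cases a with
    | o => rcases ha with ha | ha <;> simp [PL, QL] at ha
    | n l =>
      rcases ha with ha | ha <;> simp [PL, QL] at ha
      rw [ha]
    | v l k =>
      exfalso
      have hl : l = j := by
        rcases ha with ha | ha <;> simp [PL, QL] at ha
        · rcases ha with ha | ha
          · exact ha.1
          · exact ha.1
        · rcases ha with ha | ha | ha
          · exact ha.1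
          · exact ha.1
          · exact ha.1
      subst hl
      exact hj (flatAt_other h5 hD hp hFA hOc)
    | b l k => exact absurd hOc (hFA.no_b h5 hD hp l k)
  refine snc_list h (κ := Fin 4)
    (Pr := fun k v => ![v = f0, v = f1, v ∈ VV O z μ (.n j), False] k) ?_ ?_ w
  · intro k
    fin_cases k
    · exact Or.inr ⟨f0, rfl, hf0, hone _⟩
    · exact Or.inr ⟨f1, rfl, hf1, hone _⟩
    · rcases slotP h R hμ hD hq hj with h1 | ⟨v, ⟨a, ha, hv⟩, hvp, h1⟩
      · exact Or.inl h1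
      · have := hlab a v (Or.inl ha) hv hvp
        subst this
        exact Or.inr ⟨v, hv, hvp, h1⟩
    · rcases slotQ h R hμ hD hq hj with h1 | ⟨v, ⟨a, ha, hv⟩, hvp, h1⟩
      · exact Or.inl h1
      · exfalso
        have := hlab a v (Or.inr ha) hv hvp
        subst this
        simp [QL] at ha
  · intro s v hv hvp
    have : Fintype s := Fintype.ofFinite _
    have hn0 : ∀ {x}, x = f0 → 0 < (Cls_620.hh (HH z) x x 0).re := by
      rintro x rfl
      exact nrm_ne h5 hf.m0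
    have hn1 : ∀ {x}, x = f1 → 0 < (Cls_620.hh (HH z) x x 0).re := by
      rintro x rfl
      exact nrm_ne h5 hf.m1
    have h01 : Cls_620.hh (HH z) f0 f1 = 0 := sym0 h hf.orth
    have hg0 : ∀ {g}, g ∈ VV O z μ (.n j) → Perp z (pt h q) g → Cls_620.hh (HH z) g f0 = 0 :=
      fun hg hgp => orth_no h5 hD hp hg hf.m0 hgp hf0
    have hg1 : ∀ {g}, g ∈ VV O z μ (.n j) → Perp z (pt h q) g → Cls_620.hh (HH z) g f1 = 0 :=
      fun hg hgp => orth_nn h5 hD hp hg hf.m1 hgp hf1 (Ne.symm hij)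
    refine indep_orth h5 ?_ ?_
    · rintro ⟨k, hk⟩ ⟨l, hl⟩ hkl
      have hvk := hv ⟨k, hk⟩
      have hvl := hv ⟨l, hl⟩
      have hpk := hvp ⟨k, hk⟩
      have hpl := hvp ⟨l, hl⟩
      have hne : k ≠ l := fun e => hkl (Subtype.ext e)
      clear hkl
      generalize v ⟨k, hk⟩ = x at hvk hpk ⊢
      generalize v ⟨l, hl⟩ = y at hvl hpl ⊢
      fin_cases k <;> fin_cases l
      · exact absurd rfl hne
      · have e1 : x = f0 := hvk
        have e2 : y = f1 := hvl
        rw [e1, e2]; exact h01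
      · have e1 : x = f0 := hvk
        rw [e1]; exact sym0 h (hg0 hvl hpl)
      · exact absurd hvl id
      · have e1 : x = f1 := hvk
        have e2 : y = f0 := hvl
        rw [e1, e2]; exact hf.orth
      · exact absurd rfl hne
      · have e1 : x = f1 := hvk
        rw [e1]; exact sym0 h (hg1 hvl hpl)
      · exact absurd hvl id
      · have e1 : y = f0 := hvl
        rw [e1]; exact hg0 hvk hpk
      · have e1 : y = f1 := hvl
        rw [e1]; exact hg1 hvk hpk
      · exact absurd rfl hne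
      · exact absurd hvl id
      · exact absurd hvk id
      · exact absurd hvk id
      · exact absurd hvk id
      · exact absurd hvk id
    · rintro ⟨k, hk⟩
      have hvk := hv ⟨k, hk⟩
      generalize v ⟨k, hk⟩ = x at hvk ⊢
      fin_cases k
      · exact hn0 hvk
      · exact hn1 hvk
      · exact nrm_ne h5 (a := .n j) hvk
      · exact absurd hvk id

/-- normal crossings at a cluster point -/
theorem snc_clu (hD : Deep O z μ 2) {q : E 3} (hq : q ∈ Ball 3)
    {f0 f1 g1 : Fin 4 → Fin 2 → ℂ}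
    (hf : Flat O z μ false f0 f1) (hg : Flat O z μ true f0 g1) (hf0 : Perp z (pt h q) f0)
    (hf1 : Perp z (pt h q) f1) (hg1 : Perp z (pt h q) g1)
    (w : Fin 3 → ℂ) :
    ∃ X : E 3, ∀ k, (![lin (io h f0).1, lin (io h f1).1, lin (io h g1).1] :
        Fin 3 → E 3 → ℂ) k q = 0 →
      fderiv ℂ ((![lin (io h f0).1, lin (io h f1).1, lin (io h g1).1] :
        Fin 3 → E 3 → ℂ) k) q X = w k := by
  have hp := neg_pt h hq
  have h5 := h.toZ5
  have hone : ∀ f : E 3 → ℂ, IsUM f f q := fun f =>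
    ⟨fun _ => 1, IsU.one q, Eventually.of_forall fun w => by rw [mul_one]⟩
  obtain ⟨-, h10, hg0, h1g, -, -, -⟩ := cluster_at h5 hD hp hf hg hf0 hf1 hf0 hg1
  refine snc_list h (κ := Fin 3) (Pr := fun k v => v = ![f0, f1, g1] k) ?_ ?_ w
  · intro k
    fin_cases k
    · exact Or.inr ⟨f0, rfl, hf0, hone _⟩
    · exact Or.inr ⟨f1, rfl, hf1, hone _⟩
    · exact Or.inr ⟨g1, rfl, hg1, hone _⟩
  · intro s v hv hvp
    have : Fintype s := Fintype.ofFinite _
    refine indep_orth h5 ?_ ?_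
    · rintro ⟨k, hk⟩ ⟨l, hl⟩ hkl
      rw [hv ⟨k, hk⟩, hv ⟨l, hl⟩]
      have hne : k ≠ l := fun e => hkl (Subtype.ext e)
      clear hkl
      show Cls_620.hh (HH z) (![f0, f1, g1] k) (![f0, f1, g1] l) = 0
      clear hk hl
      fin_cases k <;> fin_cases l
      · exact absurd rfl hne
      · exact sym0 h h10
      · exact sym0 h hg0
      · exact h10
      · exact absurd rfl hne
      · exact h1g
      · exact hg0
      · exact sym0 h h1g
      · exact absurd rfl hne
    · rintro ⟨k, hk⟩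
      rw [hv ⟨k, hk⟩]
      show 0 < (Cls_620.hh (HH z) (![f0, f1, g1] k) (![f0, f1, g1] k) 0).re
      clear hk
      fin_cases k
      · exact nrm_ne h5 hf.m0
      · exact nrm_ne h5 hf.m1
      · exact nrm_ne h5 hg.m1

/-! ### the data -/

variable {Γ : Type} [Group Γ] (ρ' : Γ →* UG 3)

/-- **the data of the graph model**. -/
def gdata (hμ : μ ∈ O) (hD : Deep O z μ 2) : GData (ballFam ρ') where
  f0 := fun y => (R .o).f y.val
  x := fun i y => (R (.v (col i) 0)).f y.val
  P := fun i y => FP h R (col i) y.val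
  Q := fun i y => FQ h R (col i) y.val
  f0_hol := holF_of ρ' fun y _ => diff_root (R .o) y.mem
  x_hol := fun i => holF_of ρ' fun y _ => diff_root (R _) y.mem
  P_hol := fun i => holF_of ρ' fun y _ =>
    (((diff_root (R _) y.mem).mul (diff_root (R _) y.mem)).mul (diff_root (R _) y.mem)).mul
      ((diff_root (R _) y.mem).mul (diff_root (R _) y.mem))
  Q_hol := fun i => holF_of ρ' fun y _ =>
    (((diff_root (R _) y.mem).mul (diff_root (R _) y.mem)).mul (diff_root (R _) y.mem)).mul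
      (diff_root (R _) y.mem)
  rr := by
    intro q hq
    have hreg : ∀ i : Fin 2, ¬ FlatAt O z μ (col i) (pt h q.val) := fun i hf =>
      hq i ((flat_iff h R hD q.mem (col i)).mpr hf)
    have hreg' : ∀ i, ¬ FlatAt O z μ i (pt h q.val) := by
      intro i
      cases i
      · exact hreg 0
      · exact hreg 1
    have h1 := snc_of ρ' (q := q) (snc_reg h R hμ hD q.mem hreg')
    convert h1 using 1
    funext k
    fin_cases k <;> rfl
  fr := by
    intro q i j hij h0 hi hj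
    obtain ⟨f0, f1, hf, hf0, hf1⟩ := (flat_iff h R hD q.mem (col i)).mp ⟨h0, hi⟩
    have hjr : ¬ FlatAt O z μ (col j) (pt h q.val) := fun hf =>
      hj ((flat_iff h R hD q.mem (col j)).mpr hf).2
    have hc : col i ≠ col j := by
      rw [col_ne hij]
      cases col i <;> simp
    obtain ⟨p, e0, e1⟩ := pen_exists h R ρ' hD hf hf0 hf1
    refine ⟨p, ?_⟩
    rw [e0, e1]
    have h1 := snc_of ρ' (q := q) (snc_flat h R hμ hD q.mem hc hjr hf hf0 hf1)
    convert h1 using 1
    funext k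
    fin_cases k <;> rfl
  ff := by
    intro q h0 h1 h2
    obtain ⟨f0, f1, hf, hf0, hf1⟩ := (flat_iff h R hD q.mem (col 0)).mp ⟨h0, h1⟩
    obtain ⟨g0, g1, hg, hg0, hg1⟩ := (flat_iff h R hD q.mem (col 1)).mp ⟨h0, h2⟩
    have e : g0 = f0 := (cluster_at h.toZ5 hD (neg_pt h q.mem) hf hg hf0 hf1 hg0 hg1).1
    subst e
    obtain ⟨p, e0, e1⟩ := pen_exists h R ρ' hD hf hf0 hf1
    obtain ⟨p', e0', e1'⟩ := pen_exists h R ρ' hD hg hg0 hg1
    refine ⟨p, p', e0'.trans e0.symm, ?_⟩
    rw [e0, e1, e1']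
    have h3 := snc_of ρ' (q := q) (snc_clu h hD q.mem hf hg hf0 hf1 hg1)
    convert h3 using 1
    funext k
    fin_cases k <;> rfl

end

end Crest.Agent.R272.GI_620
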