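import Mathlib
import Crest.Agent.R272.LbAd3_936
import Crest.Agent.R272.LbFd_936
import Crest.Agent.R272.Cls4_620
import Crest.Agent.R272.GrDefs_559

-- ▼ part R272/LbAd4_936
section

/-!
# LB-ADAPT, part 4 (row 272, lower bound for S0415; helper936)

Products and scalings of divisors; the data of the colour 1 double cover from one root function
per class.
-/

set_option autoImplicit false
set_option linter.unusedSectionVars false

open Set Filter Topology
open Crest.Agent.R272.EBase_641 Crest.Agent.R272.Wei_392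
open Crest.Agent.R272.Cls_620 (Lb)
open scoped ComplexConjugate

noncomputable section

namespace Crest.Agent.R272.LbSq_936

variable {n : ℕ}

/-- divisor of the constant one -/
theorem Div.one : Div n (∅ : Set (V1 n)) (fun _ => 1) := by
  refine ⟨differentiableOn_const _, fun z hz => by simp, fun z hz => ?_⟩
  refine ⟨univ, univ_mem, fun _ => 1, differentiableOn_const _, by simp, ∅, by simp, by simp⟩

/-- divisor of a product -/
theorem Div.mul {S S' : Set (V1 n)} {f f' : E n → ℂ} (h : Div n S f) (h' : Div n S' f')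
    (hd : Disjoint S S') : Div n (S ∪ S') (fun z => f z * f' z) := by
  classical
  refine ⟨h.hol.mul h'.hol, fun z hz => ?_, fun z hz => ?_⟩
  · refine ((h.fin z hz).union (h'.fin z hz)).subset ?_
    rintro v ⟨hv | hv, h0⟩
    · exact Or.inl ⟨hv, h0⟩
    · exact Or.inr ⟨hv, h0⟩
  · obtain ⟨U, hU, u, hu, hu0, F, hF, hf⟩ := h.div z hz
    obtain ⟨U', hU', u', hu', hu0', F', hF', hf'⟩ := h'.div z hz
    refine ⟨U ∩ U', inter_mem hU hU', fun w => u w * u' w,
      (hu.mono inter_subset_left).mul (hu'.mono inter_subset_right),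
      fun w hw => mul_ne_zero (hu0 w hw.1) (hu0' w hw.2), F ∪ F', fun v => ?_, fun w hw => ?_⟩
    · rw [Finset.mem_union, hF, hF', Set.mem_union]
      tauto
    · have hdF : Disjoint F F' := by
        rw [Finset.disjoint_left]
        intro v hv hv'
        exact (Set.disjoint_left.1 hd) ((hF v).1 hv).1 ((hF' v).1 hv').1
      show f w * f' w = _
      rw [hf w hw.1, hf' w hw.2, Finset.prod_union hdF]
      ring

theorem lin_smul (c : ℂ) (v : V1 n) (w : E n) : lin (c • v) w = conj c * lin v w := by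
  rw [lin_eq_hh, lin_eq_hh, hh_smul_right]

/-- scaling of the vectors of a divisor -/
theorem Div.scale {S : Set (V1 n)} {f : E n → ℂ} (h : Div n S f) {c : ℂ} (hc : c ≠ 0) :
    Div n ((fun v => c • v) '' S) f := by
  classical
  have hcc : conj c ≠ 0 := by simpa using hc
  have hz0 : ∀ (v : V1 n) (w : E n), lin (c • v) w = 0 ↔ lin v w = 0 := by
    intro v w
    rw [lin_smul]
    simp [hcc]
  refine ⟨h.hol, fun z hz => ?_, fun z hz => ?_⟩
  · refine ((h.fin z hz).image (fun v => c • v)).subset ?_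
    rintro _ ⟨⟨v, hv, rfl⟩, h0⟩
    exact ⟨v, ⟨hv, (hz0 v z).1 h0⟩, rfl⟩
  · obtain ⟨U, hU, u, hu, hu0, F, hF, hf⟩ := h.div z hz
    have hinj : Function.Injective (fun v : V1 n => c • v) := smul_right_injective _ hc
    refine ⟨U, hU, fun w => ((conj c) ^ F.card)⁻¹ * u w,
      (differentiableOn_const _).mul hu, fun w hw => mul_ne_zero
        (inv_ne_zero (pow_ne_zero _ hcc)) (hu0 w hw), F.image (fun v => c • v), fun v => ?_,
      fun w hw => ?_⟩
    · simp only [Finset.mem_image, Set.mem_image]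
      constructor
      · rintro ⟨v, hv, rfl⟩
        exact ⟨⟨v, ((hF v).1 hv).1, rfl⟩, (hz0 v z).2 ((hF v).1 hv).2⟩
      · rintro ⟨⟨v, hv, rfl⟩, h0⟩
        exact ⟨v, (hF v).2 ⟨hv, (hz0 v z).1 h0⟩, rfl⟩
    · rw [hf w hw, Finset.prod_image (fun a _ b _ hab => hinj hab)]
      have : ∏ v ∈ F, lin (c • v) w = (conj c) ^ F.card * ∏ v ∈ F, lin v w := by
        rw [← Finset.prod_const, ← Finset.prod_mul_distrib]
        exact Finset.prod_congr rfl fun v _ => lin_smul c v w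
      rw [this]
      have hp : (conj c) ^ F.card ≠ 0 := pow_ne_zero _ hcc
      field_simp

/-! ### the classes -/

/-- `e0` -/
def bo : V1 3 := (WithLp.toLp 2 ![1, 0, 0], 0)


/-- branch labels of colour `false` -/
def isBr : Lb → Prop
  | .n false => True
  | .v false _ => True
  | .b false k => k = 1 ∨ k = 2 ∨ k = 4
  | _ => False

/-- all the branch planes of colour `false` -/
def Sall (C : Lb → Set (V1 3)) : Set (V1 3) := {v | ∃ a, isBr a ∧ v ∈ C a}

/-- One root function per class, and the elementary facts about the classes. -/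
structure Cla (ζ : ℂ) (C : Lb → Set (V1 3)) (Fn : Lb → E3 → ℂ) : Prop where
  rz : RZ ζ
  div : ∀ a, (a = .o ∨ isBr a) → Div 3 (C a) (Fn a)
  mo : bo ∈ C .o
  mn : be ∈ C (.n false)
  mv : ∀ j : Fin 5, bv ζ j ∈ C (.v false j)
  disj : ∀ a b, isBr a → isBr b → a ≠ b → Disjoint (C a) (C b)
  ne : ∀ a, (a = .o ∨ isBr a) → ∀ v ∈ C a, v.1 ≠ 0
  uo : ∀ w : E3, ‖w‖ < 1 → w 0 = 0 → w 1 = 0 → ∀ v ∈ C .o, lin v w = 0 → v = bo
  uv : ∀ w : E3, ‖w‖ < 1 → w 0 = 0 → w 1 = 0 → ∀ v ∈ C (.v false 0), lin v w = 0 → v = bv ζ 0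

variable {ζ : ℂ} {C : Lb → Set (V1 3)} {Fn : Lb → E3 → ℂ}

theorem isBr_v (j : Fin 5) : isBr (.v false j) := trivial
theorem isBr_n : isBr (.n false) := trivial
theorem isBr_b1 : isBr (.b false 1) := Or.inl rfl
theorem isBr_b2 : isBr (.b false 2) := Or.inr (Or.inl rfl)
theorem isBr_b4 : isBr (.b false 4) := Or.inr (Or.inr rfl)

/-- the numerator / denominator functions -/
def PF (Fn : Lb → E3 → ℂ) (w : E3) : ℂ :=
  Fn (.v false 1) w * Fn (.v false 2) w * Fn (.n false) w * Fn (.b false 1) w * Fn (.b false 2) w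
def QF (Fn : Lb → E3 → ℂ) (w : E3) : ℂ :=
  Fn (.v false 3) w * Fn (.v false 4) w * Fn (.v false 0) w * Fn (.b false 4) w

open Classical in
def SNf (ζ : ℂ) : Finset (V1 3) := insert (bv ζ 1) (insert (bv ζ 2) {be})
open Classical in
def SDf (ζ : ℂ) : Finset (V1 3) := insert (bv ζ 3) (insert (bv ζ 4) {bv ζ 0})

theorem mem_SNf {v : V1 3} : v ∈ SNf ζ ↔ v = bv ζ 1 ∨ v = bv ζ 2 ∨ v = be := by
  simp [SNf]
theorem mem_SDf {v : V1 3} : v ∈ SDf ζ ↔ v = bv ζ 3 ∨ v = bv ζ 4 ∨ v = bv ζ 0 := by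
  simp [SDf]

theorem RZ.bvne (h : RZ ζ) {i j : ℕ} (hi : i < 5) (hj : j < 5) (hij : i ≠ j) :
    bv ζ i ≠ bv ζ j := fun e => hij (bv_inj h hi hj e)

theorem prod_SNf (h : RZ ζ) (f : V1 3 → ℂ) :
    ∏ v ∈ SNf ζ, f v = f (bv ζ 1) * f (bv ζ 2) * f be := by
  classical
  rw [SNf, Finset.prod_insert, Finset.prod_insert, Finset.prod_singleton]
  · ring
  · rw [Finset.mem_singleton]
    exact (be_ne_bv h 2).symm
  · rw [Finset.mem_insert, Finset.mem_singleton]
    rintro (h1 | h1)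
    · exact h.bvne (by norm_num) (by norm_num) (by norm_num) h1
    · exact (be_ne_bv h 1) h1.symm

theorem prod_SDf (h : RZ ζ) (f : V1 3 → ℂ) :
    ∏ v ∈ SDf ζ, f v = f (bv ζ 3) * f (bv ζ 4) * f (bv ζ 0) := by
  classical
  rw [SDf, Finset.prod_insert, Finset.prod_insert, Finset.prod_singleton]
  · ring
  · rw [Finset.mem_singleton]
    exact h.bvne (by norm_num) (by norm_num) (by norm_num)
  · rw [Finset.mem_insert, Finset.mem_singleton]
    rintro (h1 | h1)
    · exact h.bvne (by norm_num) (by norm_num) (by norm_num) h1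
    · exact h.bvne (by norm_num) (by norm_num) (by norm_num) h1

theorem prod_S0 (h : RZ ζ) (f : V1 3 → ℂ) :
    ∏ v ∈ S0 ζ, f v = (∏ v ∈ SNf ζ, f v) * ∏ v ∈ SDf ζ, f v := by
  classical
  rw [prod_SNf h, prod_SDf h, S0, Finset.prod_insert, Finset.prod_image]
  · simp only [Finset.prod_range_succ, Finset.prod_range_zero, one_mul]
    ring
  · intro i hi j hj e
    exact bv_inj h (by simpa using hi) (by simpa using hj) e
  · intro h1
    obtain ⟨j, -, hj⟩ := Finset.mem_image.1 h1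
    exact be_ne_bv h j hj.symm

theorem card_SNf (h : RZ ζ) : (SNf ζ).card = 3 := by
  classical
  rw [SNf, Finset.card_insert_of_notMem, Finset.card_insert_of_notMem, Finset.card_singleton]
  · rw [Finset.mem_singleton]
    exact (be_ne_bv h 2).symm
  · rw [Finset.mem_insert, Finset.mem_singleton]
    rintro (h1 | h1)
    · exact h.bvne (by norm_num) (by norm_num) (by norm_num) h1
    · exact (be_ne_bv h 1) h1.symm

theorem card_SDf (h : RZ ζ) : (SDf ζ).card = 3 := by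
  classical
  rw [SDf, Finset.card_insert_of_notMem, Finset.card_insert_of_notMem, Finset.card_singleton]
  · rw [Finset.mem_singleton]
    exact h.bvne (by norm_num) (by norm_num) (by norm_num)
  · rw [Finset.mem_insert, Finset.mem_singleton]
    rintro (h1 | h1)
    · exact h.bvne (by norm_num) (by norm_num) (by norm_num) h1
    · exact h.bvne (by norm_num) (by norm_num) (by norm_num) h1

theorem Cla.base_mem (D : Cla ζ C Fn) {v : V1 3} (hv : v ∈ S0 ζ) : v ∈ Sall C := by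
  rcases mem_S0.1 hv with rfl | ⟨j, hj, rfl⟩
  · exact ⟨_, isBr_n, D.mn⟩
  · exact ⟨.v false ⟨j, hj⟩, trivial, D.mv ⟨j, hj⟩⟩

/-- a base vector in a branch class is the base vector of this class -/
theorem Cla.base_unique (D : Cla ζ C Fn) {a : Lb} (ha : isBr a) {v : V1 3} (hv : v ∈ S0 ζ)
    (hva : v ∈ C a) : (a = .n false ∧ v = be) ∨ ∃ j : Fin 5, a = .v false j ∧ v = bv ζ j := by
  rcases mem_S0.1 hv with rfl | ⟨j, hj, rfl⟩
  · left
    refine ⟨?_, rfl⟩
    by_contra h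
    exact (Set.disjoint_left.1 (D.disj a _ ha isBr_n h)) hva D.mn
  · right
    refine ⟨⟨j, hj⟩, ?_, rfl⟩
    by_contra h
    exact (Set.disjoint_left.1 (D.disj a _ ha (isBr_v _) h)) hva (D.mv ⟨j, hj⟩)

/-- the divisor of the product of all the branch functions -/
theorem Cla.divPQ (D : Cla ζ C Fn) : Div 3 (Sall C) (fun w => PF Fn w * QF Fn w) := by
  have hd := D.disj
  have d1 := D.div (.v false 1) (Or.inr trivial)
  have d2 := D.div (.v false 2) (Or.inr trivial)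
  have dn := D.div (.n false) (Or.inr trivial)
  have e1 := D.div (.b false 1) (Or.inr isBr_b1)
  have e2 := D.div (.b false 2) (Or.inr isBr_b2)
  have d3 := D.div (.v false 3) (Or.inr trivial)
  have d4 := D.div (.v false 4) (Or.inr trivial)
  have d0 := D.div (.v false 0) (Or.inr trivial)
  have e4 := D.div (.b false 4) (Or.inr isBr_b4)
  have p1 := Div.mul d1 d2 (hd _ _ trivial trivial (by decide))
  have p2 := Div.mul p1 dn (Set.disjoint_union_left.2
    ⟨hd _ _ trivial trivial (by decide), hd _ _ trivial trivial (by decide)⟩)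
  have p3 := Div.mul p2 e1 (Set.disjoint_union_left.2 ⟨Set.disjoint_union_left.2
    ⟨hd _ _ trivial isBr_b1 (by decide), hd _ _ trivial isBr_b1 (by decide)⟩,
    hd _ _ trivial isBr_b1 (by decide)⟩)
  have p4 := Div.mul p3 e2 (Set.disjoint_union_left.2 ⟨Set.disjoint_union_left.2
    ⟨Set.disjoint_union_left.2
    ⟨hd _ _ trivial isBr_b2 (by decide), hd _ _ trivial isBr_b2 (by decide)⟩,
    hd _ _ trivial isBr_b2 (by decide)⟩, hd _ _ isBr_b1 isBr_b2 (by decide)⟩)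
  have q1 := Div.mul d3 d4 (hd _ _ trivial trivial (by decide))
  have q2 := Div.mul q1 d0 (Set.disjoint_union_left.2
    ⟨hd _ _ trivial trivial (by decide), hd _ _ trivial trivial (by decide)⟩)
  have q3 := Div.mul q2 e4 (Set.disjoint_union_left.2 ⟨Set.disjoint_union_left.2
    ⟨hd _ _ trivial isBr_b4 (by decide), hd _ _ trivial isBr_b4 (by decide)⟩,
    hd _ _ trivial isBr_b4 (by decide)⟩)
  have dd : ∀ a, isBr a → (a = .v false 1 ∨ a = .v false 2 ∨ a = .n false ∨ a = .b false 1 ∨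
      a = .b false 2) → ∀ b, isBr b → (b = .v false 3 ∨ b = .v false 4 ∨ b = .v false 0 ∨
      b = .b false 4) → Disjoint (C a) (C b) := by
    intro a ha ha' b hb hb'
    refine hd a b ha hb ?_
    rcases ha' with rfl | rfl | rfl | rfl | rfl <;> rcases hb' with rfl | rfl | rfl | rfl <;>
      decide
  have key : ∀ a, isBr a → (a = .v false 1 ∨ a = .v false 2 ∨ a = .n false ∨ a = .b false 1 ∨
      a = .b false 2) → Disjoint (C a)
        (((C (.v false 3) ∪ C (.v false 4)) ∪ C (.v false 0)) ∪ C (.b false 4)) := by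
    intro a ha ha'
    refine Set.disjoint_union_right.2 ⟨Set.disjoint_union_right.2 ⟨Set.disjoint_union_right.2
      ⟨?_, ?_⟩, ?_⟩, ?_⟩
    · exact dd a ha ha' _ trivial (Or.inl rfl)
    · exact dd a ha ha' _ trivial (Or.inr (Or.inl rfl))
    · exact dd a ha ha' _ trivial (Or.inr (Or.inr (Or.inl rfl)))
    · exact dd a ha ha' _ isBr_b4 (Or.inr (Or.inr (Or.inr rfl)))
  have r := Div.mul p4 q3 (Set.disjoint_union_left.2 ⟨Set.disjoint_union_left.2
    ⟨Set.disjoint_union_left.2 ⟨Set.disjoint_union_left.2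
    ⟨key _ trivial (Or.inl rfl), key _ trivial (Or.inr (Or.inl rfl))⟩,
    key _ trivial (Or.inr (Or.inr (Or.inl rfl)))⟩,
    key _ isBr_b1 (Or.inr (Or.inr (Or.inr (Or.inl rfl))))⟩,
    key _ isBr_b2 (Or.inr (Or.inr (Or.inr (Or.inr rfl))))⟩)
  have hS : Sall C = ((((C (.v false 1) ∪ C (.v false 2)) ∪ C (.n false)) ∪ C (.b false 1)) ∪
      C (.b false 2)) ∪ (((C (.v false 3) ∪ C (.v false 4)) ∪ C (.v false 0)) ∪
      C (.b false 4)) := by
    ext v
    simp only [Sall, Set.mem_union, Set.mem_ofPred_eq]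
    constructor
    · rintro ⟨a, ha, hv⟩
      cases a with
      | o => exact ha.elim
      | n i =>
        cases i with
        | false => tauto
        | true => exact ha.elim
      | v i j =>
        cases i with
        | false =>
          fin_cases j
          · exact Or.inr (Or.inl (Or.inr hv))
          · exact Or.inl (Or.inl (Or.inl (Or.inl (Or.inl hv))))
          · exact Or.inl (Or.inl (Or.inl (Or.inl (Or.inr hv))))
          · exact Or.inr (Or.inl (Or.inl (Or.inl hv)))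
          · exact Or.inr (Or.inl (Or.inl (Or.inr hv)))
        | true => exact ha.elim
      | b i k =>
        cases i with
        | false =>
          rcases ha with rfl | rfl | rfl
          · exact Or.inl (Or.inl (Or.inr hv))
          · exact Or.inl (Or.inr hv)
          · exact Or.inr (Or.inr hv)
        | true => exact ha.elim
    · rintro (((((h | h) | h) | h) | h) | (((h | h) | h) | h))
      · exact ⟨_, isBr_v 1, h⟩
      · exact ⟨_, isBr_v 2, h⟩
      · exact ⟨_, isBr_n, h⟩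
      · exact ⟨_, isBr_b1, h⟩
      · exact ⟨_, isBr_b2, h⟩
      · exact ⟨_, isBr_v 3, h⟩
      · exact ⟨_, isBr_v 4, h⟩
      · exact ⟨_, isBr_v 0, h⟩
      · exact ⟨_, isBr_b4, h⟩
  rw [hS]
  exact r

end Crest.Agent.R272.LbSq_936
end
end

-- ▼ part R272/LbAd5_936

/-!
# LB-ADAPT, part 5 (row 272, lower bound for S0415; helper936)

From `Cla` (one root function per class) to `AD` and to `Gm` for 559's `GData.Y 0`.
-/

set_option autoImplicit false
set_option linter.unusedSectionVars false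

open Set Filter Topology
open Crest.Agent.R272.EBase_641 Crest.Agent.R272.Wei_392
open Crest.Agent.R272.Cls_620 (Lb)
open scoped ComplexConjugate

noncomputable section

namespace Crest.Agent.R272.LbSq_936

variable {ζ : ℂ} {C : Lb → Set (V1 3)} {Fn : Lb → E3 → ℂ}

/-- division of one root function by its base factor -/
theorem Cla.split (D : Cla ζ C Fn) {a : Lb} (ha : a = .o ∨ isBr a) {b : V1 3} (hb : b ∈ C a) :
    ∃ q : E3 → ℂ, ContinuousOn q (Metric.ball 0 1) ∧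
      (∀ w : E3, ‖w‖ < 1 → q w = 0 → ∃ v ∈ C a, v ≠ b ∧ lin v w = 0) ∧
      ∀ w : E3, ‖w‖ < 1 → Fn a w = lin b w * q w := by
  classical
  obtain ⟨q, hq, hF⟩ := LbSq_936.Div.split (D.div a ha) {b}
    (by intro v hv; rw [Finset.mem_singleton] at hv; rw [hv]; exact hb)
    (by intro v hv; rw [Finset.mem_singleton] at hv; rw [hv]; exact D.ne a ha b hb)
  refine ⟨q, hq.hol.continuousOn, fun w hw h0 => ?_, fun w hw => ?_⟩
  · obtain ⟨v, hv, hv0⟩ := (hq.eq_zero_iff (mem_Ball.2 hw)).1 h0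
    refine ⟨v, hv.1, ?_, hv0⟩
    rintro rfl
    exact hv.2 (by simp)
  · rw [hF w (mem_Ball.2 hw), Finset.prod_singleton]

/-- all the factors of the adapter -/
structure Fac (ζ : ℂ) (C : Lb → Set (V1 3)) (Fn : Lb → E3 → ℂ) (a0 b0 qN qD : E3 → ℂ) : Prop where
  ca0 : ContinuousOn a0 (Metric.ball 0 1)
  cb0 : ContinuousOn b0 (Metric.ball 0 1)
  cqN : ContinuousOn qN (Metric.ball 0 1)
  cqD : ContinuousOn qD (Metric.ball 0 1)
  a0n : ∀ w : E3, ‖w‖ < 1 → w 0 = 0 → w 1 = 0 → a0 w ≠ 0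
  b0n : ∀ w : E3, ‖w‖ < 1 → w 0 = 0 → w 1 = 0 → b0 w ≠ 0
  e0 : ∀ w : E3, ‖w‖ < 1 → Fn .o w = a0 w * w 0
  e1 : ∀ w : E3, ‖w‖ < 1 → Fn (.v false 0) w = b0 w * (w 1 - 1 * w 0)
  eN : ∀ w : E3, ‖w‖ < 1 → PF Fn w = (∏ v ∈ SNf ζ, lin v w) * qN w
  eD : ∀ w : E3, ‖w‖ < 1 → QF Fn w = (∏ v ∈ SDf ζ, lin v w) * qD w
  zN : ∀ w : E3, ‖w‖ < 1 → qN w = 0 → ∃ v ∈ Sall C, v ∉ S0 ζ ∧ lin v w = 0
  zD : ∀ w : E3, ‖w‖ < 1 → qD w = 0 → ∃ v ∈ Sall C, v ∉ S0 ζ ∧ lin v w = 0

theorem lin_bo (w : E3) : lin bo w = w 0 := by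
  unfold lin bo
  rw [PiLp.inner_apply, Fin.sum_univ_three]
  simp

theorem lin_bv0 (w : E3) : lin (bv ζ 0) w = w 1 - w 0 := by
  unfold lin bv
  rw [PiLp.inner_apply, Fin.sum_univ_three]
  simp
  ring

theorem Cla.fac (D : Cla ζ C Fn) : ∃ a0 b0 qN qD : E3 → ℂ, Fac ζ C Fn a0 b0 qN qD := by
  obtain ⟨a0, ca, za, ea⟩ := D.split (Or.inl rfl) D.mo
  obtain ⟨b0, cb, zb, eb⟩ := D.split (Or.inr (isBr_v 0)) (D.mv 0)
  obtain ⟨q1, c1, z1, e1⟩ := D.split (Or.inr (isBr_v 1)) (D.mv 1)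
  obtain ⟨q2, c2, z2, e2⟩ := D.split (Or.inr (isBr_v 2)) (D.mv 2)
  obtain ⟨q3, c3, z3, e3⟩ := D.split (Or.inr (isBr_v 3)) (D.mv 3)
  obtain ⟨q4, c4, z4, e4⟩ := D.split (Or.inr (isBr_v 4)) (D.mv 4)
  obtain ⟨qn, cn, zn, en⟩ := D.split (Or.inr isBr_n) D.mn
  have hsub : Metric.ball (0 : E3) 1 = Ball 3 := rfl
  have cB1 := (D.div _ (Or.inr isBr_b1)).hol.continuousOn
  have cB2 := (D.div _ (Or.inr isBr_b2)).hol.continuousOn
  have cB4 := (D.div _ (Or.inr isBr_b4)).hol.continuousOn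
  -- bridges: zeros
  have zB : ∀ k : Fin 5, isBr (.b false k) → ∀ w : E3, ‖w‖ < 1 → Fn (.b false k) w = 0 →
      ∃ v ∈ Sall C, v ∉ S0 ζ ∧ lin v w = 0 := by
    intro k hk w hw h0
    obtain ⟨v, hv, hv0⟩ := ((D.div _ (Or.inr hk)).eq_zero_iff (mem_Ball.2 hw)).1 h0
    refine ⟨v, ⟨_, hk, hv⟩, fun h => ?_, hv0⟩
    rcases D.base_unique hk h hv with ⟨h1, -⟩ | ⟨j, h1, -⟩
    · cases h1
    · cases h1
  -- the quotients: zeros
  have zq : ∀ (a : Lb) (b : V1 3), isBr a → b ∈ S0 ζ → b ∈ C a → ∀ q : E3 → ℂ,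
      (∀ w : E3, ‖w‖ < 1 → q w = 0 → ∃ v ∈ C a, v ≠ b ∧ lin v w = 0) →
      ∀ w : E3, ‖w‖ < 1 → q w = 0 → ∃ v ∈ Sall C, v ∉ S0 ζ ∧ lin v w = 0 := by
    intro a b ha hb hba q hq w hw h0
    obtain ⟨v, hv, hvb, hv0⟩ := hq w hw h0
    refine ⟨v, ⟨a, ha, hv⟩, fun h => hvb ?_, hv0⟩
    rcases D.base_unique ha h hv with ⟨h1, h2⟩ | ⟨j, h1, h2⟩
    · rcases D.base_unique ha hb hba with ⟨-, h4⟩ | ⟨j', h3, -⟩
      · rw [h2, h4]
      · rw [h1] at h3; cases h3
    · rcases D.base_unique ha hb hba with ⟨h3, -⟩ | ⟨j', h3, h4⟩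
      · rw [h1] at h3; cases h3
      · rw [h1] at h3
        have : j = j' := by injection h3
        rw [h2, h4, this]
  have hm : ∀ j : ℕ, j < 5 → bv ζ j ∈ S0 ζ := fun j hj => mem_S0.2 (Or.inr ⟨j, hj, rfl⟩)
  have hme : be ∈ S0 ζ := mem_S0.2 (Or.inl rfl)
  refine ⟨a0, b0, fun w => q1 w * q2 w * qn w * Fn (.b false 1) w * Fn (.b false 2) w,
    fun w => q3 w * q4 w * b0 w * Fn (.b false 4) w, ca, cb,
    ((((c1.mul c2).mul cn).mul cB1).mul cB2), (((c3.mul c4).mul cb).mul cB4), ?_, ?_, ?_, ?_,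
    ?_, ?_, ?_, ?_⟩
  · intro w hw h0 h1 hz
    obtain ⟨v, hv, hvb, hv0⟩ := za w hw hz
    exact hvb (D.uo w hw h0 h1 v hv hv0)
  · intro w hw h0 h1 hz
    obtain ⟨v, hv, hvb, hv0⟩ := zb w hw hz
    exact hvb (D.uv w hw h0 h1 v hv hv0)
  · intro w hw
    rw [ea w hw, lin_bo]
    ring
  · intro w hw
    rw [eb w hw]
    show lin (bv ζ 0) w * b0 w = _
    rw [lin_bv0]
    ring
  · intro w hw
    show Fn (.v false 1) w * Fn (.v false 2) w * Fn (.n false) w * Fn (.b false 1) w *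
      Fn (.b false 2) w = _
    rw [prod_SNf D.rz, e1 w hw, e2 w hw, en w hw]
    show lin (bv ζ 1) w * q1 w * (lin (bv ζ 2) w * q2 w) * _ * _ * _ = _
    ring
  · intro w hw
    show Fn (.v false 3) w * Fn (.v false 4) w * Fn (.v false 0) w * Fn (.b false 4) w = _
    rw [prod_SDf D.rz, e3 w hw, e4 w hw, eb w hw]
    show lin (bv ζ 3) w * q3 w * (lin (bv ζ 4) w * q4 w) * (lin (bv ζ 0) w * b0 w) * _ = _
    ring
  · intro w hw h0
    rcases mul_eq_zero.1 h0 with h0 | h0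
    · rcases mul_eq_zero.1 h0 with h0 | h0
      · rcases mul_eq_zero.1 h0 with h0 | h0
        · rcases mul_eq_zero.1 h0 with h0 | h0
          · exact zq _ _ (isBr_v 1) (hm 1 (by norm_num)) (D.mv 1) q1 z1 w hw h0
          · exact zq _ _ (isBr_v 2) (hm 2 (by norm_num)) (D.mv 2) q2 z2 w hw h0
        · exact zq _ _ isBr_n hme D.mn qn zn w hw h0
      · exact zB 1 isBr_b1 w hw h0
    · exact zB 2 isBr_b2 w hw h0
  · intro w hw h0
    rcases mul_eq_zero.1 h0 with h0 | h0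
    · rcases mul_eq_zero.1 h0 with h0 | h0
      · rcases mul_eq_zero.1 h0 with h0 | h0
        · exact zq _ _ (isBr_v 3) (hm 3 (by norm_num)) (D.mv 3) q3 z3 w hw h0
        · exact zq _ _ (isBr_v 4) (hm 4 (by norm_num)) (D.mv 4) q4 z4 w hw h0
      · exact zq _ _ (isBr_v 0) (hm 0 (by norm_num)) (D.mv 0) b0 zb w hw h0
    · exact zB 4 isBr_b4 w hw h0

theorem Fac.ad {a0 b0 qN qD : E3 → ℂ} (hζ : RZ ζ) (H : Fac ζ C Fn a0 b0 qN qD) :
    Gm.AD (Sall C) (fun w => PF Fn w * QF Fn w) (S0 ζ) (SNf ζ) (SDf ζ) qN qD where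
  split := fun w hw => by
    show PF Fn w * QF Fn w = _
    rw [H.eN w hw, H.eD w hw]
  subN := by
    intro v hv
    rcases mem_SNf.1 hv with rfl | rfl | rfl
    · exact mem_S0.2 (Or.inr ⟨1, by norm_num, rfl⟩)
    · exact mem_S0.2 (Or.inr ⟨2, by norm_num, rfl⟩)
    · exact mem_S0.2 (Or.inl rfl)
  subD := by
    intro v hv
    rcases mem_SDf.1 hv with rfl | rfl | rfl
    · exact mem_S0.2 (Or.inr ⟨3, by norm_num, rfl⟩)
    · exact mem_S0.2 (Or.inr ⟨4, by norm_num, rfl⟩)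
    · exact mem_S0.2 (Or.inr ⟨0, by norm_num, rfl⟩)
  cardN := card_SNf hζ
  cardD := card_SDf hζ
  card0 := card_S0 hζ
  zN := H.zN
  zD := H.zD

/-- FData from `Cla` and the far/bridge dichotomy. -/
theorem Cla.fdata (D : Cla ζ C Fn) {ι : Type*} (V : ι → V1 3)
    (hrest : ∀ v ∈ Sall C, v ∉ S0 ζ → (∃ i, V i = v) ∨ IsBr ζ 4 v ∨ IsBr ζ 1 v ∨ IsBr ζ 2 v) :
    FData (Sall C) (fun w => PF Fn w * QF Fn w) (S0 ζ) (bv ζ 1) (bv ζ 2) V (-3 * ζ) (27 / 10) 3
      (27 / 37) (3 / 4) :=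
  LbSq_936.fdata D.rz D.divPQ (fun _ hv => D.base_mem hv) V hrest

/-! ### 559's model -/

open Crest.Agent.R272.Gr_559 Crest.Agent.R275.Geo Crest.Agent.R273.Fam_835

variable {N : Type} [TopologicalSpace N] {Fm : Fam 3 N}

theorem pco_P1 : PCo (P := P1) P1.n P1.d := pco_onePoint

/-- **the graph model of colour 0 of 559 is a `Gm`** -/
theorem gm_Y (_D : Cla ζ C Fn) {a0 b0 qN qD : E3 → ℂ} (H : Fac ζ C Fn a0 b0 qN qD)
    (GD : GData Fm) (zN : N → E3) (hz : Continuous zN) (hz1 : ∀ p, ‖zN p‖ < 1)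
    (h0 : ∀ p, GD.f0 p = Fn .o (zN p)) (hx : ∀ p, GD.x 0 p = Fn (.v false 0) (zN p))
    (hP : ∀ p, GD.P 0 p = PF Fn (zN p)) (hQ : ∀ p, GD.Q 0 p = QF Fn (zN p))
    (hcx : Continuous (GD.x 0)) (hc0 : Continuous GD.f0) (hcP : Continuous (GD.P 0))
    (hcQ : Continuous (GD.Q 0)) :
    Gm (GD.Y 0) P1.n P1.d (fun y => zN y.1.1) (fun y => y.1.2.1) (fun y => y.1.2.2) 1
      a0 b0 qN qD (SNf ζ) (SDf ζ) := by
  -- projectively continuous relations are closed
  have clos : ∀ (A B : N × P1 × P1 → ℂ) (κ : N × P1 × P1 → P1) (m : ℕ), Continuous A →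
      Continuous B → Continuous κ →
      IsClosed {p | A p * (P1.d (κ p)) ^ m = B p * (P1.n (κ p)) ^ m} := by
    intro A B κ m hA hB hκ
    rw [← closure_subset_iff_isClosed]
    intro p hp
    obtain ⟨U, hU, l, h1, h2, h3⟩ := pco_P1 (κ p)
    have hn : ContinuousAt (fun p => l (κ p) * P1.n (κ p)) p :=
      ContinuousAt.comp (f := κ) (h1.continuousAt hU) hκ.continuousAt
    have hd : ContinuousAt (fun p => l (κ p) * P1.d (κ p)) p :=
      ContinuousAt.comp (f := κ) (h2.continuousAt hU) hκ.continuousAt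
    have hΦ : ContinuousAt (fun p => A p * (l (κ p) * P1.d (κ p)) ^ m -
        B p * (l (κ p) * P1.n (κ p)) ^ m) p :=
      (hA.continuousAt.mul (hd.pow m)).sub (hB.continuousAt.mul (hn.pow m))
    have h4 : A p * (l (κ p) * P1.d (κ p)) ^ m - B p * (l (κ p) * P1.n (κ p)) ^ m ∈
        closure ({0} : Set ℂ) :=
      hΦ.continuousWithinAt.mem_closure hp (by
        intro q hq
        have hq' : A q * (P1.d (κ q)) ^ m = B q * (P1.n (κ q)) ^ m := hq
        show A q * (l (κ q) * P1.d (κ q)) ^ m - B q * (l (κ q) * P1.n (κ q)) ^ m = 0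
        rw [mul_pow, mul_pow]
        linear_combination (l (κ q)) ^ m * hq')
    rw [closure_singleton] at h4
    have h5 : A p * (l (κ p) * P1.d (κ p)) ^ m - B p * (l (κ p) * P1.n (κ p)) ^ m = 0 := h4
    have hl : l (κ p) ^ m ≠ 0 := pow_ne_zero _ (h3 _ (mem_of_mem_nhds hU)).1
    show A p * (P1.d (κ p)) ^ m = B p * (P1.n (κ p)) ^ m
    apply mul_left_cancel₀ hl
    rw [mul_pow, mul_pow] at h5
    linear_combination h5
  have hY1 : GD.Y 0 ⊆ {p | GD.x 0 p.1 * (P1.d p.2.1) ^ 1 = GD.f0 p.1 * (P1.n p.2.1) ^ 1} := by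
    refine closure_minimal ?_ (clos (fun p => GD.x 0 p.1) (fun p => GD.f0 p.1)
      (fun p => p.2.1) 1 (hcx.comp continuous_fst) (hc0.comp continuous_fst) (by fun_prop))
    rintro p ⟨-, h1, -⟩
    show GD.x 0 p.1 * (P1.d p.2.1) ^ 1 = GD.f0 p.1 * (P1.n p.2.1) ^ 1
    rw [pow_one, pow_one]
    exact h1
  have hY2 : GD.Y 0 ⊆ {p | GD.P 0 p.1 * (P1.d p.2.2) ^ 2 = GD.Q 0 p.1 * (P1.n p.2.2) ^ 2} := by
    refine closure_minimal ?_ (clos (fun p => GD.P 0 p.1) (fun p => GD.Q 0 p.1)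
      (fun p => p.2.2) 2 (hcP.comp continuous_fst) (hcQ.comp continuous_fst) (by fun_prop))
    rintro p ⟨-, -, h2⟩
    show GD.P 0 p.1 * (P1.d p.2.2) ^ 2 = GD.Q 0 p.1 * (P1.n p.2.2) ^ 2
    linear_combination -h2
  refine ⟨pco_P1, by fun_prop, fun y => hz1 _, by fun_prop, by fun_prop, H.ca0, H.cb0, H.cqN,
    H.cqD, H.a0n, H.b0n, ?_, ?_, ?_⟩
  · intro y
    have h1 : GD.x 0 y.1.1 * (P1.d y.1.2.1) ^ 1 = GD.f0 y.1.1 * (P1.n y.1.2.1) ^ 1 := hY1 y.2
    rw [hx, h0, H.e0 _ (hz1 _), H.e1 _ (hz1 _)] at h1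
    linear_combination h1
  · intro y
    have h1 : GD.P 0 y.1.1 * (P1.d y.1.2.2) ^ 2 = GD.Q 0 y.1.1 * (P1.n y.1.2.2) ^ 2 := hY2 y.2
    rw [hP, hQ, H.eN _ (hz1 _), H.eD _ (hz1 _)] at h1
    linear_combination -h1
  · intro y hy0 hy1
    rw [closure_subtype]
    have hy : y.1 ∈ closure (GD.G 0) := y.2
    rw [mem_closure_iff_nhds] at hy ⊢
    intro U hU
    -- near `y` the factors do not vanish
    have hB : Metric.ball (0 : E3) 1 ∈ 𝓝 (zN y.1.1) :=
      Metric.isOpen_ball.mem_nhds (by simpa using hz1 y.1.1)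
    have hzc : Continuous fun p : N × P1 × P1 => zN p.1 := by fun_prop
    have hca : ContinuousAt (fun p : N × P1 × P1 => a0 (zN p.1)) y.1 :=
      ContinuousAt.comp (f := fun p : N × P1 × P1 => zN p.1) (H.ca0.continuousAt hB)
        hzc.continuousAt
    have hcb : ContinuousAt (fun p : N × P1 × P1 => b0 (zN p.1)) y.1 :=
      ContinuousAt.comp (f := fun p : N × P1 × P1 => zN p.1) (H.cb0.continuousAt hB)
        hzc.continuousAt
    have hea := hca.eventually_ne (H.a0n _ (hz1 _) hy0 hy1)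
    have heb := hcb.eventually_ne (H.b0n _ (hz1 _) hy0 hy1)
    obtain ⟨p, hpU, hpG⟩ := hy _ (inter_mem hU (inter_mem hea heb))
    refine ⟨p, hpU.1, ⟨p, subset_closure hpG⟩, ?_, rfl⟩
    rintro ⟨h2, h3⟩
    apply hpG.1
    rw [h0, hx, H.e0 _ (hz1 _), H.e1 _ (hz1 _)]
    have h2' : zN p.1 0 = 0 := h2
    have h3' : zN p.1 1 = 0 := h3
    rw [h2', h3']
    simp

end Crest.Agent.R272.LbSq_936
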