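import Crest.Agent.R272.EBase_641
import Crest.Agent.R272.St1_702
import Mathlib
import Crest.Agent.R272.LBForm_585

-- ▼ part R272/St2_702
section

/-!
# LB-START (helper702), part 2: type A / type B mirrors in the language of `EBase_641`, `V1 3`

* `IsPt x`   : `x` a point of the flat `f1 = {x0 = x1 = 0}` (`hh x x = -1`);
* `TypeA w`  : `hh w w = 2`, `w0 = 0`, `|w1| = 1`;
* `TypeB Λ v`: `hh v v = 2`, `Λ² ≤ |v0|² + |v1|²`;
* `Obj x := IsPt x ∨ TypeA x`.

`refl_straight` = (S1) in reflected form, `typeB_V` = (S2)/(V) for `M ∪ S`, `typeB_far` : `|h(o,v)|`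
is huge for points of the flat.
-/

set_option autoImplicit false

open scoped ComplexConjugate

namespace Crest.Agent.R272.St2_702

open EBase_641 St1_702

noncomputable section

/-- the part of a vector in the (1,1)-plane `F = ⟨e2, n⟩` -/
def fl (x : V1 3) : ℂ × ℂ := (x.1 2, x.2)

theorem hh_eq (x y : V1 3) :
    hh x y = x.1 0 * conj (y.1 0) + x.1 1 * conj (y.1 1) + H2 (fl x) (fl y) := by
  have h1 : inner ℂ y.1 x.1 = x.1 0 * conj (y.1 0) + x.1 1 * conj (y.1 1)
      + x.1 2 * conj (y.1 2) := by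
    rw [PiLp.inner_apply, Fin.sum_univ_three]
    simp only [RCLike.inner_apply]
  simp only [hh, h1, H2, fl]
  ring

/-- points of the flat `f1` -/
def IsPt (x : V1 3) : Prop := x.1 0 = 0 ∧ x.1 1 = 0 ∧ hh x x = -1

/-- mirrors of type A (norm 2, cross the flat) -/
def TypeA (w : V1 3) : Prop := hh w w = 2 ∧ w.1 0 = 0 ∧ ‖w.1 1‖ = 1

/-- mirrors of type B -/
def TypeB (Λ : ℝ) (v : V1 3) : Prop := hh v v = 2 ∧ Λ ^ 2 ≤ ‖v.1 0‖ ^ 2 + ‖v.1 1‖ ^ 2

def Obj (x : V1 3) : Prop := IsPt x ∨ TypeA x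

theorem fl_smul (c : ℂ) (x : V1 3) : fl (c • x) = (c * (fl x).1, c * (fl x).2) := by
  simp [fl]

theorem norm_hh_symm (x y : V1 3) : ‖hh y x‖ = ‖hh x y‖ := by
  rw [← hh_conj x y, Complex.norm_conj]

/-- normal form of an object: a unimodular multiple is `κ e1 + x_F`. -/
theorem Obj.norm {x : V1 3} (hx : Obj x) : ∃ (c : ℂ) (κ : ℝ), ‖c‖ = 1 ∧
    (c • x).1 0 = 0 ∧ (c • x).1 1 = (κ : ℂ) ∧ H2 (fl (c • x)) (fl (c • x)) = ((2 * κ - 1 : ℝ) : ℂ) ∧
    ((κ = 0 ∧ IsPt x) ∨ (κ = 1 ∧ TypeA x)) := by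
  rcases hx with h | h
  · refine ⟨1, 0, by simp, ?_, ?_, ?_, Or.inl ⟨rfl, h⟩⟩
    · simp [h.1]
    · simp [h.2.1]
    · have e := h.2.2
      rw [hh_eq, h.1, h.2.1] at e
      simp only [zero_mul, zero_add] at e
      rw [one_smul, e]; norm_num
  · have hu : x.1 1 * conj (x.1 1) = 1 := by
      rw [Complex.mul_conj, Complex.normSq_eq_norm_sq, h.2.2]; norm_num
    refine ⟨conj (x.1 1), 1, by rw [Complex.norm_conj, h.2.2], ?_, ?_, ?_, Or.inr ⟨rfl, h⟩⟩
    · simp [h.2.1]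
    · simp only [Prod.smul_fst, PiLp.smul_apply, smul_eq_mul]
      rw [mul_comm, hu]; norm_num
    · have e := h.1
      rw [hh_eq, h.2.1, hu] at e
      simp only [zero_mul, zero_add] at e
      have e2 : H2 (fl (conj (x.1 1) • x)) (fl (conj (x.1 1) • x))
          = (x.1 1 * conj (x.1 1)) * H2 (fl x) (fl x) := by
        rw [fl_smul]
        simp only [H2, map_mul, Complex.conj_conj]
        ring
      rw [e2, hu, one_mul]
      have e3 : H2 (fl x) (fl x) = 1 := by linear_combination e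
      rw [e3]; norm_num

theorem hh_of_norm {x y : V1 3} {κ κ' : ℝ} (h0 : x.1 0 = 0) (h1 : x.1 1 = (κ : ℂ))
    (h0' : y.1 0 = 0) (h1' : y.1 1 = (κ' : ℂ)) : hh x y = (κ : ℂ) * κ' + H2 (fl x) (fl y) := by
  rw [hh_eq, h0, h1, h0', h1', Complex.conj_ofReal]
  simp

theorem hh_of_norm' {x v : V1 3} {κ : ℝ} (h0 : x.1 0 = 0) (h1 : x.1 1 = (κ : ℂ)) :
    hh x v = (κ : ℂ) * conj (v.1 1) + H2 (fl x) (fl v) := by
  rw [hh_eq, h0, h1]
  simp

/-- the reflection in the norm 2 vector `w` -/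
def rho (w x : V1 3) : V1 3 := x - hh x w • w

theorem hh_rho (x s y : V1 3) : hh x (rho s y) = hh x y - hh x s * hh s y := by
  have : rho s y = y + (-(hh y s)) • s := by simp [rho, sub_eq_add_neg]
  rw [this, hh_add_right, hh_smul_right, map_neg, hh_conj]
  ring

/-- **(S1), reflected form**: `D_s(x, ρ_s y) ≥ 1/2` for points of the flat and type A mirrors. -/
theorem refl_straight {x y s : V1 3} (hs : TypeA s) (hx : Obj x) (hy : Obj y)
    (hxs : TypeA x → 11 ≤ ‖hh x s‖) (hys : TypeA y → 11 ≤ ‖hh y s‖) :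
    ‖hh x s‖ * ‖hh s y‖ ≤ 2 * ‖hh x (rho s y)‖ := by
  obtain ⟨c, κ, hc, h0, h1, hxx, hk⟩ := hx.norm
  obtain ⟨c', κ', hc', h0', h1', hyy, hk'⟩ := hy.norm
  obtain ⟨d, μ, hd, hd0, hd1, hss, hkd⟩ := (show Obj s from Or.inr hs).norm
  have hμ : μ = 1 := by
    rcases hkd with h | h
    · exfalso
      have := h.2.2.2
      rw [hs.1] at this
      norm_num at this
    · exact h.1
  subst hμ
  have e1 : hh (c • x) (d • s) = c * conj d * hh x s := by
    rw [hh_smul_left, hh_smul_right]; ring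
  have e2 : hh (d • s) (c' • y) = d * conj c' * hh s y := by
    rw [hh_smul_left, hh_smul_right]; ring
  have e3 : hh (c • x) (c' • y) = c * conj c' * hh x y := by
    rw [hh_smul_left, hh_smul_right]; ring
  have e4 : hh (c' • y) (d • s) = c' * conj d * hh y s := by
    rw [hh_smul_left, hh_smul_right]; ring
  have n1 : ‖hh (c • x) (d • s)‖ = ‖hh x s‖ := by
    rw [e1, norm_mul, norm_mul, Complex.norm_conj, hc, hd]; ring
  have n2 : ‖hh (d • s) (c' • y)‖ = ‖hh s y‖ := by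
    rw [e2, norm_mul, norm_mul, Complex.norm_conj, hc', hd]; ring
  have n4 : ‖hh (c' • y) (d • s)‖ = ‖hh y s‖ := by
    rw [e4, norm_mul, norm_mul, Complex.norm_conj, hc', hd]; ring
  have f1 := hh_of_norm h0 h1 hd0 hd1
  have f2 := hh_of_norm hd0 hd1 h0' h1'
  have f3 := hh_of_norm h0 h1 h0' h1'
  have f4 := hh_of_norm h0' h1' hd0 hd1
  have far : ∀ {z : V1 3} {k : ℝ}, k = 1 → 11 ≤ ‖(k : ℂ) * ((1 : ℝ) : ℂ) + H2 (fl z) (fl (d • s))‖ →
      10 ≤ ‖H2 (fl z) (fl (d • s))‖ := by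
    intro z k hk1 hz
    have t := norm_add_le ((k : ℂ) * ((1 : ℝ) : ℂ)) (H2 (fl z) (fl (d • s)))
    rw [hk1] at hz t
    rw [norm_mul, Complex.norm_real, norm_one] at t
    linarith
  have core := refl_core (x := fl (c • x)) (y := fl (c' • y)) (s := fl (d • s)) (κ := κ) (κ' := κ')
    (by rw [hss]; norm_num) hxx hyy
    (by
      rcases hk with h | h
      · exact Or.inl h.1
      · refine Or.inr ⟨h.1, far h.1 ?_⟩
        rw [← f1, n1]; exact hxs h.2)
    (by
      rcases hk' with h | h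
      · exact Or.inl h.1
      · refine Or.inr ⟨h.1, far h.1 ?_⟩
        rw [← f4, n4]; exact hys h.2)
  have g1 : (κ : ℂ) + H2 (fl (c • x)) (fl (d • s)) = hh (c • x) (d • s) := by
    rw [f1]; norm_num
  have g2 : (κ' : ℂ) + H2 (fl (d • s)) (fl (c' • y)) = hh (d • s) (c' • y) := by
    rw [f2]; norm_num
  rw [g1, g2, ← f3, n1, n2] at core
  have e5 : hh (c • x) (c' • y) - hh (c • x) (d • s) * hh (d • s) (c' • y)
      = c * conj c' * hh x (rho s y) := by
    rw [e1, e2, e3, hh_rho]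
    have hdd : d * conj d = 1 := by
      rw [Complex.mul_conj, Complex.normSq_eq_norm_sq, hd]; norm_num
    linear_combination (-(c * conj c' * hh x s * hh s y)) * hdd
  rw [e5, norm_mul, norm_mul, Complex.norm_conj, hc, hc'] at core
  linarith

/-- `H2` of the flat part of a type B mirror -/
theorem typeB_fl {Λ : ℝ} {v : V1 3} (hv : TypeB Λ v) :
    H2 (fl v) (fl v) = ((-(‖v.1 0‖ ^ 2 + ‖v.1 1‖ ^ 2 - 2) : ℝ) : ℂ) := by
  have h := hv.1
  rw [hh_eq, Complex.mul_conj, Complex.mul_conj, Complex.normSq_eq_norm_sq,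
    Complex.normSq_eq_norm_sq] at h
  push_cast at h ⊢
  linear_combination h

/-- **(S2) = (V) for `f1 ∪ typeA`**: `D_v(x,y) ≤ 100/Λ²` for `v` of type B. -/
theorem typeB_V {Λ : ℝ} (hΛ : 2 ≤ Λ) {x y v : V1 3} (hv : TypeB Λ v) (hx : Obj x) (hy : Obj y)
    (hxv : TypeA x → Λ ≤ ‖hh x v‖) (hyv : TypeA y → Λ ≤ ‖hh y v‖) :
    Λ ^ 2 * ‖hh x y‖ ≤ 100 * (‖hh x v‖ * ‖hh v y‖) := by
  obtain ⟨c, κ, hc, h0, h1, hxx, hk⟩ := hx.norm
  obtain ⟨c', κ', hc', h0', h1', hyy, hk'⟩ := hy.norm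
  set q := ‖v.1 0‖ ^ 2 + ‖v.1 1‖ ^ 2 - 2 with hq
  set ℓ := Real.sqrt (Λ ^ 2 - 2) with hℓ
  have hΛ2 : (2 : ℝ) ≤ Λ ^ 2 - 2 := by nlinarith
  have hℓ2 : ℓ ^ 2 = Λ ^ 2 - 2 := Real.sq_sqrt (by linarith)
  have hℓ0 : 0 < ℓ := Real.sqrt_pos.mpr (by linarith)
  have hℓΛ : ℓ ≤ Λ := by nlinarith
  have hqΛ : Λ ^ 2 - 2 ≤ q := by have := hv.2; rw [hq]; linarith
  have e1 : hh (c • x) v = c * hh x v := hh_smul_left _ _ _
  have e4 : hh (c' • y) v = c' * hh y v := hh_smul_left _ _ _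
  have e3 : hh (c • x) (c' • y) = c * conj c' * hh x y := by
    rw [hh_smul_left, hh_smul_right]; ring
  have n1 : ‖hh (c • x) v‖ = ‖hh x v‖ := by rw [e1, norm_mul, hc, one_mul]
  have n4 : ‖hh (c' • y) v‖ = ‖hh v y‖ := by rw [e4, norm_mul, hc', one_mul, norm_hh_symm]
  have n3 : ‖hh (c • x) (c' • y)‖ = ‖hh x y‖ := by
    rw [e3, norm_mul, norm_mul, Complex.norm_conj, hc, hc']; ring
  have f1 := hh_of_norm' (v := v) h0 h1
  have f4 := hh_of_norm' (v := v) h0' h1'
  have f3 := hh_of_norm h0 h1 h0' h1'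
  have core := typeB_core (x := fl (c • x)) (y := fl (c' • y)) (v := fl v) (p := v.1 1)
    (κ := κ) (κ' := κ') (q := q) (ℓ := ℓ) (by linarith) hℓ0 (by rw [hℓ2]; exact hqΛ)
    (typeB_fl hv) (by rw [hq]; nlinarith [sq_nonneg ‖v.1 0‖]) hxx hyy
    (by
      rcases hk with h | h
      · exact Or.inl h.1
      · refine Or.inr ⟨h.1, ?_⟩
        rw [← f1, n1]; exact hℓΛ.trans (hxv h.2))
    (by
      rcases hk' with h | h
      · exact Or.inl h.1
      · refine Or.inr ⟨h.1, ?_⟩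
        rw [← f4, n4, norm_hh_symm]; exact hℓΛ.trans (hyv h.2))
  rw [← f1, ← f4, ← f3, n1, n4, n3, hℓ2] at core
  have : (Λ ^ 2) * ‖hh x y‖ ≤ 2 * ((Λ ^ 2 - 2) * ‖hh x y‖) := by
    have := norm_nonneg (hh x y)
    nlinarith
  linarith


end

end Crest.Agent.R272.St2_702
end

-- ▼ part R272/WmA_181
section

/-!
# The windmill for sparse reflection systems (row 272, LB-GR), abstract form

`X` = objects (mirrors `R` and points), `c x y` = modulus of the inner product of normalised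
vectors; two mirrors `x, y` are the same iff `s x = s y`.  Output `exists_full`:
if `M0` is a windmill and `g` is a product of reflections, not in the group of `M0`, then for all
`o, o'` in `M0` some mirror `w` has `A_w (o, g o') ≥ 2 - 8000 e`.
Chain formulation, no Bass-Serre tree.
-/

namespace Crest.Agent.R272.WmA181

open Subgroup

universe u v

/-- Sparse reflection system with objects. -/
structure Sys (G : Type u) (X : Type v) [Group G] [MulAction G X] where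
  R : Set X
  O : Set X
  s : X → G
  c : X → X → ℝ
  e : ℝ
  d : ℝ
  sub : R ⊆ O
  e_pos : 0 < e
  e_le : e ≤ 1 / 10000
  d_pos : 0 < d
  d_le : 20 * d ≤ (e / 1000000) ^ 2
  R_inv : ∀ x ∈ R, ∀ y ∈ R, s x • y ∈ R
  O_inv : ∀ x ∈ R, ∀ y ∈ O, s x • y ∈ O
  s_conj : ∀ x ∈ R, ∀ y ∈ R, s (s x • y) = s x * s y * s x
  s_sq : ∀ x ∈ R, s x * s x = 1
  c_nonneg : ∀ x y, 0 ≤ c x y
  c_symm : ∀ x y, c x y = c y x
  c_inv : ∀ r ∈ R, ∀ x y, c (s r • x) (s r • y) = c x y
  c_self : ∀ x ∈ O, c x x = 1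
  c_congr : ∀ x ∈ R, ∀ y ∈ R, s x = s y → ∀ z, c x z = c y z
  c_far : ∀ x ∈ R, ∀ y ∈ R, s x ≠ s y → 1 ≤ d * c x y ^ 2
  Q1 : ∀ r ∈ R, ∀ a ∈ O, ∀ b ∈ O, ∀ f ∈ O, (a ∈ R → s a ≠ s r) → (b ∈ R → s b ≠ s r) →
    (f ∈ R → s f ≠ s r) → ∀ K : ℝ, d ≤ K → K ≤ 1 →
    c a b ≤ K * (c a r * c r b) → c b f ≤ K * (c b r * c r f) →
    c a f ≤ 20 * K * (c a r * c r f)
  Q3 : ∀ r ∈ R, ∀ a b, 2 * (c a r * c r b) ≤ c a b + c (s r • a) b

namespace Sys

variable {G : Type u} {X : Type v} [Group G] [MulAction G X] (S : Sys G X)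

/-- `a` is not the mirror `r` -/
def Off (a r : X) : Prop := a ∈ S.R → S.s a ≠ S.s r

/-- `A_r (a, b) ≤ K` -/
def Nr (K : ℝ) (r a b : X) : Prop := S.c a b ≤ K * (S.c a r * S.c r b)

/-- the small threshold -/
noncomputable def e1 : ℝ := S.e / 1000000

lemma e1_pos : 0 < S.e1 := div_pos S.e_pos (by norm_num)

lemma e1_eq : 1000000 * S.e1 = S.e := by
  unfold e1; ring

lemma e1_le : S.e1 ≤ 1 / 10000000000 := by
  have := S.e_le
  have := S.e1_eq
  linarith

lemma d_le' : 20 * S.d ≤ S.e1 * S.e1 := by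
  have := S.d_le
  unfold e1
  nlinarith

lemma d_le_e1 : 20 * S.d ≤ S.e1 := by
  have h1 := S.d_le'
  have h2 := S.e1_le
  have h3 := S.e1_pos
  nlinarith

variable {S}

lemma Nr.symm {K : ℝ} {r a b : X} (h : S.Nr K r a b) : S.Nr K r b a := by
  unfold Nr at *
  rw [S.c_symm b a, S.c_symm b r, S.c_symm r a, mul_comm (S.c r b)]
  exact h

lemma Nr.mono {K K' : ℝ} {r a b : X} (h : S.Nr K r a b) (hK : K ≤ K') : S.Nr K' r a b := by
  unfold Nr at *
  exact h.trans (mul_le_mul_of_nonneg_right hK (mul_nonneg (S.c_nonneg _ _) (S.c_nonneg _ _)))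

lemma Nr.tri {K : ℝ} {r a b f : X} (h1 : S.Nr K r a b) (h2 : S.Nr K r b f)
    (hr : r ∈ S.R) (ha : a ∈ S.O) (hb : b ∈ S.O) (hf : f ∈ S.O)
    (ha' : S.Off a r) (hb' : S.Off b r) (hf' : S.Off f r)
    (hd : S.d ≤ K) (hK : K ≤ 1) : S.Nr (20 * K) r a f :=
  S.Q1 r hr a ha b hb f hf ha' hb' hf' K hd hK h1 h2

lemma Nr.inv {K : ℝ} {r a b q : X} (h : S.Nr K r a b) (hq : q ∈ S.R) :
    S.Nr K (S.s q • r) (S.s q • a) (S.s q • b) := by
  unfold Nr at *
  rw [S.c_inv q hq, S.c_inv q hq, S.c_inv q hq]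
  exact h

lemma s_self {x : X} (hx : x ∈ S.R) : S.s (S.s x • x) = S.s x := by
  rw [S.s_conj x hx x hx, S.s_sq x hx, one_mul]

lemma s_inv {x : X} (hx : x ∈ S.R) : (S.s x)⁻¹ = S.s x := by
  rw [inv_eq_iff_mul_eq_one, S.s_sq x hx]

lemma ss {x : X} (hx : x ∈ S.R) (y : X) : S.s x • S.s x • y = y := by
  rw [smul_smul, S.s_sq x hx, one_smul]

lemma c_refl {x : X} (hx : x ∈ S.R) (z : X) : S.c (S.s x • z) x = S.c z x := by
  have h1 := S.c_inv x hx z (S.s x • x)
  rw [ss hx] at h1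
  rw [h1, S.c_symm, S.c_congr _ (S.R_inv x hx x hx) x hx (s_self hx), S.c_symm]

/-- full turn -/
lemma Nr.full {K : ℝ} {r a b : X} (h : S.Nr K r a b) (hr : r ∈ S.R) :
    (2 - K) * (S.c (S.s r • a) r * S.c r b) ≤ S.c (S.s r • a) b := by
  unfold Nr at h
  rw [c_refl hr]
  have := S.Q3 r hr a b
  linarith

/-- Behrstock -/
lemma Q2 {t : ℝ} {r q a : X} (hr : r ∈ S.R) (hq : q ∈ S.R) (hrq : S.s r ≠ S.s q) (ht : 0 < t)
    (h : t * (S.c r q * S.c q a) ≤ S.c r a) : S.Nr (S.d / t) r a q := by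
  unfold Nr
  have h1 := S.c_far r hr q hq hrq
  have h2 := S.c_nonneg q a
  have h3 := S.c_nonneg r q
  have hd := S.d_pos
  rw [S.c_symm a q, S.c_symm a r]
  have h4 : S.d / t * (t * (S.c r q * S.c q a) * S.c r q) ≤ S.d / t * (S.c r a * S.c r q) := by
    apply mul_le_mul_of_nonneg_left _ (by positivity)
    exact mul_le_mul_of_nonneg_right h h3
  refine le_trans ?_ h4
  have h5 : S.d / t * (t * (S.c r q * S.c q a) * S.c r q) = (S.d * S.c r q ^ 2) * S.c q a := by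
    field_simp
  rw [h5]
  nlinarith

lemma nr_self {r a : X} (hr : r ∈ S.R) (ha : a ∈ S.R) (h : S.s a ≠ S.s r) : S.Nr S.d r a a := by
  unfold Nr
  rw [S.c_self a (S.sub ha), S.c_symm r a]
  have := S.c_far a ha r hr h
  nlinarith

lemma off_smul {a r q : X} (hr : r ∈ S.R) (hq : q ∈ S.R) (h : S.Off a r) :
    S.Off (S.s q • a) (S.s q • r) := by
  intro ha
  have ha' : a ∈ S.R := by
    have := S.R_inv q hq _ ha
    rwa [ss hq] at this
  rw [S.s_conj q hq a ha', S.s_conj q hq r hr]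
  intro h2
  exact h ha' (mul_left_cancel (mul_right_cancel h2))

lemma off_smul' {a r : X} (hr : r ∈ S.R) (h : S.Off a r) : S.Off (S.s r • a) r := by
  have h1 := off_smul hr hr h
  intro ha
  have h2 := h1 ha
  rwa [s_self hr] at h2

/-- the group generated by the mirrors of `M` -/
def GW (S : Sys G X) (M : Set X) : Subgroup G := closure (S.s '' (M ∩ S.R))

/-- product of the reflections of a list -/
def pr (S : Sys G X) (l : List X) : G := (l.map S.s).prod

@[simp] lemma pr_nil : S.pr [] = 1 := rfl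
@[simp] lemma pr_cons (x : X) (l : List X) : S.pr (x :: l) = S.s x * S.pr l := by simp [pr]

lemma mem_GW {M : Set X} {w : X} (h : w ∈ M) (hR : w ∈ S.R) : S.s w ∈ S.GW M :=
  subset_closure (Set.mem_image_of_mem _ ⟨h, hR⟩)

lemma GW_mono {M M' : Set X} (h : M ⊆ M') : S.GW M ≤ S.GW M' :=
  closure_mono (Set.image_mono (Set.inter_subset_inter_left _ h))

lemma GW_induction {M : Set X} {p : G → Prop} (one : p 1)
    (mul : ∀ w ∈ M, w ∈ S.R → ∀ g, p g → p (S.s w * g)) {g : G} (hg : g ∈ S.GW M) : p g := by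
  unfold GW at hg
  induction hg using closure_induction_left with
  | one => exact one
  | mul_left x hx y hy ih =>
    obtain ⟨w, hw, rfl⟩ := hx
    exact mul w hw.1 hw.2 y ih
  | inv_mul_cancel x hx y hy ih =>
    obtain ⟨w, hw, rfl⟩ := hx
    rw [s_inv hw.2]
    exact mul w hw.1 hw.2 y ih

/-- windmill -/
structure Mill (S : Sys G X) (M : Set X) : Prop where
  sub : M ⊆ S.O
  inv : ∀ w ∈ M, w ∈ S.R → ∀ x ∈ M, S.s w • x ∈ M
  sat : ∀ w ∈ M, w ∈ S.R → ∀ r ∈ S.R, S.s r = S.s w → r ∈ M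
  small : ∀ r ∈ S.R, r ∉ M → ∀ a ∈ M, ∀ b ∈ M, S.Nr S.e r a b

/-- the next layer of mirrors -/
structure Layer (S : Sys G X) (M R1 : Set X) : Prop where
  sub : R1 ⊆ S.R
  disj : ∀ x ∈ R1, x ∉ M
  inv : ∀ w ∈ M, w ∈ S.R → ∀ x ∈ R1, S.s w • x ∈ R1
  sat : ∀ x ∈ R1, ∀ r ∈ S.R, S.s r = S.s x → r ∈ R1
  out : ∀ r ∈ S.R, r ∉ M → r ∉ R1 → ∀ a ∈ M, ∀ b ∈ M, S.Nr S.e1 r a b
  near : ∀ r ∈ S.R, r ∉ M → ∀ x ∈ R1, S.s x ≠ S.s r → ∃ b ∈ M, S.Nr S.e1 r x b

/-- `P` is on the base side of `x` -/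
def Bs (S : Sys G X) (M : Set X) (x P : X) : Prop :=
  P ∈ S.O ∧ S.Off P x ∧ ∀ a ∈ M, S.Nr (400 * S.e) x P a

/-- `P` is behind `q` -/
def Fr (S : Sys G X) (R1 : Set X) (q P : X) : Prop :=
  P ∈ S.O ∧ ∀ x ∈ R1, S.s x ≠ S.s q → S.Off P x ∧ S.Nr S.d x P q

section step

variable {M R1 : Set X} (hM : S.Mill M) (hne : M.Nonempty) (hL : S.Layer M R1)

include hM in
lemma off_of_mem {a r : X} (ha : a ∈ M) (hr : r ∈ S.R) (hrM : r ∉ M) : S.Off a r := by
  intro h1 h2
  exact hrM (hM.sat a ha h1 r hr h2.symm)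

include hM hL in
lemma nr_layer {r x a : X} (hr : r ∈ S.R) (hrM : r ∉ M) (hx : x ∈ R1) (hxr : S.s x ≠ S.s r)
    (ha : a ∈ M) {K : ℝ} (hK : S.e1 ≤ K) (hK1 : K ≤ 1) (h : ∀ b ∈ M, S.Nr K r b a) :
    S.Nr (20 * K) r x a := by
  obtain ⟨b, hb, h1⟩ := hL.near r hr hrM x hx hxr
  refine (h1.mono hK).tri (h b hb) hr (S.sub (hL.sub hx)) (hM.sub hb) (hM.sub ha)
    (fun _ => hxr) (off_of_mem hM hb hr hrM) (off_of_mem hM ha hr hrM) ?_ hK1
  linarith [S.d_le_e1, S.d_pos]

include hM hL in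
lemma nr_layer_e {r x a : X} (hr : r ∈ S.R) (hrM : r ∉ M) (hx : x ∈ R1) (hxr : S.s x ≠ S.s r)
    (ha : a ∈ M) : S.Nr (20 * S.e) r x a := by
  refine nr_layer hM hL hr hrM hx hxr ha ?_ ?_ fun b hb => hM.small r hr hrM b hb a ha
  · linarith [S.e1_eq, S.e1_pos]
  · linarith [S.e_le]

include hM hL in
/-- base objects are on the base side -/
lemma bs_base {x P : X} (hx : x ∈ R1) (hP : P ∈ M ∪ R1) (h : S.Off P x) : S.Bs M x P := by
  have hxR := hL.sub hx
  have hxM := hL.disj x hx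
  rcases hP with hP | hP
  · refine ⟨hM.sub hP, h, fun a ha => (hM.small x hxR hxM P hP a ha).mono ?_⟩
    linarith [S.e_pos]
  · refine ⟨S.sub (hL.sub hP), h, fun a ha => ?_⟩
    refine (nr_layer_e hM hL hxR hxM hP (h (hL.sub hP)) ha).mono ?_
    linarith [S.e_pos]

include hM hL in
lemma bs_of_fr {q x P : X} (hq : q ∈ R1) (hx : x ∈ R1) (hxq : S.s x ≠ S.s q) (h : S.Fr R1 q P) :
    S.Bs M x P := by
  obtain ⟨h1, h2⟩ := h
  obtain ⟨h3, h4⟩ := h2 x hx hxq
  refine ⟨h1, h3, fun a ha => ?_⟩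
  have h5 := nr_layer_e hM hL (hL.sub hx) (hL.disj x hx) hq hxq.symm ha
  have h6 : S.d ≤ 20 * S.e := by linarith [S.d_le_e1, S.d_pos, S.e1_eq, S.e1_pos]
  have h7 := (h4.mono h6).tri h5 (hL.sub hx) h1 (S.sub (hL.sub hq)) (hM.sub ha) h3
    (fun _ => hxq.symm) (off_of_mem hM ha (hL.sub hx) (hL.disj x hx)) h6 (by linarith [S.e_le])
  refine h7.mono ?_
  linarith [S.e_pos]

include hM hL hne in
/-- two objects on the base side -/
lemma nr_bs {x P T : X} (hx : x ∈ R1) (h1 : S.Bs M x P) (h2 : S.Bs M x T) :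
    S.Nr (8000 * S.e) x P T := by
  obtain ⟨a, ha⟩ := hne
  have h3 := (h1.2.2 a ha).tri (h2.2.2 a ha).symm (hL.sub hx) h1.1 (hM.sub ha) h2.1 h1.2.1
    (off_of_mem hM ha (hL.sub hx) (hL.disj x hx)) h2.2.1
    (by linarith [S.d_le_e1, S.d_pos, S.e1_eq, S.e1_pos]) (by linarith [S.e_le])
  refine h3.mono ?_
  linarith [S.e_pos]

include hM hL hne in
/-- full turn at `x` -/
lemma full_bs {x P T : X} (hx : x ∈ R1) (h1 : S.Bs M x P) (h2 : S.Bs M x T) :
    (2 - 8000 * S.e) * (S.c P x * S.c x (S.s x • T)) ≤ S.c P (S.s x • T) := by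
  have h3 := (nr_bs hM hne hL hx h2 h1).full (hL.sub hx)
  rw [S.c_symm P x, S.c_symm x (S.s x • T), S.c_symm P (S.s x • T), mul_comm (S.c x P)]
  exact h3

include hM hL hne in
lemma not_same {x P T : X} (hx : x ∈ R1) (h1 : S.Bs M x P) (h2 : S.Bs M x T)
    (hP : P ∈ S.R) (hT : S.s x • T ∈ S.R) : S.s P ≠ S.s (S.s x • T) := by
  intro h
  have h3 := full_bs hM hne hL hx h1 h2
  rw [S.c_symm P (S.s x • T), ← S.c_congr P hP _ hT h P, S.c_symm x (S.s x • T),
    ← S.c_congr P hP _ hT h x, S.c_self P (S.sub hP)] at h3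
  have h4 := S.c_far P hP x (hL.sub hx) (h1.2.1 hP)
  have h5 := S.e_le
  have h6 := S.d_le_e1
  have h7 := S.e1_le
  have h8 := S.d_pos
  have h9 : 0 ≤ S.c P x * S.c P x := mul_self_nonneg _
  nlinarith

include hM hL hne in
lemma fr_of_bs {x P : X} (hx : x ∈ R1) (h : S.Bs M x P) : S.Fr R1 x (S.s x • P) := by
  have hxR := hL.sub hx
  refine ⟨S.O_inv x hxR P h.1, fun y hy hyx => ?_⟩
  have hyR := hL.sub hy
  have hy1 : S.Bs M x y := bs_base hM hL hx (Or.inr hy) (fun _ => hyx)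
  have h1 := full_bs hM hne hL hx hy1 h
  have h2 : (1 : ℝ) ≤ 2 - 8000 * S.e := by linarith [S.e_le]
  refine ⟨?_, ?_⟩
  · intro hPR
    exact (not_same hM hne hL hx hy1 h hyR hPR).symm
  · refine (Q2 hyR hxR hyx (by linarith : 0 < 2 - 8000 * S.e) h1).mono ?_
    exact div_le_self S.d_pos.le h2


/-- adjacent mirrors are different -/
abbrev Adj (S : Sys G X) (l : List X) : Prop := l.IsChain (fun a b => S.s a ≠ S.s b)

include hM hL hne in
/-- chain lemma for group elements applied to `M` -/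
lemma chain (l : List X) : (∀ x ∈ l, x ∈ R1) → S.Adj l → ∀ Q ∈ M, ∀ x l', l = x :: l' →
    S.Bs M x (S.pr l' • Q) := by
  induction l with
  | nil => intro _ _ Q _ x l' h; cases h
  | cons y l ih =>
    intro h1 h2 Q hQ x l' h
    cases h
    have hy : y ∈ R1 := h1 y (by simp)
    cases l with
    | nil =>
      rw [pr_nil, one_smul]
      exact bs_base hM hL hy (Or.inl hQ) (off_of_mem hM hQ (hL.sub hy) (hL.disj y hy))
    | cons z l =>
      have hz : z ∈ R1 := h1 z (by simp)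
      have hyz : S.s y ≠ S.s z := (List.isChain_cons_cons.1 h2).1
      have h3 := ih (fun x hx => h1 x (List.mem_cons_of_mem _ hx)) (List.isChain_cons_cons.1 h2).2
        Q hQ z l rfl
      have h4 := fr_of_bs hM hne hL hz h3
      rw [pr_cons, mul_smul]
      exact bs_of_fr hM hL hz hy hyz h4

/-- endpoints of chains starting at the mirror `q` -/
inductive Beh (S : Sys G X) (M R1 : Set X) : X → X → Prop
  | base {q Q : X} : q ∈ R1 → Q ∈ M ∪ R1 → S.Off Q q → Beh S M R1 q (S.s q • Q)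
  | step {q q' T : X} : q ∈ R1 → S.s q ≠ S.s q' → Beh S M R1 q' T → Beh S M R1 q (S.s q • T)

include hM hL hne in
lemma Beh.spec {q T : X} (h : Beh S M R1 q T) : q ∈ R1 ∧ ∃ T', T = S.s q • T' ∧ S.Bs M q T' := by
  induction h with
  | base h1 h2 h3 => exact ⟨h1, _, rfl, bs_base hM hL h1 h2 h3⟩
  | step h1 h2 h3 ih =>
    obtain ⟨h4, T', rfl, h5⟩ := ih
    exact ⟨h1, _, rfl, bs_of_fr hM hL h4 h1 h2 (fr_of_bs hM hne hL h4 h5)⟩

/-- the next windmill -/
def nxt (S : Sys G X) (M R1 : Set X) : Set X := {y | y ∈ M ∪ R1 ∨ ∃ q, Beh S M R1 q y}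

lemma sub_nxt : M ⊆ S.nxt M R1 := fun _ h => Or.inl (Or.inl h)

lemma layer_sub_nxt : R1 ⊆ S.nxt M R1 := fun _ h => Or.inl (Or.inr h)

include hL in
lemma Beh.smul {w : X} (hw : w ∈ M) (hwR : w ∈ S.R) (hM : S.Mill M) {q T : X}
    (h : Beh S M R1 q T) : Beh S M R1 (S.s w • q) (S.s w • T) := by
  induction h with
  | @base q Q h1 h2 h3 =>
    have h4 : S.s w • S.s q • Q = S.s (S.s w • q) • S.s w • Q := by
      rw [S.s_conj w hwR q (hL.sub h1), mul_smul, mul_smul, ss hwR]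
    rw [h4]
    refine Beh.base (hL.inv w hw hwR q h1) ?_ (off_smul (hL.sub h1) hwR h3)
    rcases h2 with h2 | h2
    · exact Or.inl (hM.inv w hw hwR Q h2)
    · exact Or.inr (hL.inv w hw hwR Q h2)
  | @step q q' T h1 h2 h3 ih =>
    have h4 : S.s w • S.s q • T = S.s (S.s w • q) • S.s w • T := by
      rw [S.s_conj w hwR q (hL.sub h1), mul_smul, mul_smul, ss hwR]
    rw [h4]
    refine Beh.step (hL.inv w hw hwR q h1) ?_ ih
    have hq' : q' ∈ S.R := by cases h3 <;> exact hL.sub ‹_›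
    rw [S.s_conj w hwR q (hL.sub h1), S.s_conj w hwR q' hq']
    intro h5
    exact h2 (mul_left_cancel (mul_right_cancel h5))

include hM hL in
lemma nxt_inv_M {w : X} (hw : w ∈ M) (hwR : w ∈ S.R) {y : X} (hy : y ∈ S.nxt M R1) :
    S.s w • y ∈ S.nxt M R1 := by
  rcases hy with (hy | hy) | ⟨q, hq⟩
  · exact Or.inl (Or.inl (hM.inv w hw hwR y hy))
  · exact Or.inl (Or.inr (hL.inv w hw hwR y hy))
  · exact Or.inr ⟨_, hq.smul hL hw hwR hM⟩

include hL in
lemma nxt_inv_R1 {x : X} (hx : x ∈ R1) {y : X} (hy : y ∈ S.nxt M R1) :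
    S.s x • y ∈ S.nxt M R1 := by
  have hxR := hL.sub hx
  rcases hy with hy | ⟨q, hq⟩
  · by_cases h : S.Off y x
    · exact Or.inr ⟨x, Beh.base hx hy h⟩
    · simp only [Off, not_forall, not_not] at h
      obtain ⟨hyR, h⟩ := h
      have hy1 : y ∈ R1 := hL.sat x hx y hyR h
      refine Or.inl (Or.inr (hL.sat x hx _ (S.R_inv x hxR y hyR) ?_))
      rw [← h, s_self hyR]
  · by_cases h : S.s x = S.s q
    · rw [h]
      cases hq with
      | base h1 h2 h3 => rw [ss (hL.sub h1)]; exact Or.inl h2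
      | step h1 h2 h3 => rw [ss (hL.sub h1)]; exact Or.inr ⟨_, h3⟩
    · exact Or.inr ⟨x, Beh.step hx h hq⟩

/-- generators of the new group -/
lemma s_mem_of_beh (hL : S.Layer M R1) {q T : X} (h : Beh S M R1 q T) (hT : T ∈ S.R) :
    S.s T ∈ closure (S.s '' ((M ∪ R1) ∩ S.R)) := by
  induction h with
  | @base q Q h1 h2 h3 =>
    have hQ : Q ∈ S.R := by
      have := S.R_inv q (hL.sub h1) _ hT
      rwa [ss (hL.sub h1)] at this
    rw [S.s_conj q (hL.sub h1) Q hQ]
    have k1 : S.s q ∈ closure (S.s '' ((M ∪ R1) ∩ S.R)) :=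
      subset_closure (Set.mem_image_of_mem _ ⟨Or.inr h1, hL.sub h1⟩)
    have k2 : S.s Q ∈ closure (S.s '' ((M ∪ R1) ∩ S.R)) :=
      subset_closure (Set.mem_image_of_mem _ ⟨h2, hQ⟩)
    exact mul_mem (mul_mem k1 k2) k1
  | @step q q' T h1 h2 h3 ih =>
    have hQ : T ∈ S.R := by
      have := S.R_inv q (hL.sub h1) _ hT
      rwa [ss (hL.sub h1)] at this
    rw [S.s_conj q (hL.sub h1) T hQ]
    have k1 : S.s q ∈ closure (S.s '' ((M ∪ R1) ∩ S.R)) :=
      subset_closure (Set.mem_image_of_mem _ ⟨Or.inr h1, hL.sub h1⟩)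
    exact mul_mem (mul_mem k1 (ih hQ)) k1

lemma GW_nxt (hL : S.Layer M R1) : S.GW (S.nxt M R1) = S.GW (M ∪ R1) := by
  apply le_antisymm
  · refine (closure_le _).2 ?_
    rintro _ ⟨w, ⟨hw | ⟨q, hq⟩, hwR⟩, rfl⟩
    · exact subset_closure (Set.mem_image_of_mem _ ⟨hw, hwR⟩)
    · exact s_mem_of_beh hL hq hwR
  · exact GW_mono fun _ h => Or.inl h

include hM hL in
lemma nxt_inv_G {g : G} (hg : g ∈ S.GW (M ∪ R1)) {y : X} (hy : y ∈ S.nxt M R1) :
    g • y ∈ S.nxt M R1 := by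
  revert y
  refine GW_induction (p := fun g => ∀ {y}, y ∈ S.nxt M R1 → g • y ∈ S.nxt M R1) ?_ ?_ hg
  · intro y hy; rwa [one_smul]
  · intro w hw hwR g ih y hy
    rw [mul_smul]
    rcases hw with hw | hw
    · exact nxt_inv_M hM hL hw hwR (ih hy)
    · exact nxt_inv_R1 hL hw (ih hy)

lemma pr_map {w : X} (hw : w ∈ S.R) (l : List X) (hl : ∀ x ∈ l, x ∈ S.R) :
    S.pr (l.map (S.s w • ·)) = S.s w * S.pr l * S.s w := by
  induction l with
  | nil => simp [S.s_sq w hw]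
  | cons x l ih =>
    rw [List.map_cons, pr_cons, ih fun y hy => hl y (List.mem_cons_of_mem _ hy), pr_cons,
      S.s_conj w hw x (hl x (by simp))]
    have := S.s_sq w hw
    calc S.s w * S.s x * S.s w * (S.s w * S.pr l * S.s w)
        = S.s w * S.s x * (S.s w * S.s w) * S.pr l * S.s w := by group
      _ = _ := by rw [this]; group

include hL in
/-- normal form -/
lemma nf {g : G} (hg : g ∈ S.GW (M ∪ R1)) : ∃ l : List X, ∃ h ∈ S.GW M,
    (∀ x ∈ l, x ∈ R1) ∧ S.Adj l ∧ g = S.pr l * h := by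
  refine GW_induction (p := fun g => ∃ l : List X, ∃ h ∈ S.GW M,
    (∀ x ∈ l, x ∈ R1) ∧ S.Adj l ∧ g = S.pr l * h) ?_ ?_ hg
  · exact ⟨[], 1, one_mem _, by simp, List.isChain_nil, by simp⟩
  · rintro w hw hwR g ⟨l, h, hh, hl, hc, rfl⟩
    rcases hw with hw | hw
    · refine ⟨l.map (S.s w • ·), S.s w * h, mul_mem (mem_GW hw hwR) hh, ?_, ?_, ?_⟩
      · intro x hx
        obtain ⟨y, hy, rfl⟩ := List.mem_map.1 hx
        exact hL.inv w hw hwR y (hl y hy)
      · rw [Adj, List.isChain_map]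
        refine hc.imp_of_mem_imp fun a b ha hb hab => ?_
        rw [S.s_conj w hwR a (hL.sub (hl a ha)), S.s_conj w hwR b (hL.sub (hl b hb))]
        intro h5
        exact hab (mul_left_cancel (mul_right_cancel h5))
      · rw [pr_map hwR l fun x hx => hL.sub (hl x hx)]
        have := S.s_sq w hwR
        calc S.s w * (S.pr l * h) = S.s w * S.pr l * 1 * h := by group
          _ = S.s w * S.pr l * (S.s w * S.s w) * h := by rw [this]
          _ = _ := by group
    · cases l with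
      | nil =>
        refine ⟨[w], h, hh, by simpa using hw, List.isChain_singleton _, by simp⟩
      | cons x l =>
        by_cases hwx : S.s w = S.s x
        · refine ⟨l, h, hh, fun y hy => hl y (List.mem_cons_of_mem _ hy), ?_, ?_⟩
          · exact hc.tail
          · rw [pr_cons, ← hwx, ← mul_assoc, ← mul_assoc, S.s_sq w hwR, one_mul]
        · refine ⟨w :: x :: l, h, hh, ?_, List.isChain_cons_cons.2 ⟨hwx, hc⟩, ?_⟩
          · intro y hy
            rcases List.mem_cons.1 hy with rfl | hy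
            · exact hw
            · exact hl y hy
          · rw [pr_cons w, mul_assoc]

end step

end Sys

end Crest.Agent.R272.WmA181
end

-- ▼ part R272/WmB_181
section

/-!
# The windmill, part B: the next windmill, the layer, Zorn, the separation theorem `gr`.
-/

namespace Crest.Agent.R272.WmA181

open Subgroup

universe u v

namespace Sys

variable {G : Type u} {X : Type v} [Group G] [MulAction G X] {S : Sys G X}



section step

variable {M R1 : Set X} (hM : S.Mill M) (hne : M.Nonempty) (hL : S.Layer M R1)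

lemma nxt_sub (hM : S.Mill M) (hL : S.Layer M R1) : S.nxt M R1 ⊆ S.O := by
  have key : ∀ q T, Beh S M R1 q T → T ∈ S.O := by
    intro q T h
    induction h with
    | @base q Q h1 h2 h3 =>
      apply S.O_inv _ (hL.sub h1)
      rcases h2 with h2 | h2
      · exact hM.sub h2
      · exact S.sub (hL.sub h2)
    | @step q q' T h1 h2 h3 ih => exact S.O_inv _ (hL.sub h1) _ ih
  rintro y ((hy | hy) | ⟨q, hq⟩)
  · exact hM.sub hy
  · exact S.sub (hL.sub hy)
  · exact key q y hq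

lemma base_sat (hM : S.Mill M) (hL : S.Layer M R1) {x : X} (hx : x ∈ M ∪ R1) (hxR : x ∈ S.R)
    {r : X} (hr : r ∈ S.R) (h : S.s r = S.s x) : r ∈ M ∪ R1 := by
  rcases hx with hx | hx
  · exact Or.inl (hM.sat x hx hxR r hr h)
  · exact Or.inr (hL.sat x hx r hr h)

lemma Beh.sat (hM : S.Mill M) (hL : S.Layer M R1) {q T : X} (h : Beh S M R1 q T) (hT : T ∈ S.R) :
    ∀ r ∈ S.R, S.s r = S.s T → Beh S M R1 q r := by
  induction h with
  | @base q Q h1 h2 h3 =>
    intro r hr hrT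
    have hqR := hL.sub h1
    have hQ : Q ∈ S.R := by
      have := S.R_inv q hqR _ hT
      rwa [ss hqR] at this
    have hr' : S.s q • r ∈ S.R := S.R_inv q hqR r hr
    have h4 : S.s (S.s q • r) = S.s Q := by
      rw [S.s_conj q hqR r hr, hrT, S.s_conj q hqR Q hQ]
      have := S.s_sq q hqR
      calc S.s q * (S.s q * S.s Q * S.s q) * S.s q
          = (S.s q * S.s q) * S.s Q * (S.s q * S.s q) := by group
        _ = _ := by rw [this]; group
    rw [← ss hqR r]
    refine Beh.base h1 (base_sat hM hL h2 hQ hr' h4) ?_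
    intro _
    rw [h4]
    exact h3 hQ
  | @step q q' T h1 h2 h3 ih =>
    intro r hr hrT
    have hqR := hL.sub h1
    have hQ : T ∈ S.R := by
      have := S.R_inv q hqR _ hT
      rwa [ss hqR] at this
    have hr' : S.s q • r ∈ S.R := S.R_inv q hqR r hr
    have h4 : S.s (S.s q • r) = S.s T := by
      rw [S.s_conj q hqR r hr, hrT, S.s_conj q hqR T hQ]
      have := S.s_sq q hqR
      calc S.s q * (S.s q * S.s T * S.s q) * S.s q
          = (S.s q * S.s q) * S.s T * (S.s q * S.s q) := by group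
        _ = _ := by rw [this]; group
    rw [← ss hqR r]
    exact Beh.step h1 h2 (ih hQ _ hr' h4)

lemma nxt_sat (hM : S.Mill M) (hL : S.Layer M R1) {x : X} (hx : x ∈ S.nxt M R1) (hxR : x ∈ S.R)
    {r : X} (hr : r ∈ S.R) (h : S.s r = S.s x) : r ∈ S.nxt M R1 := by
  rcases hx with hx | ⟨q, hq⟩
  · exact Or.inl (base_sat hM hL hx hxR hr h)
  · exact Or.inr ⟨q, hq.sat hM hL hxR r hr h⟩

lemma off_nxt (hM : S.Mill M) (hL : S.Layer M R1) {r P : X} (hr : r ∈ S.R)
    (hrn : r ∉ S.nxt M R1) (hP : P ∈ S.nxt M R1) : S.Off P r := by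
  intro h1 h2
  exact hrn (nxt_sat hM hL hP h1 hr h2.symm)

include hM hL in
/-- base objects, seen from a mirror outside the next windmill -/
lemma out_base {r P a : X} (hr : r ∈ S.R) (hrn : r ∉ S.nxt M R1) (hP : P ∈ M ∪ R1) (ha : a ∈ M) :
    S.Nr (20 * S.e1) r P a := by
  have hrM : r ∉ M := fun h => hrn (sub_nxt h)
  have hr1 : r ∉ R1 := fun h => hrn (layer_sub_nxt h)
  rcases hP with hP | hP
  · exact (hL.out r hr hrM hr1 P hP a ha).mono (by linarith [S.e1_pos])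
  · refine nr_layer hM hL hr hrM hP ?_ ha le_rfl (by linarith [S.e1_le]) fun b hb =>
      hL.out r hr hrM hr1 b hb a ha
    intro h
    exact hr1 (hL.sat P hP r hr h.symm)

include hM hL hne in
lemma out_base2 {r P Q : X} (hr : r ∈ S.R) (hrn : r ∉ S.nxt M R1) (hP : P ∈ M ∪ R1)
    (hQ : Q ∈ M ∪ R1) : S.Nr (400 * S.e1) r P Q := by
  obtain ⟨a, ha⟩ := hne
  have h1 := (out_base hM hL hr hrn hP ha).tri (out_base hM hL hr hrn hQ ha).symm hr
    (nxt_sub hM hL (Or.inl hP)) (hM.sub ha) (nxt_sub hM hL (Or.inl hQ))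
    (off_nxt hM hL hr hrn (Or.inl hP)) (off_nxt hM hL hr hrn (sub_nxt ha))
    (off_nxt hM hL hr hrn (Or.inl hQ)) (by linarith [S.d_le_e1, S.d_pos, S.e1_pos])
    (by linarith [S.e1_le])
  refine h1.mono ?_
  linarith

include hM hL hne in
/-- objects near the base, seen from a mirror outside the next windmill -/
lemma nb_nb {r P T x y : X} (hr : r ∈ S.R) (hrn : r ∉ S.nxt M R1) (hP : P ∈ S.O)
    (hPr : S.Off P r) (hT : T ∈ S.O) (hTr : S.Off T r) (hx : x ∈ M ∪ R1) (hy : y ∈ M ∪ R1)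
    (h1 : S.Nr S.e1 r P x) (h2 : S.Nr S.e1 r T y) : S.Nr S.e r P T := by
  have hd : S.d ≤ S.e1 := by linarith [S.d_le_e1, S.d_pos]
  have hp := S.e1_pos
  have hl := S.e1_le
  have hx' := nxt_sub hM hL (Or.inl hx)
  have hy' := nxt_sub hM hL (Or.inl hy)
  have hxo := off_nxt hM hL hr hrn (Or.inl hx)
  have hyo := off_nxt hM hL hr hrn (Or.inl hy)
  have h3 := out_base2 hM hne hL hr hrn hx hy
  have h4 := (h1.mono (by linarith : S.e1 ≤ 400 * S.e1)).tri h3 hr hP hx' hy' hPr hxo hyo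
    (by linarith) (by linarith)
  have h5 := h4.tri (h2.symm.mono (by linarith : S.e1 ≤ 20 * (400 * S.e1))) hr hP hy' hT hPr hyo
    hTr (by linarith) (by linarith)
  refine h5.mono ?_
  linarith [S.e1_eq]

include hM hL hne in
lemma bs_pos {x P : X} (hx : x ∈ R1) (h : S.Bs M x P) : 0 < S.c P x := by
  have h1 := nr_bs hM hne hL hx h h
  unfold Nr at h1
  rw [S.c_self P h.1, S.c_symm x P] at h1
  have h2 := S.c_nonneg P x
  rcases eq_or_lt_of_le h2 with h3 | h3
  · rw [← h3] at h1; norm_num at h1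
  · exact h3

include hM hL hne in
/-- dichotomy: `r` cannot be on both sides of a full turn -/
lemma two_sides {q r P T' : X} (hq : q ∈ R1) (hr : r ∈ S.R) (hrn : r ∉ S.nxt M R1)
    (h1 : S.Bs M q P) (h2 : S.Bs M q T') :
    S.Nr S.e1 r (S.s q • T') q ∨ S.Nr S.e1 r P q := by
  have hqR := hL.sub hq
  have hrq : S.s r ≠ S.s q := fun h => hrn (Or.inl (Or.inr (hL.sat q hq r hr h)))
  have hd : S.d / (1 / 20) ≤ S.e1 := by
    have := S.d_le_e1
    rw [div_div_eq_mul_div, div_one]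
    linarith
  by_contra hcon
  push Not at hcon
  obtain ⟨hc1, hc2⟩ := hcon
  have k1 : S.Nr (1 / 20) q r (S.s q • T') := by
    unfold Nr
    by_contra h
    push Not at h
    exact hc1 ((Q2 hr hqR hrq (by norm_num : (0 : ℝ) < 1 / 20) h.le).mono hd)
  have k2 : S.Nr (1 / 20) q r P := by
    unfold Nr
    by_contra h
    push Not at h
    exact hc2 ((Q2 hr hqR hrq (by norm_num : (0 : ℝ) < 1 / 20) h.le).mono hd)
  have k3 := k2.symm.tri k1 hqR h1.1 (S.sub hr) (S.O_inv q hqR T' h2.1) h1.2.1 (fun _ => hrq)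
    (off_smul' hqR h2.2.1) (by linarith [S.d_le_e1, S.d_pos, S.e1_le]) (by norm_num)
  have k4 := full_bs hM hne hL hq h1 h2
  have k5 := bs_pos hM hne hL hq h1
  have k6 := bs_pos hM hne hL hq h2
  have k7 : S.c q (S.s q • T') = S.c T' q := by rw [S.c_symm, c_refl hqR]
  unfold Nr at k3
  rw [k7] at k3 k4
  have k8 := S.e_le
  have k9 : 0 < S.c P q * S.c T' q := mul_pos k5 k6
  nlinarith

include hL in
lemma smul_notin {q r : X} (hq : q ∈ R1) (hrn : r ∉ S.nxt M R1) : S.s q • r ∉ S.nxt M R1 := by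
  intro h
  have := nxt_inv_R1 (S := S) hL hq h
  rw [ss (hL.sub hq)] at this
  exact hrn this

lemma Nr.back {K : ℝ} {r a b q : X} (hq : q ∈ S.R)
    (h : S.Nr K (S.s q • r) (S.s q • a) (S.s q • b)) : S.Nr K r a b := by
  have := h.inv hq
  rwa [ss hq, ss hq, ss hq] at this

include hM hL hne in
lemma far {q T : X} (h : Beh S M R1 q T) : ∀ r ∈ S.R, r ∉ S.nxt M R1 → ∀ P, S.Bs M q P →
    S.Off P r → ∀ x ∈ M ∪ R1, S.Nr S.e1 r P x → S.Nr S.e r P T := by
  have hd : S.d ≤ S.e1 := by linarith [S.d_le_e1, S.d_pos]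
  induction h with
  | @base q Q h1 h2 h3 =>
    intro r hr hrn P hP hPr x hx hPx
    have hqR := hL.sub h1
    have hQ : S.Bs M q Q := bs_base hM hL h1 h2 h3
    rcases two_sides hM hne hL h1 hr hrn hP hQ with h4 | h4
    · exact nb_nb hM hne hL hr hrn hP.1 hPr (S.O_inv q hqR Q hQ.1)
        (off_nxt hM hL hr hrn (Or.inr ⟨q, Beh.base h1 h2 h3⟩)) hx (Or.inr h1) hPx h4
    · have hr' : S.s q • r ∉ S.nxt M R1 := smul_notin hL h1 hrn
      have hr'R : S.s q • r ∈ S.R := S.R_inv q hqR r hr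
      have hq' : S.s q • q ∈ M ∪ R1 :=
        Or.inr (hL.sat q h1 _ (S.R_inv q hqR q hqR) (s_self hqR))
      have h5 : S.Nr S.e1 (S.s q • r) Q Q := by
        rcases h2 with h2 | h2
        · exact hL.out _ hr'R (fun h => hr' (sub_nxt h)) (fun h => hr' (layer_sub_nxt h)) Q h2 Q h2
        · refine (nr_self hr'R (hL.sub h2) fun h => ?_).mono hd
          exact hr' (layer_sub_nxt (hL.sat Q h2 _ hr'R h.symm))
      have h6 := nb_nb hM hne hL hr'R hr' (S.O_inv q hqR P hP.1) (off_smul hr hqR hPr) hQ.1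
        (off_nxt hM hL hr'R hr' (Or.inl h2)) hq' h2 (h4.inv hqR) h5
      have h7 := h6.inv hqR
      rwa [ss hqR, ss hqR] at h7
  | @step q q' T h1 h2 h3 ih =>
    intro r hr hrn P hP hPr x hx hPx
    have hqR := hL.sub h1
    obtain ⟨h4, T', rfl, h5⟩ := h3.spec hM hne hL
    have hT : S.Bs M q (S.s q' • T') := bs_of_fr hM hL h4 h1 h2 (fr_of_bs hM hne hL h4 h5)
    rcases two_sides hM hne hL h1 hr hrn hP hT with h6 | h6
    · exact nb_nb hM hne hL hr hrn hP.1 hPr (S.O_inv q hqR _ hT.1)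
        (off_nxt hM hL hr hrn (Or.inr ⟨q, Beh.step h1 h2 h3⟩)) hx (Or.inr h1) hPx h6
    · have hr' : S.s q • r ∉ S.nxt M R1 := smul_notin hL h1 hrn
      have hr'R : S.s q • r ∈ S.R := S.R_inv q hqR r hr
      have hq' : S.s q • q ∈ M ∪ R1 :=
        Or.inr (hL.sat q h1 _ (S.R_inv q hqR q hqR) (s_self hqR))
      have h7 := ih _ hr'R hr' (S.s q • P)
        (bs_of_fr hM hL h1 h4 h2.symm (fr_of_bs hM hne hL h1 hP)) (off_smul hr hqR hPr)
        _ hq' (h6.inv hqR)
      have h8 := h7.inv hqR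
      rwa [ss hqR, ss hqR] at h8

include hL in
/-- self-nearness of base objects -/
lemma base_self {r Q : X} (hr : r ∈ S.R) (hrn : r ∉ S.nxt M R1) (hQ : Q ∈ M ∪ R1) :
    S.Nr S.e1 r Q Q := by
  rcases hQ with h2 | h2
  · exact hL.out _ hr (fun h => hrn (sub_nxt h)) (fun h => hrn (layer_sub_nxt h)) Q h2 Q h2
  · refine (nr_self hr (hL.sub h2) fun h => ?_).mono (by linarith [S.d_le_e1, S.d_pos])
    exact hrn (layer_sub_nxt (hL.sat Q h2 _ hr h.symm))

include hM hL hne in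
lemma small_base {r a b : X} (hr : r ∈ S.R) (hrn : r ∉ S.nxt M R1) (ha : a ∈ M ∪ R1)
    (hb : b ∈ S.nxt M R1) : S.Nr S.e r a b := by
  rcases hb with hb | ⟨q, hq⟩
  · exact nb_nb hM hne hL hr hrn (nxt_sub hM hL (Or.inl ha)) (off_nxt hM hL hr hrn (Or.inl ha))
      (nxt_sub hM hL (Or.inl hb)) (off_nxt hM hL hr hrn (Or.inl hb)) ha hb
      (base_self hL hr hrn ha) (base_self hL hr hrn hb)
  · have hqR1 := (hq.spec hM hne hL).1
    have hqR := hL.sub hqR1
    by_cases h : S.Off a q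
    · exact far hM hne hL hq r hr hrn a (bs_base hM hL hqR1 ha h)
        (off_nxt hM hL hr hrn (Or.inl ha)) a ha (base_self hL hr hrn ha)
    · simp only [Off, not_forall, not_not] at h
      obtain ⟨haR, h⟩ := h
      have ha' : S.s q • a ∈ R1 :=
        hL.sat q hqR1 _ (S.R_inv q hqR a haR) (by rw [← h, s_self haR])
      have ha'' : S.s (S.s q • a) = S.s q := by rw [← h, s_self haR]
      have hr' : S.s q • r ∉ S.nxt M R1 := smul_notin hL hqR1 hrn
      have hr'R : S.s q • r ∈ S.R := S.R_inv q hqR r hr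
      cases hq with
      | @base q Q h1 h2 h3 =>
        have h6 := nb_nb hM hne hL hr'R hr' (S.sub (hL.sub ha'))
          (off_nxt hM hL hr'R hr' (layer_sub_nxt ha')) (nxt_sub hM hL (Or.inl h2))
          (off_nxt hM hL hr'R hr' (Or.inl h2)) (Or.inr ha') h2
          (base_self hL hr'R hr' (Or.inr ha')) (base_self hL hr'R hr' h2)
        have h7 := h6.inv hqR
        rwa [ss hqR, ss hqR] at h7
      | @step q q' T h1 h2 h3 =>
        have hq' := (h3.spec hM hne hL).1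
        have h6 := far hM hne hL h3 _ hr'R hr' (S.s q • a)
          (bs_base hM hL hq' (Or.inr ha') (fun _ => by rw [ha'']; exact h2))
          (off_nxt hM hL hr'R hr' (layer_sub_nxt ha')) _ (Or.inr ha')
          (base_self hL hr'R hr' (Or.inr ha'))
        have h7 := h6.inv hqR
        rwa [ss hqR, ss hqR] at h7

include hM hL hne in
lemma small_nxt {r a b : X} (hr : r ∈ S.R) (hrn : r ∉ S.nxt M R1) (ha : a ∈ S.nxt M R1)
    (hb : b ∈ S.nxt M R1) : S.Nr S.e r a b := by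
  rcases ha with ha | ⟨q, hq⟩
  · exact small_base hM hne hL hr hrn ha hb
  · induction hq generalizing r b with
    | @base q Q h1 h2 h3 =>
      have hqR := hL.sub h1
      have h7 := (small_base hM hne hL (S.R_inv q hqR r hr) (smul_notin hL h1 hrn) h2
        (nxt_inv_R1 hL h1 hb)).inv hqR
      rwa [ss hqR, ss hqR] at h7
    | @step q q' T h1 h2 h3 ih =>
      have hqR := hL.sub h1
      have h7 := (ih (S.R_inv q hqR r hr) (smul_notin hL h1 hrn) (nxt_inv_R1 hL h1 hb)).inv hqR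
      rwa [ss hqR, ss hqR] at h7

include hM hL hne in
/-- the next windmill is a windmill -/
theorem mill_nxt : S.Mill (S.nxt M R1) where
  sub := nxt_sub hM hL
  inv := by
    intro w hw hwR x hx
    refine nxt_inv_G hM hL ?_ hx
    rw [← GW_nxt hL]
    exact mem_GW hw hwR
  sat := fun w hw hwR r hr h => nxt_sat hM hL hw hwR hr h
  small := fun r hr hrn a ha b hb => small_nxt hM hne hL hr hrn ha hb

lemma Mill.GW_inv (hM : S.Mill M) {g : G} (hg : g ∈ S.GW M) : ∀ x ∈ M, g • x ∈ M := by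
  refine GW_induction (p := fun g => ∀ x ∈ M, g • x ∈ M) ?_ ?_ hg
  · intro x hx; rwa [one_smul]
  · intro w hw hwR g ih x hx
    rw [mul_smul]
    exact hM.inv w hw hwR _ (ih x hx)

include hM hL hne in
/-- full turn for elements outside the old group -/
lemma gr_step {g : G} (hg : g ∈ S.GW (S.nxt M R1)) (hgM : g ∉ S.GW M) : ∃ w ∈ S.R, w ∉ M ∧
    g⁻¹ • w ∉ M ∧ ∀ o ∈ M, ∀ o' ∈ M,
      (2 - 8000 * S.e) * (S.c o w * S.c w (g • o')) ≤ S.c o (g • o') := by
  rw [GW_nxt hL] at hg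
  obtain ⟨l, h, hh, hl, hc, rfl⟩ := nf hL hg
  cases l with
  | nil => exact absurd (by simpa using hh) hgM
  | cons x l =>
    have hx : x ∈ R1 := hl x (by simp)
    have hxR := hL.sub hx
    have key : ∀ Q ∈ M, S.Bs M x (S.pr l • h • Q) := fun Q hQ =>
      chain hM hne hL (x :: l) hl hc (h • Q) (hM.GW_inv hh Q hQ) x l rfl
    refine ⟨x, hxR, hL.disj x hx, ?_, ?_⟩
    · intro hm
      have h1 := key _ hm
      have h2 : S.pr l • h • (S.pr (x :: l) * h)⁻¹ • x = S.s x • x := by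
        rw [smul_smul, smul_smul, pr_cons]
        congr 1
        have := s_inv hxR
        rw [mul_inv_rev, mul_inv_rev, this]
        group
      rw [h2] at h1
      exact h1.2.1 (S.R_inv x hxR x hxR) (s_self hxR)
    · intro o ho o' ho'
      have h1 : S.Bs M x o := bs_base hM hL hx (Or.inl ho) (off_of_mem hM ho hxR (hL.disj x hx))
      have h2 := full_bs hM hne hL hx h1 (key o' ho')
      have h3 : (S.pr (x :: l) * h) • o' = S.s x • S.pr l • h • o' := by
        rw [pr_cons, mul_smul, mul_smul]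
      rw [h3]
      exact h2

end step

section layer

variable {M : Set X}

lemma e1_c {x y : X} (hx : x ∈ S.R) (hy : y ∈ S.R) (h : S.s x ≠ S.s y) : 2 ≤ S.e1 * S.c x y := by
  have h1 := S.c_far x hx y hy h
  have h2 := S.c_nonneg x y
  have h3 := S.d_le'
  have h4 := S.e1_pos
  by_contra hcon
  push Not at hcon
  have h5 : 0 ≤ S.e1 * S.c x y := by positivity
  have h6 : (S.e1 * S.c x y) * (S.e1 * S.c x y) < 4 := by nlinarith
  have h7 : 20 * (S.d * S.c x y ^ 2) ≤ (S.e1 * S.e1) * S.c x y ^ 2 := by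
    rw [← mul_assoc]
    exact mul_le_mul_of_nonneg_right h3 (by positivity)
  nlinarith

lemma GW_R {M : Set X} {g : G} (hg : g ∈ S.GW M) : ∀ x ∈ S.R, g • x ∈ S.R := by
  refine GW_induction (p := fun g => ∀ x ∈ S.R, g • x ∈ S.R) ?_ ?_ hg
  · intro x hx; rwa [one_smul]
  · intro w hw hwR g ih x hx
    rw [mul_smul]
    exact S.R_inv w hwR _ (ih x hx)

lemma GW_c {M : Set X} {g : G} (hg : g ∈ S.GW M) : ∀ x y, S.c (g • x) (g • y) = S.c x y := by
  refine GW_induction (p := fun g => ∀ x y, S.c (g • x) (g • y) = S.c x y) ?_ ?_ hg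
  · intro x y; rw [one_smul, one_smul]
  · intro w hw hwR g ih x y
    rw [mul_smul, mul_smul, S.c_inv w hwR, ih]

/-- existence of the next layer containing an approximately nearest mirror -/
lemma exists_layer (hM : S.Mill M) {o : X} (ho : o ∈ M) {r0 : X} (hr0 : r0 ∈ S.R) (hr0M : r0 ∉ M) :
    ∃ R1, S.Layer M R1 ∧ R1.Nonempty := by
  classical
  -- approximately nearest mirror
  obtain ⟨q, hq, hqM, hmin⟩ : ∃ q ∈ S.R, q ∉ M ∧ ∀ r ∈ S.R, r ∉ M → S.c q o ≤ 2 * S.c r o := by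
    set T : Set ℝ := {t | ∃ r ∈ S.R, r ∉ M ∧ t = S.c r o} with hT
    have hTne : T.Nonempty := ⟨_, r0, hr0, hr0M, rfl⟩
    have hlow : ∀ t ∈ T, 1 ≤ t := by
      rintro _ ⟨r, hr, hrM, rfl⟩
      have h1 := hM.small r hr hrM o ho o ho
      unfold Nr at h1
      rw [S.c_self o (hM.sub ho), S.c_symm o r] at h1
      have h2 := S.e_le
      have h3 := S.c_nonneg r o
      have h4 := S.e_pos
      by_contra hcon
      push Not at hcon
      have h5 : S.c r o * S.c r o < 1 := by nlinarith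
      nlinarith
    have hbdd : BddBelow T := ⟨1, hlow⟩
    have hinf : 1 ≤ sInf T := le_csInf hTne hlow
    obtain ⟨t, ht, htl⟩ := exists_lt_of_csInf_lt hTne (by linarith : sInf T < 2 * sInf T)
    obtain ⟨q, hq, hqM, rfl⟩ := ht
    refine ⟨q, hq, hqM, fun r hr hrM => ?_⟩
    have := csInf_le hbdd (show S.c r o ∈ T from ⟨r, hr, hrM, rfl⟩)
    linarith
  set A1 : Set X := {r | r ∈ S.R ∧ r ∉ M ∧ ∃ a ∈ M, ∃ b ∈ M, ¬ S.Nr S.e1 r a b} with hA1
  set A2 : Set X := {r | r ∈ S.R ∧ ∃ g ∈ S.GW M, S.s r = S.s (g • q)} with hA2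
  have hgM : ∀ g ∈ S.GW M, ∀ r, r ∉ M → g • r ∉ M := by
    intro g hg r hr h
    apply hr
    have := hM.GW_inv (inv_mem hg) _ h
    rwa [inv_smul_smul] at this
  refine ⟨A1 ∪ A2, ⟨?_, ?_, ?_, ?_, ?_, ?_⟩, ⟨q, Or.inr ⟨hq, 1, one_mem _, by rw [one_smul]⟩⟩⟩
  · rintro x (hx | hx)
    · exact hx.1
    · exact hx.1
  · rintro x (hx | ⟨hx, g, hg, h⟩) hxM
    · exact hx.2.1 hxM
    · exact hgM g hg q hqM (hM.sat x hxM hx _ (GW_R hg q hq) h.symm)
  · rintro w hw hwR x (⟨hx, hxM, a, ha, b, hb, hab⟩ | ⟨hx, g, hg, h⟩)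
    · refine Or.inl ⟨S.R_inv w hwR x hx, hgM _ (mem_GW hw hwR) x hxM, S.s w • a,
        hM.inv w hw hwR a ha, S.s w • b, hM.inv w hw hwR b hb, fun h => hab (h.back hwR)⟩
    · refine Or.inr ⟨S.R_inv w hwR x hx, S.s w * g, mul_mem (mem_GW hw hwR) hg, ?_⟩
      rw [mul_smul, S.s_conj w hwR x hx, S.s_conj w hwR _ (GW_R hg q hq), h]
  · rintro x (⟨hx, hxM, a, ha, b, hb, hab⟩ | ⟨hx, g, hg, h⟩) r hr hrx
    · refine Or.inl ⟨hr, fun h => hxM (hM.sat r h hr x hx hrx.symm), a, ha, b, hb, ?_⟩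
      intro h
      apply hab
      unfold Nr at h ⊢
      rw [S.c_symm a x, S.c_congr x hx r hr hrx.symm, S.c_congr x hx r hr hrx.symm, S.c_symm r a]
      exact h
    · exact Or.inr ⟨hr, g, hg, by rw [hrx, h]⟩
  · intro r hr hrM hrA a ha b hb
    by_contra h
    exact hrA (Or.inl ⟨hr, hrM, a, ha, b, hb, h⟩)
  · rintro r hr hrM x (⟨hx, hxM, a, ha, b, hb, hab⟩ | ⟨hx, g, hg, h⟩) hxr
    · have hoa := off_of_mem hM ha hx hxM
      have hob := off_of_mem hM hb hx hxM
      have hd : S.d / (S.e1 / 20) ≤ S.e1 := by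
        have h1 := S.d_le'
        have h2 := S.e1_pos
        rw [div_le_iff₀ (by positivity)]
        linarith
      have key : ∀ z, ¬ S.Nr (S.e1 / 20) x r z → S.Nr S.e1 r x z := by
        intro z hz
        unfold Nr at hz
        push Not at hz
        exact ((Q2 hr hx hxr.symm (by linarith [S.e1_pos] : 0 < S.e1 / 20) hz.le).mono hd).symm
      by_cases h1 : S.Nr (S.e1 / 20) x r a
      · by_cases h2 : S.Nr (S.e1 / 20) x r b
        · exfalso
          apply hab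
          have h3 := h1.symm.tri h2 hx (hM.sub ha) (S.sub hr) (hM.sub hb) hoa
            (fun _ => hxr.symm) hob (by linarith [S.d_le_e1]) (by linarith [S.e1_le])
          refine h3.mono ?_
          linarith
        · exact ⟨b, hb, key b h2⟩
      · exact ⟨a, ha, key a h1⟩
    · refine ⟨g • o, hM.GW_inv hg o ho, ?_⟩
      have hgq := GW_R hg q hq
      have h1 : S.c x (g • o) = S.c q o := by
        rw [S.c_congr x hx _ hgq h, GW_c hg]
      have h2 : S.c r (g • o) = S.c (g⁻¹ • r) o := by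
        conv_lhs => rw [← smul_inv_smul g r]
        rw [GW_c hg]
      have h3 := hmin (g⁻¹ • r) (GW_R (inv_mem hg) r hr) (hgM _ (inv_mem hg) r hrM)
      have h4 := e1_c hx hr hxr
      unfold Nr
      rw [h1, h2]
      have h5 := S.c_nonneg (g⁻¹ • r) o
      nlinarith

end layer

/-- **Separation theorem**: the windmill `M0` extends to all mirrors. -/
theorem gr {M0 : Set X} (hM0 : S.Mill M0) (hne : M0.Nonempty) {g : G}
    (hg : g ∈ closure (S.s '' S.R)) (hg0 : g ∉ S.GW M0) : ∃ w ∈ S.R, w ∉ M0 ∧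
    g⁻¹ • w ∉ M0 ∧ ∀ o ∈ M0, ∀ o' ∈ M0,
      (2 - 8000 * S.e) * (S.c o w * S.c w (g • o')) ≤ S.c o (g • o') := by
  set Z : Set (Set X) := {M | S.Mill M ∧ M0 ⊆ M ∧ ∀ g ∈ S.GW M, g ∉ S.GW M0 → ∃ w ∈ S.R, w ∉ M0 ∧
    g⁻¹ • w ∉ M0 ∧ ∀ o ∈ M0, ∀ o' ∈ M0,
      (2 - 8000 * S.e) * (S.c o w * S.c w (g • o')) ≤ S.c o (g • o')} with hZ
  have h0 : M0 ∈ Z := ⟨hM0, subset_rfl, fun g hg hg' => absurd hg hg'⟩
  obtain ⟨m, hm0, hmax⟩ := zorn_subset_nonempty Z (by
    intro C hC hchain hCne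
    refine ⟨⋃₀ C, ⟨⟨?_, ?_, ?_, ?_⟩, ?_, ?_⟩, fun s hs => Set.subset_sUnion_of_mem hs⟩
    · exact Set.sUnion_subset fun s hs => (hC hs).1.sub
    · rintro w ⟨s, hs, hw⟩ hwR x ⟨t, ht, hx⟩
      rcases hchain.total hs ht with h | h
      · exact ⟨t, ht, (hC ht).1.inv w (h hw) hwR x hx⟩
      · exact ⟨s, hs, (hC hs).1.inv w hw hwR x (h hx)⟩
    · rintro w ⟨s, hs, hw⟩ hwR r hr hrw
      exact ⟨s, hs, (hC hs).1.sat w hw hwR r hr hrw⟩
    · rintro r hr hrn a ⟨s, hs, ha⟩ b ⟨t, ht, hb⟩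
      have hn : ∀ u ∈ C, r ∉ u := fun u hu h => hrn ⟨u, hu, h⟩
      rcases hchain.total hs ht with h | h
      · exact (hC ht).1.small r hr (hn t ht) a (h ha) b hb
      · exact (hC hs).1.small r hr (hn s hs) a ha b (h hb)
    · obtain ⟨s, hs⟩ := hCne
      exact ((hC hs).2.1).trans (Set.subset_sUnion_of_mem hs)
    · intro g hg hg'
      have key : ∃ s ∈ C, g ∈ S.GW s := by
        refine GW_induction (p := fun g => ∃ s ∈ C, g ∈ S.GW s) ?_ ?_ hg
        · obtain ⟨s, hs⟩ := hCne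
          exact ⟨s, hs, one_mem _⟩
        · rintro w ⟨s, hs, hw⟩ hwR g ⟨t, ht, hg⟩
          rcases hchain.total hs ht with h | h
          · exact ⟨t, ht, mul_mem (mem_GW (h hw) hwR) hg⟩
          · exact ⟨s, hs, mul_mem (mem_GW hw hwR) (GW_mono h hg)⟩
      obtain ⟨s, hs, hgs⟩ := key
      exact (hC hs).2.2 g hgs hg') M0 h0
  obtain ⟨⟨hm, hm1, hm2⟩, hmax⟩ := hmax
  have hall : S.R ⊆ m := by
    intro r hr
    by_contra hrm
    obtain ⟨o, ho⟩ := hne
    obtain ⟨R1, hL, q, hq⟩ := exists_layer hm (hm1 ho) hr hrm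
    have hmne : m.Nonempty := ⟨o, hm1 ho⟩
    have hnew : S.nxt m R1 ∈ Z := by
      refine ⟨mill_nxt hm hmne hL, hm1.trans sub_nxt, fun g hg hg' => ?_⟩
      by_cases hgm : g ∈ S.GW m
      · exact hm2 g hgm hg'
      · obtain ⟨w, hwR, hwm, hgw, h⟩ := gr_step hm hmne hL hg hgm
        exact ⟨w, hwR, fun h' => hwm (hm1 h'), fun h' => hgw (hm1 h'),
          fun o ho o' ho' => h o (hm1 ho) o' (hm1 ho')⟩
    have := hmax hnew sub_nxt (layer_sub_nxt hq)
    exact hL.disj q hq this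
  refine hm2 g ?_ hg0
  have : S.R ⊆ m ∩ S.R := fun x hx => ⟨hall hx, hx⟩
  exact closure_mono (Set.image_mono this) hg

end Sys

end Crest.Agent.R272.WmA181
end

-- ▼ part R272/WmC_181
section

/-!
# The windmill, part C: the start windmill

`M` = points (no mirrors), `R1` = first family of mirrors.  Only the *reflected* form
`A_x (y, s_x z) ≥ 1` of straightness is assumed (`y`, `z` in `M ∪ R1`), points of `M` may lie on
mirrors of `R1`.  Output: `mill_start : S.Mill (S.nxt M R1)`.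
-/

namespace Crest.Agent.R272.WmA181

open Subgroup

universe u v

namespace Sys

variable {G : Type u} {X : Type v} [Group G] [MulAction G X] {S : Sys G X}

/-- start data -/
structure RL (S : Sys G X) (M R1 : Set X) : Prop where
  nomir : ∀ x ∈ M, x ∉ S.R
  subO : M ⊆ S.O
  sub : R1 ⊆ S.R
  sat : ∀ x ∈ R1, ∀ r ∈ S.R, S.s r = S.s x → r ∈ R1
  zero : ∀ x ∈ R1, ∀ a ∈ M, S.c a x = 0 → ∀ z, S.c (S.s x • a) z = S.c a z
  refl : ∀ x ∈ R1, ∀ y ∈ M ∪ R1, ∀ z ∈ M ∪ R1, S.Off y x → S.Off z x →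
    S.c y x * S.c x z ≤ S.c y (S.s x • z)
  far : ∀ r ∈ S.R, r ∉ R1 → ∀ a ∈ M ∪ R1, ∀ b ∈ M ∪ R1, S.Nr S.e1 r a b

/-- `P` is on the base side of `x`, reflected form -/
def RBs (S : Sys G X) (M R1 : Set X) (x P : X) : Prop :=
  P ∈ S.O ∧ S.Off P x ∧ ∀ y ∈ M ∪ R1, S.Off y x →
    1 / 21 * (S.c y x * S.c x (S.s x • P)) ≤ S.c y (S.s x • P)

/-- `P` is behind `q` -/
def RFr (S : Sys G X) (R1 : Set X) (q P : X) : Prop :=
  P ∈ S.O ∧ ∀ x ∈ R1, S.s x ≠ S.s q → S.Off P x ∧ S.Nr (21 * S.d) x P q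

lemma c_pos_mir {x y : X} (hx : x ∈ S.R) (hy : y ∈ S.R) (h : S.s x ≠ S.s y) : 0 < S.c x y := by
  have h1 := S.c_far x hx y hy h
  have h2 := S.c_nonneg x y
  rcases eq_or_lt_of_le h2 with h3 | h3
  · rw [← h3] at h1; norm_num at h1
  · exact h3

/-- positivity from nearness -/
lemma Nr.c_pos {K : ℝ} {r a b : X} (h : S.Nr K r a b) (hr : r ∈ S.R) (ha : a ∈ S.O) (hb : b ∈ S.O)
    (ha' : S.Off a r) (hb' : S.Off b r) (hd : S.d ≤ K) (hK : K ≤ 1) : 0 < S.c a r := by
  have h1 := h.tri h.symm hr ha hb ha ha' hb' ha' hd hK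
  unfold Nr at h1
  rw [S.c_self a ha, S.c_symm r a] at h1
  have h2 := S.c_nonneg a r
  rcases eq_or_lt_of_le h2 with h3 | h3
  · rw [← h3] at h1; norm_num at h1
  · exact h3

/-- the mirror may be replaced by `s_x x` -/
lemma nr_congr {K : ℝ} {x y a b : X} (hx : x ∈ S.R) (hy : y ∈ S.R) (hxy : S.s x = S.s y)
    (h : S.Nr K x a b) : S.Nr K y a b := by
  unfold Nr at *
  rw [S.c_symm a x, S.c_congr x hx y hy hxy, S.c_congr x hx y hy hxy, S.c_symm y a] at h
  exact h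

lemma nr_inv_self {K : ℝ} {x a b : X} (hx : x ∈ S.R) (h : S.Nr K x a b) :
    S.Nr K x (S.s x • a) (S.s x • b) :=
  nr_congr (S.R_inv x hx x hx) hx (s_self hx) (h.inv hx)

section start

variable {M R1 : Set X} (hL : S.RL M R1)

include hL in
lemma RL.base_O {P : X} (hP : P ∈ M ∪ R1) : P ∈ S.O := by
  rcases hP with hP | hP
  · exact hL.subO hP
  · exact S.sub (hL.sub hP)

include hL in
lemma rbs_base {x P : X} (hx : x ∈ R1) (hP : P ∈ M ∪ R1) (h : S.Off P x) : S.RBs M R1 x P := by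
  refine ⟨hL.base_O hP, h, fun y hy hyx => ?_⟩
  have h1 := hL.refl x hx y hy P hP hyx h
  have h2 : S.c x (S.s x • P) = S.c x P := by rw [S.c_symm, c_refl (hL.sub hx), S.c_symm]
  rw [h2]
  have h3 : 0 ≤ S.c y x * S.c x P := mul_nonneg (S.c_nonneg _ _) (S.c_nonneg _ _)
  linarith

include hL in
lemma rbs_of_rfr {q x P : X} (hq : q ∈ R1) (hx : x ∈ R1) (hxq : S.s x ≠ S.s q)
    (h : S.RFr R1 q P) : S.RBs M R1 x P := by
  obtain ⟨h1, h2⟩ := h
  obtain ⟨h3, h4⟩ := h2 x hx hxq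
  have hxR := hL.sub hx
  have hqR := hL.sub hq
  refine ⟨h1, h3, fun y hy hyx => ?_⟩
  by_contra hcon
  push Not at hcon
  have hyO := hL.base_O hy
  have k1 : S.Nr (1 / 21) x y (S.s x • P) := hcon.le
  have k2 : S.Nr (1 / 21) x (S.s x • P) (S.s x • q) := by
    refine (nr_inv_self hxR h4).mono ?_
    linarith [S.d_le_e1, S.d_pos, S.e1_le]
  have hqx : S.Off q x := fun _ => hxq.symm
  have k3 := k1.tri k2 hxR hyO (S.O_inv x hxR P h1) (S.O_inv x hxR q (S.sub hqR)) hyx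
    (off_smul' hxR h3) (off_smul' hxR hqx) (by linarith [S.d_le_e1, S.d_pos, S.e1_le]) (by norm_num)
  have k4 := hL.refl x hx y hy q (Or.inr hq) hyx hqx
  have k5 : S.c x (S.s x • q) = S.c x q := by rw [S.c_symm, c_refl hxR, S.c_symm]
  unfold Nr at k3
  rw [k5] at k3
  have k6 : 0 < S.c x q := c_pos_mir hxR hqR hxq
  have k7 : 0 < S.c y x := by
    rcases eq_or_lt_of_le (S.c_nonneg y x) with h | h
    · rw [← h] at hcon
      have := S.c_nonneg y (S.s x • P)
      linarith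
    · exact h
  have k8 : 0 < S.c y x * S.c x q := mul_pos k7 k6
  linarith

include hL in
lemma rfr_of_rbs {x P : X} (hx : x ∈ R1) (h : S.RBs M R1 x P) : S.RFr R1 x (S.s x • P) := by
  have hxR := hL.sub hx
  refine ⟨S.O_inv x hxR P h.1, fun y hy hyx => ?_⟩
  have hyR := hL.sub hy
  have h1 := h.2.2 y (Or.inr hy) (fun _ => hyx)
  refine ⟨?_, ?_⟩
  · intro hPR hs
    rw [S.c_symm y (S.s x • P), S.c_congr _ hPR y hyR hs, S.c_self y (S.sub hyR),
      S.c_symm x (S.s x • P), S.c_congr _ hPR y hyR hs] at h1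
    have h2 := S.c_far y hyR x hxR hyx
    have h3 := S.d_le_e1
    have h4 := S.e1_le
    have h5 := S.d_pos
    nlinarith [mul_self_nonneg (S.c y x)]
  · refine (Q2 hyR hxR hyx (by norm_num : (0 : ℝ) < 1 / 21) h1).mono ?_
    rw [div_div_eq_mul_div, div_one, mul_comm]

include hL in
lemma Beh.rspec {q T : X} (h : Beh S M R1 q T) :
    q ∈ R1 ∧ ∃ T', T = S.s q • T' ∧ S.RBs M R1 q T' := by
  induction h with
  | base h1 h2 h3 => exact ⟨h1, _, rfl, rbs_base hL h1 h2 h3⟩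
  | step h1 h2 h3 ih =>
    obtain ⟨h4, T', rfl, h5⟩ := ih
    exact ⟨h1, _, rfl, rbs_of_rfr hL h4 h1 h2 (rfr_of_rbs hL h4 h5)⟩

include hL in
lemma rnxt_sub : S.nxt M R1 ⊆ S.O := by
  have key : ∀ q T, Beh S M R1 q T → T ∈ S.O := by
    intro q T h
    induction h with
    | @base q Q h1 h2 h3 => exact S.O_inv _ (hL.sub h1) _ (hL.base_O h2)
    | @step q q' T h1 h2 h3 ih => exact S.O_inv _ (hL.sub h1) _ ih
  rintro y (hy | ⟨q, hq⟩)
  · exact hL.base_O hy
  · exact key q y hq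

include hL in
lemma rnxt_inv {x : X} (hx : x ∈ R1) {y : X} (hy : y ∈ S.nxt M R1) :
    S.s x • y ∈ S.nxt M R1 := by
  have hxR := hL.sub hx
  rcases hy with hy | ⟨q, hq⟩
  · by_cases h : S.Off y x
    · exact Or.inr ⟨x, Beh.base hx hy h⟩
    · simp only [Off, not_forall, not_not] at h
      obtain ⟨hyR, h⟩ := h
      have hy1 : y ∈ R1 := hL.sat x hx y hyR h
      refine Or.inl (Or.inr (hL.sat x hx _ (S.R_inv x hxR y hyR) ?_))
      rw [← h, s_self hyR]
  · by_cases h : S.s x = S.s q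
    · rw [h]
      cases hq with
      | base h1 h2 h3 => rw [ss (hL.sub h1)]; exact Or.inl h2
      | step h1 h2 h3 => rw [ss (hL.sub h1)]; exact Or.inr ⟨_, h3⟩
    · exact Or.inr ⟨x, Beh.step hx h hq⟩

include hL in
lemma Beh.rsat {q T : X} (h : Beh S M R1 q T) (hT : T ∈ S.R) :
    ∀ r ∈ S.R, S.s r = S.s T → Beh S M R1 q r := by
  induction h with
  | @base q Q h1 h2 h3 =>
    intro r hr hrT
    have hqR := hL.sub h1
    have hQ : Q ∈ S.R := by
      have := S.R_inv q hqR _ hT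
      rwa [ss hqR] at this
    have hQ1 : Q ∈ R1 := by
      rcases h2 with h2 | h2
      · exact absurd hQ (hL.nomir Q h2)
      · exact h2
    have hr' : S.s q • r ∈ S.R := S.R_inv q hqR r hr
    have h4 : S.s (S.s q • r) = S.s Q := by
      rw [S.s_conj q hqR r hr, hrT, S.s_conj q hqR Q hQ]
      have := S.s_sq q hqR
      calc S.s q * (S.s q * S.s Q * S.s q) * S.s q
          = (S.s q * S.s q) * S.s Q * (S.s q * S.s q) := by group
        _ = _ := by rw [this]; group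
    rw [← ss hqR r]
    refine Beh.base h1 (Or.inr (hL.sat Q hQ1 _ hr' h4)) ?_
    intro _
    rw [h4]
    exact h3 hQ
  | @step q q' T h1 h2 h3 ih =>
    intro r hr hrT
    have hqR := hL.sub h1
    have hQ : T ∈ S.R := by
      have := S.R_inv q hqR _ hT
      rwa [ss hqR] at this
    have hr' : S.s q • r ∈ S.R := S.R_inv q hqR r hr
    have h4 : S.s (S.s q • r) = S.s T := by
      rw [S.s_conj q hqR r hr, hrT, S.s_conj q hqR T hQ]
      have := S.s_sq q hqR
      calc S.s q * (S.s q * S.s T * S.s q) * S.s q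
          = (S.s q * S.s q) * S.s T * (S.s q * S.s q) := by group
        _ = _ := by rw [this]; group
    rw [← ss hqR r]
    exact Beh.step h1 h2 (ih hQ _ hr' h4)

include hL in
lemma rnxt_sat {x : X} (hx : x ∈ S.nxt M R1) (hxR : x ∈ S.R)
    {r : X} (hr : r ∈ S.R) (h : S.s r = S.s x) : r ∈ S.nxt M R1 := by
  rcases hx with (hx | hx) | ⟨q, hq⟩
  · exact absurd hxR (hL.nomir x hx)
  · exact Or.inl (Or.inr (hL.sat x hx r hr h))
  · exact Or.inr ⟨q, hq.rsat hL hxR r hr h⟩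

include hL in
lemma roff_nxt {r P : X} (hr : r ∈ S.R)
    (hrn : r ∉ S.nxt M R1) (hP : P ∈ S.nxt M R1) : S.Off P r := by
  intro h1 h2
  exact hrn (rnxt_sat hL hP h1 hr h2.symm)

include hL in
lemma rnb_nb {r P T x y : X} (hr : r ∈ S.R) (hrn : r ∉ S.nxt M R1) (hP : P ∈ S.O)
    (hPr : S.Off P r) (hT : T ∈ S.O) (hTr : S.Off T r) (hx : x ∈ M ∪ R1) (hy : y ∈ M ∪ R1)
    (h1 : S.Nr S.e1 r P x) (h2 : S.Nr S.e1 r T y) : S.Nr S.e r P T := by
  have hd : S.d ≤ S.e1 := by linarith [S.d_le_e1, S.d_pos]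
  have hp := S.e1_pos
  have hl := S.e1_le
  have hx' := rnxt_sub hL (Or.inl hx)
  have hy' := rnxt_sub hL (Or.inl hy)
  have hxo := roff_nxt hL hr hrn (Or.inl hx)
  have hyo := roff_nxt hL hr hrn (Or.inl hy)
  have h3 := hL.far r hr (fun h => hrn (layer_sub_nxt h)) x hx y hy
  have h4 := h1.tri h3 hr hP hx' hy' hPr hxo hyo (by linarith) (by linarith)
  have h5 := h4.tri (h2.symm.mono (by linarith : S.e1 ≤ 20 * S.e1)) hr hP hy' hT hPr hyo
    hTr (by linarith) (by linarith)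
  refine h5.mono ?_
  linarith [S.e1_eq]

include hL in
lemma rsmul_notin {q r : X} (hq : q ∈ R1) (hrn : r ∉ S.nxt M R1) : S.s q • r ∉ S.nxt M R1 := by
  intro h
  have := rnxt_inv hL hq h
  rw [ss (hL.sub hq)] at this
  exact hrn this

include hL in
/-- dichotomy -/
lemma rtwo_sides {q r P T : X} (hq : q ∈ R1) (hr : r ∈ S.R) (hrn : r ∉ S.nxt M R1)
    (hP : P ∈ S.O) (hPq : S.Off P q) (hT : T ∈ S.O) (hTq : S.Off T q)
    (hpos : 0 < S.c P q) (hpos' : 0 < S.c q T)
    (h : 1 / 500 * (S.c P q * S.c q T) ≤ S.c P T) :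
    S.Nr S.e1 r T q ∨ S.Nr S.e1 r P q := by
  have hqR := hL.sub hq
  have hrq : S.s r ≠ S.s q := fun h => hrn (Or.inl (Or.inr (hL.sat q hq r hr h)))
  have hd : S.d / (1 / 20000) ≤ S.e1 := by
    have h1 := S.d_le'
    have h2 := S.e1_le
    have h3 := S.e1_pos
    rw [div_div_eq_mul_div, div_one]
    nlinarith
  by_contra hcon
  push Not at hcon
  obtain ⟨hc1, hc2⟩ := hcon
  have k1 : S.Nr (1 / 20000) q r T := by
    unfold Nr
    by_contra h
    push Not at h
    exact hc1 ((Q2 hr hqR hrq (by norm_num : (0 : ℝ) < 1 / 20000) h.le).mono hd)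
  have k2 : S.Nr (1 / 20000) q r P := by
    unfold Nr
    by_contra h
    push Not at h
    exact hc2 ((Q2 hr hqR hrq (by norm_num : (0 : ℝ) < 1 / 20000) h.le).mono hd)
  have k3 := k2.symm.tri k1 hqR hP (S.sub hr) hT hPq (fun _ => hrq)
    hTq (by linarith [S.d_le_e1, S.d_pos, S.e1_le]) (by norm_num)
  unfold Nr at k3
  have k9 : 0 < S.c P q * S.c q T := mul_pos hpos hpos'
  linarith

/-- objects allowed on the left of `q` -/
def Lft (S : Sys G X) (M R1 : Set X) (q P : X) : Prop :=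
  (P ∈ M ∪ R1 ∧ S.Off P q) ∨ ∃ p ∈ R1, S.s q ≠ S.s p ∧ S.RFr R1 p P

include hL in
lemma Lft.O {q P : X} (h : S.Lft M R1 q P) : P ∈ S.O := by
  rcases h with ⟨h, _⟩ | ⟨p, hp, _, h⟩
  · exact hL.base_O h
  · exact h.1

lemma Lft.off {q P : X} (hq : q ∈ R1) (h : S.Lft M R1 q P) : S.Off P q := by
  rcases h with ⟨_, h⟩ | ⟨p, hp, hqp, h⟩
  · exact h
  · exact (h.2 q hq hqp).1

include hL in
/-- if `c P q = 0` then `P` is a base point -/
lemma Lft.zero {q P : X} (hq : q ∈ R1) (h : S.Lft M R1 q P) (h0 : S.c P q = 0) : P ∈ M := by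
  have hqR := hL.sub hq
  rcases h with ⟨h | h, h'⟩ | ⟨p, hp, hqp, h⟩
  · exact h
  · have := c_pos_mir (hL.sub h) hqR (h' (hL.sub h))
    linarith
  · have h1 := h.2 q hq hqp
    have := h1.2.c_pos hqR h.1 (S.sub (hL.sub hp)) h1.1 (fun _ => hqp.symm)
      (by linarith [S.d_pos]) (by linarith [S.d_le_e1, S.d_pos, S.e1_le])
    linarith

include hL in
/-- separation with two-sided constant -/
lemma Lft.sep {q P T' : X} (hq : q ∈ R1) (h : S.Lft M R1 q P) (hT : S.RBs M R1 q T') :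
    1 / 500 * (S.c P q * S.c q (S.s q • T')) ≤ S.c P (S.s q • T') := by
  have hqR := hL.sub hq
  have h0 : 0 ≤ S.c P q * S.c q (S.s q • T') := mul_nonneg (S.c_nonneg _ _) (S.c_nonneg _ _)
  rcases h with ⟨h, h'⟩ | ⟨p, hp, hqp, h⟩
  · have := hT.2.2 P h h'
    linarith
  · by_contra hcon
    push Not at hcon
    have h1 := h.2 q hq hqp
    have hpR := hL.sub hp
    have k1 : S.Nr (1 / 500) q P (S.s q • T') := hcon.le
    have k2 := (h1.2.symm.mono (by linarith [S.d_le_e1, S.d_pos, S.e1_le] :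
      21 * S.d ≤ 1 / 500)).tri k1 hqR (S.sub hpR) h.1 (S.O_inv q hqR T' hT.1)
      (fun _ => hqp.symm) h1.1 (off_smul' hqR hT.2.1)
      (by linarith [S.d_le_e1, S.d_pos, S.e1_le]) (by norm_num)
    have k3 := hT.2.2 p (Or.inr hp) (fun _ => hqp.symm)
    have k4 := c_pos_mir hpR hqR hqp.symm
    have k5 : 0 < S.c q (S.s q • T') := by
      rcases eq_or_lt_of_le (S.c_nonneg q (S.s q • T')) with h | h
      · rw [← h] at hcon
        have := S.c_nonneg P (S.s q • T')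
        linarith
      · exact h
    have k6 : 0 < S.c p q * S.c q (S.s q • T') := mul_pos k4 k5
    unfold Nr at k2
    linarith

include hL in
lemma rbase_self {r Q : X} (hr : r ∈ S.R) (hrn : r ∉ S.nxt M R1) (hQ : Q ∈ M ∪ R1) :
    S.Nr S.e1 r Q Q :=
  hL.far r hr (fun h => hrn (layer_sub_nxt h)) Q hQ Q hQ

/-- a base point on the mirror `q` may be reflected -/
lemma nr_zero {K : ℝ} {q r P T : X} (hq : q ∈ S.R) (h : ∀ z, S.c (S.s q • P) z = S.c P z)
    (hh : S.Nr K (S.s q • r) P T) : S.Nr K r P (S.s q • T) := by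
  have h1 : S.Nr K (S.s q • r) (S.s q • P) T := by
    unfold Nr at *
    rw [h, h]
    exact hh
  have h2 := h1.inv hq
  rwa [ss hq, ss hq] at h2

include hL in
lemma rfar {q T : X} (h : Beh S M R1 q T) : ∀ r ∈ S.R, r ∉ S.nxt M R1 → ∀ P,
    S.Lft M R1 q P → S.Off P r → ∀ x ∈ M ∪ R1, S.Nr S.e1 r P x → S.Nr S.e r P T := by
  induction h with
  | @base q Q h1 h2 h3 =>
    intro r hr hrn P hP hPr x hx hPx
    have hqR := hL.sub h1
    have hQ : S.RBs M R1 q Q := rbs_base hL h1 h2 h3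
    have hr' : S.s q • r ∉ S.nxt M R1 := rsmul_notin hL h1 hrn
    have hr'R : S.s q • r ∈ S.R := S.R_inv q hqR r hr
    by_cases hPz : S.c P q = 0
    · have hPM := hP.zero hL h1 hPz
      refine nr_zero hqR (hL.zero q h1 P hPM hPz) ?_
      exact rnb_nb hL hr'R hr' (hL.subO hPM) (fun h => absurd h (hL.nomir P hPM))
        (hL.base_O h2) (roff_nxt hL hr'R hr' (Or.inl h2)) (Or.inl hPM) h2
        (rbase_self hL hr'R hr' (Or.inl hPM)) (rbase_self hL hr'R hr' h2)
    · by_cases hTz : S.c Q q = 0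
      · have hQM : Q ∈ M := by
          rcases h2 with h | h
          · exact h
          · have := c_pos_mir (hL.sub h) hqR (h3 (hL.sub h))
            linarith
        have hz := hL.zero q h1 Q hQM hTz
        have h6 := rnb_nb hL hr hrn (hP.O hL) hPr (hL.subO hQM)
          (fun h => absurd h (hL.nomir Q hQM)) hx (Or.inl hQM) hPx (rbase_self hL hr hrn (Or.inl hQM))
        unfold Nr at h6 ⊢
        rw [S.c_symm P (S.s q • Q), hz, S.c_symm r (S.s q • Q), hz, S.c_symm Q P, S.c_symm Q r]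
        exact h6
      · have hTz' : S.c q (S.s q • Q) = S.c Q q := by rw [S.c_symm, c_refl hqR]
        rcases rtwo_sides hL h1 hr hrn (hP.O hL) (hP.off h1) (S.O_inv q hqR Q hQ.1)
          (off_smul' hqR h3) (lt_of_le_of_ne (S.c_nonneg _ _) (Ne.symm hPz))
          (by rw [hTz']; exact lt_of_le_of_ne (S.c_nonneg _ _) (Ne.symm hTz))
          (hP.sep hL h1 hQ) with h4 | h4
        · exact rnb_nb hL hr hrn (hP.O hL) hPr (S.O_inv q hqR Q hQ.1)
            (roff_nxt hL hr hrn (Or.inr ⟨q, Beh.base h1 h2 h3⟩)) hx (Or.inr h1) hPx h4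
        · have hq' : S.s q • q ∈ M ∪ R1 :=
            Or.inr (hL.sat q h1 _ (S.R_inv q hqR q hqR) (s_self hqR))
          have h6 := rnb_nb hL hr'R hr' (S.O_inv q hqR P (hP.O hL)) (off_smul hr hqR hPr) hQ.1
            (roff_nxt hL hr'R hr' (Or.inl h2)) hq' h2 (h4.inv hqR) (rbase_self hL hr'R hr' h2)
          have h7 := h6.inv hqR
          rwa [ss hqR, ss hqR] at h7
  | @step q q' T h1 h2 h3 ih =>
    intro r hr hrn P hP hPr x hx hPx
    have hqR := hL.sub h1
    have hr' : S.s q • r ∉ S.nxt M R1 := rsmul_notin hL h1 hrn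
    have hr'R : S.s q • r ∈ S.R := S.R_inv q hqR r hr
    have h3' := h3
    obtain ⟨h4, T', rfl, h5⟩ := h3.rspec hL
    have hfr := rfr_of_rbs hL h4 h5
    have hT : S.RBs M R1 q (S.s q' • T') := rbs_of_rfr hL h4 h1 h2 hfr
    by_cases hPz : S.c P q = 0
    · have hPM := hP.zero hL h1 hPz
      refine nr_zero hqR (hL.zero q h1 P hPM hPz) ?_
      exact ih _ hr'R hr' P (Or.inl ⟨Or.inl hPM, fun h => absurd h (hL.nomir P hPM)⟩)
        (fun h => absurd h (hL.nomir P hPM)) P (Or.inl hPM) (rbase_self hL hr'R hr' (Or.inl hPM))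
    · have hTz : 0 < S.c (S.s q' • T') q := by
        have h1' := hfr.2 q h1 h2
        exact h1'.2.c_pos hqR hfr.1 (S.sub (hL.sub h4)) h1'.1 (fun _ => h2.symm)
          (by linarith [S.d_pos]) (by linarith [S.d_le_e1, S.d_pos, S.e1_le])
      have hTz' : S.c q (S.s q • S.s q' • T') = S.c (S.s q' • T') q := by
        rw [S.c_symm, c_refl hqR]
      rcases rtwo_sides hL h1 hr hrn (hP.O hL) (hP.off h1) (S.O_inv q hqR _ hT.1)
          (off_smul' hqR hT.2.1) (lt_of_le_of_ne (S.c_nonneg _ _) (Ne.symm hPz))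
          (by rw [hTz']; exact hTz) (hP.sep hL h1 hT) with h6 | h6
      · exact rnb_nb hL hr hrn (hP.O hL) hPr (S.O_inv q hqR _ hT.1)
          (roff_nxt hL hr hrn (Or.inr ⟨q, Beh.step h1 h2 h3'⟩)) hx (Or.inr h1) hPx h6
      · have hq' : S.s q • q ∈ M ∪ R1 :=
          Or.inr (hL.sat q h1 _ (S.R_inv q hqR q hqR) (s_self hqR))
        have hPb : S.RBs M R1 q P := by
          rcases hP with ⟨h, h'⟩ | ⟨p, hp, hqp, h⟩
          · exact rbs_base hL h1 h h'
          · exact rbs_of_rfr hL hp h1 hqp h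
        have h7 := ih _ hr'R hr' (S.s q • P) (Or.inr ⟨q, h1, h2.symm, rfr_of_rbs hL h1 hPb⟩)
          (off_smul hr hqR hPr) _ hq' (h6.inv hqR)
        have h8 := h7.inv hqR
        rwa [ss hqR, ss hqR] at h8

include hL in
lemma rsmall_base {r a b : X} (hr : r ∈ S.R) (hrn : r ∉ S.nxt M R1) (ha : a ∈ M ∪ R1)
    (hb : b ∈ S.nxt M R1) : S.Nr S.e r a b := by
  rcases hb with hb | ⟨q, hq⟩
  · exact rnb_nb hL hr hrn (rnxt_sub hL (Or.inl ha)) (roff_nxt hL hr hrn (Or.inl ha))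
      (rnxt_sub hL (Or.inl hb)) (roff_nxt hL hr hrn (Or.inl hb)) ha hb
      (rbase_self hL hr hrn ha) (rbase_self hL hr hrn hb)
  · have hqR1 := (hq.rspec hL).1
    have hqR := hL.sub hqR1
    by_cases h : S.Off a q
    · exact rfar hL hq r hr hrn a (Or.inl ⟨ha, h⟩)
        (roff_nxt hL hr hrn (Or.inl ha)) a ha (rbase_self hL hr hrn ha)
    · simp only [Off, not_forall, not_not] at h
      obtain ⟨haR, h⟩ := h
      have ha' : S.s q • a ∈ R1 :=
        hL.sat q hqR1 _ (S.R_inv q hqR a haR) (by rw [← h, s_self haR])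
      have ha'' : S.s (S.s q • a) = S.s q := by rw [← h, s_self haR]
      have hr' : S.s q • r ∉ S.nxt M R1 := rsmul_notin hL hqR1 hrn
      have hr'R : S.s q • r ∈ S.R := S.R_inv q hqR r hr
      cases hq with
      | @base q Q h1 h2 h3 =>
        have h6 := rnb_nb hL hr'R hr' (S.sub (hL.sub ha'))
          (roff_nxt hL hr'R hr' (layer_sub_nxt ha')) (rnxt_sub hL (Or.inl h2))
          (roff_nxt hL hr'R hr' (Or.inl h2)) (Or.inr ha') h2
          (rbase_self hL hr'R hr' (Or.inr ha')) (rbase_self hL hr'R hr' h2)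
        have h7 := h6.inv hqR
        rwa [ss hqR, ss hqR] at h7
      | @step q q' T h1 h2 h3 =>
        have h6 := rfar hL h3 _ hr'R hr' (S.s q • a)
          (Or.inl ⟨Or.inr ha', fun _ => by rw [ha'']; exact h2⟩)
          (roff_nxt hL hr'R hr' (layer_sub_nxt ha')) _ (Or.inr ha')
          (rbase_self hL hr'R hr' (Or.inr ha'))
        have h7 := h6.inv hqR
        rwa [ss hqR, ss hqR] at h7

include hL in
lemma rsmall_nxt {r a b : X} (hr : r ∈ S.R) (hrn : r ∉ S.nxt M R1) (ha : a ∈ S.nxt M R1)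
    (hb : b ∈ S.nxt M R1) : S.Nr S.e r a b := by
  rcases ha with ha | ⟨q, hq⟩
  · exact rsmall_base hL hr hrn ha hb
  · induction hq generalizing r b with
    | @base q Q h1 h2 h3 =>
      have hqR := hL.sub h1
      have h7 := (rsmall_base hL (S.R_inv q hqR r hr) (rsmul_notin hL h1 hrn) h2
        (rnxt_inv hL h1 hb)).inv hqR
      rwa [ss hqR, ss hqR] at h7
    | @step q q' T h1 h2 h3 ih =>
      have hqR := hL.sub h1
      have h7 := (ih (S.R_inv q hqR r hr) (rsmul_notin hL h1 hrn) (rnxt_inv hL h1 hb)).inv hqR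
      rwa [ss hqR, ss hqR] at h7

include hL in
lemma rs_mem {q T : X} (h : Beh S M R1 q T) (hT : T ∈ S.R) :
    S.s T ∈ closure (S.s '' R1) := by
  induction h with
  | @base q Q h1 h2 h3 =>
    have hQ : Q ∈ S.R := by
      have := S.R_inv q (hL.sub h1) _ hT
      rwa [ss (hL.sub h1)] at this
    have hQ1 : Q ∈ R1 := by
      rcases h2 with h2 | h2
      · exact absurd hQ (hL.nomir Q h2)
      · exact h2
    rw [S.s_conj q (hL.sub h1) Q hQ]
    have k1 : S.s q ∈ closure (S.s '' R1) := subset_closure (Set.mem_image_of_mem _ h1)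
    have k2 : S.s Q ∈ closure (S.s '' R1) := subset_closure (Set.mem_image_of_mem _ hQ1)
    exact mul_mem (mul_mem k1 k2) k1
  | @step q q' T h1 h2 h3 ih =>
    have hQ : T ∈ S.R := by
      have := S.R_inv q (hL.sub h1) _ hT
      rwa [ss (hL.sub h1)] at this
    rw [S.s_conj q (hL.sub h1) T hQ]
    have k1 : S.s q ∈ closure (S.s '' R1) := subset_closure (Set.mem_image_of_mem _ h1)
    exact mul_mem (mul_mem k1 (ih hQ)) k1

include hL in
/-- the group of the start windmill is generated by the first family -/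
theorem GW_start : S.GW (S.nxt M R1) = closure (S.s '' R1) := by
  apply le_antisymm
  · refine (closure_le _).2 ?_
    rintro _ ⟨w, ⟨(hw | hw) | ⟨q, hq⟩, hwR⟩, rfl⟩
    · exact absurd hwR (hL.nomir w hw)
    · exact subset_closure (Set.mem_image_of_mem _ hw)
    · exact rs_mem hL hq hwR
  · refine closure_mono (Set.image_mono fun x hx => ⟨layer_sub_nxt hx, hL.sub hx⟩)

include hL in
lemma start_inv {g : G} (hg : g ∈ closure (S.s '' R1)) : ∀ y ∈ S.nxt M R1, g • y ∈ S.nxt M R1 := by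
  induction hg using closure_induction_left with
  | one => intro y hy; rwa [one_smul]
  | mul_left x hx g hg ih =>
    obtain ⟨w, hw, rfl⟩ := hx
    intro y hy
    rw [mul_smul]
    exact rnxt_inv hL hw (ih y hy)
  | inv_mul_cancel x hx g hg ih =>
    obtain ⟨w, hw, rfl⟩ := hx
    intro y hy
    rw [s_inv (hL.sub hw), mul_smul]
    exact rnxt_inv hL hw (ih y hy)

include hL in
/-- description of the start windmill -/
theorem mem_start {y : X} : y ∈ S.nxt M R1 ↔
    ∃ g ∈ closure (S.s '' R1), ∃ x ∈ M ∪ R1, y = g • x := by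
  constructor
  · rintro (hy | ⟨q, hq⟩)
    · exact ⟨1, one_mem _, y, hy, (one_smul _ _).symm⟩
    · induction hq with
      | @base q Q h1 h2 h3 =>
        exact ⟨S.s q, subset_closure (Set.mem_image_of_mem _ h1), Q, h2, rfl⟩
      | @step q q' T h1 h2 h3 ih =>
        obtain ⟨g, hg, x, hx, rfl⟩ := ih
        exact ⟨S.s q * g, mul_mem (subset_closure (Set.mem_image_of_mem _ h1)) hg, x, hx,
          (mul_smul _ _ _).symm⟩
  · rintro ⟨g, hg, x, hx, rfl⟩
    exact start_inv hL hg x (Or.inl hx)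

include hL in
/-- **start windmill** -/
theorem mill_start : S.Mill (S.nxt M R1) where
  sub := rnxt_sub hL
  inv := by
    intro w hw hwR x hx
    refine start_inv hL ?_ x hx
    rw [← GW_start hL]
    exact mem_GW hw hwR
  sat := fun w hw hwR r hr h => rnxt_sat hL hw hwR hr h
  small := fun r hr hrn a ha b hb => rsmall_nxt hL hr hrn ha hb

end start

end Sys

end Crest.Agent.R272.WmA181
end

-- ▼ part R272/Wm1_433
section

/-!
helper433, row 272: algebraic windmill of helper409 (#5053), part 1.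
Hermitian forms of signature `(n,1)` (any dimension), the functions
`u_r(a,b) = <a,b> / (<a,r><r,b>)`, (Q1), (Q2), (Q3), (Q4).
-/

namespace Crest.Agent.R272.Wm_433

open Complex ComplexConjugate

/-- A Hermitian form (linear in the first variable) such that the orthogonal complement of a
negative vector is positive semidefinite. -/
structure HF (V : Type*) [AddCommGroup V] [Module ℂ V] where
  h : V → V → ℂ
  add_left : ∀ x y z, h (x + y) z = h x z + h y z
  smul_left : ∀ (c : ℂ) (x z : V), h (c • x) z = c * h x z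
  symm : ∀ x y, conj (h x y) = h y x
  sig : ∀ b x, (h b b).re < 0 → h x b = 0 → 0 ≤ (h x x).re

variable {V : Type*} [AddCommGroup V] [Module ℂ V]

namespace HF

variable (F : HF V)

lemma add_right (x y z : V) : F.h x (y + z) = F.h x y + F.h x z := by
  rw [← F.symm, F.add_left, map_add, F.symm, F.symm]

lemma smul_right (c : ℂ) (x z : V) : F.h x (c • z) = conj c * F.h x z := by
  rw [← F.symm, F.smul_left, map_mul, F.symm]



lemma neg_left (x z : V) : F.h (-x) z = - F.h x z := by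
  have := F.smul_left (-1) x z
  simpa using this

lemma neg_right (x z : V) : F.h x (-z) = - F.h x z := by
  have := F.smul_right (-1) x z
  simpa using this

lemma sub_left (x y z : V) : F.h (x - y) z = F.h x z - F.h y z := by
  rw [sub_eq_add_neg, F.add_left, F.neg_left, sub_eq_add_neg]

lemma sub_right (x y z : V) : F.h x (y - z) = F.h x y - F.h x z := by
  rw [sub_eq_add_neg, F.add_right, F.neg_right, sub_eq_add_neg]

lemma norm_symm (x y : V) : ‖F.h x y‖ = ‖F.h y x‖ := by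
  rw [← F.symm, RCLike.norm_conj]

lemma self_im (x : V) : (F.h x x).im = 0 := by
  have := F.symm x x
  exact Complex.conj_eq_iff_im.1 this

lemma self_eq (x : V) : F.h x x = ((F.h x x).re : ℂ) := by
  apply Complex.ext
  · simp
  · simp [F.self_im x]

/-- Cauchy-Schwarz on a subspace where the form is semidefinite. -/
lemma cs (a c : V) (hp : ∀ z : ℂ, 0 ≤ (F.h (a + z • c) (a + z • c)).re) (hc : 0 ≤ (F.h c c).re) :
    ‖F.h a c‖ ^ 2 ≤ (F.h a a).re * (F.h c c).re := by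
  have expand : ∀ z : ℂ, (F.h (a + z • c) (a + z • c)).re =
      (F.h a a).re + 2 * (conj z * F.h a c).re + ‖z‖ ^ 2 * (F.h c c).re := by
    intro z
    rw [F.add_left, F.add_right, F.add_right, F.smul_left, F.smul_left, F.smul_right, F.smul_right,
      F.self_eq c, ← F.symm a c]
    have h1 : (z * conj (F.h a c)).re = (conj z * F.h a c).re := by
      simp [Complex.mul_re]
    have h2 : (z * (conj z * ((F.h c c).re : ℂ))).re = ‖z‖ ^ 2 * (F.h c c).re := by
      rw [← mul_assoc, Complex.mul_conj, Complex.normSq_eq_norm_sq]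
      norm_cast
    simp only [Complex.add_re, h1, h2]
    simp only [Complex.ofReal_re]
    ring
  set p := F.h a c with hpdef
  -- choose z = -s p
  have key : ∀ s : ℝ, 0 ≤ (F.h a a).re - 2 * s * ‖p‖ ^ 2 + s ^ 2 * ‖p‖ ^ 2 * (F.h c c).re := by
    intro s
    have h1 := hp ((-s : ℝ) * p)
    rw [expand] at h1
    have h2 : (conj (((-s : ℝ) : ℂ) * p) * p).re = - s * ‖p‖ ^ 2 := by
      rw [map_mul, Complex.conj_ofReal, mul_assoc, mul_comm (conj p) p, Complex.mul_conj,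
        Complex.normSq_eq_norm_sq]
      norm_cast
    have h3 : ‖(((-s : ℝ) : ℂ) * p)‖ ^ 2 = s ^ 2 * ‖p‖ ^ 2 := by
      rw [norm_mul, mul_pow, Complex.norm_real, Real.norm_eq_abs, sq_abs]; ring
    rw [h2, h3] at h1
    linarith
  rcases eq_or_lt_of_le hc with h0 | h0
  · -- (F.h c c).re = 0
    rw [← h0] at key ⊢
    by_contra hcon
    push Not at hcon
    have hpp : 0 < ‖p‖ ^ 2 := by nlinarith [sq_nonneg ‖p‖]
    have h1 := key (((F.h a a).re + 1) / (2 * ‖p‖ ^ 2))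
    have hne : ‖p‖ ≠ 0 := by
      intro h
      rw [h] at hpp
      norm_num at hpp
    have h2 : 2 * (((F.h a a).re + 1) / (2 * ‖p‖ ^ 2)) * ‖p‖ ^ 2 = (F.h a a).re + 1 := by
      field_simp
    linarith
  · have h1 := key (1 / (F.h c c).re)
    have h2 : (F.h a a).re - 2 * (1 / (F.h c c).re) * ‖p‖ ^ 2 +
        (1 / (F.h c c).re) ^ 2 * ‖p‖ ^ 2 * (F.h c c).re = (F.h a a).re - ‖p‖ ^ 2 / (F.h c c).re := by
      field_simp; ring
    rw [h2] at h1
    have h3 : ‖p‖ ^ 2 / (F.h c c).re ≤ (F.h a a).re := by linarith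
    rwa [div_le_iff₀ h0] at h3

/-- The main identity: `a, b, c` normalised by `<., r> = 1`, `t = 1 - <b,b> > 0`. -/
lemma dec (r a b c : V) (hr : F.h r r = 1) (ha : F.h a r = 1) (hb : F.h b r = 1) (hc : F.h c r = 1)
    (hbb : (F.h b b).re < 1) :
    ∃ E : ℂ, F.h a c = 1 - (1 - F.h a b) * (1 - F.h b c) / ((1 - (F.h b b).re : ℝ) : ℂ) + E ∧
      0 ≤ ‖1 - F.h a b‖ ^ 2 / (1 - (F.h b b).re) - 1 + (F.h a a).re ∧
      0 ≤ ‖1 - F.h b c‖ ^ 2 / (1 - (F.h b b).re) - 1 + (F.h c c).re ∧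
      ‖E‖ ^ 2 ≤ (‖1 - F.h a b‖ ^ 2 / (1 - (F.h b b).re) - 1 + (F.h a a).re) *
        (‖1 - F.h b c‖ ^ 2 / (1 - (F.h b b).re) - 1 + (F.h c c).re) := by
  set t : ℝ := 1 - (F.h b b).re with ht
  have htpos : 0 < t := by linarith
  have htC : (t : ℂ) ≠ 0 := by exact_mod_cast htpos.ne'
  have hra : F.h r a = 1 := by rw [← F.symm, ha]; simp
  have hrb : F.h r b = 1 := by rw [← F.symm, hb]; simp
  have hrc : F.h r c = 1 := by rw [← F.symm, hc]; simp
  have hbb' : F.h (b - r) (b - r) = ((-t : ℝ) : ℂ) := by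
    rw [F.sub_left, F.sub_right, F.sub_right, hb, hrb, hr, F.self_eq b]
    push_cast [ht]; ring
  have hneg : (F.h (b - r) (b - r)).re < 0 := by rw [hbb']; simpa using htpos
  -- projections
  set lam : V → ℂ := fun x => (1 - F.h x b) / (t : ℂ) with hlam
  set pr : V → V := fun x => (x - r) - lam x • (b - r) with hpr
  have hx1 : ∀ x, F.h x r = 1 → F.h (x - r) (b - r) = F.h x b - 1 := by
    intro x hx
    rw [F.sub_left, F.sub_right, F.sub_right, hx, hrb, hr]; ring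
  have horth : ∀ x, F.h x r = 1 → F.h (pr x) (b - r) = 0 := by
    intro x hx
    rw [hpr, F.sub_left, F.smul_left, hx1 x hx, hbb']
    simp only [hlam]
    push_cast
    field_simp
    ring
  have hpp : ∀ x y, F.h x r = 1 → F.h y r = 1 →
      F.h (pr x) (pr y) = F.h x y - 1 + (1 - F.h x b) * (1 - F.h b y) / (t : ℂ) := by
    intro x y hx hy
    have h1 : F.h (pr x) (pr y) = F.h (pr x) (y - r) := by
      have : pr y = (y - r) - lam y • (b - r) := rfl
      rw [this, F.sub_right, F.smul_right, horth x hx]; ring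
    rw [h1]
    have h2 : F.h (b - r) (y - r) = F.h b y - 1 := by
      have hry : F.h r y = 1 := by rw [← F.symm, hy]; simp
      rw [F.sub_left, F.sub_right, F.sub_right, hb, hry, hr]; ring
    have h3 : F.h (x - r) (y - r) = F.h x y - 1 := by
      have hry : F.h r y = 1 := by rw [← F.symm, hy]; simp
      rw [F.sub_left, F.sub_right, F.sub_right, hx, hry, hr]; ring
    rw [hpr, F.sub_left, F.smul_left, h2, h3]
    simp only [hlam]
    ring
  have hself : ∀ x, F.h x r = 1 → (F.h (pr x) (pr x)).re =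
      ‖1 - F.h x b‖ ^ 2 / t - 1 + (F.h x x).re := by
    intro x hx
    rw [hpp x x hx hx]
    have h1 : (1 - F.h x b) * (1 - F.h b x) = ((‖1 - F.h x b‖ ^ 2 : ℝ) : ℂ) := by
      rw [← F.symm x b]
      have : (1 - conj (F.h x b)) = conj (1 - F.h x b) := by simp
      rw [this, Complex.mul_conj, Complex.normSq_eq_norm_sq]
    rw [h1]
    have : (((‖1 - F.h x b‖ ^ 2 : ℝ) : ℂ) / (t : ℂ)) = ((‖1 - F.h x b‖ ^ 2 / t : ℝ) : ℂ) := by
      push_cast; rfl
    rw [this]
    simp only [Complex.add_re, Complex.sub_re, Complex.one_re, Complex.ofReal_re]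
    ring
  have hnn : ∀ x, F.h x r = 1 → 0 ≤ (F.h (pr x) (pr x)).re := fun x hx =>
    F.sig (b - r) _ hneg (horth x hx)
  refine ⟨F.h (pr a) (pr c), ?_, ?_, ?_, ?_⟩
  · rw [hpp a c ha hc]; ring
  · rw [← hself a ha]; exact hnn a ha
  · have h1 := hself c hc
    have h2 := hnn c hc
    rw [h1, ← F.symm b c] at h2
    have : ‖1 - conj (F.h b c)‖ = ‖1 - F.h b c‖ := by
      have : (1 - conj (F.h b c)) = conj (1 - F.h b c) := by simp
      rw [this, RCLike.norm_conj]
    rwa [this] at h2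
  · have h1 := F.cs (pr a) (pr c) (fun z => F.sig (b - r) _ hneg (by
      rw [F.add_left, F.smul_left, horth a ha, horth c hc]; ring)) (hnn c hc)
    rw [hself a ha, hself c hc] at h1
    have : ‖1 - F.h c b‖ = ‖1 - F.h b c‖ := by
      rw [← F.symm b c]
      have : (1 - conj (F.h b c)) = conj (1 - F.h b c) := by simp
      rw [this, RCLike.norm_conj]
    rwa [this] at h1

/-! ### The functions `u` and `A` -/

/-- `u_r(a,b) = <a,b> / (<a,r><r,b>)`. -/
noncomputable def u (r a b : V) : ℂ := F.h a b / (F.h a r * F.h r b)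

/-- `a` is seen from `r` (with precision `κ`). -/
def Seen (κ : ℝ) (r a : V) : Prop := F.h a r ≠ 0 ∧ (F.h a a).re ≤ κ * ‖F.h a r‖ ^ 2



lemma norm_u (r a b : V) : ‖F.u r a b‖ = ‖F.h a b‖ / (‖F.h a r‖ * ‖F.h b r‖) := by
  unfold u
  rw [norm_div, norm_mul, F.norm_symm r b]

/-- normalised vector. -/
noncomputable def nrm (r a : V) : V := (F.h a r)⁻¹ • a

lemma nrm_h (r a : V) (ha : F.h a r ≠ 0) : F.h (F.nrm r a) r = 1 := by
  unfold nrm
  rw [F.smul_left, inv_mul_cancel₀ ha]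

lemma h_nrm (r a b : V) : F.h (F.nrm r a) (F.nrm r b) = F.u r a b := by
  unfold nrm u
  rw [F.smul_left, F.smul_right, map_inv₀, F.symm b r, ← mul_assoc, ← mul_inv, div_eq_inv_mul]

lemma h_nrm_self (κ : ℝ) (r a : V) (ha : F.Seen κ r a) :
    (F.h (F.nrm r a) (F.nrm r a)).re ≤ κ := by
  have h1 : F.h (F.nrm r a) (F.nrm r a) = (((F.h a a).re / ‖F.h a r‖ ^ 2 : ℝ) : ℂ) := by
    rw [F.h_nrm]
    unfold u
    rw [← F.symm a r, Complex.mul_conj, Complex.normSq_eq_norm_sq, F.self_eq a]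
    push_cast
    rfl
  rw [h1, Complex.ofReal_re]
  have h2 : 0 < ‖F.h a r‖ ^ 2 := by
    have := norm_pos_iff.2 ha.1
    positivity
  rw [div_le_iff₀ h2]
  exact ha.2

lemma q1_real {κ m t : ℝ} (hκ0 : 0 ≤ κ) (hκ : κ ≤ 1/100) (hm0 : 0 ≤ m) (_hm : m ≤ 1)
    (htpos : 0 < t) (ht1 : 1 - κ ≤ t) (ht2 : t * (1 - κ) ≤ (1 + m) ^ 2) :
    |1 - 1 / t| ≤ 2 * m + 1.1 * κ := by
  have hk2 : κ * κ ≤ κ * (1/100) := mul_le_mul_of_nonneg_left hκ hκ0
  rw [abs_le]
  constructor
  · have : 1 / t ≤ 1 + 1.1 * κ := by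
      rw [div_le_iff₀ htpos]
      have h1 : (1 + 1.1 * κ) * (1 - κ) ≤ (1 + 1.1 * κ) * t :=
        mul_le_mul_of_nonneg_left ht1 (by positivity)
      have h2 : (1 + 1.1 * κ) * (1 - κ) = 1 + 0.1 * κ - 1.1 * (κ * κ) := by ring
      nlinarith
    linarith
  · have : 1 - 2 * m - 1.1 * κ ≤ 1 / t := by
      rw [le_div_iff₀ htpos]
      by_cases h0 : 1 - 2 * m - 1.1 * κ ≤ 0
      · have := mul_nonneg (by linarith : 0 ≤ -(1 - 2 * m - 1.1 * κ)) htpos.le
        linarith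
      · push Not at h0
        have h1 : (1 - 2 * m - 1.1 * κ) * (t * (1 - κ)) ≤ (1 - 2 * m - 1.1 * κ) * (1 + m) ^ 2 :=
          mul_le_mul_of_nonneg_left ht2 h0.le
        have h2 : (1 - 2 * m - 1.1 * κ) * (1 + m) ^ 2 ≤ (1 - κ) := by
          have e : (1 - 2 * m - 1.1 * κ) * (1 + m) ^ 2 =
            1 - 3 * m ^ 2 - 2 * m ^ 3 - 1.1 * κ * (1 + 2 * m + m ^ 2) := by ring
          rw [e]
          have e1 : 0 ≤ 3 * m ^ 2 := by positivity
          have e2 : 0 ≤ 2 * m ^ 3 := by positivity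
          have e3 : 0 ≤ 1.1 * κ * (2 * m + m ^ 2) := by positivity
          have e4 : 1.1 * κ * (1 + 2 * m + m ^ 2) = 1.1 * κ + 1.1 * κ * (2 * m + m ^ 2) := by ring
          linarith
        have h3 : 0 < 1 - κ := by linarith
        have h4 : ((1 - 2 * m - 1.1 * κ) * t) * (1 - κ) ≤ 1 * (1 - κ) := by
          calc ((1 - 2 * m - 1.1 * κ) * t) * (1 - κ) = (1 - 2 * m - 1.1 * κ) * (t * (1 - κ)) := by ring
            _ ≤ _ := h1
            _ ≤ _ := h2
            _ = _ := by ring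
        exact le_of_mul_le_mul_right h4 h3
    linarith

/-- (Q1), normalised. -/
lemma q1n {κ m : ℝ} (r a b c : V) (hr : F.h r r = 1) (ha : F.h a r = 1) (hb : F.h b r = 1)
    (hc : F.h c r = 1) (haa : (F.h a a).re ≤ κ) (hbb : (F.h b b).re ≤ κ) (hcc : (F.h c c).re ≤ κ)
    (hκ0 : 0 ≤ κ) (hκm : κ ≤ m) (hκ : κ ≤ 1/100) (hm : m ≤ 1)
    (hab : ‖F.h a b‖ ≤ m) (hbc : ‖F.h b c‖ ≤ m) : ‖F.h a c‖ ≤ 15 * m := by
  have hbb1 : (F.h b b).re < 1 := by linarith
  obtain ⟨E, hE, hA, hC, hEE⟩ := F.dec r a b c hr ha hb hc hbb1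
  set p := F.h a b with hp
  set q := F.h b c with hq
  have hm0 : 0 ≤ m := le_trans (norm_nonneg _) hab
  have htpos : 0 < 1 - (F.h b b).re := by linarith
  have ht1 : 1 - κ ≤ 1 - (F.h b b).re := by linarith
  generalize 1 - (F.h b b).re = t at *
  have hp1 : ‖1 - p‖ ≤ 1 + m := by
    calc ‖1 - p‖ ≤ ‖(1:ℂ)‖ + ‖p‖ := norm_sub_le _ _
      _ ≤ 1 + m := by rw [norm_one]; linarith
  have hq1 : ‖1 - q‖ ≤ 1 + m := by
    calc ‖1 - q‖ ≤ ‖(1:ℂ)‖ + ‖q‖ := norm_sub_le _ _
      _ ≤ 1 + m := by rw [norm_one]; linarith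
  have hsq : ∀ x : ℝ, 0 ≤ x → x ≤ 1 + m → x ^ 2 / t ≤ 1 + 3 * m + 4.1 * κ := by
    intro x hx0 hx
    rw [div_le_iff₀ htpos]
    have h1 : x ^ 2 ≤ (1 + m) ^ 2 := by nlinarith
    have h2 : (1 + m) ^ 2 ≤ 1 + 3 * m := by nlinarith
    have h3 : (1 + 3 * m + 4.1 * κ) * (1 - κ) ≤ (1 + 3 * m + 4.1 * κ) * t := by
      apply mul_le_mul_of_nonneg_left ht1
      positivity
    have h4 : 1 + 3 * m ≤ (1 + 3 * m + 4.1 * κ) * (1 - κ) := by nlinarith
    linarith
  have hA2 : ‖1 - p‖ ^ 2 / t - 1 + (F.h a a).re ≤ 3 * m + 5.1 * κ := by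
    have := hsq _ (norm_nonneg _) hp1
    linarith
  have hC2 : ‖1 - q‖ ^ 2 / t - 1 + (F.h c c).re ≤ 3 * m + 5.1 * κ := by
    have := hsq _ (norm_nonneg _) hq1
    linarith
  have hEn : ‖E‖ ≤ 3 * m + 5.1 * κ := by
    have h1 : ‖E‖ ^ 2 ≤ (3 * m + 5.1 * κ) ^ 2 := by
      calc ‖E‖ ^ 2 ≤ _ := hEE
        _ ≤ (3 * m + 5.1 * κ) * (3 * m + 5.1 * κ) := by
          apply mul_le_mul hA2 hC2 hC
          positivity
        _ = _ := by ring
    exact abs_le_of_sq_le_sq' h1 (by positivity) |>.2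
  -- t is bounded above
  have ht2 : t * (1 - κ) ≤ (1 + m) ^ 2 := by
    have h1 : 1 - κ ≤ ‖1 - p‖ ^ 2 / t := by linarith
    rw [le_div_iff₀ htpos] at h1
    have h2 : ‖1 - p‖ ^ 2 ≤ (1 + m) ^ 2 := by
      apply pow_le_pow_left₀ (norm_nonneg _) hp1
    linarith
  have ht3 : |1 - 1 / t| ≤ 2 * m + 1.1 * κ := q1_real hκ0 hκ hm0 hm htpos ht1 ht2
  have hfin : F.h a c = ((1 - 1 / t : ℝ) : ℂ) + (p + q - p * q) * ((1 / t : ℝ) : ℂ) + E := by
    rw [hE]
    push_cast
    ring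
  rw [hfin]
  have h1t : 1 / t ≤ 1 + 1.1 * κ := by
    rw [div_le_iff₀ htpos]
    nlinarith
  have h1t0 : 0 < 1 / t := by positivity
  have hpq : ‖p + q - p * q‖ ≤ 3 * m := by
    have e1 : ‖p + q - p * q‖ ≤ ‖p‖ + ‖q‖ + ‖p‖ * ‖q‖ := by
      have e2 := norm_sub_le (p + q) (p * q)
      rw [norm_mul] at e2
      linarith [norm_add_le p q]
    have e3 : ‖p‖ * ‖q‖ ≤ m * 1 := by
      apply mul_le_mul hab (le_trans hbc hm) (norm_nonneg _) hm0
    linarith
  have f1 : ‖((1 - 1 / t : ℝ) : ℂ)‖ ≤ 2 * m + 1.1 * κ := by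
    rw [Complex.norm_real, Real.norm_eq_abs]; exact ht3
  have f2 : ‖(p + q - p * q) * ((1 / t : ℝ) : ℂ)‖ ≤ 3 * m * (1 + 1.1 * κ) := by
    rw [norm_mul, Complex.norm_real, Real.norm_eq_abs, abs_of_pos h1t0]
    exact mul_le_mul hpq h1t h1t0.le (by positivity)
  have f3 := norm_add_le (((1 - 1 / t : ℝ) : ℂ) + (p + q - p * q) * ((1 / t : ℝ) : ℂ)) E
  have f4 := norm_add_le ((1 - 1 / t : ℝ) : ℂ) ((p + q - p * q) * ((1 / t : ℝ) : ℂ))
  have h5 : m * κ ≤ m * (1/100) := mul_le_mul_of_nonneg_left hκ hm0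
  have h6 : 3 * m * (1 + 1.1 * κ) = 3 * m + 3.3 * (m * κ) := by ring
  linarith

end HF

end Crest.Agent.R272.Wm_433
end

-- ▼ part R272/WmD_181
section

/-!
# The windmill, part D: instance for `Lor` (helper585's language) and the literal theorems
`gr`, `start_mill`.
-/

set_option autoImplicit false

namespace Crest.Agent.R272.WmD181

open Complex ComplexConjugate Subgroup
open Crest.Agent.R272.LBForm_585 Crest.Agent.R272.LBForm_585.Lor

variable {V : Type*} [AddCommGroup V] [Module ℂ V]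

/-- System of mirrors of norm `2`, sparse. -/
structure MSys (L : Lor V) (W : Set V) (Λ : ℝ) : Prop where
  norm : ∀ w ∈ W, L.h w w = 2
  neg : ∀ w ∈ W, -w ∈ W
  refl : ∀ w ∈ W, ∀ w' ∈ W, rho L w w' ∈ W
  sep : ∀ w ∈ W, ∀ w' ∈ W, w' = w ∨ w' = -w ∨ Λ ≤ ‖L.h w w'‖

/-- the reflection as a linear equivalence -/
noncomputable def rhoE (L : Lor V) (w : V) (hw : L.h w w = 2) : V ≃ₗ[ℂ] V where
  toFun := rho L w
  map_add' := rho_add L w
  map_smul' := by intro c x; exact rho_smul L w c x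
  invFun := rho L w
  left_inv := rho_rho L hw
  right_inv := rho_rho L hw

open Classical in
/-- total version -/
noncomputable def sE (L : Lor V) (w : V) : V ≃ₗ[ℂ] V :=
  if h : L.h w w = 2 then rhoE L w h else 1

lemma sE_apply (L : Lor V) {w : V} (hw : L.h w w = 2) (x : V) : sE L w x = rho L w x := by
  unfold sE
  rw [dif_pos hw]
  rfl

lemma sE_smul (L : Lor V) {w : V} (hw : L.h w w = 2) (x : V) : sE L w • x = rho L w x :=
  sE_apply L hw x

/-- normalising factor -/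
noncomputable def nn (L : Lor V) (x : V) : ℝ := (√|(L.h x x).re|)⁻¹

/-- normalised modulus of the inner product -/
noncomputable def cc (L : Lor V) (x y : V) : ℝ := ‖L.h x y‖ * nn L x * nn L y

lemma nn_nonneg (L : Lor V) (x : V) : 0 ≤ nn L x := by unfold nn; positivity

lemma nn_mir (L : Lor V) {x : V} (h : L.h x x = 2) : nn L x * nn L x = 1 / 2 := by
  unfold nn
  rw [h, ← mul_inv, Real.mul_self_sqrt (abs_nonneg _)]
  norm_num

lemma nn_mir_pos (L : Lor V) {x : V} (h : L.h x x = 2) : 0 < nn L x := by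
  unfold nn
  rw [h]
  norm_num

lemma nn_pt (L : Lor V) {x : V} (h : L.h x x = -1) : nn L x = 1 := by
  unfold nn
  rw [h]
  norm_num

lemma nn_rho (L : Lor V) {w : V} (hw : L.h w w = 2) (x : V) : nn L (rho L w x) = nn L x := by
  unfold nn
  rw [h_rho_rho L hw]

lemma nn_neg (L : Lor V) (x : V) : nn L (-x) = nn L x := by
  unfold nn
  rw [L.neg_left, L.neg_right, neg_neg]

variable {L : Lor V} {W : Set V} {Λ : ℝ}

lemma MSys.sE_neg (hS : MSys L W Λ) {w : V} (hw : w ∈ W) : sE L (-w) = sE L w := by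
  ext x
  rw [sE_apply L (hS.norm _ (hS.neg w hw)), sE_apply L (hS.norm w hw), rho_neg]

lemma MSys.eq_of_sE (hS : MSys L W Λ) (hΛ : 2 < Λ) {x y : V} (hx : x ∈ W) (hy : y ∈ W)
    (h : sE L x = sE L y) : y = x ∨ y = -x := by
  rcases hS.sep x hx y hy with h1 | h1 | h1
  · exact Or.inl h1
  · exact Or.inr h1
  · exfalso
    have h2 : rho L x y = rho L y y := by
      rw [← sE_apply L (hS.norm x hx), ← sE_apply L (hS.norm y hy), h]
    rw [rho_self L (hS.norm y hy)] at h2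
    unfold rho at h2
    have h3 : L.h y x • x = (2 : ℂ) • y := by
      have : y + y = L.h y x • x := by
        have := congrArg (fun z => z + L.h y x • x + y) h2
        rw [sub_add_cancel] at this
        rw [this]; abel
      rw [← this]; module
    have h4 : L.h (L.h y x • x) y = L.h ((2 : ℂ) • y) y := by rw [h3]
    rw [L.smul_left, L.smul_left, hS.norm y hy] at h4
    have h5 : ‖L.h y x * L.h x y‖ = 4 := by rw [h4]; norm_num
    rw [norm_mul, L.norm_symm y x] at h5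
    nlinarith

lemma MSys.far (hS : MSys L W Λ) {x y : V} (hx : x ∈ W) (hy : y ∈ W)
    (h : sE L x ≠ sE L y) : Λ ≤ ‖L.h x y‖ := by
  rcases hS.sep x hx y hy with h1 | h1 | h1
  · exact absurd (by rw [h1]) h
  · exact absurd (by rw [h1, hS.sE_neg hx]) h
  · exact h1

/-- objects -/
def Obj (L : Lor V) (W : Set V) : Set V := W ∪ {x | L.h x x = -1}

lemma MSys.nn_pos (hS : MSys L W Λ) {x : V} (hx : x ∈ Obj L W) : 0 < nn L x := by
  rcases hx with hx | hx
  · exact nn_mir_pos L (hS.norm x hx)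
  · rw [nn_pt L hx]; norm_num

/-- the Hermitian form in helper433's language -/
def toHF (L : Lor V) : Wm_433.HF V where
  h := L.h
  add_left := L.add_left
  smul_left := L.smul_left
  symm := fun x y => (L.symm x y).symm
  sig := L.neg

lemma MSys.nz (hS : MSys L W Λ) (hΛ : 2 < Λ) {r x y : V} {K : ℝ} (hr : r ∈ W)
    (hx : x ∈ Obj L W) (hy : y ∈ Obj L W) (hxr : x ∈ W → sE L x ≠ sE L r)
    (hyr : y ∈ W → sE L y ≠ sE L r) (h : cc L x y ≤ K * (cc L x r * cc L r y)) :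
    L.h x r ≠ 0 := by
  intro h0
  have h1 : cc L x r = 0 := by unfold cc; rw [h0]; simp
  rw [h1] at h
  have h2 : L.h x y = 0 := by
    unfold cc at h
    have h3 := hS.nn_pos hx
    have h4 := hS.nn_pos hy
    have h5 : ‖L.h x y‖ * (nn L x * nn L y) ≤ 0 := by linarith
    have h6 : 0 < nn L x * nn L y := mul_pos h3 h4
    have h7 : ‖L.h x y‖ ≤ 0 := by
      by_contra hcon
      push Not at hcon
      have := mul_pos hcon h6
      linarith
    simpa using h7
  rcases hx with hx | hx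
  · have := hS.far hx hr (hxr hx)
    rw [h0, norm_zero] at this
    linarith
  · rcases hy with hy | hy
    · have h3 := hS.far hy hr (hyr hy)
      set z : V := y - (L.h y r / 2) • r with hz
      have hrr := hS.norm r hr
      have hyy := hS.norm y hy
      have h4 : L.h z z = 2 - L.h y r * L.h r y / 2 := by
        rw [hz, L.sub_left, L.sub_right, L.sub_right, L.smul_left, L.smul_right, L.smul_left,
          L.smul_right, hrr, hyy, map_div₀, ← L.symm y r]
        simp only [map_ofNat]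
        ring
      have h5 : (L.h z z).re < 0 := by
        rw [h4, L.symm y r, Complex.mul_conj, Complex.normSq_eq_norm_sq]
        have : (2 - ((‖L.h y r‖ ^ 2 : ℝ) : ℂ) / 2).re = 2 - ‖L.h y r‖ ^ 2 / 2 := by
          have e : (2 - ((‖L.h y r‖ ^ 2 : ℝ) : ℂ) / 2) = ((2 - ‖L.h y r‖ ^ 2 / 2 : ℝ) : ℂ) := by
            push_cast; ring
          rw [e, Complex.ofReal_re]
        rw [this]
        nlinarith
      have h6 : L.h x z = 0 := by
        rw [hz, L.sub_right, L.smul_right, h2, h0]; simp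
      have h7 := L.neg z x h5 h6
      have h8 : (L.h x x).re = -1 := by
        have : L.h x x = -1 := hx
        rw [this]; simp
      linarith
    · have := one_le_points L (o := y) (p := x) hy hx
      rw [h2, norm_zero] at this
      linarith

lemma MSys.q1 (hS : MSys L W Λ) (hΛ : 100000000000 ≤ Λ) {r a b f : V} (hr : r ∈ W)
    (ha : a ∈ Obj L W) (hb : b ∈ Obj L W) (hf : f ∈ Obj L W) (har : a ∈ W → sE L a ≠ sE L r)
    (hbr : b ∈ W → sE L b ≠ sE L r) (hfr : f ∈ W → sE L f ≠ sE L r) (K : ℝ)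
    (hd : 4 / Λ ^ 2 ≤ K) (hK : K ≤ 1) (h1 : cc L a b ≤ K * (cc L a r * cc L r b))
    (h2 : cc L b f ≤ K * (cc L b r * cc L r f)) : cc L a f ≤ 20 * K * (cc L a r * cc L r f) := by
  have hΛ2 : 2 < Λ := by linarith
  have hΛp : 0 < Λ := by linarith
  have hrr := hS.norm r hr
  have za := hS.nz hΛ2 hr ha hb har hbr h1
  have zb : L.h b r ≠ 0 := hS.nz hΛ2 hr hb hf hbr hfr h2
  have csymm : ∀ x y, cc L x y = cc L y x := by
    intro x y; unfold cc; rw [L.norm_symm x y]; ring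
  have zf : L.h f r ≠ 0 := by
    refine hS.nz (K := K) hΛ2 hr hf hb hfr hbr ?_
    rw [csymm f b, csymm f r, csymm r b, mul_comm (cc L r f)]
    exact h2
  set t : ℝ := (√2)⁻¹ with ht
  have ht2 : t * t = 1 / 2 := by
    rw [ht, ← mul_inv, Real.mul_self_sqrt (by norm_num)]; norm_num
  have htp : 0 < t := by rw [ht]; positivity
  set r' : V := ((t : ℝ) : ℂ) • r with hr'
  have h_r' : ∀ x, L.h x r' = (t : ℂ) * L.h x r := by
    intro x; rw [hr', L.smul_right, Complex.conj_ofReal]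
  have hrr' : L.h r' r' = 1 := by
    rw [h_r', hr', L.smul_left, hrr]
    have : (t : ℂ) * t = 1 / 2 := by
      have := congrArg (fun z : ℝ => (z : ℂ)) ht2
      push_cast at this
      exact this
    rw [← mul_assoc, this]; norm_num
  have nr' : ∀ x, ‖L.h x r'‖ = t * ‖L.h x r‖ := by
    intro x; rw [h_r', norm_mul, Complex.norm_real, Real.norm_eq_abs, abs_of_pos htp]
  have seen : ∀ x ∈ Obj L W, (x ∈ W → sE L x ≠ sE L r) → L.h x r ≠ 0 →
      (toHF L).Seen (4 / Λ ^ 2) r' x := by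
    intro x hx hxr hz
    refine ⟨?_, ?_⟩
    · change L.h x r' ≠ 0
      rw [h_r']
      exact mul_ne_zero (by exact_mod_cast htp.ne') hz
    · change (L.h x x).re ≤ 4 / Λ ^ 2 * ‖L.h x r'‖ ^ 2
      rcases hx with hx | hx
      · rw [hS.norm x hx, nr', mul_pow]
        have h3 := hS.far hx hr (hxr hx)
        have h4 : t ^ 2 = 1 / 2 := by rw [← ht2]; ring
        rw [h4]
        have h5 : Λ ^ 2 ≤ ‖L.h x r‖ ^ 2 := pow_le_pow_left₀ hΛp.le h3 2
        have h6 : (4 / Λ ^ 2 * (1 / 2 * ‖L.h x r‖ ^ 2)) = 2 * (‖L.h x r‖ ^ 2 / Λ ^ 2) := by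
          field_simp; ring
        rw [h6]
        have h7 : 1 ≤ ‖L.h x r‖ ^ 2 / Λ ^ 2 := by
          rw [le_div_iff₀ (by positivity)]; linarith
        have : (2 : ℂ).re = 2 := by simp
        rw [this]; linarith
      · have h3 : (L.h x x).re = -1 := by
          have : L.h x x = -1 := hx
          rw [this]; simp
        rw [h3]
        have : 0 ≤ 4 / Λ ^ 2 * ‖L.h x r'‖ ^ 2 := by positivity
        linarith
  have sa := seen a ha har za
  have sb := seen b hb hbr zb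
  have sf := seen f hf hfr zf
  have hd0 : 0 ≤ 4 / Λ ^ 2 := by positivity
  have hd1 : 4 / Λ ^ 2 ≤ 1 / 100 := by
    rw [div_le_iff₀ (by positivity)]
    nlinarith
  -- relation between `u` and `cc`
  have key : ∀ x y, L.h x r ≠ 0 → L.h y r ≠ 0 → x ∈ Obj L W → y ∈ Obj L W →
      ‖(toHF L).u r' x y‖ * (cc L x r * cc L r y) = cc L x y := by
    intro x y hx hy hxo hyo
    rw [Wm_433.HF.norm_u]
    change ‖L.h x y‖ / (‖L.h x r'‖ * ‖L.h y r'‖) * _ = _
    rw [nr', nr']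
    unfold cc
    have e1 : ‖L.h r y‖ = ‖L.h y r‖ := L.norm_symm r y
    rw [e1]
    have n1 : ‖L.h x r‖ ≠ 0 := by simpa using hx
    have n2 : ‖L.h y r‖ ≠ 0 := by simpa using hy
    have n3 := nn_mir L hrr
    have e2 : ‖L.h x r‖ * nn L x * nn L r * (‖L.h y r‖ * nn L r * nn L y) =
        ‖L.h x r‖ * ‖L.h y r‖ * (nn L r * nn L r) * (nn L x * nn L y) := by ring
    rw [e2, n3]
    have e3 : t * ‖L.h x r‖ * (t * ‖L.h y r‖) = (t * t) * (‖L.h x r‖ * ‖L.h y r‖) := by ring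
    rw [e3, ht2]
    field_simp
  have cpos : ∀ x, L.h x r ≠ 0 → x ∈ Obj L W → 0 < cc L x r := by
    intro x hx hxo
    unfold cc
    have n1 : 0 < ‖L.h x r‖ := by simpa using hx
    exact mul_pos (mul_pos n1 (hS.nn_pos hxo)) (nn_mir_pos L hrr)
  have pa := cpos a za ha
  have pb := cpos b zb hb
  have pf := cpos f zf hf
  rw [csymm b r] at pb
  have pb' : 0 < cc L b r := by rw [csymm]; exact pb
  rw [csymm f r] at pf
  have ub : ‖(toHF L).u r' a b‖ ≤ K := by
    have := key a b za zb ha hb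
    rw [← this] at h1
    exact le_of_mul_le_mul_right h1 (mul_pos pa pb)
  have uf : ‖(toHF L).u r' b f‖ ≤ K := by
    have := key b f zb zf hb hf
    rw [← this] at h2
    exact le_of_mul_le_mul_right h2 (mul_pos pb' pf)
  have main := (toHF L).q1n (κ := 4 / Λ ^ 2) (m := K) r' ((toHF L).nrm r' a) ((toHF L).nrm r' b)
    ((toHF L).nrm r' f) hrr' ((toHF L).nrm_h _ _ sa.1) ((toHF L).nrm_h _ _ sb.1)
    ((toHF L).nrm_h _ _ sf.1) ((toHF L).h_nrm_self _ _ _ sa) ((toHF L).h_nrm_self _ _ _ sb)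
    ((toHF L).h_nrm_self _ _ _ sf) hd0 hd hd1 hK (by rw [(toHF L).h_nrm]; exact ub)
    (by rw [(toHF L).h_nrm]; exact uf)
  rw [(toHF L).h_nrm] at main
  rw [← key a f za zf ha hf]
  have : 0 < cc L a r * cc L r f := mul_pos pa pf
  have hK0 : 0 ≤ K := hd0.trans hd
  nlinarith

/-- the abstract system of a sparse system of mirrors -/
noncomputable def MSys.toSys (hS : MSys L W Λ) (hΛ : 100000000000 ≤ Λ) :
    WmA181.Sys (V ≃ₗ[ℂ] V) V where
  R := W
  O := Obj L W
  s := sE L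
  c := cc L
  e := 1 / 10000
  d := 4 / Λ ^ 2
  sub := Set.subset_union_left
  e_pos := by norm_num
  e_le := le_rfl
  d_pos := by
    have : 0 < Λ := by linarith
    positivity
  d_le := by
    have h : 0 < Λ := by linarith
    rw [mul_div_assoc', div_le_iff₀ (by positivity)]
    nlinarith
  R_inv := by
    intro x hx y hy
    rw [sE_smul L (hS.norm x hx)]
    exact hS.refl x hx y hy
  O_inv := by
    intro x hx y hy
    rw [sE_smul L (hS.norm x hx)]
    rcases hy with hy | hy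
    · exact Or.inl (hS.refl x hx y hy)
    · refine Or.inr ?_
      change L.h _ _ = -1
      rw [h_rho_rho L (hS.norm x hx)]
      exact hy
  s_conj := by
    intro x hx y hy
    have hxx := hS.norm x hx
    have hyy := hS.norm y hy
    rw [sE_smul L hxx]
    ext z
    have h1 : L.h (rho L x y) (rho L x y) = 2 := by rw [h_rho_rho L hxx, hyy]
    rw [sE_apply L h1, LinearEquiv.mul_apply, LinearEquiv.mul_apply, sE_apply L hxx,
      sE_apply L hyy, sE_apply L hxx]
    have := rho_conj L (g := rho L x) (rho_add L x) (rho_smul L x) (h_rho_rho L hxx) y (rho L x z)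
    rw [rho_rho L hxx] at this
    exact this
  s_sq := by
    intro x hx
    have hxx := hS.norm x hx
    ext z
    rw [LinearEquiv.mul_apply, sE_apply L hxx, sE_apply L hxx, rho_rho L hxx]
    rfl
  c_nonneg := by
    intro x y
    exact mul_nonneg (mul_nonneg (norm_nonneg _) (nn_nonneg _ _)) (nn_nonneg _ _)
  c_symm := by
    intro x y; unfold cc; rw [L.norm_symm x y]; ring
  c_inv := by
    intro r hr x y
    have hrr := hS.norm r hr
    rw [sE_smul L hrr, sE_smul L hrr]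
    unfold cc
    rw [h_rho_rho L hrr, nn_rho L hrr, nn_rho L hrr]
  c_self := by
    rintro x (hx | hx)
    · have hxx := hS.norm x hx
      unfold cc
      rw [mul_assoc, nn_mir L hxx, hxx]
      norm_num
    · have hxx : L.h x x = -1 := hx
      unfold cc
      rw [nn_pt L hxx, hxx]
      norm_num
  c_congr := by
    intro x hx y hy h z
    rcases hS.eq_of_sE (by linarith) hx hy h with h1 | h1
    · rw [h1]
    · rw [h1]
      unfold cc
      rw [L.neg_left, norm_neg, nn_neg]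
  c_far := by
    intro x hx y hy h
    have h1 := hS.far hx hy h
    have h2 : 0 < Λ := by linarith
    unfold cc
    have e : (‖L.h x y‖ * nn L x * nn L y) ^ 2 =
        ‖L.h x y‖ ^ 2 * (nn L x * nn L x) * (nn L y * nn L y) := by ring
    rw [e, nn_mir L (hS.norm x hx), nn_mir L (hS.norm y hy)]
    have h5 : Λ ^ 2 ≤ ‖L.h x y‖ ^ 2 := pow_le_pow_left₀ h2.le h1 2
    have h6 : 4 / Λ ^ 2 * (‖L.h x y‖ ^ 2 * (1 / 2) * (1 / 2)) = ‖L.h x y‖ ^ 2 / Λ ^ 2 := by
      field_simp; ring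
    rw [h6, le_div_iff₀ (by positivity)]
    linarith
  Q1 := fun r hr a ha b hb f hf har hbr hfr K hd hK h1 h2 =>
    hS.q1 hΛ hr ha hb hf har hbr hfr K hd hK h1 h2
  Q3 := by
    intro r hr a b
    have hrr := hS.norm r hr
    rw [sE_smul L hrr]
    unfold cc
    rw [nn_rho L hrr, h_rho_left]
    have e : 2 * (‖L.h a r‖ * nn L a * nn L r * (‖L.h r b‖ * nn L r * nn L b)) =
        2 * (nn L r * nn L r) * (‖L.h a r‖ * ‖L.h r b‖) * (nn L a * nn L b) := by ring
    rw [e, nn_mir L hrr, ← norm_mul]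
    have h1 : ‖L.h a r * L.h r b‖ ≤ ‖L.h a b‖ + ‖L.h a b - L.h a r * L.h r b‖ := by
      have := norm_sub_le (L.h a b) (L.h a b - L.h a r * L.h r b)
      rwa [sub_sub_cancel] at this
    have h2 : 0 ≤ nn L a * nn L b := mul_nonneg (nn_nonneg _ _) (nn_nonneg _ _)
    nlinarith [mul_le_mul_of_nonneg_right h1 h2]

/-- start windmill in helper585's form -/
structure Start (L : Lor V) (W M0 : Set V) (Cv : ℝ) : Prop where
  sub : M0 ⊆ Obj L W
  refl : ∀ w ∈ M0, w ∈ W → ∀ x ∈ M0, rho L w x ∈ M0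
  small : ∀ v ∈ W, v ∉ M0 → ∀ a ∈ M0, ∀ b ∈ M0, Cv * ‖L.h a b‖ ≤ ‖L.h a v‖ * ‖L.h v b‖

lemma MSys.nr_iff (hS : MSys L W Λ) (hΛ : 100000000000 ≤ Λ) {K : ℝ} {r a b : V}
    (hr : r ∈ W) (ha : a ∈ Obj L W) (hb : b ∈ Obj L W) :
    (hS.toSys hΛ).Nr K r a b ↔ ‖L.h a b‖ ≤ K / 2 * (‖L.h a r‖ * ‖L.h r b‖) := by
  have hrr := hS.norm r hr
  change cc L a b ≤ K * (cc L a r * cc L r b) ↔ _
  unfold cc
  have e1 : ‖L.h a b‖ * nn L a * nn L b = ‖L.h a b‖ * (nn L a * nn L b) := by ring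
  have e2 : K * (‖L.h a r‖ * nn L a * nn L r * (‖L.h r b‖ * nn L r * nn L b)) =
      K * (nn L r * nn L r) * (‖L.h a r‖ * ‖L.h r b‖) * (nn L a * nn L b) := by ring
  rw [e1, e2, nn_mir L hrr, mul_le_mul_iff_left₀ (mul_pos (hS.nn_pos ha) (hS.nn_pos hb))]
  have e3 : K * (1 / 2) = K / 2 := by ring
  rw [e3]

lemma Start.mill {M0 : Set V} {Cv : ℝ} (hC : 20000 ≤ Cv) (hM : Start L W M0 Cv)
    (hS : MSys L W Λ) (hΛ : 100000000000 ≤ Λ) : (hS.toSys hΛ).Mill M0 where
  sub := hM.sub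
  inv := by
    intro w hw hwR x hx
    change sE L w • x ∈ M0
    rw [sE_smul L (hS.norm w hwR)]
    exact hM.refl w hw hwR x hx
  sat := by
    intro w hw hwR r hr h
    rcases hS.eq_of_sE (by linarith) hwR hr (Eq.symm h) with h1 | h1
    · rw [h1]; exact hw
    · have := hM.refl w hw hwR w hw
      rw [rho_self L (hS.norm w hwR)] at this
      rw [h1]; exact this
  small := by
    intro r hr hrM a ha b hb
    refine (hS.nr_iff hΛ hr (hM.sub ha) (hM.sub hb)).2 ?_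
    change _ ≤ 1 / 10000 / 2 * _
    have h1 := hM.small r hr hrM a ha b hb
    have h2 : 20000 * ‖L.h a b‖ ≤ ‖L.h a r‖ * ‖L.h r b‖ :=
      (mul_le_mul_of_nonneg_right hC (norm_nonneg _)).trans h1
    linarith

lemma MSys.obj_inv (hS : MSys L W Λ) (hΛ : 100000000000 ≤ Λ) {g : V ≃ₗ[ℂ] V}
    (hg : g ∈ closure (sE L '' W)) : ∀ x ∈ Obj L W, g x ∈ Obj L W := by
  induction hg using closure_induction_left with
  | one => intro x hx; exact hx
  | mul_left x hx y hy ih =>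
    obtain ⟨v, hv, rfl⟩ := hx
    intro z hz
    exact (hS.toSys hΛ).O_inv v hv _ (ih z hz)
  | inv_mul_cancel x hx y hy ih =>
    obtain ⟨v, hv, rfl⟩ := hx
    intro z hz
    have h1 : (sE L v)⁻¹ = sE L v := WmA181.Sys.s_inv (S := hS.toSys hΛ) hv
    rw [h1]
    exact (hS.toSys hΛ).O_inv v hv _ (ih z hz)

/-- **THEOREM gr** (helper585 #5589). -/
theorem gr (hS : MSys L W Λ) (hΛ : 100000000000 ≤ Λ) {M0 : Set V} {Cv : ℝ} (hC : 20000 ≤ Cv)
    (hM : Start L W M0 Cv) (hne : M0.Nonempty) {g : V ≃ₗ[ℂ] V}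
    (hg : g ∈ closure (sE L '' W)) (hg0 : g ∉ closure (sE L '' (M0 ∩ W))) :
    ∃ w ∈ W, w ∉ M0 ∧ g⁻¹ w ∉ M0 ∧ ∀ o ∈ M0, ∀ o' ∈ M0,
      ‖L.h o w‖ * ‖L.h w (g o')‖ ≤ 2 * ‖L.h o (g o')‖ := by
  obtain ⟨w, hw, hwM, hgw, h⟩ := WmA181.Sys.gr (hM.mill hC hS hΛ) hne (g := g) hg hg0
  refine ⟨w, hw, hwM, hgw, fun o ho o' ho' => ?_⟩
  have h1 := h o ho o' ho'
  change (2 - 8000 * (1 / 10000 : ℝ)) * (cc L o w * cc L w (g o')) ≤ cc L o (g o') at h1
  have hww := hS.norm w hw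
  have hgo : g o' ∈ Obj L W := hS.obj_inv hΛ hg o' (hM.sub ho')
  have e : (2 - 8000 * (1 / 10000 : ℝ)) * (cc L o w * cc L w (g o')) =
      6 / 5 * (nn L w * nn L w) * (‖L.h o w‖ * ‖L.h w (g o')‖) * (nn L o * nn L (g o')) := by
    unfold cc; ring
  rw [e, nn_mir L hww] at h1
  have hp : 0 < nn L o * nn L (g o') := mul_pos (hS.nn_pos (hM.sub ho)) (hS.nn_pos hgo)
  have e2 : cc L o (g o') = ‖L.h o (g o')‖ * (nn L o * nn L (g o')) := by unfold cc; ring
  rw [e2] at h1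
  have h3 := le_of_mul_le_mul_right h1 hp
  have h4 : 0 ≤ ‖L.h o (g o')‖ := norm_nonneg _
  linarith

end Crest.Agent.R272.WmD181
end

-- ▼ part R272/WmE_181

/-!
# The windmill, part E: the start windmill in `Lor` language

Points `P` (may lie on mirrors) and a first family `A` of mirrors, straight in the reflected form
(helper702 `refl_straight`), far from all other mirrors (`typeB_V`): the set
`M0 = <A> (P ∪ A)` is a start windmill and its group is `<A>`.
-/

set_option autoImplicit false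

namespace Crest.Agent.R272.WmD181

open Complex ComplexConjugate Subgroup
open Crest.Agent.R272.LBForm_585 Crest.Agent.R272.LBForm_585.Lor

variable {V : Type*} [AddCommGroup V] [Module ℂ V] {L : Lor V} {W : Set V} {Λ : ℝ}

/-- the orbit of `P ∪ A` under the group generated by the reflections of `A` -/
def startSet (L : Lor V) (P A : Set V) : Set V :=
  {y | ∃ g ∈ closure (sE L '' A), ∃ x ∈ P ∪ A, y = g x}

/-- hypotheses for the start -/
structure StartData (L : Lor V) (W P A : Set V) : Prop where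
  pt : ∀ x ∈ P, L.h x x = -1
  sub : A ⊆ W
  neg : ∀ s ∈ A, -s ∈ A
  refl : ∀ s ∈ A, ∀ x ∈ P ∪ A, ∀ y ∈ P ∪ A, (x ∈ A → x ≠ s ∧ x ≠ -s) → (y ∈ A → y ≠ s ∧ y ≠ -s) →
    ‖L.h x s‖ * ‖L.h s y‖ ≤ 2 * ‖L.h x (rho L s y)‖
  far : ∀ v ∈ W, v ∉ A → ∀ x ∈ P ∪ A, ∀ y ∈ P ∪ A,
    20000000000 * ‖L.h x y‖ ≤ ‖L.h x v‖ * ‖L.h v y‖

lemma StartData.rl {P A : Set V} (hD : StartData L W P A) (hS : MSys L W Λ)
    (hΛ : 100000000000 ≤ Λ) : (hS.toSys hΛ).RL P A where
  nomir := by
    intro x hx hW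
    have h1 := hD.pt x hx
    have h2 := hS.norm x hW
    rw [h1] at h2
    norm_num at h2
  subO := fun x hx => Or.inr (hD.pt x hx)
  sub := hD.sub
  sat := by
    intro x hx r hr h
    rcases hS.eq_of_sE (by linarith) (hD.sub hx) hr (Eq.symm h) with h1 | h1
    · rw [h1]; exact hx
    · rw [h1]; exact hD.neg x hx
  zero := by
    intro x hx a ha h z
    have hxx := hS.norm x (hD.sub hx)
    change cc L a x = 0 at h
    change cc L (sE L x • a) z = cc L a z
    have h1 : L.h a x = 0 := by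
      unfold cc at h
      have h2 := hS.nn_pos (x := a) (Or.inr (hD.pt a ha))
      have h3 := nn_mir_pos L hxx
      rcases mul_eq_zero.1 h with h | h
      · rcases mul_eq_zero.1 h with h | h
        · simpa using h
        · exact absurd h h2.ne'
      · exact absurd h h3.ne'
    rw [sE_smul L hxx]
    unfold rho
    rw [h1]; simp
  refl := by
    intro x hx y hy z hz hyx hzx
    have hxx := hS.norm x (hD.sub hx)
    change cc L y x * cc L x z ≤ cc L y (sE L x • z)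
    rw [sE_smul L hxx]
    have conv : ∀ u ∈ P ∪ A, (hS.toSys hΛ).Off u x → (u ∈ A → u ≠ x ∧ u ≠ -x) := by
      intro u _ hux huA
      have h1 := hux (hD.sub huA)
      change sE L u ≠ sE L x at h1
      refine ⟨fun h => h1 (by rw [h]), fun h => h1 ?_⟩
      rw [h, hS.sE_neg (hD.sub hx)]
    have h1 := hD.refl x hx y hy z hz (conv y hy hyx) (conv z hz hzx)
    unfold cc
    rw [nn_rho L hxx]
    have e : ‖L.h y x‖ * nn L y * nn L x * (‖L.h x z‖ * nn L x * nn L z) =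
        (nn L x * nn L x) * (‖L.h y x‖ * ‖L.h x z‖) * (nn L y * nn L z) := by ring
    rw [e, nn_mir L hxx]
    have h2 : 0 ≤ nn L y * nn L z := mul_nonneg (nn_nonneg _ _) (nn_nonneg _ _)
    have h3 := mul_le_mul_of_nonneg_right h1 h2
    linarith
  far := by
    intro r hr hrA a ha b hb
    have hO : ∀ x ∈ P ∪ A, x ∈ Obj L W := by
      rintro x (hx | hx)
      · exact Or.inr (hD.pt x hx)
      · exact Or.inl (hD.sub hx)
    refine (hS.nr_iff hΛ hr (hO a ha) (hO b hb)).2 ?_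
    have h1 := hD.far r hr hrA a ha b hb
    have h2 : (hS.toSys hΛ).e1 = 1 / 10000 / 1000000 := rfl
    rw [h2]
    linarith

lemma StartData.nxt_eq {P A : Set V} (hD : StartData L W P A) (hS : MSys L W Λ)
    (hΛ : 100000000000 ≤ Λ) : (hS.toSys hΛ).nxt P A = startSet L P A := by
  ext y
  exact WmA181.Sys.mem_start (hD.rl hS hΛ)

/-- **the start windmill** -/
theorem StartData.start {P A : Set V} (hD : StartData L W P A) (hS : MSys L W Λ)
    (hΛ : 100000000000 ≤ Λ) : Start L W (startSet L P A) 20000 := by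
  have hm := WmA181.Sys.mill_start (hD.rl hS hΛ)
  rw [hD.nxt_eq hS hΛ] at hm
  refine ⟨hm.sub, ?_, ?_⟩
  · intro w hw hwW x hx
    have := hm.inv w hw hwW x hx
    change sE L w • x ∈ _ at this
    rwa [sE_smul L (hS.norm w hwW)] at this
  · intro v hv hvM a ha b hb
    have h1 := (hS.nr_iff hΛ hv (hm.sub ha) (hm.sub hb)).1 (hm.small v hv hvM a ha b hb)
    change _ ≤ 1 / 10000 / 2 * _ at h1
    linarith

/-- the group of the start windmill -/
theorem StartData.group {P A : Set V} (hD : StartData L W P A) (hS : MSys L W Λ)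
    (hΛ : 100000000000 ≤ Λ) :
    closure (sE L '' (startSet L P A ∩ W)) = closure (sE L '' A) := by
  have h := WmA181.Sys.GW_start (hD.rl hS hΛ)
  rw [hD.nxt_eq hS hΛ] at h
  exact h

/-- **separation relative to the start family**: output consumed by LB-PP. -/
theorem StartData.gr {P A : Set V} (hD : StartData L W P A) (hS : MSys L W Λ)
    (hΛ : 100000000000 ≤ Λ) (hne : P.Nonempty) {g : V ≃ₗ[ℂ] V}
    (hg : g ∈ closure (sE L '' W)) (hg0 : g ∉ closure (sE L '' A)) :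
    ∃ w ∈ W, w ∉ startSet L P A ∧ g⁻¹ w ∉ startSet L P A ∧
      ∀ o ∈ startSet L P A, ∀ o' ∈ startSet L P A,
      ‖L.h o w‖ * ‖L.h w (g o')‖ ≤ 2 * ‖L.h o (g o')‖ := by
  obtain ⟨x, hx⟩ := hne
  refine WmD181.gr hS hΛ le_rfl (hD.start hS hΛ) ⟨x, 1, one_mem _, x, Or.inl hx, rfl⟩ hg ?_
  rw [hD.group hS hΛ]
  exact hg0

lemma mem_startSet {P A : Set V} {x : V} (hx : x ∈ P ∪ A) : x ∈ startSet L P A :=
  ⟨1, one_mem _, x, hx, rfl⟩

end Crest.Agent.R272.WmD181
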