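import Crest.Agent.R272.LbSep_990
import Crest.Agent.R272.LbCap2_382
import Crest.Agent.R272.WmE_181_Mg
import Crest.Agent.R272.LBForm_585

-- ▼ part R272/LbGood_990
section

/-!
# Row 272, leaf LB-GOOD (helper990): points of the collar outside the caps are `Good`
-/

set_option autoImplicit false

open scoped ComplexConjugate Topology
open Crest.Agent.R272.EBase_641 Crest.Agent.R272.LbPP_990 Crest.Agent.R272.LbSep_990
open Crest.Agent.R272.LbCap_382

namespace Crest.Agent.R272.LbGood_990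

noncomputable section

variable {n : ℕ}

/-- a space vector as a vector of the Hermitian space -/
def sp (a : E n) : V1 n := (a, 0)

theorem hh_sp (v : V1 n) (a : E n) : hh v (sp a) = inner ℂ a v.1 := by
  simp [hh, sp]


/-- orthogonal projection to `⟨a, b⟩` (for orthonormal `a`, `b`) -/
def PP (a b : E n) : E n →L[ℂ] E n :=
  (innerSL ℂ a).smulRight a + (innerSL ℂ b).smulRight b

theorem PP_apply (a b u : E n) : PP a b u = (inner ℂ a u : ℂ) • a + (inner ℂ b u : ℂ) • b := rfl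

theorem norm_PP_sq {a b : E n} (ha : ‖a‖ = 1) (hb : ‖b‖ = 1) (hab : inner ℂ a b = (0 : ℂ))
    (u : E n) : ‖PP a b u‖ ^ 2 = ‖(inner ℂ a u : ℂ)‖ ^ 2 + ‖(inner ℂ b u : ℂ)‖ ^ 2 := by
  rw [PP_apply, pow_two, norm_add_sq_eq_norm_sq_add_norm_sq_of_inner_eq_zero (𝕜 := ℂ)]
  · rw [norm_smul, norm_smul, ha, hb]; ring
  · rw [inner_smul_left, inner_smul_right, hab]; simp

theorem norm_PP_le {a b : E n} (ha : ‖a‖ = 1) (hb : ‖b‖ = 1) (hab : inner ℂ a b = (0 : ℂ))
    (u : E n) : ‖PP a b u‖ ≤ ‖u‖ := by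
  have h1 : inner ℂ (PP a b u) (u - PP a b u) = (0 : ℂ) := by
    have haa : inner ℂ a a = (1 : ℂ) := by rw [inner_self_eq_norm_sq_to_K, ha]; simp
    have hbb : inner ℂ b b = (1 : ℂ) := by rw [inner_self_eq_norm_sq_to_K, hb]; simp
    have hba : inner ℂ b a = (0 : ℂ) := by rw [← inner_conj_symm, hab]; simp
    rw [PP_apply]
    simp only [inner_add_left, inner_sub_right, inner_add_right, inner_smul_left,
      inner_smul_right, haa, hbb, hab, hba]
    ring
  have h2 := norm_add_sq_eq_norm_sq_add_norm_sq_of_inner_eq_zero (𝕜 := ℂ) _ _ h1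
  have h3 : PP a b u + (u - PP a b u) = u := by abel
  rw [h3] at h2
  nlinarith [norm_nonneg (u - PP a b u), norm_nonneg u, norm_nonneg (PP a b u)]

theorem P2_eq {a b : E n} (ha : ‖a‖ = 1) (hb : ‖b‖ = 1) (hab : inner ℂ a b = (0 : ℂ))
    (v : V1 n) : P2 hh (sp a) (sp b) v = ‖PP a b v.1‖ ^ 2 := by
  rw [P2, hh_sp, hh_sp, norm_PP_sq ha hb hab]

theorem P2_xx {a b : E n} (ha : ‖a‖ = 1) (hb : ‖b‖ = 1) (hab : inner ℂ a b = (0 : ℂ))
    {z : E n} : √(P2 hh (sp a) (sp b) (xx z)) = 1 / √(1 - ‖z‖ ^ 2) * ‖PP a b z‖ := by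
  rw [P2_eq ha hb hab, Real.sqrt_sq (norm_nonneg _), xx]
  simp only [Prod.smul_fst, map_smul]
  rw [norm_smul, Complex.norm_real, Real.norm_of_nonneg (by positivity)]

/-- **collar points outside the caps of the type B mirrors are good** -/
theorem good_xx {a b : E n} (ha : ‖a‖ = 1) (hb : ‖b‖ = 1) (hab : inner ℂ a b = (0 : ℂ))
    {W : Set (V1 n)} {r C Λ k : ℝ} (hC : 0 ≤ C) (hΛ : 0 < Λ) (hk : 0 < k)
    (hkC : 1 + C + 2 * C / Λ * k ≤ k ^ 2)
    (hPv : ∀ w ∈ W, Λ ^ 2 ≤ P2 hh (sp a) (sp b) w → Pv 2 w ∧ k ^ 2 * ep w ^ 2 < 1)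
    {z : E n} (hz : z ∈ Ball n) (hslope : ‖(inner ℂ b z : ℂ)‖ ≤ r * ‖(inner ℂ a z : ℂ)‖)
    (hcap : ∀ w ∈ W, Λ ^ 2 ≤ P2 hh (sp a) (sp b) w → z ∉ Cap k w) :
    Good hh (sp a) (sp b) W r C Λ (xx z) := by
  have h1 := one_sub_pos hz
  have hs0 : 0 < √(1 - ‖z‖ ^ 2) := Real.sqrt_pos.2 h1
  refine ⟨xx_self hz, ?_, ?_⟩
  · rw [hh_sp, hh_sp, xx]
    simp only [Prod.smul_fst, inner_smul_right]
    rw [norm_mul, norm_mul]
    have : 0 ≤ ‖((1 / √(1 - ‖z‖ ^ 2) : ℝ) : ℂ)‖ := norm_nonneg _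
    nlinarith
  · intro w hw hP
    by_contra hlt
    push Not at hlt
    obtain ⟨hv, hkep⟩ := hPv w hw hP
    refine hcap w hw hP ?_
    have hfar : Λ ≤ ‖PP a b w.1‖ := by
      rw [P2_eq ha hb hab] at hP
      exact le_of_sq_le_sq hP (norm_nonneg _)
    refine mem_Cap_of_lin_le hv hk hkep (PP a b) (norm_PP_le ha hb hab) hC hΛ hfar ?_
      (mem_Ball.1 hz).le ?_
    · have e : √(2 / 2 : ℝ) = 1 := by norm_num
      rw [e]
      refine le_trans (le_of_eq ?_) hkC
      ring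
    · rw [P2_xx ha hb hab, norm_xx, P2_eq ha hb hab, Real.sqrt_sq (norm_nonneg _)] at hlt
      have h2 : 1 / √(1 - ‖z‖ ^ 2) * (‖lin w z‖ * ‖PP a b w.1‖)
          ≤ 1 / √(1 - ‖z‖ ^ 2) * (C * ‖PP a b z‖) := by
        refine le_trans (le_of_eq ?_) (hlt.le.trans (le_of_eq ?_)) <;> ring
      exact le_of_mul_le_mul_left h2 (by positivity)

end

end Crest.Agent.R272.LbGood_990
end

-- ▼ part R272/LbFin_990
section

/-!
# Row 272, leaf LB-PPFIN (helper990): the separation theorem on `V1 3` without windmill hypotheses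
-/

set_option autoImplicit false

open scoped ComplexConjugate Topology
open Crest.Agent.R272.EBase_641 Crest.Agent.R272.LbPP_990 Crest.Agent.R272.LbSep_990
open Crest.Agent.R272.LbGood_990 Crest.Agent.R272.St2_702 Crest.Agent.R272.WmD181

namespace Crest.Agent.R272.LbFin_990

noncomputable section

variable {n : ℕ}

/-- the form as a `Lor` -/
def LH (n : ℕ) : LBForm_585.Lor (V1 n) where
  h := hh
  add_left := fun x y z => hh_add_left x y z
  smul_left := fun c x z => hh_smul_left c x z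
  symm := fun x y => (hh_conj x y).symm
  neg := fun b x hb hx => hF.sig b x hb hx



theorem refl_of_not {w : V1 n} (hw : ¬ hh w w = 2) : LbSep_990.refl w = 1 := by
  unfold LbSep_990.refl
  rw [dif_neg hw]




theorem refl_smul {u : ℂ} (hu : ‖u‖ = 1) (w : V1 n) : refl (u • w) = refl w := by
  have huu : conj u * u = 1 := by
    rw [mul_comm, Complex.mul_conj, Complex.normSq_eq_norm_sq, hu]; norm_num
  have hn : hh (u • w) (u • w) = hh w w := by
    rw [hh_smul_left, hh_smul_right, ← mul_assoc, mul_comm u, huu, one_mul]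
  by_cases hw : hh w w = 2
  · apply Subtype.ext
    apply LinearEquiv.ext
    intro x
    rw [refl_apply hw, refl_apply (hn.trans hw), hh_smul_right, smul_smul]
    congr 2
    calc conj u * hh x w * u = conj u * u * hh x w := by ring
      _ = hh x w := by rw [huu, one_mul]
  · rw [refl_of_not hw, refl_of_not (fun h => hw (hn ▸ h))]

/-! ### The frame of `V1 3` -/

/-- first basis vector of the space part -/
def ea : E 3 := EuclideanSpace.single 0 1
/-- second basis vector of the space part -/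
def eb : E 3 := EuclideanSpace.single 1 1

theorem inner_ea (x : E 3) : inner ℂ ea x = x 0 := by
  rw [ea, EuclideanSpace.inner_single_left]; simp
theorem inner_eb (x : E 3) : inner ℂ eb x = x 1 := by
  rw [eb, EuclideanSpace.inner_single_left]; simp
theorem norm_ea : ‖ea‖ = 1 := by simp [ea]
theorem norm_eb : ‖eb‖ = 1 := by simp [eb]
theorem inner_ea_eb : inner ℂ ea eb = (0 : ℂ) := by rw [inner_ea]; simp [eb]
theorem hh_ea (x : V1 3) : hh x (sp ea) = x.1 0 := by rw [hh_sp, inner_ea]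
theorem hh_eb (x : V1 3) : hh x (sp eb) = x.1 1 := by rw [hh_sp, inner_eb]
theorem h00 : hh (sp ea) (sp ea) = 1 := by rw [hh_ea]; simp [sp, ea]
theorem h11 : hh (sp eb) (sp eb) = 1 := by rw [hh_eb]; simp [sp, eb]
theorem h01 : hh (sp ea) (sp eb) = 0 := by rw [hh_eb]; simp [sp, ea]
theorem P2_eq3 (x : V1 3) : P2 hh (sp ea) (sp eb) x = ‖x.1 0‖ ^ 2 + ‖x.1 1‖ ^ 2 := by
  rw [P2, hh_ea, hh_eb]

/-- the system of mirrors -/
structure WSys (W : Set (V1 3)) (Λ : ℝ) : Prop where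
  norm : ∀ w ∈ W, hh w w = 2
  neg : ∀ w ∈ W, -w ∈ W
  stab : ∀ w ∈ W, ∀ w' ∈ W, w' - hh w' w • w ∈ W
  sep : ∀ w ∈ W, ∀ w' ∈ W, w' = w ∨ w' = -w ∨ Λ ≤ ‖hh w w'‖
  typ : ∀ w ∈ W, TypeA w ∨ TypeB Λ w

variable {W : Set (V1 3)} {Λ : ℝ}


theorem WSys.inv (h : WSys W Λ) {g : UG 3} (hg : g ∈ Subgroup.closure (refl '' W)) :
    ∀ w ∈ W, g.1 w ∈ W := by
  induction hg using Subgroup.closure_induction_left with
  | one => intro w hw; exact hw
  | mul_left x hx y hy ih =>
    obtain ⟨v, hv, rfl⟩ := hx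
    intro w hw
    show (refl v).1 (y.1 w) ∈ W
    rw [refl_apply (h.norm v hv)]
    exact h.stab v hv _ (ih w hw)
  | inv_mul_cancel x hx y hy ih =>
    obtain ⟨v, hv, rfl⟩ := hx
    intro w hw
    have e : (refl v)⁻¹ = refl v := by
      rw [inv_eq_iff_mul_eq_one]; exact refl_mul_self v
    rw [e]
    show (refl v).1 (y.1 w) ∈ W
    rw [refl_apply (h.norm v hv)]
    exact h.stab v hv _ (ih w hw)

/-- type A members of `W` -/
def WA (W : Set (V1 3)) : Set (V1 3) := {w | w ∈ W ∧ TypeA w}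


/-- points of the collar: slope `≤ r`, outside the `f1`-caps of the type B mirrors -/
structure GoodW (W : Set (V1 3)) (r C Λ : ℝ) (x : V1 3) : Prop where
  norm : hh x x = -1
  slope : ‖x.1 1‖ ≤ r * ‖x.1 0‖
  cap : ∀ w ∈ W, TypeB Λ w →
    C * √(‖x.1 0‖ ^ 2 + ‖x.1 1‖ ^ 2) ≤ ‖hh x w‖ * √(‖w.1 0‖ ^ 2 + ‖w.1 1‖ ^ 2)


end

end Crest.Agent.R272.LbFin_990
end

-- ▼ part R272/LBWord_585
section

/-!
# R272 / LB-GR, part 1: words in reflections, the chain lemma, the windmill step (far part)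
-/

set_option autoImplicit false
set_option linter.unusedSectionVars false

open Complex ComplexConjugate

namespace Crest.Agent.R272.LBWord_585

open Crest.Agent.R272.LBForm_585

variable {V : Type*} [AddCommGroup V] [Module ℂ V]

/-- Parallel up to a unit scalar. -/
def Par (x y : V) : Prop := ∃ c : ℂ, ‖c‖ = 1 ∧ y = c • x


theorem Par.symm {x y : V} (h : Par x y) : Par y x := by
  obtain ⟨c, hc, rfl⟩ := h
  have h0 : c ≠ 0 := by
    intro h; rw [h] at hc; simp at hc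
  exact ⟨c⁻¹, by rw [norm_inv, hc]; simp, by rw [smul_smul, inv_mul_cancel₀ h0, one_smul]⟩

theorem Par.trans {x y z : V} (h : Par x y) (h' : Par y z) : Par x z := by
  obtain ⟨c, hc, rfl⟩ := h
  obtain ⟨d, hd, rfl⟩ := h'
  exact ⟨d * c, by rw [norm_mul, hc, hd]; simp, by rw [smul_smul]⟩

theorem Par.neg (x : V) : Par x (-x) := ⟨-1, by simp, by simp⟩

variable (L : Lor V)

variable {L} in
theorem Par.norm_right {x y : V} (h : Par x y) (z : V) : ‖L.h z y‖ = ‖L.h z x‖ := by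
  obtain ⟨c, hc, rfl⟩ := h
  rw [L.smul_right, norm_mul, Complex.norm_conj, hc, one_mul]

variable {L} in
theorem Par.norm_left {x y : V} (h : Par x y) (z : V) : ‖L.h y z‖ = ‖L.h x z‖ := by
  obtain ⟨c, hc, rfl⟩ := h
  rw [L.smul_left, norm_mul, hc, one_mul]

variable {L} in
theorem Par.self {x y : V} (h : Par x y) : L.h y y = L.h x x := by
  obtain ⟨c, hc, rfl⟩ := h
  rw [L.smul_left, L.smul_right, ← mul_assoc, Complex.mul_conj, Complex.normSq_eq_norm_sq, hc]
  simp

variable {L} in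
theorem Par.rho {x y : V} (h : Par x y) (z : V) : rho L y z = rho L x z := by
  obtain ⟨c, hc, rfl⟩ := h
  unfold LBForm_585.rho
  rw [L.smul_right, smul_smul]
  congr 2
  have : conj c * c = 1 := by
    rw [mul_comm, Complex.mul_conj, Complex.normSq_eq_norm_sq, hc]; simp
  calc conj c * L.h z x * c = (conj c * c) * L.h z x := by ring
    _ = L.h z x := by rw [this, one_mul]

variable {L} in
theorem Par.D {u u' : V} (h : Par u u') (x y : V) : D L u' x y = D L u x y := by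
  unfold LBForm_585.D
  rw [h.norm_right, h.norm_right]


/-- Composition of reflections: `W [w1,...,wk] x = ρ_{w1} ... ρ_{wk} x`. -/
def W (l : List V) (x : V) : V := l.foldr (fun w y => rho L w y) x

@[simp] theorem W_nil (x : V) : W L [] x = x := rfl

@[simp] theorem W_cons (w : V) (l : List V) (x : V) : W L (w :: l) x = rho L w (W L l x) := rfl

theorem W_append (p q : List V) (x : V) : W L (p ++ q) x = W L p (W L q x) := by
  unfold W; rw [List.foldr_append]

theorem W_add (l : List V) (x y : V) : W L l (x + y) = W L l x + W L l y := by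
  induction l with
  | nil => rfl
  | cons w l ih => rw [W_cons, W_cons, W_cons, ih, rho_add]

theorem W_smul (l : List V) (c : ℂ) (x : V) : W L l (c • x) = c • W L l x := by
  induction l with
  | nil => rfl
  | cons w l ih => rw [W_cons, W_cons, ih, rho_smul]

theorem W_neg (l : List V) (x : V) : W L l (-x) = - W L l x := by
  have := W_smul L l (-1) x
  simpa using this

/-- All letters have norm `2`. -/
def N2 (l : List V) : Prop := ∀ w ∈ l, L.h w w = 2

variable {L}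

theorem N2.tail {w : V} {l : List V} (h : N2 L (w :: l)) : N2 L l :=
  fun x hx => h x (List.mem_cons_of_mem _ hx)

theorem N2.head {w : V} {l : List V} (h : N2 L (w :: l)) : L.h w w = 2 :=
  h w List.mem_cons_self

theorem N2.reverse {l : List V} (h : N2 L l) : N2 L l.reverse :=
  fun x hx => h x (List.mem_reverse.1 hx)

theorem N2.append {p q : List V} (h : N2 L p) (h' : N2 L q) : N2 L (p ++ q) := by
  intro x hx
  rcases List.mem_append.1 hx with hx | hx
  · exact h x hx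
  · exact h' x hx

theorem h_W_W {l : List V} (hl : N2 L l) (x y : V) : L.h (W L l x) (W L l y) = L.h x y := by
  induction l with
  | nil => rfl
  | cons w l ih => rw [W_cons, W_cons, h_rho_rho L hl.head, ih hl.tail]

theorem D_W {l : List V} (hl : N2 L l) (u x y : V) :
    D L (W L l u) (W L l x) (W L l y) = D L u x y := by
  unfold D
  rw [h_W_W hl, h_W_W hl, h_W_W hl]

theorem W_reverse {l : List V} (hl : N2 L l) (x : V) : W L l.reverse (W L l x) = x := by
  induction l generalizing x with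
  | nil => rfl
  | cons w l ih =>
    rw [List.reverse_cons, W_append, W_cons, W_cons, W_nil, rho_rho L hl.head, ih hl.tail]

theorem W_reverse' {l : List V} (hl : N2 L l) (x : V) : W L l (W L l.reverse x) = x := by
  have := W_reverse (L := L) (l := l.reverse) hl.reverse x
  rwa [List.reverse_reverse] at this

theorem Par.W {x y : V} (l : List V) (h : Par x y) : Par (W L l x) (W L l y) := by
  obtain ⟨c, hc, rfl⟩ := h
  exact ⟨c, hc, W_smul L l c x⟩

theorem rho_W {l : List V} (hl : N2 L l) (a x : V) :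
    rho L (W L l a) x = W L l (rho L a (W L l.reverse x)) := by
  have := rho_conj L (g := LBWord_585.W L l) (W_add L l) (W_smul L l) (h_W_W hl) a
    (LBWord_585.W L l.reverse x)
  rwa [W_reverse' hl] at this

theorem rho_map {a : V} (ha : L.h a a = 2) (l : List V) (x : V) :
    rho L a (W L l x) = W L (l.map (rho L a)) (rho L a x) := by
  induction l with
  | nil => rfl
  | cons w l ih =>
    rw [List.map_cons, W_cons, W_cons, ← ih]
    have := rho_conj L (g := rho L a) (rho_add L a) (rho_smul L a) (h_rho_rho L ha) w (W L l x)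
    rw [this]

/-! ### The mirror system -/

/-- A system of mirrors: norm `2`, closed under its reflections, separated. -/
structure Sys (L : Lor V) (𝓦 : Set V) : Prop where
  norm : ∀ w ∈ 𝓦, L.h w w = 2
  refl : ∀ w ∈ 𝓦, ∀ w' ∈ 𝓦, rho L w w' ∈ 𝓦
  sep : ∀ w ∈ 𝓦, ∀ w' ∈ 𝓦, Par w w' ∨ (10 : ℝ) ^ 10 ≤ ‖L.h w w'‖

theorem Sys.W_mem {𝓦 : Set V} (hS : Sys L 𝓦) {l : List V} (hl : ∀ w ∈ l, w ∈ 𝓦) {x : V}
    (hx : x ∈ 𝓦) : W L l x ∈ 𝓦 := by
  induction l with
  | nil => exact hx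
  | cons w l ih =>
    exact hS.refl w (hl w List.mem_cons_self) _ (ih (fun v hv => hl v (List.mem_cons_of_mem _ hv)))

theorem Sys.n2 {𝓦 : Set V} (hS : Sys L 𝓦) {l : List V} (hl : ∀ w ∈ l, w ∈ 𝓦) : N2 L l :=
  fun w hw => hS.norm w (hl w hw)

/-- Hypotheses of the windmill step. -/
structure Stp (L : Lor V) (𝓦 M S : Set V) : Prop where
  sub : ∀ x ∈ M, x ∈ 𝓦 ∨ L.h x x = -1
  par : ∀ w ∈ M, ∀ w' ∈ 𝓦, Par w w' → w' ∈ M
  refl : ∀ w ∈ M, w ∈ 𝓦 → ∀ x ∈ M, rho L w x ∈ M
  Ssub : S ⊆ 𝓦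
  Spar : ∀ s ∈ S, ∀ w' ∈ 𝓦, Par s w' → w' ∈ S
  Srefl : ∀ w ∈ M, w ∈ 𝓦 → ∀ s ∈ S, rho L w s ∈ S
  s0 : ∀ s ∈ S, ∀ e ∈ M ∪ S, ¬ Par s e → 1 ≤ ‖L.h e s‖
  s1 : ∀ s ∈ S, ∀ e ∈ M ∪ S, ∀ e' ∈ M ∪ S, ¬ Par s e → ¬ Par s e' →
    1 / 2 ≤ D L s e (rho L s e')
  s2 : ∀ v ∈ 𝓦, v ∉ M → v ∉ S → ∀ e ∈ M ∪ S, ∀ e' ∈ M ∪ S,
    (10 : ℝ) ^ 6 * ‖L.h e e'‖ ≤ ‖L.h e v‖ * ‖L.h e' v‖

/-- The new set. -/
def Mp (L : Lor V) (M S : Set V) : Set V :=
  {x | ∃ l : List V, (∀ t ∈ l, t ∈ S) ∧ ∃ a ∈ M ∪ S, x = W L l a}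

section step

variable {𝓦 M S : Set V} (hW : Sys L 𝓦) (hT : Stp L 𝓦 M S)

include hW hT

/-- An element of `M ∪ S` which is not a mirror is a point. -/
theorem cases_E {a : V} (ha : a ∈ M ∪ S) : a ∈ 𝓦 ∨ L.h a a = -1 := by
  rcases ha with h | h
  · exact hT.sub a h
  · exact Or.inl (hT.Ssub h)

/-- Smallness of the norm term. -/
theorem small_of {a t : V} (ha : a ∈ M ∪ S) (ht : t ∈ 𝓦) (hp : ¬ Par t a) :
    (L.h a a).re ≤ 1 / 10 ^ 15 * ‖L.h a t‖ ^ 2 := by
  rcases cases_E hW hT ha with h | h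
  · rcases hW.sep t ht a h with h' | h'
    · exact absurd h' hp
    · rw [hW.norm a h]
      rw [L.norm_symm t a] at h'
      have : ((10 : ℝ) ^ 10) ^ 2 ≤ ‖L.h a t‖ ^ 2 := by gcongr
      norm_num at this ⊢
      linarith
  · rw [h]
    have : 0 ≤ ‖L.h a t‖ ^ 2 := by positivity
    norm_num
    linarith

theorem re_le_two {a : V} (ha : a ∈ M ∪ S) : |(L.h a a).re| ≤ 2 := by
  rcases cases_E hW hT ha with h | h
  · rw [hW.norm a h]; norm_num
  · rw [h]; norm_num

/-- The next mirror is visually close. -/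
theorem next_small {t t2 b y : V} (ht : t ∈ S) (ht2 : t2 ∈ S) (hb : b ∈ M ∪ S)
    (hp : ¬ Par t t2) (hyb : L.h y y = L.h b b) (hy1 : 1 ≤ ‖L.h y t2‖)
    (j1 : 1 / 12 ≤ D L t2 t (rho L t2 y)) :
    (10 : ℝ) ^ 10 / 12 ≤ ‖L.h (rho L t2 y) t‖ ∧
    |(L.h (rho L t2 y) (rho L t2 y)).re| ≤ 1 / 10 ^ 15 * ‖L.h (rho L t2 y) t‖ ^ 2 ∧
    D L t t2 (rho L t2 y) ≤ 1 / 10 ^ 15 := by
  have htW : t ∈ 𝓦 := hT.Ssub ht
  have ht2W : t2 ∈ 𝓦 := hT.Ssub ht2
  have nt2 : L.h t2 t2 = 2 := hW.norm t2 ht2W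
  have hsep : (10 : ℝ) ^ 10 ≤ ‖L.h t t2‖ := by
    rcases hW.sep t htW t2 ht2W with h | h
    · exact absurd h hp
    · exact h
  set z := rho L t2 y with hz
  have j2 : ‖L.h z t2‖ = ‖L.h y t2‖ := by rw [hz, h_rho_w L nt2, norm_neg]
  have hy2 : 1 ≤ ‖L.h z t2‖ := by rw [j2]; exact hy1
  have hbig : (1 / 12) * (‖L.h t t2‖ * ‖L.h z t2‖) ≤ ‖L.h t z‖ := by
    have hpos : 0 < ‖L.h t t2‖ * ‖L.h z t2‖ := by positivity
    have : 1 / 12 ≤ ‖L.h t z‖ / (‖L.h t t2‖ * ‖L.h z t2‖) := j1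
    rwa [le_div_iff₀ hpos] at this
  have hbig2 : (10 : ℝ) ^ 10 / 12 ≤ ‖L.h z t‖ := by
    rw [L.norm_symm z t]
    have : (10 : ℝ) ^ 10 * 1 ≤ ‖L.h t t2‖ * ‖L.h z t2‖ := by gcongr
    linarith
  have hnz : L.h z t ≠ 0 := by
    intro h0
    rw [h0, norm_zero] at hbig2
    norm_num at hbig2
  have hzz : L.h z z = L.h b b := by
    rw [hz, h_rho_rho L nt2, hyb]
  have hzz2 : |(L.h z z).re| ≤ 1 / 10 ^ 15 * ‖L.h z t‖ ^ 2 := by
    rw [hzz]
    have h1 := re_le_two hW hT hb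
    have h2 : ((10 : ℝ) ^ 10 / 12) ^ 2 ≤ ‖L.h z t‖ ^ 2 := by gcongr
    norm_num at h2 ⊢
    linarith
  have hD2 : D L t t2 z ≤ 1 / 10 ^ 15 := by
    have id := ident L (u := t2) (v := t) (x := z)
      (by intro h0; rw [L.norm_symm, h0, norm_zero] at hsep; norm_num at hsep)
      (by intro h0; rw [h0, norm_zero] at hy2; norm_num at hy2) hnz
    have h3 : D L t2 t z * D L t t2 z = 1 / ‖L.h t t2‖ ^ 2 := by
      rw [L.norm_symm t t2, ← id]
    have h4 : 0 ≤ D L t t2 z := D_nonneg L _ _ _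
    have h5 : (1 / 12) * D L t t2 z ≤ 1 / ‖L.h t t2‖ ^ 2 := by
      rw [← h3]
      gcongr
    have h6 : 1 / ‖L.h t t2‖ ^ 2 ≤ 1 / ((10 : ℝ) ^ 10) ^ 2 := by gcongr
    norm_num at h6 h5 ⊢
    linarith
  exact ⟨hbig2, hzz2, hD2⟩

/-- One-sided chain lemma. -/
theorem chain_one (l : List V) : ∀ (t b : V), (∀ x ∈ t :: l, x ∈ S) → b ∈ M ∪ S →
    List.IsChain (fun x y => ¬ Par x y) (t :: (l ++ [b])) →
    (∀ e ∈ M ∪ S, ¬ Par t e → 1 / 12 ≤ D L t e (rho L t (W L l b))) ∧
    1 ≤ ‖L.h (W L l b) t‖ ∧ (L.h b b).re ≤ 1 / 10 ^ 15 * ‖L.h (W L l b) t‖ ^ 2 := by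
  induction l with
  | nil =>
    intro t b hl hb hc
    have ht : t ∈ S := hl t List.mem_cons_self
    have hp : ¬ Par t b := by
      rw [List.nil_append, List.isChain_cons_cons] at hc
      exact hc.1
    refine ⟨?_, ?_, ?_⟩
    · intro e he hte
      have := hT.s1 t ht e he b hb hte hp
      rw [W_nil]
      linarith
    · exact hT.s0 t ht b hb hp
    · exact small_of hW hT hb (hT.Ssub ht) hp
  | cons t2 l ih =>
    intro t b hl hb hc
    have ht : t ∈ S := hl t List.mem_cons_self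
    have ht2 : t2 ∈ S := hl t2 (List.mem_cons_of_mem _ List.mem_cons_self)
    rw [List.cons_append, List.isChain_cons_cons] at hc
    obtain ⟨hp, hc2⟩ := hc
    obtain ⟨i1, i2, i3⟩ := ih t2 b (fun x hx => hl x (List.mem_cons_of_mem _ hx)) hb hc2
    have hp' : ¬ Par t2 t := fun h => hp h.symm
    have htW : t ∈ 𝓦 := hT.Ssub ht
    have ht2W : t2 ∈ 𝓦 := hT.Ssub ht2
    have hl2 : N2 L l := hW.n2 (fun x hx => hT.Ssub
      (hl x (List.mem_cons_of_mem _ (List.mem_cons_of_mem _ hx))))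
    have ntt : L.h t t = 2 := hW.norm t htW
    have nt2 : L.h t2 t2 = 2 := hW.norm t2 ht2W
    have hsep : (10 : ℝ) ^ 10 ≤ ‖L.h t t2‖ := by
      rcases hW.sep t htW t2 ht2W with h | h
      · exact absurd h hp
      · exact h
    obtain ⟨hbig2, hzz2, hD2⟩ := next_small hW hT ht ht2 hb hp (h_W_W hl2 b b) i2
      (i1 t (Or.inr ht) hp')
    set y := W L l b with hy
    set z := rho L t2 y with hz
    have hW2 : W L (t2 :: l) b = z := rfl
    rw [hW2]
    have hzz : L.h z z = L.h b b := by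
      rw [hz, h_rho_rho L nt2, hy, h_W_W hl2]
    refine ⟨?_, ?_, ?_⟩
    · intro e he hte
      have hen : 1 ≤ ‖L.h e t‖ := hT.s0 t ht e he hte
      have h2n : 1 ≤ ‖L.h t2 t‖ := by
        rw [L.norm_symm]; refine le_trans ?_ hsep; norm_num
      have e1 : ‖L.h (rho L t z) t‖ = ‖L.h z t‖ := by rw [h_rho_w L ntt, norm_neg]
      have e2 : ‖L.h (rho L t t2) t‖ = ‖L.h t2 t‖ := by rw [h_rho_w L ntt, norm_neg]
      have e3 : L.h (rho L t z) (rho L t z) = L.h z z := h_rho_rho L ntt _ _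
      have e4 : L.h (rho L t t2) (rho L t t2) = L.h t2 t2 := h_rho_rho L ntt _ _
      have e5 : D L t (rho L t t2) (rho L t z) = D L t t2 z := by
        have := D_rho L ntt t t2 z
        rw [rho_self L ntt] at this
        rw [← this]
        exact ((Par.neg t).D _ _).symm
      have s1 := hT.s1 t ht e he t2 (Or.inr ht2) hte hp
      have := ql L (u := t) (x := e) (y := rho L t z) (z := rho L t t2)
        (sx := 1 / 10 ^ 15) (sy := 1 / 10 ^ 15) (sz := 1 / 10 ^ 15) (β := 1 / 2) ntt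
        (by intro h0; rw [h0, norm_zero] at hen; norm_num at hen)
        (by intro h0; rw [h0, norm_zero] at e1; rw [← e1] at hbig2; norm_num at hbig2)
        (by intro h0; rw [h0, norm_zero] at e2; rw [← e2] at h2n; norm_num at h2n)
        (by rw [e1, e3]; exact hzz2) (by norm_num)
        (small_of hW hT he htW hte)
        (by rw [e2, e4]; exact small_of hW hT (Or.inr ht2) htW hp)
        (by norm_num) (by rw [e5]; refine hD2.trans ?_; norm_num)
        (by rw [e5]; norm_num at hD2 ⊢; linarith) s1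
      linarith
    · refine le_trans ?_ hbig2; norm_num
    · rw [← hzz]; exact (le_abs_self _).trans hzz2

/-- Two-sided chain lemma: the translated mirror `W p t` lies between the ends. -/
theorem chain_two {p q : List V} {t a b : V} (hl : ∀ x ∈ p ++ t :: q, x ∈ S) (ha : a ∈ M ∪ S)
    (hb : b ∈ M ∪ S) (hc : List.IsChain (fun x y => ¬ Par x y) (a :: (p ++ t :: (q ++ [b])))) :
    1 / 72 ≤ D L (W L p t) a (W L (p ++ t :: q) b) ∧
    (L.h a a).re ≤ 1 / 10 ^ 15 * ‖L.h a (W L p t)‖ ^ 2 ∧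
    (L.h b b).re ≤ 1 / 10 ^ 15 * ‖L.h (W L (p ++ t :: q) b) (W L p t)‖ ^ 2 ∧
    1 ≤ ‖L.h a (W L p t)‖ ∧ 1 ≤ ‖L.h (W L (p ++ t :: q) b) (W L p t)‖ := by
  have ht : t ∈ S := hl t (by simp)
  have htW : t ∈ 𝓦 := hT.Ssub ht
  have ntt : L.h t t = 2 := hW.norm t htW
  have hpS : ∀ x ∈ p, x ∈ S := fun x hx => hl x (by simp [hx])
  have hqS : ∀ x ∈ q, x ∈ S := fun x hx => hl x (by simp [hx])
  have hp2 : N2 L p := hW.n2 (fun x hx => hT.Ssub (hpS x hx))
  have hq2 : N2 L q := hW.n2 (fun x hx => hT.Ssub (hqS x hx))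
  have hsplit : a :: (p ++ t :: (q ++ [b])) = (a :: p) ++ t :: (q ++ [b]) := by simp
  rw [hsplit, List.isChain_split] at hc
  obtain ⟨hcl, hcr⟩ := hc
  have hcl' : List.IsChain (fun x y => ¬ Par x y) (t :: (p.reverse ++ [a])) := by
    have e : t :: (p.reverse ++ [a]) = ((a :: p) ++ [t]).reverse := by simp
    rw [e, List.isChain_reverse]
    exact hcl.imp (fun x y hxy h => hxy h.symm)
  obtain ⟨r1, r2, r3⟩ := chain_one hW hT q t b
    (by intro x hx
        rcases List.mem_cons.1 hx with h | h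
        · rw [h]; exact ht
        · exact hqS x h) hb hcr
  have hprS : ∀ x ∈ p.reverse, x ∈ S := fun x hx => hpS x (List.mem_reverse.1 hx)
  obtain ⟨-, l2, l3⟩ := chain_one hW hT p.reverse t a
    (by intro x hx
        rcases List.mem_cons.1 hx with h | h
        · rw [h]; exact ht
        · exact hprS x h) ha hcl'
  set z1 := W L p.reverse a with hz1
  set y1 := W L q b with hy1
  set x1 := rho L t y1 with hx1
  have ea : a = W L p z1 := by rw [hz1, W_reverse' hp2]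
  have eb : W L (p ++ t :: q) b = W L p x1 := by rw [W_append, W_cons]
  have n1 : L.h a (W L p t) = L.h z1 t := by
    conv_lhs => rw [ea]
    exact h_W_W hp2 _ _
  have n2 : L.h (W L (p ++ t :: q) b) (W L p t) = L.h x1 t := by
    rw [eb, h_W_W hp2]
  have n3 : ‖L.h x1 t‖ = ‖L.h y1 t‖ := by rw [hx1, h_rho_w L ntt, norm_neg]
  have eD : D L (W L p t) a (W L (p ++ t :: q) b) = D L t z1 x1 := by
    rw [eb]
    conv_lhs => rw [ea]
    exact D_W hp2 _ _ _
  rw [eD, n1, n2, n3]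
  refine ⟨?_, l3, r3, l2, r2⟩
  -- the main estimate
  rcases hpr : p.reverse with _ | ⟨s, r⟩
  · have hp0 : p = [] := by
      have := congrArg List.reverse hpr
      simpa using this
    have hta : ¬ Par t a := by
      rw [hpr, List.nil_append, List.isChain_cons_cons] at hcl'
      exact hcl'.1
    have := r1 a ha hta
    have hz : z1 = a := by rw [hz1, hpr]; rfl
    rw [hz]
    linarith
  · rw [hpr, List.cons_append, List.isChain_cons_cons] at hcl'
    obtain ⟨hts, hcr2⟩ := hcl'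
    have hs : s ∈ S := hprS s (by rw [hpr]; simp)
    have hsW : s ∈ 𝓦 := hT.Ssub hs
    have hrS : ∀ x ∈ r, x ∈ S := fun x hx => hprS x (by rw [hpr]; simp [hx])
    have hr2 : N2 L r := hW.n2 (fun x hx => hT.Ssub (hrS x hx))
    obtain ⟨k1, k2, -⟩ := chain_one hW hT r s a
      (by intro x hx
          rcases List.mem_cons.1 hx with h | h
          · rw [h]; exact hs
          · exact hrS x h) ha hcr2
    have hz : z1 = rho L s (W L r a) := by rw [hz1, hpr]; rfl
    have hst : ¬ Par s t := fun h => hts h.symm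
    obtain ⟨m1, m2, m3⟩ := next_small hW hT ht hs ha hts (h_W_W hr2 a a) k2
      (k1 t (Or.inr ht) hst)
    rw [← hz] at m1 m2 m3
    have hsn : 1 ≤ ‖L.h s t‖ := hT.s0 t ht s (Or.inr hs) hts
    have q1 := r1 s (Or.inr hs) hts
    have hxx : L.h x1 x1 = L.h b b := by rw [hx1, h_rho_rho L ntt, hy1, h_W_W hq2]
    have := ql L (u := t) (x := x1) (y := z1) (z := s)
      (sx := 1 / 10 ^ 15) (sy := 1 / 10 ^ 15) (sz := 1 / 10 ^ 15) (β := 1 / 12) ntt
      (by intro h0; rw [h0, norm_zero] at n3; rw [← n3] at r2; norm_num at r2)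
      (by intro h0; rw [h0, norm_zero] at m1; norm_num at m1)
      (by intro h0; rw [h0, norm_zero] at hsn; norm_num at hsn)
      m2 (by norm_num)
      (by rw [n3, hxx]; exact r3)
      (small_of hW hT (Or.inr hs) htW hts)
      (by norm_num) (by refine m3.trans ?_; norm_num)
      (by norm_num at m3 ⊢; linarith) (by rw [D_symm]; exact q1)
    rw [D_symm]
    linarith

/-! ### Closure properties of the new set -/

omit hW hT in
theorem mem_Mp {a : V} (ha : a ∈ M ∪ S) : a ∈ Mp L M S :=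
  ⟨[], by simp, a, ha, rfl⟩

omit hW hT in
theorem W_mem_Mp {l : List V} (hl : ∀ t ∈ l, t ∈ S) {x : V} (hx : x ∈ Mp L M S) :
    W L l x ∈ Mp L M S := by
  obtain ⟨l', hl', a, ha, rfl⟩ := hx
  refine ⟨l ++ l', ?_, a, ha, by rw [W_append]⟩
  intro t ht
  rcases List.mem_append.1 ht with h | h
  · exact hl t h
  · exact hl' t h

theorem SW {l : List V} (hl : ∀ t ∈ l, t ∈ S) : N2 L l := hW.n2 (fun x hx => hT.Ssub (hl x hx))

omit hW in
theorem E_par {a w : V} (ha : a ∈ M ∪ S) (hw : w ∈ 𝓦) (hp : Par a w) : w ∈ M ∪ S := by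
  rcases ha with h | h
  · exact Or.inl (hT.par a h w hw hp)
  · exact Or.inr (hT.Spar a h w hw hp)

theorem Mp_sub {x : V} (hx : x ∈ Mp L M S) : x ∈ 𝓦 ∨ L.h x x = -1 := by
  obtain ⟨l, hl, a, ha, rfl⟩ := hx
  rcases cases_E hW hT ha with h | h
  · exact Or.inl (hW.W_mem (fun w hw => hT.Ssub (hl w hw)) h)
  · right; rw [h_W_W (SW hW hT hl), h]

theorem rev_notMem {l : List V} (hl : ∀ t ∈ l, t ∈ S) {v : V} (hv : v ∈ 𝓦) (hv' : v ∉ Mp L M S) :
    W L l.reverse v ∈ 𝓦 ∧ W L l.reverse v ∉ Mp L M S := by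
  have hlr : ∀ t ∈ l.reverse, t ∈ S := fun t ht => hl t (List.mem_reverse.1 ht)
  refine ⟨hW.W_mem (fun w hw => hT.Ssub (hlr w hw)) hv, ?_⟩
  intro h
  apply hv'
  have := W_mem_Mp (L := L) hl h
  rwa [W_reverse' (SW hW hT hl)] at this

theorem Mp_par {w w' : V} (hw : w ∈ Mp L M S) (hw' : w' ∈ 𝓦) (hp : Par w w') :
    w' ∈ Mp L M S := by
  obtain ⟨l, hl, a, ha, rfl⟩ := hw
  have hn := SW hW hT hl
  have hlr : ∀ t ∈ l.reverse, t ∈ S := fun t ht => hl t (List.mem_reverse.1 ht)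
  have h1 : W L l.reverse w' ∈ 𝓦 := hW.W_mem (fun w hw => hT.Ssub (hlr w hw)) hw'
  have h2 : Par a (W L l.reverse w') := by
    have := hp.W (L := L) l.reverse
    rwa [W_reverse hn] at this
  have h3 := E_par hT ha h1 h2
  exact ⟨l, hl, _, h3, by rw [W_reverse' hn]⟩

theorem Mp_refl {w x : V} (hw : w ∈ Mp L M S) (hw' : w ∈ 𝓦) (hx : x ∈ Mp L M S) :
    rho L w x ∈ Mp L M S := by
  obtain ⟨l, hl, a, ha, rfl⟩ := hw
  have hn := SW hW hT hl
  have hlr : ∀ t ∈ l.reverse, t ∈ S := fun t ht => hl t (List.mem_reverse.1 ht)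
  have haW : a ∈ 𝓦 := by
    have := hW.W_mem (L := L) (l := l.reverse) (fun w hw => hT.Ssub (hlr w hw)) hw'
    rwa [W_reverse hn] at this
  rw [rho_W hn]
  apply W_mem_Mp hl
  obtain ⟨l', hl', b, hb, hxb⟩ := W_mem_Mp (L := L) hlr hx
  rw [hxb]
  rcases ha with ha | ha
  · rw [rho_map (hW.norm a haW)]
    refine ⟨l'.map (rho L a), ?_, rho L a b, ?_, rfl⟩
    · intro t ht
      obtain ⟨s, hs, rfl⟩ := List.mem_map.1 ht
      exact hT.Srefl a ha haW s (hl' s hs)
    · rcases hb with hb | hb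
      · exact Or.inl (hT.refl a ha haW b hb)
      · exact Or.inr (hT.Srefl a ha haW b hb)
  · refine ⟨a :: l', ?_, b, hb, rfl⟩
    intro t ht
    rcases List.mem_cons.1 ht with h | h
    · rw [h]; exact ha
    · exact hl' t h

/-! ### Visibility from an outer mirror -/

theorem one_le_self {a : V} (ha : a ∈ M ∪ S) : 1 ≤ ‖L.h a a‖ := by
  rcases cases_E hW hT ha with h | h
  · rw [hW.norm a h]; norm_num
  · rw [h]; norm_num

theorem far_nz {l : List V} (hl : ∀ t ∈ l, t ∈ S) {a v : V} (ha : a ∈ M ∪ S) (hv : v ∈ 𝓦)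
    (hv' : v ∉ Mp L M S) : (10 : ℝ) ^ 3 ≤ ‖L.h (W L l a) v‖ ∧
    (L.h (W L l a) (W L l a)).re ≤ 1 / 10 ^ 15 * ‖L.h (W L l a) v‖ ^ 2 := by
  have hn := SW hW hT hl
  obtain ⟨h1, h2⟩ := rev_notMem hW hT hl hv hv'
  set v' := W L l.reverse v with hvv
  have ev : v = W L l v' := by rw [hvv, W_reverse' hn]
  have e1 : L.h (W L l a) v = L.h a v' := by
    conv_lhs => rw [ev]
    exact h_W_W hn _ _
  have h3 : v' ∉ M := fun h => h2 (mem_Mp (Or.inl h))
  have h4 : v' ∉ S := fun h => h2 (mem_Mp (Or.inr h))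
  rw [e1, h_W_W hn]
  constructor
  · have := hT.s2 v' h1 h3 h4 a ha a ha
    have h5 := one_le_self hW hT ha
    have h6 : (10 : ℝ) ^ 6 * 1 ≤ ‖L.h a v'‖ * ‖L.h a v'‖ := by
      refine le_trans ?_ this
      gcongr
    by_contra hcon
    push Not at hcon
    nlinarith [norm_nonneg (L.h a v')]
  · apply small_of hW hT ha h1
    intro hp
    exact h2 (mem_Mp (E_par hT ha h1 hp.symm))

theorem far_mirror {u v : V} (hu : u ∈ Mp L M S) (hu' : u ∈ 𝓦) (hv : v ∈ 𝓦)
    (hv' : v ∉ Mp L M S) : (10 : ℝ) ^ 10 ≤ ‖L.h u v‖ := by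
  rcases hW.sep u hu' v hv with h | h
  · exact absurd (Mp_par hW hT hu hv h) hv'
  · exact h

/-- Consecutive elements of a path are visually close. -/
theorem pair_small {p : List V} {t b v : V} (hp : ∀ x ∈ p, x ∈ S) (ht : t ∈ S)
    (hb : b ∈ M ∪ S) (hv : v ∈ 𝓦) (hv' : v ∉ Mp L M S) :
    D L v (W L p t) (W L (p ++ [t]) b) ≤ 1 / 10 ^ 6 := by
  have hpt : ∀ x ∈ p ++ [t], x ∈ S := by
    intro x hx
    rcases List.mem_append.1 hx with h | h
    · exact hp x h
    · rw [List.mem_singleton.1 h]; exact ht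
  have hn := SW hW hT hpt
  have ntt : L.h t t = 2 := hW.norm t (hT.Ssub ht)
  obtain ⟨h1, h2⟩ := rev_notMem hW hT hpt hv hv'
  set v' := W L (p ++ [t]).reverse v with hvv
  have ev : v = W L (p ++ [t]) v' := by rw [hvv, W_reverse' hn]
  have e1 : W L p t = W L (p ++ [t]) (-t) := by
    rw [W_append, W_cons, W_nil, rho_negx, rho_self L ntt, neg_neg]
  have h3 : v' ∉ M := fun h => h2 (mem_Mp (Or.inl h))
  have h4 : v' ∉ S := fun h => h2 (mem_Mp (Or.inr h))
  rw [e1, ev, D_W hn]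
  have h5 := hT.s2 v' h1 h3 h4 t (Or.inr ht) b hb
  have h6 := (far_nz hW hT (l := []) (by simp) (Or.inr ht : t ∈ M ∪ S) h1 h2).1
  have h7 := (far_nz hW hT (l := []) (by simp) hb h1 h2).1
  rw [W_nil] at h6 h7
  unfold D
  rw [L.neg_left, L.neg_left, norm_neg, norm_neg, div_le_iff₀ (by positivity)]
  norm_num at h5 ⊢
  linarith

/-- The path from `a` to `W l b` cannot avoid the outer mirror visually. -/
theorem find {l : List V} (hl : ∀ x ∈ l, x ∈ S) {a b v : V} (ha : a ∈ M ∪ S) (hb : b ∈ M ∪ S)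
    (hv : v ∈ 𝓦) (hv' : v ∉ Mp L M S)
    (hc : List.IsChain (fun x y => ¬ Par x y) (a :: (l ++ [b])))
    (hD : 1 / 10 ^ 4 < D L v a (W L l b)) (q : List V) : ∀ (p : List V) (t : V),
    l = p ++ t :: q → D L v a (W L p t) ≤ 1 / 10 ^ 6 → False := by
  obtain ⟨av, asm⟩ := far_nz hW hT (l := []) (by simp) ha hv hv'
  rw [W_nil] at av asm
  obtain ⟨yv, ysm⟩ := far_nz hW hT hl hb hv hv'
  set y := W L l b with hy
  have nvv : L.h v v = 2 := hW.norm v hv
  have ne_of : ∀ {c : ℝ} {z : ℂ}, 0 < c → c ≤ ‖z‖ → z ≠ 0 := by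
    intro c z hc0 hz h0
    rw [h0, norm_zero] at hz
    linarith
  -- membership of path mirrors
  have mir : ∀ (p : List V) (t : V) (q : List V), l = p ++ t :: q →
      W L p t ∈ 𝓦 ∧ W L p t ∈ Mp L M S ∧ (10 : ℝ) ^ 10 ≤ ‖L.h (W L p t) v‖ := by
    intro p t q h
    have hp : ∀ x ∈ p, x ∈ S := fun x hx => hl x (by rw [h]; simp [hx])
    have ht : t ∈ S := hl t (by rw [h]; simp)
    have h1 : W L p t ∈ 𝓦 := hW.W_mem (fun w hw => hT.Ssub (hp w hw)) (hT.Ssub ht)
    have h2 : W L p t ∈ Mp L M S := W_mem_Mp hp (mem_Mp (Or.inr ht))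
    exact ⟨h1, h2, far_mirror hW hT h2 h1 hv hv'⟩
  have usm : ∀ {u : V}, u ∈ 𝓦 → (10 : ℝ) ^ 10 ≤ ‖L.h u v‖ →
      |(L.h u u).re| ≤ 1 / 10 ^ 15 * ‖L.h u v‖ ^ 2 := by
    intro u hu h
    rw [hW.norm u hu]
    have : ((10 : ℝ) ^ 10) ^ 2 ≤ ‖L.h u v‖ ^ 2 := by gcongr
    norm_num at this ⊢
    linarith
  -- not both
  have notboth' : ∀ {u : V}, u ∈ 𝓦 → (10 : ℝ) ^ 10 ≤ ‖L.h u v‖ → D L v a u ≤ 11 / 10 ^ 6 →
      D L v y u ≤ 1 / 10 ^ 6 → False := by
    intro u hu huv h1 h2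
    have := qm L (u := v) (x := a) (y := u) (z := y)
      (sx := 1 / 10 ^ 15) (sy := 1 / 10 ^ 15) (sz := 1 / 10 ^ 15) nvv
      (ne_of (by norm_num) av) (ne_of (by norm_num) huv) (ne_of (by norm_num) yv)
      (usm hu huv) (by norm_num) asm ysm (h1.trans (by norm_num)) (h2.trans (by norm_num))
    norm_num at this h1 h2 hD
    linarith
  -- dichotomy
  have dich : ∀ (p : List V) (t : V) (q : List V), l = p ++ t :: q →
      D L v a (W L p t) ≤ 1 / 10 ^ 6 ∨ D L v y (W L p t) ≤ 1 / 10 ^ 6 := by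
    intro p t q h
    by_contra hcon
    push Not at hcon
    obtain ⟨c1, c2⟩ := hcon
    obtain ⟨m1, m2, m3⟩ := mir p t q h
    have hc' : List.IsChain (fun x y => ¬ Par x y) (a :: (p ++ t :: (q ++ [b]))) := by
      have : p ++ t :: (q ++ [b]) = l ++ [b] := by rw [h]; simp
      rw [this]; exact hc
    have hl' : ∀ x ∈ p ++ t :: q, x ∈ S := by rw [← h]; exact hl
    obtain ⟨b1, b2, b3, b4, b5⟩ := chain_two hW hT hl' ha hb hc'
    rw [← h, ← hy] at b1 b3 b5
    set u := W L p t with hu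
    have nuu : L.h u u = 2 := hW.norm u m1
    have id1 := ident L (u := u) (v := v) (x := a) (ne_of (by norm_num) m3)
      (ne_of (by norm_num) b4) (ne_of (by norm_num) av)
    have id2 := ident L (u := u) (v := v) (x := y) (ne_of (by norm_num) m3)
      (ne_of (by norm_num) b5) (ne_of (by norm_num) yv)
    have hinv : 1 / ‖L.h u v‖ ^ 2 ≤ 1 / ((10 : ℝ) ^ 10) ^ 2 := by gcongr
    have f1 : D L u a v ≤ 1 / 10 ^ 13 := by
      have g1 : D L u v a * (1 / 10 ^ 6) ≤ 1 / ‖L.h u v‖ ^ 2 := by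
        rw [← id1]
        have := D_nonneg L u v a
        rw [D_symm L v a u] at c1
        gcongr
      rw [D_symm]
      norm_num at g1 hinv ⊢
      linarith
    have f2 : D L u y v ≤ 1 / 10 ^ 13 := by
      have g1 : D L u v y * (1 / 10 ^ 6) ≤ 1 / ‖L.h u v‖ ^ 2 := by
        rw [← id2]
        have := D_nonneg L u v y
        rw [D_symm L v y u] at c2
        gcongr
      rw [D_symm]
      norm_num at g1 hinv ⊢
      linarith
    have huv : (10 : ℝ) ^ 10 ≤ ‖L.h v u‖ := by rw [L.norm_symm]; exact m3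
    have := qm L (u := u) (x := a) (y := v) (z := y)
      (sx := 1 / 10 ^ 15) (sy := 1 / 10 ^ 15) (sz := 1 / 10 ^ 15) nuu
      (ne_of (by norm_num) b4) (ne_of (by norm_num) huv) (ne_of (by norm_num) b5)
      (by
        rw [nvv]
        have : ((10 : ℝ) ^ 10) ^ 2 ≤ ‖L.h v u‖ ^ 2 := by gcongr
        norm_num at this ⊢
        linarith) (by norm_num) b2
      (by rw [hy, h_W_W (SW hW hT hl)]; exact b3)
      (f1.trans (by norm_num)) (f2.trans (by norm_num))
    norm_num at this f1 f2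
    linarith
  induction q with
  | nil =>
    intro p t h hle
    obtain ⟨m1, m2, m3⟩ := mir p t [] h
    refine notboth' m1 m3 (hle.trans (by norm_num)) ?_
    rw [D_symm, hy, h]
    exact pair_small hW hT (fun x hx => hl x (by rw [h]; simp [hx])) (hl t (by rw [h]; simp)) hb
      hv hv'
  | cons t' q ih =>
    intro p t h hle
    have h' : l = (p ++ [t]) ++ t' :: q := by rw [h]; simp
    have htS : t ∈ S := hl t (by rw [h]; simp)
    have htS' : t' ∈ S := hl t' (by rw [h]; simp)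
    obtain ⟨m1, m2, m3⟩ := mir p t _ h
    obtain ⟨m1', m2', m3'⟩ := mir (p ++ [t]) t' q h'
    have hpair := pair_small hW hT (fun x hx => hl x (by rw [h]; simp [hx]) : ∀ x ∈ p, x ∈ S)
      htS (Or.inr htS' : t' ∈ M ∪ S) hv hv'
    rcases dich (p ++ [t]) t' q h' with hd | hd
    · exact ih (p ++ [t]) t' h' hd
    · refine notboth' m1' m3' ?_ hd
      have := qm L (u := v) (x := a) (y := W L p t) (z := W L (p ++ [t]) t')
        (sx := 1 / 10 ^ 15) (sy := 1 / 10 ^ 15) (sz := 1 / 10 ^ 15) nvv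
        (ne_of (by norm_num) av) (ne_of (by norm_num) m3) (ne_of (by norm_num) m3')
        (usm m1 m3) (by norm_num) asm ((le_abs_self _).trans (usm m1' m3'))
        (hle.trans (by norm_num)) (by rw [D_symm]; exact hpair.trans (by norm_num))
      rw [D_symm L v (W L (p ++ [t]) t') (W L p t)] at this
      norm_num at this hle hpair ⊢
      linarith

/-! ### The far condition for the new set -/

theorem far_chain {l : List V} (hl : ∀ x ∈ l, x ∈ S) {a b v : V} (ha : a ∈ M ∪ S)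
    (hb : b ∈ M ∪ S) (hv : v ∈ 𝓦) (hv' : v ∉ Mp L M S)
    (hc : l = [] ∨ List.IsChain (fun x y => ¬ Par x y) (a :: (l ++ [b]))) :
    (10 : ℝ) ^ 4 * ‖L.h a (W L l b)‖ ≤ ‖L.h a v‖ * ‖L.h (W L l b) v‖ := by
  obtain ⟨av, -⟩ := far_nz hW hT (l := []) (by simp) ha hv hv'
  rw [W_nil] at av
  obtain ⟨yv, -⟩ := far_nz hW hT hl hb hv hv'
  have h3 : v ∉ M := fun h => hv' (mem_Mp (Or.inl h))
  have h4 : v ∉ S := fun h => hv' (mem_Mp (Or.inr h))
  rcases l with _ | ⟨t, q⟩
  · rw [W_nil]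
    have h1 := hT.s2 v hv h3 h4 a ha b hb
    have h2 : (10 : ℝ) ^ 4 * ‖L.h a b‖ ≤ (10 : ℝ) ^ 6 * ‖L.h a b‖ := by
      have := norm_nonneg (L.h a b)
      norm_num
      linarith
    linarith
  · have hc' : List.IsChain (fun x y => ¬ Par x y) (a :: ((t :: q) ++ [b])) := by
      rcases hc with h | h
      · exact absurd h (by simp)
      · exact h
    have htS : t ∈ S := hl t (by simp)
    have tv := (far_nz hW hT (l := []) (by simp) (Or.inr htS : t ∈ M ∪ S) hv hv').1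
    rw [W_nil] at tv
    have h1 := hT.s2 v hv h3 h4 a ha t (Or.inr htS)
    have hat : D L v a t ≤ 1 / 10 ^ 6 := by
      unfold D
      rw [div_le_iff₀ (by positivity)]
      norm_num at h1 ⊢
      linarith
    by_contra hcon
    push Not at hcon
    have hD : 1 / 10 ^ 4 < D L v a (W L (t :: q) b) := by
      unfold D
      rw [lt_div_iff₀ (by positivity)]
      norm_num at hcon ⊢
      linarith
    exact find hW hT hl ha hb hv hv' hc' hD q [] t rfl hat

theorem far_all (l : List V) : ∀ (hl : ∀ x ∈ l, x ∈ S) {a b v : V} (ha : a ∈ M ∪ S)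
    (hb : b ∈ M ∪ S) (hv : v ∈ 𝓦) (hv' : v ∉ Mp L M S),
    (10 : ℝ) ^ 4 * ‖L.h a (W L l b)‖ ≤ ‖L.h a v‖ * ‖L.h (W L l b) v‖ := by
  -- strong induction on the length
  induction hn : l.length using Nat.strong_induction_on generalizing l with
  | _ n ih =>
    intro hl a b v ha hb hv hv'
    by_cases hc : l = [] ∨ List.IsChain (fun x y => ¬ Par x y) (a :: (l ++ [b]))
    · exact far_chain hW hT hl ha hb hv hv' hc
    push Not at hc
    obtain ⟨hne, hnc⟩ := hc
    -- find a parallel adjacent pair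
    rcases l with _ | ⟨t, q⟩
    · exact absurd rfl hne
    have htS : t ∈ S := hl t (by simp)
    have htW : t ∈ 𝓦 := hT.Ssub htS
    have ntt : L.h t t = 2 := hW.norm t htW
    have hqS : ∀ x ∈ q, x ∈ S := fun x hx => hl x (by simp [hx])
    have hlen : q.length < n := by rw [← hn]; simp
    by_cases hat : Par a t
    · -- move the first reflection
      have h1 : rho L t v ∈ 𝓦 := hW.refl t htW v hv
      have h2 : rho L t v ∉ Mp L M S := by
        intro h
        apply hv'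
        have := W_mem_Mp (L := L) (M := M) (l := [t]) (by simpa using htS) h
        rwa [W_cons, W_nil, rho_rho L ntt] at this
      have h3 := ih q.length hlen q rfl hqS ha hb h1 h2
      have e1 : ‖L.h a (rho L t (W L q b))‖ = ‖L.h a (W L q b)‖ := by
        have : L.h a (rho L t (W L q b)) = L.h (rho L t a) (W L q b) := by
          rw [← h_rho_rho L ntt, rho_rho L ntt]
        rw [this]
        have hp : Par a (rho L t a) := by
          rw [hat.rho a, rho_self L (by rw [← hat.self, ntt])]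
          exact Par.neg a
        exact hp.norm_left _
      have e2 : ‖L.h a v‖ = ‖L.h a (rho L t v)‖ := by
        have : L.h a (rho L t v) = L.h (rho L t a) v := by
          rw [← h_rho_rho L ntt, rho_rho L ntt]
        rw [this]
        have hp : Par a (rho L t a) := by
          rw [hat.rho a, rho_self L (by rw [← hat.self, ntt])]
          exact Par.neg a
        exact (hp.norm_left _).symm
      have e3 : L.h (rho L t (W L q b)) v = L.h (W L q b) (rho L t v) := by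
        rw [← h_rho_rho L ntt, rho_rho L ntt]
      rw [W_cons, e1, e2, e3]
      exact h3
    · -- interior pair
      have hsub : ∃ (p : List V) (x y : V) (r : List V), (t :: q) ++ [b] = p ++ x :: y :: r ∧
          Par x y := by
        by_contra hcon
        push Not at hcon
        apply hnc
        rw [List.cons_append, List.isChain_cons_cons]
        refine ⟨hat, ?_⟩
        rw [List.isChain_iff_forall_rel_of_append_cons_cons]
        intro x y p r h
        rw [List.cons_append] at hcon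
        exact hcon p x y r h
      obtain ⟨p, x, y, r, he, hxy⟩ := hsub
      rcases List.eq_nil_or_concat r with hr | ⟨r', z, hr⟩
      · -- the last pair
        rw [hr] at he
        have he' : (t :: q) = p ++ [x] ∧ b = y := by
          have : (t :: q) ++ [b] = (p ++ [x]) ++ [y] := by rw [he]; simp
          have h1 := List.append_inj' this rfl
          exact ⟨h1.1, by simpa using h1.2⟩
        obtain ⟨h1, rfl⟩ := he'
        have hxS : x ∈ S := hl x (by rw [h1]; simp)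
        have nxx : L.h x x = 2 := hW.norm x (hT.Ssub hxS)
        have hpS : ∀ z ∈ p, z ∈ S := fun z hz => hl z (by rw [h1]; simp [hz])
        have hlen' : p.length < n := by
          have : (t :: q).length = p.length + 1 := by rw [h1]; simp
          omega
        have h3 := ih p.length hlen' p rfl hpS ha hb hv hv'
        have hp : Par b (rho L x b) := by
          rw [← hxy.rho b, rho_self L (by rw [hxy.self, nxx])]
          exact Par.neg b
        have e1 : Par (W L p b) (W L (t :: q) b) := by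
          rw [h1, W_append, W_cons, W_nil]
          exact hp.W p
        rw [e1.norm_right, e1.norm_left]
        exact h3
      · -- an interior pair
        rw [hr, List.concat_eq_append] at he
        have he' : (t :: q) = p ++ x :: y :: r' ∧ b = z := by
          have : (t :: q) ++ [b] = (p ++ x :: y :: r') ++ [z] := by rw [he]; simp
          have h1 := List.append_inj' this rfl
          exact ⟨h1.1, by simpa using h1.2⟩
        obtain ⟨h1, -⟩ := he'
        have hxS : x ∈ S := hl x (by rw [h1]; simp)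
        have nxx : L.h x x = 2 := hW.norm x (hT.Ssub hxS)
        have hpS : ∀ z ∈ p ++ r', z ∈ S := by
          intro z hz
          apply hl z
          rw [h1]
          rcases List.mem_append.1 hz with h | h
          · simp [h]
          · simp [h]
        have hlen' : (p ++ r').length < n := by
          have : (t :: q).length = (p ++ r').length + 2 := by rw [h1]; simp; omega
          omega
        have h3 := ih (p ++ r').length hlen' (p ++ r') rfl hpS ha hb hv hv'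
        have e1 : W L (t :: q) b = W L (p ++ r') b := by
          rw [h1, W_append, W_append, W_cons, W_cons, hxy.rho, rho_rho L nxx]
        rw [e1]
        exact h3

theorem far_Mp {v e e' : V} (hv : v ∈ 𝓦) (hv' : v ∉ Mp L M S) (he : e ∈ Mp L M S)
    (he' : e' ∈ Mp L M S) : (10 : ℝ) ^ 4 * ‖L.h e e'‖ ≤ ‖L.h e v‖ * ‖L.h e' v‖ := by
  obtain ⟨l, hl, a, ha, rfl⟩ := he
  obtain ⟨l', hl', b, hb, rfl⟩ := he'
  have hn := SW hW hT hl
  obtain ⟨h1, h2⟩ := rev_notMem hW hT hl hv hv'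
  have hlr : ∀ x ∈ l.reverse ++ l', x ∈ S := by
    intro x hx
    rcases List.mem_append.1 hx with h | h
    · exact hl x (List.mem_reverse.1 h)
    · exact hl' x h
  have h3 := far_all hW hT (l.reverse ++ l') hlr ha hb h1 h2
  have e0 : ∀ y, L.h (W L l a) y = L.h a (W L l.reverse y) := by
    intro y
    conv_lhs => rw [← W_reverse' hn y]
    exact h_W_W hn _ _
  have e2 : L.h (W L l' b) v = L.h (W L (l.reverse ++ l') b) (W L l.reverse v) := by
    rw [W_append, h_W_W hn.reverse]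
  rw [e0, e0, e2, ← W_append]
  exact h3

end step

end Crest.Agent.R272.LBWord_585
end

-- ▼ part R272/LBGR_585
section

/-!
# R272 / LB-GR, part 2: the windmill (Zorn) in the form (GR)
-/

set_option autoImplicit false
set_option linter.unusedSectionVars false

open Complex ComplexConjugate

namespace Crest.Agent.R272.LBGR_585

open Crest.Agent.R272.LBForm_585 Crest.Agent.R272.LBWord_585

variable {V : Type*} [AddCommGroup V] [Module ℂ V] {L : Lor V}

/-- The windmill predicate, relative to a start `M₀`. -/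
structure WM (L : Lor V) (𝓦 M₀ M : Set V) : Prop where
  ext : M₀ ⊆ M
  sub : ∀ x ∈ M, x ∈ 𝓦 ∨ L.h x x = -1
  par : ∀ w ∈ M, ∀ w' ∈ 𝓦, Par w w' → w' ∈ M
  refl : ∀ w ∈ M, w ∈ 𝓦 → ∀ x ∈ M, rho L w x ∈ M
  far : ∀ v ∈ 𝓦, v ∉ M → ∀ e ∈ M, ∀ e' ∈ M,
    (10 : ℝ) ^ 4 * ‖L.h e e'‖ ≤ ‖L.h e v‖ * ‖L.h e' v‖
  gr : ∀ l : List V, (∀ w ∈ l, w ∈ M ∧ w ∈ 𝓦) →
    (∃ l₀ : List V, (∀ w ∈ l₀, w ∈ M₀ ∧ w ∈ 𝓦) ∧ ∀ x, W L l x = W L l₀ x) ∨
    ∀ o ∈ M₀, L.h o o = -1 → ∀ o' ∈ M₀, L.h o' o' = -1 →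
      ∃ w ∈ 𝓦, w ∉ M₀ ∧ W L l.reverse w ∉ M₀ ∧ 1 / 12 ≤ D L w o (W L l o')

section step

variable {𝓦 M₀ M S : Set V} (hW : Sys L 𝓦)

include hW

theorem point_notMem {x : V} (hx : L.h x x = -1) : x ∉ 𝓦 := by
  intro h
  have := hW.norm x h
  rw [hx] at this
  norm_num at this

theorem not_par_point {x w : V} (hx : L.h x x = -1) (hw : w ∈ 𝓦) : ¬ Par w x := by
  intro h
  have := h.self (L := L)
  rw [hx, hW.norm w hw] at this
  norm_num at this

/-- Decomposition of a word in the new mirrors. -/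
theorem decomp (hT : Stp L 𝓦 M S) (l : List V) : (∀ w ∈ l, w ∈ Mp L M S ∧ w ∈ 𝓦) →
    ∃ lS lM : List V, (∀ w ∈ lS, w ∈ S) ∧ (∀ w ∈ lM, w ∈ M ∧ w ∈ 𝓦) ∧
      ∀ x, W L l x = W L lS (W L lM x) := by
  induction l with
  | nil => intro _; exact ⟨[], [], by simp, by simp, fun x => rfl⟩
  | cons w l ih =>
    intro h
    obtain ⟨lS, lM, hS, hM, he⟩ := ih (fun x hx => h x (List.mem_cons_of_mem _ hx))
    obtain ⟨hw, hwW⟩ := h w List.mem_cons_self
    obtain ⟨p, hp, a, ha, rfl⟩ := hw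
    have hn := SW hW hT hp
    have hpr : ∀ t ∈ p.reverse, t ∈ S := fun t ht => hp t (List.mem_reverse.1 ht)
    have haW : a ∈ 𝓦 := by
      have := hW.W_mem (L := L) (l := p.reverse) (fun w hw => hT.Ssub (hpr w hw)) hwW
      rwa [W_reverse hn] at this
    rcases ha with ha | ha
    · refine ⟨p ++ (p.reverse ++ lS).map (rho L a), a :: lM, ?_, ?_, ?_⟩
      · intro t ht
        rcases List.mem_append.1 ht with h | h
        · exact hp t h
        · obtain ⟨s, hs, rfl⟩ := List.mem_map.1 h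
          apply hT.Srefl a ha haW
          rcases List.mem_append.1 hs with h | h
          · exact hpr s h
          · exact hS s h
      · intro t ht
        rcases List.mem_cons.1 ht with h | h
        · rw [h]; exact ⟨ha, haW⟩
        · exact hM t h
      · intro x
        rw [W_cons, rho_W hn, he x, W_append, W_cons, ← W_append, rho_map (hW.norm a haW)]
    · refine ⟨p ++ a :: (p.reverse ++ lS), lM, ?_, hM, ?_⟩
      · intro t ht
        simp only [List.mem_append, List.mem_cons, List.mem_reverse] at ht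
        rcases ht with h | h | h | h
        · exact hp t h
        · rw [h]; exact ha
        · exact hp t h
        · exact hS t h
      · intro x
        rw [W_cons, rho_W hn, he x, W_append, W_cons, W_append]

/-- Reduction of a word. -/
theorem reduce (hT : Stp L 𝓦 M S) (l : List V) : (∀ w ∈ l, w ∈ S) →
    ∃ l' : List V, (∀ w ∈ l', w ∈ S) ∧ List.IsChain (fun x y => ¬ Par x y) l' ∧
      ∀ x, W L l x = W L l' x := by
  induction l with
  | nil => intro _; exact ⟨[], by simp, List.isChain_nil, fun x => rfl⟩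
  | cons t l ih =>
    intro h
    obtain ⟨l', h1, h2, h3⟩ := ih (fun x hx => h x (List.mem_cons_of_mem _ hx))
    have ht : t ∈ S := h t List.mem_cons_self
    rcases l' with _ | ⟨s, q⟩
    · refine ⟨[t], by simpa using ht, List.isChain_singleton t, fun x => ?_⟩
      rw [W_cons, h3]; rfl
    · by_cases hp : Par t s
      · have hs : s ∈ S := h1 s List.mem_cons_self
        refine ⟨q, fun x hx => h1 x (List.mem_cons_of_mem _ hx), ?_, fun x => ?_⟩
        · exact h2.tail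
        · rw [W_cons, h3, W_cons, ← hp.rho, hp.rho, ← hp.rho (L := L)]
          rw [hp.rho, hp.rho (L := L)]
          rw [rho_rho L (hW.norm t (hT.Ssub ht))]
      · refine ⟨t :: s :: q, ?_, ?_, fun x => ?_⟩
        · intro x hx
          rcases List.mem_cons.1 hx with h | h
          · rw [h]; exact ht
          · exact h1 x h
        · rw [List.isChain_cons_cons]; exact ⟨hp, h2⟩
        · rw [W_cons, h3]; rfl

/-- `rho`-moves of the form. -/
theorem W_invM (hM : WM L 𝓦 M₀ M) {l : List V} (hl : ∀ w ∈ l, w ∈ M ∧ w ∈ 𝓦) {x : V}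
    (hx : x ∈ M) : W L l x ∈ M := by
  induction l with
  | nil => exact hx
  | cons w l ih =>
    obtain ⟨h1, h2⟩ := hl w List.mem_cons_self
    exact hM.refl w h1 h2 _ (ih (fun v hv => hl v (List.mem_cons_of_mem _ hv)))

theorem W_reverse_congr {l l' : List V} (hl : N2 L l) (hl' : N2 L l')
    (h : ∀ x, W L l x = W L l' x) (x : V) : W L l.reverse x = W L l'.reverse x := by
  have h1 : W L l' (W L l'.reverse x) = x := W_reverse' hl' x
  rw [← h] at h1
  have h2 := W_reverse (L := L) hl (W L l'.reverse x)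
  rw [h1] at h2
  exact h2

/-- The windmill step. -/
theorem step (hM : WM L 𝓦 M₀ M) (hT : Stp L 𝓦 M S) (hSM : ∀ s ∈ S, s ∉ M) :
    WM L 𝓦 M₀ (Mp L M S) where
  ext := fun x hx => mem_Mp (Or.inl (hM.ext hx))
  sub := fun x hx => Mp_sub hW hT hx
  par := fun w hw w' hw' hp => Mp_par hW hT hw hw' hp
  refl := fun w hw hw' x hx => Mp_refl hW hT hw hw' hx
  far := fun v hv hv' e he e' he' => far_Mp hW hT hv hv' he he'
  gr := by
    intro l hl
    obtain ⟨lS0, lM, hS0, hlM, he0⟩ := decomp hW hT l hl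
    obtain ⟨lS, hS, hch, he1⟩ := reduce hW hT lS0 hS0
    have he : ∀ x, W L l x = W L lS (W L lM x) := fun x => by rw [he0, he1]
    have nl : N2 L l := fun w hw => hW.norm w (hl w hw).2
    have nM : N2 L lM := fun w hw => hW.norm w (hlM w hw).2
    have nS : N2 L lS := SW hW hT hS
    rcases lS with _ | ⟨t, q⟩
    · rcases hM.gr lM hlM with ⟨l₀, h1, h2⟩ | h
      · left
        exact ⟨l₀, h1, fun x => by rw [he, W_nil, h2]⟩
      · right
        intro o ho hoo o' ho' hoo'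
        obtain ⟨w, w1, w2, w3, w4⟩ := h o ho hoo o' ho' hoo'
        refine ⟨w, w1, w2, ?_, ?_⟩
        · rw [W_reverse_congr hW nl nM (fun x => by rw [he, W_nil])]
          exact w3
        · rw [he, W_nil]; exact w4
    · right
      intro o ho hoo o' ho' hoo'
      have ht : t ∈ S := hS t List.mem_cons_self
      have htW : t ∈ 𝓦 := hT.Ssub ht
      have hqS : ∀ x ∈ q, x ∈ S := fun x hx => hS x (List.mem_cons_of_mem _ hx)
      refine ⟨t, htW, fun h => hSM t ht (hM.ext h), ?_, ?_⟩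
      · -- `g⁻¹ t ∉ M₀`
        intro hcon
        have hrev : W L l.reverse t = W L lM.reverse (W L (t :: q).reverse t) := by
          have : W L l.reverse t = W L ((t :: q) ++ lM).reverse t :=
            W_reverse_congr hW nl (nS.append nM) (fun x => by rw [he, W_append]) t
          rw [this, List.reverse_append, W_append]
        have h1 : W L (t :: q).reverse t ∈ M := by
          have h2 := hM.ext hcon
          rw [hrev] at h2
          have h3 := W_invM hW hM hlM h2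
          rwa [W_reverse' nM] at h3
        rw [List.reverse_cons, W_append, W_cons, W_nil, rho_self L (hW.norm t htW), W_neg] at h1
        have hqr : ∀ x ∈ q.reverse, x ∈ S := fun x hx => hqS x (List.mem_reverse.1 hx)
        have h4 : W L q.reverse t ∈ M := by
          apply hM.par _ h1 _ (hW.W_mem (fun w hw => hT.Ssub (hqr w hw)) htW)
          have := Par.neg (-(W L q.reverse t))
          rwa [neg_neg] at this
        rcases hq : q.reverse with _ | ⟨r, q'⟩
        · rw [hq, W_nil] at h4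
          exact hSM t ht h4
        · rw [hq] at h4
          have hr : r ∈ S := hqr r (by rw [hq]; simp)
          have hq' : ∀ x ∈ q', x ∈ S := fun x hx => hqr x (by rw [hq]; simp [hx])
          have hc : List.IsChain (fun x y => ¬ Par x y) (r :: (q' ++ [t])) := by
            have e : r :: (q' ++ [t]) = (t :: q).reverse := by
              rw [List.reverse_cons, hq]; rfl
            rw [e, List.isChain_reverse]
            exact hch.imp (fun x y hxy h => hxy h.symm)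
          obtain ⟨c1, c2, c3⟩ := chain_one hW hT q' r t (by
            intro x hx
            rcases List.mem_cons.1 hx with h | h
            · rw [h]; exact hr
            · exact hq' x h) (Or.inr ht) hc
          have hoM : o ∈ M := hM.ext ho
          have c4 := c1 o (Or.inl hoM) (not_par_point hW hoo (hT.Ssub hr))
          rw [W_cons] at h4
          have c5 := hM.far r (hT.Ssub hr) (hSM r hr) o hoM _ h4
          have nrr : L.h r r = 2 := hW.norm r (hT.Ssub hr)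
          have c6 : ‖L.h (rho L r (W L q' t)) r‖ = ‖L.h (W L q' t) r‖ := by
            rw [h_rho_w L nrr, norm_neg]
          have c7 : 1 ≤ ‖L.h o r‖ := hT.s0 r hr o (Or.inl hoM) (not_par_point hW hoo (hT.Ssub hr))
          unfold D at c4
          rw [le_div_iff₀ (by rw [c6]; positivity)] at c4
          have c8 : 0 < ‖L.h o r‖ * ‖L.h (rho L r (W L q' t)) r‖ := by rw [c6]; positivity
          norm_num at c5
          linarith
      · rw [he]
        have hb : W L lM o' ∈ M := W_invM hW hM hlM (hM.ext ho')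
        have hbb : L.h (W L lM o') (W L lM o') = -1 := by rw [h_W_W nM]; exact hoo'
        have hc : List.IsChain (fun x y => ¬ Par x y) (t :: (q ++ [W L lM o'])) := by
          rw [← List.cons_append, List.isChain_append]
          refine ⟨hch, List.isChain_singleton _, ?_⟩
          intro x hx y hy
          have hxS : x ∈ S := hS x (List.mem_of_mem_getLast? hx)
          have : y = W L lM o' := by simpa using hy.symm
          rw [this]
          exact not_par_point hW hbb (hT.Ssub hxS)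
        obtain ⟨c1, -, -⟩ := chain_one hW hT q t (W L lM o') (by
            intro x hx
            rcases List.mem_cons.1 hx with h | h
            · rw [h]; exact ht
            · exact hqS x h) (Or.inl hb) hc
        exact c1 o (Or.inl (hM.ext ho)) (not_par_point hW hoo htW)

/-! ### Expansion by points -/

omit hW in
/-- Pairings with a point close to `o`. -/
theorem near {x o w : V} (hx : L.h x x = -1) (ho : L.h o o = -1) (hxo : ‖L.h x o‖ ≤ 3 / 2)
    (hw : (L.h w w).re ≤ 2) : ‖L.h x w‖ ≤ 27 / 10 * ‖L.h o w‖ + 8 / 5 := by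
  have pb := point_bound L (a := x) (b := w) ho
  have e1 : (L.h x x).re = -1 := by rw [hx]; simp
  rw [e1, L.norm_symm w o] at pb
  set n := ‖L.h o w‖ with hn
  have hn0 : 0 ≤ n := norm_nonneg _
  have h2 : ‖L.h x w + L.h x o * L.h o w‖ ^ 2 ≤ (8 / 5 + 112 / 100 * n) ^ 2 := by
    refine pb.trans ?_
    have h3 : -1 + ‖L.h x o‖ ^ 2 ≤ 5 / 4 := by nlinarith [norm_nonneg (L.h x o)]
    have h5 := one_le_points L ho hx
    have h4 : 0 ≤ -1 + ‖L.h x o‖ ^ 2 := by nlinarith
    calc (-1 + ‖L.h x o‖ ^ 2) * ((L.h w w).re + n ^ 2)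
        ≤ (-1 + ‖L.h x o‖ ^ 2) * (2 + n ^ 2) := by gcongr
      _ ≤ 5 / 4 * (2 + n ^ 2) := by gcongr
      _ ≤ _ := by nlinarith
  have h3 : ‖L.h x w + L.h x o * L.h o w‖ ≤ 8 / 5 + 112 / 100 * n :=
    abs_le_of_sq_le_sq' h2 (by positivity) |>.2
  have h4 : ‖L.h x w‖ ≤ ‖L.h x w + L.h x o * L.h o w‖ + ‖L.h x o * L.h o w‖ := by
    have := norm_sub_le (L.h x w + L.h x o * L.h o w) (L.h x o * L.h o w)
    simpa using this
  have h5 : ‖L.h x o * L.h o w‖ ≤ 3 / 2 * n := by
    rw [norm_mul]; gcongr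
  linarith

/-- Close to an element of `M`. -/
def Nr (L : Lor V) (x y : V) : Prop :=
  x = y ∨ (L.h x x = -1 ∧ L.h y y = -1 ∧ ‖L.h x y‖ ≤ 3 / 2)

omit hW in
theorem Nr.le {x y w : V} (h : Nr L x y) (hw : (L.h w w).re ≤ 2) :
    ‖L.h x w‖ ≤ 27 / 10 * ‖L.h y w‖ + 8 / 5 := by
  rcases h with rfl | ⟨h1, h2, h3⟩
  · have := norm_nonneg (L.h x w)
    linarith
  · exact near h1 h2 h3 hw

omit hW in
theorem Nr.symm {x y : V} (h : Nr L x y) : Nr L y x := by
  rcases h with rfl | ⟨h1, h2, h3⟩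
  · exact Or.inl rfl
  · exact Or.inr ⟨h2, h1, by rw [L.norm_symm]; exact h3⟩

/-- Expanded set. -/
def Ex (L : Lor V) (M : Set V) : Set V :=
  M ∪ {x | L.h x x = -1 ∧ ∃ o ∈ M, L.h o o = -1 ∧ ‖L.h x o‖ ≤ 3 / 2}

omit hW in
theorem Ex_near {x : V} (hx : x ∈ Ex L M) : ∃ y ∈ M, Nr L x y := by
  rcases hx with h | ⟨h1, o, h2, h3, h4⟩
  · exact ⟨x, h, Or.inl rfl⟩
  · exact ⟨o, h2, Or.inr ⟨h1, h3, h4⟩⟩

theorem expand (hM : WM L 𝓦 M₀ M)
    (hf : ∀ v ∈ 𝓦, v ∉ M → ∀ e ∈ M, ∀ e' ∈ M,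
      (10 : ℝ) ^ 9 * ‖L.h e e'‖ ≤ ‖L.h e v‖ * ‖L.h e' v‖) :
    WM L 𝓦 M₀ (Ex L M) := by
  have re2 : ∀ x ∈ M, (L.h x x).re ≤ 2 := by
    intro x hx
    rcases hM.sub x hx with h | h
    · rw [hW.norm x h]; norm_num
    · rw [h]; norm_num
  have one : ∀ x ∈ M, 1 ≤ ‖L.h x x‖ := by
    intro x hx
    rcases hM.sub x hx with h | h
    · rw [hW.norm x h]; norm_num
    · rw [h]; norm_num
  have re2' : ∀ x ∈ Ex L M, (L.h x x).re ≤ 2 := by
    intro x hx
    rcases hx with h | ⟨h, -⟩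
    · exact re2 x h
    · rw [h]; norm_num
  have memW : ∀ x ∈ Ex L M, x ∈ 𝓦 → x ∈ M := by
    intro x hx hxW
    rcases hx with h | ⟨h, -⟩
    · exact h
    · exact absurd hxW (point_notMem hW h)
  constructor
  · exact fun x hx => Or.inl (hM.ext hx)
  · intro x hx
    rcases hx with h | ⟨h, -⟩
    · exact hM.sub x h
    · exact Or.inr h
  · intro w hw w' hw' hp
    rcases hw with h | ⟨h, -⟩
    · exact Or.inl (hM.par w h w' hw' hp)
    · exact absurd hp.symm (not_par_point hW h hw')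
  · intro w hw hwW x hx
    have hwM := memW w hw hwW
    rcases hx with h | ⟨h, o, h2, h3, h4⟩
    · exact Or.inl (hM.refl w hwM hwW x h)
    · right
      have nw := hW.norm w hwW
      exact ⟨by rw [h_rho_rho L nw, h], rho L w o, hM.refl w hwM hwW o h2,
        by rw [h_rho_rho L nw, h3], by rw [h_rho_rho L nw]; exact h4⟩
  · intro v hv hvM e he e' he'
    have hvM' : v ∉ M := fun h => hvM (Or.inl h)
    obtain ⟨y, hy, hey⟩ := Ex_near he
    obtain ⟨y', hy', hey'⟩ := Ex_near he'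
    have nv : (L.h v v).re ≤ 2 := by rw [hW.norm v hv]; norm_num
    have f := hf v hv hvM' y hy y' hy'
    have f1 := hf v hv hvM' y hy y hy
    have f2 := hf v hv hvM' y' hy' y' hy'
    have big : ∀ z ∈ M, (10 : ℝ) ^ 9 * ‖L.h z z‖ ≤ ‖L.h z v‖ * ‖L.h z v‖ →
        (10 : ℝ) ^ 4 ≤ ‖L.h z v‖ := by
      intro z hz hf
      have h1 := one z hz
      by_contra hcon
      push Not at hcon
      have h3 : (10 : ℝ) ^ 9 * 1 ≤ (10 : ℝ) ^ 9 * ‖L.h z z‖ := by gcongr
      have := norm_nonneg (L.h z v)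
      norm_num at h3 hcon hf
      nlinarith
    have b1 := big y hy f1
    have b2 := big y' hy' f2
    have l1 := (hey.symm).le (w := v) nv
    have l2 := (hey'.symm).le (w := v) nv
    have l1' : ‖L.h y v‖ / 3 ≤ ‖L.h e v‖ := by norm_num at b1; linarith
    have l2' : ‖L.h y' v‖ / 3 ≤ ‖L.h e' v‖ := by norm_num at b2; linarith
    have u1 := hey.le (w := e') (re2' e' he')
    have u2 := hey'.le (w := y) (re2 y hy)
    rw [L.norm_symm e' y, L.norm_symm y' y] at u2
    have hP : (‖L.h y v‖ / 3) * (‖L.h y' v‖ / 3) ≤ ‖L.h e v‖ * ‖L.h e' v‖ := by gcongr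
    have hP2 : (10 : ℝ) ^ 4 * (10 : ℝ) ^ 4 ≤ ‖L.h y v‖ * ‖L.h y' v‖ := by gcongr
    have h0 := norm_nonneg (L.h y y')
    norm_num at f hP2 ⊢
    nlinarith
  · intro l hl
    exact hM.gr l (fun w hw => ⟨memW w (hl w hw).1 (hl w hw).2, (hl w hw).2⟩)

omit hW in
/-- Moving a point towards a mirror. -/
theorem move {o v : V} (ho : L.h o o = -1) (hv : L.h v v = 2)
    (ha : (100 : ℝ) ≤ ‖L.h o v‖ ^ 2) :
    ∃ x, L.h x x = -1 ∧ ‖L.h x o‖ ≤ 3 / 2 ∧ ‖L.h x v‖ ^ 2 ≤ ‖L.h o v‖ ^ 2 / 4 := by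
  set β := L.h o v with hβ
  set a := ‖β‖ ^ 2 with haa
  have ha0 : (0 : ℝ) < a := by linarith
  have hac : (a : ℂ) ≠ 0 := by exact_mod_cast ha0.ne'
  have hββ : β * conj β = (a : ℂ) := by
    rw [Complex.mul_conj, Complex.normSq_eq_norm_sq]
  have hvo : L.h v o = conj β := by rw [hβ, ← L.symm]
  set c : ℂ := ((2 / a : ℝ) : ℂ) * β with hc
  set y : V := o - c • v with hy
  have h1 : L.h y v = β * ((1 - 4 / a : ℝ) : ℂ) := by
    rw [hy, L.sub_left, L.smul_left, hv, ← hβ, hc]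
    push_cast
    field_simp
    ring
  have h2 : L.h y o = -3 := by
    rw [hy, L.sub_left, L.smul_left, ho, hvo, hc]
    have : ((2 / a : ℝ) : ℂ) * β * conj β = 2 := by
      rw [mul_assoc, hββ]; push_cast; field_simp
    rw [this]; norm_num
  have h3 : L.h y y = ((-(5 - 8 / a) : ℝ) : ℂ) := by
    have e : L.h y y = L.h y o - conj c * L.h y v := by
      conv_lhs => rw [hy]
      rw [← hy, L.sub_right, L.smul_right]
    rw [e, h2, h1, hc]
    have e2 : conj (((2 / a : ℝ) : ℂ) * β) * (β * ((1 - 4 / a : ℝ) : ℂ))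
        = ((2 / a : ℝ) : ℂ) * ((1 - 4 / a : ℝ) : ℂ) * (β * conj β) := by
      rw [map_mul, Complex.conj_ofReal]; ring
    rw [e2, hββ]
    push_cast
    field_simp
    ring
  set N := Real.sqrt (5 - 8 / a) with hN
  have h8 : 8 / a ≤ 8 / 100 := by gcongr
  have hNp : 0 < 5 - 8 / a := by linarith
  have hN2 : N ^ 2 = 5 - 8 / a := Real.sq_sqrt hNp.le
  have hNge : 2 ≤ N := by
    apply Real.le_sqrt_of_sq_le
    linarith
  have hN0 : 0 < N := by linarith
  have hNc : (N : ℂ) ≠ 0 := by exact_mod_cast hN0.ne'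
  refine ⟨((N⁻¹ : ℝ) : ℂ) • y, ?_, ?_, ?_⟩
  · rw [L.smul_left, L.smul_right, h3, Complex.conj_ofReal, ← hN2]
    push_cast
    field_simp
  · rw [L.smul_left, h2, norm_mul, Complex.norm_real, Real.norm_eq_abs, abs_of_pos (by positivity)]
    rw [norm_neg]
    have : ‖(3 : ℂ)‖ = 3 := by simp
    rw [this]
    have : N⁻¹ ≤ 2⁻¹ := by gcongr
    linarith
  · rw [L.smul_left, h1, norm_mul, norm_mul, Complex.norm_real, Complex.norm_real,
      Real.norm_eq_abs, Real.norm_eq_abs, abs_of_pos (by positivity : 0 < N⁻¹), mul_pow, mul_pow,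
      ← haa, sq_abs]
    have h4 : (N⁻¹) ^ 2 ≤ (2⁻¹) ^ 2 := by gcongr
    have h5 : 0 < 4 / a := by positivity
    have h6 : 4 / a ≤ 4 / 100 := by gcongr
    have h7 : (1 - 4 / a) ^ 2 ≤ 1 := by nlinarith
    have h9 : 0 ≤ (1 - 4 / a) ^ 2 := by positivity
    calc (N⁻¹) ^ 2 * (a * (1 - 4 / a) ^ 2) ≤ (2⁻¹) ^ 2 * (a * 1) := by gcongr
      _ = a / 4 := by ring

/-- A set closed under expansion and far from an outer mirror contains no point. -/
theorem descend {v : V} (hv : v ∈ 𝓦)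
    (hf : ∀ o ∈ M, L.h o o = -1 → (100 : ℝ) ≤ ‖L.h o v‖ ^ 2)
    (hE : ∀ o ∈ M, L.h o o = -1 → ∀ x, L.h x x = -1 → ‖L.h x o‖ ≤ 3 / 2 → x ∈ M)
    {o : V} (ho : o ∈ M) (hoo : L.h o o = -1) : False := by
  set T : Set ℝ := {r | ∃ o ∈ M, L.h o o = -1 ∧ r = ‖L.h o v‖ ^ 2} with hT
  have hne : T.Nonempty := ⟨_, o, ho, hoo, rfl⟩
  have hbdd : BddBelow T := ⟨100, by rintro r ⟨p, hp, hpp, rfl⟩; exact hf p hp hpp⟩
  have h100 : 100 ≤ sInf T := le_csInf hne (by rintro r ⟨p, hp, hpp, rfl⟩; exact hf p hp hpp)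
  obtain ⟨r, hr, hr2⟩ := exists_lt_of_csInf_lt hne (show sInf T < 2 * sInf T by linarith)
  obtain ⟨p, hp, hpp, rfl⟩ := hr
  obtain ⟨x, hx1, hx2, hx3⟩ := move hpp (hW.norm v hv) (hf p hp hpp)
  have hxM := hE p hp hpp x hx1 hx2
  have := csInf_le hbdd (show ‖L.h x v‖ ^ 2 ∈ T from ⟨x, hxM, hx1, rfl⟩)
  linarith

/-! ### The set of close outer mirrors -/

/-- Close outer mirrors. -/
def Cl (L : Lor V) (𝓦 M : Set V) : Set V :=
  {v | v ∈ 𝓦 ∧ v ∉ M ∧ ∃ e1 ∈ M, ∃ e2 ∈ M,
    ‖L.h e1 v‖ * ‖L.h e2 v‖ < (10 : ℝ) ^ 9 * ‖L.h e1 e2‖}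

omit hW in
theorem ne_of {c : ℝ} {z : ℂ} (hc0 : 0 < c) (hz : c ≤ ‖z‖) : z ≠ 0 := by
  intro h0
  rw [h0, norm_zero] at hz
  linarith

section facts

variable (hM : WM L 𝓦 M₀ M)

include hM

theorem M_cases {e : V} (he : e ∈ M) : 1 ≤ ‖L.h e e‖ ∧ |(L.h e e).re| ≤ 2 := by
  rcases hM.sub e he with h | h
  · rw [hW.norm e h]; norm_num
  · rw [h]; norm_num

theorem out_big {v e : V} (hv : v ∈ 𝓦) (hvM : v ∉ M) (he : e ∈ M) : 100 ≤ ‖L.h e v‖ := by
  have h1 := hM.far v hv hvM e he e he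
  have h2 := (M_cases hW hM he).1
  by_contra hcon
  push Not at hcon
  have h3 : (10 : ℝ) ^ 4 * 1 ≤ (10 : ℝ) ^ 4 * ‖L.h e e‖ := by gcongr
  have := norm_nonneg (L.h e v)
  norm_num at h3 h1
  nlinarith

theorem out_par {v e : V} (hv : v ∈ 𝓦) (hvM : v ∉ M) (he : e ∈ M) : ¬ Par v e := by
  intro h
  apply hvM
  exact hM.par e he v hv h.symm

theorem out_sm {v e : V} (hv : v ∈ 𝓦) (hvM : v ∉ M) (he : e ∈ M) :
    (L.h e e).re ≤ 1 / 10 ^ 15 * ‖L.h e v‖ ^ 2 := by
  rcases hM.sub e he with h | h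
  · rcases hW.sep v hv e h with h' | h'
    · exact absurd h' (out_par hW hM hv hvM he)
    · rw [hW.norm e h]
      rw [L.norm_symm v e] at h'
      have : ((10 : ℝ) ^ 10) ^ 2 ≤ ‖L.h e v‖ ^ 2 := by gcongr
      norm_num at this ⊢
      linarith
  · rw [h]
    have : 0 ≤ ‖L.h e v‖ ^ 2 := by positivity
    norm_num
    linarith

theorem out_mid {v e : V} (hv : v ∈ 𝓦) (hvM : v ∉ M) (he : e ∈ M) :
    |(L.h e e).re| ≤ 1 / 10 ^ 4 * ‖L.h e v‖ ^ 2 := by
  have h1 := hM.far v hv hvM e he e he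
  have h2 := Complex.abs_re_le_norm (L.h e e)
  norm_num at h1 ⊢
  nlinarith

theorem out_D {v e e' : V} (hv : v ∈ 𝓦) (hvM : v ∉ M) (he : e ∈ M) (he' : e' ∈ M) :
    D L v e e' ≤ 1 / 10 ^ 4 := by
  have h1 := hM.far v hv hvM e he e' he'
  have h2 := out_big hW hM hv hvM he
  have h3 := out_big hW hM hv hvM he'
  unfold D
  rw [div_le_iff₀ (by positivity)]
  norm_num at h1 ⊢
  linarith

omit hM in
theorem mir_sm {u v : V} (hu : u ∈ 𝓦) (h : (10 : ℝ) ^ 10 ≤ ‖L.h u v‖) :
    |(L.h u u).re| ≤ 1 / 10 ^ 15 * ‖L.h u v‖ ^ 2 := by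
  rw [hW.norm u hu]
  have : ((10 : ℝ) ^ 10) ^ 2 ≤ ‖L.h u v‖ ^ 2 := by gcongr
  norm_num at this ⊢
  linarith

omit hM in
theorem sep' {u v : V} (hu : u ∈ 𝓦) (hv : v ∈ 𝓦) (hp : ¬ Par u v) :
    (10 : ℝ) ^ 10 ≤ ‖L.h u v‖ := by
  rcases hW.sep u hu v hv with h | h
  · exact absurd h hp
  · exact h

/-- Common part of Claims 1 and 3: a mirror `s` with witnesses `e1`, `e2`, seen from a second
mirror `u` (not parallel): `D u s e` cannot be large for `e ∈ M`. -/
theorem claim {u s e1 e2 e : V} {γ β : ℝ} (hu : u ∈ 𝓦) (huM : u ∉ M) (hs : s ∈ 𝓦)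
    (hsM : s ∉ M) (hp : ¬ Par u s) (he1 : e1 ∈ M) (he2 : e2 ∈ M)
    (hwit : 1 / 10 ^ 9 ≤ D L s e1 e2) (he : e ∈ M) (hγ : γ ≤ 1 / 10 ^ 4)
    (hD : ∀ x ∈ M, D L u e x ≤ γ) (hmid : ∀ x ∈ M, |(L.h x x).re| ≤ γ * ‖L.h x u‖ ^ 2)
    (hβ : β ≤ 1) (hβ0 : 1 / 10 ^ 8 ≤ β) (hγβ : 15 / 2 * γ + 1 / 10 ^ 10 ≤ β / 6) :
    D L u s e ≤ β := by
  by_contra hcon
  push Not at hcon
  have nu := hW.norm u hu
  have ns := hW.norm s hs
  have hsu : (10 : ℝ) ^ 10 ≤ ‖L.h s u‖ := by
    rw [L.norm_symm]; exact sep' hW hu hs hp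
  have hus : (10 : ℝ) ^ 10 ≤ ‖L.h u s‖ := sep' hW hu hs hp
  have key : ∀ x ∈ M, D L s x u ≤ 1 / 10 ^ 11 := by
    intro x hx
    have h1 := ql L (u := u) (x := s) (y := x) (z := e) (sx := 1 / 10 ^ 15) (sy := γ)
      (sz := 1 / 10 ^ 15) (β := β) nu
      (ne_of (by norm_num) hsu) (ne_of (by norm_num) (out_big hW hM hu huM hx))
      (ne_of (by norm_num) (out_big hW hM hu huM he))
      (hmid x hx) (hγ.trans (by norm_num))
      ((le_abs_self _).trans (mir_sm hW hs hsu)) (out_sm hW hM hu huM he)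
      (hβ.trans (by norm_num)) (by linarith [hD x hx])
      (by have := hD x hx; norm_num at hγβ ⊢; linarith) hcon.le
    have h2 := ident L (u := u) (v := s) (x := x) (ne_of (by norm_num) hus)
      (ne_of (by norm_num) (out_big hW hM hu huM hx))
      (ne_of (by norm_num) (out_big hW hM hs hsM hx))
    have h3 : 1 / ‖L.h u s‖ ^ 2 ≤ 1 / ((10 : ℝ) ^ 10) ^ 2 := by gcongr
    have h4 : 0 ≤ D L s u x := D_nonneg L _ _ _
    have h5 : 1 / 10 ^ 9 ≤ D L u s x := by
      norm_num at hβ0 ⊢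
      linarith
    have h6 : 1 / 10 ^ 9 * D L s u x ≤ 1 / ‖L.h u s‖ ^ 2 := by
      rw [← h2]; gcongr
    rw [D_symm]
    norm_num at h6 h3 ⊢
    linarith
  have h7 := qm L (u := s) (x := e1) (y := u) (z := e2) (sx := 1 / 10 ^ 15)
    (sy := 1 / 10 ^ 15) (sz := 1 / 10 ^ 15) ns
    (ne_of (by norm_num) (out_big hW hM hs hsM he1)) (ne_of (by norm_num) hus)
    (ne_of (by norm_num) (out_big hW hM hs hsM he2)) (mir_sm hW hu hus) (by norm_num)
    (out_sm hW hM hs hsM he1) (out_sm hW hM hs hsM he2)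
    ((key e1 he1).trans (by norm_num)) ((key e2 he2).trans (by norm_num))
  have k1 := key e1 he1
  have k2 := key e2 he2
  norm_num at h7 k1 k2 hwit
  linarith

theorem wit {s : V} (hs : s ∈ Cl L 𝓦 M) : ∃ e1 ∈ M, ∃ e2 ∈ M, 1 / 10 ^ 9 ≤ D L s e1 e2 := by
  obtain ⟨h1, h2, e1, he1, e2, he2, h⟩ := hs
  refine ⟨e1, he1, e2, he2, ?_⟩
  have b1 := out_big hW hM h1 h2 he1
  have b2 := out_big hW hM h1 h2 he2
  unfold D
  rw [le_div_iff₀ (by positivity)]
  norm_num at h ⊢
  linarith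

/-- Claim 1. -/
theorem claim1 {s s' e : V} (hs : s ∈ Cl L 𝓦 M) (hs' : s' ∈ Cl L 𝓦 M) (hp : ¬ Par s s')
    (he : e ∈ M) : D L s s' e ≤ 1 / 100 := by
  obtain ⟨e1, he1, e2, he2, hw⟩ := wit hW hM hs'
  exact claim hW hM (γ := 1 / 10 ^ 4) hs.1 hs.2.1 hs'.1 hs'.2.1 hp he1 he2 hw he le_rfl
    (fun x hx => out_D hW hM hs.1 hs.2.1 he hx) (fun x hx => out_mid hW hM hs.1 hs.2.1 hx)
    (by norm_num) (by norm_num) (by norm_num)

theorem far_D {v e e' : V} (hv : v ∈ 𝓦) (hvM : v ∉ M) (hvS : v ∉ Cl L 𝓦 M) (he : e ∈ M)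
    (he' : e' ∈ M) : (10 : ℝ) ^ 9 * ‖L.h e e'‖ ≤ ‖L.h e v‖ * ‖L.h e' v‖ := by
  by_contra hcon
  push Not at hcon
  exact hvS ⟨hv, hvM, e, he, e', he', hcon⟩

/-- Claim 3. -/
theorem claim3 {v s e : V} (hv : v ∈ 𝓦) (hvM : v ∉ M) (hvS : v ∉ Cl L 𝓦 M)
    (hs : s ∈ Cl L 𝓦 M) (hp : ¬ Par v s) (he : e ∈ M) : D L v s e ≤ 5 / 10 ^ 8 := by
  obtain ⟨e1, he1, e2, he2, hw⟩ := wit hW hM hs
  refine claim hW hM (γ := 1 / 10 ^ 9) hv hvM hs.1 hs.2.1 hp he1 he2 hw he (by norm_num)
    (fun x hx => ?_) (fun x hx => ?_) (by norm_num) (by norm_num) (by norm_num)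
  · have h1 := far_D hW hM hv hvM hvS he hx
    have b1 := out_big hW hM hv hvM he
    have b2 := out_big hW hM hv hvM hx
    unfold D
    rw [div_le_iff₀ (by positivity)]
    norm_num at h1 ⊢
    linarith
  · have h1 := far_D hW hM hv hvM hvS hx hx
    have h2 := Complex.abs_re_le_norm (L.h x x)
    norm_num at h1 ⊢
    nlinarith

theorem stp_Cl : Stp L 𝓦 M (Cl L 𝓦 M) := by
  have parS : ∀ s ∈ Cl L 𝓦 M, ∀ w' ∈ 𝓦, Par s w' → w' ∈ Cl L 𝓦 M := by
    rintro s ⟨h1, h2, e1, he1, e2, he2, h⟩ w' hw' hp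
    refine ⟨hw', fun h' => h2 (hM.par w' h' s h1 hp.symm), e1, he1, e2, he2, ?_⟩
    rw [hp.norm_right, hp.norm_right]
    exact h
  constructor
  · exact hM.sub
  · exact hM.par
  · exact hM.refl
  · exact fun s hs => hs.1
  · exact parS
  · rintro w hw hwW s ⟨h1, h2, e1, he1, e2, he2, h⟩
    have nw := hW.norm w hwW
    refine ⟨hW.refl w hwW s h1, ?_, rho L w e1, hM.refl w hw hwW e1 he1, rho L w e2,
      hM.refl w hw hwW e2 he2, ?_⟩
    · intro h'
      apply h2
      have := hM.refl w hw hwW _ h'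
      rwa [rho_rho L nw] at this
    · rw [h_rho_rho L nw, h_rho_rho L nw, h_rho_rho L nw]
      exact h
  · intro s hs e he hp
    rcases he with he | he
    · have := out_big hW hM hs.1 hs.2.1 he
      linarith
    · have := sep' hW hs.1 he.1 hp
      rw [L.norm_symm]
      refine le_trans ?_ this
      norm_num
  · intro s hs e he e' he' hpe hpe'
    have ns := hW.norm s hs.1
    have big : ∀ x ∈ M ∪ Cl L 𝓦 M, ¬ Par s x → 1 ≤ ‖L.h x s‖ := by
      intro x hx hp
      rcases hx with hx | hx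
      · have := out_big hW hM hs.1 hs.2.1 hx
        linarith
      · have := sep' hW hs.1 hx.1 hp
        rw [L.norm_symm]
        refine le_trans ?_ this
        norm_num
    have hD : D L s e e' ≤ 1 / 2 := by
      rcases he with he | he <;> rcases he' with he' | he'
      · exact (out_D hW hM hs.1 hs.2.1 he he').trans (by norm_num)
      · rw [D_symm]
        exact (claim1 hW hM hs he' hpe' he).trans (by norm_num)
      · exact (claim1 hW hM hs he hpe he').trans (by norm_num)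
      · obtain ⟨e1, he1, -⟩ := wit hW hM hs
        have c1 := claim1 hW hM hs he hpe he1
        have c2 := claim1 hW hM hs he' hpe' he1
        have s1 : (10 : ℝ) ^ 10 ≤ ‖L.h e s‖ := by
          rw [L.norm_symm]; exact sep' hW hs.1 he.1 hpe
        have s2 : (10 : ℝ) ^ 10 ≤ ‖L.h e' s‖ := by
          rw [L.norm_symm]; exact sep' hW hs.1 he'.1 hpe'
        have := qm L (u := s) (x := e) (y := e1) (z := e') (sx := 1 / 10 ^ 15)
          (sy := 1 / 10 ^ 4) (sz := 1 / 10 ^ 15) ns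
          (ne_of (by norm_num) s1) (ne_of (by norm_num) (out_big hW hM hs.1 hs.2.1 he1))
          (ne_of (by norm_num) s2) (out_mid hW hM hs.1 hs.2.1 he1) (by norm_num)
          ((le_abs_self _).trans (mir_sm hW he.1 s1))
          ((le_abs_self _).trans (mir_sm hW he'.1 s2))
          (c1.trans (by norm_num)) (c2.trans (by norm_num))
        norm_num at this c1 c2 ⊢
        linarith
    have := D_refl L (s := s) (x := e) (y := e') ns
      (ne_of (by norm_num) (big e he hpe)) (ne_of (by norm_num) (big e' he' hpe'))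
    linarith
  · intro v hv hvM hvS e he e' he'
    have nv := hW.norm v hv
    have notp : ∀ x ∈ Cl L 𝓦 M, ¬ Par v x := fun x hx hp => hvS (parS x hx v hv hp.symm)
    have sv : ∀ x ∈ Cl L 𝓦 M, (10 : ℝ) ^ 10 ≤ ‖L.h x v‖ := by
      intro x hx
      rw [L.norm_symm]; exact sep' hW hv hx.1 (notp x hx)
    have conv : ∀ x y : V, 0 < ‖L.h x v‖ → 0 < ‖L.h y v‖ → D L v x y ≤ 1 / 10 ^ 6 →
        (10 : ℝ) ^ 6 * ‖L.h x y‖ ≤ ‖L.h x v‖ * ‖L.h y v‖ := by
      intro x y hx hy h
      unfold D at h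
      rw [div_le_iff₀ (by positivity)] at h
      norm_num at h ⊢
      linarith
    have posM : ∀ x ∈ M, 0 < ‖L.h x v‖ := fun x hx => by
      have := out_big hW hM hv hvM hx
      linarith
    have posS : ∀ x ∈ Cl L 𝓦 M, 0 < ‖L.h x v‖ := fun x hx =>
      lt_of_lt_of_le (by norm_num) (sv x hx)
    rcases he with he | he <;> rcases he' with he' | he'
    · have := far_D hW hM hv hvM hvS he he'
      have h0 := norm_nonneg (L.h e e')
      norm_num at this ⊢
      linarith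
    · apply conv e e' (posM e he) (posS e' he')
      rw [D_symm]
      exact (claim3 hW hM hv hvM hvS he' (notp e' he') he).trans (by norm_num)
    · apply conv e e' (posS e he) (posM e' he')
      exact (claim3 hW hM hv hvM hvS he (notp e he) he').trans (by norm_num)
    · apply conv e e' (posS e he) (posS e' he')
      obtain ⟨e1, he1, -⟩ := wit hW hM he
      have c1 := claim3 hW hM hv hvM hvS he (notp e he) he1
      have c2 := claim3 hW hM hv hvM hvS he' (notp e' he') he1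
      have hmid : |(L.h e1 e1).re| ≤ 1 / 10 ^ 9 * ‖L.h e1 v‖ ^ 2 := by
        have h1 := far_D hW hM hv hvM hvS he1 he1
        have h2 := Complex.abs_re_le_norm (L.h e1 e1)
        norm_num at h1 ⊢
        nlinarith
      have := qm L (u := v) (x := e) (y := e1) (z := e') (sx := 1 / 10 ^ 15)
        (sy := 1 / 10 ^ 9) (sz := 1 / 10 ^ 15) nv
        (ne_of (by norm_num) (sv e he)) (ne_of (by norm_num) (out_big hW hM hv hvM he1))
        (ne_of (by norm_num) (sv e' he')) hmid (by norm_num)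
        ((le_abs_self _).trans (mir_sm hW he.1 (sv e he)))
        ((le_abs_self _).trans (mir_sm hW he'.1 (sv e' he')))
        (c1.trans (by norm_num)) (c2.trans (by norm_num))
      norm_num at this c1 c2 ⊢
      linarith

end facts

omit hW in
/-- The start. -/
theorem WM.start (sub : ∀ x ∈ M, x ∈ 𝓦 ∨ L.h x x = -1)
    (par : ∀ w ∈ M, ∀ w' ∈ 𝓦, Par w w' → w' ∈ M)
    (refl : ∀ w ∈ M, w ∈ 𝓦 → ∀ x ∈ M, rho L w x ∈ M)
    (far : ∀ v ∈ 𝓦, v ∉ M → ∀ e ∈ M, ∀ e' ∈ M,
      (10 : ℝ) ^ 4 * ‖L.h e e'‖ ≤ ‖L.h e v‖ * ‖L.h e' v‖) : WM L 𝓦 M M :=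
  ⟨le_rfl, sub, par, refl, far, fun l hl => Or.inl ⟨l, hl, fun _ => rfl⟩⟩

/-- **The windmill theorem**, form (GR). -/
theorem gr (h0 : WM L 𝓦 M₀ M₀) (hpt : ∃ o ∈ M₀, L.h o o = -1) (l : List V)
    (hl : ∀ w ∈ l, w ∈ 𝓦) :
    (∃ l₀ : List V, (∀ w ∈ l₀, w ∈ M₀ ∧ w ∈ 𝓦) ∧ ∀ x, W L l x = W L l₀ x) ∨
    ∀ o ∈ M₀, L.h o o = -1 → ∀ o' ∈ M₀, L.h o' o' = -1 →
      ∃ w ∈ 𝓦, w ∉ M₀ ∧ W L l.reverse w ∉ M₀ ∧ 1 / 12 ≤ D L w o (W L l o') := by
  obtain ⟨o, ho, hoo⟩ := hpt
  obtain ⟨M, hM₀M, hmax⟩ := zorn_subset_nonempty {M | WM L 𝓦 M₀ M} (by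
    intro c hc hchain hcne
    have two : ∀ x ∈ ⋃₀ c, ∀ y ∈ ⋃₀ c, ∃ A ∈ c, x ∈ A ∧ y ∈ A := by
      rintro x ⟨A, hA, hx⟩ y ⟨B, hB, hy⟩
      rcases hchain.total hA hB with h | h
      · exact ⟨B, hB, h hx, hy⟩
      · exact ⟨A, hA, hx, h hy⟩
    have fin : ∀ l : List V, (∀ w ∈ l, w ∈ ⋃₀ c ∧ w ∈ 𝓦) →
        ∃ A ∈ c, ∀ w ∈ l, w ∈ A ∧ w ∈ 𝓦 := by
      intro l
      induction l with
      | nil =>
        intro _
        obtain ⟨A, hA⟩ := hcne
        exact ⟨A, hA, by simp⟩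
      | cons w l ih =>
        intro h
        obtain ⟨A, hA, hAl⟩ := ih (fun x hx => h x (List.mem_cons_of_mem _ hx))
        obtain ⟨⟨B, hB, hwB⟩, hwW⟩ := h w List.mem_cons_self
        rcases hchain.total hA hB with h' | h'
        · refine ⟨B, hB, ?_⟩
          intro x hx
          rcases List.mem_cons.1 hx with h1 | h1
          · rw [h1]; exact ⟨hwB, hwW⟩
          · exact ⟨h' (hAl x h1).1, (hAl x h1).2⟩
        · refine ⟨A, hA, ?_⟩
          intro x hx
          rcases List.mem_cons.1 hx with h1 | h1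
          · rw [h1]; exact ⟨h' hwB, hwW⟩
          · exact hAl x h1
    refine ⟨⋃₀ c, ?_, fun s hs => Set.subset_sUnion_of_mem hs⟩
    constructor
    · obtain ⟨A, hA⟩ := hcne
      exact fun x hx => ⟨A, hA, (hc hA).ext hx⟩
    · rintro x ⟨A, hA, hx⟩
      exact (hc hA).sub x hx
    · rintro w ⟨A, hA, hw⟩ w' hw' hp
      exact ⟨A, hA, (hc hA).par w hw w' hw' hp⟩
    · intro w hw hwW x hx
      obtain ⟨A, hA, h1, h2⟩ := two w hw x hx
      exact ⟨A, hA, (hc hA).refl w h1 hwW x h2⟩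
    · intro v hv hvn e he e' he'
      obtain ⟨A, hA, h1, h2⟩ := two e he e' he'
      exact (hc hA).far v hv (fun h => hvn ⟨A, hA, h⟩) e h1 e' h2
    · intro l hl
      obtain ⟨A, hA, h⟩ := fin l hl
      exact (hc hA).gr l h) M₀ h0
  obtain ⟨hM, hmx⟩ := hmax
  have hM' : WM L 𝓦 M₀ M := hM
  -- no close outer mirror
  have hS : Cl L 𝓦 M = ∅ := by
    by_contra hne
    obtain ⟨s, hs⟩ := Set.nonempty_iff_ne_empty.2 hne
    have hst := step hW hM' (stp_Cl hW hM') (fun s hs => hs.2.1)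
    have hle : M ⊆ Mp L M (Cl L 𝓦 M) := fun x hx => mem_Mp (Or.inl hx)
    have := hmx hst hle
    exact hs.2.1 (this (mem_Mp (Or.inr hs)))
  have hfar9 : ∀ v ∈ 𝓦, v ∉ M → ∀ e ∈ M, ∀ e' ∈ M,
      (10 : ℝ) ^ 9 * ‖L.h e e'‖ ≤ ‖L.h e v‖ * ‖L.h e' v‖ := by
    intro v hv hvM e he e' he'
    exact far_D hW hM' hv hvM (by rw [hS]; exact Set.notMem_empty v) he he'
  have hex := expand hW hM' hfar9
  have hEx : Ex L M ⊆ M := hmx hex (fun x hx => Or.inl hx)
  have hall : ∀ v ∈ 𝓦, v ∈ M := by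
    intro v hv
    by_contra hvM
    refine descend (M := M) hW hv ?_ ?_ (hM'.ext ho) hoo
    · intro p hp hpp
      have := out_big hW hM' hv hvM hp
      nlinarith
    · intro p hp hpp x hx hxp
      exact hEx (Or.inr ⟨hx, p, hp, hpp, hxp⟩)
  exact hM'.gr l (fun w hw => ⟨hall w (hl w hw), hl w hw⟩)

end step

end Crest.Agent.R272.LBGR_585
end

-- ▼ part R272/LbFin2_990

/-!
# Row 272, leaf LB-PPFIN, version with mirrors closed under unit scalars (helper990)

Same theorem as `LbFin_990.sep_final`, from helper585's windmill `gr` (mirrors up to unit scalars).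
-/

set_option autoImplicit false

open scoped ComplexConjugate Topology
open Crest.Agent.R272.EBase_641 Crest.Agent.R272.LbPP_990 Crest.Agent.R272.LbSep_990
open Crest.Agent.R272.LbGood_990 Crest.Agent.R272.St2_702
open Crest.Agent.R272.LbFin_990
open Crest.Agent.R272.LBWord_585 (Par W_cons Mp Stp Sys)
open Crest.Agent.R272.LBGR_585 (WM)

namespace Crest.Agent.R272.LbFin2_990

noncomputable section

/-- the system of mirrors, closed under any unit scalars -/
structure WSysP (W : Set (V1 3)) (Λ : ℝ) : Prop where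
  norm : ∀ w ∈ W, hh w w = 2
  stab : ∀ w ∈ W, ∀ w' ∈ W, w' - hh w' w • w ∈ W
  sep : ∀ w ∈ W, ∀ w' ∈ W, (∃ c : ℂ, ‖c‖ = 1 ∧ w' = c • w) ∨ Λ ≤ ‖hh w w'‖
  typ : ∀ w ∈ W, TypeA w ∨ TypeB Λ w

variable {W : Set (V1 3)} {Λ : ℝ}

theorem WSysP.inv (h : WSysP W Λ) {g : UG 3} (hg : g ∈ Subgroup.closure (LbSep_990.refl '' W)) :
    ∀ w ∈ W, g.1 w ∈ W := by
  induction hg using Subgroup.closure_induction_left with
  | one => intro w hw; exact hw
  | mul_left x hx y hy ih =>
    obtain ⟨v, hv, rfl⟩ := hx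
    intro w hw
    show (LbSep_990.refl v).1 (y.1 w) ∈ W
    rw [refl_apply (h.norm v hv)]
    exact h.stab v hv _ (ih w hw)
  | inv_mul_cancel x hx y hy ih =>
    obtain ⟨v, hv, rfl⟩ := hx
    intro w hw
    have e : (LbSep_990.refl v)⁻¹ = LbSep_990.refl v := by
      rw [inv_eq_iff_mul_eq_one]; exact refl_mul_self v
    rw [e]
    show (LbSep_990.refl v).1 (y.1 w) ∈ W
    rw [refl_apply (h.norm v hv)]
    exact h.stab v hv _ (ih w hw)

theorem WSysP.sys (h : WSysP W Λ) (hΛ : (10 : ℝ) ^ 10 ≤ Λ) : Sys (LH 3) W where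
  norm := h.norm
  refl := fun w hw w' hw' => h.stab w hw w' hw'
  sep := fun w hw w' hw' => (h.sep w hw w' hw').imp id fun h1 => hΛ.trans h1

/-- start points -/
def M0 (W : Set (V1 3)) : Set (V1 3) := {x | IsPt x ∧ ∀ s ∈ WA W, 1 ≤ ‖hh x s‖}

theorem typeA_par {w w' : V1 3} (hw : TypeA w) (hp : Par w w') : TypeA w' := by
  obtain ⟨c, hc, rfl⟩ := hp
  have hcc : conj c * c = 1 := by
    rw [mul_comm, Complex.mul_conj, Complex.normSq_eq_norm_sq, hc]; norm_num
  refine ⟨?_, ?_, ?_⟩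
  · rw [hh_smul_left, hh_smul_right, hw.1, ← mul_assoc, mul_comm c, hcc, one_mul]
  · simp [hw.2.1]
  · simp [hw.2.2, hc]

theorem pt_ne {x : V1 3} (hx : IsPt x) (hA : TypeA x) : False := by
  have h1 := hx.2.2
  rw [hA.1] at h1
  norm_num at h1

theorem stp (h : WSysP W Λ) (hΛ : (10 : ℝ) ^ 10 ≤ Λ) : Stp (LH 3) W (M0 W) (WA W) := by
  have hΛ' : (10000000000 : ℝ) ≤ Λ := by norm_num at hΛ; exact hΛ
  have hM : ∀ x ∈ M0 W, x ∉ W := by
    intro x hx hxW
    have h1 := h.norm x hxW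
    rw [hx.1.2.2] at h1
    norm_num at h1
  have ob : ∀ x, x ∈ M0 W ∪ WA W → Obj x := by
    rintro x (hx | hx)
    · exact Or.inl hx.1
    · exact Or.inr hx.2
  have inA : ∀ x, x ∈ M0 W ∪ WA W → TypeA x → x ∈ WA W := by
    rintro x (hx | hx) tx
    · exact (pt_ne hx.1 tx).elim
    · exact hx
  have far : ∀ s ∈ WA W, ∀ x, x ∈ M0 W ∪ WA W → ¬ Par s x → TypeA x → 11 ≤ ‖hh x s‖ := by
    intro s hs x hx hp tx
    rcases h.sep s hs.1 x (inA x hx tx).1 with h3 | h3
    · exact absurd h3 hp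
    · rw [norm_hh_symm] at h3; linarith
  have s0 : ∀ s ∈ WA W, ∀ e ∈ M0 W ∪ WA W, ¬ Par s e → 1 ≤ ‖hh e s‖ := by
    rintro s hs e (he | he) hp
    · exact he.2 s hs
    · have := far s hs e (Or.inr he) hp he.2
      linarith
  refine ⟨fun x hx => Or.inr hx.1.2.2, ?_, ?_, fun x hx => hx.1, ?_, ?_, s0, ?_, ?_⟩
  · rintro w hw w' hw' ⟨c, hc, rfl⟩
    exfalso
    have h1 := h.norm _ hw'
    rw [hh_smul_left, hh_smul_right, hw.1.2.2] at h1
    have h2 : c * conj c = 1 := by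
      rw [Complex.mul_conj, Complex.normSq_eq_norm_sq, hc]; norm_num
    rw [← mul_assoc, h2] at h1
    norm_num at h1
  · intro w hw hwW
    exact absurd hwW (hM w hw)
  · intro s hs w' hw' hp
    exact ⟨hw', typeA_par hs.2 hp⟩
  · intro w hw hwW
    exact absurd hwW (hM w hw)
  · intro s hs e he e' he' hp hp'
    have key := refl_straight hs.2 (ob e he) (ob e' he') (far s hs e he hp) (far s hs e' he' hp')
    have p1 : 0 < ‖hh e s‖ := lt_of_lt_of_le one_pos (s0 s hs e he hp)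
    have p2 : 0 < ‖hh e' s‖ := lt_of_lt_of_le one_pos (s0 s hs e' he' hp')
    have e1 : ‖hh (LBForm_585.rho (LH 3) s e') s‖ = ‖hh e' s‖ := by
      have := LBForm_585.h_rho_w (LH 3) (w := s) hs.2.1 e'
      show ‖(LH 3).h _ _‖ = _
      rw [this, norm_neg]; rfl
    show 1 / 2 ≤ ‖hh e (LBForm_585.rho (LH 3) s e')‖ /
      (‖hh e s‖ * ‖hh (LBForm_585.rho (LH 3) s e') s‖)
    rw [e1, le_div_iff₀ (by positivity)]
    rw [norm_hh_symm e' s] at key
    have key' : ‖hh e s‖ * ‖hh e' s‖ ≤ 2 * ‖hh e (LBForm_585.rho (LH 3) s e')‖ := key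
    linarith
  · intro v hv _ hvA x hx y hy
    have tv : TypeB Λ v := by
      rcases h.typ v hv with h1 | h1
      · exact absurd ⟨hv, h1⟩ hvA
      · exact h1
    have farv : ∀ x, x ∈ M0 W ∪ WA W → TypeA x → Λ ≤ ‖hh x v‖ := by
      intro x hx tx
      rcases h.sep x (inA x hx tx).1 v hv with h3 | h3
      · exact absurd ⟨hv, typeA_par tx h3⟩ hvA
      · exact h3
    have key := typeB_V (by linarith) tv (ob x hx) (ob y hy) (farv x hx) (farv y hy)
    show (10 : ℝ) ^ 6 * ‖hh x y‖ ≤ ‖hh x v‖ * ‖hh y v‖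
    rw [norm_hh_symm y v] at key
    have h1 : (10 : ℝ) ^ 6 * 100 ≤ Λ ^ 2 := by nlinarith
    have h2 := mul_le_mul_of_nonneg_right h1 (norm_nonneg (hh x y))
    linarith

/-- words of reflections as group elements -/
theorem exists_word {S : Set (V1 3)} (hS : ∀ w ∈ S, hh w w = 2) {g : UG 3}
    (hg : g ∈ Subgroup.closure (LbSep_990.refl '' S)) :
    ∃ l : List (V1 3), (∀ w ∈ l, w ∈ S) ∧ ∀ x, LBWord_585.W (LH 3) l x = g.1 x := by
  induction hg using Subgroup.closure_induction_left with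
  | one => exact ⟨[], by simp, fun x => rfl⟩
  | mul_left x hx y hy ih =>
    obtain ⟨v, hv, rfl⟩ := hx
    obtain ⟨l, hl, he⟩ := ih
    refine ⟨v :: l, ?_, fun x => ?_⟩
    · intro w hw
      rcases List.mem_cons.1 hw with rfl | hw
      · exact hv
      · exact hl w hw
    · show _ = (LbSep_990.refl v).1 (y.1 x)
      rw [refl_apply (hS v hv), W_cons, he]
      rfl
  | inv_mul_cancel x hx y hy ih =>
    obtain ⟨v, hv, rfl⟩ := hx
    obtain ⟨l, hl, he⟩ := ih
    have e : (LbSep_990.refl v)⁻¹ = LbSep_990.refl v := by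
      rw [inv_eq_iff_mul_eq_one]; exact refl_mul_self v
    refine ⟨v :: l, ?_, fun x => ?_⟩
    · intro w hw
      rcases List.mem_cons.1 hw with rfl | hw
      · exact hv
      · exact hl w hw
    · rw [e]
      show _ = (LbSep_990.refl v).1 (y.1 x)
      rw [refl_apply (hS v hv), W_cons, he]
      rfl

/-- a word in `S` is a group element of the closure -/
theorem word_mem {S : Set (V1 3)} (hS : ∀ w ∈ S, hh w w = 2) (l : List (V1 3))
    (hl : ∀ w ∈ l, w ∈ S) : ∃ g ∈ Subgroup.closure (LbSep_990.refl '' S),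
      ∀ x, LBWord_585.W (LH 3) l x = g.1 x := by
  induction l with
  | nil => exact ⟨1, one_mem _, fun x => rfl⟩
  | cons v l ih =>
    obtain ⟨g, hg, he⟩ := ih (fun w hw => hl w (List.mem_cons_of_mem _ hw))
    have hv : v ∈ S := hl v (by simp)
    refine ⟨LbSep_990.refl v * g, mul_mem (Subgroup.subset_closure ⟨v, hv, rfl⟩) hg, fun x => ?_⟩
    show _ = (LbSep_990.refl v).1 (g.1 x)
    rw [refl_apply (hS v hv), W_cons, he]
    rfl

/-- **separation theorem, final form, mirrors closed under unit scalars.** -/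
theorem sep_final' (h : WSysP W Λ) (hΛ : (10 : ℝ) ^ 10 ≤ Λ) {r C : ℝ} (hr : 0 ≤ r)
    (hC : 16512 < C) (hCΛ : 6 * C ≤ Λ ^ 2) (hrΛ : 9 * (1 + r) ^ 2 < Λ - 1) {g : UG 3}
    (hg : g ∈ Subgroup.closure (LbSep_990.refl '' W)) {x y : V1 3} (hx : GoodW W r C Λ x)
    (hy : GoodW W r C Λ y) (hxy : ‖hh x (g.1 y)‖ ≤ 2) :
    g = 1 ∨ ∃ w ∈ W, TypeA w ∧ g = LbSep_990.refl w := by
  have hΛ' : (10000000000 : ℝ) ≤ Λ := by norm_num at hΛ; exact hΛ
  -- the system of all unit multiples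
  set W1 : Set (V1 3) := {w1 | ∃ u : ℂ, ‖u‖ = 1 ∧ ∃ w ∈ W, w1 = u • w} with hW1
  have hWW1 : ∀ w ∈ W, w ∈ W1 := fun w hw => ⟨1, by simp, w, hw, by simp⟩
  have nrm : ∀ {u : ℂ}, ‖u‖ = 1 → ∀ w : V1 3, hh (u • w) (u • w) = hh w w := by
    intro u hu w
    have huu : conj u * u = 1 := by
      rw [mul_comm, Complex.mul_conj, Complex.normSq_eq_norm_sq, hu]; norm_num
    rw [hh_smul_left, hh_smul_right, ← mul_assoc, mul_comm u, huu, one_mul]
  have good : ∀ x, GoodW W r C Λ x → Good hh (sp ea) (sp eb) W1 r C Λ x := by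
    intro x hx
    refine ⟨hx.norm, ?_, ?_⟩
    · rw [hh_eb, hh_ea]; exact hx.slope
    · rintro w1 ⟨u, hu, w, hw, rfl⟩ hP
      rw [P2_eq3] at hP
      have e0 : ‖(u • w).1 0‖ = ‖w.1 0‖ := by simp [hu]
      have e1 : ‖(u • w).1 1‖ = ‖w.1 1‖ := by simp [hu]
      rw [e0, e1] at hP
      have h1 := hx.cap w hw ⟨h.norm w hw, hP⟩
      rw [P2_eq3, P2_eq3, e0, e1, hh_smul_right, norm_mul, Complex.norm_conj, hu, one_mul]
      exact h1
  have hgi : g⁻¹ ∈ Subgroup.closure (LbSep_990.refl '' W) := inv_mem hg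
  have key := pp_ball (n := 3) (W := W1) (e0 := sp ea) (e1 := sp eb) h00 h11 h01
    (r := r) (C := C) (Λ := Λ) (T := 1) (c := 1 / 12) ?_ ?_ hr (by norm_num) (by norm_num)
    (by norm_num) (by norm_num; exact hC) (by linarith) hrΛ (by norm_num; linarith)
    (by linarith) (g := g) ?_ (good x hx) (good y hy) hxy
  · rcases key with h1 | ⟨w1, ⟨u, hu, w, hw, rfl⟩, tw, h2⟩
    · exact Or.inl h1
    · right
      refine ⟨w, hw, ⟨h.norm w hw, ?_, ?_⟩, ?_⟩
      · have := tw.w0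
        rw [hh_ea] at this
        have hu0 : u ≠ 0 := by
          intro h0; rw [h0, norm_zero] at hu; norm_num at hu
        simpa [hu0] using this
      · have := tw.w1
        rw [hh_eb] at this
        have h3 : ‖(u • w).1 1‖ = 1 := by rw [this, norm_one]
        simpa [hu] using h3
      · rw [h2, refl_smul hu]
  · rintro w1 ⟨u, hu, w, hw, rfl⟩
    rw [nrm hu, h.norm w hw]
  · rintro w1 ⟨u, hu, w, hw, rfl⟩ w1' ⟨u', hu', w', hw', rfl⟩
    have hu0 : u ≠ 0 := by
      intro h0; rw [h0, norm_zero] at hu; norm_num at hu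
    rcases h.sep w hw w' hw' with ⟨c, _, h1⟩ | h1
    · left
      refine ⟨u' * c / u, ?_⟩
      rw [h1, smul_smul, smul_smul, div_mul_cancel₀ _ hu0]
    · right
      rw [hh_smul_left, hh_smul_right, norm_mul, norm_mul, Complex.norm_conj, hu, hu']
      simpa using h1
  · intro hg1 o o' ho ho'
    have conjA : ∀ w, w ∈ WA W → ‖conj (w.1 1)‖ = 1 ∧ conj (w.1 1) • w ∈ W1 ∧
        TA hh (sp ea) (sp eb) (conj (w.1 1) • w) := by
      rintro w ⟨hw, tw⟩
      have hu : ‖conj (w.1 1)‖ = 1 := by rw [Complex.norm_conj, tw.2.2]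
      refine ⟨hu, ⟨_, hu, w, hw, rfl⟩, ⟨by rw [nrm hu, h.norm w hw], ?_, ?_⟩⟩
      · rw [hh_ea]; simp [tw.2.1]
      · rw [hh_eb]
        have : conj (w.1 1) * w.1 1 = 1 := by
          rw [mul_comm, Complex.mul_conj, Complex.normSq_eq_norm_sq, tw.2.2]; norm_num
        simpa using this
    have hgA : g ∉ Subgroup.closure (LbSep_990.refl '' WA W) := by
      intro hcon
      apply hg1
      refine (Subgroup.closure_le _).2 ?_ hcon
      rintro _ ⟨w, hw, rfl⟩
      obtain ⟨hu, h1, h2⟩ := conjA w hw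
      rw [← refl_smul hu w]
      exact Subgroup.subset_closure ⟨_, ⟨h1, h2⟩, rfl⟩
    have pt : ∀ o, Start hh (sp ea) (sp eb) W1 1 o → o ∈ M0 W := by
      intro o ho
      refine ⟨⟨?_, ?_, ho.norm⟩, ?_⟩
      · have := ho.o0; rwa [hh_ea] at this
      · have := ho.o1; rwa [hh_eb] at this
      · intro s hs
        obtain ⟨hu, h1, h2⟩ := conjA s hs
        have h3 := ho.far _ h1 h2
        rwa [hh_smul_right, norm_mul, Complex.norm_conj, hu, one_mul] at h3
    have hS := h.sys hΛ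
    have hT := stp h hΛ
    have hn2 : ∀ w ∈ WA W, hh w w = 2 := fun w hw => h.norm w hw.1
    have hwm : WM (LH 3) W (Mp (LH 3) (M0 W) (WA W)) (Mp (LH 3) (M0 W) (WA W)) :=
      WM.start (fun x hx => LBWord_585.Mp_sub hS hT hx)
        (fun w hw w' hw' hp => LBWord_585.Mp_par hS hT hw hw' hp)
        (fun w hw hw' x hx => LBWord_585.Mp_refl hS hT hw hw' hx)
        (fun v hv hv' e he e' he' => LBWord_585.far_Mp hS hT hv hv' he he')
    obtain ⟨l, hl, hle⟩ := exists_word h.norm hg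
    have hpt : ∃ o ∈ Mp (LH 3) (M0 W) (WA W), (LH 3).h o o = -1 :=
      ⟨o, LBWord_585.mem_Mp (Or.inl (pt o ho)), ho.norm⟩
    rcases LBGR_585.gr hS hwm hpt l hl with ⟨l0, hl0, he0⟩ | hall
    · -- the word lies in the group of type A
      exfalso
      apply hgA
      have hletters : ∀ w ∈ l0, LbSep_990.refl w ∈ Subgroup.closure (LbSep_990.refl '' WA W) := by
        intro w hw
        obtain ⟨⟨p, hp, a, ha, rfl⟩, hwW⟩ := hl0 w hw
        obtain ⟨k, hk, hke⟩ := word_mem hn2 p hp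
        have haA : a ∈ WA W := by
          rcases ha with ha | ha
          · exfalso
            have h1 := h.norm _ hwW
            rw [hke, UG_hh, ha.1.2.2] at h1
            norm_num at h1
          · exact ha
        rw [hke, refl_conj]
        exact mul_mem (mul_mem hk (Subgroup.subset_closure ⟨a, haA, rfl⟩)) (inv_mem hk)
      have hl0n : ∀ w ∈ l0, hh w w = 2 := fun w hw => h.norm w (hl0 w hw).2
      obtain ⟨g0, hg0, hge⟩ := word_mem (S := {w | w ∈ l0}) hl0n l0 (fun w hw => hw)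
      have hgg : g = g0 := by
        apply Subtype.ext
        apply LinearEquiv.ext
        intro x
        rw [← hle, he0, hge]
      rw [hgg]
      refine (Subgroup.closure_le _).2 ?_ hg0
      rintro _ ⟨w, hw, rfl⟩
      exact hletters w hw
    · obtain ⟨w, hw, hw1, hw2, hD⟩ := hall o (LBWord_585.mem_Mp (Or.inl (pt o ho))) ho.norm o'
        (LBWord_585.mem_Mp (Or.inl (pt o' ho'))) ho'.norm
      have hrev : LBWord_585.W (LH 3) l.reverse w = (g⁻¹).1 w := by
        have h1 : g.1 (LBWord_585.W (LH 3) l.reverse w) = w := by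
          rw [← hle]
          exact LBWord_585.W_reverse' (L := LH 3) (fun v hv => h.norm v (hl v hv)) w
        have h2 : (g⁻¹).1 (g.1 (LBWord_585.W (LH 3) l.reverse w)) = LBWord_585.W (LH 3) l.reverse w := by
          show (g⁻¹ * g).1 _ = _
          rw [inv_mul_cancel]; rfl
        rw [← h2, h1]
      rw [hrev] at hw2
      have tB : ∀ v ∈ W, v ∉ Mp (LH 3) (M0 W) (WA W) → Λ ^ 2 ≤ P2 hh (sp ea) (sp eb) v := by
        intro v hv hvs
        rw [P2_eq3]
        rcases h.typ v hv with h1 | h1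
        · have hA : v ∈ WA W := ⟨hv, h1⟩
          exact absurd (LBWord_585.mem_Mp (Or.inr hA)) hvs
        · exact h1.2
      have hgiw : (g⁻¹).1 w ∈ W := h.inv hgi w hw
      refine ⟨w, hWW1 w hw, tB w hw hw1, hWW1 _ hgiw, tB _ hgiw hw2, ?_⟩
      rw [hle] at hD
      have hD' : 1 / 12 ≤ ‖hh o (g.1 o')‖ / (‖hh o w‖ * ‖hh (g.1 o') w‖) := hD
      rw [norm_hh_symm (g.1 o') w]
      rcases (mul_nonneg (norm_nonneg (hh o w)) (norm_nonneg (hh (g.1 o') w))).eq_or_lt
        with h0 | h0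
      · rw [← h0]; simp
      · rw [le_div_iff₀ h0] at hD'
        exact hD'

end

end Crest.Agent.R272.LbFin2_990
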