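import Crest.Agent.R272.Per1_939

/-!
# LB-PER (2): sheets, fibre products, descent, degrees
-/

set_option linter.unusedSectionVars false

open Set Topology Filter

noncomputable section

namespace Crest.Agent.R272.Per_939

/-- the circle used everywhere. -/
abbrev Cir := AddCircle (1 : ℝ)

section Sheet

variable {Y : Type*} [TopologicalSpace Y]



end Sheet

section Fibre

variable {G Y₁ Y₂ B : Type*} [Group G] [TopologicalSpace Y₁] [TopologicalSpace Y₂]
  [MulAction G Y₁] [MulAction G Y₂]







end Fibre

section Degree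

open unitInterval

/-- a circle valued path has degree `d`: there is a continuous real lift with increment `d`. -/
def HasDeg (c : I → Cir) (d : ℝ) : Prop :=
  ∃ L : I → ℝ, Continuous L ∧ (∀ t, ((L t : ℝ) : Cir) = c t) ∧ L 1 - L 0 = d

theorem HasDeg.add {c c' : I → Cir} {d d' : ℝ} (h : HasDeg c d) (h' : HasDeg c' d') :
    HasDeg (fun t => c t + c' t) (d + d') := by
  obtain ⟨L, hL, h1, h2⟩ := h
  obtain ⟨L', hL', h1', h2'⟩ := h'
  refine ⟨fun t => L t + L' t, hL.add hL', fun t => ?_, by dsimp only; linarith⟩
  rw [AddCircle.coe_add, h1, h1']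

theorem HasDeg.const (a : Cir) : HasDeg (fun _ => a) 0 := by
  obtain ⟨x, rfl⟩ := QuotientAddGroup.mk_surjective a
  exact ⟨fun _ => x, continuous_const, fun _ => rfl, sub_self _⟩


/-- Uniqueness of the degree: the difference of two lifts is a continuous integer valued function. -/
theorem HasDeg.unique {c : I → Cir} {d d' : ℝ} (h : HasDeg c d) (h' : HasDeg c d') : d = d' := by
  obtain ⟨L, hL, h1, h2⟩ := h
  obtain ⟨L', hL', h1', h2'⟩ := h'
  have key : ∀ t, ∃ n : ℤ, L t - L' t = n := by
    intro t
    have h3 : ((L t - L' t : ℝ) : Cir) = 0 := by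
      rw [AddCircle.coe_sub, h1, h1', sub_self]
    obtain ⟨n, hn⟩ := (AddCircle.coe_eq_zero_iff (1 : ℝ)).mp h3
    exact ⟨n, by rw [← hn]; simp⟩
  choose n hn using key
  have hcont : Continuous fun t => (n t : ℝ) := by
    have : (fun t => (n t : ℝ)) = fun t => L t - L' t := by
      funext t; exact (hn t).symm
    rw [this]; exact hL.sub hL'
  have hcn : Continuous n := Int.isClosedEmbedding_coe_real.isInducing.continuous_iff.mpr hcont
  have : n 1 = n 0 := by
    exact PreconnectedSpace.constant (inferInstance) hcn
  have h4 := hn 1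
  have h5 := hn 0
  rw [this] at h4
  linarith


end Degree

end Crest.Agent.R272.Per_939
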