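import Crest.Agent.R272.LbAsm3_990
import Crest.Agent.R272.LbAd3_936
import Crest.Agent.R272.LbEnd2_259
import Crest.Agent.R272.UB7_20

/-!
# Row 272, LB-ASM (helper990), part 4: the lower bound in one theorem

`lb_live` : the period `2 ∫_γ ω` of the arc `γ` has infinite order in `π₁(X')`, from the literal
outputs of the leaves (group data, graph model, arithmetic of the far vectors, surgery, fibre, arc).
-/

set_option autoImplicit false
set_option linter.unusedSectionVars false

open scoped ComplexConjugate Topology unitInterval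
open Crest.Agent.R272.EBase_641 Crest.Agent.R272.LbPP_990 Crest.Agent.R272.LbSep_990
open Crest.Agent.R272.LbGood_990 Crest.Agent.R272.St2_702 Crest.Agent.R272.LbCap_382
open Crest.Agent.R272.LbFin_990 Crest.Agent.R272.LbFin2_990 Crest.Agent.R272.Per_939
open Crest.Agent.R272.CovOrd_463 Crest.Agent.R272.LbExt_259 Crest.Agent.R272.TLoop_463
open Crest.Agent.R272.UB_20 Crest.Agent.R272.MQ_783 Crest.Agent.R272.Refl_246
open Crest.Agent.R272.AJ_956

namespace Crest.Agent.R272.LbAsm_990

noncomputable section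

/-! ### out and back -/

/-- the map `t ↦ 1 - |2 t - 1|` -/
def fold : C(I, I) :=
  ⟨fun t => Set.projIcc 0 1 zero_le_one (1 - |2 * (t : ℝ) - 1|), by fun_prop⟩

theorem fold_zero : fold 0 = 0 := by
  show Set.projIcc (0 : ℝ) 1 zero_le_one (1 - |2 * ((0 : I) : ℝ) - 1|) = 0
  apply Set.projIcc_of_le_left
  simp

theorem fold_one : fold 1 = 0 := by
  show Set.projIcc (0 : ℝ) 1 zero_le_one (1 - |2 * ((1 : I) : ℝ) - 1|) = 0
  apply Set.projIcc_of_le_left
  norm_num

theorem fold_half {t : I} (ht : (t : ℝ) = 1 / 2) : fold t = 1 := by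
  show Set.projIcc (0 : ℝ) 1 zero_le_one (1 - |2 * (t : ℝ) - 1|) = 1
  apply Set.projIcc_of_right_le
  rw [ht]
  norm_num

/-- `a` forwards, then `b` backwards -/
def ob {X : Type*} [TopologicalSpace X] (a b : C(I, X)) (h : a 1 = b 1) : C(I, X) :=
  ⟨fun t => if (t : ℝ) ≤ 1 / 2 then a (fold t) else b (fold t), by
    refine Continuous.if_le (by fun_prop) (by fun_prop) (by fun_prop) continuous_const ?_
    intro t ht
    rw [fold_half ht, h]⟩

variable {X : Type*} [TopologicalSpace X] {a b : C(I, X)} {h : a 1 = b 1}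

theorem ob_apply (t : I) :
    ob a b h t = if (t : ℝ) ≤ 1 / 2 then a (fold t) else b (fold t) := rfl

theorem ob_zero : ob a b h 0 = a 0 := by
  rw [ob_apply, if_pos (by simp), fold_zero]

theorem ob_one : ob a b h 1 = b 0 := by
  rw [ob_apply, if_neg (by norm_num), fold_one]

/-- pointwise properties -/
theorem ob_forall {P : X → Prop} (ha : ∀ τ, P (a τ)) (hb : ∀ τ, P (b τ)) (t : I) :
    P (ob a b h t) := by
  rw [ob_apply]
  split_ifs
  · exact ha _
  · exact hb _

/-- **degree of the loop out and back.** -/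
theorem hasDeg_ob {θ : X → Cir} {T : I → ℝ} (hT : Continuous T)
    (hT1 : T 1 = 0 ∨ T 1 = 1) {s : ℝ} (hs : s = 1 ∨ s = -1)
    (ha : ∀ τ, θ (a τ) = ((s * T τ : ℝ) : Cir)) (hb : ∀ τ, θ (b τ) = ((-(s * T τ) : ℝ) : Cir)) :
    HasDeg (fun t => θ (ob a b h t)) (2 * s * (T 1 - T 0)) := by
  refine ⟨fun t => if (t : ℝ) ≤ 1 / 2 then s * T (fold t) else 2 * s * T 1 - s * T (fold t),
    ?_, ?_, ?_⟩
  · refine Continuous.if_le (by fun_prop) (by fun_prop) (by fun_prop) continuous_const ?_
    intro t ht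
    rw [fold_half ht]
    ring
  · intro t
    have hz : ((2 * s * T 1 : ℝ) : Cir) = 0 := by
      rw [AddCircle.coe_eq_zero_iff]
      rcases hs with rfl | rfl <;> rcases hT1 with h1 | h1 <;> rw [h1]
      · exact ⟨0, by simp⟩
      · exact ⟨2, by simp⟩
      · exact ⟨0, by simp⟩
      · exact ⟨-2, by simp⟩
    dsimp only
    rw [ob_apply]
    split_ifs
    · exact (ha _).symm
    · rw [hb, sub_eq_add_neg, AddCircle.coe_add, hz, zero_add]
  · have h0 : ((0 : I) : ℝ) ≤ 1 / 2 := by simp
    have h1 : ¬ ((1 : I) : ℝ) ≤ 1 / 2 := by norm_num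
    simp only [h0, h1, if_true, if_false, fold_zero, fold_one]
    ring

/-! ### the lower bound -/

section live

variable {P : Type*} [TopologicalSpace P] {n d : P → ℂ}
variable {Y : Type} [TopologicalSpace Y] {z : Y → E 3} {t k : Y → P}
    {e : ℂ} {a0 b0 qN qD : E 3 → ℂ} {SN SD : Finset (V1 3)}

/-- the fibre `C × C → Y` over the origin: the colour of `t`, `k` is the first factor -/
structure Fib {C : Type} [TopologicalSpace C] (iv : C → C) (n d : P → ℂ) (z : Y → E 3)
    (t k : Y → P) (j : C × C → Y) : Prop where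
  cont : Continuous j
  jz : ∀ x, z (j x) = 0
  jt : ∀ x y y', t (j (x, y)) = t (j (x, y'))
  jk : ∀ x y y', k (j (x, y)) = k (j (x, y'))
  it : ∀ x y, t (j (iv x, y)) = t (j (x, y))
  ik : ∀ x y, n (k (j (iv x, y))) * d (k (j (x, y))) =
    -(n (k (j (x, y))) * d (k (j (iv x, y))))

/-- an arc of the curve whose slopes cross the annulus once -/
structure Arc {C : Type} [TopologicalSpace C] (f : C → ℝ) (m1 m2 : ℝ) (γ : C(I, C)) : Prop where
  pre : IsPreconnected {τ | m1 < f (γ τ) ∧ f (γ τ) < m2}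
  ends : (f (γ 0) ≤ m1 ∧ m2 ≤ f (γ 1)) ∨ (m2 ≤ f (γ 0) ∧ f (γ 1) ≤ m1)


end live

end

end Crest.Agent.R272.LbAsm_990
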