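import Crest.Agent.R272.Fix2_74
import Crest.Agent.R272.Cls2_620
import Crest.Agent.R272.O5a_74
import Crest.Agent.R272.In2_68
import Crest.Agent.R272.Cls8_620

-- ▼ part R272/Free1_74
section

/-!
helper74, row 272: principal congruence groups act freely on negative lines (trace argument, no
Minkowski lemma, no finiteness of stabilisers).
-/

set_option autoImplicit false
set_option linter.unusedSectionVars false
set_option linter.unusedVariables false

open scoped ComplexConjugate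
open Matrix

namespace Crest.Agent.R272.Free1_74

open Crest.Agent.R272.Fix1_74 Crest.Agent.R272.Fix2_74

variable {ι : Type*} [Fintype ι] [DecidableEq ι]

/-- eigenvalues of a matrix preserving a positive definite "square norm" have modulus one, so the
trace is bounded by the dimension. -/
theorem norm_trace_le (A : Matrix ι ι ℂ) (m : (ι → ℂ) → ℝ) (hpos : ∀ v, v ≠ 0 → 0 < m v)
    (hinv : ∀ v, m (A *ᵥ v) = m v) (hsm : ∀ (c : ℂ) v, m (c • v) = ‖c‖ ^ 2 * m v) :
    ‖A.trace‖ ≤ Fintype.card ι := by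
  rw [Matrix.trace_eq_sum_roots_charpoly]
  refine (norm_multiset_sum_le _).trans ?_
  have h1 : ∀ x ∈ A.charpoly.roots.map (fun x => ‖x‖), x ≤ 1 := by
    intro x hx
    obtain ⟨r, hr, rfl⟩ := Multiset.mem_map.1 hx
    have hroot : Polynomial.IsRoot A.charpoly r := Polynomial.isRoot_of_mem_roots hr
    have hev : Module.End.HasEigenvalue (Matrix.toLin' A) r := by
      rw [Module.End.hasEigenvalue_iff_isRoot_charpoly, Matrix.charpoly_toLin']
      exact hroot
    obtain ⟨v, hv⟩ := hev.exists_hasEigenvector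
    have hv1 : A *ᵥ v = r • v := by
      have := hv.apply_eq_smul
      rwa [Matrix.toLin'_apply] at this
    have hv0 : v ≠ 0 := hv.2
    have h2 := hinv v
    rw [hv1, hsm] at h2
    have h3 : ‖r‖ ^ 2 = 1 := by
      have hm := hpos v hv0
      have h4 : (‖r‖ ^ 2 - 1) * m v = 0 := by linarith
      rcases mul_eq_zero.1 h4 with h5 | h5
      · linarith
      · exact absurd h5 hm.ne'
    have h5 : ‖r‖ = 1 := by
      have := norm_nonneg r
      nlinarith
    exact h5.le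
  refine (Multiset.sum_le_card_nsmul _ 1 h1).trans ?_
  rw [Multiset.card_map, nsmul_eq_mul, mul_one]
  have := Polynomial.card_roots' A.charpoly
  rw [Matrix.charpoly_natDegree_eq_dim] at this
  exact_mod_cast this

section form

open Crest.Agent.R272.Cls_620

variable {c : ι → ℝ} {i0 : ι}

theorem h1_self_real (c : ι → ℝ) (x : ι → ℂ) : Cls_620.h1 c x x = ((Cls_620.h1 c x x).re : ℂ) := by
  have e2 : (Cls_620.h1 c x x).im = 0 := by
    have := congrArg Complex.im (h1_star c x x)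
    simp only [Complex.star_def, Complex.conj_im] at this
    linarith
  apply Complex.ext <;> simp [e2]

/-- nondegeneracy -/
theorem eq_zero_of_forall (hc : ∀ i, c i ≠ 0) {x : ι → ℂ} (h : ∀ w, Cls_620.h1 c x w = 0) :
    x = 0 := by
  funext i
  have := h (Pi.single i 1)
  rw [Cls_620.h1, Finset.sum_eq_single i] at this
  · simp only [Pi.single_eq_same, star_one, mul_one] at this
    rcases mul_eq_zero.1 this with h1 | h1
    · exact absurd (by exact_mod_cast h1) (hc i)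
    · exact h1
  · intro b _ hb
    rw [Pi.single_eq_of_ne hb, star_zero, mul_zero]
  · simp

/-- strict positivity on the orthogonal complement of a negative vector -/
theorem perp_pos (h0 : c i0 < 0) (hp : ∀ i, i ≠ i0 → 0 < c i) {p x : ι → ℂ}
    (hneg : (Cls_620.h1 c p p).re < 0) (hx : Cls_620.h1 c x p = 0) (hx0 : x ≠ 0) :
    0 < (Cls_620.h1 c x x).re := by
  refine lt_of_le_of_ne (perp_nonneg h0 hp hneg hx) fun h => hx0 ?_
  refine eq_zero_of_forall (c := c) ?_ ?_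
  · intro i
    by_cases hi : i = i0
    · subst hi; exact h0.ne
    · exact (hp i hi).ne'
  · intro w
    set a : ℂ := Cls_620.h1 c w p / Cls_620.h1 c p p with ha
    have hpp : Cls_620.h1 c p p ≠ 0 := by
      intro h1; rw [h1] at hneg; simp at hneg
    have hw' : Cls_620.h1 c (w + (-a) • p) p = 0 := by
      rw [h1_add_left, h1_smul_left, ha]; field_simp; ring
    have h3 := perp_cs h0 hp hneg hx hw'
    rw [← h, zero_mul] at h3
    have h4 : Cls_620.h1 c x (w + (-a) • p) = 0 := by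
      have : ‖Cls_620.h1 c x (w + (-a) • p)‖ = 0 := by
        have := norm_nonneg (Cls_620.h1 c x (w + (-a) • p))
        nlinarith
      exact norm_eq_zero.1 this
    rw [h1_add_right, h1_smul_right, hx, mul_zero, add_zero] at h4
    exact h4

/-- majorant attached to a negative vector -/
noncomputable def maj (c : ι → ℝ) (p v : ι → ℂ) : ℝ :=
  (Cls_620.h1 c v v).re + 2 * ‖Cls_620.h1 c v p‖ ^ 2 / (-(Cls_620.h1 c p p).re)

theorem maj_pos (h0 : c i0 < 0) (hp : ∀ i, i ≠ i0 → 0 < c i) {p : ι → ℂ}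
    (hneg : (Cls_620.h1 c p p).re < 0) (v : ι → ℂ) (hv : v ≠ 0) : 0 < maj c p v := by
  set N : ℝ := (Cls_620.h1 c p p).re with hN
  have hpp : Cls_620.h1 c p p = (N : ℂ) := h1_self_real c p
  set a : ℂ := Cls_620.h1 c v p / N with ha
  have hNne : (N : ℂ) ≠ 0 := by exact_mod_cast hneg.ne
  obtain ⟨w, hw⟩ : ∃ w : ι → ℂ, w = v + (-a) • p := ⟨_, rfl⟩
  have hwp : Cls_620.h1 c w p = 0 := by
    rw [hw, h1_add_left, h1_smul_left, hpp, ha]; field_simp; ring
  have hpw : Cls_620.h1 c p w = 0 := by rw [← h1_star, hwp, star_zero]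
  have hvw : v = w + a • p := by rw [hw]; funext i; simp; 
  have e1 : Cls_620.h1 c v v = Cls_620.h1 c w w + ((‖a‖ ^ 2 * N : ℝ) : ℂ) := by
    conv_lhs => rw [hvw]
    rw [h1_add_left, h1_add_right, h1_add_right, h1_smul_left, h1_smul_left, h1_smul_right,
      h1_smul_right, hwp, hpw, hpp]
    have : a * star a = ((‖a‖ ^ 2 : ℝ) : ℂ) := by
      rw [Complex.star_def, Complex.mul_conj, Complex.normSq_eq_norm_sq]
    push_cast
    push_cast at this
    linear_combination (N : ℂ) * this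
  have e2 : ‖Cls_620.h1 c v p‖ ^ 2 = ‖a‖ ^ 2 * N ^ 2 := by
    have : Cls_620.h1 c v p = a * N := by rw [ha]; field_simp
    rw [this, norm_mul, Complex.norm_real, mul_pow, Real.norm_eq_abs, sq_abs]
  have e3 : maj c p v = (Cls_620.h1 c w w).re + ‖a‖ ^ 2 * (-N) := by
    rw [maj, e1, e2, Complex.add_re, Complex.ofReal_re, ← hN]
    have : -N ≠ 0 := by linarith
    field_simp; ring
  rw [e3]
  by_cases hw0 : w = 0
  · have ha0 : a ≠ 0 := by
      intro h; apply hv; rw [hvw, hw0, h]; simp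
    have h5 : 0 < ‖a‖ ^ 2 := by have := norm_pos_iff.2 ha0; positivity
    rw [hw0]
    have h6 : Cls_620.h1 c (0 : ι → ℂ) 0 = 0 := by simp [Cls_620.h1]
    rw [h6, Complex.zero_re]
    nlinarith
  · have h7 := perp_pos h0 hp hneg hwp hw0
    have h8 : 0 ≤ ‖a‖ ^ 2 * (-N) := mul_nonneg (by positivity) (by linarith)
    linarith

theorem maj_smul (p : ι → ℂ) (a : ℂ) (v : ι → ℂ) : maj c p (a • v) = ‖a‖ ^ 2 * maj c p v := by
  have e1 : Cls_620.h1 c (a • v) (a • v) = ((‖a‖ ^ 2 : ℝ) : ℂ) * Cls_620.h1 c v v := by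
    rw [h1_smul_left, h1_smul_right, ← mul_assoc]
    congr 1
    rw [Complex.star_def, Complex.mul_conj, Complex.normSq_eq_norm_sq]
  rw [maj, maj, e1, Complex.re_ofReal_mul, h1_smul_left, norm_mul, mul_pow]
  ring

theorem maj_inv {p : ι → ℂ} (hneg : (Cls_620.h1 c p p).re < 0) (A : Matrix ι ι ℂ)
    (hA : ∀ v w, Cls_620.h1 c (A *ᵥ v) (A *ᵥ w) = Cls_620.h1 c v w) (lam : ℂ)
    (hfix : A *ᵥ p = lam • p) (v : ι → ℂ) : maj c p (A *ᵥ v) = maj c p v := by
  have hl : ‖lam‖ ^ 2 = 1 := by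
    have h1 := hA p p
    rw [hfix, h1_smul_left, h1_smul_right, ← mul_assoc, Complex.star_def, Complex.mul_conj,
      Complex.normSq_eq_norm_sq] at h1
    have h2 := congrArg Complex.re h1
    rw [Complex.re_ofReal_mul] at h2
    have h3 : (‖lam‖ ^ 2 - 1) * (Cls_620.h1 c p p).re = 0 := by linarith
    rcases mul_eq_zero.1 h3 with h4 | h4
    · linarith
    · exact absurd h4 hneg.ne
  have hl1 : ‖lam‖ = 1 := by
    have := norm_nonneg lam
    nlinarith
  have h2 : ‖Cls_620.h1 c (A *ᵥ v) p‖ = ‖Cls_620.h1 c v p‖ := by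
    have h3 : Cls_620.h1 c (A *ᵥ v) (A *ᵥ p) = Cls_620.h1 c v p := hA v p
    rw [hfix, h1_smul_right] at h3
    rw [← h3, norm_mul, norm_star, hl1, one_mul]
  rw [maj, maj, hA, h2]

end form

variable {R : Type*} [CommRing R]

theorem isU_h1 (D : Dat R) (H : ι → R) (hH : ∀ i, D.st (H i) = H i) {s : Matrix ι ι R}
    (hs : IsU D H s) (ρ : R →+* ℂ) (hρ : ∀ x, ρ (D.st x) = conj (ρ x)) (v w : ι → ℂ) :
    Cls_620.h1 (fun i => (ρ (H i)).re) ((s.map ρ) *ᵥ v) ((s.map ρ) *ᵥ w)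
      = Cls_620.h1 (fun i => (ρ (H i)).re) v w := by
  have hreal : ∀ i, (((ρ (H i)).re : ℝ) : ℂ) = ρ (H i) := by
    intro i
    have := hρ (H i)
    rw [hH] at this
    exact Complex.conj_eq_iff_re.1 this.symm
  have hent : ∀ i j, ∑ k, conj (ρ (s k i)) * ρ (H k) * ρ (s k j)
      = if i = j then ρ (H i) else 0 := by
    intro i j
    have h1 := congrFun (congrFun hs i) j
    have h2 : ((s.map D.st)ᵀ * diagonal H * s) i j = ∑ k, D.st (s k i) * H k * s k j := by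
      rw [Matrix.mul_apply]
      refine Finset.sum_congr rfl fun k _ => ?_
      rw [Matrix.mul_diagonal, Matrix.transpose_apply, Matrix.map_apply]
    rw [h2] at h1
    have h3 := congrArg ρ h1
    rw [map_sum] at h3
    simp only [map_mul, hρ] at h3
    rw [h3, Matrix.diagonal_apply]
    split_ifs <;> simp
  have e1 : ∀ k, (((ρ (H k)).re : ℝ) : ℂ) * ((s.map ρ) *ᵥ v) k * star (((s.map ρ) *ᵥ w) k)
      = ∑ j, ∑ i, (conj (ρ (s k i)) * ρ (H k) * ρ (s k j)) * (v j * star (w i)) := by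
    intro k
    rw [hreal]
    simp only [Matrix.mulVec, dotProduct, Matrix.map_apply, star_sum, star_mul']
    rw [mul_assoc, Finset.sum_mul_sum, Finset.mul_sum]
    refine Finset.sum_congr rfl fun j _ => ?_
    rw [Finset.mul_sum]
    refine Finset.sum_congr rfl fun i _ => ?_
    simp only [Complex.star_def]
    ring
  have e2 : Cls_620.h1 (fun i => (ρ (H i)).re) ((s.map ρ) *ᵥ v) ((s.map ρ) *ᵥ w)
      = ∑ j, ∑ i, (∑ k, conj (ρ (s k i)) * ρ (H k) * ρ (s k j)) * (v j * star (w i)) := by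
    rw [Cls_620.h1, Finset.sum_congr rfl fun k _ => e1 k, Finset.sum_comm]
    refine Finset.sum_congr rfl fun j _ => ?_
    rw [Finset.sum_comm]
    refine Finset.sum_congr rfl fun i _ => ?_
    rw [Finset.sum_mul]
  rw [e2, Cls_620.h1]
  refine Finset.sum_congr rfl fun j _ => ?_
  have e3 : ∀ i, (∑ k, conj (ρ (s k i)) * ρ (H k) * ρ (s k j)) * (v j * star (w i))
      = if i = j then ρ (H i) * (v j * star (w i)) else 0 := by
    intro i
    rw [hent]
    split_ifs <;> simp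
  rw [Finset.sum_congr rfl fun i _ => e3 i, Finset.sum_ite_eq', if_pos (Finset.mem_univ _), hreal]
  ring

/-- **freeness**: a unitary matrix congruent to `1` modulo `μ` which fixes a line negative at
place 1 is the identity, as soon as `N(μ) > (2 n)²`. -/
theorem free [IsDomain R] (D : Dat R) (H : ι → R) (hH : ∀ i, D.st (H i) = H i)
    (hH2 : ∀ i, 0 < (D.ρ2 (H i)).re) {i0 : ι} (hneg0 : (D.ρ1 (H i0)).re < 0)
    (hpos0 : ∀ i, i ≠ i0 → 0 < (D.ρ1 (H i)).re)
    (hn : ∀ x : R, x ≠ 0 → 1 ≤ ‖D.ρ1 x‖ * ‖D.ρ2 x‖)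
    (μ : R) (hμ : (2 * (Fintype.card ι : ℝ)) * (2 * Fintype.card ι) < ‖D.ρ1 μ‖ * ‖D.ρ2 μ‖)
    (g : Matrix ι ι R) (hg : IsU D H g) (hc : Cong μ g 1) (hf : FixNeg D H g) : g = 1 := by
  obtain ⟨x, lam, hx, hfix⟩ := hf
  have hreal1 : ∀ i, (((D.ρ1 (H i)).re : ℝ) : ℂ) = D.ρ1 (H i) := fun i => (D.real1 (hH i)).symm
  have hform1 : ∀ v w, D.h1 H v w = Cls_620.h1 (fun i => (D.ρ1 (H i)).re) v w := by
    intro v w
    simp only [Dat.h1, Cls_620.h1, hreal1, Complex.star_def]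
  rw [hform1] at hx
  set X : R := g.trace - (Fintype.card ι : R) with hX
  have hμX : μ ∣ X := by
    have h1 : X = ∑ i, (g i i - (1 : Matrix ι ι R) i i) := by
      rw [Finset.sum_sub_distrib, hX]
      simp [Matrix.trace]
    rw [h1]
    exact Finset.dvd_sum fun i _ => hc i i
  -- traces
  have t1 : ‖(g.map D.ρ1).trace‖ ≤ Fintype.card ι :=
    norm_trace_le _ (maj (fun i => (D.ρ1 (H i)).re) x)
      (maj_pos (c := fun i => (D.ρ1 (H i)).re) (i0 := i0) hneg0 hpos0 hx)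
      (fun v => maj_inv hx _ (isU_h1 D H hH hg D.ρ1 D.st1) lam hfix v)
      (fun a v => maj_smul x a v)
  have hc2 : ∀ v : ι → ℂ, (Cls_620.h1 (fun i => (D.ρ2 (H i)).re) v v).re
      = ∑ i, (D.ρ2 (H i)).re * ‖v i‖ ^ 2 := fun v => Cls_620.h1_self_re _ v
  have t2 : ‖(g.map D.ρ2).trace‖ ≤ Fintype.card ι := by
    refine norm_trace_le _ (fun v => (Cls_620.h1 (fun i => (D.ρ2 (H i)).re) v v).re) ?_ ?_ ?_
    · intro v hv
      rw [hc2]
      obtain ⟨j, hj⟩ := Function.ne_iff.1 hv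
      refine Finset.sum_pos' (fun i _ => mul_nonneg (hH2 i).le (by positivity))
        ⟨j, Finset.mem_univ _, mul_pos (hH2 j) ?_⟩
      have : 0 < ‖v j‖ := norm_pos_iff.2 hj
      positivity
    · intro v
      show (Cls_620.h1 _ ((g.map D.ρ2) *ᵥ v) ((g.map D.ρ2) *ᵥ v)).re = _
      rw [isU_h1 D H hH hg D.ρ2 D.st2]
    · intro a v
      show (Cls_620.h1 _ (a • v) (a • v)).re = _
      rw [hc2, hc2, Finset.mul_sum]
      refine Finset.sum_congr rfl fun i _ => ?_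
      rw [Pi.smul_apply, smul_eq_mul, norm_mul, mul_pow]; ring
  have htr : ∀ ρ : R →+* ℂ, ρ X = (g.map ρ).trace - (Fintype.card ι : ℂ) := by
    intro ρ
    rw [hX, map_sub, map_natCast]
    congr 1
    simp [Matrix.trace, Matrix.diag, Matrix.map_apply]
  have b1 : ‖D.ρ1 X‖ ≤ 2 * Fintype.card ι := by
    rw [htr]
    refine (norm_sub_le _ _).trans ?_
    rw [Complex.norm_natCast]; linarith
  have b2 : ‖D.ρ2 X‖ ≤ 2 * Fintype.card ι := by
    rw [htr]
    refine (norm_sub_le _ _).trans ?_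
    rw [Complex.norm_natCast]; linarith
  have hX0 : X = 0 := by
    by_contra hne
    obtain ⟨a, ha⟩ := hμX
    have ha0 : a ≠ 0 := by rintro rfl; rw [mul_zero] at ha; exact hne ha
    have h1 := hn a ha0
    rw [ha, map_mul, norm_mul] at b1 b2
    have h2 : (‖D.ρ1 μ‖ * ‖D.ρ1 a‖) * (‖D.ρ2 μ‖ * ‖D.ρ2 a‖)
        ≤ (2 * Fintype.card ι) * (2 * Fintype.card ι) := by gcongr
    have h3 : (‖D.ρ1 μ‖ * ‖D.ρ2 μ‖) * 1 ≤ (‖D.ρ1 μ‖ * ‖D.ρ2 μ‖) * (‖D.ρ1 a‖ * ‖D.ρ2 a‖) := by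
      gcongr
    have h4 : (‖D.ρ1 μ‖ * ‖D.ρ1 a‖) * (‖D.ρ2 μ‖ * ‖D.ρ2 a‖)
        = (‖D.ρ1 μ‖ * ‖D.ρ2 μ‖) * (‖D.ρ1 a‖ * ‖D.ρ2 a‖) := by ring
    linarith
  -- the trace at place 2 is n
  set G := g.map D.ρ2 with hG
  have hGtr : G.trace = (Fintype.card ι : ℂ) := by
    have := htr D.ρ2
    rw [hX0, map_zero] at this
    exact (sub_eq_zero.1 this.symm)
  -- column norms
  have hcol : ∀ j, ∑ i, (D.ρ2 (H i)).re * ‖G i j‖ ^ 2 = (D.ρ2 (H j)).re := by
    intro j
    have h1 := isU_h1 D H hH hg D.ρ2 D.st2 (Pi.single j 1) (Pi.single j 1)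
    have h2 := congrArg Complex.re h1
    rw [hc2, hc2] at h2
    have h3 : ∀ i, (G *ᵥ (Pi.single j 1)) i = G i j := fun i => by
      rw [Matrix.mulVec_single_one]; rfl
    simp only [← hG, h3] at h2
    rw [h2, Finset.sum_eq_single j]
    · simp
    · intro b _ hb; rw [Pi.single_eq_of_ne hb]; simp
    · simp
  have hdiag_le : ∀ j, ‖G j j‖ ≤ 1 := by
    intro j
    have h1 : (D.ρ2 (H j)).re * ‖G j j‖ ^ 2 ≤ (D.ρ2 (H j)).re :=
      (Finset.single_le_sum (f := fun i => (D.ρ2 (H i)).re * ‖G i j‖ ^ 2)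
        (fun i _ => mul_nonneg (hH2 i).le (by positivity)) (Finset.mem_univ j)).trans (hcol j).le
    have h2 : ‖G j j‖ ^ 2 ≤ 1 := by
      by_contra h
      push Not at h
      have := hH2 j
      nlinarith
    have := norm_nonneg (G j j)
    nlinarith
  have hdiag : ∀ j, G j j = 1 := by
    have hre : ∀ j, (G j j).re ≤ 1 := fun j => (Complex.re_le_norm _).trans (hdiag_le j)
    have hsum : ∑ j, (1 - (G j j).re) = 0 := by
      have h1 := congrArg Complex.re hGtr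
      rw [Matrix.trace, Complex.re_sum, Complex.natCast_re] at h1
      rw [Finset.sum_sub_distrib]
      simp only [Matrix.diag_apply] at h1
      rw [h1]; simp
    intro j
    have h2 := (Finset.sum_eq_zero_iff_of_nonneg (fun j _ => sub_nonneg.2 (hre j))).1 hsum j
      (Finset.mem_univ j)
    have h3 : (G j j).re = 1 := by linarith
    have h4 : (G j j).im = 0 := by
      have h5 := hdiag_le j
      have h6 : ‖G j j‖ ^ 2 = (G j j).re ^ 2 + (G j j).im ^ 2 := by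
        rw [← Complex.normSq_eq_norm_sq, Complex.normSq_apply]; ring
      have h7 := norm_nonneg (G j j)
      nlinarith
    exact Complex.ext (by rw [h3, Complex.one_re]) (by rw [h4, Complex.one_im])
  have hoff : ∀ i j, i ≠ j → G i j = 0 := by
    intro i j hij
    have h1 := hcol j
    rw [← Finset.add_sum_erase _ _ (Finset.mem_univ j), hdiag j, norm_one] at h1
    have h2 : ∑ i ∈ Finset.univ.erase j, (D.ρ2 (H i)).re * ‖G i j‖ ^ 2 = 0 := by linarith
    have h3 := (Finset.sum_eq_zero_iff_of_nonneg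
      (fun i _ => mul_nonneg (hH2 i).le (by positivity))).1 h2 i
      (Finset.mem_erase.2 ⟨hij, Finset.mem_univ _⟩)
    rcases mul_eq_zero.1 h3 with h4 | h4
    · exact absurd h4 (hH2 i).ne'
    · have : ‖G i j‖ = 0 := by
        have := norm_nonneg (G i j)
        nlinarith
      exact norm_eq_zero.1 this
  ext i j
  apply D.inj2
  have e1 : D.ρ2 (g i j) = G i j := rfl
  rw [e1]
  by_cases hij : i = j
  · subst hij; rw [hdiag, Matrix.one_apply_eq, map_one]
  · rw [hoff i j hij, Matrix.one_apply_ne hij, map_zero]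

end Crest.Agent.R272.Free1_74
end

-- ▼ part R272/O5b_74

/-!
helper74, row 272, AR-O5 / AR-FIX, last part: stabilisers of points of the ball in the arithmetic
group `GU O z` of 68, in the language of 620 (`Mir`) and 641 (`act`, `lin`).
-/

set_option autoImplicit false
set_option linter.unusedSectionVars false
set_option linter.unusedVariables false

open scoped ComplexConjugate
open Matrix

namespace Crest.Agent.R272.O5_74

open Crest.Agent.R272.Fix1_74 Crest.Agent.R272.Fix2_74 Crest.Agent.R272.Fix3_74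
open Crest.Agent.R272.In_68 Crest.Agent.R272.EBase_641

noncomputable section

theorem z5r : Z5r O5 z5v where
  toZ5 := Z5_O5
  rep := fun _ hx => rep5 hx
  im0 := im0
  im1 := im1

theorem eq_of_sum {x y : ℂ} {c : ℝ} (hx5 : x * x ^ 4 = 1) (hy5 : y * y ^ 4 = 1)
    (hx : x + x ^ 4 = c) (hy : y + y ^ 4 = c) (hix : 0 < x.im) (hiy : 0 < y.im) : x = y := by
  have h1 : (x - y) * (x + y - c) = 0 := by
    have e1 : x ^ 4 = c - x := by rw [← hx]; ring
    have e2 : y ^ 4 = c - y := by rw [← hy]; ring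
    rw [e1] at hx5
    rw [e2] at hy5
    linear_combination hy5 - hx5
  rcases mul_eq_zero.1 h1 with h | h
  · exact sub_eq_zero.1 h
  · exfalso
    have h2 := congrArg Complex.im h
    rw [Complex.sub_im, Complex.add_im, Complex.ofReal_im, Complex.zero_im] at h2
    linarith

/-- the pair `(O, z)` is unique -/
theorem Z5r_unique {O : Subring (Fin 2 → ℂ)} {z : Fin 2 → ℂ} (h : Z5r O z) :
    z = z5v ∧ O = O5 := by
  have hz : z = z5v := by
    funext t
    have h5 : z t * z t ^ 4 = 1 := by rw [← pow_succ']; exact z5t h t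
    have h5' : z5v t * z5v t ^ 4 = 1 := by rw [← pow_succ']; exact z5t z5r t
    fin_cases t
    · exact eq_of_sum h5 h5' h.at0 z5r.at0 h.im0 im0
    · exact eq_of_sum h5 h5' h.at1 z5r.at1 h.im1 im1
  refine ⟨hz, ?_⟩
  subst hz
  apply le_antisymm
  · intro x hx
    obtain ⟨a, b, c, d, rfl⟩ := h.rep x hx
    exact O5.add_mem (O5.add_mem (O5.add_mem (intCast_mem O5 a)
      (O5.mul_mem (intCast_mem O5 b) z5r.zmem)) (O5.mul_mem (intCast_mem O5 c)
      (O5.pow_mem z5r.zmem 2))) (O5.mul_mem (intCast_mem O5 d) (O5.pow_mem z5r.zmem 3))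
  · intro x hx
    obtain ⟨a, b, c, d, rfl⟩ := rep5 hx
    exact O.add_mem (O.add_mem (O.add_mem (intCast_mem O a)
      (O.mul_mem (intCast_mem O b) h.zmem)) (O.mul_mem (intCast_mem O c)
      (O.pow_mem h.zmem 2))) (O.mul_mem (intCast_mem O d) (O.pow_mem h.zmem 3))

/-! ### dictionary -/

theorem Φ_H5 (i : Fin 4) : Φ (H5 i) = Cls_620.HH z5v i := by
  fin_cases i
  · simp [H5, Cls_620.HH]
  · simp [H5, Cls_620.HH]
  · simp [H5, Cls_620.HH]
  · show Φ (-phi) = z5v ^ 2 + z5v ^ 3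
    rw [phi, neg_neg, map_add, map_pow, map_pow, z5v]

theorem hh_Φ (v w : Fin 4 → R5) :
    Cls_620.hh (Cls_620.HH z5v) (fun i => Φ (v i)) (fun i => Φ (w i)) = Φ (dat.hR H5 v w) := by
  simp only [Cls_620.hh, Dat.hR, map_sum, map_mul]
  refine Finset.sum_congr rfl fun i _ => ?_
  rw [Φ_H5, star_Φ]; rfl

theorem h1_eq (x y : Fin 4 → ℂ) :
    Cls_620.h1 (Cls_620.c0 0 (Cls_620.HH z5v)) x y = dat.h1 H5 x y := by
  simp only [Cls_620.h1, Dat.h1, Cls_620.c0]
  refine Finset.sum_congr rfl fun i _ => ?_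
  have h1 : ((((Cls_620.HH z5v i 0).re : ℝ)) : ℂ) = dat.ρ1 (H5 i) := by
    rw [← Φ_H5]
    exact (dat.real1 (H5_st i)).symm
  rw [h1]; rfl

/-- lift an integral matrix to `R5` -/
theorem exists_lift {M : Mt} (hM : ∀ i j, M i j ∈ O5) :
    ∃ S : Matrix (Fin 4) (Fin 4) R5, ∀ i j, Φ (S i j) = M i j := by
  choose S hS using hM
  exact ⟨S, hS⟩

theorem mulVec_Φ {M : Mt} {S : Matrix (Fin 4) (Fin 4) R5} (hS : ∀ i j, Φ (S i j) = M i j)
    (v : Fin 4 → R5) : (M *ᵥ fun i => Φ (v i)) = fun i => Φ ((S *ᵥ v) i) := by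
  funext i
  simp only [Matrix.mulVec, dotProduct, map_sum, map_mul, hS]

theorem isU_of {M : Mt} {S : Matrix (Fin 4) (Fin 4) R5} (hS : ∀ i j, Φ (S i j) = M i j)
    (hu : ∀ v w : Fin 4 → Fin 2 → ℂ, Cls_620.hh (Cls_620.HH z5v) (M *ᵥ v) (M *ᵥ w)
      = Cls_620.hh (Cls_620.HH z5v) v w) : IsU dat H5 S := by
  unfold IsU
  refine Matrix.ext fun i j => Φ_inj ?_
  have h1 := hu (fun k => Φ ((Pi.single j 1 : Fin 4 → R5) k))
    (fun k => Φ ((Pi.single i 1 : Fin 4 → R5) k))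
  rw [mulVec_Φ hS, mulVec_Φ hS, hh_Φ, hh_Φ] at h1
  have e1 : dat.hR H5 (fun k => (S *ᵥ (Pi.single j 1 : Fin 4 → R5)) k)
      (fun k => (S *ᵥ (Pi.single i 1 : Fin 4 → R5)) k)
      = ((S.map dat.st)ᵀ * diagonal H5 * S) i j := by
    rw [Matrix.mul_apply, Dat.hR]
    refine Finset.sum_congr rfl fun k _ => ?_
    rw [Matrix.mul_diagonal, Matrix.transpose_apply, Matrix.map_apply,
      Matrix.mulVec_single_one, Matrix.mulVec_single_one]
    simp only [Matrix.col_apply]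
    ring
  have e2 : dat.hR H5 (fun k => (Pi.single j 1 : Fin 4 → R5) k)
      (fun k => (Pi.single i 1 : Fin 4 → R5) k) = diagonal H5 i j := by
    rw [Dat.hR, Matrix.diagonal_apply]
    by_cases hij : i = j
    · subst hij
      rw [if_pos rfl, Finset.sum_eq_single i]
      · simp
      · intro b _ hb; rw [Pi.single_eq_of_ne hb]; simp
      · simp
    · rw [if_neg hij]
      refine Finset.sum_eq_zero fun k _ => ?_
      by_cases hk : k = j
      · subst hk
        rw [Pi.single_eq_of_ne (M := fun _ => R5) (Ne.symm hij), map_zero, mul_zero]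
      · rw [Pi.single_eq_of_ne (M := fun _ => R5) hk, mul_zero, zero_mul]
  rw [e1, e2] at h1
  exact h1

theorem dvd_of_O5 {μ x : R5} (h : ∃ u ∈ O5, Φ x = Φ μ * u) : μ ∣ x := by
  obtain ⟨_, ⟨u, rfl⟩, hu⟩ := h
  exact ⟨u, Φ_inj (by rw [hu, map_mul])⟩

theorem ev0 {M : Mt} {S : Matrix (Fin 4) (Fin 4) R5} (hS : ∀ i j, Φ (S i j) = M i j) :
    ev 0 M = S.map ρ1 := by
  ext i j
  rw [ev_apply, ← hS, Matrix.map_apply, Φ_zero]

/-- the swap of the coordinates `1` and `2` -/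
def swp : Mt := Dat.swapM (Fin 2 → ℂ) 1 2

theorem Φ_swapM (i j : Fin 4) : Φ (Dat.swapM R5 1 2 i j) = swp i j := by
  simp only [swp, Dat.swapM]
  split_ifs <;> simp

theorem swp_mulVec (v : Fin 4 → Fin 2 → ℂ) : swp *ᵥ v = Cls_620.rf (Cls_620.HH z5v) Cls_620.mi v := by
  rw [Cls_620.rf_mi]
  funext i
  simp only [Matrix.mulVec, dotProduct, swp, Dat.swapM, Fin.sum_univ_four]
  fin_cases i <;> simp +decide

theorem swp_mul_self : swp * swp = 1 := swapM_mul_self 1 2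

/-- the point of the ball as a negative vector -/
theorem neg_of_ball {O : Subring (Fin 2 → ℂ)} {z : Fin 2 → ℂ} (h : Z5r O z) {ζ : E 3}
    (hζ : ζ ∈ Ball 3) : Cls_620.Neg z ((P0 h).symm (ζ, 1)) := by
  set p := (P0 h).symm (ζ, 1) with hp
  have h1 : hh (P0 h p) (P0 h p) = dd z 0 * ht z 0 p p := hh_P0 h p p
  rw [hp, LinearEquiv.apply_symm_apply, hh_self] at h1
  rw [← hp] at h1
  have h2 : ht z 0 p p = Cls_620.h1 (Cls_620.c0 0 (Cls_620.HH z)) p p := by
    simp only [ht, Cls_620.h1, Cls_620.c0, rr]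
    rfl
  rw [h2] at h1
  have h3 := congrArg Complex.re h1
  rw [Complex.ofReal_re, Complex.re_ofReal_mul] at h3
  have h4 : ‖ζ‖ < 1 := mem_Ball.1 hζ
  have h5 := dd_pos h 0
  have h6 : ‖(ζ, (1:ℂ)).1‖ ^ 2 - ‖(ζ, (1:ℂ)).2‖ ^ 2 < 0 := by
    simp only [norm_one]
    nlinarith [norm_nonneg ζ]
  rw [h3] at h6
  unfold Cls_620.Neg
  by_contra hc
  push Not at hc
  have := mul_nonneg h5.le hc
  linarith

theorem fix_of_act {O : Subring (Fin 2 → ℂ)} {z : Fin 2 → ℂ} (h : Z5r O z) (g : GU O z) {ζ : E 3}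
    (hζ : ζ ∈ Ball 3) (hg : act (rho h g) ζ = ζ) :
    ev 0 ((g : Mtˣ) : Mt) *ᵥ ((P0 h).symm (ζ, 1)) = jj (rho h g) ζ • ((P0 h).symm (ζ, 1)) := by
  have h1 := apply_eq (rho h g) hζ
  rw [hg] at h1
  have h2 := rho_P0 h g ((P0 h).symm (ζ, 1))
  rw [LinearEquiv.apply_symm_apply, h1, gl_apply] at h2
  apply (P0 h).injective
  rw [← h2, map_smul, LinearEquiv.apply_symm_apply]


theorem prod_norm (μ : R5) : ∏ t, ‖Φ μ t‖ = ‖ρ1 μ‖ * ‖ρ2 μ‖ := by
  rw [Fin.prod_univ_two]; rfl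

theorem H5_neg1 : (dat.ρ1 (H5 3)).re < 0 := by
  show (ρ1 (-phi)).re < 0
  rw [map_neg, Complex.neg_re]; linarith [rho1_phi_pos]

theorem H5_pos1 : ∀ i, i ≠ 3 → 0 < (dat.ρ1 (H5 i)).re := by
  intro i hi
  fin_cases i
  · simp [H5]
  · simp [H5]
  · simp [H5]
  · exact absurd rfl hi

/-- **freeness**: the principal congruence subgroup acts freely on the ball as soon as
`N(μ) > 64`. -/
theorem gc_free' {g : Mtˣ} {μ : Fin 2 → ℂ} (hμ : μ ∈ O5) (hN : 64 < ∏ t, ‖μ t‖)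
    (hg : g ∈ GC O5 z5v μ) {p : Fin 4 → ℂ} (hp : Cls_620.Neg z5v p) {lam : ℂ}
    (hf : ev 0 (g : Mt) *ᵥ p = lam • p) : g = 1 := by
  obtain ⟨hgU, hgc⟩ := hg
  obtain ⟨S, hS⟩ := exists_lift hgU.1
  obtain ⟨m, rfl⟩ := hμ
  have hU := isU_of hS hgU.2.2
  have hC : Cong m S 1 := by
    intro i j
    apply dvd_of_O5
    obtain ⟨u, hu, e⟩ := hgc i j
    refine ⟨u, hu, ?_⟩
    rw [← e, map_sub, hS, Matrix.sub_apply]
    congr 1
    rw [Matrix.one_apply, Matrix.one_apply]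
    split_ifs <;> simp
  have hF : FixNeg dat H5 S := by
    refine ⟨p, lam, ?_, ?_⟩
    · rw [← h1_eq]; exact hp
    · have := ev0 hS
      rw [this] at hf
      exact hf
  have h1 : S = 1 := Free1_74.free dat H5 H5_st H5_pos2 (i0 := 3) H5_neg1 H5_pos1 one_le_norm m
    (by
      rw [prod_norm] at hN
      rw [Fintype.card_fin]
      calc (2 * ((4 : ℕ) : ℝ)) * (2 * ((4 : ℕ) : ℝ)) = 64 := by norm_num
        _ < _ := hN) S hU hC hF
  apply Units.ext
  refine Matrix.ext fun i j => ?_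
  rw [← hS, h1]
  show Φ ((1 : Matrix (Fin 4) (Fin 4) R5) i j) = (1 : Mt) i j
  rw [Matrix.one_apply, Matrix.one_apply]
  split_ifs <;> simp

/-- version on the ball, for any `Z5r O z` -/
theorem gc_free {O : Subring (Fin 2 → ℂ)} {z : Fin 2 → ℂ} (h : Z5r O z) {μ : Fin 2 → ℂ}
    (hμ : μ ∈ O) (hN : 64 < ∏ t, ‖μ t‖) (g : GU O z) (hg : (g : Mtˣ) ∈ GC O z μ) {ζ : E 3}
    (hζ : ζ ∈ Ball 3) (hf : act (rho h g) ζ = ζ) : g = 1 := by
  obtain ⟨rfl, rfl⟩ := Z5r_unique h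
  apply Subtype.ext
  exact gc_free' hμ hN hg (neg_of_ball h hζ) (fix_of_act h g hζ hf)

/-- **AR-FIX**: an element of the swap coset (modulo `(1-z)μ`) fixing a negative line is the
reflection in a mirror vector orthogonal to the line. -/
theorem swap_fix' {g : Mtˣ} {μ : Fin 2 → ℂ} (hμ : μ ∈ O5) (hN : 64 < ∏ t, ‖(Cls_620.pz z5v * μ) t‖)
    (h2 : ∃ c ∈ O5, μ = 2 * c) (hg : g ∈ GU O5 z5v)
    (hsw : Div O5 (Cls_620.pz z5v * μ) ((g : Mt) - swp)) {p : Fin 4 → ℂ}
    (hp : Cls_620.Neg z5v p) {lam : ℂ} (hf : ev 0 (g : Mt) *ᵥ p = lam • p) :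
    ∃ r, Cls_620.Mir O5 z5v μ r ∧ (∀ v, (g : Mt) *ᵥ v = Cls_620.rf (Cls_620.HH z5v) r v) ∧
      Cls_620.Perp z5v p r ∧ ev 0 (g : Mt) *ᵥ p = p := by
  obtain ⟨S, hS⟩ := exists_lift hg.1
  obtain ⟨m, rfl⟩ := hμ
  have hU := isU_of hS hg.2.2
  have hpz : Cls_620.pz z5v * Φ m = Φ ((1 - z) * m) := by
    rw [Cls_620.pz, map_mul, map_sub, map_one, z5v]
  rw [hpz] at hN hsw
  have hC : Cong ((1 - z) * m) S (Dat.swapM R5 1 2) := by
    intro i j
    apply dvd_of_O5
    obtain ⟨u, hu, e⟩ := hsw i j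
    refine ⟨u, hu, ?_⟩
    rw [← e, map_sub, hS, Φ_swapM, Matrix.sub_apply]
  have hfree : ∀ g : Matrix (Fin 4) (Fin 4) R5, IsU dat H5 g → Cong ((1 - z) * m) g 1 →
      FixNeg dat H5 g → g = 1 := by
    intro g hgU hgc hgf
    refine Free1_74.free dat H5 H5_st H5_pos2 (i0 := 3) H5_neg1 H5_pos1 one_le_norm
      ((1 - z) * m) ?_ g hgU hgc hgf
    rw [prod_norm] at hN
    rw [Fintype.card_fin]
    calc (2 * ((4 : ℕ) : ℝ)) * (2 * ((4 : ℕ) : ℝ)) = 64 := by norm_num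
      _ < _ := hN
  have hdvd2 : (2 : R5) ∣ (1 - z) * m := by
    obtain ⟨_, ⟨c, rfl⟩, hc⟩ := h2
    have : m = 2 * c := Φ_inj (by rw [hc, map_mul, map_ofNat])
    rw [this]
    exact ⟨(1 - z) * c, by ring⟩
  have hev := ev0 hS
  have hev' : ev 0 (g : Mt) = S.map ρ1 := hev
  rw [hev'] at hf
  obtain ⟨r, hR, ⟨a, ha⟩, hperp, hx⟩ := fix5 ((1 - z) * m) hdvd2 (Dvd.intro _ rfl)
    (by rw [prod_norm] at hN; linarith) hfree S hU hC p (by rw [← h1_eq]; exact hp) lam hf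
  -- action on vectors
  have hM : ∀ i j, (g : Mt) i j = (1 : Mt) i j
      - Φ (r i) * (Cls_620.HH z5v j * star (Φ (r j))) := by
    intro i j
    rw [← hS, hR.eq, one_mul, map_sub, map_mul, map_mul, Φ_H5, star_Φ]
    congr 1
    rw [Matrix.one_apply, Matrix.one_apply]
    split_ifs <;> simp
  have hact : ∀ v, (g : Mt) *ᵥ v = Cls_620.rf (Cls_620.HH z5v) (fun i => Φ (r i)) v := by
    intro v
    funext i
    simp only [Matrix.mulVec, dotProduct, Cls_620.rf, Pi.sub_apply, Pi.smul_apply, smul_eq_mul,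
      Cls_620.hh]
    have e1 : ∀ j, (g : Mt) i j * v j = (if i = j then v j else 0)
        - (Cls_620.HH z5v j * v j * star (Φ (r j))) * Φ (r i) := by
      intro j
      rw [hM, sub_mul, Matrix.one_apply]
      split_ifs <;> ring
    rw [Finset.sum_congr rfl fun j _ => e1 j, Finset.sum_sub_distrib, Finset.sum_ite_eq,
      if_pos (Finset.mem_univ _), ← Finset.sum_mul]
  refine ⟨fun i => Φ (r i), ⟨fun i => Φ_mem _, ?_, ?_⟩, hact, ?_, ?_⟩
  · have := hR.norm
    rw [one_mul] at this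
    rw [hh_Φ, this, map_ofNat]
  · intro x hx i
    rw [← hact, ← swp_mulVec, hpz]
    have e1 : ((g : Mt) *ᵥ x) i - (swp *ᵥ x) i = (((g : Mt) - swp) *ᵥ x) i := by
      rw [Matrix.sub_mulVec]; rfl
    rw [e1]
    choose u hu e using hsw
    refine ⟨∑ j, u i j * x j, O5.sum_mem fun j _ => O5.mul_mem (hu i j) (hx j), ?_⟩
    simp only [Matrix.mulVec, dotProduct]
    rw [Finset.mul_sum]
    refine Finset.sum_congr rfl fun j _ => ?_
    rw [e]; ring
  · unfold Cls_620.Perp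
    rw [← Cls_620.h1_star, h1_eq]
    have : dat.h1 H5 p (fun i => ρ1 (r i)) = 0 := hperp
    have e1 : Cls_620.at0 (0 : Fin 2) (fun i => Φ (r i)) = fun i => ρ1 (r i) := rfl
    rw [e1, this, star_zero]
  · rw [hev']; exact hx

/-- version on the ball for any `Z5r O z` -/
theorem swap_fix {O : Subring (Fin 2 → ℂ)} {z : Fin 2 → ℂ} (h : Z5r O z) {μ : Fin 2 → ℂ}
    (hμ : μ ∈ O) (hN : 64 < ∏ t, ‖(Cls_620.pz z * μ) t‖) (h2 : ∃ c ∈ O, μ = 2 * c) (g : GU O z)
    (hsw : Div O (Cls_620.pz z * μ) (((g : Mtˣ) : Mt) - swp)) {ζ : E 3} (hζ : ζ ∈ Ball 3)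
    (hf : act (rho h g) ζ = ζ) :
    ∃ r, Cls_620.Mir O z μ r ∧ (∀ v, ((g : Mtˣ) : Mt) *ᵥ v = Cls_620.rf (Cls_620.HH z) r v) ∧
      lin (io h r).1 ζ = 0 ∧ jj (rho h g) ζ = 1 := by
  obtain ⟨rfl, rfl⟩ := Z5r_unique h
  have hfix := fix_of_act h g hζ hf
  obtain ⟨r, hr, hact, hperp, hx⟩ := swap_fix' hμ hN h2 g.2 hsw (neg_of_ball h hζ) hfix
  refine ⟨r, hr, hact, ?_, ?_⟩
  · rw [lin_eq_hh, ← hh_conj, io_fst]
    have h1 := hh_P0 h (at' r 0) ((P0 h).symm (ζ, 1))
    rw [LinearEquiv.apply_symm_apply] at h1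
    rw [h1]
    have h3 : ht z5v 0 (at' r 0) ((P0 h).symm (ζ, 1)) = 0 := by
      unfold Cls_620.Perp at hperp
      rw [← hperp]
      simp only [ht, Cls_620.h1, Cls_620.c0, rr]
      rfl
    rw [h3, mul_zero, map_zero]
  · rw [hx] at hfix
    have hpne : (P0 h).symm (ζ, 1) ≠ 0 := by
      intro h0
      have := neg_of_ball h hζ
      unfold Cls_620.Neg at this
      rw [h0] at this
      simp [Cls_620.h1] at this
    have h4 : (1 - jj (rho h g) ζ) • (P0 h).symm (ζ, 1) = 0 := by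
      rw [sub_smul, one_smul, ← hfix, sub_self]
    rcases smul_eq_zero.1 h4 with h5 | h5
    · exact (sub_eq_zero.1 h5).symm
    · exact absurd h5 hpne

/-- two elements of the swap coset with a common fixed point are equal, and their square is one. -/
theorem swap_unique {O : Subring (Fin 2 → ℂ)} {z : Fin 2 → ℂ} (h : Z5r O z) {μ : Fin 2 → ℂ}
    (hμ : μ ∈ O) (hN : 64 < ∏ t, ‖μ t‖) (g g' : GU O z)
    (hg : Div O μ (((g : Mtˣ) : Mt) - swp)) (hg' : Div O μ (((g' : Mtˣ) : Mt) - swp))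
    {ζ : E 3} (hζ : ζ ∈ Ball 3) (hf : act (rho h g) ζ = ζ) (hf' : act (rho h g') ζ = ζ) :
    g * g' = 1 := by
  refine gc_free h hμ hN (g * g') ?_ hζ ?_
  · refine ⟨(g * g').2, ?_⟩
    have e1 : ((g * g' : GU O z) : Mtˣ) = (g : Mtˣ) * (g' : Mtˣ) := rfl
    have e2 : (((g : Mtˣ) * (g' : Mtˣ) : Mtˣ) : Mt) - 1
        = (((g : Mtˣ) : Mt) - swp) * ((g' : Mtˣ) : Mt) + swp * (((g' : Mtˣ) : Mt) - swp) := by
      rw [Units.val_mul, sub_mul, mul_sub, swp_mul_self]; abel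
    rw [e1, e2]
    refine (hg.mul_right g'.2.1).add (hg'.mul_left ?_)
    intro i j
    obtain ⟨rfl, rfl⟩ := Z5r_unique h
    rw [← Φ_swapM]; exact Φ_mem _
  · rw [map_mul, act_mul _ _ hζ, hf', hf]

/-- the matrix of the reflection in `r` -/
def refM (r : Fin 4 → R5) : Matrix (Fin 4) (Fin 4) R5 :=
  Matrix.of fun i j => (1 : Matrix (Fin 4) (Fin 4) R5) i j - 1 * r i * (H5 j * dat.st (r j))

theorem refM_mulVec (r v : Fin 4 → R5) :
    (fun i => Φ ((refM r *ᵥ v) i)) = Cls_620.rf (Cls_620.HH z5v) (fun i => Φ (r i))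
      (fun i => Φ (v i)) := by
  funext i
  simp only [Matrix.mulVec, dotProduct, Cls_620.rf, Pi.sub_apply, Pi.smul_apply, smul_eq_mul,
    refM, Matrix.of_apply]
  rw [hh_Φ, ← map_mul, ← map_sub]
  congr 1
  have e1 : ∀ j, ((1 : Matrix (Fin 4) (Fin 4) R5) i j - 1 * r i * (H5 j * dat.st (r j))) * v j
      = (if i = j then v j else 0) - (H5 j * v j * dat.st (r j)) * r i := by
    intro j
    rw [sub_mul, Matrix.one_apply]
    split_ifs <;> ring
  rw [Finset.sum_congr rfl fun j _ => e1 j, Finset.sum_sub_distrib, Finset.sum_ite_eq,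
    if_pos (Finset.mem_univ _), ← Finset.sum_mul, Dat.hR]

theorem mir_refl {m : R5} {r : Fin 4 → R5} (hr : Cls_620.Mir O5 z5v (Φ m) (fun i => Φ (r i))) :
    Refl dat H5 (refM r) 1 r ∧ Cong ((1 - z) * m) (refM r) (Dat.swapM R5 1 2) := by
  refine ⟨⟨map_one _, by simp, by simp, ?_, fun i j => rfl⟩, fun i j => ?_⟩
  · rw [one_mul]
    apply Φ_inj
    rw [← hh_Φ, hr.two, map_ofNat]
  · have h1 := hr.cong (fun k => Φ ((Pi.single j 1 : Fin 4 → R5) k)) (fun k => Φ_mem _) i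
    rw [← refM_mulVec, ← swp_mulVec] at h1
    apply dvd_of_O5
    obtain ⟨u, hu, e⟩ := h1
    refine ⟨u, hu, ?_⟩
    have hpz : Cls_620.pz z5v * Φ m = Φ ((1 - z) * m) := by
      rw [Cls_620.pz, map_mul, map_sub, map_one, z5v]
    rw [hpz] at e
    rw [← e, map_sub, Matrix.mulVec_single_one]
    congr 1
    simp only [Matrix.mulVec, dotProduct]
    rw [Finset.sum_eq_single j]
    · rw [Pi.single_eq_same, map_one, mul_one]; exact Φ_swapM i j
    · intro b _ hb
      rw [Pi.single_eq_of_ne hb, map_zero, mul_zero]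
    · simp

/-- **sparsity of mirrors** in the language of 620. -/
theorem mir_sparse {O : Subring (Fin 2 → ℂ)} {zz : Fin 2 → ℂ} (h : Z5r O zz) {μ : Fin 2 → ℂ}
    (hμ : μ ∈ O) {r r' : Fin 4 → Fin 2 → ℂ} (hr : Cls_620.Mir O zz μ r)
    (hr' : Cls_620.Mir O zz μ r') :
    ((∀ v, Cls_620.rf (Cls_620.HH zz) r v = Cls_620.rf (Cls_620.HH zz) r' v) ∧
      ∃ c : ℂ, ∀ i, r i 0 = c * r' i 0) ∨
    ∏ t, ‖(Cls_620.pz zz * μ) t‖ ≤ 4 * (‖Cls_620.hh (Cls_620.HH zz) r r' 0‖ ^ 2 + 4) := by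
  obtain ⟨rfl, rfl⟩ := Z5r_unique h
  obtain ⟨m, rfl⟩ := hμ
  have e : ∀ {r : Fin 4 → Fin 2 → ℂ}, Cls_620.Int' O5 r → ∃ s : Fin 4 → R5, (fun i => Φ (s i)) = r := by
    intro r hr
    choose s hs using hr
    exact ⟨s, funext hs⟩
  obtain ⟨s, rfl⟩ := e hr.int
  obtain ⟨s', rfl⟩ := e hr'.int
  obtain ⟨hR, hC⟩ := mir_refl hr
  obtain ⟨hR', hC'⟩ := mir_refl hr'
  have hpz : Cls_620.pz z5v * Φ m = Φ ((1 - z) * m) := by
    rw [Cls_620.pz, map_mul, map_sub, map_one, z5v]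
  rcases sparse dat H5 H5_st H5_pos2 one_le_norm hR hR' hC hC' with ⟨h1, c, hc⟩ | h1
  · left
    refine ⟨fun v => ?_, c, hc⟩
    have hm : ∀ (s : Fin 4 → R5) (v : Fin 4 → Fin 2 → ℂ),
        Cls_620.rf (Cls_620.HH z5v) (fun i => Φ (s i)) v
          = (Matrix.of fun i j => Φ (refM s i j)) *ᵥ v := by
      intro s v
      funext i
      simp only [Matrix.mulVec, dotProduct, Cls_620.rf, Pi.sub_apply, Pi.smul_apply, smul_eq_mul,
        Cls_620.hh, refM, Matrix.of_apply]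
      have e1 : ∀ j, Φ ((1 : Matrix (Fin 4) (Fin 4) R5) i j - 1 * s i * (H5 j * dat.st (s j))) * v j
          = (if i = j then v j else 0) - (Cls_620.HH z5v j * v j * star (Φ (s j))) * Φ (s i) := by
        intro j
        rw [map_sub, map_mul, map_mul, map_mul, map_one, Φ_H5, star_Φ, sub_mul, Matrix.one_apply]
        have : dat.st (s j) = st5 (s j) := rfl
        rw [this]
        split_ifs
        · rw [map_one]; ring
        · rw [map_zero]; ring
      rw [Finset.sum_congr rfl fun j _ => e1 j, Finset.sum_sub_distrib, Finset.sum_ite_eq,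
        if_pos (Finset.mem_univ _), ← Finset.sum_mul]
    rw [hm, hm, h1]
  · right
    rw [hpz, prod_norm]
    refine h1.trans (le_of_eq ?_)
    have e2 : (dat.ρ1 (1 : R5)).re = 1 := by rw [map_one, Complex.one_re]
    rw [e2, one_mul, one_mul, ← h1_eq, Complex.normSq_eq_norm_sq]
    congr 4
    rw [h1_eq, hh_Φ, Φ_zero]
    exact (dat.rho1_hR H5 s s').symm

end

end Crest.Agent.R272.O5_74
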