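import Mathlib
import Crest.Agent.R272.LbAd5_936
import Crest.Agent.R272.Per2_939
import Crest.Agent.R272.LbAsm5_990
import Crest.Agent.R272.Act1_302
import Crest.Agent.R272.Quot3_783
import Crest.Agent.R272.In2_68
import Crest.Agent.R272.Cls8_620
import Crest.Agent.R272.GLoc2_620
import Crest.Agent.R272.LbAsm4_990
import Crest.Agent.R272.GLoc5_620
import Crest.Agent.R272.Tp3_60
import Crest.Agent.R272.Cur5_297
import Crest.Agent.R272.P0a_939
import Crest.Agent.R272.CB1_232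
import Crest.Agent.R272.Tq2_916
import Crest.Agent.R272.Tq3_916
import Crest.Agent.R272.O5b_74
import Crest.Agent.R272.GInG1_502
import Crest.Agent.R272.Ball7_916
import Crest.Agent.R272.LbFin2_990
import Crest.Agent.R272.GInG2_502
import Crest.Agent.R272.LbAsm2_990
import Crest.Agent.R272.LbAsm3_990
import Crest.Agent.R272.LbFd_936
import Crest.Agent.R272.As156_338
import Crest.Agent.R272.Ax2_834

-- ▼ part R272/LbAd6_936
section

/-!
# LB-ADAPT, part 6 (row 272, lower bound for S0415; helper936)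

The degree of `θ'` on the lift of the segment between the slopes `ζ^-2` and `ζ^-3`.
-/

set_option autoImplicit false
set_option linter.unusedSectionVars false

open Set Filter Topology
open Crest.Agent.R272.EBase_641 Crest.Agent.R272.LbCap_382 Crest.Agent.R272.LbClu_382
  Crest.Agent.R272.Wei_392
open Crest.Agent.R272.Per_939 (HasDeg)
open scoped ComplexConjugate unitInterval

noncomputable section

namespace Crest.Agent.R272.LbSq_936

/-! ### the loop `γ · (ιγ)⁻¹` -/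


/-! ### the segment -/

variable {ζ : ℂ}

/-- the segment from `ζ^-2` to `ζ^-3` -/
def sgm (ζ : ℂ) (x : ℝ) : ℂ := (1 - x) * (starRingEnd ℂ) ζ ^ 2 + x * (starRingEnd ℂ) ζ ^ 3

theorem sgm_sq' (h : RZ ζ) (x : ℝ) : ‖sgm ζ x - -3 * ζ‖ ^ 2 =
    (10 - 3 * gr) + (7 * gr - 6) * x + (3 - gr) * x ^ 2 := by
  have hc := h.conj
  have e5 : ζ ^ 5 = 1 := h.pow5
  have e2 : (starRingEnd ℂ) ζ ^ 2 = ζ ^ 3 := by
    rw [hc]
    calc (ζ ^ 4) ^ 2 = ζ ^ 5 * ζ ^ 3 := by ring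
      _ = _ := by rw [e5, one_mul]
  have e3 : (starRingEnd ℂ) ζ ^ 3 = ζ ^ 2 := by
    rw [hc]
    calc (ζ ^ 4) ^ 3 = ζ ^ 5 * ζ ^ 5 * ζ ^ 2 := by ring
      _ = _ := by rw [e5, one_mul, one_mul]
  have hA : ‖ζ ^ 3 - -3 * ζ‖ ^ 2 = 10 - 3 * gr := by
    have := h.dist_bv 2 (by norm_num)
    rw [e2] at this
    rw [this]
    simp only [or_true, if_true]
    ring
  have hB : ‖ζ ^ 2 - ζ ^ 3‖ ^ 2 = 3 - gr := by
    have e : ζ ^ 2 - ζ ^ 3 = ζ ^ 2 * (1 - ζ) := by ring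
    rw [e, norm_mul, norm_pow, h.norm, one_pow, one_mul]
    have e' : (1 : ℂ) - ζ = 1 + -ζ := by ring
    rw [e', norm_sq_add, norm_neg, h.norm, norm_one, map_neg, one_mul, Complex.neg_re,
      Complex.conj_re, h.re1]
    ring
  have hX : ((ζ ^ 3 - -3 * ζ) * (starRingEnd ℂ) (ζ ^ 2 - ζ ^ 3)).re = (7 * gr - 6) / 2 := by
    have e6 : (starRingEnd ℂ) (ζ ^ 2 - ζ ^ 3) = ζ ^ 3 - ζ ^ 2 := by
      rw [map_sub, map_pow, map_pow, e2, e3]
    rw [e6]
    have e7 : (ζ ^ 3 - -3 * ζ) * (ζ ^ 3 - ζ ^ 2) = ζ - 1 + ((3 : ℝ) : ℂ) * (ζ ^ 4 - ζ ^ 3) := by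
      push_cast
      linear_combination (ζ - 1) * e5
    have e8 : (ζ ^ 4).re = (gr - 1) / 2 := by rw [← hc, Complex.conj_re, h.re1]
    rw [e7, Complex.add_re, Complex.sub_re, Complex.re_ofReal_mul, Complex.sub_re, h.re1, e8,
      h.re3, Complex.one_re]
    ring
  have e : sgm ζ x - -3 * ζ = (ζ ^ 3 - -3 * ζ) + (x : ℂ) * (ζ ^ 2 - ζ ^ 3) := by
    unfold sgm
    rw [e2, e3]
    ring
  rw [e, norm_sq_add, norm_mul, Complex.norm_real, mul_pow, Real.norm_eq_abs, sq_abs, map_mul,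
    Complex.conj_ofReal, hA, hB]
  have e9 : (ζ ^ 3 - -3 * ζ) * ((x : ℂ) * (starRingEnd ℂ) (ζ ^ 2 - ζ ^ 3)) =
      (x : ℂ) * ((ζ ^ 3 - -3 * ζ) * (starRingEnd ℂ) (ζ ^ 2 - ζ ^ 3)) := by ring
  rw [e9, Complex.re_ofReal_mul, hX]
  ring

theorem sgm_mono (h : RZ ζ) {x y : ℝ} (hx : 0 ≤ x) (hxy : x ≤ y) :
    ‖sgm ζ x - -3 * ζ‖ ≤ ‖sgm ζ y - -3 * ζ‖ := by
  apply le_of_sq_le_sq _ (norm_nonneg _)
  rw [sgm_sq' h, sgm_sq' h]
  have h1 := gr_lo
  have h2 := gr_hi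
  have h3 : 0 ≤ (7 * gr - 6) * (y - x) := mul_nonneg (by linarith) (by linarith)
  have h4 : 0 ≤ (3 - gr) * (y ^ 2 - x ^ 2) := mul_nonneg (by linarith) (by nlinarith)
  linarith

theorem sgm_zero (h : RZ ζ) : ‖sgm ζ 0 - -3 * ζ‖ ≤ 27 / 10 := by
  apply le_of_sq_le_sq _ (by norm_num)
  rw [sgm_sq' h]
  have h1 := gr_lo
  nlinarith

theorem sgm_one (h : RZ ζ) : 3 ≤ ‖sgm ζ 1 - -3 * ζ‖ := by
  apply le_of_sq_le_sq _ (norm_nonneg _)
  rw [sgm_sq' h]
  have h1 := gr_lo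
  nlinarith

theorem sgm_pre (h : RZ ζ) (m1 m2 : ℝ) :
    IsPreconnected {τ : I | m1 < ‖sgm ζ τ - -3 * ζ‖ / (1 + ‖sgm ζ τ - -3 * ζ‖) ∧
      ‖sgm ζ τ - -3 * ζ‖ / (1 + ‖sgm ζ τ - -3 * ζ‖) < m2} := by
  have hmono : ∀ x y : ℝ, 0 ≤ x → x ≤ y →
      ‖sgm ζ x - -3 * ζ‖ / (1 + ‖sgm ζ x - -3 * ζ‖) ≤
        ‖sgm ζ y - -3 * ζ‖ / (1 + ‖sgm ζ y - -3 * ζ‖) := by
    intro x y hx hxy
    have h1 := sgm_mono h hx hxy
    rw [div_le_div_iff₀ (by positivity) (by positivity)]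
    nlinarith
  rw [← IsInducing.subtypeVal.isPreconnected_image]
  have e : (Subtype.val '' {τ : I | m1 < ‖sgm ζ τ - -3 * ζ‖ / (1 + ‖sgm ζ τ - -3 * ζ‖) ∧
      ‖sgm ζ τ - -3 * ζ‖ / (1 + ‖sgm ζ τ - -3 * ζ‖) < m2}) =
      {x : ℝ | (0 ≤ x ∧ x ≤ 1) ∧ m1 < ‖sgm ζ x - -3 * ζ‖ / (1 + ‖sgm ζ x - -3 * ζ‖) ∧
      ‖sgm ζ x - -3 * ζ‖ / (1 + ‖sgm ζ x - -3 * ζ‖) < m2} := by
    ext x
    constructor
    · rintro ⟨τ, hτ, rfl⟩
      exact ⟨τ.2, hτ⟩
    · rintro ⟨hx, hx'⟩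
      exact ⟨⟨x, hx⟩, hx', rfl⟩
  rw [e]
  apply Set.OrdConnected.isPreconnected
  rw [Set.ordConnected_iff]
  rintro x hx y hy hxy w ⟨hw1, hw2⟩
  exact ⟨⟨hx.1.1.trans hw1, hw2.trans hy.1.2⟩, lt_of_lt_of_le hx.2.1 (hmono x w hx.1.1 hw1),
    lt_of_le_of_lt (hmono w y (hx.1.1.trans hw1) hw2) hy.2.2⟩

/-! ### the degree on the graph model -/

namespace Gm

variable {P : Type*} [TopologicalSpace P] {n d : P → ℂ}
variable {Y : Type*} [TopologicalSpace Y] {z : Y → E3} {t k : Y → P}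
    {e : ℂ} {a0 b0 qN qD : E3 → ℂ} {SN SD : Finset (V1 3)}



end Gm

end Crest.Agent.R272.LbSq_936
end
end

-- ▼ part R272/LbX1_990
section

/-!
# Row 272, LB-ASM (helper990), part 6: the lower bound on 559's model `X_1` with 302's action

`A : GAct GD Γ` (302) over the ball `BX φ` (783), `GD : GData (ballFam φ)` (559), one root function per
class (`LbSq_936.Cla`).  `exists_wl_X`: the wall function on `A.X`; `kact`; `arc_of`: the arc
`[ζ⁻², ζ⁻³]`; `a0_eq`, `b0_eq`: the factors at the base point; `lb_X`: the lower bound.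
-/

set_option autoImplicit false
set_option linter.unusedSectionVars false

open scoped ComplexConjugate Topology unitInterval
open Crest.Agent.R272.EBase_641 Crest.Agent.R272.LbPP_990 Crest.Agent.R272.LbSep_990
open Crest.Agent.R272.St2_702 Crest.Agent.R272.LbCap_382
open Crest.Agent.R272.LbFin_990 Crest.Agent.R272.LbFin2_990 Crest.Agent.R272.Per_939
open Crest.Agent.R272.CovOrd_463 Crest.Agent.R272.LbExt_259 Crest.Agent.R272.TLoop_463
open Crest.Agent.R272.UB_20 Crest.Agent.R272.MQ_783 Crest.Agent.R272.Refl_246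
open Crest.Agent.R272.AJ_956
open Crest.Agent.R272.Gr_559 Crest.Agent.R272.Act_302 Crest.Agent.R272.Quot_783
open Crest.Agent.R272.Cls_620 (Lb)

namespace Crest.Agent.R272.LbAsm_990

noncomputable section

variable {Γ : Type} [Group Γ] {φ : Γ →* UG 3} {GD : GData (ballFam φ)} (A : GAct GD Γ)

/-- the ball coordinate -/
def zX (y : A.X) : E 3 := (A.pz y).val

/-- the coordinates of colour `0` -/
def tX (y : A.X) : P1 := GD.t 0 y
def kX (y : A.X) : P1 := GD.k 0 y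

theorem continuous_zX : Continuous (zX A) := BX.continuous_val.comp A.continuous_pz

theorem zX_lt (y : A.X) : ‖zX A y‖ < 1 := BX.norm_lt _

theorem zX_smul (g : Γ) (y : A.X) : zX A (g • y) = act (φ g) (zX A y) := by
  show (A.pz (g • y)).val = _
  rw [A.pz_smul, BX.val_smul]
  rfl

/-- the projection to the double cover of colour `0` -/
def pY (y : A.X) : GD.Y 0 := ⟨(A.pz y, GD.t 0 y, GD.k 0 y), (A.val_mem y).1 0⟩

theorem continuous_pY : Continuous (pY A) := by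
  have h : Continuous A.val := A.continuous_val
  refine Continuous.subtype_mk ?_ _
  have h1 : Continuous fun y : A.X => (A.val y).1 := continuous_fst.comp h
  have h2 : Continuous fun y : A.X => (A.val y).2.1 0 :=
    (continuous_apply 0).comp (continuous_fst.comp (continuous_snd.comp h))
  have h3 : Continuous fun y : A.X => (A.val y).2.2.2 0 :=
    (continuous_apply 0).comp (continuous_snd.comp (continuous_snd.comp (continuous_snd.comp h)))
  exact h1.prodMk (h2.prodMk h3)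

/-- the colour preserving subgroup acts by factors depending on the base point only -/
theorem kact {K : Subgroup Γ} (hK : ∀ g ∈ K, A.σ g 0 = 0) :
    KAct K P1.n P1.d (zX A) (tX A) (kX A) where
  kz g _ x y h := by rw [zX_smul, zX_smul, h]
  kt g hg x y h ht := by
    have hp : A.pz x = A.pz y := BX.ext h
    have h1 := A.t_smul g x 0
    have h2 := A.t_smul g y 0
    rw [hK g hg] at h1 h2
    have ht' : GD.t 0 x = GD.t 0 y := ht
    show GD.t 0 (g • x : A.X) = GD.t 0 (g • y : A.X)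
    rw [h1, h2, hp, ht']
  kk g hg x y h hk := by
    have hp : A.pz x = A.pz y := BX.ext h
    have h1 := A.k_smul g x 0
    have h2 := A.k_smul g y 0
    rw [hK g hg] at h1 h2
    show P1.n (GD.k 0 (g • y : A.X)) * P1.d (GD.k 0 (g • x : A.X)) =
      -(P1.n (GD.k 0 (g • x : A.X)) * P1.d (GD.k 0 (g • y : A.X)))
    rw [h1, h2, hp]
    have hk' : P1.n (GD.k 0 y) * P1.d (GD.k 0 x) = -(P1.n (GD.k 0 x) * P1.d (GD.k 0 y)) := hk
    obtain ⟨c, hc, e1, e2⟩ := P1F_54.mulP_rel (A.p_ne g 0 (A.pz y)) (A.q_ne g 0 (A.pz y))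
      (GD.k 0 x)
    obtain ⟨c', hc', e3, e4⟩ := P1F_54.mulP_rel (A.p_ne g 0 (A.pz y)) (A.q_ne g 0 (A.pz y))
      (GD.k 0 y)
    simp only [P1A_54.n_eq, P1A_54.d_eq] at *
    apply mul_left_cancel₀ (mul_ne_zero hc hc')
    generalize P1F_54.mulP (A.p g 0 (A.pz y)) (A.q g 0 (A.pz y)) (GD.k 0 x) = mx at *
    generalize P1F_54.mulP (A.p g 0 (A.pz y)) (A.q g 0 (A.pz y)) (GD.k 0 y) = my at *
    have s1 : c * c' * (P1F_54.nn my * P1F_54.dd mx) = (c' * P1F_54.nn my) * (c * P1F_54.dd mx) := by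
      ring
    have s2 : c * c' * -(P1F_54.nn mx * P1F_54.dd my) =
        -((c * P1F_54.nn mx) * (c' * P1F_54.dd my)) := by ring
    rw [s1, s2, ← e1, ← e2, ← e3, ← e4]
    linear_combination (A.p g 0 (A.pz y) * A.q g 0 (A.pz y)) * hk'

/-- **the wall function on `X_1`.** -/
theorem exists_wl_X {ζ : ℂ} {Cc : Lb → Set (V1 3)} {Fn : Lb → E 3 → ℂ}
    (D : LbSq_936.Cla ζ Cc Fn)
    (h0 : ∀ p : BX φ, GD.f0 p = Fn .o p.val) (hx : ∀ p : BX φ, GD.x 0 p = Fn (.v false 0) p.val)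
    (hP : ∀ p : BX φ, GD.P 0 p = LbSq_936.PF Fn p.val)
    (hQ : ∀ p : BX φ, GD.Q 0 p = LbSq_936.QF Fn p.val)
    {W : Set (V1 3)} {Λ : ℝ} (hW2 : ∀ w ∈ W, hh w w = 2)
    {ι : Type*} {V : ι → V1 3} (hL : Link W Λ V)
    {Nn : ι → ℝ} {Nmin Nmax c0 Lam Lam' kc : ℝ}
    (Wd : LbSq_936.WData ι V Nn Nmin Nmax c0 Lam Lam' kc)
    (hrest : ∀ v ∈ LbSq_936.Sall Cc, v ∉ LbSq_936.S0 ζ → (∃ i, V i = v) ∨
      LbSq_936.IsBr ζ 4 v ∨ LbSq_936.IsBr ζ 1 v ∨ LbSq_936.IsBr ζ 2 v)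
    (hδ : slopeδ kc (capA Nmin c0) Nmax Lam' < 7 / 100000)
    (hΛ : 0 < Λ) {C0 : ℝ} (hC : 0 ≤ C0) (hkC : 1 + C0 + 2 * C0 / Λ * kc ≤ kc ^ 2) :
    ∃ (a0 b0 : E 3 → ℂ) (θ : A.X → Cir), ContinuousOn a0 (Metric.ball 0 1) ∧
      ContinuousOn b0 (Metric.ball 0 1) ∧ b0 0 ≠ 0 ∧
      (∀ w : E 3, ‖w‖ < 1 → Fn .o w = a0 w * w 0) ∧
      (∀ w : E 3, ‖w‖ < 1 → Fn (.v false 0) w = b0 w * (w 1 - w 0)) ∧
      Wl P1.n P1.d (zX A) (tX A) (kX A)
        (fun y => LbSq_936.Gm.aa (-3 * ζ) P1.n P1.d 1 a0 b0 (zX A) (tX A) y) (27 / 37) (3 / 4)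
        (OO W 6 C0 Λ) θ := by
  obtain ⟨a0, b0, qN, qD, H⟩ := D.fac
  have G := LbSq_936.gm_Y D H GD (fun p : BX φ => p.val) BX.continuous_val (fun p => p.norm_lt)
    h0 hx hP hQ (Flat2_302.cont_of (GD.x_hol 0)) (Flat2_302.cont_of GD.f0_hol)
    (Flat2_302.cont_of (GD.P_hol 0)) (Flat2_302.cont_of (GD.Q_hol 0))
  have hζ := D.rz.norm
  have hc : ‖(-3 * ζ : ℂ)‖ = 3 := by
    rw [norm_mul, hζ, mul_one, norm_neg]
    norm_num
  have e1 : (27 / 10 : ℝ) / (1 + 27 / 10) = 27 / 37 := by norm_num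
  have e2 : (3 : ℝ) / (1 + 3) = 3 / 4 := by norm_num
  have Fd := D.fdata V hrest
  rw [← e1, ← e2] at Fd
  obtain ⟨θ, hθ⟩ := exists_wl hW2 G hL Wd Fd (H.ad D.rz) (LbSq_936.prod_S0 D.rz)
    (by norm_num) (by linarith) (by rw [hc]; norm_num; linarith) hΛ (r := 6)
    (by rw [hc]; norm_num) hC hkC
  rw [e1, e2] at hθ
  refine ⟨a0, b0, fun y => θ (pY A y), H.ca0, H.cb0, ?_, H.e0, fun w hw => ?_, ?_⟩
  · exact H.b0n 0 (by rw [norm_zero]; exact one_pos) rfl rfl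
  · rw [H.e1 w hw, one_mul]
  · exact hθ.comap (continuous_pY A)

/-! ### the factors at the base point -/

/-- points off a hyperplane accumulate at the origin -/
theorem neBot_of (l : E 3 →L[ℂ] ℂ) {v : E 3} (hv : l v ≠ 0) {p₀ : BX φ} (hp0 : p₀.val = 0) :
    (𝓝[{q : BX φ | l q.val ≠ 0}] p₀).NeBot := by
  rw [← mem_closure_iff_nhdsWithin_neBot, mem_closure_iff_nhds]
  intro U hU
  rw [BX.isOpenEmbedding_val.isInducing.nhds_eq_comap, hp0] at hU
  obtain ⟨U', hU', hUU⟩ := hU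
  have hc : ContinuousAt (fun s : ℂ => s • v) 0 := by fun_prop
  have h1 : ∀ᶠ s : ℂ in 𝓝 0, s • v ∈ U' ∩ Metric.ball (0 : E 3) 1 := by
    apply hc
    show U' ∩ Metric.ball (0 : E 3) 1 ∈ 𝓝 ((0 : ℂ) • v)
    rw [zero_smul]
    exact Filter.inter_mem hU' (Metric.ball_mem_nhds 0 one_pos)
  have h2 : ∀ᶠ s : ℂ in 𝓝[≠] 0, s • v ∈ U' ∩ Metric.ball (0 : E 3) 1 :=
    h1.filter_mono nhdsWithin_le_nhds
  have h3 : ∀ᶠ s : ℂ in 𝓝[≠] 0, s ≠ 0 := eventually_mem_nhdsWithin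
  obtain ⟨s, hs, hs0⟩ := (h2.and h3).exists
  refine ⟨BX.mk φ (s • v) hs.2, hUU ?_, ?_⟩
  · exact hs.1
  · show l (s • v) ≠ 0
    rw [map_smul, smul_eq_mul]
    exact mul_ne_zero hs0 hv

/-- comparison of two unit factors -/
theorem factor_eq (l : E 3 →L[ℂ] ℂ) {v : E 3} (hv : l v ≠ 0) {p₀ : BX φ} (hp0 : p₀.val = 0)
    {a0 : E 3 → ℂ} (ha : ContinuousOn a0 (Metric.ball 0 1)) {f : BX φ → ℂ} {U : Set (BX φ)}
    (hU : U ∈ 𝓝 p₀) (hf : ContinuousAt f p₀)
    (h : ∀ q ∈ U, a0 q.val * l q.val = f q * l q.val) : a0 0 = f p₀ := by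
  have := neBot_of (φ := φ) l hv hp0
  have hB : Metric.ball (0 : E 3) 1 ∈ 𝓝 p₀.val := by
    rw [hp0]; exact Metric.ball_mem_nhds 0 one_pos
  have h1 : ContinuousAt (fun q : BX φ => a0 q.val) p₀ :=
    ContinuousAt.comp (f := fun q : BX φ => q.val) (ha.continuousAt hB)
      BX.continuous_val.continuousAt
  have h2 : (fun q : BX φ => a0 q.val) =ᶠ[𝓝[{q : BX φ | l q.val ≠ 0}] p₀] f := by
    filter_upwards [mem_nhdsWithin_of_mem_nhds hU, self_mem_nhdsWithin] with q hq hq0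
    exact mul_right_cancel₀ hq0 (h q hq)
  have h3 : Filter.Tendsto f (𝓝[{q : BX φ | l q.val ≠ 0}] p₀) (𝓝 (a0 p₀.val)) :=
    (h1.mono_left nhdsWithin_le_nhds).congr' h2
  have h4 := tendsto_nhds_unique h3 (hf.mono_left nhdsWithin_le_nhds)
  rwa [hp0] at h4

/-- real slope over the origin (936's `aa_fib` without the graph model) -/
theorem aa_fib' {Y P : Type*} {n d : P → ℂ} {z : Y → E 3} {t : Y → P} {e c : ℂ}
    {a0 b0 : E 3 → ℂ} (hb : b0 0 ≠ 0) {y : Y} (hy : z y = 0) {s : ℂ}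
    (hs : a0 0 * n (t y) = (s - e) * (b0 0 * d (t y))) (hd : d (t y) ≠ 0) :
    LbSq_936.Gm.aa c n d e a0 b0 z t y = ‖s - c‖ / (1 + ‖s - c‖) := by
  have hF : LbSq_936.Gm.F1 z y := by
    unfold LbSq_936.Gm.F1
    rw [hy]
    exact ⟨rfl, rfl⟩
  have h0 : LbSq_936.Gm.sg0 b0 d z t y ≠ 0 := by
    unfold LbSq_936.Gm.sg0
    rw [hy]
    exact mul_ne_zero hb hd
  have h1 : LbSq_936.Gm.sg1 n d e a0 b0 z t y = s * LbSq_936.Gm.sg0 b0 d z t y := by
    unfold LbSq_936.Gm.sg0 LbSq_936.Gm.sg1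
    rw [hy]
    linear_combination hs
  unfold LbSq_936.Gm.aa
  rw [if_pos hF, h1]
  have e1 : LbSq_936.ms c (LbSq_936.Gm.sg0 b0 d z t y) (s * LbSq_936.Gm.sg0 b0 d z t y) =
      LbSq_936.ms c (LbSq_936.Gm.sg0 b0 d z t y * 1) (LbSq_936.Gm.sg0 b0 d z t y * s) := by
    rw [mul_one, mul_comm s]
  rw [e1, LbSq_936.ms_smul h0]
  unfold LbSq_936.ms
  rw [norm_one, mul_one]

/-- the arc over the segment `[ζ⁻², ζ⁻³]` -/
theorem arc_of {C : Type} [TopologicalSpace C] {ζ : ℂ} (hζ : LbSq_936.RZ ζ) {f : C → ℝ}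
    {γ : C(I, C)}
    (hf : ∀ τ : I, f (γ τ) = ‖LbSq_936.sgm ζ τ - -3 * ζ‖ / (1 + ‖LbSq_936.sgm ζ τ - -3 * ζ‖)) :
    Arc f (27 / 37) (3 / 4) γ := by
  have hmono : ∀ {x y : ℝ}, 0 ≤ x → x ≤ y → x / (1 + x) ≤ y / (1 + y) := by
    intro x y hx hxy
    rw [div_le_div_iff₀ (by linarith) (by linarith)]
    nlinarith
  refine ⟨?_, Or.inl ⟨?_, ?_⟩⟩
  · have := LbSq_936.sgm_pre hζ (27 / 37) (3 / 4)
    convert this using 4 with τ
    · rw [hf τ]
    · rw [hf τ]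
  · rw [hf 0]
    have h1 := hmono (norm_nonneg _) (LbSq_936.sgm_zero hζ)
    refine (le_of_eq ?_).trans (h1.trans (by norm_num))
    simp
  · rw [hf 1]
    have h1 := hmono (by norm_num) (LbSq_936.sgm_one hζ)
    refine le_trans (by norm_num) (h1.trans (le_of_eq ?_))
    simp

/-- **THE LOWER BOUND ON `X_1`.** -/
theorem lb_X
    -- the group
    {W : Set (V1 3)} {Λ : ℝ} (Gd : GrpData φ W Λ) (hW : ∀ g : Γ, ∀ w ∈ W, (φ g).1 w ∈ W)
    [ContinuousConstSMul Γ (BX φ)] [ProperlyDiscontinuousSMul Γ (BX φ)]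
    (hstab : ∀ (b : BX φ) (g : Γ), g • b = b → g ∈ Gd.R) (hKσ : ∀ g ∈ Gd.K, A.σ g 0 = 0)
    -- the classes
    {ζ : ℂ} {Cc : Lb → Set (V1 3)} {Fn : Lb → E 3 → ℂ} (D : LbSq_936.Cla ζ Cc Fn)
    (h0 : ∀ p : BX φ, GD.f0 p = Fn .o p.val) (hx : ∀ p : BX φ, GD.x 0 p = Fn (.v false 0) p.val)
    (hP : ∀ p : BX φ, GD.P 0 p = LbSq_936.PF Fn p.val)
    (hQ : ∀ p : BX φ, GD.Q 0 p = LbSq_936.QF Fn p.val)
    -- the base point
    {p₀ : BX φ} (hp0 : p₀.val = 0) (p : Pen (ballFam φ) GD.f0 (GD.x 0) (GD.P 0) (GD.Q 0) p₀)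
    {cc : ℂ} (hs0 : ∀ q, p.s0 q = cc * q.val 0) (hs1 : ∀ q, p.s1 q = cc * q.val 1)
    (hc5 : p.c 5 = 1)
    -- the far vectors
    {ι : Type*} {V : ι → V1 3} (hL : Link W Λ V)
    {Nn : ι → ℝ} {Nmin Nmax c0 Lam Lam' kc : ℝ}
    (Wd : LbSq_936.WData ι V Nn Nmin Nmax c0 Lam Lam' kc)
    (hrest : ∀ v ∈ LbSq_936.Sall Cc, v ∉ LbSq_936.S0 ζ → (∃ i, V i = v) ∨
      LbSq_936.IsBr ζ 4 v ∨ LbSq_936.IsBr ζ 1 v ∨ LbSq_936.IsBr ζ 2 v)
    (hδ : slopeδ kc (capA Nmin c0) Nmax Lam' < 7 / 100000)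
    (hΛ : (10 : ℝ) ^ 10 ≤ Λ) {C0 : ℝ} (hC : 16512 < C0) (hCΛ : 6 * C0 ≤ Λ ^ 2)
    (hkC : 1 + C0 + 2 * C0 / Λ * kc ≤ kc ^ 2)
    -- the curve and the torus
    {C A' : Type} [TopologicalSpace C] [TopologicalSpace A'] {𝒞 : Cur C} {q : C × C → A'}
    {L : AddSubgroup E2} {πA : E2 → A'} (J : 𝒞.IsJac q L πA) (hq : Continuous q)
    -- the fibre over the origin
    {j : C × C → A.X} (hj : Fib 𝒞.iv P1.n P1.d (zX A) (tX A) (kX A) j)
    (hsw : ∀ x, Gd.σ • j x = j x.swap)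
    -- the surgery
    {X' : Type} [TopologicalSpace X'] {π' : X' → Orb Γ (BX φ)} {Vs : Set X'}
    {ψ : X' → Orb Γ A.X} {eX : Set (Orb Γ A.X)} (Sg : Surg (orbMap A.pz A.pz_smul) π' Vs ψ eX)
    (heX : ∀ y : A.X, pr Γ y ∈ eX → ∃ (g : Γ) (x : C), y = g • j (x, 𝒞.iv x))
    -- the torus map
    {F : C(E2, X')} {inc : A' → X'} (hF : ∀ v, F v = inc (πA v)) (hper : Per F L)
    {P₀ : C} (hVs : ∀ x, x ≠ 𝒞.iv P₀ → inc (q (x, P₀)) ∈ Vs)
    (hψ : ∀ x, x ≠ 𝒞.iv P₀ → ψ (inc (q (x, P₀))) = pr Γ (j (x, P₀)))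
    -- the arc
    {γ : C(I, C)} (hγP : ∀ τ, γ τ ≠ P₀ ∧ γ τ ≠ 𝒞.iv P₀)
    (hγd : ∀ τ, P1.d (tX A (j (γ τ, P₀))) ≠ 0)
    (hγs : ∀ τ : I, p.a p₀ * P1.n (tX A (j (γ τ, P₀))) =
      (LbSq_936.sgm ζ τ - 1) * (p.b p₀ * P1.d (tX A (j (γ τ, P₀)))))
    {hh : C(I, E2)} (H : IsInt 𝒞 γ hh) (hs : 𝒞.iv (γ 0) = γ 0) (he : 𝒞.iv (γ 1) = γ 1)
    (v₀ : E2) :
    ¬ IsOfFinOrder (perHom hper v₀
      (Multiplicative.ofAdd (⟨hh 1 + hh 1, two_mem J hq H hs he⟩ : L))) := by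
  have hΛ0 : 0 < Λ := lt_of_lt_of_le (by norm_num) hΛ
  obtain ⟨a0, b0, θ, ca, cb, hb0, e0, e1, hθ⟩ := exists_wl_X A D h0 hx hP hQ
    (fun w hw => Gd.wsys.norm w hw) hL Wd hrest hδ hΛ0 (by linarith) hkC
  -- the factors at the base point
  have hU : p.U ∈ 𝓝 p₀ := p.U_open.mem_nhds p.mem
  have hpa : ContinuousAt p.a p₀ := ((P1A_54.holF_iff p.U_open).1 p.a_hol p₀ p.mem).continuousAt
  have hpb : ContinuousAt p.b p₀ := ((P1A_54.holF_iff p.U_open).1 p.b_hol p₀ p.mem).continuousAt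
  have ea : a0 0 = cc * p.a p₀ := by
    refine factor_eq (EuclideanSpace.proj (𝕜 := ℂ) (0 : Fin 3)) (v := EuclideanSpace.single 0 1)
      (by simp) hp0 ca (f := fun q => cc * p.a q) hU (continuousAt_const.mul hpa) ?_
    intro q hq
    have h1 := p.ef q hq
    rw [h0, e0 _ q.norm_lt, hs0] at h1
    show a0 q.val * q.val 0 = cc * p.a q * q.val 0
    linear_combination h1
  have eb : b0 0 = cc * p.b p₀ := by
    refine factor_eq (EuclideanSpace.proj (𝕜 := ℂ) (1 : Fin 3) -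
      EuclideanSpace.proj (𝕜 := ℂ) (0 : Fin 3)) (v := EuclideanSpace.single 1 1)
      (by simp) hp0 cb (f := fun q => cc * p.b q) hU (continuousAt_const.mul hpb) ?_
    intro q hq
    have h1 := p.ex q hq
    rw [hx, e1 _ q.norm_lt, hs0, hs1, hc5] at h1
    show b0 q.val * (q.val 1 - q.val 0) = cc * p.b q * (q.val 1 - q.val 0)
    linear_combination h1
  have harc : Arc (fun x => LbSq_936.Gm.aa (-3 * ζ) P1.n P1.d 1 a0 b0 (zX A) (tX A)
      (j (x, P₀))) (27 / 37) (3 / 4) γ := by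
    refine arc_of D.rz fun τ => ?_
    refine aa_fib' hb0 (hj.jz _) ?_ (hγd τ)
    rw [ea, eb]
    linear_combination cc * hγs τ
  refine lb_wl hθ (fun y y' hz ht => aa_congr hz ht) (continuous_zX A) (zX_lt A) Gd hW hstab
    A.continuous_pz A.pz_smul (zX_smul A) (kact A hKσ) hΛ (by norm_num) hC hCΛ ?_ J hq hj hsw Sg
    heX hF hper hVs hψ hγP harc H hs he v₀
  have : (1000 : ℝ) < Λ := lt_of_lt_of_le (by norm_num) hΛ
  linarith

end

end Crest.Agent.R272.LbAsm_990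
end

-- ▼ part R272/WMdef_74
section

/-!
helper74, row 272: the set of mirror vectors of the swap coset in `V1 3`, scaled to norm 2.
-/

set_option autoImplicit false
set_option linter.unusedSectionVars false
set_option linter.unusedVariables false

open scoped ComplexConjugate
open Matrix

namespace Crest.Agent.R272.WM_74

open Crest.Agent.R272.In_68 Crest.Agent.R272.EBase_641

noncomputable section

variable {O : Subring (Fin 2 → ℂ)} {z : Fin 2 → ℂ}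

variable (z) in
/-- the scaling factor -/
def sc : ℝ := (Real.sqrt (dd z 0))⁻¹

theorem sc_pos (h : Z5r O z) : 0 < sc z := inv_pos.2 (Real.sqrt_pos.2 (dd_pos h 0))

theorem sc_sq (h : Z5r O z) : sc z * sc z * dd z 0 = 1 := by
  have h1 := dd_pos h 0
  have h2 : Real.sqrt (dd z 0) * Real.sqrt (dd z 0) = dd z 0 := Real.mul_self_sqrt h1.le
  have h3 : Real.sqrt (dd z 0) ≠ 0 := (Real.sqrt_pos.2 h1).ne'
  unfold sc
  have h4 : (√(dd z 0))⁻¹ * (√(dd z 0))⁻¹ * (√(dd z 0) * √(dd z 0)) = 1 := by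
    field_simp
  rwa [h2] at h4

theorem sc_ww (h : Z5r O z) {i : Fin 4} (hi : Cls_620.HH z i 0 = 1) : sc z * ww z i 0 = 1 := by
  have h1 := dd_pos h 0
  have h3 : Real.sqrt (dd z 0) ≠ 0 := (Real.sqrt_pos.2 h1).ne'
  unfold sc ww rr
  rw [hi, Complex.one_re, abs_one, mul_one, inv_mul_cancel₀ h3]

/-- the vector of `r` in `V1 3`, scaled such that norms are those of `hh (HH z)` at the place `0`. -/
def wv (h : Z5r O z) (r : Fin 4 → Fin 2 → ℂ) : V1 3 := (sc z : ℂ) • (io h r).1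

theorem hh_wv (h : Z5r O z) (r r' : Fin 4 → Fin 2 → ℂ) :
    hh (wv h r) (wv h r') = Cls_620.hh (Cls_620.HH z) r r' 0 := by
  rw [wv, wv, hh_smul_left, hh_smul_right, hh_io, Complex.conj_ofReal]
  have h1 : ((sc z * sc z * dd z 0 : ℝ) : ℂ) = 1 := by rw [sc_sq h]; simp
  push_cast at h1
  linear_combination (Cls_620.hh (Cls_620.HH z) r r' 0) * h1

theorem wv_zero (h : Z5r O z) (r : Fin 4 → Fin 2 → ℂ) : (wv h r).1 0 = r 0 0 := by
  have h1 : ((sc z * ww z 0 0 : ℝ) : ℂ) = 1 := by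
    rw [sc_ww h (by simp [Cls_620.HH])]; simp
  push_cast at h1
  show (sc z : ℂ) * ((ww z 0 0 : ℂ) * r 0 0) = r 0 0
  linear_combination r 0 0 * h1

theorem wv_one (h : Z5r O z) (r : Fin 4 → Fin 2 → ℂ) : (wv h r).1 1 = r 1 0 := by
  have h1 : ((sc z * ww z 1 0 : ℝ) : ℂ) = 1 := by
    rw [sc_ww h (by simp [Cls_620.HH])]; simp
  push_cast at h1
  show (sc z : ℂ) * ((ww z 1 0 : ℂ) * r 1 0) = r 1 0
  linear_combination r 1 0 * h1

theorem wv_two (h : Z5r O z) (r : Fin 4 → Fin 2 → ℂ) : (wv h r).1 2 = r 2 0 := by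
  have h1 : ((sc z * ww z 2 0 : ℝ) : ℂ) = 1 := by
    rw [sc_ww h (by simp [Cls_620.HH])]; simp
  push_cast at h1
  show (sc z : ℂ) * ((ww z 2 0 : ℂ) * r 2 0) = r 2 0
  linear_combination r 2 0 * h1

theorem lin_smul' (c : ℂ) (v : V1 3) (ζ : E 3) : lin (c • v) ζ = conj c * lin v ζ := by
  rw [lin_eq_hh, lin_eq_hh, hh_smul_right]

theorem lin_wv (h : Z5r O z) (r : Fin 4 → Fin 2 → ℂ) (ζ : E 3) :
    lin (wv h r) ζ = sc z * lin (io h r).1 ζ := by
  rw [wv, lin_smul', Complex.conj_ofReal]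

theorem lin_wv_zero (h : Z5r O z) (r : Fin 4 → Fin 2 → ℂ) (ζ : E 3) :
    lin (wv h r) ζ = 0 ↔ lin (io h r).1 ζ = 0 := by
  have h1 : (sc z : ℂ) ≠ 0 := by exact_mod_cast (sc_pos h).ne'
  rw [lin_wv, mul_eq_zero]
  tauto

theorem rho_wv (h : Z5r O z) (g : GU O z) (r : Fin 4 → Fin 2 → ℂ) :
    (rho h g).1 (wv h r) = wv h (((g : Mtˣ) : Mt) *ᵥ r) := by
  rw [wv, wv, map_smul, io_mulVec]

/-- every vector of `V1 3` is `wv` of something -/
theorem exists_wv (h : Z5r O z) (x : V1 3) : ∃ v : Fin 4 → Fin 2 → ℂ, wv h v = x := by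
  have h1 : (sc z : ℂ) ≠ 0 := by exact_mod_cast (sc_pos h).ne'
  refine ⟨(io h).symm ((sc z : ℂ)⁻¹ • x, 0), ?_⟩
  rw [wv, LinearEquiv.apply_symm_apply]
  simp [smul_smul, h1]

theorem wv_sub (h : Z5r O z) (v w : Fin 4 → Fin 2 → ℂ) : wv h (v - w) = wv h v - wv h w := by
  rw [wv, wv, wv, map_sub, Prod.fst_sub, smul_sub]

theorem wv_smul (h : Z5r O z) (c : Fin 2 → ℂ) (v : Fin 4 → Fin 2 → ℂ) :
    wv h (c • v) = c 0 • wv h v := by
  have e1 : (io h (c • v)).1 = c 0 • (io h v).1 := by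
    rw [io_fst, io_fst, ← map_smul]; rfl
  rw [wv, wv, e1, smul_comm]

/-- **the mirror vectors** -/
def WM (h : Z5r O z) (μ : Fin 2 → ℂ) : Set (V1 3) := wv h '' {r | Cls_620.Mir O z μ r}


theorem WM_norm (h : Z5r O z) {μ : Fin 2 → ℂ} : ∀ w ∈ WM h μ, hh w w = 2 := by
  rintro _ ⟨r, hr, rfl⟩
  rw [hh_wv, hr.two]; rfl

end

end Crest.Agent.R272.WM_74
end

-- ▼ part R272/LbAd7_936
section

/-!
# LB-ADAPT, part 7 (row 272, lower bound for S0415; helper936)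

The classes of 620 with the root functions of 641 form a `Cla`.
-/

set_option autoImplicit false
set_option linter.unusedSectionVars false

open Set Filter Topology
open Crest.Agent.R272.EBase_641 Crest.Agent.R272.Wei_392
open Crest.Agent.R272.Cls_620 (Lb Z5 VV base Deep Perp Neg Meet pt at0 c0 h1 HH e0 e1 e2 e3 ei SS)
open Crest.Agent.R272.In_68 (Z5r io)
open Crest.Agent.R272.WM_74 (sc wv)
open scoped ComplexConjugate

noncomputable section

namespace Crest.Agent.R272.LbSq_936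

variable {O : Subring (Fin 2 → ℂ)} {z μ : Fin 2 → ℂ}

theorem rz_of (h : Z5r O z) : RZ (z 0) where
  pow5 := by
    have := congrFun h.toZ5.z5 0
    simpa using this
  neg := by
    rw [h.toZ5.at0', gr]
    push_cast
    ring

/-- the classes at the ball place, scaled -/
def CC (h : Z5r O z) (μ : Fin 2 → ℂ) (a : Lb) : Set (V1 3) := wv h '' VV O z μ a

theorem CC_eq (h : Z5r O z) (a : Lb) : CC h μ a = (fun v => (sc z : ℂ) • v) '' SS h μ a := by
  ext v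
  constructor
  · rintro ⟨r, hr, rfl⟩
    exact ⟨_, ⟨_, ⟨r, hr, rfl⟩, rfl⟩, rfl⟩
  · rintro ⟨_, ⟨_, ⟨r, hr, rfl⟩, rfl⟩, rfl⟩
    exact ⟨r, hr, rfl⟩

theorem wv_snd (h : Z5r O z) (r : Fin 4 → Fin 2 → ℂ) (h3 : r 3 0 = 0) : (wv h r).2 = 0 := by
  show (sc z : ℂ) * (io h r).1.2 = 0
  rw [In_68.io_fst, In_68.P0_snd]
  have : In_68.at' r 0 3 = 0 := h3
  rw [this]
  simp

theorem wv_ext (h : Z5r O z) {r : Fin 4 → Fin 2 → ℂ} {w : V1 3} (h0 : r 0 0 = w.1 0)
    (h1 : r 1 0 = w.1 1) (h2 : r 2 0 = w.1 2) (h3 : r 3 0 = 0) (hw : w.2 = 0) : wv h r = w := by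
  apply Prod.ext
  · ext i
    fin_cases i
    · exact (WM_74.wv_zero h r).trans h0
    · exact (WM_74.wv_one h r).trans h1
    · exact (WM_74.wv_two h r).trans h2
  · rw [wv_snd h r h3, hw]

theorem wv_o (h : Z5r O z) : wv h (base z .o) = bo := by
  apply wv_ext h <;> simp [base, e0, bo]

theorem wv_n (h : Z5r O z) : wv h (base z (.n false)) = be := by
  apply wv_ext h <;> simp [base, ei, e1, be]

theorem wv_v (h : Z5r O z) (j : Fin 5) : wv h (base z (.v false j)) = bv (z 0) j := by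
  apply wv_ext h <;> simp [base, ei, e1, e0, bv]

theorem base_mem (h : Z5r O z) (a : Lb) : base z a ∈ VV O z μ a :=
  ⟨Cls_620.base_mem h.toZ5 a, Cls_620.Cg.refl _ _, rfl⟩

/-- integral vectors are determined by the ball place -/
theorem wv_inj (h : Z5r O z) {v w : Fin 4 → Fin 2 → ℂ} (hv : Cls_620.Int' O v)
    (hw : Cls_620.Int' O w) (e : wv h v = wv h w) : v = w := by
  have hs : (sc z : ℂ) ≠ 0 := by exact_mod_cast (WM_74.sc_pos h).ne'
  have e1 : (io h v).1 = (io h w).1 := by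
    have : (sc z : ℂ) • (io h v).1 = (sc z : ℂ) • (io h w).1 := e
    exact smul_right_injective _ hs this
  rw [In_68.io_fst, In_68.io_fst] at e1
  have e2 := (In_68.P0 h).injective e1
  funext i
  by_contra hne
  have h3 := h.toZ5.ord.norm_ge (v i - w i) (O.sub_mem (hv i) (hw i)) (sub_ne_zero.2 hne)
  rw [Fin.prod_univ_two] at h3
  have h4 : (v i - w i) 0 = 0 := by
    have := congrFun e2 i
    show v i 0 - w i 0 = 0
    rw [sub_eq_zero]
    exact this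
  rw [h4, norm_zero, zero_mul] at h3
  linarith

/-- the hyperplane of a positive vector meets the ball -/
theorem meet_self (h : Z5 O z) {v : Fin 4 → Fin 2 → ℂ}
    (hv : 0 < (Cls_620.hh (HH z) v v 0).re) : Meet z v v := by
  classical
  set c := c0 0 (HH z) with hc
  set x := at0 (0 : Fin 2) v with hx
  have hxx : 0 < (h1 c x x).re := by
    rw [← Cls_620.hh_at0 h.frm.real]; exact hv
  have hxr := Cls_620.h1_self_real c x
  set A := (h1 c x x).re with hA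
  have hA0 : (A : ℂ) ≠ 0 := by exact_mod_cast hxx.ne'
  let p0 : Fin 4 → ℂ := Pi.single 3 1
  have hp0 : h1 c p0 p0 = (c 3 : ℂ) := by
    unfold h1
    rw [Finset.sum_eq_single 3]
    · simp [p0]
    · intro b _ hb
      simp [p0, hb]
    · simp
  have hc3 : c 3 < 0 := h.sgn.neg
  set s := h1 c x p0 with hs
  have hps : h1 c p0 x = star s := (Cls_620.h1_star c x p0).symm
  let t : ℂ := -(star s / (A : ℂ))
  have htA : t * (A : ℂ) = -star s := by
    simp only [t]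
    field_simp
  have hst : star t = -(s / (A : ℂ)) := by
    simp only [t]
    rw [star_neg, star_div₀, star_star]
    congr 2
    rw [Complex.star_def, Complex.conj_ofReal]
  have hstA : star t * (A : ℂ) = -s := by
    rw [hst]
    field_simp
  have hperp : h1 c x (p0 + t • x) = 0 := by
    rw [Cls_620.h1_add_right, Cls_620.h1_smul_right, ← hs, hxr]
    linear_combination hstA
  refine ⟨p0 + t • x, ?_, hperp, hperp⟩
  have e : h1 c (p0 + t • x) (p0 + t • x) = ((c 3 - ‖s‖ ^ 2 / A : ℝ) : ℂ) := by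
    have hss : s * star s = ((‖s‖ ^ 2 : ℝ) : ℂ) := by
      rw [Complex.star_def, Complex.mul_conj, Complex.normSq_eq_norm_sq]
    have hdiv : (s * star s) / (A : ℂ) * (A : ℂ) = s * star s := div_mul_cancel₀ _ hA0
    rw [Cls_620.h1_add_left, Cls_620.h1_smul_left, hperp, mul_zero, add_zero,
      Cls_620.h1_add_right, Cls_620.h1_smul_right, hp0, hps, hst]
    push_cast
    push_cast at hss
    rw [← hss]
    ring
  rw [e, Complex.ofReal_re]
  have : 0 ≤ ‖s‖ ^ 2 / A := by positivity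
  linarith

theorem pow_z (h : Z5 O z) {n : ℕ} (hn : z 0 ^ n = 1) : n % 5 = 0 := by
  have h1 := (Cls_620.re_pow h n).1
  rw [hn, Complex.one_re] at h1
  have hs := Cls_620.sqrt5_bd
  unfold Cls_620.rn at h1
  split_ifs at h1 with h5 h6
  · exact h5
  · linarith
  · linarith

/-- the branch classes are disjoint -/
theorem VV_disj (h : Z5r O z) (hD : Deep O z μ 2) {a b : Lb} (ha : isBr a) (hb : isBr b)
    {v : Fin 4 → Fin 2 → ℂ} (hva : v ∈ VV O z μ a) (hvb : v ∈ VV O z μ b) : a = b := by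
  have hpos := Cls_620.nrm_ne h.toZ5 hva
  have hm := meet_self h.toZ5 hpos
  have hs := Cls_620.sqrt5_bd
  have n_n : ∀ {i}, v ∈ VV O z μ (.n i) → (Cls_620.hh (HH z) v v 0).re = 1 := by
    intro i hv
    rw [Cls_620.nrm_n hv]; simp
  have n_v : ∀ {i j}, v ∈ VV O z μ (.v i j) → (Cls_620.hh (HH z) v v 0).re = 2 := by
    intro i j hv
    rw [Cls_620.nrm_v h.toZ5 hv]; simp
  have n_b : ∀ {i k}, v ∈ VV O z μ (.b i k) →
      (Cls_620.hh (HH z) v v 0).re = (3 - Real.sqrt 5) / 2 := by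
    intro i k hv
    exact Cls_620.nrm_b h.toZ5 hv
  cases a with
  | o => exact ha.elim
  | n i =>
    cases i with
    | true => exact ha.elim
    | false =>
      cases b with
      | o => exact hb.elim
      | n i' =>
        cases i' with
        | true => exact hb.elim
        | false => rfl
      | v i' j =>
        exfalso
        have := n_n hva
        rw [n_v hvb] at this
        norm_num at this
      | b i' k =>
        exfalso
        have := n_n hva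
        rw [n_b hvb] at this
        linarith
  | v i j =>
    cases i with
    | true => exact ha.elim
    | false =>
      cases b with
      | o => exact hb.elim
      | n i' =>
        exfalso
        have := n_n hvb
        rw [n_v hva] at this
        norm_num at this
      | v i' k =>
        cases i' with
        | true => exact hb.elim
        | false =>
          have h2 := Cls_620.meet_std h.toZ5 hD hva hvb hm
          rw [Cls_620.nrm_v h.toZ5 hva, Cls_620.g_vv h.toZ5, Cls_620.dl_self] at h2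
          have h3 := congrFun h2 0
          have h4 : (2 : ℂ) = 1 + z 0 ^ ((j : ℕ) + 4 * k) := by simpa using h3
          have h5 : z 0 ^ ((j : ℕ) + 4 * k) = 1 := by linear_combination -h4
          have h6 := pow_z h.toZ5 h5
          have hj := j.isLt
          have hk := k.isLt
          have : j = k := Fin.ext (by omega)
          rw [this]
      | b i' k =>
        exfalso
        have := n_b hvb
        rw [n_v hva] at this
        linarith
  | b i k =>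
    cases b with
    | o => exact hb.elim
    | n i' =>
      exfalso
      have := n_n hvb
      rw [n_b hva] at this
      linarith
    | v i' j =>
      exfalso
      have := n_b hva
      rw [n_v hvb] at this
      linarith
    | b i' l =>
      obtain ⟨e1, e2, -⟩ := Cls_620.meet_bb h.toZ5 hD hva hvb hm
      rw [e1, e2]

/-- uniqueness of the member through a point -/
theorem uni (h : Z5r O z) (hD : Deep O z μ 2) {w : E3} (hw : ‖w‖ < 1) {a : Lb}
    (h0 : lin (wv h (base z a)) w = 0) : ∀ v ∈ CC h μ a, lin v w = 0 → v = wv h (base z a) := by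
  rintro _ ⟨r, hr, rfl⟩ hr0
  have hB : w ∈ Ball 3 := mem_Ball.2 hw
  rw [WM_74.lin_wv_zero] at h0 hr0
  rw [Cls_620.occ_unique h.toZ5 hD (Cls_620.neg_pt h hB) hr (base_mem h a)
    ((Cls_620.perp_iff h r w).2 hr0) ((Cls_620.perp_iff h (base z a) w).2 h0)]

/-- **the classes of 620 and the root functions of 641 form a `Cla`** -/
theorem cla (h : Z5r O z) (hD : Deep O z μ 2) {G : Type} [Group G] {ρ : G →* UG 3} {kk : ℕ}
    (R : ∀ a : Lb, Root 3 kk ρ (SS h μ a)) : Cla (z 0) (CC h μ) (fun a => (R a).f) where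
  rz := rz_of h
  div := by
    intro a _
    rw [CC_eq]
    exact Div.scale (Root.div (R a)) (by exact_mod_cast (WM_74.sc_pos h).ne')
  mo := ⟨_, base_mem h .o, wv_o h⟩
  mn := ⟨_, base_mem h (.n false), wv_n h⟩
  mv := fun j => ⟨_, base_mem h (.v false j), wv_v h j⟩
  disj := by
    intro a b ha hb hab
    rw [Set.disjoint_left]
    rintro _ ⟨r, hr, rfl⟩ ⟨r', hr', e⟩
    have e' : r' = r := wv_inj h hr'.1 hr.1 e
    subst e'
    exact hab (VV_disj h hD ha hb hr hr')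
  ne := by
    rintro a - _ ⟨r, hr, rfl⟩ h0
    have h1 := Cls_620.nrm_ne h.toZ5 hr
    rw [← WM_74.hh_wv h, hh_self, h0, Complex.ofReal_re, norm_zero] at h1
    nlinarith [sq_nonneg ‖(wv h r).2‖]
  uo := by
    intro w hw h0 h1 v hv hv0
    rw [← wv_o h]
    refine uni h hD hw ?_ v hv hv0
    rw [wv_o, lin_bo, h0]
  uv := by
    intro w hw h0 h1 v hv hv0
    have e := wv_v h 0
    have e' : bv (z 0) 0 = wv h (base z (.v false 0)) := e.symm
    rw [e']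
    refine uni h hD hw ?_ v hv hv0
    rw [e]
    show lin (bv (z 0) 0) w = 0
    rw [lin_bv0, h0, h1, sub_zero]

end Crest.Agent.R272.LbSq_936
end
end

-- ▼ part R272/LbAd8_936
section

/-!
# LB-ADAPT, part 8 (row 272, lower bound for S0415; helper936)

The hypotheses `G : Gm`, `hj : Fib`, `hγ : Arc` of 990's `lb_live`.
-/

set_option autoImplicit false
set_option linter.unusedSectionVars false

open Set Filter Topology
open Crest.Agent.R272.EBase_641 Crest.Agent.R272.Wei_392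
open Crest.Agent.R272.Cls_620 (Lb Z5 VV base Deep SS)
open Crest.Agent.R272.In_68 (Z5r io)
open scoped ComplexConjugate unitInterval

noncomputable section

namespace Crest.Agent.R272.LbSq_936

/-! ### any space over the graph model of colour 0 -/

section overY

open Crest.Agent.R272.Gr_559 Crest.Agent.R275.Geo Crest.Agent.R273.Fam_835

variable {ζ : ℂ} {C : Lb → Set (V1 3)} {Fn : Lb → E3 → ℂ}
variable {N : Type} [TopologicalSpace N] {Fm : Fam 3 N}


end overY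

/-! ### the fibre and the arc -/

section fibre

open Crest.Agent.R272.LbAsm_990
open Crest.Agent.R272.Tp3_60 (tm km)
open Crest.Agent.R272.Tp1_60 (rat rat_ne rel1 mob nn dd)
open Crest.Agent.R272.Cur_297 (Par Cv tt kk cur)

variable {P : Par} {Y : Type} [TopologicalSpace Y] {z : Y → E3} {t k : Y → OnePoint ℂ}

/-- `k ↦ m k` commutes with the sign -/
theorem km_neg {m : ℂ} (_hm : m ≠ 0) (K : OnePoint ℂ) :
    nn (km m (Cur_297.negP K)) * dd (km m K) = -(nn (km m K) * dd (km m (Cur_297.negP K))) := by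
  induction K using OnePoint.rec with
  | infty =>
    have : km m (Cur_297.negP OnePoint.infty) = OnePoint.infty := by
      show rat (m * 1 + 0 * 0) (0 * 1 + 1 * 0) = _
      rw [show (0 : ℂ) * 1 + 1 * 0 = 0 by ring, Tp1_60.rat_zero]
    have h' : km m (OnePoint.infty : OnePoint ℂ) = OnePoint.infty := this
    rw [this, h']
    simp
  | coe x =>
    have e : ∀ y : ℂ, km m (y : OnePoint ℂ) = ((m * y : ℂ) : OnePoint ℂ) := by
      intro y
      show rat (m * y + 0 * 1) (0 * y + 1 * 1) = _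
      rw [show (0 : ℂ) * y + 1 * 1 = 1 by ring, Tp1_60.rat_one]
      congr 1
      ring
    rw [Cur_297.negP_coe, e, e]
    simp

/-- **the fibre over the origin** -/
theorem fib_of {j : Cv P × Cv P → Y} (hj : Continuous j) (hz : ∀ x, z (j x) = 0)
    {a b m : ℂ} (hm : m ≠ 0) (ht : ∀ x, t (j x) = tm P a b (tt x.1))
    (hk : ∀ x, k (j x) = km m (kk x.1)) :
    Fib (cur P).iv nn dd z t k j where
  cont := hj
  jz := hz
  jt x y y' := by rw [ht, ht]
  jk x y y' := by rw [hk, hk]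
  it x y := by
    rw [ht, ht]
    rfl
  ik x y := by
    rw [hk, hk]
    exact km_neg hm _

variable {e : ℂ} {a0 b0 qN qD : E3 → ℂ} {SN SD : Finset (V1 3)}



end fibre

end Crest.Agent.R272.LbSq_936
end
end

-- ▼ part R272/LbAd9_936
section

/-!
# LB-ADAPT, part 9 (row 272, lower bound for S0415; helper936)

The instance of parts 5 and 8 for 620's `gdata` on 559's `X1`, the values of the factors at the
base cluster point, the fibre and the arc for 916's zero section.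
-/

set_option autoImplicit false
set_option linter.unusedSectionVars false

open Set Filter Topology
open Crest.Agent.R272.EBase_641 Crest.Agent.R272.Wei_392
open Crest.Agent.R272.Cls_620 (Lb Z5 VV base Deep SS)
open Crest.Agent.R272.In_68 (Z5r io)
open scoped ComplexConjugate unitInterval

noncomputable section

namespace Crest.Agent.R272.LbSq_936

open Crest.Agent.R272.Gr_559 Crest.Agent.R272.Quot_783 Crest.Agent.R272.GI_620
open Crest.Agent.R272.P0_939 (o3 cc cc_ne par)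
open Crest.Agent.R272.LbAsm_990
open Crest.Agent.R272.Tp3_60 (Loc E6 tm km)
open Crest.Agent.R272.Tp1_60 (nn dd)
open Crest.Agent.R272.Tq2_916 (toA)
open Crest.Agent.R272.Tq3_916 (zst)
open Crest.Agent.R272.Cur_297 (Par Cv tt kk cur)

variable {O : Subring (Fin 2 → ℂ)} {z μ : Fin 2 → ℂ} (h : Z5r O z)
variable {G : Type} [Group G] {ρ : G →* UG 3} {kk' : ℕ} (R : ∀ a : Lb, Root 3 kk' ρ (SS h μ a))
variable {Γ : Type} [Group Γ] (ρ' : Γ →* UG 3) (hμ : μ ∈ O) (hD : Deep O z μ 2)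

/-- the root functions -/
abbrev FR : Lb → E3 → ℂ := fun a => (R a).f


/-- the data of the graph model -/
abbrev GD : GData (ballFam ρ') := gdata h R ρ' hμ hD

variable {a0 b0 qN qD : E3 → ℂ}



/-! ### values at the base point -/






section vals

variable (H : Fac (z 0) (CC h μ) (FR h R) a0 b0 qN qD)
  (p : Pen (ballFam ρ') (GD h R ρ' hμ hD).f0 ((GD h R ρ' hμ hD).x 0) ((GD h R ρ' hμ hD).P 0)
    ((GD h R ρ' hμ hD).Q 0) (o3 ρ'))
  (hs0 : p.s0 = (fun y => cc z * y.val 0)) (hs1 : p.s1 = (fun y => cc z * y.val 1))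
  (hc : p.c = (par h).c)




end vals

/-! ### the zero section -/

section zero

variable {P : Par} (L : Loc P (BX ρ')) (hL : o3 ρ' ∈ L.sh.source) (hL0 : L.sh (o3 ρ') = 0)
  {X1 : Set (GData.Amb (BX ρ'))}
  {j : Cv P × Cv P → X1} (hj : Continuous j) (hjv : ∀ x, (j x).1 = toA (L.fro (zst x)))

include hL hL0

theorem symm_zero : L.sh.symm 0 = o3 ρ' := by
  rw [← hL0, L.sh.left_inv hL]

include hjv

theorem j_z (x : Cv P × Cv P) : (j x).1.1.val = 0 := by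
  rw [hjv]
  show (L.sh.symm (zst x).1).val = 0
  rw [show (zst x).1 = (0 : ℂ × ℂ × ℂ) from rfl, symm_zero ρ' L hL hL0]
  rfl

theorem j_t (x : Cv P × Cv P) :
    (j x).1.2.1 0 = tm P (L.a (o3 ρ')) (L.b 0 (o3 ρ')) (tt x.1) := by
  rw [hjv]
  show tm P (L.a (L.sh.symm (zst x).1)) (L.b 0 (L.sh.symm (zst x).1)) (tt x.1) = _
  rw [show (zst x).1 = (0 : ℂ × ℂ × ℂ) from rfl, symm_zero ρ' L hL hL0]

theorem j_k (x : Cv P × Cv P) :
    (j x).1.2.2.2 0 = km (L.m 0 (o3 ρ')) (Cur_297.kk x.1) := by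
  rw [hjv]
  show km (L.m 0 (L.sh.symm (zst x).1)) (Cur_297.kk x.1) = _
  rw [show (zst x).1 = (0 : ℂ × ℂ × ℂ) from rfl, symm_zero ρ' L hL hL0]

include hj

/-- **the fibre for the zero section** -/
theorem fib_zs : Fib (cur P).iv nn dd (fun y : X1 => y.1.1.val) (fun y => y.1.2.1 0)
    (fun y => y.1.2.2.2 0) j :=
  fib_of hj (j_z ρ' L hL hL0 hjv) (L.m0 0 _ hL) (j_t ρ' L hL hL0 hjv) (j_k ρ' L hL hL0 hjv)

end zero

end Crest.Agent.R272.LbSq_936
end
end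

-- ▼ part R272/GrpA_74
section

/-!
helper74, row 272, AR-GRP: the swap element `sU` of `GU`, the group `Gh = K ∪ K s`, its stabilisers on
the ball (trivial or one reflection in a mirror of 620).
-/

set_option autoImplicit false
set_option linter.unusedSectionVars false
set_option linter.unusedVariables false

open scoped ComplexConjugate
open Matrix

namespace Crest.Agent.R272.GrpA_74

open Crest.Agent.R272.In_68 Crest.Agent.R272.EBase_641 Crest.Agent.R272.O5_74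
open Crest.Agent.R272.WM_74 Crest.Agent.R272.Ball7_916 Crest.Agent.R272.GInG_502
open Crest.Agent.R272.Fix1_74 Crest.Agent.R272.Fix2_74 Crest.Agent.R272.Fix3_74

noncomputable section

variable {O : Subring (Fin 2 → ℂ)} {z μ : Fin 2 → ℂ}

/-! ### place `0` is injective on `O` -/

theorem inj0 (h : Z5r O z) {x y : Fin 2 → ℂ} (hx : x ∈ O) (hy : y ∈ O) (e : x 0 = y 0) : x = y := by
  by_contra hne
  have h1 : x - y ≠ 0 := sub_ne_zero.2 hne
  have h2 := h.ord.norm_ge (x - y) (O.sub_mem hx hy) h1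
  rw [Fin.prod_univ_two, Pi.sub_apply, e, sub_self, norm_zero, zero_mul] at h2
  linarith

theorem mat_ext (h : Z5r O z) {M N : Mt} (hM : ∀ i j, M i j ∈ O) (hN : ∀ i j, N i j ∈ O)
    (e : ∀ i j, M i j 0 = N i j 0) : M = N := by
  ext1 i j
  exact inj0 h (hM i j) (hN i j) (e i j)

/-! ### the swap element -/

theorem swp_mem (h : Z5r O z) (i j : Fin 4) : swp i j ∈ O := by
  obtain ⟨rfl, rfl⟩ := Z5r_unique h
  rw [← Φ_swapM]; exact Φ_mem _

theorem swp_rf (h : Z5r O z) (v : Fin 4 → Fin 2 → ℂ) :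
    swp *ᵥ v = Cls_620.rf (Cls_620.HH z) Cls_620.mi v := by
  obtain ⟨rfl, rfl⟩ := Z5r_unique h
  exact swp_mulVec v

/-- the swap as a unit -/
def sM : Mtˣ := ⟨swp, swp, swp_mul_self, swp_mul_self⟩

/-- **the swap element of `GU`** -/
def sU (h : Z5r O z) : GU O z := ⟨sM, swp_mem h, swp_mem h, fun v w => by
  show Cls_620.hh (Cls_620.HH z) (swp *ᵥ v) (swp *ᵥ w) = _
  rw [swp_rf h, swp_rf h]
  exact Cls_620.rf_hh h.toZ5.frm Cls_620.g_mm v w⟩



/-! ### congruences -/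

theorem div_swp {ν : Fin 2 → ℂ} {g : GU O z} (h : Z5r O z) (hg : g * sU h ∈ GCU O z ν) :
    Div O ν (((g : Mtˣ) : Mt) - swp) := by
  have h1 : Div O ν ((((g * sU h : GU O z) : Mtˣ) : Mt) - 1) := hg.2
  have e : ((g : Mtˣ) : Mt) - swp = ((((g * sU h : GU O z) : Mtˣ) : Mt) - 1) * swp := by
    have : (((g * sU h : GU O z) : Mtˣ) : Mt) = ((g : Mtˣ) : Mt) * swp := rfl
    rw [this, sub_mul, mul_assoc, swp_mul_self, mul_one, one_mul]
  rw [e]
  exact h1.mul_right (swp_mem h)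

theorem not_div_swp (h : Z5r O z) {ν : Fin 2 → ℂ} (hN : 1 < ∏ t, ‖ν t‖)
    (hd : Div O ν (swp - 1)) : False := by
  obtain ⟨u, hu, e⟩ := hd 1 1
  have h1 : (swp - 1 : Mt) 1 1 = -1 := by
    have h2 : swp 1 1 = 0 := by
      have := congrFun (swp_mulVec (Pi.single 1 1)) 1
      rw [Matrix.mulVec_single_one, Cls_620.rf_mi] at this
      simpa [Matrix.col_apply] using this
    rw [Matrix.sub_apply, h2, Matrix.one_apply_eq, zero_sub]
  rw [h1] at e
  have hu0 : u ≠ 0 := by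
    rintro rfl
    rw [mul_zero] at e
    have := congrFun e 0
    simp at this
  have h2 := h.ord.norm_ge u hu hu0
  have h3 : (∏ t, ‖ν t‖) * ∏ t, ‖u t‖ = 1 := by
    rw [← Finset.prod_mul_distrib]
    have : ∀ t, ‖ν t‖ * ‖u t‖ = 1 := by
      intro t
      rw [← norm_mul, ← Pi.mul_apply, ← e]; simp
    simp [this]
  nlinarith



/-! ### stabilisers on the ball -/

section stab

variable (h : Z5r O z) {K : Subgroup (GU O z)} (hμ : μ ∈ O)
  (hK : K ≤ GCU O z (Cls_620.pz z * μ)) (hN : 64 < ∏ t, ‖(Cls_620.pz z * μ) t‖)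
  (h2 : ∃ c ∈ O, μ = 2 * c) (D : SwD K (sU h))

include h hμ in
theorem pz_mem : Cls_620.pz z * μ ∈ O :=
  O.mul_mem (by rw [Cls_620.pz]; exact O.sub_mem O.one_mem h.zmem) hμ

include hμ hK hN in
/-- `K` acts freely on the ball -/
theorem K_free {g : GU O z} (hg : g ∈ K) {ζ : E 3} (hζ : ζ ∈ Ball 3)
    (hf : act (rho h g) ζ = ζ) : g = 1 :=
  gc_free h (pz_mem h hμ) hN g (hK hg) hζ hf

include hμ hK hN h2 in
/-- elements outside `K` with a fixed point -/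
theorem fix_out {g : GU O z} (hg : g ∈ D.Gh) (hgK : g ∉ K) {ζ : E 3} (hζ : ζ ∈ Ball 3)
    (hf : act (rho h g) ζ = ζ) :
    ∃ r, Cls_620.Mir O z μ r ∧ (∀ v, ((g : Mtˣ) : Mt) *ᵥ v = Cls_620.rf (Cls_620.HH z) r v) ∧
      lin (io h r).1 ζ = 0 ∧ jj (rho h g) ζ = 1 :=
  swap_fix h hμ hN h2 g (div_swp h (hK ((D.mem_Gh.1 hg).resolve_left hgK))) hζ hf

include hμ hK hN in
theorem fix_eq {g g' : GU O z} (hg : g ∈ D.Gh) (hgK : g ∉ K) (hg' : g' ∈ D.Gh) (hgK' : g' ∉ K)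
    {ζ : E 3} (hζ : ζ ∈ Ball 3) (hf : act (rho h g) ζ = ζ) (hf' : act (rho h g') ζ = ζ) :
    g * g = 1 ∧ g' = g := by
  have hd := div_swp h (hK ((D.mem_Gh.1 hg).resolve_left hgK))
  have hd' := div_swp h (hK ((D.mem_Gh.1 hg').resolve_left hgK'))
  have h1 := swap_unique h (pz_mem h hμ) hN g g hd hd hζ hf hf
  have h2 := swap_unique h (pz_mem h hμ) hN g g' hd hd' hζ hf hf'
  exact ⟨h1, mul_left_cancel (h2.trans h1.symm)⟩

include hμ hK hN h2 in
/-- **stabilisers**: trivial or generated by one reflection in a mirror -/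
theorem stab {ζ : E 3} (hζ : ζ ∈ Ball 3) :
    (∀ g : D.Gh, act (rho h g.1) ζ = ζ → g = 1) ∨
      ∃ (s : D.Gh) (r : Fin 4 → Fin 2 → ℂ), s * s = 1 ∧ s.1 ∉ K ∧ Cls_620.Mir O z μ r ∧
        (∀ v, ((s.1 : Mtˣ) : Mt) *ᵥ v = Cls_620.rf (Cls_620.HH z) r v) ∧
        lin (io h r).1 ζ = 0 ∧ act (rho h s.1) ζ = ζ ∧
        ∀ g : D.Gh, act (rho h g.1) ζ = ζ → g = 1 ∨ g = s := by
  by_cases hex : ∃ s : D.Gh, s.1 ∉ K ∧ act (rho h s.1) ζ = ζ
  · right
    obtain ⟨s, hsK, hs⟩ := hex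
    obtain ⟨r, hr, hact, hlin, -⟩ := fix_out h hμ hK hN h2 D s.2 hsK hζ hs
    refine ⟨s, r, ?_, hsK, hr, hact, hlin, hs, fun g hg => ?_⟩
    · exact Subtype.ext (fix_eq h hμ hK hN D s.2 hsK s.2 hsK hζ hs hs).1
    · by_cases hgK : g.1 ∈ K
      · exact Or.inl (Subtype.ext (K_free h hμ hK hN hgK hζ hg))
      · exact Or.inr (Subtype.ext (fix_eq h hμ hK hN D s.2 hsK g.2 hgK hζ hs hg).2)
  · left
    intro g hg
    by_cases hgK : g.1 ∈ K
    · exact Subtype.ext (K_free h hμ hK hN hgK hζ hg)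
    · exact absurd ⟨g, hgK, hg⟩ hex

end stab

/-! ### the action at the ball place determines the element -/

theorem rho_inj (h : Z5r O z) : Function.Injective (rho h) := by
  rw [injective_iff_map_eq_one]
  intro g hg
  apply Subtype.ext
  apply Units.ext
  refine mat_ext h g.2.1 (GU O z).one_mem.1 fun i j => ?_
  have h1 : ∀ v : Fin 4 → Fin 2 → ℂ, wv h (((g : Mtˣ) : Mt) *ᵥ v) = wv h v := by
    intro v
    rw [← rho_wv, hg]; rfl
  have h2 : ∀ v w : Fin 4 → Fin 2 → ℂ, wv h v = wv h w → ∀ i, v i 0 = w i 0 := by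
    intro v w e i
    have h3 : (sc z : ℂ) ≠ 0 := by exact_mod_cast (sc_pos h).ne'
    have h4 : (io h v).1 = (io h w).1 := by
      have := smul_right_injective (V1 3) h3 e
      exact this
    rw [io_fst, io_fst] at h4
    exact congrFun ((P0 h).injective h4) i
  have h3 := h2 _ _ (h1 (Pi.single j 1)) i
  rw [Matrix.mulVec_single_one] at h3
  have e2 : (Pi.single j 1 : Fin 4 → Fin 2 → ℂ) i = (1 : Mt) i j := by
    rw [Matrix.one_apply, Pi.single_apply]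
  rw [e2] at h3
  exact h3

end

end Crest.Agent.R272.GrpA_74
end

-- ▼ part R272/MirW_702
section

/-!
# Row 272, AR-MIRW (helper702): the mirrors of the arithmetic group are a `WSysP`

`WM h μ` (74) = all vectors `(dd z 0)^(-1/2) • (io h r).1`, `r` with `Mir O z μ r` (620).
`wsysP`: if `4 Λ² + 16 ≤ ∏ ‖(pz z * μ) t‖` then `WSysP (WM h μ) Λ` (990).
-/

set_option autoImplicit false

open scoped ComplexConjugate

namespace Crest.Agent.R272.MirW_702

open EBase_641 In_68 Cls_620 WM_74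
open LbFin2_990 (WSysP)

noncomputable section

variable {O : Subring (Fin 2 → ℂ)} {z μ : Fin 2 → ℂ}

/-! ### the reflection of a mirror in a mirror -/

lemma rf_rf_rf (h : Z5 O z) {r r' : Fin 4 → Fin 2 → ℂ} (h2 : hh (HH z) r r = 2)
    (x : Fin 4 → Fin 2 → ℂ) :
    rf (HH z) (rf (HH z) r r') x = rf (HH z) r (rf (HH z) r' (rf (HH z) r x)) := by
  have e1 : hh (HH z) x (rf (HH z) r r') = hh (HH z) (rf (HH z) r x) r' := by
    conv_lhs => rw [← rf_rf (H := HH z) h2 x]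
    exact rf_hh h.frm h2 _ _
  have lin1 : ∀ (c : Fin 2 → ℂ) (u v : Fin 4 → Fin 2 → ℂ),
      rf (HH z) r (u - c • v) = rf (HH z) r u - c • rf (HH z) r v := by
    intro c u v
    simp only [rf, Cls_620.hh_sub_left, Cls_620.hh_smul_left]
    funext i
    simp only [Pi.sub_apply, Pi.smul_apply, smul_eq_mul]
    ring
  have e2 : rf (HH z) r' (rf (HH z) r x) = rf (HH z) r x - hh (HH z) (rf (HH z) r x) r' • r' := rfl
  rw [e2, lin1, rf_rf h2]
  show x - hh (HH z) x (rf (HH z) r r') • rf (HH z) r r' = _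
  rw [e1]

lemma rf_int (h : Z5 O z) {r x : Fin 4 → Fin 2 → ℂ} (hr : Int' O r) (hx : Int' O x) :
    Int' O (rf (HH z) r x) :=
  hx.sub (hr.smul (Cls_620.hh_mem h.ord h.frm hx hr))

/-- mirrors are stable under their reflections -/
theorem mir_rf (h : Z5 O z) {r r' : Fin 4 → Fin 2 → ℂ} (hr : Mir O z μ r) (hr' : Mir O z μ r') :
    Mir O z μ (rf (HH z) r r') where
  int := rf_int h hr.int hr'.int
  two := by rw [rf_hh h.frm hr.two, hr'.two]
  cong := by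
    intro x hx
    rw [rf_rf_rf h hr.two]
    have i1 := rf_int h hr.int hx
    have i2 := rf_int h hr'.int i1
    have c1 := hr.cong _ i2
    have c2 := cg_rf_mi (z := z) (hr'.cong _ i1)
    have c3 : rf (HH z) mi (rf (HH z) mi (rf (HH z) r x)) = rf (HH z) r x := rf_rf g_mm _
    rw [c3] at c2
    exact (c1.trans c2).trans (hr.cong x hx)

/-! ### types -/

lemma norm_ge_of {ν x u : Fin 2 → ℂ} (h : Z5 O z) (hu : u ∈ O) (hu0 : u ≠ 0) (e : x = ν * u) :
    ∏ t, ‖ν t‖ ≤ ∏ t, ‖x t‖ := by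
  have h1 := h.ord.norm_ge u hu hu0
  have h2 : ∏ t, ‖x t‖ = (∏ t, ‖ν t‖) * ∏ t, ‖u t‖ := by
    rw [← Finset.prod_mul_distrib]
    refine Finset.prod_congr rfl fun t _ => ?_
    rw [e, Pi.mul_apply, norm_mul]
  rw [h2]
  have h3 : (0 : ℝ) ≤ ∏ t, ‖ν t‖ := Finset.prod_nonneg fun _ _ => norm_nonneg _
  nlinarith

lemma hh_e (h : Z5 O z) (r : Fin 4 → Fin 2 → ℂ) :
    hh (HH z) e0 r = star (r 0) ∧ hh (HH z) e1 r = star (r 1) := by
  constructor
  · simp [Cls_620.hh, Fin.sum_univ_four, HH, e0]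
  · simp [Cls_620.hh, Fin.sum_univ_four, HH, e1]

lemma int_e0 : Int' O e0 := by
  intro i; fin_cases i <;> simp [e0, O.one_mem, O.zero_mem]

lemma int_e1 : Int' O e1 := by
  intro i; fin_cases i <;> simp [e1, O.one_mem, O.zero_mem]

/-- the coordinates `0`, `1` of a mirror at the definite place are at most `√2` -/
lemma le_two (h : Z5 O z) {r : Fin 4 → Fin 2 → ℂ} (h2 : hh (HH z) r r = 2) :
    ‖r 0 1‖ ^ 2 ≤ 2 ∧ ‖r 1 1‖ ^ 2 ≤ 2 := by
  have hne : (1 : Fin 2) ≠ 0 := by decide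
  have c0 := cs_def h.frm hne e0 r
  have c1 := cs_def h.frm hne e1 r
  rw [(hh_e h r).1, (hh_e h e0).1, h2] at c0
  rw [(hh_e h r).2, (hh_e h e1).2, h2] at c1
  have n0 : ‖(star (r 0)) 1‖ = ‖r 0 1‖ := by rw [Pi.star_apply, norm_star]
  have n1 : ‖(star (r 1)) 1‖ = ‖r 1 1‖ := by rw [Pi.star_apply, norm_star]
  rw [n0] at c0
  rw [n1] at c1
  simp only [e0, e1, Matrix.cons_val_zero, Matrix.cons_val_one, Pi.star_apply, Pi.one_apply,
    star_one, Complex.one_re, one_mul, Pi.ofNat_apply] at c0 c1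
  have t2 : (2 : ℂ).re = 2 := by norm_num
  rw [t2] at c0 c1
  exact ⟨c0, c1⟩

/-- **type A / type B** -/
theorem mir_typ (h : Z5 O z) {r : Fin 4 → Fin 2 → ℂ} (hr : Mir O z μ r) :
    (r 0 = 0 ∧ ∀ t, ‖r 1 t‖ = 1) ∨
      ∏ t, ‖(pz z * μ) t‖ ≤ 2 * (‖r 0 0‖ ^ 2 + ‖r 1 0‖ ^ 2) + 1 := by
  obtain ⟨b0, b1⟩ := le_two h hr.two
  -- coordinate 0
  obtain ⟨u, hu, eu⟩ := hr.cong e0 int_e0 0
  obtain ⟨w, hw, ew⟩ := hr.cong e1 int_e1 1
  have eu' : -(star (r 0) * r 0) = (pz z * μ) * u := by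
    rw [← eu, rf_mi, rf, (hh_e h r).1]
    simp [e0]
  have ew' : 1 - star (r 1) * r 1 = (pz z * μ) * w := by
    rw [← ew, rf_mi, rf, (hh_e h r).2]
    simp [e1]
  by_cases hu0 : u = 0
  · by_cases hw0 : w = 0
    · left
      rw [hu0, mul_zero] at eu'
      rw [hw0, mul_zero] at ew'
      constructor
      · funext t
        have h1 := congrFun eu' t
        simp only [Pi.neg_apply, Pi.mul_apply, Pi.star_apply, Pi.zero_apply, neg_eq_zero,
          mul_eq_zero] at h1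
        rcases h1 with h1 | h1
        · exact star_eq_zero.mp h1
        · exact h1
      · intro t
        have h1 := congrFun ew' t
        simp only [Pi.sub_apply, Pi.one_apply, Pi.mul_apply, Pi.star_apply, Pi.zero_apply] at h1
        have h2 : star (r 1 t) * r 1 t = 1 := by linear_combination -h1
        have h3 : ((‖r 1 t‖ ^ 2 : ℝ) : ℂ) = 1 := by
          rw [← Complex.normSq_eq_norm_sq, ← Complex.mul_conj, mul_comm]
          exact h2
        have h4 : ‖r 1 t‖ ^ 2 = 1 := by exact_mod_cast h3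
        have h5 := norm_nonneg (r 1 t)
        nlinarith
    · right
      have h1 := norm_ge_of h hw hw0 ew'
      refine h1.trans ?_
      rw [Fin.prod_univ_two]
      have e : ∀ t, ‖(1 - star (r 1) * r 1) t‖ = |1 - ‖r 1 t‖ ^ 2| := by
        intro t
        have : (1 - star (r 1) * r 1) t = ((1 - ‖r 1 t‖ ^ 2 : ℝ) : ℂ) := by
          simp only [Pi.sub_apply, Pi.one_apply, Pi.mul_apply, Pi.star_apply]
          rw [Complex.ofReal_sub, ← Complex.normSq_eq_norm_sq, ← Complex.mul_conj, mul_comm]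
          rfl
        rw [this, Complex.norm_real, Real.norm_eq_abs]
      rw [e, e]
      have p1 : |1 - ‖r 1 1‖ ^ 2| ≤ 1 := by
        rw [abs_le]; constructor <;> nlinarith [sq_nonneg ‖r 1 1‖]
      have p0 : |1 - ‖r 1 0‖ ^ 2| ≤ 1 + ‖r 1 0‖ ^ 2 := by
        rw [abs_le]; constructor <;> nlinarith [sq_nonneg ‖r 1 0‖]
      have p2 : |1 - ‖r 1 0‖ ^ 2| * |1 - ‖r 1 1‖ ^ 2| ≤ (1 + ‖r 1 0‖ ^ 2) * 1 :=
        mul_le_mul p0 p1 (abs_nonneg _) (by positivity)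
      nlinarith [sq_nonneg ‖r 0 0‖, sq_nonneg ‖r 1 0‖]
  · right
    have h1 := norm_ge_of h hu hu0 eu'
    refine h1.trans ?_
    rw [Fin.prod_univ_two]
    have e : ∀ t, ‖(-(star (r 0) * r 0)) t‖ = ‖r 0 t‖ ^ 2 := by
      intro t
      simp only [Pi.neg_apply, Pi.mul_apply, Pi.star_apply, norm_neg, norm_mul, norm_star]
      ring
    rw [e, e]
    have p2 : ‖r 0 0‖ ^ 2 * ‖r 0 1‖ ^ 2 ≤ ‖r 0 0‖ ^ 2 * 2 :=
      mul_le_mul_of_nonneg_left b0 (sq_nonneg _)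
    nlinarith [sq_nonneg ‖r 0 0‖, sq_nonneg ‖r 1 0‖]

/-! ### the vectors of `V1 3` -/

lemma wv_rf (h : Z5r O z) (r x : Fin 4 → Fin 2 → ℂ) :
    wv h (rf (HH z) r x) = wv h x - EBase_641.hh (wv h x) (wv h r) • wv h r := by
  rw [hh_wv, rf, wv_sub, wv_smul]

/-- **AR-MIRW** -/
theorem wsysP (h : Z5r O z) (hμ : μ ∈ O) {Λ : ℝ}
    (hN : 4 * Λ ^ 2 + 16 ≤ ∏ t, ‖(pz z * μ) t‖) : WSysP (WM h μ) Λ where
  norm := WM_norm h
  stab := by
    rintro _ ⟨r, hr, rfl⟩ _ ⟨r', hr', rfl⟩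
    exact ⟨rf (HH z) r r', mir_rf h.toZ5 hr hr', wv_rf h r r'⟩
  sep := by
    rintro _ ⟨r, hr, rfl⟩ _ ⟨r', hr', rfl⟩
    rcases O5_74.mir_sparse h hμ hr' hr with ⟨-, c, hc⟩ | h1
    · left
      have e : wv h r' = c • wv h r := by
        rw [wv, wv, io_fst, io_fst]
        have : at' r' 0 = c • at' r 0 := by
          funext i; exact hc i
        rw [this, map_smul, smul_comm]
      refine ⟨c, ?_, e⟩
      have h2 : EBase_641.hh (wv h r') (wv h r') = 2 := by rw [hh_wv, hr'.two]; rfl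
      have h3 : EBase_641.hh (wv h r) (wv h r) = 2 := by rw [hh_wv, hr.two]; rfl
      rw [e, EBase_641.hh_smul_left, EBase_641.hh_smul_right, h3, ← mul_assoc, Complex.mul_conj,
        Complex.normSq_eq_norm_sq] at h2
      have h4 : ((‖c‖ ^ 2 : ℝ) : ℂ) * 2 = 1 * 2 := by rw [h2, one_mul]
      have h5 : ((‖c‖ ^ 2 : ℝ) : ℂ) = 1 := mul_right_cancel₀ two_ne_zero h4
      have h6 : ‖c‖ ^ 2 = 1 := by exact_mod_cast h5
      have h7 := norm_nonneg c
      nlinarith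
    · right
      rw [hh_wv]
      have h2 : ‖Cls_620.hh (HH z) r r' 0‖ = ‖Cls_620.hh (HH z) r' r 0‖ := by
        rw [← Cls_620.hh_star (HH z) h.toZ5.frm.real r' r, Pi.star_apply, norm_star]
      rw [h2]
      have h3 : Λ ^ 2 ≤ ‖Cls_620.hh (HH z) r' r 0‖ ^ 2 := by linarith
      exact le_of_sq_le_sq'' h3 (norm_nonneg _)
  typ := by
    rintro _ ⟨r, hr, rfl⟩
    have h2 : EBase_641.hh (wv h r) (wv h r) = 2 := by rw [hh_wv, hr.two]; rfl
    have c0 := wv_zero h r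
    have c1 := wv_one h r
    rcases mir_typ h.toZ5 hr with ⟨h3, h4⟩ | h3
    · left
      refine ⟨h2, ?_, ?_⟩
      · rw [c0, h3]; rfl
      · rw [c1]; exact h4 0
    · right
      refine ⟨h2, ?_⟩
      rw [c0, c1]
      nlinarith [sq_nonneg Λ]
where
  le_of_sq_le_sq'' {a b : ℝ} (hab : a ^ 2 ≤ b ^ 2) (hb : 0 ≤ b) : a ≤ b := by
    by_contra hc
    have hc := not_le.mp hc
    nlinarith

end

end Crest.Agent.R272.MirW_702
end

-- ▼ part R272/GrpB_74
section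

/-!
helper74, row 272, AR-GRP, part 2: the group data `GrpData` (990) of the lower bound for
`Gh = K ∪ K s` (502) and the mirrors `WM h μ`; stabilisers are in the group generated by the
reflections (259); `WM` is stable under `Gh`.
-/

set_option autoImplicit false
set_option linter.unusedSectionVars false
set_option linter.unusedVariables false

open scoped ComplexConjugate
open Matrix

namespace Crest.Agent.R272.GrpB_74

open Crest.Agent.R272.In_68 Crest.Agent.R272.EBase_641 Crest.Agent.R272.O5_74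
open Crest.Agent.R272.WM_74 Crest.Agent.R272.Ball7_916 Crest.Agent.R272.GInG_502
open Crest.Agent.R272.LbAsm_990 (GrpData)
open Crest.Agent.R272.GrpA_74 (inj0 mat_ext rho_inj)

noncomputable section

variable {O : Subring (Fin 2 → ℂ)} {z μ : Fin 2 → ℂ}

/-- a matrix acting as the reflection `rf r` is `refl (wv r)` at the ball place -/
theorem rho_eq_refl (h : Z5r O z) {r : Fin 4 → Fin 2 → ℂ}
    (h2 : Cls_620.hh (Cls_620.HH z) r r = 2) {g : GU O z}
    (hg : ∀ v, ((g : Mtˣ) : Mt) *ᵥ v = Cls_620.rf (Cls_620.HH z) r v) :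
    rho h g = LbSep_990.refl (wv h r) := by
  have h2' : EBase_641.hh (wv h r) (wv h r) = 2 := by rw [hh_wv, h2]; rfl
  apply Subtype.ext
  apply LinearEquiv.ext
  intro x
  obtain ⟨v, rfl⟩ := exists_wv h x
  rw [rho_wv, hg, LbSep_990.refl_apply h2', MirW_702.wv_rf]

/-- conversely -/
theorem mulVec_of_refl (h : Z5r O z) {r : Fin 4 → Fin 2 → ℂ}
    (h2 : Cls_620.hh (Cls_620.HH z) r r = 2) {g : GU O z}
    (hg : rho h g = LbSep_990.refl (wv h r)) (v : Fin 4 → Fin 2 → ℂ) (i : Fin 4) :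
    (((g : Mtˣ) : Mt) *ᵥ v) i 0 = Cls_620.rf (Cls_620.HH z) r v i 0 := by
  have h2' : EBase_641.hh (wv h r) (wv h r) = 2 := by rw [hh_wv, h2]; rfl
  have h1 : wv h (((g : Mtˣ) : Mt) *ᵥ v) = wv h (Cls_620.rf (Cls_620.HH z) r v) := by
    rw [← rho_wv, hg, LbSep_990.refl_apply h2', MirW_702.wv_rf]
  have h3 : (sc z : ℂ) ≠ 0 := by exact_mod_cast (sc_pos h).ne'
  have h4 := smul_right_injective (V1 3) h3 h1
  simp only [io_fst] at h4
  exact congrFun ((P0 h).injective h4) i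

/-- an element of `GU` acting as a mirror reflection at the ball place lies in the swap coset -/
theorem div_of_refl (h : Z5r O z) {r : Fin 4 → Fin 2 → ℂ} (hr : Cls_620.Mir O z μ r)
    {g : GU O z} (hg : rho h g = LbSep_990.refl (wv h r)) :
    Div O (Cls_620.pz z * μ) (((g : Mtˣ) : Mt) - swp) := by
  intro i j
  have hint : Cls_620.Int' O (Pi.single j 1 : Fin 4 → Fin 2 → ℂ) := by
    intro k
    rw [Pi.single_apply]
    split_ifs
    · exact O.one_mem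
    · exact O.zero_mem
  have e1 : ((g : Mtˣ) : Mt) i j = Cls_620.rf (Cls_620.HH z) r (Pi.single j 1) i := by
    apply inj0 h (g.2.1 i j) (MirW_702.rf_int h.toZ5 hr.int hint i)
    have := mulVec_of_refl h hr.two hg (Pi.single j 1) i
    rw [Matrix.mulVec_single_one] at this
    exact this
  have e2 : swp i j = Cls_620.rf (Cls_620.HH z) Cls_620.mi (Pi.single j 1) i := by
    rw [← GInG_502.swp_rf h, Matrix.mulVec_single_one]; rfl
  obtain ⟨u, hu, e⟩ := hr.cong _ hint i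
  refine ⟨u, hu, ?_⟩
  rw [Matrix.sub_apply, e1, e2]
  exact e

/-- elements of `K` are not reflections -/
theorem refl_not_mem (h : Z5r O z) {K : Subgroup (GU O z)}
    (hKν : ∀ g ∈ K, (g : Mtˣ) ∈ GC O z (Cls_620.pz z * μ))
    (hN : 1 < ∏ t, ‖(Cls_620.pz z * μ) t‖) {w : V1 3} (hw : w ∈ WM h μ)
    {g : GU O z} (hg : rho h g = LbSep_990.refl w) : g ∉ K := by
  obtain ⟨r, hr, rfl⟩ := hw
  intro hK
  have h1 := div_of_refl h hr hg
  have h2 := (hKν g hK).2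
  have h3 : Div O (Cls_620.pz z * μ) (swp - 1) := by
    have e : swp - 1 = (((g : Mtˣ) : Mt) - 1) + -(((g : Mtˣ) : Mt) - swp) := by abel
    rw [e]
    exact h2.add h1.neg
  exact GrpA_74.not_div_swp h hN h3

section grp

variable (h : Z5r O z) {K : Subgroup (GU O z)} (D : SwD K (swG h))

/-- the representation -/
abbrev phi : D.Gh →* UG 3 := (rho h).comp D.Gh.subtype

theorem phi_inj : Function.Injective (phi h D) := fun a b e => Subtype.ext (rho_inj h e)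

theorem phi_sw : phi h D ⟨swG h, D.s_mem⟩ = LbSep_990.refl (wv h Cls_620.mi) :=
  rho_eq_refl h Cls_620.g_mm (GInG_502.swp_rf h)

/-- **the group data of the lower bound** -/
def grpData (hμ : μ ∈ O) {Λ : ℝ} (hKν : ∀ g ∈ K, (g : Mtˣ) ∈ GC O z (Cls_620.pz z * μ))
    (hΛ : 4 * Λ ^ 2 + 16 ≤ ∏ t, ‖(Cls_620.pz z * μ) t‖) : GrpData (phi h D) (WM h μ) Λ where
  K := K.subgroupOf D.Gh
  σ := ⟨swG h, D.s_mem⟩
  inj := phi_inj h D
  wsys := MirW_702.wsysP h hμ hΛ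
  Knorm := by
    have := D.nrm
    infer_instance
  two := Subtype.ext (swG_sq h)
  idx := by
    intro g
    rcases D.mem_Gh.1 g.2 with hg | hg
    · exact Or.inl hg
    · right
      have e : (⟨swG h, D.s_mem⟩ : D.Gh)⁻¹ = ⟨swG h, D.s_mem⟩ := Subtype.ext D.inv
      rw [e]
      exact hg
  σrefl := ⟨_, ⟨Cls_620.mi, mir_mi h, rfl⟩, phi_sw h D⟩
  notK := by
    intro g w hw hg hgK
    refine refl_not_mem h hKν ?_ hw (g := g.1) hg hgK
    nlinarith [sq_nonneg Λ]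

variable {h D}

/-- the mirrors are stable under `Gh` -/
theorem WM_smul (hKν : ∀ g ∈ K, (g : Mtˣ) ∈ GC O z (Cls_620.pz z * μ)) (g : D.Gh) {w : V1 3}
    (hw : w ∈ WM h μ) : (phi h D g).1 w ∈ WM h μ := by
  obtain ⟨r, hr, rfl⟩ := hw
  refine ⟨((g.1 : Mtˣ) : Mt) *ᵥ r, ⟨?_, ?_, ?_⟩, (rho_wv h g.1 r).symm⟩
  · intro i
    simp only [Matrix.mulVec, dotProduct]
    exact O.sum_mem fun j _ => O.mul_mem (g.1.2.1 i j) (hr.int j)
  · rw [g.1.2.2.2, hr.two]
  · intro x hx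
    -- `rf (g r) = g rf(r) g⁻¹`
    set G : Mt := ((g.1 : Mtˣ) : Mt) with hG
    set G' : Mt := (((g.1 : Mtˣ)⁻¹ : Mtˣ) : Mt) with hG'
    have hGG' : G * G' = 1 := by rw [hG, hG', ← Units.val_mul, mul_inv_cancel, Units.val_one]
    have hx' : Cls_620.Int' O (G' *ᵥ x) := by
      intro i
      simp only [Matrix.mulVec, dotProduct]
      exact O.sum_mem fun j _ => O.mul_mem (g.1.2.2.1 i j) (hx j)
    have ex : G *ᵥ (G' *ᵥ x) = x := by rw [Matrix.mulVec_mulVec, hGG', Matrix.one_mulVec]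
    have e1 : Cls_620.rf (Cls_620.HH z) (G *ᵥ r) x = G *ᵥ Cls_620.rf (Cls_620.HH z) r (G' *ᵥ x) := by
      have e2 : Cls_620.hh (Cls_620.HH z) x (G *ᵥ r) = Cls_620.hh (Cls_620.HH z) (G' *ᵥ x) r := by
        conv_lhs => rw [← ex]
        exact g.1.2.2.2 _ _
      rw [Cls_620.rf, Cls_620.rf, e2, Matrix.mulVec_sub, ex]
      congr 1
      funext i
      simp only [Matrix.mulVec, dotProduct, Pi.smul_apply, smul_eq_mul, Finset.mul_sum]
      refine Finset.sum_congr rfl fun j _ => ?_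
      ring
    have c1 : Cls_620.Cg O (Cls_620.pz z * μ) (G *ᵥ Cls_620.rf (Cls_620.HH z) r (G' *ᵥ x))
        (G *ᵥ Cls_620.rf (Cls_620.HH z) Cls_620.mi (G' *ᵥ x)) := by
      intro i
      have h1 := hr.cong _ hx'
      choose u hu e using h1
      refine ⟨∑ j, G i j * u j, O.sum_mem fun j _ => O.mul_mem (g.1.2.1 i j) (hu j), ?_⟩
      have e3 : (G *ᵥ Cls_620.rf (Cls_620.HH z) r (G' *ᵥ x)) i
          - (G *ᵥ Cls_620.rf (Cls_620.HH z) Cls_620.mi (G' *ᵥ x)) i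
          = (G *ᵥ (Cls_620.rf (Cls_620.HH z) r (G' *ᵥ x)
            - Cls_620.rf (Cls_620.HH z) Cls_620.mi (G' *ᵥ x))) i := by
        rw [Matrix.mulVec_sub]; rfl
      rw [e3]
      simp only [Matrix.mulVec, dotProduct]
      rw [Finset.mul_sum]
      refine Finset.sum_congr rfl fun j _ => ?_
      have e4 := e j
      rw [Pi.sub_apply, e4]
      ring
    rw [e1]
    refine c1.trans ?_
    -- `g swp g⁻¹ ≡ swp`
    have c2 : Div O (Cls_620.pz z * μ) (G * swp * G' - swp) := by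
      rcases D.mem_Gh.1 g.2 with hg | hg
      · have h1 : Div O (Cls_620.pz z * μ) (G - 1) := (hKν _ hg).2
        have e5 : G * swp * G' - swp = (G - 1) * (swp * G') + -(swp * (G - 1) * G') := by
          have : swp * (G - 1) * G' = swp * (G * G') - swp * G' := by
            rw [mul_sub, mul_one, sub_mul, mul_assoc]
          rw [this, hGG', mul_one, sub_mul, one_mul, mul_assoc]
          abel
        rw [e5]
        have hsG : ∀ i j, (swp * G') i j ∈ O := fun i j => by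
          rw [Matrix.mul_apply]
          exact O.sum_mem fun k _ => O.mul_mem (GInG_502.swp_mem O i k) (g.1.2.2.1 k j)
        exact (h1.mul_right hsG).add
          ((h1.mul_left (GInG_502.swp_mem O)).mul_right g.1.2.2.1).neg
      · have h1 : Div O (Cls_620.pz z * μ) (G - swp) := coset_div h (hKν _ hg)
        have hG'G : G' * G = 1 := by rw [hG, hG', ← Units.val_mul, inv_mul_cancel, Units.val_one]
        have e5 : G * swp * G' - swp = (G - swp) * (swp * G') + -(G' * (G - swp) * swp) := by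
          have e6 : (G - swp) * (swp * G') = G * swp * G' - G' := by
            rw [sub_mul, ← mul_assoc swp swp G', swp_mul_self, one_mul, mul_assoc]
          have e7 : G' * (G - swp) * swp = swp - G' := by
            rw [mul_sub, hG'G, sub_mul, one_mul, mul_assoc, swp_mul_self, mul_one]
          rw [e6, e7]
          abel
        rw [e5]
        have hsG : ∀ i j, (swp * G') i j ∈ O := fun i j => by
          rw [Matrix.mul_apply]
          exact O.sum_mem fun k _ => O.mul_mem (GInG_502.swp_mem O i k) (g.1.2.2.1 k j)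
        exact (h1.mul_right hsG).add
          ((h1.mul_left g.1.2.2.1).mul_right (GInG_502.swp_mem O)).neg
    have c3 : G *ᵥ Cls_620.rf (Cls_620.HH z) Cls_620.mi (G' *ᵥ x) = (G * swp * G') *ᵥ x := by
      rw [← GInG_502.swp_rf h, Matrix.mulVec_mulVec, Matrix.mulVec_mulVec, mul_assoc]
    rw [c3, ← GInG_502.swp_rf h]
    intro i
    choose u hu e using c2
    refine ⟨∑ j, u i j * x j, O.sum_mem fun j _ => O.mul_mem (hu i j) (hx j), ?_⟩
    have e8 : ((G * swp * G') *ᵥ x) i - (swp *ᵥ x) i = ((G * swp * G' - swp) *ᵥ x) i := by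
      rw [Matrix.sub_mulVec]; rfl
    rw [e8]
    simp only [Matrix.mulVec, dotProduct]
    rw [Finset.mul_sum]
    refine Finset.sum_congr rfl fun j _ => ?_
    rw [e]; ring

/-- stabilisers of points of the ball lie in the group generated by the reflections -/
theorem stab_mem_R (hμ : μ ∈ O) (hN : 64 < ∏ t, ‖(Cls_620.pz z * μ) t‖)
    (h2 : ∃ c ∈ O, μ = 2 * c) (hKν : ∀ g ∈ K, (g : Mtˣ) ∈ GC O z (Cls_620.pz z * μ)) {Λ : ℝ}
    (GD : GrpData (phi h D) (WM h μ) Λ) {g : D.Gh} {ζ : E 3} (hζ : ζ ∈ Ball 3)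
    (hf : act (phi h D g) ζ = ζ) : g ∈ GD.R := by
  rcases fix_Gh h D hμ hN h2 hKν g.2 hζ hf with h1 | ⟨-, -, r, hr, hact, -, -⟩
  · have : g = 1 := Subtype.ext h1
    rw [this]; exact GD.R.one_mem
  · exact Subgroup.subset_closure ⟨wv h r, ⟨r, hr, rfl⟩, rho_eq_refl h hr.two hact⟩

/-- the same on the type `BX` of 783 = hypothesis `hstab` of 259 -/
theorem hstab (hμ : μ ∈ O) (hN : 64 < ∏ t, ‖(Cls_620.pz z * μ) t‖)
    (h2 : ∃ c ∈ O, μ = 2 * c) (hKν : ∀ g ∈ K, (g : Mtˣ) ∈ GC O z (Cls_620.pz z * μ)) {Λ : ℝ}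
    (GD : GrpData (phi h D) (WM h μ) Λ) (b : Quot_783.BX (phi h D)) (g : D.Gh)
    (hf : g • b = b) : g ∈ GD.R := by
  refine stab_mem_R hμ hN h2 hKν GD b.mem ?_
  have := congrArg Quot_783.BX.val hf
  rwa [Quot_783.BX.val_smul] at this


end grp

end

end Crest.Agent.R272.GrpB_74
end

-- ▼ part R272/WDt1_620
section

/-!
# LB-WDATA (row 272, lower bound for S0415; helper620): dichotomies and the family of far vectors
-/

set_option autoImplicit false
set_option linter.unusedSectionVars false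
set_option linter.unusedVariables false

open scoped ComplexConjugate

noncomputable section

namespace Crest.Agent.R272.WDt_620

open Crest.Agent.R272.EBase_641 Crest.Agent.R272.LbSq_936
open Crest.Agent.R272.Cls_620 (Lb Z5 VV base Deep Cl Mir Int' HH pz e0 e1 e2 e3 ei rf mi Cg)
open Crest.Agent.R272.In_68 (Z5r io)
open Crest.Agent.R272.WM_74 (sc wv WM hh_wv wv_zero wv_one wv_two)

variable {O : Subring (Fin 2 → ℂ)} {z μ : Fin 2 → ℂ}

local notation "H" => Cls_620.hh (HH z)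

/-! ### the dichotomies -/

/-- (D1) -/
theorem dich_vv (h : Z5 O z) {K : ℝ} (hD : Deep O z μ K) {a b : Lb}
    {v w : Fin 4 → Fin 2 → ℂ} (hv : v ∈ VV O z μ a) (hw : w ∈ VV O z μ b) :
    ‖H v w 0‖ ≤ 4 ∨ K < ‖H v w 0‖ := by
  by_cases hle : ‖H v w 0‖ ≤ K
  · left
    rw [hD a b v (Cls_620.VV.low h hv) w (Cls_620.VV.low h hw) hle]
    exact Cls_620.gram_le h a b
  · right
    exact not_le.1 hle

theorem nrm_real (h : Z5 O z) (v : Fin 4 → Fin 2 → ℂ) : H v v 0 = (((H v v 0).re : ℝ) : ℂ) := by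
  have h1 : star (H v v) = H v v := Cls_620.hh_star (HH z) h.frm.real v v
  have h2 := congrFun h1 0
  simp only [Pi.star_apply] at h2
  exact (Complex.conj_eq_iff_re.mp h2).symm

theorem nrm_bd (h : Z5 O z) {a : Lb} {v : Fin 4 → Fin 2 → ℂ} (hv : v ∈ VV O z μ a) :
    ‖H v v 0‖ ≤ 2 := by
  have h1 := Cls_620.n_at0 h a
  rw [← hv.2.2] at h1
  rw [nrm_real h, Complex.norm_real, Real.norm_eq_abs, abs_of_nonneg h1.2]
  exact h1.1

/-- (D2) -/
theorem dich_vm (h : Z5 O z) {K Λ : ℝ} (hΛ : 0 ≤ Λ) (hK : Λ ^ 2 + 2 ≤ K) (hD : Deep O z μ K)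
    {a : Lb} {v r : Fin 4 → Fin 2 → ℂ} (hv : v ∈ VV O z μ a) (hr : Mir O z μ r) :
    ‖H v r 0‖ ≤ 4 ∨ Λ ≤ ‖H v r 0‖ := by
  have h1 := dich_vv h hD hv (hr.map h hv)
  have e : H v (rf (HH z) r v) 0 = H v v 0 - ((‖H v r 0‖ ^ 2 : ℝ) : ℂ) := by
    rw [rf, Cls_620.hh_sub_right, Cls_620.hh_smul_right]
    simp only [Pi.sub_apply, Pi.mul_apply, Pi.star_apply]
    congr 1
    rw [mul_comm, ← Complex.normSq_eq_norm_sq, ← Complex.mul_conj]
    rfl
  have h2 := nrm_bd h hv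
  rw [e] at h1
  have h3 : ‖(((‖H v r 0‖ ^ 2 : ℝ)) : ℂ)‖ = ‖H v r 0‖ ^ 2 := by
    rw [Complex.norm_real, Real.norm_eq_abs, abs_of_nonneg (sq_nonneg _)]
  have h4 := norm_nonneg (H v r 0)
  rcases h1 with h1 | h1
  · left
    have h5 : ‖(((‖H v r 0‖ ^ 2 : ℝ)) : ℂ)‖ ≤ ‖H v v 0‖ + ‖H v v 0 - ((‖H v r 0‖ ^ 2 : ℝ) : ℂ)‖ := by
      have := norm_sub_le (H v v 0) (H v v 0 - ((‖H v r 0‖ ^ 2 : ℝ) : ℂ))
      rwa [sub_sub_cancel] at this
    rw [h3] at h5
    nlinarith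
  · right
    have h5 := norm_sub_le (H v v 0) ((‖H v r 0‖ ^ 2 : ℝ) : ℂ)
    rw [h3] at h5
    have h6 : Λ ^ 2 ≤ ‖H v r 0‖ ^ 2 := by linarith
    exact le_of_sq_le_sq h6 h4

/-- (D3) -/
theorem dich_mm (h : Z5r O z) (hμ : μ ∈ O) {Λ : ℝ}
    (hN : 4 * Λ ^ 2 + 16 ≤ ∏ t, ‖(pz z * μ) t‖) {w w' : V1 3} (hw : w ∈ WM h μ)
    (hw' : w' ∈ WM h μ) : ‖hh w w'‖ ≤ 4 ∨ Λ ≤ ‖hh w w'‖ := by
  rcases (MirW_702.wsysP h hμ hN).sep w hw w' hw' with ⟨c, hc, e⟩ | h1
  · left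
    rw [e, hh_smul_right, WM_74.WM_norm h w hw, norm_mul, Complex.norm_conj, hc]
    norm_num
  · exact Or.inr h1

/-! ### the coordinates 0 and 1 -/

theorem hh_e0' (v : Fin 4 → Fin 2 → ℂ) : H v e0 = v 0 := by
  simp [Cls_620.hh, Fin.sum_univ_four, HH, e0]

theorem hh_e1' (v : Fin 4 → Fin 2 → ℂ) : H v e1 = v 1 := by
  simp [Cls_620.hh, Fin.sum_univ_four, HH, e1]

/-- (D4) -/
theorem far_or_std (h : Z5 O z) {K : ℝ} (hD : Deep O z μ K) {a : Lb}
    {v : Fin 4 → Fin 2 → ℂ} (hv : v ∈ VV O z μ a) :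
    K < ‖v 0 0‖ ∨ K < ‖v 1 0‖ ∨ (v 0 = base z a 0 ∧ v 1 = base z a 1) := by
  have b0 : base z .o ∈ VV O z μ .o := ⟨Cls_620.base_mem h .o, Cg.refl _ _, rfl⟩
  have b1 : base z (.n false) ∈ VV O z μ (.n false) :=
    ⟨Cls_620.base_mem h (.n false), Cg.refl _ _, rfl⟩
  have e0' : base z .o = e0 := rfl
  have e1' : base z (.n false) = e1 := rfl
  by_cases h0 : ‖v 0 0‖ ≤ K
  · by_cases h1 : ‖v 1 0‖ ≤ K
    · right; right
      have g0 := hD a .o v (Cls_620.VV.low h hv) _ (Cls_620.VV.low h b0)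
      have g1 := hD a (.n false) v (Cls_620.VV.low h hv) _ (Cls_620.VV.low h b1)
      rw [e0', hh_e0', hh_e0'] at g0
      rw [e1', hh_e1', hh_e1'] at g1
      exact ⟨g0 h0, g1 h1⟩
    · exact Or.inr (Or.inl (not_le.1 h1))
  · exact Or.inl (not_le.1 h0)

/-- the vectors of the classes `n false`, `v false j` which are not far are the base vectors -/
theorem eq_base (h : Z5 O z) {a : Lb} (ha : a = .n false ∨ ∃ j, a = .v false j)
    {v : Fin 4 → Fin 2 → ℂ} (hv : v ∈ VV O z μ a) (h0 : v 0 = base z a 0)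
    (h1 : v 1 = base z a 1) : v = base z a := by
  have hb : base z a ∈ VV O z μ a := ⟨Cls_620.base_mem h a, Cg.refl _ _, rfl⟩
  refine Cls_620.uniq h.ord h.frm (t := 1) (by decide) hv hb ?_
  rcases ha with rfl | ⟨j, rfl⟩
  · have e : base z (.n false) = e1 := rfl
    rw [e] at h1 ⊢
    rw [hh_e1', hh_e1', h1]
  · have e : base z (.v false j) = e1 - z ^ (j : ℕ) • e0 := rfl
    have k0 : ∀ u : Fin 4 → Fin 2 → ℂ, H u (base z (.v false j)) =
        u 1 - star (z ^ (j : ℕ)) * u 0 := by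
      intro u
      rw [e, Cls_620.hh_sub_right, Cls_620.hh_smul_right, hh_e0', hh_e1']
    rw [k0, k0, h0, h1]

/-- the bridges -/
theorem isBr_of (h : Z5r O z) {k : Fin 5} {v : Fin 4 → Fin 2 → ℂ}
    (hv : v ∈ VV O z μ (.b false k)) (h0 : v 0 = base z (.b false k) 0)
    (h1 : v 1 = base z (.b false k) 1) : IsBr (z 0) k (wv h v) := by
  have c0 : v 0 0 = -(z 0) ^ (k : ℕ) := by
    rw [h0]; simp [base, ei, e1, e0, e3]
  have c1 : v 1 0 = 1 := by
    rw [h1]; simp [base, ei, e1, e0, e3]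
  refine ⟨by rw [wv_zero, c0], by rw [wv_one, c1], ?_⟩
  have n1 := Cls_620.nrm_b h.toZ5 hv
  have e := hh_self (wv h v)
  rw [hh_wv] at e
  have e' := congrArg Complex.re e
  rw [Complex.ofReal_re, n1, EuclideanSpace.norm_sq_eq, Fin.sum_univ_three, wv_zero, wv_one,
    c0, c1, norm_neg, norm_pow, (rz_of h).norm] at e'
  simp only [one_pow, norm_one] at e'
  unfold gr
  linarith

/-! ### norms -/

theorem nrm_lo (h : Z5 O z) {a : Lb} {v : Fin 4 → Fin 2 → ℂ} (hv : v ∈ VV O z μ a) :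
    3 / 8 ≤ (H v v 0).re ∧ (H v v 0).re ≤ 2 := by
  have hs := Cls_620.sqrt5_bd
  refine ⟨?_, by have := (Cls_620.n_at0 h a).2; rw [hv.2.2]; exact (Cls_620.n_at0 h a).1⟩
  cases a with
  | o => rw [Cls_620.nrm_o hv]; norm_num
  | n i => rw [Cls_620.nrm_n hv]; norm_num
  | v i j => rw [Cls_620.nrm_v h hv]; norm_num
  | b i k => rw [Cls_620.nrm_b h hv]; linarith

/-- bound at the definite place -/
theorem nrm_at1 (h : Z5 O z) {a : Lb} {v : Fin 4 → Fin 2 → ℂ} (hv : v ∈ VV O z μ a) :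
    (H v v 1).re ≤ 3 := by
  rw [hv.2.2]; exact Cls_620.n_at1 h a

theorem H3_0 (h : Z5 O z) : (HH z 3 0).re = -(Real.sqrt 5 + 1) / 2 := by
  have : HH z 3 0 = z 0 ^ 2 + z 0 ^ 3 := rfl
  rw [this, h.at0', Complex.ofReal_re]

theorem H3_1 (h : Z5 O z) : (HH z 3 1).re = (Real.sqrt 5 - 1) / 2 := by
  have : HH z 3 1 = z 1 ^ 2 + z 1 ^ 3 := rfl
  rw [this, h.at1', Complex.ofReal_re]

theorem Hi_t (z : Fin 2 → ℂ) {i : Fin 4} (hi : i ≠ 3) (t : Fin 2) : (HH z i t).re = 1 := by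
  fin_cases i
  · simp [HH]
  · simp [HH]
  · simp [HH]
  · exact absurd rfl hi

/-- (D6) finiteness -/
theorem fin_of (h : Z5r O z) (T : ℝ) : {v : Fin 4 → Fin 2 → ℂ | Int' O v ∧ 0 ≤ (H v v 0).re ∧
    (H v v 1).re ≤ 3 ∧ ‖(wv h v).1‖ ≤ T}.Finite := by
  have hs := Cls_620.sqrt5_bd
  have h1 : (Set.pi Set.univ fun _ : Fin 4 =>
      {x : Fin 2 → ℂ | x ∈ O ∧ ∀ t, ‖x t‖ ≤ T + 3}).Finite :=
    Set.Finite.pi fun _ => In_68.finite_O h _
  refine h1.subset ?_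
  rintro v ⟨hv, hn0, hn1, hT⟩ i -
  have hT0 : 0 ≤ T := (norm_nonneg _).trans hT
  refine ⟨hv i, fun t => ?_⟩
  have r0 := Cls_620.re_diag h.toZ5.frm.real v 0
  have r1 := Cls_620.re_diag h.toZ5.frm.real v 1
  rw [Fin.sum_univ_four, Hi_t z (by decide), Hi_t z (by decide), Hi_t z (by decide),
    H3_0 h.toZ5] at r0
  rw [Fin.sum_univ_four, Hi_t z (by decide), Hi_t z (by decide), Hi_t z (by decide),
    H3_1 h.toZ5] at r1
  have e : ‖(wv h v).1‖ ^ 2 = ‖v 0 0‖ ^ 2 + ‖v 1 0‖ ^ 2 + ‖v 2 0‖ ^ 2 := by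
    rw [EuclideanSpace.norm_sq_eq, Fin.sum_univ_three, wv_zero, wv_one, wv_two]
  have hT2 : ‖(wv h v).1‖ ^ 2 ≤ T ^ 2 := pow_le_pow_left₀ (norm_nonneg _) hT 2
  have p00 := sq_nonneg ‖v 0 0‖
  have p10 := sq_nonneg ‖v 1 0‖
  have p20 := sq_nonneg ‖v 2 0‖
  have p30 := sq_nonneg ‖v 3 0‖
  have p01 := sq_nonneg ‖v 0 1‖
  have p11 := sq_nonneg ‖v 1 1‖
  have p21 := sq_nonneg ‖v 2 1‖
  have p31 := sq_nonneg ‖v 3 1‖
  have q30 : ‖v 3 0‖ ^ 2 ≤ T ^ 2 := by nlinarith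
  have q31 : ‖v 3 1‖ ^ 2 ≤ 9 := by nlinarith
  have q31' : 0 ≤ (Real.sqrt 5 - 1) / 2 * ‖v 3 1‖ ^ 2 := mul_nonneg (by linarith) p31
  refine le_of_sq_le_sq ?_ (by linarith)
  have b0 : ∀ x : ℝ, x ≤ T ^ 2 → x ≤ (T + 3) ^ 2 := fun x hx => by nlinarith
  have b1 : ∀ x : ℝ, x ≤ 9 → x ≤ (T + 3) ^ 2 := fun x hx => by nlinarith
  fin_cases t
  · apply b0
    fin_cases i
    · show ‖v 0 0‖ ^ 2 ≤ _; linarith
    · show ‖v 1 0‖ ^ 2 ≤ _; linarith
    · show ‖v 2 0‖ ^ 2 ≤ _; linarith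
    · exact q30
  · apply b1
    fin_cases i
    · show ‖v 0 1‖ ^ 2 ≤ _; linarith
    · show ‖v 1 1‖ ^ 2 ≤ _; linarith
    · show ‖v 2 1‖ ^ 2 ≤ _; linarith
    · exact q31

/-! ### the family -/

/-- the far vectors: of the branch classes of colour `false`, or mirrors -/
def Far (h : Z5r O z) (μ : Fin 2 → ℂ) (Λ : ℝ) (x : V1 3) : Prop :=
  (x ∈ Sall (CC h μ) ∨ x ∈ WM h μ) ∧ Λ ^ 2 ≤ ‖x.1 0‖ ^ 2 + ‖x.1 1‖ ^ 2

/-- the index type -/
abbrev Ix (h : Z5r O z) (μ : Fin 2 → ℂ) (Λ : ℝ) : Type := {x : V1 3 // Far h μ Λ x}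

/-- the norm -/
def Nn (x : V1 3) : ℝ := ‖x.1‖ ^ 2 - ‖x.2‖ ^ 2

theorem Nn_wv (h : Z5r O z) (v : Fin 4 → Fin 2 → ℂ) : Nn (wv h v) = (H v v 0).re := by
  have e := hh_self (wv h v)
  rw [hh_wv] at e
  rw [e, Complex.ofReal_re]
  rfl

/-- what is known of the elements of the family -/
theorem Far.exists {h : Z5r O z} {Λ : ℝ} {x : V1 3} (hx : Far h μ Λ x) :
    ∃ v : Fin 4 → Fin 2 → ℂ, wv h v = x ∧ Int' O v ∧ 3 / 8 ≤ (H v v 0).re ∧
      (H v v 0).re ≤ 2 ∧ (H v v 1).re ≤ 3 ∧ ((∃ a, v ∈ VV O z μ a) ∨ Mir O z μ v) := by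
  rcases hx.1 with ⟨a, -, v, hv, rfl⟩ | ⟨v, hv, rfl⟩
  · obtain ⟨n1, n2⟩ := nrm_lo h.toZ5 hv
    exact ⟨v, rfl, hv.1, n1, n2, nrm_at1 h.toZ5 hv, Or.inl ⟨a, hv⟩⟩
  · refine ⟨v, rfl, hv.int, ?_, ?_, ?_, Or.inr hv⟩
    · rw [hv.two]; norm_num
    · rw [hv.two]; norm_num
    · rw [hv.two]; norm_num

theorem dich (h : Z5r O z) (hμ : μ ∈ O) {K Λ : ℝ} (hD : Deep O z μ K) (hΛ : 2 ≤ Λ)
    (hK : Λ ^ 2 + 2 ≤ K) (hN : 4 * Λ ^ 2 + 16 ≤ ∏ t, ‖(pz z * μ) t‖) {x y : V1 3}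
    (hx : Far h μ Λ x) (hy : Far h μ Λ y) : ‖hh x y‖ ≤ 4 ∨ Λ ≤ ‖hh x y‖ := by
  have hΛ0 : 0 ≤ Λ := by linarith
  have hΛK : Λ ≤ K := by nlinarith
  obtain ⟨v, rfl, -, -, -, -, hv⟩ := hx.exists
  obtain ⟨w, rfl, -, -, -, -, hw⟩ := hy.exists
  rcases hv with ⟨a, hv⟩ | hv
  · rcases hw with ⟨b, hw⟩ | hw
    · rw [hh_wv]
      rcases dich_vv h.toZ5 hD hv hw with h1 | h1
      · exact Or.inl h1
      · exact Or.inr (hΛK.trans h1.le)
    · rw [hh_wv]
      exact dich_vm h.toZ5 hΛ0 hK hD hv hw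
  · rcases hw with ⟨b, hw⟩ | hw
    · rw [St2_702.norm_hh_symm, hh_wv]
      exact dich_vm h.toZ5 hΛ0 hK hD hw hv
    · exact dich_mm h hμ hN ⟨v, hv, rfl⟩ ⟨w, hw, rfl⟩

/-- **WData** -/
theorem wdata (h : Z5r O z) (hμ : μ ∈ O) {K Λ : ℝ} (hD : Deep O z μ K) (hΛ : 2 ≤ Λ)
    (hK : Λ ^ 2 + 2 ≤ K) (hN : 4 * Λ ^ 2 + 16 ≤ ∏ t, ‖(pz z * μ) t‖) {Lam Lam' k : ℝ}
    (hk : 1 ≤ k) (hL : Lam ≤ Λ)
    (hLam : 4 * 2 * (2 + (3 * (2 * (2 * k) + LbCap_382.capA (3 / 8) 4)) ^ 2) < Lam)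
    (hL0 : 0 < Lam') (hL' : Lam' ≤ Λ) (hkLam : k ^ 2 * 2 < Lam' ^ 2) :
    WData (Ix h μ Λ) (fun i => i.1) (fun i => Nn i.1) (3 / 8) 2 4 Lam Lam' k where
  pv := by
    rintro ⟨x, hx⟩
    obtain ⟨v, rfl, -, n1, n2, -, -⟩ := hx.exists
    refine ⟨?_, rfl, ?_⟩
    · show 0 < Nn (wv h v)
      rw [Nn_wv]; linarith
    · intro h0
      have h1 : Nn (wv h v) ≤ 2 := by rw [Nn_wv]; exact n2
      have h0' : (wv h v).2 = 0 := h0
      have h2 := hx.2
      have h3 : ‖(wv h v).1‖ ^ 2 = ‖(wv h v).1 0‖ ^ 2 + ‖(wv h v).1 1‖ ^ 2 +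
          ‖(wv h v).1 2‖ ^ 2 := by
        rw [EuclideanSpace.norm_sq_eq, Fin.sum_univ_three]
      unfold Nn at h1
      rw [h0', norm_zero, h3] at h1
      nlinarith [sq_nonneg ‖(wv h v).1 2‖]
  min_pos := by norm_num
  le_min := by
    rintro ⟨x, hx⟩
    obtain ⟨v, rfl, -, n1, n2, -, -⟩ := hx.exists
    show _ ≤ Nn (wv h v)
    rw [Nn_wv]; exact n1
  le_max := by
    rintro ⟨x, hx⟩
    obtain ⟨v, rfl, -, n1, n2, -, -⟩ := hx.exists
    show Nn (wv h v) ≤ _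
    rw [Nn_wv]; exact n2
  hk := hk
  hc0 := by norm_num
  dich := by
    rintro ⟨x, hx⟩ ⟨y, hy⟩ -
    rcases dich h hμ hD hΛ hK hN hx hy with h1 | h1
    · exact Or.inl h1
    · exact Or.inr (hL.trans h1)
  hLam := hLam
  disc := by
    intro T
    have h1 := (fin_of h T).image (wv h)
    refine Set.Finite.of_finite_image (f := Subtype.val) (h1.subset ?_)
      Subtype.val_injective.injOn
    rintro _ ⟨⟨x, hx⟩, hT, rfl⟩
    obtain ⟨v, rfl, i, n1, n2, n3, -⟩ := hx.exists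
    exact ⟨v, ⟨i, by linarith, n3, hT⟩, rfl⟩
  hLam' := hL0
  far := by
    rintro ⟨x, hx⟩
    refine hL'.trans (le_of_sq_le_sq ?_ (norm_nonneg _))
    rw [norm_PP_sq]
    exact hx.2
  hkLam := hkLam

/-- **hrest** -/
theorem hrest (h : Z5r O z) {K Λ : ℝ} (hD : Deep O z μ K) (hΛ : 0 ≤ Λ) (hK : Λ ≤ K) :
    ∀ v ∈ Sall (CC h μ), v ∉ S0 (z 0) → (∃ i : Ix h μ Λ, i.1 = v) ∨ IsBr (z 0) 4 v ∨
      IsBr (z 0) 1 v ∨ IsBr (z 0) 2 v := by
  rintro v hS h0
  obtain ⟨a, ha, r, hr, e⟩ := id hS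
  by_cases hf : Λ ^ 2 ≤ ‖v.1 0‖ ^ 2 + ‖v.1 1‖ ^ 2
  · exact Or.inl ⟨⟨v, Or.inl hS, hf⟩, rfl⟩
  right
  have c0 := wv_zero h r
  have c1 := wv_one h r
  rw [e] at c0 c1
  have key : r 0 = base z a 0 ∧ r 1 = base z a 1 := by
    rcases far_or_std h.toZ5 hD hr with h1 | h1 | h1
    · exfalso
      apply hf
      rw [← c0] at h1
      nlinarith [norm_nonneg (v.1 0), sq_nonneg ‖v.1 1‖]
    · exfalso
      apply hf
      rw [← c1] at h1
      nlinarith [norm_nonneg (v.1 1), sq_nonneg ‖v.1 0‖]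
    · exact h1
  cases a with
  | o => exact ha.elim
  | n i =>
    cases i with
    | true => exact ha.elim
    | false =>
      exfalso
      have e1 := eq_base h.toZ5 (Or.inl rfl) hr key.1 key.2
      rw [e1, wv_n] at e
      exact h0 (mem_S0.2 (Or.inl e.symm))
  | v i j =>
    cases i with
    | true => exact ha.elim
    | false =>
      exfalso
      have e1 := eq_base h.toZ5 (Or.inr ⟨j, rfl⟩) hr key.1 key.2
      rw [e1, wv_v] at e
      exact h0 (mem_S0.2 (Or.inr ⟨j, j.isLt, e⟩))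
  | b i k =>
    cases i with
    | true => exact ha.elim
    | false =>
      have hB := isBr_of h hr key.1 key.2
      rw [e] at hB
      rcases ha with rfl | rfl | rfl
      · exact Or.inr (Or.inl hB)
      · exact Or.inr (Or.inr hB)
      · exact Or.inl hB

/-- **Link** -/
theorem link (h : Z5r O z) {Λ : ℝ} :
    LbAsm_990.Link (WM h μ) Λ (fun i : Ix h μ Λ => i.1) := by
  intro w hw hB
  exact ⟨⟨w, Or.inr hw, hB.2⟩, 1, one_ne_zero, (one_smul ℂ w).symm⟩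

end Crest.Agent.R272.WDt_620
end
end

-- ▼ part R272/WDn1_702
section

/-!
# LB-WDATA, the numbers (row 272, lower bound for S0415; helper702)

`k = 129`, `Nmin = 3/8`, `Nmax = 2`, `c0 = 4`, `c = -3 ζ`, `m1 = 27/37`, `m2 = 3/4`, `r = 6`,
`C = 16513`; `Lam`, `Lam'` are arbitrary numbers `≥ 10^10`.
-/

set_option autoImplicit false

open Crest.Agent.R272.EBase_641 Crest.Agent.R272.LbCap_382 Crest.Agent.R272.LbClu_382
open Crest.Agent.R272.LbSq_936 (RZ gr mm E3 Q0 IsWall WData)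
open Crest.Agent.R272.Cls_620 (Z5)

namespace Crest.Agent.R272.WDn_702

theorem capA_le : capA (3 / 8) 4 ≤ 5 := by
  unfold capA
  rw [Real.sqrt_le_left (by norm_num)]
  norm_num

theorem capA_nonneg : 0 ≤ capA (3 / 8) 4 := Real.sqrt_nonneg _

theorem hLam {Lam : ℝ} (h : (10 : ℝ) ^ 10 ≤ Lam) :
    4 * 2 * (2 + (3 * (2 * (2 * 129) + capA (3 / 8) 4)) ^ 2) < Lam := by
  have h1 := capA_le
  have h2 := capA_nonneg
  have h3 : (3 * (2 * (2 * 129) + capA (3 / 8) 4)) ^ 2 ≤ 1563 ^ 2 :=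
    pow_le_pow_left₀ (by linarith) (by linarith) 2
  linarith

theorem hkLam {Lam' : ℝ} (h : (10 : ℝ) ^ 10 ≤ Lam') : (129 : ℝ) ^ 2 * 2 < Lam' ^ 2 := by
  nlinarith

theorem slope_le {Lam' : ℝ} (h : (10 : ℝ) ^ 10 ≤ Lam') :
    slopeδ 129 (capA (3 / 8) 4) 2 Lam' ≤ 1 / 1000000 := by
  have h0 : (0 : ℝ) < Lam' := lt_of_lt_of_le (by norm_num) h
  have h1 := capA_le
  have h2 := capA_nonneg
  have h3 : Real.sqrt 2 ≤ 3 / 2 := by
    rw [Real.sqrt_le_left (by norm_num)]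
    norm_num
  have h4 := Real.sqrt_nonneg 2
  unfold slopeδ capC
  rw [div_le_iff₀ h0]
  have h5 : (4 * 129 + 2 * (2 * 1 ^ 3 * (2 * (2 * 129) + capA (3 / 8) 4)) : ℝ) ≤ 2600 := by
    linarith
  have h6 : (4 * 129 + 2 * (2 * 1 ^ 3 * (2 * (2 * 129) + capA (3 / 8) 4)) : ℝ) * Real.sqrt 2 ≤
      2600 * (3 / 2) := mul_le_mul h5 h3 h4 (by norm_num)
  linarith

theorem hδ {Lam' : ℝ} (h : (10 : ℝ) ^ 10 ≤ Lam') :
    slopeδ 129 (capA (3 / 8) 4) 2 Lam' ≤ 1 / 2 :=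
  (slope_le h).trans (by norm_num)




/-! ### the numbers of `mem_OO_of_wall` and of `sep_final` (990) -/

theorem n_C : (16512 : ℝ) < 16513 := by norm_num

theorem n_CΛ {Λ : ℝ} (h : (10 : ℝ) ^ 10 ≤ Λ) : 6 * 16513 ≤ Λ ^ 2 := by nlinarith


theorem n_kC {Λ : ℝ} (h : (10 : ℝ) ^ 10 ≤ Λ) : 1 + 16513 + 2 * 16513 / Λ * 129 ≤ (129 : ℝ) ^ 2 := by
  have h0 : (0 : ℝ) < Λ := lt_of_lt_of_le (by norm_num) h
  have h1 : (2 * 16513 / Λ * 129 : ℝ) ≤ 1 := by
    rw [div_mul_eq_mul_div, div_le_one h0]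
    norm_num at h ⊢; linarith
  norm_num at h1 ⊢
  linarith


/-! ### the root of unity at the ball place -/

variable {O : Subring (Fin 2 → ℂ)} {z : Fin 2 → ℂ}


end Crest.Agent.R272.WDn_702
end

-- ▼ part R272/As157_338

/-!
# R272, leaf S15-ASM (helper338), part 7: S0415 from 834's `QHol`

`s15_q` : S0415 from `PosF CX` and ONE map `q : C × C → X` with `QHol (cur Pz) CX q` (834), and one
arc `g` of the curve such that `g`, `α² g`, `α³ g` die and `α g` lives.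
-/

set_option autoImplicit false
set_option linter.unusedSectionVars false

open Set Filter Topology TopologicalSpace
open Crest.AlgGeometry

namespace Crest.Agent.R272.As15_338

open Crest.Agent.R275.Geo Crest.Agent.R275.Core144 Crest.Agent.R275.GC293
open Crest.Agent.R273.Defs_333 Crest.Agent.R273.Fam_835
open Crest.Agent.R272.Per_939 CovOrd_463 LbExt_259 TLoop_463 Crest.Agent.R272.AJ_956 UB_20
open MQ_783 Refl_246 LBAsm_585 LbEnd_259 Comp_259 DCov_426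
open Cur_297 AJz_956 Ax_834

noncomputable section

local notation "I" => unitInterval


section DL

variable {C X : Type} [TopologicalSpace C] [TopologicalSpace X] {n : ℕ} {CX : Fam n X}

/-- the arc dies in `X` -/
def DiesQ (𝒞 : Cur C) (q : C × C → X) (γ : C(I, C)) : Prop :=
  ∀ hq : Continuous (rq q), Dies 𝒞 hq (Subtype.val : range q → X) γ

/-- the arc lives in `X` -/
def LivesQ (𝒞 : Cur C) (q : C × C → X) (γ : C(I, C)) : Prop :=
  ∀ hq : Continuous (rq q), Lives 𝒞 hq (Subtype.val : range q → X) γ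

variable {𝒞 : Cur C} {q : C × C → X} {γ γ' : C(I, C)}

theorem DiesQ.congr (h : DiesQ 𝒞 q γ) (e : ∀ t, γ' t = γ t) : DiesQ 𝒞 q γ' :=
  fun hq => (h hq).congr e

theorem LivesQ.congr (h : LivesQ 𝒞 q γ) (e : ∀ t, γ' t = γ t) : LivesQ 𝒞 q γ' :=
  fun hq => (h hq).congr e

theorem DiesQ.iv (h : DiesQ 𝒞 q γ) (e : ∀ t, γ' t = 𝒞.iv (γ t)) : DiesQ 𝒞 q γ' :=
  fun hq => (h hq).iv e

theorem LivesQ.iv (h : LivesQ 𝒞 q γ) (e : ∀ t, γ' t = 𝒞.iv (γ t)) : LivesQ 𝒞 q γ' :=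
  fun hq => (h hq).iv e


end DL

variable {X : Type} [TopologicalSpace X] [T2Space X] [CompactSpace X]


end

end Crest.Agent.R272.As15_338
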