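import Mathlib
import Crest.Agent.R272.Root1_83

-- ▼ part R272/Th_275
section

noncomputable section

open Topology Filter Set
open scoped unitInterval

namespace Crest.Agent.R272.Th_275

/-- the circle valued function `ε T / 2`. -/
def theta {E : Type*} (ε T : E → ℝ) (x : E) : AddCircle (1 : ℝ) := ((ε x * T x / 2 : ℝ) : AddCircle (1 : ℝ))

theorem theta_of_zero {E : Type*} {ε T : E → ℝ} {x : E} (h : T x = 0) : theta ε T x = 0 := by
  unfold theta; rw [h]; simp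

theorem half_eq : ((-(1 / 2) : ℝ) : AddCircle (1 : ℝ)) = ((1 / 2 : ℝ) : AddCircle (1 : ℝ)) := by
  have h : ((1 / 2 : ℝ) : AddCircle (1 : ℝ)) = ((-(1 / 2) + (1 : ℝ) : ℝ) : AddCircle (1 : ℝ)) := by
    congr 1; norm_num
  rw [h, AddCircle.coe_add, AddCircle.coe_period, add_zero]

theorem theta_of_one {E : Type*} {ε T : E → ℝ} (hε : ∀ x, ε x = 1 ∨ ε x = -1) {x : E} (h : T x = 1) :
    theta ε T x = ((1 / 2 : ℝ) : AddCircle (1 : ℝ)) := by
  unfold theta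
  rw [h]
  rcases hε x with h1 | h1
  · rw [h1]; simp
  · rw [h1, ← half_eq]; congr 1; norm_num

variable {E : Type*} [TopologicalSpace E]

/-- **Continuity of `θ`.** -/
theorem continuous_theta {ε T : E → ℝ} (hT : Continuous T) (hε : ∀ x, ε x = 1 ∨ ε x = -1)
    (hc : ∀ x, T x ≠ 0 → T x ≠ 1 → ContinuousAt ε x) : Continuous (theta ε T) := by
  have hq : Continuous (fun r : ℝ => (r : AddCircle (1 : ℝ))) := AddCircle.continuous_mk' 1
  have hb : ∀ x, |ε x| = 1 := by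
    intro x; rcases hε x with h | h <;> rw [h] <;> simp
  rw [continuous_iff_continuousAt]
  intro x
  by_cases h0 : T x = 0
  · -- near a zero of `T`
    have h1 : Tendsto (fun y => ε y * T y / 2) (𝓝 x) (𝓝 0) := by
      rw [tendsto_zero_iff_norm_tendsto_zero]
      have h2 : Tendsto (fun y => |T y| / 2) (𝓝 x) (𝓝 0) := by
        have := ((hT.abs.div_const 2).tendsto x)
        rwa [h0, abs_zero, zero_div] at this
      refine h2.congr (fun y => ?_)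
      rw [Real.norm_eq_abs, abs_div, abs_mul, hb, one_mul, abs_of_pos (by norm_num : (0 : ℝ) < 2)]
    have h3 : Tendsto (theta ε T) (𝓝 x) (𝓝 (((0 : ℝ) : ℝ) : AddCircle (1 : ℝ))) :=
      (hq.tendsto 0).comp h1
    have h4 : theta ε T x = ((0 : ℝ) : AddCircle (1 : ℝ)) := by rw [theta_of_zero h0]; simp
    rw [ContinuousAt, h4]; exact h3
  · by_cases h1 : T x = 1
    · -- near a point with `T = 1`
      have h2 : Tendsto (fun y => ε y * (T y - 1) / 2 + 1 / 2) (𝓝 x) (𝓝 (1 / 2)) := by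
        have h3 : Tendsto (fun y => ε y * (T y - 1) / 2) (𝓝 x) (𝓝 0) := by
          rw [tendsto_zero_iff_norm_tendsto_zero]
          have h4 : Tendsto (fun y => |T y - 1| / 2) (𝓝 x) (𝓝 0) := by
            have h7 : Continuous (fun y => |T y - 1| / 2) := ((hT.sub continuous_const).abs.div_const 2)
            have := h7.tendsto x
            simpa [h1] using this
          refine h4.congr (fun y => ?_)
          rw [Real.norm_eq_abs, abs_div, abs_mul, hb, one_mul, abs_of_pos (by norm_num : (0 : ℝ) < 2)]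
        have h8 := h3.add_const (1 / 2 : ℝ)
        rwa [zero_add] at h8
      have h5 : theta ε T = fun y => ((ε y * (T y - 1) / 2 + 1 / 2 : ℝ) : AddCircle (1 : ℝ)) := by
        funext y
        unfold theta
        rcases hε y with h6 | h6
        · rw [h6]; congr 1; ring
        · rw [h6]
          have e1 : ((-1 : ℝ) * T y / 2) = -1 * (T y - 1) / 2 + -(1 / 2) := by ring
          rw [e1, AddCircle.coe_add, half_eq, ← AddCircle.coe_add]
      rw [ContinuousAt, theta_of_one hε h1, h5]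
      exact (hq.tendsto (1 / 2)).comp h2
    · exact hq.continuousAt.comp (((hc x h0 h1).mul hT.continuousAt).div_const 2)

/-- `θ` as a continuous map. -/
def thetaC (ε T : E → ℝ) (hT : Continuous T) (hε : ∀ x, ε x = 1 ∨ ε x = -1)
    (hc : ∀ x, T x ≠ 0 → T x ≠ 1 → ContinuousAt ε x) : C(E, AddCircle (1 : ℝ)) :=
  ⟨theta ε T, continuous_theta hT hε hc⟩

/-- **Degree of `θ` on a loop crossing the wall twice, with opposite signs.**  `g : I → E` continuous,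
`T (g 0) = 0 = T (g 1)`, `T (g c) = 1`, `ε = 1` on the part of `(0,c)` where `0 < T < 1`, `ε = -1` on the part
of `(c,1)` where `0 < T < 1`.  Then `θ ∘ g` has a real lift with `ℓ 0 = 0` and `ℓ 1 = 1`. -/
theorem exists_lift {ε T : E → ℝ} (hT : Continuous T) (hε : ∀ x, ε x = 1 ∨ ε x = -1)
    (g : C(I, E)) (c : I) (h0 : T (g 0) = 0) (h1 : T (g 1) = 0) (hcc : T (g c) = 1)
    (hp : ∀ t : I, t ≤ c → T (g t) ≠ 0 → T (g t) ≠ 1 → ε (g t) = 1)
    (hm : ∀ t : I, c ≤ t → T (g t) ≠ 0 → T (g t) ≠ 1 → ε (g t) = -1) :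
    ∃ l : C(I, ℝ), l 0 = 0 ∧ l 1 = 1 ∧ ∀ t, ((l t : ℝ) : AddCircle (1 : ℝ)) = theta ε T (g t) := by
  classical
  have hc0 : (0 : I) ≤ c := unitInterval.nonneg'
  have hc1 : c ≤ (1 : I) := unitInterval.le_one'
  have hcont : Continuous (fun t : I => if t ≤ c then T (g t) / 2 else 1 - T (g t) / 2) := by
    refine Continuous.if_le (((hT.comp g.continuous)).div_const 2)
      (continuous_const.sub (((hT.comp g.continuous)).div_const 2)) continuous_id continuous_const ?_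
    intro t ht
    have : t = c := ht
    rw [this, hcc]; norm_num
  refine ⟨⟨_, hcont⟩, ?_, ?_, ?_⟩
  · simp only [ContinuousMap.coe_mk]
    rw [if_pos hc0, h0]; simp
  · simp only [ContinuousMap.coe_mk]
    by_cases h2 : (1 : I) ≤ c
    · exfalso
      have h3 : c = 1 := le_antisymm hc1 h2
      rw [h3, h1] at hcc
      exact zero_ne_one hcc
    · rw [if_neg h2, h1]; simp
  · intro t
    simp only [ContinuousMap.coe_mk]
    by_cases h2 : t ≤ c
    · rw [if_pos h2]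
      by_cases h3 : T (g t) = 0
      · rw [theta_of_zero h3, h3]; simp
      · by_cases h4 : T (g t) = 1
        · rw [theta_of_one hε h4, h4]
        · unfold theta; rw [hp t h2 h3 h4, one_mul]
    · rw [if_neg h2]
      have h2' : c ≤ t := le_of_lt (not_le.mp h2)
      by_cases h3 : T (g t) = 0
      · rw [theta_of_zero h3, h3]; simp [AddCircle.coe_period]
      · by_cases h4 : T (g t) = 1
        · rw [theta_of_one hε h4, h4]; congr 1; norm_num
        · unfold theta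
          rw [hm t h2' h3 h4]
          have e1 : (1 - T (g t) / 2 : ℝ) = -1 * T (g t) / 2 + 1 := by ring
          rw [e1, AddCircle.coe_add, AddCircle.coe_period, add_zero]

end Crest.Agent.R272.Th_275
end
end

-- ▼ part R272/Wall1_275
section

noncomputable section

open Topology Filter Set Metric

namespace Crest.Agent.R272.Wall_275

/-! ### the wall function -/

def al (s : ℝ) : ℝ := s + (1 - s) / 3
def be (s : ℝ) : ℝ := s + 2 * (1 - s) / 3
def PP (s a b : ℝ) : ℝ := max (b - al s * a) 0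
def QQ (s a b : ℝ) : ℝ := max (be s * a - b) 0
/-- the wall function. -/
def Tw (s a b : ℝ) : ℝ := PP s a b / (PP s a b + QQ s a b)

theorem al_lt_be {s : ℝ} (h : s < 1) : al s < be s := by unfold al be; linarith
theorem lt_al {s : ℝ} (h : s < 1) : s < al s := by unfold al; linarith
theorem be_lt {s : ℝ} (h : s < 1) : be s < 1 := by unfold be; linarith

theorem PP_nonneg (s a b : ℝ) : 0 ≤ PP s a b := le_max_right _ _
theorem QQ_nonneg (s a b : ℝ) : 0 ≤ QQ s a b := le_max_right _ _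

theorem PQ_pos {s a b : ℝ} (h1 : s < 1) (ha : 0 ≤ a) (hb : 0 ≤ b) (hab : a ≠ 0 ∨ b ≠ 0) :
    0 < PP s a b + QQ s a b := by
  by_contra h
  have hP := PP_nonneg s a b
  have hQ := QQ_nonneg s a b
  have hP0 : PP s a b = 0 := by linarith
  have hQ0 : QQ s a b = 0 := by linarith
  have h2 : b - al s * a ≤ 0 := by rw [← hP0]; exact le_max_left _ _
  have h3 : be s * a - b ≤ 0 := by rw [← hQ0]; exact le_max_left _ _
  have h4 := al_lt_be h1
  have h5 : a = 0 := by nlinarith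
  rw [h5] at h2
  have h6 : b = 0 := by linarith
  rcases hab with h7 | h7
  · exact h7 h5
  · exact h7 h6



/-- homogeneity of degree `0`. -/
theorem Tw_smul {s a b c : ℝ} (hc : 0 < c) : Tw s (c * a) (c * b) = Tw s a b := by
  have h1 : PP s (c * a) (c * b) = c * PP s a b := by
    unfold PP
    rw [show c * b - al s * (c * a) = c * (b - al s * a) by ring, mul_max_of_nonneg _ _ hc.le, mul_zero]
  have h2 : QQ s (c * a) (c * b) = c * QQ s a b := by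
    unfold QQ
    rw [show be s * (c * a) - c * b = c * (be s * a - b) by ring, mul_max_of_nonneg _ _ hc.le, mul_zero]
  unfold Tw
  rw [h1, h2, ← mul_add, mul_div_mul_left _ _ hc.ne']

theorem Tw_eq_zero_iff {s a b : ℝ} (h1 : s < 1) (ha : 0 ≤ a) (hb : 0 ≤ b) (hab : a ≠ 0 ∨ b ≠ 0) :
    Tw s a b = 0 ↔ b ≤ al s * a := by
  unfold Tw
  rw [div_eq_zero_iff, or_iff_left (PQ_pos h1 ha hb hab).ne']
  unfold PP
  rw [max_eq_right_iff, sub_nonpos]

theorem Tw_eq_one_iff {s a b : ℝ} (h1 : s < 1) (ha : 0 ≤ a) (hb : 0 ≤ b) (hab : a ≠ 0 ∨ b ≠ 0) :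
    Tw s a b = 1 ↔ be s * a ≤ b := by
  unfold Tw
  rw [div_eq_one_iff_eq (PQ_pos h1 ha hb hab).ne', left_eq_add]
  unfold QQ
  rw [max_eq_right_iff, sub_nonpos]

theorem Tw_pos_iff {s a b : ℝ} (h1 : s < 1) (ha : 0 ≤ a) (hb : 0 ≤ b) (hab : a ≠ 0 ∨ b ≠ 0) :
    Tw s a b ≠ 0 ↔ al s * a < b := by
  rw [Ne, Tw_eq_zero_iff h1 ha hb hab, not_le]

theorem Tw_lt_one_iff {s a b : ℝ} (h1 : s < 1) (ha : 0 ≤ a) (hb : 0 ≤ b) (hab : a ≠ 0 ∨ b ≠ 0) :
    Tw s a b ≠ 1 ↔ b < be s * a := by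
  rw [Ne, Tw_eq_one_iff h1 ha hb hab, not_le]


theorem continuousAt_Tw {E : Type*} [TopologicalSpace E] {s a b : E → ℝ} {x : E}
    (hs : ContinuousAt s x) (ha : ContinuousAt a x) (hb : ContinuousAt b x) (h1 : s x < 1)
    (ha0 : 0 ≤ a x) (hb0 : 0 ≤ b x) (hab : a x ≠ 0 ∨ b x ≠ 0) :
    ContinuousAt (fun x => Tw (s x) (a x) (b x)) x := by
  have hP : ContinuousAt (fun x => PP (s x) (a x) (b x)) x := by unfold PP al; fun_prop
  have hQ : ContinuousAt (fun x => QQ (s x) (a x) (b x)) x := by unfold QQ be; fun_prop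
  exact hP.div (hP.add hQ) (PQ_pos h1 ha0 hb0 hab).ne'

/-! ### Schwarz -/


/-! ### the principal square root -/

/-- principal square root. -/
def rt (x : ℂ) : ℂ := Complex.exp (Complex.log x / 2)

theorem rt_sq {x : ℂ} (h : x ≠ 0) : rt x ^ 2 = x := by
  unfold rt
  rw [← Complex.exp_nat_mul]
  have : ((2 : ℕ) : ℂ) * (Complex.log x / 2) = Complex.log x := by push_cast; ring
  rw [this, Complex.exp_log h]

theorem rt_ne_zero (x : ℂ) : rt x ≠ 0 := Complex.exp_ne_zero _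

theorem rt_one : rt 1 = 1 := by simp [rt]

theorem slit_one_sub {x : ℂ} (h : ‖x‖ < 1) : 1 - x ∈ Complex.slitPlane := by
  left
  have := (Complex.abs_re_le_norm x).trans_lt h
  have h2 := (abs_lt.mp this).2
  simp only [Complex.sub_re, Complex.one_re]
  linarith

theorem differentiableAt_rt {x : ℂ} (h : x ∈ Complex.slitPlane) : DifferentiableAt ℂ rt x :=
  ((Complex.differentiableAt_log h).div_const 2).cexp

theorem continuousAt_rt {x : ℂ} (h : x ∈ Complex.slitPlane) : ContinuousAt rt x :=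
  (differentiableAt_rt h).continuousAt

/-- the two square roots: a number with the same square is `±`. -/
theorem eq_or_neg_of_sq {x y : ℂ} (h : x ^ 2 = y ^ 2) : x = y ∨ x = -y := sq_eq_sq_iff_eq_or_eq_neg.mp h

/-! ### the two roots over the bidisc -/

section roots

variable {F : ℂ → ℂ}

/-- `√(w (w - F z))` where `|F z| < |w|`. -/
def qa (F : ℂ → ℂ) (z w : ℂ) : ℂ := w * rt (1 - F z / w)
/-- `√(z (w - z))` where `|w| < |z|`. -/
def qb (z w : ℂ) : ℂ := Complex.I * z * rt (1 - w / z)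

theorem norm_div_lt {x y : ℂ} (h : ‖x‖ < ‖y‖) : ‖x / y‖ < 1 := by
  rw [norm_div]
  exact (div_lt_one (lt_of_le_of_lt (norm_nonneg _) h)).mpr h

theorem qa_sq {z w : ℂ} (h : ‖F z‖ < ‖w‖) : qa F z w ^ 2 = w * (w - F z) := by
  have hw : w ≠ 0 := norm_pos_iff.mp (lt_of_le_of_lt (norm_nonneg _) h)
  unfold qa
  rw [mul_pow, rt_sq (Complex.slitPlane_ne_zero (slit_one_sub (norm_div_lt h)))]
  field_simp

theorem qa_ne_zero {z w : ℂ} (h : ‖F z‖ < ‖w‖) : qa F z w ≠ 0 :=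
  mul_ne_zero (norm_pos_iff.mp (lt_of_le_of_lt (norm_nonneg _) h)) (rt_ne_zero _)

theorem qb_sq {z w : ℂ} (h : ‖w‖ < ‖z‖) : qb z w ^ 2 = z * (w - z) := by
  have hz : z ≠ 0 := norm_pos_iff.mp (lt_of_le_of_lt (norm_nonneg _) h)
  unfold qb
  rw [mul_pow, mul_pow, Complex.I_sq, rt_sq (Complex.slitPlane_ne_zero (slit_one_sub (norm_div_lt h)))]
  field_simp
  ring

theorem qb_ne_zero {z w : ℂ} (h : ‖w‖ < ‖z‖) : qb z w ≠ 0 :=
  mul_ne_zero (mul_ne_zero Complex.I_ne_zero (norm_pos_iff.mp (lt_of_le_of_lt (norm_nonneg _) h)))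
    (rt_ne_zero _)

variable {E : Type*} [TopologicalSpace E]

theorem continuousAt_qa {z w : E → ℂ} {x : E} (hF : ContinuousAt F (z x)) (hz : ContinuousAt z x)
    (hw : ContinuousAt w x) (h : ‖F (z x)‖ < ‖w x‖) : ContinuousAt (fun x => qa F (z x) (w x)) x := by
  have hw0 : w x ≠ 0 := norm_pos_iff.mp (lt_of_le_of_lt (norm_nonneg _) h)
  have h1 : ContinuousAt (fun x => 1 - F (z x) / w x) x :=
    continuousAt_const.sub ((hF.comp (f := z) hz).div hw hw0)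
  exact hw.mul ((continuousAt_rt (slit_one_sub (norm_div_lt h))).comp (f := fun x => 1 - F (z x) / w x) h1)

theorem continuousAt_qb {z w : E → ℂ} {x : E} (hz : ContinuousAt z x)
    (hw : ContinuousAt w x) (h : ‖w x‖ < ‖z x‖) : ContinuousAt (fun x => qb (z x) (w x)) x := by
  have hz0 : z x ≠ 0 := norm_pos_iff.mp (lt_of_le_of_lt (norm_nonneg _) h)
  have h1 : ContinuousAt (fun x => 1 - w x / z x) x := continuousAt_const.sub (hw.div hz hz0)
  exact (continuousAt_const.mul hz).mul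
    ((continuousAt_rt (slit_one_sub (norm_div_lt h))).comp (f := fun x => 1 - w x / z x) h1)

end roots

/-! ### positions of the four curves, and the region of definition of the roots -/

section position

variable {F : ℂ → ℂ}

/-- `T(z,w)` off the origin of the bidisc. -/
def T0 (z w : ℂ) : ℝ := Tw ‖z‖ ‖z‖ ‖w‖

theorem T0_ne_zero_iff {z w : ℂ} (hz : ‖z‖ < 1) (h : z ≠ 0 ∨ w ≠ 0) :
    T0 z w ≠ 0 ↔ al ‖z‖ * ‖z‖ < ‖w‖ :=
  Tw_pos_iff hz (norm_nonneg _) (norm_nonneg _) (h.imp norm_ne_zero_iff.mpr norm_ne_zero_iff.mpr)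

theorem T0_ne_one_iff {z w : ℂ} (hz : ‖z‖ < 1) (h : z ≠ 0 ∨ w ≠ 0) :
    T0 z w ≠ 1 ↔ ‖w‖ < be ‖z‖ * ‖z‖ :=
  Tw_lt_one_iff hz (norm_nonneg _) (norm_nonneg _) (h.imp norm_ne_zero_iff.mpr norm_ne_zero_iff.mpr)

/-- where `T > 0` the root `qa` is defined. -/
theorem F_lt_of_T0 (hF : ∀ z : ℂ, ‖z‖ < 1 → ‖F z‖ ≤ ‖z‖ ^ 2) {z w : ℂ} (hz : ‖z‖ < 1)
    (h : z ≠ 0 ∨ w ≠ 0) (hT : T0 z w ≠ 0) : ‖F z‖ < ‖w‖ := by
  have h1 := (T0_ne_zero_iff hz h).mp hT
  have h2 := hF z hz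
  have h3 := lt_al hz
  have h4 : ‖z‖ ^ 2 ≤ al ‖z‖ * ‖z‖ := by nlinarith [norm_nonneg z]
  linarith

/-- where `T < 1` the root `qb` is defined. -/
theorem lt_of_T0 {z w : ℂ} (hz : ‖z‖ < 1) (h : z ≠ 0 ∨ w ≠ 0) (hT : T0 z w ≠ 1) : ‖w‖ < ‖z‖ := by
  have h1 := (T0_ne_one_iff hz h).mp hT
  have h3 := be_lt hz
  have h4 : be ‖z‖ * ‖z‖ ≤ ‖z‖ := by nlinarith [norm_nonneg z]
  linarith



end position

end Crest.Agent.R272.Wall_275
end
end

-- ▼ part R272/Wall2_275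
section

noncomputable section

open Topology Filter Set Metric
open scoped unitInterval

open Crest.Agent.R272.Th_275 Crest.Agent.R272.Wall_275

namespace Crest.Agent.R272.Wall2_275

/-- the data off the special fibre -/
structure WD (E : Type*) [TopologicalSpace E] where
  F : ℂ → ℂ
  z : E → ℂ
  w : E → ℂ
  a : E → ℂ
  b : E → ℂ
  cz : Continuous z
  cw : Continuous w
  ca : Continuous a
  cb : Continuous b
  cF : ContinuousOn F (ball 0 1)
  hz : ∀ x, ‖z x‖ < 1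
  hF : ∀ z : ℂ, ‖z‖ < 1 → ‖F z‖ ≤ ‖z‖ ^ 2
  sa : ∀ x, a x ^ 2 = w x * (w x - F (z x))
  sb : ∀ x, b x ^ 2 = z x * (w x - z x)

namespace WD

variable {E : Type*} [TopologicalSpace E] (W : WD E)

/-- the complement of the special fibre -/
def A : Set E := {x | W.z x ≠ 0 ∨ W.w x ≠ 0}


/-- the slope `w / z` extends at `x`, with value `μ` -/
def SlopeAt (x : E) (μ : ℂ) : Prop :=
  ∃ u : E → ℂ, ContinuousAt u x ∧ u x = μ ∧ ∀ᶠ y in 𝓝 x, W.w y = W.z y * u y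

/-- the slope is `∞` at `x` -/
def SlopeInf (x : E) : Prop :=
  ∃ v : E → ℂ, ContinuousAt v x ∧ v x = 0 ∧ ∀ᶠ y in 𝓝 x, W.z y = W.w y * v y

/-- `b / z` extends at `x`, with value `k` -/
def KapAt (x : E) (k : ℂ) : Prop :=
  ∃ κ : E → ℂ, ContinuousAt κ x ∧ κ x = k ∧ ∀ᶠ y in 𝓝 x, W.b y = W.z y * κ y

/-- `a / w` extends at `x`, with value `l` -/
def LamAt (x : E) (l : ℂ) : Prop :=
  ∃ lam : E → ℂ, ContinuousAt lam x ∧ lam x = l ∧ ∀ᶠ y in 𝓝 x, W.a y = W.w y * lam y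

/-- the local hypotheses at the special fibre -/
structure Ext : Prop where
  nb : ∀ x ∉ W.A, (𝓝[W.A] x).NeBot
  slope : ∀ x ∉ W.A, (∃ μ, W.SlopeAt x μ) ∨ W.SlopeInf x
  kap : ∀ x ∉ W.A, ∀ μ, W.SlopeAt x μ → 1 / 3 < ‖μ‖ → ‖μ‖ < 2 / 3 → ∃ k, W.KapAt x k
  lam : ∀ x ∉ W.A, ∀ μ, W.SlopeAt x μ → 1 / 3 < ‖μ‖ → ‖μ‖ < 2 / 3 → ∃ l, W.LamAt x l

theorem not_mem_A {x : E} (h : x ∉ W.A) : W.z x = 0 ∧ W.w x = 0 := by
  unfold A at h
  simp only [mem_ofPred_eq, not_or, not_not] at h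
  exact h

/-- the wall function off the special fibre -/
def t0 (x : E) : ℝ := T0 (W.z x) (W.w x)

theorem continuousAt_t0 {x : E} (h : x ∈ W.A) : ContinuousAt W.t0 x := by
  unfold t0 T0
  exact continuousAt_Tw W.cz.norm.continuousAt W.cz.norm.continuousAt W.cw.norm.continuousAt (W.hz x)
    (norm_nonneg _) (norm_nonneg _) (h.imp norm_ne_zero_iff.mpr norm_ne_zero_iff.mpr)

theorem tendsto_t0_slope {x : E} (hx : x ∉ W.A) {μ : ℂ} (h : W.SlopeAt x μ) :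
    Tendsto W.t0 (𝓝[W.A] x) (𝓝 (Tw 0 1 ‖μ‖)) := by
  obtain ⟨u, hu, hux, hw⟩ := h
  obtain ⟨hz0, hw0⟩ := W.not_mem_A hx
  have h1 : ContinuousAt (fun y => Tw ‖W.z y‖ 1 ‖u y‖) x :=
    continuousAt_Tw W.cz.norm.continuousAt continuousAt_const hu.norm (W.hz x) zero_le_one
      (norm_nonneg _) (Or.inl one_ne_zero)
  have h2 : Tendsto (fun y => Tw ‖W.z y‖ 1 ‖u y‖) (𝓝[W.A] x) (𝓝 (Tw 0 1 ‖μ‖)) := by
    have h3 := h1.tendsto.mono_left (nhdsWithin_le_nhds (s := W.A))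
    rwa [hz0, norm_zero, hux] at h3
  refine h2.congr' ?_
  filter_upwards [self_mem_nhdsWithin, hw.filter_mono (nhdsWithin_le_nhds (s := W.A))] with y hyA hy
  have hzy : W.z y ≠ 0 := by
    intro h0
    rw [h0, zero_mul] at hy
    exact hyA.elim (fun h => h h0) (fun h => h hy)
  unfold t0 T0
  rw [hy, norm_mul]
  have := Tw_smul (s := ‖W.z y‖) (a := 1) (b := ‖u y‖) (norm_pos_iff.mpr hzy)
  rw [mul_one] at this
  exact this.symm

theorem tendsto_t0_inf {x : E} (hx : x ∉ W.A) (h : W.SlopeInf x) :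
    Tendsto W.t0 (𝓝[W.A] x) (𝓝 1) := by
  obtain ⟨v, hv, hvx, hw⟩ := h
  obtain ⟨hz0, hw0⟩ := W.not_mem_A hx
  have h1 : ContinuousAt (fun y => Tw ‖W.z y‖ ‖v y‖ 1) x :=
    continuousAt_Tw W.cz.norm.continuousAt hv.norm continuousAt_const (W.hz x) (norm_nonneg _)
      zero_le_one (Or.inr one_ne_zero)
  have h2 : Tendsto (fun y => Tw ‖W.z y‖ ‖v y‖ 1) (𝓝[W.A] x) (𝓝 1) := by
    have h3 := h1.tendsto.mono_left (nhdsWithin_le_nhds (s := W.A))
    rw [hz0, hvx, norm_zero] at h3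
    have h4 : Tw 0 0 1 = 1 := by
      rw [Tw_eq_one_iff zero_lt_one le_rfl zero_le_one (Or.inr one_ne_zero)]; simp
    rwa [h4] at h3
  refine h2.congr' ?_
  filter_upwards [self_mem_nhdsWithin, hw.filter_mono (nhdsWithin_le_nhds (s := W.A))] with y hyA hy
  have hwy : W.w y ≠ 0 := by
    intro h0
    rw [h0, zero_mul] at hy
    exact hyA.elim (fun h => h hy) (fun h => h h0)
  unfold t0 T0
  have := Tw_smul (s := ‖W.z y‖) (a := ‖v y‖) (b := 1) (norm_pos_iff.mpr hwy)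
  rw [mul_one, ← norm_mul, ← hy] at this
  exact this.symm

/-- the wall function -/
def T : E → ℝ := extendFrom W.A W.t0

variable {W}

theorem Ext.closure (H : W.Ext) (x : E) : x ∈ closure W.A := by
  by_cases h : x ∈ W.A
  · exact subset_closure h
  · exact mem_closure_iff_nhdsWithin_neBot.mpr (H.nb x h)

theorem Ext.tendsto_t0 (H : W.Ext) (x : E) : ∃ y, Tendsto W.t0 (𝓝[W.A] x) (𝓝 y) := by
  by_cases h : x ∈ W.A
  · exact ⟨_, (W.continuousAt_t0 h).tendsto.mono_left nhdsWithin_le_nhds⟩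
  · rcases H.slope x h with ⟨μ, hμ⟩ | h1
    · exact ⟨_, W.tendsto_t0_slope h hμ⟩
    · exact ⟨_, W.tendsto_t0_inf h h1⟩

theorem Ext.continuous_T (H : W.Ext) : Continuous W.T :=
  continuous_extendFrom (fun x => H.closure x) H.tendsto_t0

theorem Ext.T_of_mem (H : W.Ext) {x : E} (h : x ∈ W.A) : W.T x = W.t0 x :=
  extendFrom_eq (H.closure x) ((W.continuousAt_t0 h).tendsto.mono_left nhdsWithin_le_nhds)

theorem Ext.T_of_slope (H : W.Ext) {x : E} (hx : x ∉ W.A) {μ : ℂ} (h : W.SlopeAt x μ) :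
    W.T x = Tw 0 1 ‖μ‖ :=
  extendFrom_eq (H.closure x) (W.tendsto_t0_slope hx h)

theorem Ext.T_of_inf (H : W.Ext) {x : E} (hx : x ∉ W.A) (h : W.SlopeInf x) : W.T x = 1 :=
  extendFrom_eq (H.closure x) (W.tendsto_t0_inf hx h)

theorem tw_ne {m : ℝ} (hm : 0 ≤ m) : (Tw 0 1 m ≠ 0 ↔ 1 / 3 < m) ∧ (Tw 0 1 m ≠ 1 ↔ m < 2 / 3) := by
  refine ⟨?_, ?_⟩
  · rw [Tw_pos_iff zero_lt_one zero_le_one hm (Or.inl one_ne_zero)]
    unfold al; norm_num
  · rw [Tw_lt_one_iff zero_lt_one zero_le_one hm (Or.inl one_ne_zero)]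
    unfold be; norm_num

variable (W)

/-- the wall region -/
def O : Set E := {x | W.T x ≠ 0 ∧ W.T x ≠ 1}

/-- the sheet function off the special fibre -/
def fe (x : E) : ℂ :=
  (W.a x / qa W.F (W.z x) (W.w x)) * (W.b x / qb (W.z x) (W.w x))

variable {W}

theorem Ext.isOpen_O (H : W.Ext) : IsOpen W.O :=
  (isOpen_ne_fun H.continuous_T continuous_const).inter
    (isOpen_ne_fun H.continuous_T continuous_const)

theorem Ext.lt_a (H : W.Ext) {x : E} (hA : x ∈ W.A) (hO : x ∈ W.O) :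
    ‖W.F (W.z x)‖ < ‖W.w x‖ := by
  have h := hO.1
  rw [H.T_of_mem hA] at h
  exact F_lt_of_T0 W.hF (W.hz x) hA h

theorem Ext.lt_b (H : W.Ext) {x : E} (hA : x ∈ W.A) (hO : x ∈ W.O) : ‖W.w x‖ < ‖W.z x‖ := by
  have h := hO.2
  rw [H.T_of_mem hA] at h
  exact lt_of_T0 (W.hz x) hA h

theorem Ext.fe_sq (H : W.Ext) {x : E} (hA : x ∈ W.A) (hO : x ∈ W.O) : W.fe x ^ 2 = 1 := by
  have h1 := H.lt_a hA hO
  have h2 := H.lt_b hA hO
  have ha : W.a x ^ 2 / qa W.F (W.z x) (W.w x) ^ 2 = 1 := by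
    rw [W.sa, qa_sq h1]
    rw [← qa_sq h1]
    exact div_self (pow_ne_zero _ (qa_ne_zero h1))
  have hb : W.b x ^ 2 / qb (W.z x) (W.w x) ^ 2 = 1 := by
    rw [W.sb, qb_sq h2]
    rw [← qb_sq h2]
    exact div_self (pow_ne_zero _ (qb_ne_zero h2))
  unfold fe
  rw [mul_pow, div_pow, div_pow, ha, hb, one_mul]

theorem continuousAt_F (x : E) : ContinuousAt W.F (W.z x) :=
  (W.cF _ (mem_ball_zero_iff.mpr (W.hz x))).continuousAt
    (isOpen_ball.mem_nhds (mem_ball_zero_iff.mpr (W.hz x)))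

theorem Ext.continuousAt_fe (H : W.Ext) {x : E} (hA : x ∈ W.A) (hO : x ∈ W.O) :
    ContinuousAt W.fe x := by
  have h1 := H.lt_a hA hO
  have h2 := H.lt_b hA hO
  exact (W.ca.continuousAt.div (continuousAt_qa (continuousAt_F x) W.cz.continuousAt
    W.cw.continuousAt h1) (qa_ne_zero h1)).mul
    (W.cb.continuousAt.div (continuousAt_qb W.cz.continuousAt W.cw.continuousAt h2) (qb_ne_zero h2))

/-- the value of the sheet function on the special fibre -/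
theorem tendsto_fe {x : E} (hx : x ∉ W.A) {μ k l : ℂ} (hμ : W.SlopeAt x μ) (hk : W.KapAt x k)
    (hl : W.LamAt x l) (h0 : μ ≠ 0) (h1 : ‖μ‖ < 1) :
    Tendsto W.fe (𝓝[W.A] x) (𝓝 (l * (k / (Complex.I * rt (1 - μ))))) := by
  obtain ⟨u, hu, hux, hw⟩ := hμ
  obtain ⟨κ, hκ, hκx, hkk⟩ := hk
  obtain ⟨lam, hlam, hlamx, hll⟩ := hl
  obtain ⟨hz0, hw0⟩ := W.not_mem_A hx
  -- `F z / w → 0`
  have hFw : Tendsto (fun y => W.F (W.z y) / W.w y) (𝓝[W.A] x) (𝓝 0) := by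
    rw [tendsto_zero_iff_norm_tendsto_zero]
    have h3 : ContinuousAt (fun y => ‖W.z y‖ / ‖u y‖) x :=
      W.cz.norm.continuousAt.div hu.norm (by rw [hux]; exact norm_ne_zero_iff.mpr h0)
    have h4 : Tendsto (fun y => ‖W.z y‖ / ‖u y‖) (𝓝[W.A] x) (𝓝 0) := by
      have := h3.tendsto.mono_left (nhdsWithin_le_nhds (s := W.A))
      rwa [hz0, norm_zero, zero_div] at this
    refine squeeze_zero' (Eventually.of_forall fun y => norm_nonneg _) ?_ h4
    filter_upwards [hw.filter_mono (nhdsWithin_le_nhds (s := W.A)), self_mem_nhdsWithin] with y hy hyA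
    have hzy : W.z y ≠ 0 := by
      intro h0
      rw [h0, zero_mul] at hy
      exact hyA.elim (fun h => h h0) (fun h => h hy)
    rw [norm_div, hy, norm_mul]
    have h5 := W.hF (W.z y) (W.hz y)
    have h6 : 0 < ‖W.z y‖ := norm_pos_iff.mpr hzy
    rcases (norm_nonneg (u y)).eq_or_lt with h7 | h7
    · rw [← h7]; simp
    · rw [div_le_div_iff₀ (by positivity) h7]
      nlinarith [mul_le_mul_of_nonneg_right h5 h7.le]
  have hslit : (1 : ℂ) - μ ∈ Complex.slitPlane := slit_one_sub h1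
  have hl1 : Tendsto (fun y => lam y / rt (1 - W.F (W.z y) / W.w y)) (𝓝[W.A] x) (𝓝 l) := by
    have h3 : Tendsto (fun y => rt (1 - W.F (W.z y) / W.w y)) (𝓝[W.A] x) (𝓝 (rt 1)) := by
      have h4 : ContinuousAt rt (1 - 0) := continuousAt_rt (by simp)
      have h5 := h4.tendsto.comp (tendsto_const_nhds.sub hFw)
      rw [sub_zero] at h5
      exact h5
    rw [rt_one] at h3
    have h6 := (hlam.tendsto.mono_left (nhdsWithin_le_nhds (s := W.A))).div h3 one_ne_zero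
    rwa [div_one, hlamx] at h6
  have hk1 : Tendsto (fun y => κ y / (Complex.I * rt (1 - u y))) (𝓝[W.A] x)
      (𝓝 (k / (Complex.I * rt (1 - μ)))) := by
    have h3 : ContinuousAt (fun y => rt (1 - u y)) x := by
      have h4 : ContinuousAt rt (1 - u x) := by rw [hux]; exact continuousAt_rt hslit
      exact h4.comp (f := fun y => 1 - u y) (continuousAt_const.sub hu)
    have h5 : ContinuousAt (fun y => κ y / (Complex.I * rt (1 - u y))) x :=
      hκ.div (continuousAt_const.mul h3) (mul_ne_zero Complex.I_ne_zero (rt_ne_zero _))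
    have h6 := h5.tendsto.mono_left (nhdsWithin_le_nhds (s := W.A))
    rwa [hux, hκx] at h6
  refine (hl1.mul hk1).congr' ?_
  have hune : ∀ᶠ y in 𝓝 x, u y ≠ 0 := by
    have := hu.eventually_ne (by rw [hux]; exact h0)
    exact this
  filter_upwards [hw.filter_mono (nhdsWithin_le_nhds (s := W.A)), self_mem_nhdsWithin,
    hkk.filter_mono (nhdsWithin_le_nhds (s := W.A)), hll.filter_mono (nhdsWithin_le_nhds (s := W.A)),
    hune.filter_mono (nhdsWithin_le_nhds (s := W.A))] with y hy hyA hyk hyl hyu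
  have hzy : W.z y ≠ 0 := by
    intro h0
    rw [h0, zero_mul] at hy
    exact hyA.elim (fun h => h h0) (fun h => h hy)
  have hwy : W.w y ≠ 0 := by rw [hy]; exact mul_ne_zero hzy hyu
  have hu' : W.w y / W.z y = u y := by rw [hy]; field_simp
  unfold fe qa qb
  rw [hyk, hyl, hu']
  have e1 : W.w y * lam y / (W.w y * rt (1 - W.F (W.z y) / W.w y))
      = lam y / rt (1 - W.F (W.z y) / W.w y) := mul_div_mul_left _ _ hwy
  have e2 : W.z y * κ y / (Complex.I * W.z y * rt (1 - u y)) = κ y / (Complex.I * rt (1 - u y)) := by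
    rw [show Complex.I * W.z y * rt (1 - u y) = W.z y * (Complex.I * rt (1 - u y)) by ring]
    exact mul_div_mul_left _ _ hzy
  rw [e1, e2]

theorem Ext.slope_of_O (H : W.Ext) {x : E} (hA : x ∉ W.A) (hO : x ∈ W.O) :
    ∃ μ, W.SlopeAt x μ ∧ 1 / 3 < ‖μ‖ ∧ ‖μ‖ < 2 / 3 := by
  rcases H.slope x hA with ⟨μ, hμ⟩ | h
  · have h1 := H.T_of_slope hA hμ
    have h2 := hO.1
    have h3 := hO.2
    rw [h1] at h2 h3
    exact ⟨μ, hμ, (tw_ne (norm_nonneg _)).1.mp h2, (tw_ne (norm_nonneg _)).2.mp h3⟩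
  · exact absurd (H.T_of_inf hA h) hO.2

theorem Ext.exists_tendsto_fe (H : W.Ext) {x : E} (hO : x ∈ W.O) :
    ∃ y, Tendsto W.fe (𝓝[W.A] x) (𝓝 y) := by
  by_cases hA : x ∈ W.A
  · exact ⟨_, (H.continuousAt_fe hA hO).tendsto.mono_left nhdsWithin_le_nhds⟩
  · obtain ⟨μ, hμ, h1, h2⟩ := H.slope_of_O hA hO
    obtain ⟨k, hk⟩ := H.kap x hA μ hμ h1 h2
    obtain ⟨l, hl⟩ := H.lam x hA μ hμ h1 h2
    have h0 : μ ≠ 0 := by
      rintro rfl
      rw [norm_zero] at h1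
      linarith
    exact ⟨_, tendsto_fe hA hμ hk hl h0 (by linarith)⟩

variable (W)

/-- the sheet function, complex valued -/
def ec : E → ℂ := extendFrom W.A W.fe

open Classical in
/-- the sheet function -/
def ε (x : E) : ℝ := if x ∈ W.O then (W.ec x).re else 1

variable {W}

theorem Ext.continuousOn_ec (H : W.Ext) : ContinuousOn W.ec W.O :=
  continuousOn_extendFrom (fun x _ => H.closure x) (fun _ hx => H.exists_tendsto_fe hx)

theorem Ext.ec_sq (H : W.Ext) {x : E} (hO : x ∈ W.O) : W.ec x ^ 2 = 1 := by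
  have h1 : Tendsto W.fe (𝓝[W.A] x) (𝓝 (W.ec x)) := tendsto_extendFrom (H.exists_tendsto_fe hO)
  have h2 := h1.pow 2
  have h3 : Tendsto (fun y => W.fe y ^ 2) (𝓝[W.A] x) (𝓝 1) := by
    refine tendsto_const_nhds.congr' ?_
    filter_upwards [self_mem_nhdsWithin,
      mem_nhdsWithin_of_mem_nhds (H.isOpen_O.mem_nhds hO)] with y hy hyO
    exact (H.fe_sq hy hyO).symm
  have : (𝓝[W.A] x).NeBot := mem_closure_iff_nhdsWithin_neBot.mp (H.closure x)
  exact tendsto_nhds_unique h2 h3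

theorem Ext.ε_pm (H : W.Ext) (x : E) : W.ε x = 1 ∨ W.ε x = -1 := by
  unfold ε
  split_ifs with h
  · have h1 := H.ec_sq h
    rcases eq_or_neg_of_sq (x := W.ec x) (y := 1) (by rw [h1, one_pow]) with h2 | h2 <;> rw [h2] <;> simp
  · left; rfl

theorem Ext.continuousAt_ε (H : W.Ext) (x : E) (h0 : W.T x ≠ 0) (h1 : W.T x ≠ 1) :
    ContinuousAt W.ε x := by
  have hO : x ∈ W.O := ⟨h0, h1⟩
  have h2 : ContinuousAt (fun y => (W.ec y).re) x :=
    Complex.continuous_re.continuousAt.comp (H.continuousOn_ec.continuousAt (H.isOpen_O.mem_nhds hO))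
  refine h2.congr ?_
  filter_upwards [H.isOpen_O.mem_nhds hO] with y hy
  unfold ε
  rw [if_pos hy]

/-- **the circle valued function** -/
def Ext.θ (H : W.Ext) : C(E, AddCircle (1 : ℝ)) :=
  thetaC W.ε W.T H.continuous_T H.ε_pm H.continuousAt_ε


/-- the value of `ε` on the special fibre -/
theorem Ext.ε_of_slope (H : W.Ext) {x : E} (hx : x ∉ W.A) {μ k l : ℂ} (hμ : W.SlopeAt x μ)
    (hk : W.KapAt x k) (hl : W.LamAt x l) (h1 : 1 / 3 < ‖μ‖) (h2 : ‖μ‖ < 2 / 3) :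
    W.ε x = (l * (k / (Complex.I * rt (1 - μ)))).re := by
  have hT := H.T_of_slope hx hμ
  have hO : x ∈ W.O := by
    refine ⟨?_, ?_⟩
    · rw [hT]; exact (tw_ne (norm_nonneg _)).1.mpr h1
    · rw [hT]; exact (tw_ne (norm_nonneg _)).2.mpr h2
  have h0 : μ ≠ 0 := by
    rintro rfl
    rw [norm_zero] at h1
    linarith
  have h3 : W.ec x = l * (k / (Complex.I * rt (1 - μ))) :=
    extendFrom_eq (H.closure x) (tendsto_fe hx hμ hk hl h0 (by linarith))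
  unfold ε
  rw [if_pos hO, h3]

end WD

end Crest.Agent.R272.Wall2_275
end
end

-- ▼ part R272/Wall3_275
section

noncomputable section

open Topology Filter Set Metric
open scoped unitInterval

open Crest.Agent.R272.Th_275 Crest.Agent.R272.Wall_275

namespace Crest.Agent.R272.Wall3_275

open Crest.Agent.R272.Wall2_275

/-- `θ` has degree `d` on the path `γ` -/
def Deg {E : Type*} [TopologicalSpace E] (θ : E → AddCircle (1 : ℝ)) {a b : E} (γ : Path a b)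
    (d : ℝ) : Prop :=
  ∃ l : C(I, ℝ), (∀ t, ((l t : ℝ) : AddCircle (1 : ℝ)) = θ (γ t)) ∧ l 1 = l 0 + d

theorem Deg.trans {E : Type*} [TopologicalSpace E] {θ : E → AddCircle (1 : ℝ)} {a b c : E}
    {γ : Path a b} {γ' : Path b c} {d d' : ℝ} (h : Deg θ γ d) (h' : Deg θ γ' d') :
    Deg θ (γ.trans γ') (d + d') := by
  obtain ⟨l, hl, hd⟩ := h
  obtain ⟨l', hl', hd'⟩ := h'
  have h0 : ((l 1 - l' 0 : ℝ) : AddCircle (1 : ℝ)) = 0 := by
    rw [AddCircle.coe_sub, hl, hl', γ.target, γ'.source, sub_self]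
  let P : Path (l 0) (l 1) := ⟨l, rfl, rfl⟩
  let P' : Path (l 1) (l 1 + d') :=
    { toFun := fun t => l' t + (l 1 - l' 0)
      continuous_toFun := by fun_prop
      source' := by ring
      target' := by rw [hd']; ring }
  refine ⟨⟨P.trans P', (P.trans P').continuous⟩, fun t => ?_, ?_⟩
  · show (((P.trans P') t : ℝ) : AddCircle (1 : ℝ)) = θ ((γ.trans γ') t)
    rw [Path.trans_apply, Path.trans_apply]
    split_ifs with h
    · exact hl _
    · show ((l' _ + (l 1 - l' 0) : ℝ) : AddCircle (1 : ℝ)) = _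
      rw [AddCircle.coe_add, h0, add_zero]
      exact hl' _
  · show (P.trans P') 1 = (P.trans P') 0 + (d + d')
    rw [(P.trans P').target, (P.trans P').source, hd]
    ring

variable {E : Type*} [TopologicalSpace E] {W : WD E}

/-- a path of the special fibre with slope `0` has degree `0` -/
theorem deg_zero (H : W.Ext) {a b : E} (γ : Path a b)
    (h : ∀ t, γ t ∉ W.A ∧ W.SlopeAt (γ t) 0) : Deg H.θ γ 0 := by
  refine ⟨⟨fun _ => 0, continuous_const⟩, fun t => ?_, by simp⟩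
  have h1 : W.T (γ t) = 0 := by
    rw [H.T_of_slope (h t).1 (h t).2, norm_zero]
    by_contra h2
    have h3 := (WD.tw_ne le_rfl).1.mp h2
    linarith
  have h2 : H.θ (γ t) = theta W.ε W.T (γ t) := rfl
  rw [h2, theta_of_zero h1]
  simp

/-- `slope = 1 - s²`, `κ λ = i s`, `s` from positive to negative values -/
structure Cross (W : WD E) (γ : I → E) : Prop where
  mem : ∀ t, γ t ∉ W.A
  ex : ∃ s : I → ℝ, ∃ c : I, s 0 = 1 ∧ s 1 = -1 ∧ s c = 0 ∧ (∀ t, |s t| ≤ 1) ∧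
    (∀ t ≤ c, 0 ≤ s t) ∧ (∀ t, c ≤ t → s t ≤ 0) ∧
    (∀ t, W.SlopeAt (γ t) ((1 - s t ^ 2 : ℝ) : ℂ)) ∧
    ∀ t, s t ≠ 0 → |s t| < 1 → ∃ k l : ℂ, W.KapAt (γ t) k ∧ W.LamAt (γ t) l ∧
      l * k = Complex.I * (s t : ℂ)

theorem rt_sq_real {s : ℝ} (h : s ≠ 0) : rt ((s ^ 2 : ℝ) : ℂ) = ((|s| : ℝ) : ℂ) := by
  unfold rt
  have h1 : (0 : ℝ) < |s| := abs_pos.mpr h
  rw [← sq_abs, ← Complex.ofReal_log (by positivity), Real.log_pow]
  rw [show (((2 : ℕ) : ℝ) * Real.log |s| : ℝ) = 2 * Real.log |s| by push_cast; ring]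
  rw [Complex.ofReal_mul, Complex.ofReal_ofNat, mul_div_cancel_left₀ _ two_ne_zero,
    ← Complex.ofReal_exp, Real.exp_log h1]

/-- the sheet on a crossing path -/
theorem ε_cross (H : W.Ext) {x : E} (hx : x ∉ W.A) {s : ℝ}
    (hs : W.SlopeAt x ((1 - s ^ 2 : ℝ) : ℂ)) {k l : ℂ} (hk : W.KapAt x k) (hl : W.LamAt x l)
    (hkl : l * k = Complex.I * (s : ℂ)) (h0 : W.T x ≠ 0) (h1 : W.T x ≠ 1) : W.ε x = s / |s| := by
  have hT := H.T_of_slope hx hs
  rw [hT] at h0 h1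
  have h3 := (WD.tw_ne (norm_nonneg _)).1.mp h0
  have h4 := (WD.tw_ne (norm_nonneg _)).2.mp h1
  have hs0 : s ≠ 0 := by
    rintro rfl
    norm_num at h4
  rw [H.ε_of_slope hx hs hk hl h3 h4]
  have e1 : (1 : ℂ) - ((1 - s ^ 2 : ℝ) : ℂ) = ((s ^ 2 : ℝ) : ℂ) := by push_cast; ring
  rw [e1, rt_sq_real hs0]
  have e2 : l * (k / (Complex.I * ((|s| : ℝ) : ℂ))) = ((s / |s| : ℝ) : ℂ) := by
    have h5 : ((|s| : ℝ) : ℂ) ≠ 0 := by exact_mod_cast (abs_pos.mpr hs0).ne'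
    rw [← mul_div_assoc, hkl, Complex.ofReal_div]
    field_simp
  rw [e2, Complex.ofReal_re]

/-- **a crossing path has degree `1`** -/
theorem deg_one (H : W.Ext) {a b : E} (γ : Path a b) (h : Cross W γ) : Deg H.θ γ 1 := by
  obtain ⟨s, c, hs0, hs1, hsc, hs, hle, hge, hsl, hkl⟩ := h.ex
  have hT : ∀ t, W.T (γ t) = Tw 0 1 ‖((1 - s t ^ 2 : ℝ) : ℂ)‖ := fun t =>
    H.T_of_slope (h.mem t) (hsl t)
  have hz : Tw 0 1 ‖((1 - 1 : ℝ) : ℂ)‖ = 0 := by
    by_contra h2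
    have h3 := (WD.tw_ne (norm_nonneg _)).1.mp h2
    norm_num at h3
  have ht0 : W.T (γ 0) = 0 := by rw [hT, hs0, one_pow, hz]
  have ht1 : W.T (γ 1) = 0 := by rw [hT, hs1, neg_one_sq, hz]
  have htc : W.T (γ c) = 1 := by
    rw [hT, hsc]
    by_contra h2
    have h3 := (WD.tw_ne (norm_nonneg _)).2.mp h2
    norm_num at h3
  have hbd : ∀ t, W.T (γ t) ≠ 0 → W.T (γ t) ≠ 1 → s t ≠ 0 ∧ |s t| < 1 := by
    intro t h0 h1
    have h2 := h0
    have h3 := h1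
    rw [hT] at h2 h3
    have h4 := (WD.tw_ne (norm_nonneg _)).1.mp h2
    have h5 := (WD.tw_ne (norm_nonneg _)).2.mp h3
    have h6 := hs t
    have h7 : s t ^ 2 ≤ 1 := by rw [← sq_abs]; exact pow_le_one₀ (abs_nonneg _) h6
    rw [Complex.norm_real, Real.norm_eq_abs, abs_of_nonneg (by linarith)] at h4 h5
    refine ⟨?_, ?_⟩
    · rintro h8
      rw [h8] at h5
      norm_num at h5
    · rw [← sq_abs] at h4
      by_contra h8
      have h9 : |s t| = 1 := le_antisymm h6 (not_lt.mp h8)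
      rw [h9] at h4
      norm_num at h4
  obtain ⟨l, hl0, hl1, hl⟩ := exists_lift H.continuous_T H.ε_pm ⟨γ, γ.continuous⟩ c ht0 ht1 htc
    (by
      intro t htc h0 h1
      obtain ⟨h2, h3⟩ := hbd t h0 h1
      obtain ⟨k, l, hk, hl, hkl'⟩ := hkl t h2 h3
      show W.ε (γ t) = 1
      rw [ε_cross H (h.mem t) (hsl t) hk hl hkl' h0 h1]
      have h4 : 0 < s t := lt_of_le_of_ne (hle t htc) (Ne.symm h2)
      rw [abs_of_pos h4, div_self h2])
    (by
      intro t htc h0 h1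
      obtain ⟨h2, h3⟩ := hbd t h0 h1
      obtain ⟨k, l, hk, hl, hkl'⟩ := hkl t h2 h3
      show W.ε (γ t) = -1
      rw [ε_cross H (h.mem t) (hsl t) hk hl hkl' h0 h1]
      have h4 : s t < 0 := lt_of_le_of_ne (hge t htc) h2
      rw [abs_of_neg h4, div_neg, div_self h2])
  exact ⟨l, hl, by rw [hl0, hl1]; ring⟩

/-- **the 4-cycle has degree two** -/
theorem four_cycle (H : W.Ext) {e₀ e₁ e₂ e₃ : E} (k₁ : Path e₀ e₁) (r₁ : Path e₁ e₂)
    (k₂ : Path e₂ e₃) (r₂ : Path e₃ e₀) (hk₁ : Cross W k₁) (hk₂ : Cross W k₂)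
    (hr₁ : ∀ t, r₁ t ∉ W.A ∧ W.SlopeAt (r₁ t) 0) (hr₂ : ∀ t, r₂ t ∉ W.A ∧ W.SlopeAt (r₂ t) 0) :
    Deg H.θ (((k₁.trans r₁).trans k₂).trans r₂) 2 := by
  have h := (((deg_one H k₁ hk₁).trans (deg_zero H r₁ hr₁)).trans (deg_one H k₂ hk₂)).trans
    (deg_zero H r₂ hr₂)
  have e : (1 : ℝ) + 0 + 1 + 0 = 2 := by norm_num
  rwa [e] at h

theorem trans_mem {S : Set E} {a b c : E} {γ : Path a b} {γ' : Path b c} (h : ∀ t, γ t ∈ S)
    (h' : ∀ t, γ' t ∈ S) (t : I) : (γ.trans γ') t ∈ S := by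
  have : (γ.trans γ') t ∈ Set.range (γ.trans γ') := ⟨t, rfl⟩
  rw [Path.trans_range] at this
  rcases this with ⟨s, hs⟩ | ⟨s, hs⟩
  · rw [← hs]; exact h s
  · rw [← hs]; exact h' s

/-- **the output consumed by the end theorem** (`G14b_414.of_theta`) -/
theorem exists_loop (H : W.Ext) {S : Set E} {e₀ e₁ e₂ e₃ : E} (k₁ : Path e₀ e₁) (r₁ : Path e₁ e₂)
    (k₂ : Path e₂ e₃) (r₂ : Path e₃ e₀) (hk₁ : Cross W k₁) (hk₂ : Cross W k₂)
    (hr₁ : ∀ t, r₁ t ∉ W.A ∧ W.SlopeAt (r₁ t) 0) (hr₂ : ∀ t, r₂ t ∉ W.A ∧ W.SlopeAt (r₂ t) 0)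
    (h1 : ∀ t, k₁ t ∈ S) (h2 : ∀ t, r₁ t ∈ S) (h3 : ∀ t, k₂ t ∈ S) (h4 : ∀ t, r₂ t ∈ S) :
    ∃ (c : Path e₀ e₀) (l : C(I, ℝ)), (∀ t, c t ∈ S) ∧
      (∀ t, ((l t : ℝ) : AddCircle (1 : ℝ)) = H.θ (c t)) ∧ l 1 ≠ l 0 := by
  obtain ⟨l, hl, hl1⟩ := four_cycle H k₁ r₁ k₂ r₂ hk₁ hk₂ hr₁ hr₂
  refine ⟨_, l, trans_mem (trans_mem (trans_mem h1 h2) h3) h4, hl, ?_⟩
  rw [hl1]
  linarith

end Crest.Agent.R272.Wall3_275
end
end

-- ▼ part R272/Wall4_275

noncomputable section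

open Topology Filter Set Metric
open scoped unitInterval

open Crest.Agent.R272.Th_275 Crest.Agent.R272.Wall_275

namespace Crest.Agent.R272.Wall4_275

open Crest.Agent.R272.Wall2_275 Crest.Agent.R272.Wall3_275 Crest.Agent.R272.Root_83

universe u

variable {Y : Type u} [TopologicalSpace Y]

/-- the four functions whose roots are taken -/
def gg (F : ℂ → ℂ) (T W : Y → ℂ) : Fin 4 → Y → ℂ :=
  ![W, fun y => W y - F (T y), T, fun y => W y - T y]

/-- finite slope at `y`: `r 0 = r 2 * u`, value `m` -/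
def SlR (r : Fin 4 → Y → ℂ) (y : Y) (m : ℂ) : Prop :=
  ∃ u : Y → ℂ, ContinuousAt u y ∧ u y = m ∧ ∀ᶠ x in 𝓝 y, r 0 x = r 2 x * u x

/-- infinite slope at `y` : `r 2 = r 0 * v`, `v y = 0` -/
def InfR (r : Fin 4 → Y → ℂ) (y : Y) : Prop :=
  ∃ v : Y → ℂ, ContinuousAt v y ∧ v y = 0 ∧ ∀ᶠ x in 𝓝 y, r 2 x = r 0 x * v x

/-- `r 3 = r 2 * κ`, value `k` -/
def KpR (r : Fin 4 → Y → ℂ) (y : Y) (k : ℂ) : Prop :=
  ∃ κ : Y → ℂ, ContinuousAt κ y ∧ κ y = k ∧ ∀ᶠ x in 𝓝 y, r 3 x = r 2 x * κ x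

/-- `r 1 = r 0 * λ`, value `l` -/
def LmR (r : Fin 4 → Y → ℂ) (y : Y) (l : ℂ) : Prop :=
  ∃ lam : Y → ℂ, ContinuousAt lam y ∧ lam y = l ∧ ∀ᶠ x in 𝓝 y, r 1 x = r 0 x * lam x

/-- the data over the bidisc -/
structure BD (Y : Type u) [TopologicalSpace Y] where
  F : ℂ → ℂ
  T : Y → ℂ
  W : Y → ℂ
  cT : Continuous T
  cW : Continuous W
  cF : ContinuousOn F (ball 0 1)
  hT : ∀ y, ‖T y‖ < 1
  hF : ∀ z : ℂ, ‖z‖ < 1 → ‖F z‖ ≤ ‖z‖ ^ 2

variable (B : BD Y) (H : RS Y (Fin 4) (gg B.F B.T B.W))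

theorem rho0 (e : H.E) : H.ρ 0 e ^ 2 = B.W (H.p e) := H.ρ_sq 0 e
theorem rho1 (e : H.E) : H.ρ 1 e ^ 2 = B.W (H.p e) - B.F (B.T (H.p e)) := H.ρ_sq 1 e
theorem rho2 (e : H.E) : H.ρ 2 e ^ 2 = B.T (H.p e) := H.ρ_sq 2 e
theorem rho3 (e : H.E) : H.ρ 3 e ^ 2 = B.W (H.p e) - B.T (H.p e) := H.ρ_sq 3 e

/-- the wall data on the root cover -/
def wd : WD H.E where
  F := B.F
  z := fun e => B.T (H.p e)
  w := fun e => B.W (H.p e)
  a := fun e => H.ρ 0 e * H.ρ 1 e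
  b := fun e => H.ρ 2 e * H.ρ 3 e
  cz := B.cT.comp H.continuous_p
  cw := B.cW.comp H.continuous_p
  ca := (H.continuous_ρ 0).mul (H.continuous_ρ 1)
  cb := (H.continuous_ρ 2).mul (H.continuous_ρ 3)
  cF := B.cF
  hz := fun e => B.hT _
  hF := B.hF
  sa := fun e => by rw [mul_pow, rho0, rho1]
  sb := fun e => by rw [mul_pow, rho2, rho3]

variable {B H}

/-- near `e` the root functions are `±` the given local roots -/
theorem exists_sign {r : Fin 4 → Y → ℂ} {e : H.E} (hr : ∀ a, H.Rt a (r a) (H.p e)) :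
    ∃ s : Fin 4 → Bool, (∀ᶠ e' in 𝓝 e, ∀ a, H.ρ a e' = sg (s a) * r a (H.p e')) := by
  have h1 : ∀ᶠ z in 𝓝 (H.p e), ∀ a, H.Rt a (r a) z := by
    rw [Filter.eventually_all]
    exact fun a => H.opn (hr a)
  obtain ⟨U, hU, hUo, hx⟩ := _root_.eventually_nhds_iff.1 h1
  let i : H.Idx := ⟨U, hUo, r, fun a z hz => hU z hz a⟩
  refine ⟨H.crd i e, ?_⟩
  have h2 : ∀ᶠ e' in 𝓝 e, H.crd i e' = H.crd i e := by
    have h3 := H.continuousAt_crd i (e := e) hx
    have h4 : ∀ᶠ v in 𝓝 (H.crd i e), v = H.crd i e := by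
      rw [nhds_discrete]; exact Filter.eventually_pure.mpr rfl
    exact h3.eventually h4
  filter_upwards [h2, H.continuous_p.continuousAt.preimage_mem_nhds (hUo.mem_nhds hx)] with e' h3 h4 a
  rw [H.ρ_eq i h4 a, h3]

theorem not_mem_A {e : H.E} : e ∉ (wd B H).A ↔ B.T (H.p e) = 0 ∧ B.W (H.p e) = 0 := by
  show ¬ (_ ∨ _) ↔ _
  rw [not_or, not_not, not_not]
  rfl

theorem slopeAt {r : Fin 4 → Y → ℂ} {e : H.E} (hr : ∀ a, H.Rt a (r a) (H.p e)) {m : ℂ}
    (h : SlR r (H.p e) m) : (wd B H).SlopeAt e (m ^ 2) := by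
  obtain ⟨s, hs⟩ := exists_sign hr
  obtain ⟨u, hu, hum, h1⟩ := h
  refine ⟨fun e' => u (H.p e') ^ 2, ?_, by show u (H.p e) ^ 2 = _; rw [hum], ?_⟩
  · exact (ContinuousAt.comp (f := H.p) hu H.continuous_p.continuousAt).pow 2
  · filter_upwards [hs, H.continuous_p.continuousAt.eventually h1] with e' h2 h3
    show B.W (H.p e') = B.T (H.p e') * u (H.p e') ^ 2
    have e0 := rho0 B H e'
    have e2 := rho2 B H e'
    rw [h2 0, mul_pow, sg_sq, one_mul] at e0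
    rw [h2 2, mul_pow, sg_sq, one_mul] at e2
    rw [← e0, ← e2, h3]
    ring

theorem slopeInf {r : Fin 4 → Y → ℂ} {e : H.E} (hr : ∀ a, H.Rt a (r a) (H.p e))
    (h : InfR r (H.p e)) : (wd B H).SlopeInf e := by
  obtain ⟨s, hs⟩ := exists_sign hr
  obtain ⟨u, hu, hum, h1⟩ := h
  refine ⟨fun e' => u (H.p e') ^ 2, ?_, by show u (H.p e) ^ 2 = _; rw [hum]; ring, ?_⟩
  · exact (ContinuousAt.comp (f := H.p) hu H.continuous_p.continuousAt).pow 2
  · filter_upwards [hs, H.continuous_p.continuousAt.eventually h1] with e' h2 h3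
    show B.T (H.p e') = B.W (H.p e') * u (H.p e') ^ 2
    have e0 := rho0 B H e'
    have e2 := rho2 B H e'
    rw [h2 0, mul_pow, sg_sq, one_mul] at e0
    rw [h2 2, mul_pow, sg_sq, one_mul] at e2
    rw [← e0, ← e2, h3]
    ring

theorem kapAt {r : Fin 4 → Y → ℂ} {e : H.E} {s : Fin 4 → Bool}
    (hs : ∀ᶠ e' in 𝓝 e, ∀ a, H.ρ a e' = sg (s a) * r a (H.p e')) {k : ℂ}
    (h : KpR r (H.p e) k) : (wd B H).KapAt e (sg (s 2) * sg (s 3) * k) := by
  obtain ⟨u, hu, hum, h1⟩ := h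
  refine ⟨fun e' => sg (s 2) * sg (s 3) * u (H.p e'), ?_,
    by show sg (s 2) * sg (s 3) * u (H.p e) = _; rw [hum], ?_⟩
  · exact continuousAt_const.mul (ContinuousAt.comp (f := H.p) hu H.continuous_p.continuousAt)
  · filter_upwards [hs, H.continuous_p.continuousAt.eventually h1] with e' h2 h3
    show H.ρ 2 e' * H.ρ 3 e' = B.T (H.p e') * _
    have e2 := rho2 B H e'
    rw [h2 2, mul_pow, sg_sq, one_mul] at e2
    rw [← e2, h2 2, h2 3, h3]
    ring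

theorem lamAt {r : Fin 4 → Y → ℂ} {e : H.E} {s : Fin 4 → Bool}
    (hs : ∀ᶠ e' in 𝓝 e, ∀ a, H.ρ a e' = sg (s a) * r a (H.p e')) {l : ℂ}
    (h : LmR r (H.p e) l) : (wd B H).LamAt e (sg (s 0) * sg (s 1) * l) := by
  obtain ⟨u, hu, hum, h1⟩ := h
  refine ⟨fun e' => sg (s 0) * sg (s 1) * u (H.p e'), ?_,
    by show sg (s 0) * sg (s 1) * u (H.p e) = _; rw [hum], ?_⟩
  · exact continuousAt_const.mul (ContinuousAt.comp (f := H.p) hu H.continuous_p.continuousAt)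
  · filter_upwards [hs, H.continuous_p.continuousAt.eventually h1] with e' h2 h3
    show H.ρ 0 e' * H.ρ 1 e' = B.W (H.p e') * _
    have e2 := rho0 B H e'
    rw [h2 0, mul_pow, sg_sq, one_mul] at e2
    rw [← e2, h2 0, h2 1, h3]
    ring

variable (B H)

/-- **the local hypotheses at the special fibre** -/
def Loc : Prop :=
  ∀ y, B.T y = 0 → B.W y = 0 → ∃ r : Fin 4 → Y → ℂ, (∀ a, H.Rt a (r a) y) ∧
    ((∃ m, SlR r y m ∧ (m ≠ 0 → (∃ k, KpR r y k) ∧ ∃ l, LmR r y l)) ∨ InfR r y)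

variable {B H}

theorem neBot (e : H.E) : (𝓝[(wd B H).A] e).NeBot := by
  rw [← mem_closure_iff_nhdsWithin_neBot, mem_closure_iff_frequently]
  have h1 := H.ne 2 (H.p e)
  have h2 : 𝓝 (H.p e) = Filter.map H.p (𝓝 e) := (H.cov.isLocalHomeomorph.map_nhds_eq e).symm
  rw [h2, Filter.frequently_map] at h1
  refine h1.mono ?_
  intro e' he'
  exact Or.inl he'

theorem loc_kl (h : Loc B H) {e : H.E} (he : e ∉ (wd B H).A) {μ : ℂ} (hμ : (wd B H).SlopeAt e μ)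
    (h1 : 1 / 3 < ‖μ‖) (h2 : ‖μ‖ < 2 / 3) :
    (∃ k, (wd B H).KapAt e k) ∧ ∃ l, (wd B H).LamAt e l := by
  obtain ⟨h3, h4⟩ := not_mem_A.mp he
  obtain ⟨r, hr, h5⟩ := h _ h3 h4
  have hnb := neBot e
  have hlim := (wd B H).tendsto_t0_slope he hμ
  rcases h5 with ⟨m, hm, h6⟩ | h6
  · have hm0 : m ≠ 0 := by
      rintro rfl
      have h7 := (wd B H).tendsto_t0_slope he (slopeAt hr hm)
      have h8 := tendsto_nhds_unique hlim h7
      have h9 : Tw 0 1 ‖(0 : ℂ) ^ 2‖ = 0 := by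
        by_contra h10
        have h11 := (WD.tw_ne (norm_nonneg _)).1.mp h10
        norm_num at h11
      rw [h9] at h8
      exact (WD.tw_ne (norm_nonneg _)).1.mpr h1 h8
    obtain ⟨⟨k, hk⟩, l, hl⟩ := h6 hm0
    obtain ⟨s, hs⟩ := exists_sign hr
    exact ⟨⟨_, kapAt hs hk⟩, _, lamAt hs hl⟩
  · have h7 := (wd B H).tendsto_t0_inf he (slopeInf hr h6)
    exact absurd (tendsto_nhds_unique hlim h7) ((WD.tw_ne (norm_nonneg _)).2.mpr h2)

/-- the hypotheses of Wall2 hold on the root cover -/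
theorem ext (h : Loc B H) : (wd B H).Ext where
  nb := fun e _ => neBot e
  slope := by
    intro e he
    obtain ⟨h1, h2⟩ := not_mem_A.mp he
    obtain ⟨r, hr, h3⟩ := h _ h1 h2
    rcases h3 with ⟨m, hm, -⟩ | h3
    · exact Or.inl ⟨_, slopeAt hr hm⟩
    · exact Or.inr (slopeInf hr h3)
  kap := fun e he μ hμ h1 h2 => (loc_kl h he hμ h1 h2).1
  lam := fun e he μ hμ h1 h2 => (loc_kl h he hμ h1 h2).2

/-! ### the loop -/

/-- lifting along a locally constant choice of germs of roots, with control of the germs of `ρ` -/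
theorem exists_lift_germ {Z : Type*} [TopologicalSpace Z] {j : Z → Y} (hj : Continuous j)
    (R : Z → Fin 4 → Y → ℂ) (hR : ∀ t a, H.Rt a (R t a) (j t))
    (hc : ∀ t, ∀ᶠ t' in 𝓝 t, ∀ a, R t' a =ᶠ[𝓝 (j t')] R t a) :
    ∃ J : Z → H.E, Continuous J ∧ (∀ t, H.p (J t) = j t) ∧
      ∀ t, ∀ᶠ e' in 𝓝 (J t), ∀ a, H.ρ a e' = R t a (H.p e') := by
  have hex : ∀ t, ∃ i : H.Idx, j t ∈ i.U ∧ i.r = R t := by
    intro t
    have h1 : ∀ᶠ z in 𝓝 (j t), ∀ a, H.Rt a (R t a) z := by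
      rw [Filter.eventually_all]
      exact fun a => H.opn (hR t a)
    obtain ⟨U, hU, hUo, hx⟩ := _root_.eventually_nhds_iff.1 h1
    exact ⟨⟨U, hUo, R t, fun a z hz => hU z hz a⟩, hx, rfl⟩
  choose i hi hir using hex
  refine ⟨fun t => H.sec (i t) (j t), ?_, fun _ => rfl, ?_⟩
  · rw [continuous_iff_continuousAt]
    intro t
    have h1 : ContinuousAt (fun t' => H.sec (i t) (j t')) t := by
      have h2 : ContinuousAt (H.sec (i t)) (j t) :=
        (H.continuousOn_sec (i t)).continuousAt ((i t).hU.mem_nhds (hi t))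
      exact ContinuousAt.comp (f := j) h2 hj.continuousAt
    refine h1.congr ?_
    filter_upwards [hc t] with t' ht'
    refine (H.sec_congr ?_).symm
    intro a
    rw [hir, hir]
    exact ht' a
  · intro t
    have h1 : H.crd (i t) (H.sec (i t) (j t)) = fun _ => false := H.crd_sec (i t) (hi t)
    have h3 := H.continuousAt_crd (i t) (e := H.sec (i t) (j t)) (hi t)
    have h4 : ∀ᶠ v in 𝓝 (H.crd (i t) (H.sec (i t) (j t))), v = fun _ => false := by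
      rw [nhds_discrete]; exact Filter.eventually_pure.mpr h1
    have h5 : ∀ᶠ e' in 𝓝 (H.sec (i t) (j t)), H.p e' ∈ (i t).U :=
      H.continuous_p.continuousAt.preimage_mem_nhds ((i t).hU.mem_nhds (hi t))
    filter_upwards [h3.eventually h4, h5] with e' h6 h7 a
    rw [H.ρ_eq (i t) h7 a, h6, hir]
    simp

/-- an arc of the special fibre crossing the wall twice: `u² = 1 - s²`, `λ κ = i s`, `s` from `1` to `-1` -/
def Arc {Zh : Set Y} (R : Zh → Fin 4 → Y → ℂ) (γ : I → Zh) : Prop :=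
  ∃ s : I → ℝ, ∃ c : I, s 0 = 1 ∧ s 1 = -1 ∧ s c = 0 ∧ (∀ t, |s t| ≤ 1) ∧
    (∀ t ≤ c, 0 ≤ s t) ∧ (∀ t, c ≤ t → s t ≤ 0) ∧
    (∀ t, ∃ m : ℂ, SlR (R (γ t)) (γ t : Y) m ∧ m ^ 2 = ((1 - s t ^ 2 : ℝ) : ℂ)) ∧
    ∀ t, s t ≠ 0 → |s t| < 1 → ∃ k l : ℂ, KpR (R (γ t)) (γ t : Y) k ∧ LmR (R (γ t)) (γ t : Y) l ∧
      l * k = Complex.I * (s t : ℂ)

/-- **LB414**, the lower bound of S0414 over the root cover -/
theorem lb414 (hloc : Loc B H) {Zh : Set Y} (hZ : ∀ y ∈ Zh, B.T y = 0 ∧ B.W y = 0)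
    (R : Zh → Fin 4 → Y → ℂ) (hR : ∀ (y : Zh) (a : Fin 4), H.Rt a (R y a) (y : Y))
    (hc : ∀ y : Zh, ∀ᶠ y' : Zh in 𝓝 y, ∀ a, R y' a =ᶠ[𝓝 (y' : Y)] R y a)
    {z₀ z₁ z₂ z₃ : Zh} (k₁ : Path z₀ z₁) (r₁ : Path z₁ z₂) (k₂ : Path z₂ z₃) (r₂ : Path z₃ z₀)
    (hk₁ : Arc R k₁) (hk₂ : Arc R k₂) (hr₁ : ∀ t, SlR (R (r₁ t)) (r₁ t : Y) 0)
    (hr₂ : ∀ t, SlR (R (r₂ t)) (r₂ t : Y) 0) :
    ∃ (θ : C(H.E, AddCircle (1 : ℝ))) (e : H.E) (c : Path e e) (l : C(I, ℝ)),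
      (∀ t, H.p (c t) ∈ Zh) ∧ (∀ t, ((l t : ℝ) : AddCircle (1 : ℝ)) = θ (c t)) ∧ l 1 ≠ l 0 := by
  obtain ⟨J, hJ, hp, hJρ⟩ := exists_lift_germ (H := H) (j := fun y : Zh => (y : Y))
    continuous_subtype_val R hR hc
  have hs : ∀ y : Zh, ∀ᶠ e' in 𝓝 (J y), ∀ a, H.ρ a e' = sg ((fun _ => false : Fin 4 → Bool) a) *
      R y a (H.p e') := by
    intro y
    filter_upwards [hJρ y] with e' he a
    rw [he a, sg_false, one_mul]
  have hA : ∀ y : Zh, J y ∉ (wd B H).A := by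
    intro y
    rw [not_mem_A, hp]
    exact hZ _ y.2
  have hsl : ∀ (y : Zh) (m : ℂ), SlR (R y) (y : Y) m → (wd B H).SlopeAt (J y) (m ^ 2) := by
    intro y m hm
    refine slopeAt (r := R y) ?_ ?_
    · intro a; rw [hp]; exact hR y a
    · rw [hp]; exact hm
  have hkp : ∀ (y : Zh) (k : ℂ), KpR (R y) (y : Y) k → (wd B H).KapAt (J y) k := by
    intro y k hk
    have h1 := kapAt (hs y) (k := k) (by rw [hp]; exact hk)
    rwa [sg_false, one_mul, one_mul] at h1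
  have hlm : ∀ (y : Zh) (k : ℂ), LmR (R y) (y : Y) k → (wd B H).LamAt (J y) k := by
    intro y k hk
    have h1 := lamAt (hs y) (l := k) (by rw [hp]; exact hk)
    rwa [sg_false, one_mul, one_mul] at h1
  have hcr : ∀ {x y : Zh} (k : Path x y), Arc R k → Cross (wd B H) (k.map hJ) := by
    intro x y k hk
    refine ⟨fun t => hA _, ?_⟩
    obtain ⟨s, c, h1, h2, h3, h4, h5, h6, h7, h8⟩ := hk
    refine ⟨s, c, h1, h2, h3, h4, h5, h6, ?_, ?_⟩
    · intro t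
      obtain ⟨m, hm, hm2⟩ := h7 t
      rw [← hm2]
      exact hsl _ m hm
    · intro t h9 h10
      obtain ⟨k', l, hk', hl, hkl⟩ := h8 t h9 h10
      exact ⟨k', l, hkp _ _ hk', hlm _ _ hl, hkl⟩
  have hz : ∀ {x y : Zh} (k : Path x y), (∀ t, SlR (R (k t)) (k t : Y) 0) →
      ∀ t, (k.map hJ) t ∉ (wd B H).A ∧ (wd B H).SlopeAt ((k.map hJ) t) 0 := by
    intro x y k hk t
    refine ⟨hA _, ?_⟩
    have := hsl _ _ (hk t)
    rw [zero_pow two_ne_zero] at this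
    exact this
  obtain ⟨c, l, h1, h2, h3⟩ := exists_loop (ext hloc) (S := {e | H.p e ∈ Zh}) (k₁.map hJ)
    (r₁.map hJ) (k₂.map hJ) (r₂.map hJ) (hcr k₁ hk₁) (hcr k₂ hk₂) (hz r₁ hr₁) (hz r₂ hr₂)
    (fun t => by show H.p (J _) ∈ Zh; rw [hp]; exact Subtype.coe_prop _)
    (fun t => by show H.p (J _) ∈ Zh; rw [hp]; exact Subtype.coe_prop _)
    (fun t => by show H.p (J _) ∈ Zh; rw [hp]; exact Subtype.coe_prop _)
    (fun t => by show H.p (J _) ∈ Zh; rw [hp]; exact Subtype.coe_prop _)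
  exact ⟨(ext hloc).θ, _, c, l, h1, h2, h3⟩

end Crest.Agent.R272.Wall4_275
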