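import Crest.Agent.R273.PB_835
import Crest.Agent.R275.QN2b_734

-- ▼ part R272/PosGlue1_232
section

/-!
# R272, model division (helper232), POS-GLUE, file 1: gluing metrics which are positive along a map

`p : M → N` holomorphic (`HolMap A B p`), `P : LB A`.

* `HMo P U`        : smooth Hermitian metric on the part of `P` over the open set `U` of `M`
* `VK A B p i z v` : the vector `v` at the point `z` of the chart `i` is killed by `dp`
* `HMo.PosK`, `PosKAt`, `PosK` : curvature positive on the non-zero vectors killed by `dp`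
* `glue`           : `N` compact (or: a compact part `K` of `N`), finitely or infinitely many open
                     `V a` covering, metrics `h a` of `P` over `p ⁻¹' V a` with `PosK` ⟹ a global
                     metric with `PosK`; `h = ∏ (h a) ^ (χ a ∘ p)`.
-/

set_option autoImplicit false
set_option linter.unusedSectionVars false

open Set Filter Topology Complex
open scoped ContDiff Matrix ComplexConjugate Manifold

namespace Crest.Agent.R272.PosGlue_232

open Crest.Agent.R275.Geo Crest.Agent.R275.Core144 Crest.Agent.R273.Defs_333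
open Crest.Agent.R273.Map_835 Crest.Agent.R273 Crest.Agent.R275.QN2b734

noncomputable section

variable {n m : ℕ} {M N : Type} [TopologicalSpace M] [TopologicalSpace N]
  {A : Atl n M} {B : Atl m N} {p : M → N}

/-- smooth Hermitian metric on the part of `L` over `U` -/
structure HMo (L : LB A) (U : Set M) where
  w : A.ι → M → ℝ
  pos : ∀ i, ∀ x ∈ (A.e i).source, x ∈ U → 0 < w i x
  sm : ∀ i, ContDiffOn ℝ ∞ (fun z => w i ((A.e i).symm z))
    ((A.e i).target ∩ (A.e i).symm ⁻¹' U)
  tr : ∀ i j, ∀ x ∈ (A.e i).source ∩ (A.e j).source, x ∈ U → w j x = ‖L.g i j x‖ ^ 2 * w i x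

/-- the local weight `-log w` read in the chart `i` -/
def HMo.wt {L : LB A} {U : Set M} (h : HMo L U) (i : A.ι) : Cn n → ℝ :=
  fun z => - Real.log (h.w i ((A.e i).symm z))

/-- a global metric restricted to `U` -/
def HMo.ofHM {L : LB A} (h : HM L) (U : Set M) : HMo L U where
  w := h.w
  pos i x hx _ := h.pos i x hx
  sm i := (h.sm i).mono inter_subset_left
  tr i j x hx _ := h.tr i j x hx

/-- smaller open sets -/
def HMo.mono {L : LB A} {U V : Set M} (h : HMo L U) (hV : V ⊆ U) : HMo L V where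
  w := h.w
  pos i x hx hU := h.pos i x hx (hV hU)
  sm i := (h.sm i).mono fun _ hz => ⟨hz.1, hV hz.2⟩
  tr i j x hx hU := h.tr i j x hx (hV hU)

theorem HMo.wt_smooth {L : LB A} {U : Set M} (h : HMo L U) (i : A.ι) :
    ContDiffOn ℝ ∞ (h.wt i) ((A.e i).target ∩ (A.e i).symm ⁻¹' U) := by
  have h1 : ContDiffOn ℝ ∞ (fun z => Real.log (h.w i ((A.e i).symm z)))
      ((A.e i).target ∩ (A.e i).symm ⁻¹' U) :=
    (h.sm i).log fun z hz => (h.pos i _ ((A.e i).map_target hz.1) hz.2).ne'
  exact h1.neg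

/-- the vector `v` at `z` (chart `i`) is killed by the derivative of `p` -/
def VK (A : Atl n M) (B : Atl m N) (p : M → N) (i : A.ι) (z v : Cn n) : Prop :=
  ∀ j, z ∈ dm A B p i j → fderiv ℂ (rd A B p i j) z v = 0

/-- curvature positive along the map `p`, over `U` -/
def HMo.PosK {L : LB A} {U : Set M} (B : Atl m N) (p : M → N) (h : HMo L U) : Prop :=
  ∀ i, ∀ z ∈ (A.e i).target, (A.e i).symm z ∈ U → ∀ v : Cn n, v ≠ 0 → VK A B p i z v →
    0 < lev (h.wt i) z v

/-- curvature positive along the map `p`, at the points of `U` -/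
def PosKOn {L : LB A} (B : Atl m N) (p : M → N) (h : HM L) (U : Set M) : Prop :=
  ∀ i, ∀ z ∈ (A.e i).target, (A.e i).symm z ∈ U → ∀ v : Cn n, v ≠ 0 → VK A B p i z v →
    0 < lev (h.wt i) z v

/-! ### the Levi form of a product -/

theorem fd2_mul {f g : Cn n → ℝ} {z : Cn n} (hf : ContDiffAt ℝ 2 f z) (hg : ContDiffAt ℝ 2 g z)
    (v : Cn n) (hv : fderiv ℝ f z v = 0) :
    fderiv ℝ (fderiv ℝ (fun y => f y * g y)) z v v =
      f z * fderiv ℝ (fderiv ℝ g) z v v + g z * fderiv ℝ (fderiv ℝ f) z v v := by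
  have e1 : fderiv ℝ (fun y => f y * g y) =ᶠ[𝓝 z] fun y => f y • fderiv ℝ g y + g y • fderiv ℝ f y := by
    filter_upwards [Levi_145.c2_evd hf, Levi_145.c2_evd hg] with y h1 h2
    exact (h1.hasFDerivAt.mul h2.hasFDerivAt).fderiv
  have e2 : HasFDerivAt (fun y => f y • fderiv ℝ g y + g y • fderiv ℝ f y) _ z :=
    ((Levi_145.c2_diff hf).hasFDerivAt.smul (Levi_145.c2_fd hg).hasFDerivAt).add
      ((Levi_145.c2_diff hg).hasFDerivAt.smul (Levi_145.c2_fd hf).hasFDerivAt)
  rw [e1.fderiv_eq, e2.fderiv]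
  simp only [_root_.add_apply, _root_.smul_apply, ContinuousLinearMap.smulRight_apply, smul_eq_mul]
  rw [hv]
  ring

theorem lev_mul_ker {f g : Cn n → ℝ} {z : Cn n} (hf : ContDiffAt ℝ 2 f z)
    (hg : ContDiffAt ℝ 2 g z) (v : Cn n) (hv : fderiv ℝ f z v = 0)
    (hIv : fderiv ℝ f z (I • v) = 0) :
    lev (fun y => f y * g y) z v = f z * lev g z v + g z * lev f z v := by
  simp only [PB_835.lev_bridge, Levi_145.lev]
  rw [fd2_mul hf hg v hv, fd2_mul hf hg _ hIv]
  ring

/-! ### functions pulled back from the base -/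

/-- a smooth function on the base, pulled back and read in a chart upstairs -/
theorem pull_fun (hp : HolMap A B p) {χ : N → ℝ} {i : A.ι} {j : B.ι} {z : Cn n}
    (hz : z ∈ dm A B p i j) :
    (fun y => χ (p ((A.e i).symm y))) =ᶠ[𝓝 z]
      fun y => (fun w => χ ((B.e j).symm w)) (rd A B p i j y) := by
  filter_upwards [(hp.isOpen_dm i j).mem_nhds hz] with y hy
  simp only [rd]
  rw [(B.e j).left_inv hy.2]

theorem pull_fun_smooth (hp : HolMap A B p) {χ : N → ℝ} (hχ : B.Sm χ) {i : A.ι} {z : Cn n}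
    (hz : z ∈ (A.e i).target) : ContDiffAt ℝ ∞ (fun y => χ (p ((A.e i).symm y))) z := by
  obtain ⟨j, hj⟩ := B.cover (p ((A.e i).symm z))
  have hzd : z ∈ dm A B p i j := ⟨hz, hj⟩
  have h1 : ContDiffAt ℝ ∞ (fun w => χ ((B.e j).symm w)) (rd A B p i j z) :=
    (hχ j).contDiffAt ((B.e j).open_target.mem_nhds ((B.e j).map_source hj))
  have h2 : ContDiffAt ℝ ∞ (rd A B p i j) z := (hp.analyticAt hzd).contDiffAt.restrict_scalars ℝ
  exact (h1.comp z h2).congr_of_eventuallyEq (pull_fun hp hzd)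

theorem pull_fun_fderiv (hp : HolMap A B p) {χ : N → ℝ} (hχ : B.Sm χ) {i : A.ι} {z : Cn n}
    (hz : z ∈ (A.e i).target) {v : Cn n} (hv : VK A B p i z v) :
    fderiv ℝ (fun y => χ (p ((A.e i).symm y))) z v = 0 := by
  obtain ⟨j, hj⟩ := B.cover (p ((A.e i).symm z))
  have hzd : z ∈ dm A B p i j := ⟨hz, hj⟩
  have h1 : DifferentiableAt ℝ (fun w => χ ((B.e j).symm w)) (rd A B p i j z) :=
    ((hχ j).contDiffAt ((B.e j).open_target.mem_nhds ((B.e j).map_source hj))).differentiableAt
      (by norm_num)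
  have h2 := (hp.analyticAt hzd).differentiableAt
  have h3 : HasFDerivAt (fun y => (fun w => χ ((B.e j).symm w)) (rd A B p i j y)) _ z :=
    h1.hasFDerivAt.comp z (h2.hasFDerivAt.restrictScalars ℝ)
  rw [(pull_fun hp hzd).fderiv_eq, h3.fderiv]
  simp only [ContinuousLinearMap.coe_comp, Function.comp_apply,
    ContinuousLinearMap.coe_restrictScalars']
  rw [hv j hzd, map_zero]

theorem VK.smul {i : A.ι} {z v : Cn n} (h : VK A B p i z v) (c : ℂ) : VK A B p i z (c • v) := by
  intro j hj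
  rw [map_smul, h j hj, smul_zero]

theorem pull_fun_lev (hp : HolMap A B p) {χ : N → ℝ} (hχ : B.Sm χ) {i : A.ι} {z : Cn n}
    (hz : z ∈ (A.e i).target) {v : Cn n} (hv : VK A B p i z v) :
    lev (fun y => χ (p ((A.e i).symm y))) z v = 0 := by
  obtain ⟨j, hj⟩ := B.cover (p ((A.e i).symm z))
  have hzd : z ∈ dm A B p i j := ⟨hz, hj⟩
  have h1 : ContDiffAt ℝ 2 (fun w => χ ((B.e j).symm w)) (rd A B p i j z) :=
    ((hχ j).contDiffAt ((B.e j).open_target.mem_nhds ((B.e j).map_source hj))).of_le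
      (by norm_cast)
  rw [PB_835.lev_congr' (pull_fun hp hzd), PB_835.lev_bridge,
    Levi_145.lev_comp (hp.analyticAt hzd) h1, hv j hzd, Levi_145.lev_zero, mul_zero]

/-! ### gluing -/

section Glue

variable {L : LB A}

/-- the data: a finite partition of unity on the base and local metrics upstairs -/
theorem glue_aux (hp : HolMap A B p) {ι : Type*} (t : Finset ι) (V : ι → Set N)
    (hVo : ∀ a, IsOpen (V a)) (χ : ι → N → ℝ) (hχ : ∀ a, B.Sm (χ a)) (h0 : ∀ a y, 0 ≤ χ a y)
    (hsub : ∀ a, tsupport (χ a) ⊆ V a) (h1 : ∀ y, ∑ a ∈ t, χ a y = 1)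
    (h : ∀ a, HMo L (p ⁻¹' V a)) (hk : ∀ a, (h a).PosK B p) :
    ∃ H : HM L, PosKOn B p H univ ∧
      ∀ i x, H.w i x = Real.exp (∑ a ∈ t, χ a (p x) * Real.log ((h a).w i x)) := by
  classical
  have hoff : ∀ a y, y ∉ V a → χ a y = 0 := fun a y hy =>
    image_eq_zero_of_notMem_tsupport fun h' => hy (hsub a h')
  -- smoothness of one term, and its Levi form on killed vectors
  have hterm : ∀ a i, ∀ z ∈ (A.e i).target,
      ContDiffAt ℝ ∞ (fun y => χ a (p ((A.e i).symm y)) * (h a).wt i y) z ∧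
      ∀ v, VK A B p i z v → lev (fun y => χ a (p ((A.e i).symm y)) * (h a).wt i y) z v =
        χ a (p ((A.e i).symm z)) * lev ((h a).wt i) z v := by
    intro a i z hz
    by_cases hV : p ((A.e i).symm z) ∈ V a
    · have ho : IsOpen ((A.e i).target ∩ (A.e i).symm ⁻¹' (p ⁻¹' V a)) :=
        (A.e i).isOpen_inter_preimage_symm ((hVo a).preimage hp.cont)
      have k1 := pull_fun_smooth hp (hχ a) hz
      have k2 : ContDiffAt ℝ ∞ ((h a).wt i) z :=
        ((h a).wt_smooth i).contDiffAt (ho.mem_nhds ⟨hz, hV⟩)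
      refine ⟨k1.mul k2, fun v hv => ?_⟩
      rw [lev_mul_ker (k1.of_le (by norm_cast)) (k2.of_le (by norm_cast)) v
        (pull_fun_fderiv hp (hχ a) hz hv) (pull_fun_fderiv hp (hχ a) hz (hv.smul I)),
        pull_fun_lev hp (hχ a) hz hv]
      ring
    · have k1 : p ((A.e i).symm z) ∉ tsupport (χ a) := fun h' => hV (hsub a h')
      have k2 : ∀ᶠ y in 𝓝 (p ((A.e i).symm z)), χ a y = 0 :=
        notMem_tsupport_iff_eventuallyEq.1 k1
      have k3 : ∀ᶠ y in 𝓝 z, χ a (p ((A.e i).symm y)) = 0 :=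
        ((hp.cont.continuousAt.comp ((A.e i).continuousAt_symm hz))).eventually k2
      have k4 : (fun y => χ a (p ((A.e i).symm y)) * (h a).wt i y) =ᶠ[𝓝 z] fun _ => (0 : ℝ) := by
        filter_upwards [k3] with w hw
        rw [hw, zero_mul]
      refine ⟨contDiffAt_const.congr_of_eventuallyEq k4, fun v _ => ?_⟩
      rw [PB_835.lev_congr' k4, k3.self_of_nhds, zero_mul, PB_835.lev_bridge, Levi_145.lev_const,
        mul_zero]
  have hwt : ∀ i, ∀ z, - (∑ a ∈ t, χ a (p ((A.e i).symm z)) *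
      Real.log ((h a).w i ((A.e i).symm z))) =
      ∑ a ∈ t, χ a (p ((A.e i).symm z)) * (h a).wt i z := by
    intro i z
    rw [← Finset.sum_neg_distrib]
    refine Finset.sum_congr rfl fun a _ => ?_
    simp only [HMo.wt]
    ring
  let H : HM L :=
    { w := fun i x => Real.exp (∑ a ∈ t, χ a (p x) * Real.log ((h a).w i x))
      pos := fun _ _ _ => Real.exp_pos _
      sm := by
        intro i
        refine Real.contDiff_exp.comp_contDiffOn ?_
        intro z hz
        have k1 : ContDiffAt ℝ ∞ (fun y => - ∑ a ∈ t, χ a (p ((A.e i).symm y)) *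
            (h a).wt i y) z := (ContDiffAt.sum fun a _ => (hterm a i z hz).1).neg
        refine (k1.congr_of_eventuallyEq ?_).contDiffWithinAt
        refine Eventually.of_forall fun y => ?_
        show _ = - _
        rw [← hwt i y, neg_neg]
      tr := by
        intro i j x hx
        have k1 : ∀ a, χ a (p x) * Real.log ((h a).w j x) =
            χ a (p x) * Real.log (‖L.g i j x‖ ^ 2) + χ a (p x) * Real.log ((h a).w i x) := by
          intro a
          by_cases hV : p x ∈ V a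
          · rw [(h a).tr i j x hx hV, Real.log_mul]
            · ring
            · have := L.ne_zero i j x
              positivity
            · exact ((h a).pos i x hx.1 hV).ne'
          · rw [hoff a _ hV]; ring
        simp only [k1]
        rw [Finset.sum_add_distrib, ← Finset.sum_mul, h1, one_mul, Real.exp_add, Real.exp_log]
        have := L.ne_zero i j x
        positivity }
  have hHwt : ∀ i z, H.wt i z = ∑ a ∈ t, χ a (p ((A.e i).symm z)) * (h a).wt i z := by
    intro i z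
    rw [← hwt i z]
    simp only [HM.wt, H, Real.log_exp]
  refine ⟨H, ?_, fun _ _ => rfl⟩
  intro i z hz _ v hv hvk
  have k1 : lev (H.wt i) z v = ∑ a ∈ t, χ a (p ((A.e i).symm z)) * lev ((h a).wt i) z v := by
    have e : H.wt i = fun z => ∑ a ∈ t, χ a (p ((A.e i).symm z)) * (h a).wt i z :=
      funext (hHwt i)
    rw [e, PB_835.lev_bridge, Levi_145.lev_sum t (fun a _ => ((hterm a i z hz).1).of_le
      (by norm_cast)), Finset.mul_sum]
    refine Finset.sum_congr rfl fun a _ => ?_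
    rw [← PB_835.lev_bridge]
    exact (hterm a i z hz).2 v hvk
  rw [k1]
  -- some coefficient is positive
  obtain ⟨a, ha, hpos⟩ : ∃ a ∈ t, 0 < χ a (p ((A.e i).symm z)) := by
    by_contra hcon
    push Not at hcon
    have : ∑ a ∈ t, χ a (p ((A.e i).symm z)) ≤ 0 := Finset.sum_nonpos hcon
    rw [h1] at this
    exact absurd this (by norm_num)
  have hnn : ∀ a ∈ t, 0 ≤ χ a (p ((A.e i).symm z)) * lev ((h a).wt i) z v := by
    intro a _
    by_cases hV : p ((A.e i).symm z) ∈ V a
    · exact mul_nonneg (h0 _ _) (hk a i z hz hV v hv hvk).le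
    · rw [hoff a _ hV, zero_mul]
  refine Finset.sum_pos' hnn ⟨a, ha, mul_pos hpos ?_⟩
  have hV : p ((A.e i).symm z) ∈ V a := by
    by_contra hV
    rw [hoff a _ hV] at hpos
    exact lt_irrefl _ hpos
  exact hk a i z hz hV v hv hvk

/-- **gluing**: positivity along `p` is local on the (compact) base -/
theorem glue [CompactSpace N] [T2Space N] (hp : HolMap A B p) {ι : Type*} (V : ι → Set N)
    (hVo : ∀ a, IsOpen (V a)) (hVc : ∀ y, ∃ a, y ∈ V a)
    (h : ∀ a, HMo L (p ⁻¹' V a)) (hk : ∀ a, (h a).PosK B p) :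
    ∃ H : HM L, PosKOn B p H univ := by
  obtain ⟨t, χ, c1, c2, c3, c4, c5, c6, c7⟩ := Crest.Agent.R275.QN2b734.exists_partition B isCompact_univ V hVo
    (fun x _ => hVc x)
  have h1 : ∀ y, ∑ a ∈ t, χ a y = 1 := by
    intro y
    rw [nhdsSet_univ] at c7
    exact (Filter.eventually_top.1 c7) y
  obtain ⟨H, hH, -⟩ := glue_aux hp t V hVo χ (fun a => sm_iff.2 fun y => c1 a y)
    (fun a y => (c2 a y).1) c4 h1 h hk
  exact ⟨H, hH⟩

end Glue

end

end Crest.Agent.R272.PosGlue_232
end

-- ▼ part R272/PosGlue2_232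

/-!
# R272, model division (helper232), POS-GLUE, file 2: from positivity along `p` to positivity

`P : LB A`, `h : HM P` positive on the kernel of `dp` at the points of a compact set `K`,
`H : LB B` with a positive metric `hH`, `T : PB p H' H`.

* `lev_chg`     : the curvature of a metric in two charts
* `PosAt h x`   : positive curvature at the point `x` (chart independent: `posAt_iff`)
* `pos_iff`     : `h.Pos ↔ ∀ x, PosAt h x`
* `pos_of_ker_compact` : `∃ m₀, ∀ m ≥ m₀, ∀ x ∈ K, PosAt (h * (p^*hH)^m) x`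
* `pos_of_ker`  : `M` compact: `∃ m₀, ∀ m ≥ m₀, (h * (p^*hH)^m).Pos`
* `glue_pos`    : local metrics over the base ⟹ `P * (p^*H)^m` has a positive metric, `m ≥ m₀`.
-/

set_option autoImplicit false
set_option linter.unusedSectionVars false

open Set Filter Topology Complex
open scoped ContDiff Matrix ComplexConjugate Manifold

namespace Crest.Agent.R272.PosGlue_232

open Crest.Agent.R275.Geo Crest.Agent.R275.Core144 Crest.Agent.R273.Defs_333
open Crest.Agent.R273.Map_835 Crest.Agent.R273 Crest.Agent.R275.QN2b734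

noncomputable section

variable {n m : ℕ} {M N : Type} [TopologicalSpace M] [TopologicalSpace N]
  {A : Atl n M} {B : Atl m N} {p : M → N}

/-! ### change of chart -/

theorem pull_refl_w {L : LB A} (h : HM L) {i : A.ι} {x : M} (hx : x ∈ (A.e i).source) :
    ((PB_835.PB.refl L).pullHM (holMap_id A) h).w i x = h.w i x := by
  rw [PB_835.PB.pullHM_w (PB_835.PB.refl L) (holMap_id A) h hx (j := i) hx]
  simp [PB_835.PB.refl, L.self]

/-- the curvature in two charts -/
theorem lev_chg {L : LB A} (h : HM L) {i j : A.ι} {z : Cn n} (hz : z ∈ A.ov i j) (v : Cn n) :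
    lev (h.wt i) z v = lev (h.wt j) (A.e j ((A.e i).symm z))
      (fderiv ℂ (fun y => A.e j ((A.e i).symm y)) z v) := by
  have h1 := PB_835.PB.pullHM_lev (PB_835.PB.refl L) (holMap_id A) h (i := i) (j := j)
    (z := z) ⟨hz.1, hz.2⟩ v
  have h2 : ((PB_835.PB.refl L).pullHM (holMap_id A) h).wt i =ᶠ[𝓝 z] h.wt i := by
    filter_upwards [(A.e i).open_target.mem_nhds hz.1] with y hy
    simp only [HM.wt]
    rw [pull_refl_w h ((A.e i).map_target hy)]
  rw [PB_835.lev_congr' h2] at h1
  exact h1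

/-- positive curvature at a point -/
def PosAt {L : LB A} (h : HM L) (x : M) : Prop :=
  ∀ i, x ∈ (A.e i).source → ∀ v : Cn n, v ≠ 0 → 0 < lev (h.wt i) (A.e i x) v

/-- the derivative of a change of charts is injective -/
theorem chg_inj {i j : A.ι} {z : Cn n} (hz : z ∈ A.ov i j) {v : Cn n}
    (h : fderiv ℂ (fun y => A.e j ((A.e i).symm y)) z v = 0) : v = 0 := by
  have hx : (A.e i).symm z ∈ (A.e i).source := (A.e i).map_target hz.1
  have hz' : A.e j ((A.e i).symm z) ∈ A.ov j i :=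
    ⟨(A.e j).map_source hz.2, by rwa [(A.e j).left_inv hz.2]⟩
  have ho : IsOpen (A.ov i j) := isOpen_ov i j
  have ho' : IsOpen (A.ov j i) := isOpen_ov j i
  have d1 : HasFDerivAt (fun y => A.e j ((A.e i).symm y)) _ z :=
    ((A.holo i j).differentiableAt (ho.mem_nhds hz)).hasFDerivAt
  have d2 : HasFDerivAt (fun y => A.e i ((A.e j).symm y)) _ (A.e j ((A.e i).symm z)) :=
    ((A.holo j i).differentiableAt (ho'.mem_nhds hz')).hasFDerivAt
  have d3 := d2.comp z d1
  have e : (fun y => (fun y => A.e i ((A.e j).symm y)) (A.e j ((A.e i).symm y))) =ᶠ[𝓝 z] id := by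
    filter_upwards [ho.mem_nhds hz] with y hy
    simp only [id]
    rw [(A.e j).left_inv hy.2, (A.e i).right_inv hy.1]
  have d4 : HasFDerivAt (id : Cn n → Cn n) (ContinuousLinearMap.id ℂ (Cn n)) z := hasFDerivAt_id z
  have d5 := (d3.congr_of_eventuallyEq e.symm).unique d4
  have := congrArg (fun T : Cn n →L[ℂ] Cn n => T v) d5
  simp only [ContinuousLinearMap.coe_comp, Function.comp_apply] at this
  rw [h, map_zero] at this
  exact this.symm

theorem posAt_of {L : LB A} {h : HM L} {x : M} {i : A.ι} (hx : x ∈ (A.e i).source)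
    (hi : ∀ v : Cn n, v ≠ 0 → 0 < lev (h.wt i) (A.e i x) v) : PosAt h x := by
  intro j hj v hv
  have hz : A.e j x ∈ A.ov j i := ⟨(A.e j).map_source hj, by rwa [(A.e j).left_inv hj]⟩
  rw [lev_chg h hz v, (A.e j).left_inv hj]
  refine hi _ fun h0 => hv (chg_inj hz h0)

theorem pos_iff {L : LB A} {h : HM L} : h.Pos ↔ ∀ x, PosAt h x := by
  constructor
  · intro H x i hx v hv
    exact H i _ ((A.e i).map_source hx) v hv
  · intro H i z hz v hv
    have := H ((A.e i).symm z) i ((A.e i).map_target hz) v hv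
    rwa [(A.e i).right_inv hz] at this

/-! ### continuity of the Levi form -/

theorem lev_continuousOn {u : Cn n → ℝ} {U : Set (Cn n)} (hU : IsOpen U)
    (hu : ContDiffOn ℝ ∞ u U) :
    ContinuousOn (fun q : Cn n × Cn n => lev u q.1 q.2) (U ×ˢ univ) := by
  have h1 : ContDiffOn ℝ 1 (fderiv ℝ u) U :=
    hu.fderiv_of_isOpen hU (by norm_cast)
  have h2 : ContinuousOn (fderiv ℝ (fderiv ℝ u)) U :=
    h1.continuousOn_fderiv_of_isOpen hU le_rfl
  have h3 : ContinuousOn (fun q : Cn n × Cn n => fderiv ℝ (fderiv ℝ u) q.1) (U ×ˢ univ) :=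
    h2.comp continuous_fst.continuousOn fun q hq => hq.1
  have h4 : ContinuousOn (fun q : Cn n × Cn n => 
      4 * ((fderiv ℝ (fderiv ℝ u) q.1 q.2 q.2 +
        fderiv ℝ (fderiv ℝ u) q.1 (I • q.2) (I • q.2)) / 4)) (U ×ˢ univ) := by
    have h5 : ContinuousOn (fun q : Cn n × Cn n => q.2) (U ×ˢ univ) := continuous_snd.continuousOn
    have h6 : ContinuousOn (fun q : Cn n × Cn n => I • q.2) (U ×ˢ univ) :=
      (continuous_snd.const_smul I).continuousOn
    exact continuousOn_const.mul ((((h3.clm_apply h5).clm_apply h5).add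
      ((h3.clm_apply h6).clm_apply h6)).div_const 4)
  refine h4.congr fun q _ => ?_
  simp only [PB_835.lev_bridge, Levi_145.lev]

/-! ### the compactness lemma -/

/-- `a > 0` on the zero set of `b ≥ 0` on a compact set ⟹ `a + k b > 0` for large `k` -/
theorem exists_large {X : Type*} [TopologicalSpace X] {K : Set X} (hK : IsCompact K)
    {a b : X → ℝ} (ha : ContinuousOn a K) (hb : ContinuousOn b K) (hb0 : ∀ x ∈ K, 0 ≤ b x)
    (hab : ∀ x ∈ K, b x = 0 → 0 < a x) :
    ∃ k₀ : ℕ, ∀ k : ℕ, k₀ ≤ k → ∀ x ∈ K, 0 < a x + k * b x := by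
  have h1 : ∀ x ∈ K, ∃ k : ℕ, ∀ᶠ y in 𝓝[K] x, 0 < a y + k * b y := by
    intro x hx
    have h2 : ∃ k : ℕ, 0 < a x + k * b x := by
      rcases (hb0 x hx).eq_or_lt with h0 | h0
      · exact ⟨0, by simpa using hab x hx h0.symm⟩
      · obtain ⟨k, hk⟩ := exists_nat_gt (-(a x) / b x)
        refine ⟨k, ?_⟩
        rw [div_lt_iff₀ h0] at hk
        linarith
    obtain ⟨k, hk⟩ := h2
    exact ⟨k, ((ha x hx).add ((hb x hx).const_mul (k : ℝ))).eventually (lt_mem_nhds hk)⟩
  choose! k hk using h1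
  obtain ⟨t, ht, htK⟩ := hK.elim_nhdsWithin_subcover (fun x => {y | 0 < a y + k x * b y})
    (fun x hx => hk x hx)
  refine ⟨t.sup k, fun l hl x hx => ?_⟩
  obtain ⟨y, hy, hxy⟩ := mem_iUnion₂.1 (htK hx)
  have h3 : (k y : ℝ) ≤ l := by exact_mod_cast (Finset.le_sup hy).trans hl
  have h4 := mul_le_mul_of_nonneg_right h3 (hb0 x hx)
  have h5 : 0 < a x + k y * b x := hxy
  linarith

/-- homogeneity of the Levi form -/
theorem lev_real_smul {u : Cn n → ℝ} {z : Cn n} (c : ℝ) (v : Cn n) :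
    lev u z ((c : ℂ) • v) = c ^ 2 * lev u z v := by
  simp only [PB_835.lev_bridge, Levi_145.lev]
  have h1 : ((c : ℂ) • v : Cn n) = c • v := by
    ext a
    simp
  have h2 : (I • ((c : ℂ) • v) : Cn n) = c • (I • v) := by
    rw [h1, smul_comm]
  rw [h2, h1]
  simp only [map_smul, _root_.smul_apply, smul_eq_mul]
  ring

section Main

variable {L H' : LB A} {H : LB B}

theorem lev_mul_pow {L₁ L₂ : LB A} (h : HM L₁) (g : HM L₂) (k : ℕ) (i : A.ι) {z : Cn n}
    (hz : z ∈ (A.e i).target) (v : Cn n) :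
    lev ((HM_333.mul h (HM_333.pow g k)).wt i) z v =
      lev (h.wt i) z v + k * lev (g.wt i) z v := by
  have e : (HM_333.mul h (HM_333.pow g k)).wt i =ᶠ[𝓝 z] fun y => h.wt i y + k * g.wt i y := by
    filter_upwards [(A.e i).open_target.mem_nhds hz] with y hy
    rw [HM_333.wt_mul h _ i hy, HM_333.wt_pow]
  have c1 : ContDiffAt ℝ 2 (h.wt i) z := ((HM_333.wt_smooth h i).contDiffAt
    ((A.e i).open_target.mem_nhds hz)).of_le (by norm_cast)
  have c2 : ContDiffAt ℝ 2 (g.wt i) z := ((HM_333.wt_smooth g i).contDiffAt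
    ((A.e i).open_target.mem_nhds hz)).of_le (by norm_cast)
  rw [PB_835.lev_congr' e, PB_835.lev_bridge, Levi_145.lev_add c1 (contDiffAt_const.mul c2),
    Levi_145.lev_const_mul (k : ℝ) c2, PB_835.lev_bridge, PB_835.lev_bridge]
  ring

/-- **positivity along `p` + a positive bundle on the base**, at the points of a compact set -/
theorem pos_of_ker_compact [T2Space M] (hp : HolMap A B p) (T : PB_835.PB p H' H) (h : HM L)
    {hH : HM H} (hpos : hH.Pos) {K : Set M} (hK : IsCompact K) (hk : PosKOn B p h K) :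
    ∃ m₀ : ℕ, ∀ k : ℕ, m₀ ≤ k → ∀ x ∈ K,
      PosAt (HM_333.mul h (HM_333.pow (T.pullHM hp hH) k)) x := by
  classical
  have hsemi : hH.Semipos := by
    intro i z hz v
    rcases eq_or_ne v 0 with rfl | hv
    · rw [PB_835.lev_bridge, Levi_145.lev_zero, mul_zero]
    · exact (hpos i z hz v hv).le
  -- local statement
  have hloc : ∀ x ∈ K, ∃ m₀ : ℕ, ∀ᶠ y in 𝓝[K] x, ∀ k : ℕ, m₀ ≤ k →
      PosAt (HM_333.mul h (HM_333.pow (T.pullHM hp hH) k)) y := by
    intro x hx
    obtain ⟨i, hi⟩ := A.cover x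
    have hz0 : A.e i x ∈ (A.e i).target := (A.e i).map_source hi
    obtain ⟨r, hr, hball⟩ := Metric.nhds_basis_closedBall.mem_iff.1
      ((A.e i).open_target.mem_nhds hz0)
    set C : Set (Cn n) := Metric.closedBall (A.e i x) r ∩ (A.e i).symm ⁻¹' K with hC
    have hCc : IsCompact C := by
      have h1 : ContinuousOn (A.e i).symm (Metric.closedBall (A.e i x) r) :=
        (A.e i).continuousOn_symm.mono hball
      exact (isCompact_closedBall (A.e i x) r).of_isClosed_subset
        (h1.preimage_isClosed_of_isClosed Metric.isClosed_closedBall hK.isClosed) inter_subset_left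
    have hCt : C ⊆ (A.e i).target := fun z hz => hball hz.1
    set S : Set (Cn n) := Metric.sphere 0 1 with hS
    have hSc : IsCompact S := isCompact_sphere 0 1
    have ho := (A.e i).open_target
    have ca := lev_continuousOn ho (HM_333.wt_smooth h i)
    have cb := lev_continuousOn ho (HM_333.wt_smooth (T.pullHM hp hH) i)
    have hsub : C ×ˢ S ⊆ (A.e i).target ×ˢ (univ : Set (Cn n)) :=
      fun q hq => ⟨hCt hq.1, mem_univ _⟩
    obtain ⟨m₀, hm₀⟩ := exists_large (hCc.prod hSc) (ca.mono hsub) (cb.mono hsub)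
      (fun q hq => T.pullHM_semipos hp hsemi i q.1 (hCt hq.1) q.2)
      (by
        intro q hq h0
        have hv : q.2 ≠ 0 := by
          intro h1
          have h2 : ‖q.2‖ = 1 := by simpa [hS] using hq.2
          rw [h1, norm_zero] at h2
          exact zero_ne_one h2
        refine hk i q.1 (hCt hq.1) hq.1.2 q.2 hv fun j hj => ?_
        by_contra hne
        have h3 := T.pullHM_lev hp hH hj q.2
        rw [h0] at h3
        have h4 := hpos j _ ((B.e j).map_source hj.2) _ hne
        simp only [rd] at h3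
        exact absurd h3 h4.ne)
    refine ⟨m₀, ?_⟩
    have hev : ∀ᶠ y in 𝓝[K] x, y ∈ (A.e i).source ∧ A.e i y ∈ Metric.closedBall (A.e i x) r := by
      refine nhdsWithin_le_nhds ?_
      filter_upwards [(A.e i).open_source.mem_nhds hi,
        (A.e i).continuousAt hi (Metric.closedBall_mem_nhds _ hr)] with y h1 h2 using ⟨h1, h2⟩
    filter_upwards [hev, self_mem_nhdsWithin] with y hy hyK
    intro k hk'
    refine posAt_of hy.1 fun v hv => ?_
    have hyt : A.e i y ∈ (A.e i).target := (A.e i).map_source hy.1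
    rw [lev_mul_pow h _ k i hyt v]
    have hvn : (0 : ℝ) < ‖v‖ := norm_pos_iff.2 hv
    have hmem : ((A.e i y, ((‖v‖⁻¹ : ℝ) : ℂ) • v) : Cn n × Cn n) ∈ C ×ˢ S := by
      refine ⟨⟨hy.2, ?_⟩, ?_⟩
      · show (A.e i).symm (A.e i y) ∈ K
        rw [(A.e i).left_inv hy.1]
        exact hyK
      · show _ ∈ Metric.sphere (0 : Cn n) 1
        rw [mem_sphere_zero_iff_norm, norm_smul, Complex.norm_real, norm_inv, norm_norm,
          inv_mul_cancel₀ hvn.ne']
    have h5 := hm₀ k hk' _ hmem
    simp only [lev_real_smul] at h5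
    have h6 : (0 : ℝ) < (‖v‖⁻¹) ^ 2 := by positivity
    have h7 : ‖v‖⁻¹ ^ 2 * lev (h.wt i) (A.e i y) v +
        k * (‖v‖⁻¹ ^ 2 * lev ((T.pullHM hp hH).wt i) (A.e i y) v) =
        ‖v‖⁻¹ ^ 2 * (lev (h.wt i) (A.e i y) v +
          k * lev ((T.pullHM hp hH).wt i) (A.e i y) v) := by ring
    rw [h7] at h5
    exact (mul_pos_iff_of_pos_left h6).1 h5
  choose! k₀ hk₀ using hloc
  obtain ⟨t, ht, htK⟩ := hK.elim_nhdsWithin_subcover
    (fun x => {y | ∀ k : ℕ, k₀ x ≤ k → PosAt (HM_333.mul h (HM_333.pow (T.pullHM hp hH) k)) y})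
    (fun x hx => hk₀ x hx)
  refine ⟨t.sup k₀, fun l hl x hx => ?_⟩
  obtain ⟨y, hy, hxy⟩ := mem_iUnion₂.1 (htK hx)
  exact hxy l ((Finset.le_sup hy).trans hl)

/-- **positivity along `p` + a positive bundle on the base**, `M` compact -/
theorem pos_of_ker [T2Space M] [CompactSpace M] (hp : HolMap A B p) (T : PB_835.PB p H' H)
    (h : HM L) {hH : HM H} (hpos : hH.Pos) (hk : PosKOn B p h univ) :
    ∃ m₀ : ℕ, ∀ k : ℕ, m₀ ≤ k → (HM_333.mul h (HM_333.pow (T.pullHM hp hH) k)).Pos := by
  obtain ⟨m₀, hm⟩ := pos_of_ker_compact hp T h hpos isCompact_univ hk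
  exact ⟨m₀, fun k hk => pos_iff.2 fun x => hm k hk x (mem_univ x)⟩

/-- **POS-GLUE**: local metrics over the base, positive along `p`, and a positive bundle on the
base ⟹ all `P * (p^* H)^k`, `k ≥ m₀`, are positive -/
theorem glue_pos [T2Space M] [CompactSpace M] [T2Space N] [CompactSpace N] (hp : HolMap A B p)
    (T : PB_835.PB p H' H) {hH : HM H} (hpos : hH.Pos) {ι : Type*} (V : ι → Set N)
    (hVo : ∀ a, IsOpen (V a)) (hVc : ∀ y, ∃ a, y ∈ V a)
    (h : ∀ a, HMo L (p ⁻¹' V a)) (hk : ∀ a, (h a).PosK B p) :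
    ∃ m₀ : ℕ, ∀ k : ℕ, m₀ ≤ k → ∃ g : HM (L * H' ^ k), g.Pos := by
  obtain ⟨h₀, hh₀⟩ := glue hp V hVo hVc h hk
  obtain ⟨m₀, hm⟩ := pos_of_ker hp T h₀ hpos hh₀
  exact ⟨m₀, fun k hk => ⟨_, hm k hk⟩⟩

end Main

end

end Crest.Agent.R272.PosGlue_232
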