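import Crest.Agent.R272.Pr1_414
import Crest.Agent.R273.Kah_333
import Crest.Agent.R272.DCov7_426
import Crest.Agent.R272.Blup7_102

-- ▼ part R272/Pr2_414
section

/-!
# R272, leaf S14-PROD (helper414), part 2: metrics and the Segre embedding of a product

* `extHM h h'` : metric of `L ⊠ L'`, `extHM_pos` : positive if both are;
* `segre P Q : ProjD (A.prod B)`.
-/

set_option autoImplicit false
set_option linter.unusedSectionVars false

open Set Filter Topology Complex
open scoped ContDiff Matrix ComplexConjugate Manifold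

namespace Crest.Agent.R272.Pr_414

open Crest.Agent.R275.Geo Crest.Agent.R275.Core144 Crest.Agent.R275.GC293 Crest.Agent.R275.Prod363
open Crest.Agent.R273.Defs_333 Crest.Agent.R273.Map_835 Crest.Agent.R273.PB_835
open Crest.Agent.R273.HM_333 Crest.Agent.R273.Kah_333

noncomputable section

variable {n m : ℕ} {M N : Type} [TopologicalSpace M] [TopologicalSpace N]
  {A : Atl n M} {B : Atl m N}

/-- the metric of `L ⊠ L'` -/
def extHM {L : LB A} {L' : LB B} (h : HM L) (h' : HM L') : HM (ext L L') :=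
  mul ((PB.ref (fst A B) (rfst A B) L).pullHM (fst A B) h)
    ((PB.ref (snd A B) (rsnd A B) L').pullHM (snd A B) h')


theorem rd_fst (i : A.ι) (j : B.ι) {z : Cn (n + m)} (hz : z ∈ ((A.prod B).e (i, j)).target) :
    rd (A.prod B) A Prod.fst (i, j) i z = fstL n m z := (A.e i).right_inv hz.1

theorem rd_snd (i : A.ι) (j : B.ι) {z : Cn (n + m)} (hz : z ∈ ((A.prod B).e (i, j)).target) :
    rd (A.prod B) B Prod.snd (i, j) j z = sndL n m z := (B.e j).right_inv hz.2

theorem fderiv_rd_fst (i : A.ι) (j : B.ι) {z : Cn (n + m)}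
    (hz : z ∈ ((A.prod B).e (i, j)).target) :
    fderiv ℂ (rd (A.prod B) A Prod.fst (i, j) i) z = fstL n m := by
  have h1 : rd (A.prod B) A Prod.fst (i, j) i =ᶠ[𝓝 z] fstL n m := by
    filter_upwards [((A.prod B).e (i, j)).open_target.mem_nhds hz] with w hw
    exact rd_fst i j hw
  rw [h1.fderiv_eq, ContinuousLinearMap.fderiv]

theorem fderiv_rd_snd (i : A.ι) (j : B.ι) {z : Cn (n + m)}
    (hz : z ∈ ((A.prod B).e (i, j)).target) :
    fderiv ℂ (rd (A.prod B) B Prod.snd (i, j) j) z = sndL n m := by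
  have h1 : rd (A.prod B) B Prod.snd (i, j) j =ᶠ[𝓝 z] sndL n m := by
    filter_upwards [((A.prod B).e (i, j)).open_target.mem_nhds hz] with w hw
    exact rd_snd i j hw
  rw [h1.fderiv_eq, ContinuousLinearMap.fderiv]

theorem lev_zero' (u : Cn n → ℝ) (z : Cn n) : Crest.Agent.R273.Defs_333.lev u z 0 = 0 := by
  rw [lev_bridge, Crest.Agent.R273.Levi_145.lev_zero, mul_zero]

theorem lev_extHM {L : LB A} {L' : LB B} (h : HM L) (h' : HM L') (i : A.ι) (j : B.ι)
    {z : Cn (n + m)} (hz : z ∈ ((A.prod B).e (i, j)).target) (v : Cn (n + m)) :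
    Crest.Agent.R273.Defs_333.lev ((extHM h h').wt (i, j)) z v =
      Crest.Agent.R273.Defs_333.lev (h.wt i) (fstL n m z) (fstL n m v) +
        Crest.Agent.R273.Defs_333.lev (h'.wt j) (sndL n m z) (sndL n m v) := by
  set h1 := (PB.ref (fst A B) (rfst A B) L).pullHM (fst A B) h with hh1
  set h2 := (PB.ref (snd A B) (rsnd A B) L').pullHM (snd A B) h' with hh2
  have e : (extHM h h').wt (i, j) =ᶠ[𝓝 z] fun y => h1.wt (i, j) y + h2.wt (i, j) y := by
    filter_upwards [((A.prod B).e (i, j)).open_target.mem_nhds hz] with y hy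
    exact wt_mul h1 h2 (i, j) hy
  have c1 : ContDiffAt ℝ 2 (h1.wt (i, j)) z := (wt_contDiffAt h1 (i, j) hz).of_le (by norm_cast)
  have c2 : ContDiffAt ℝ 2 (h2.wt (i, j)) z := (wt_contDiffAt h2 (i, j) hz).of_le (by norm_cast)
  rw [lev_congr' e, lev_bridge, Crest.Agent.R273.Levi_145.lev_add c1 c2, mul_add, ← lev_bridge,
    ← lev_bridge, hh1, hh2,
    (PB.ref (fst A B) (rfst A B) L).pullHM_lev (fst A B) h (i := (i, j)) (j := i)
      ⟨hz, (A.e i).map_target hz.1⟩,
    (PB.ref (snd A B) (rsnd A B) L').pullHM_lev (snd A B) h' (i := (i, j)) (j := j)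
      ⟨hz, (B.e j).map_target hz.2⟩, rd_fst i j hz, rd_snd i j hz, fderiv_rd_fst i j hz,
    fderiv_rd_snd i j hz]

/-- **`L ⊠ L'` is positive if `L` and `L'` are** -/
theorem extHM_pos {L : LB A} {L' : LB B} {h : HM L} {h' : HM L'} (hp : h.Pos) (hp' : h'.Pos) :
    (extHM h h').Pos := by
  rintro ⟨i, j⟩ z hz v hv
  rw [lev_extHM h h' i j hz]
  have p1 := hp i (fstL n m z) hz.1
  have p2 := hp' j (sndL n m z) hz.2
  have q1 : 0 ≤ Crest.Agent.R273.Defs_333.lev (h.wt i) (fstL n m z) (fstL n m v) := by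
    by_cases h0 : fstL n m v = 0
    · rw [h0, lev_zero']
    · exact (p1 _ h0).le
  have q2 : 0 ≤ Crest.Agent.R273.Defs_333.lev (h'.wt j) (sndL n m z) (sndL n m v) := by
    by_cases h0 : sndL n m v = 0
    · rw [h0, lev_zero']
    · exact (p2 _ h0).le
  by_cases h0 : fstL n m v = 0
  · have h1 : sndL n m v ≠ 0 := fun h1 => hv (by rw [eq_app v, h0, h1]; exact app_eq_zero.2 ⟨rfl, rfl⟩)
    linarith [p2 _ h1]
  · linarith [p1 _ h0]

/-! ### the Segre embedding -/

/-- index set of the Segre embedding -/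
def sgE (a b : ℕ) : Fin (a * b + a + b + 1) ≃ Fin (a + 1) × Fin (b + 1) :=
  (finCongr (by ring)).trans finProdFinEquiv.symm

/-- tensor product of vectors -/
def sg {a b : ℕ} (u : Fin (a + 1) → ℂ) (v : Fin (b + 1) → ℂ) : Fin (a * b + a + b + 1) → ℂ :=
  fun k => u (sgE a b k).1 * v (sgE a b k).2









end

end Crest.Agent.R272.Pr_414
end

-- ▼ part R272/NPos_102

/-!
# R272 (S0414), helper102: positivity on a product of two covers, and on its double blow-up

* `npos`  : `D₁`, `D₂` covers (426's DCOV) of compact manifolds with positive bundles ⟹ a positive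
            bundle on `D₁.X × D₂.X` (any compatible atlases with `Ref`);
* `npos_atlX` : the canonical atlases;
* `bl_pos`, `bl_pos2` : one blow-up, two blow-ups: a positive bundle stays.
-/

set_option autoImplicit false
set_option linter.unusedSectionVars false

open Set Filter Topology Complex

namespace Crest.Agent.R272.NPos_102

open Crest.Agent.R275.Geo Crest.Agent.R275.Core144 Crest.Agent.R273.Defs_333
open Crest.Agent.R273.Map_835 Crest.Agent.R273.PB_835 Crest.Agent.R273.Fam_835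
open Crest.Agent.R272.DCov_426 Crest.Agent.R272.Pr_414
open Crest.Agent.R272.Blup1_102

noncomputable section

/-- positive bundle on the product of two covers -/
theorem npos {n m : ℕ} {M N : Type} [TopologicalSpace M] [TopologicalSpace N]
    [CompactSpace M] [T2Space M] [CompactSpace N] [T2Space N]
    {A : Atl n M} {B : Atl m N} {ρ ρ' : Type} [Fintype ρ] [Fintype ρ']
    (D : Data A ρ) (D' : Data B ρ') {A' : Atl n D.X} {B' : Atl m D'.X}
    (hc : Cmp D.famX A') (R : Ref A' A D.p) (hc' : Cmp D'.famX B') (R' : Ref B' B D'.p)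
    {H : LB A} {h : HM H} (hp : h.Pos) {H' : LB B} {h' : HM H'} (hp' : h'.Pos) :
    ∃ (L : LB (A'.prod B')) (g : HM L), g.Pos := by
  obtain ⟨m0, h1⟩ := D.exists_pos' hc hp (PB.ref (D.holMap_p hc) R H)
  obtain ⟨m1, h2⟩ := D'.exists_pos' hc' hp' (PB.ref (D'.holMap_p hc') R' H')
  obtain ⟨g1, hg1⟩ := h1 m0 le_rfl
  obtain ⟨g2, hg2⟩ := h2 m1 le_rfl
  exact ⟨_, extHM g1 g2, extHM_pos hg1 hg2⟩

theorem npos_atlX {n m : ℕ} {M N : Type} [TopologicalSpace M] [TopologicalSpace N]
    [CompactSpace M] [T2Space M] [CompactSpace N] [T2Space N]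
    {A : Atl n M} {B : Atl m N} {ρ ρ' : Type} [Fintype ρ] [Fintype ρ']
    (D : Data A ρ) (D' : Data B ρ') {H : LB A} {h : HM H} (hp : h.Pos)
    {H' : LB B} {h' : HM H'} (hp' : h'.Pos) :
    ∃ (L : LB (D.atlX.prod D'.atlX)) (g : HM L), g.Pos :=
  npos D D' D.cmp_atlX D.refX D'.cmp_atlX D'.refX hp hp'

/-- a positive bundle on the base gives one on the blow-up -/
theorem bl_pos {n : ℕ} [NeZero n] {M : Type} [TopologicalSpace M] [T2Space M] [CompactSpace M]
    {A : Atl n M} (C : Ctr A) (h : ∃ (L : LB A) (g : HM L), g.Pos) :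
    ∃ (L : LB C.atl) (g : HM L), g.Pos := by
  obtain ⟨L, g, hg⟩ := h
  obtain ⟨m0, h1⟩ := C.blup_pos hg
  obtain ⟨g', hg'⟩ := h1 m0 le_rfl
  exact ⟨_, g', hg'⟩

end

end Crest.Agent.R272.NPos_102
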