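import Crest.Agent.R272.Cv14_414
import Crest.Agent.R272.Nl3_595
import Crest.Agent.R272.Gm3_235

/-!
# R272, S14 end game (helper235): the last step of S0414

`NearX` : the data near the four curves with base points `z0`, `w0` (no disc in it); `NearX.nearD`;
`ArcsX` : the four paths; `s14_last` : S0414 from 595's model `M : NLoc k`, 414's `Discs`, `Sq14`, `CurvesOn`,
the slope dichotomy `SlD`, `NearX` and `ArcsX`.
-/

set_option autoImplicit false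
set_option linter.unusedSectionVars false

open Metric Set Filter Topology Function
open scoped Classical unitInterval

namespace Crest.Agent.R272.As1_235

open Crest.Agent.R275.Geo Crest.Agent.R275.Core144 Crest.Agent.R273.Map_835
open Crest.Agent.R273.Fam_835 Crest.Agent.R272.Quot_783 Crest.Agent.R272.Root_83
open Crest.Agent.R272.LbExt_259 Crest.Agent.R272.K3E_227 Crest.Agent.R272.UnB_894
open Crest.Agent.R272.Wall4_275 Crest.Agent.R272.Gm1_235 Crest.Agent.R272.Gm2_235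
open Crest.Agent.R272.Gm3_235 Dt14_414 Top14_414 G14a_414 Nl_595

noncomputable section

section gen

variable {X B C : Type} [TopologicalSpace X] [TopologicalSpace B] [TopologicalSpace C] {n : ℕ}

/-- the four functions near `Z`, base points `z0`, `w0` -/
structure NearX (CX : Fam n X) (AB : Atl 1 B) (AC : Atl 1 C) (h g : B → C) (z0 : B) (w0 : C)
    (π1 : X → B) (π2 : X → C) (f1 : B → ℂ) (f2 : C → ℂ) (γ0 : ℂ) (Z : Set X)
    (S T0 RM RN : X → ℂ) : Prop where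
  lc1 : UnB_894.LC AB z0 f1
  lc2 : UnB_894.LC AC w0 f2
  f1z : f1 z0 = 0
  f2w : f2 w0 = 0
  ne : γ0 ≠ 0
  he : ∃ e : B → ℂ, HG (fam AB) z0 e ∧ e z0 = γ0 ^ 2 ∧ ∀ᶠ z in 𝓝 z0, f2 (g z) = f1 z * e z
  hZ1 : ∀ x ∈ Z, π1 x = z0
  hZ2 : ∀ x ∈ Z, π2 x = w0
  hS : ∀ x ∈ Z, HG CX x S
  hT : ∀ x ∈ Z, HG CX x T0
  hM : ∀ x ∈ Z, HG CX x RM
  hN : ∀ x ∈ Z, HG CX x RN
  sS : ∀ x ∈ Z, ∀ᶠ z in 𝓝 x, S z ^ 2 = f2 (π2 z)
  sT : ∀ x ∈ Z, ∀ᶠ z in 𝓝 x, T0 z ^ 2 = f1 (π1 z)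
  sM : ∀ x ∈ Z, ∀ᶠ z in 𝓝 x, RM z ^ 2 = f2 (π2 z) - f2 (h (π1 z))
  sN : ∀ x ∈ Z, ∀ᶠ z in 𝓝 x, RN z ^ 2 = f2 (π2 z) - f2 (g (π1 z))

variable {CX : Fam n X} {AB : Atl 1 B} {AC : Atl 1 C} {h g : B → C} {z0 : B} {w0 : C}
  {π1 : X → B} {π2 : X → C} {f1 : B → ℂ} {f2 : C → ℂ} {γ0 : ℂ} {Z : Set X} {S T0 RM RN : X → ℂ}


/-- the four paths -/
def ArcsX (γ0 : ℂ) (S T0 RM RN : X → ℂ) (Z : Set X) : Prop :=
  ∃ (z₀ z₁ z₂ z₃ : Z) (k₁ : Path z₀ z₁) (r₁ : Path z₁ z₂) (k₂ : Path z₂ z₃) (r₂ : Path z₃ z₀),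
    ArcX γ0 S T0 RM RN k₁ ∧ ArcX γ0 S T0 RM RN k₂ ∧ (∀ t, Rat T0 S (r₁ t : X) 0) ∧
      ∀ t, Rat T0 S (r₂ t : X) 0


end gen

section main

variable {B C : Type} [TopologicalSpace B] [TopologicalSpace C] {AB : Atl 1 B} {AC : Atl 1 C}
  {h g : B → C} {z0 : B} {w0 : C} {k : ℂ} (M : NLoc k)


end main

end

end Crest.Agent.R272.As1_235
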