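import Crest.Agent.R272.Refl3_246
import Crest.Agent.R272.IdnDefs_834

-- ▼ part R272/Idn1_834
section

/-!
# R272, leaf IDENT (helper834), part 1: identification of an open set of a quotient `G \ Y`
(`G` acts near the set through one reflection `s`) with an open set of a model manifold `U`.

`Psi : Y → U` is holomorphic and `s`-invariant on the open set `O`, its fibres on `O` are the
`s`-orbits, and at every point of `O` it is a local biholomorphism (`LocFree`) or a fold along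
the reflection (`LocFold`).  Then `exists_ident` : an open partial homeomorphism
`e : G \ Y → U` with source `pr '' O`, target `Psi '' O`, `e (pr u) = Psi u`, holomorphic in
both directions for the charts of `qFam`.
-/

set_option autoImplicit false
set_option linter.unusedSectionVars false

open Set Filter Topology
open scoped ContDiff

namespace Crest.Agent.R272.Idn_834

open Crest.Agent.R275.Geo Crest.Agent.R273.Fam_835 Crest.Agent.R272.Refl_246

noncomputable section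

variable {n : ℕ} {Y : Type} [TopologicalSpace Y] {C : Fam n Y} {G : Type} [Group G]
  [MulAction G Y] {U : Type} [TopologicalSpace U] {D : Fam n U}

/-- `Psi` is a local biholomorphism at `u` -/
def LocFree (C : Fam n Y) (D : Fam n U) (Psi : Y → U) (u : Y) : Prop :=
  ∃ (φ : OpenPartialHomeomorph Y (Cn n)) (_ : Cpt C φ) (k : D.ι) (f' : Cn n ≃L[ℂ] Cn n),
    u ∈ φ.source ∧ Psi u ∈ (D.e k).source ∧
    HasStrictFDerivAt (fun z => D.e k (Psi (φ.symm z))) (f' : Cn n →L[ℂ] Cn n) (φ u)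

/-- `Psi` is a fold at `u` along the reflection `s` -/
def LocFold (C : Fam n Y) (D : Fam n U) (s : G) (Psi : Y → U) (u : Y) : Prop :=
  ∃ (c : RC G C) (a : Fin n) (k : D.ι) (F : Cn n → Cn n) (f' : Cn n ≃L[ℂ] Cn n),
    c.k = some (s, a) ∧ u ∈ c.e.source ∧ Psi u ∈ (D.e k).source ∧
    HasStrictFDerivAt F (f' : Cn n →L[ℂ] Cn n) (sq a (c.e u)) ∧
    ∀ᶠ y in 𝓝 u, D.e k (Psi y) = F (sq a (c.e y))

/-- `D.e k ∘ Psi` is holomorphic at `u` in the charts of `C` -/
def DiffU (C : Fam n Y) (D : Fam n U) (Psi : Y → U) (u : Y) : Prop :=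
  ∃ i k, u ∈ (C.e i).source ∧ Psi u ∈ (D.e k).source ∧
    DifferentiableAt ℂ (fun z => D.e k (Psi ((C.e i).symm z))) (C.e i u)

theorem diffU_of_cpt {Psi : Y → U} {u : Y} {φ : OpenPartialHomeomorph Y (Cn n)} (hφ : Cpt C φ)
    (hu : u ∈ φ.source) {k : D.ι} (hk : Psi u ∈ (D.e k).source)
    (hd : DifferentiableAt ℂ (fun z => D.e k (Psi (φ.symm z))) (φ u)) : DiffU C D Psi u := by
  obtain ⟨i, hi⟩ := C.cover u
  refine ⟨i, k, hi, hk, ?_⟩
  have h1 : DifferentiableAt ℂ (fun z => φ ((C.e i).symm z)) (C.e i u) :=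
    (hφ.holi i).differentiableAt (((C.e i).isOpen_inter_preimage_symm φ.open_source).mem_nhds
      ⟨(C.e i).map_source hi, by rw [mem_preimage, (C.e i).left_inv hi]; exact hu⟩)
  have h2 : DifferentiableAt ℂ (fun z => D.e k (Psi (φ.symm z)))
      (φ ((C.e i).symm (C.e i u))) := by
    rw [(C.e i).left_inv hi]; exact hd
  have h3 := DifferentiableAt.comp (C.e i u) (g := fun z => D.e k (Psi (φ.symm z))) h2 h1
  refine h3.congr_of_eventuallyEq ?_
  have h4 : ∀ᶠ z in 𝓝 (C.e i u), (C.e i).symm z ∈ φ.source := by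
    refine ((C.e i).continuousAt_symm ((C.e i).map_source hi)).preimage_mem_nhds ?_
    rw [(C.e i).left_inv hi]
    exact φ.open_source.mem_nhds hu
  filter_upwards [h4] with z hz
  simp only [Function.comp]
  rw [φ.left_inv hz]

theorem LocFree.diffU {Psi : Y → U} {u : Y} (h : LocFree C D Psi u) : DiffU C D Psi u := by
  obtain ⟨φ, hφ, k, f', hu, hk, hf⟩ := h
  exact diffU_of_cpt hφ hu hk hf.hasFDerivAt.differentiableAt

theorem LocFold.diffU {s : G} {Psi : Y → U} {u : Y} (h : LocFold C D s Psi u) :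
    DiffU C D Psi u := by
  obtain ⟨c, a, k, F, f', hck, hcu, hk, hF, hev⟩ := h
  refine diffU_of_cpt (φ := c.e) ⟨c.hol, c.holi⟩ hcu hk ?_
  have h1 : DifferentiableAt ℂ (F ∘ sq a) (c.e u) :=
    DifferentiableAt.comp _ hF.hasFDerivAt.differentiableAt (differentiable_sq a _)
  refine h1.congr_of_eventuallyEq ?_
  have h2 : Tendsto c.e.symm (𝓝 (c.e u)) (𝓝 u) := by
    have := (c.e.continuousAt_symm (c.e.map_source hcu)).tendsto
    rwa [c.e.left_inv hcu] at this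
  filter_upwards [h2.eventually hev, c.e.open_target.mem_nhds (c.e.map_source hcu)] with z hz hz2
  rw [hz, c.e.right_inv hz2]
  rfl

variable [ContinuousConstSMul G Y] [Nonempty Y]

/-- the common local statement -/
def Loc (G : Type) [Group G] [MulAction G Y] [ContinuousConstSMul G Y] (C : Fam n Y) (D : Fam n U)
    (Psi : Y → U) (u : Y) : Prop :=
  ∃ σ : U → Orb G Y, (∀ V ∈ 𝓝 u, ∀ᶠ v in 𝓝 (Psi u), ∃ y ∈ V, Psi y = v ∧ pr G y = σ v) ∧
    ∃ (k : D.ι) (c : RC G C), Psi u ∈ (D.e k).source ∧ u ∈ c.e.source ∧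
      DifferentiableAt ℂ (fun w => c.eM (σ ((D.e k).symm w))) (D.e k (Psi u))

theorem LocFree.loc (hG : ∀ g : G, HolC C C (fun y => g • y))
    (hcov : ∀ y : Y, ∃ c : RC G C, y ∈ c.e.source) {Psi : Y → U} {u : Y}
    (hc : ∀ᶠ y in 𝓝 u, ContinuousAt Psi y) (h : LocFree C D Psi u) : Loc G C D Psi u := by
  obtain ⟨φ, hφ, k, f', hi, hk, hf⟩ := h
  obtain ⟨c, hcu⟩ := hcov u
  set f : Cn n → Cn n := fun z => D.e k (Psi (φ.symm z)) with hfdef
  set g : Cn n → Cn n := hf.localInverse f f' (φ u) with hgdef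
  have hfu : f (φ u) = D.e k (Psi u) := by
    simp only [hfdef, φ.left_inv hi]
  have hg0 : g (D.e k (Psi u)) = φ u := by
    rw [← hfu]
    exact hf.localInverse_apply_image
  have hg1 : ∀ᶠ w in 𝓝 (D.e k (Psi u)), f (g w) = w := by
    rw [← hfu]
    exact hf.eventually_right_inverse
  have hg2 : HasStrictFDerivAt g (f'.symm : Cn n →L[ℂ] Cn n) (D.e k (Psi u)) := by
    rw [← hfu]
    exact hf.to_localInverse
  have hgc : ContinuousAt g (D.e k (Psi u)) := hg2.continuousAt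
  refine ⟨fun v => pr G (φ.symm (g (D.e k v))), ?_, k, c, hk, hcu, ?_⟩
  · intro V hV
    have hek : ContinuousAt (D.e k) (Psi u) := (D.e k).continuousAt hk
    have h1 : Tendsto (fun v => φ.symm (g (D.e k v))) (𝓝 (Psi u)) (𝓝 u) := by
      have h2 : ContinuousAt (fun v => g (D.e k v)) (Psi u) :=
        ContinuousAt.comp (f := D.e k) (g := g) hgc hek
      have h3 : ContinuousAt (fun v => φ.symm (g (D.e k v))) (Psi u) := by
        refine ContinuousAt.comp (f := fun v => g (D.e k v)) (g := φ.symm) ?_ h2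
        rw [hg0]
        exact φ.continuousAt_symm (φ.map_source hi)
      have h4 := h3.tendsto
      simp only [hg0, φ.left_inv hi] at h4
      exact h4
    have h5 : ∀ᶠ y in 𝓝 u, Psi y ∈ (D.e k).source :=
      hc.self_of_nhds.preimage_mem_nhds ((D.e k).open_source.mem_nhds hk)
    filter_upwards [h1 hV, h1.eventually h5, hek.eventually hg1,
      (D.e k).open_source.mem_nhds hk] with v hv1 hv2 hv3 hv4
    refine ⟨_, hv1, ?_, rfl⟩
    exact (D.e k).injOn hv2 hv4 hv3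
  · -- holomorphy
    have h1 : DifferentiableAt ℂ (fun z => c.eM (pr G (φ.symm z))) (g (D.e k (Psi u))) := by
      rw [hg0]
      obtain ⟨i, hci⟩ := C.cover u
      have h2 : DifferentiableAt ℂ (fun z => c.eM (pr G ((C.e i).symm z))) (C.e i u) :=
        (holC_pi hG hcov).diffAt (i := i) (j := c) ((C.e i).map_source hci)
          (by rw [(C.e i).left_inv hci]; exact c.mem_eM_source hcu)
      have h3 : DifferentiableAt ℂ (fun z => C.e i (φ.symm z)) (φ u) :=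
        (hφ.hol i).differentiableAt ((φ.isOpen_inter_preimage_symm (C.e i).open_source).mem_nhds
          ⟨φ.map_source hi, by rw [mem_preimage, φ.left_inv hi]; exact hci⟩)
      have h4 : DifferentiableAt ℂ (fun z => c.eM (pr G ((C.e i).symm z)))
          (C.e i (φ.symm (φ u))) := by
        rw [φ.left_inv hi]; exact h2
      have h5 := DifferentiableAt.comp (φ u) (g := fun z => c.eM (pr G ((C.e i).symm z))) h4 h3
      refine h5.congr_of_eventuallyEq ?_
      have h6 : ∀ᶠ z in 𝓝 (φ u), φ.symm z ∈ (C.e i).source := by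
        refine (φ.continuousAt_symm (φ.map_source hi)).preimage_mem_nhds ?_
        rw [φ.left_inv hi]
        exact (C.e i).open_source.mem_nhds hci
      filter_upwards [h6] with z hz
      simp only [Function.comp]
      rw [(C.e i).left_inv hz]
    have h2 : DifferentiableAt ℂ ((fun z => c.eM (pr G (φ.symm z))) ∘ g) (D.e k (Psi u)) :=
      DifferentiableAt.comp _ h1 hg2.hasFDerivAt.differentiableAt
    refine h2.congr_of_eventuallyEq ?_
    filter_upwards [(D.e k).open_target.mem_nhds ((D.e k).map_source hk)] with w hw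
    simp only [Function.comp, (D.e k).right_inv hw]

theorem LocFold.loc {s : G} {Psi : Y → U} {u : Y}
    (hc : ∀ᶠ y in 𝓝 u, ContinuousAt Psi y) (h : LocFold C D s Psi u) : Loc G C D Psi u := by
  obtain ⟨c, a, k, F, f', hck, hcu, hk, hF, hev⟩ := h
  set g : Cn n → Cn n := hF.localInverse F f' (sq a (c.e u)) with hgdef
  have hFu : F (sq a (c.e u)) = D.e k (Psi u) := hev.self_of_nhds.symm
  have hg0 : g (D.e k (Psi u)) = sq a (c.e u) := by
    rw [← hFu]
    exact hF.localInverse_apply_image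
  have hg1 : ∀ᶠ w in 𝓝 (D.e k (Psi u)), F (g w) = w := by
    rw [← hFu]
    exact hF.eventually_right_inverse
  have hg2 : HasStrictFDerivAt g (f'.symm : Cn n →L[ℂ] Cn n) (D.e k (Psi u)) := by
    rw [← hFu]
    exact hF.to_localInverse
  have hgc : ContinuousAt g (D.e k (Psi u)) := hg2.continuousAt
  have hq : qk c.k = sq a := by rw [hck, qk_some]
  have htar : sq a (c.e u) ∈ c.eM.target := by
    rw [c.eM_target]
    exact ⟨u, hcu, by rw [hq]⟩
  have hsym : c.eM.symm (sq a (c.e u)) = pr G u := by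
    rw [← hq]; exact c.eM_symm hcu
  refine ⟨fun v => c.eM.symm (g (D.e k v)), ?_, k, c, hk, hcu, ?_⟩
  · intro V hV
    have hek : ContinuousAt (D.e k) (Psi u) := (D.e k).continuousAt hk
    have h2 : ContinuousAt (fun v => g (D.e k v)) (Psi u) :=
      ContinuousAt.comp (f := D.e k) (g := g) hgc hek
    have h1 : Tendsto (fun v => c.eM.symm (g (D.e k v))) (𝓝 (Psi u)) (𝓝 (pr G u)) := by
      have h3 : ContinuousAt (fun v => c.eM.symm (g (D.e k v))) (Psi u) := by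
        refine ContinuousAt.comp (f := fun v => g (D.e k v)) (g := c.eM.symm) ?_ h2
        rw [hg0]
        exact c.eM.continuousAt_symm htar
      have h4 := h3.tendsto
      simp only [hg0, hsym] at h4
      exact h4
    have h5 : ∀ᶠ y in 𝓝 u, Psi y ∈ (D.e k).source :=
      hc.self_of_nhds.preimage_mem_nhds ((D.e k).open_source.mem_nhds hk)
    have h6 : (V ∩ {y | D.e k (Psi y) = F (sq a (c.e y))} ∩ {y | Psi y ∈ (D.e k).source} ∩
        c.e.source) ∈ 𝓝 u :=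
      inter_mem (inter_mem (inter_mem hV hev) h5) (c.e.open_source.mem_nhds hcu)
    have h7 : pr G '' (V ∩ {y | D.e k (Psi y) = F (sq a (c.e y))} ∩
        {y | Psi y ∈ (D.e k).source} ∩ c.e.source) ∈ 𝓝 (pr G u) :=
      isOpenQuotientMap_pr.isOpenMap.image_mem_nhds h6
    have h8 : ∀ᶠ v in 𝓝 (Psi u), g (D.e k v) ∈ c.eM.target := by
      refine h2.preimage_mem_nhds ?_
      rw [hg0]
      exact c.eM.open_target.mem_nhds htar
    filter_upwards [h1 h7, h8, hek.eventually hg1, (D.e k).open_source.mem_nhds hk]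
      with v hv1 hv2 hv3 hv4
    obtain ⟨y, ⟨⟨⟨hyV, hy1⟩, hy2⟩, hy3⟩, hyv⟩ := hv1
    have h9 : sq a (c.e y) = g (D.e k v) := by
      have h10 := congrArg c.eM hyv
      rw [c.eM.right_inv hv2, c.eM_apply hy3, hq] at h10
      exact h10
    refine ⟨y, hyV, ?_, hyv⟩
    refine (D.e k).injOn hy2 hv4 ?_
    have hy1 : D.e k (Psi y) = F (sq a (c.e y)) := hy1
    rw [hy1, h9, hv3]
  · have h1 : DifferentiableAt ℂ (g) (D.e k (Psi u)) := hg2.hasFDerivAt.differentiableAt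
    refine h1.congr_of_eventuallyEq ?_
    have h8 : ∀ᶠ w in 𝓝 (D.e k (Psi u)), g w ∈ c.eM.target := by
      refine hgc.preimage_mem_nhds ?_
      rw [hg0]
      exact c.eM.open_target.mem_nhds htar
    filter_upwards [(D.e k).open_target.mem_nhds ((D.e k).map_source hk), h8] with w hw hw2
    rw [(D.e k).right_inv hw, c.eM.right_inv hw2]

/-- **identification** -/
theorem exists_ident (hG : ∀ g : G, HolC C C (fun y => g • y))
    (hcov : ∀ y : Y, ∃ c : RC G C, y ∈ c.e.source) [Nonempty U] {O : Set Y} (hO : IsOpen O)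
    {s : G} (hgrp : ∀ g : G, ∀ u ∈ O, g • u ∈ O → g = 1 ∨ g = s)
    {Psi : Y → U} (hc : ContinuousOn Psi O)
    (hfib : ∀ u ∈ O, ∀ v ∈ O, Psi u = Psi v ↔ (v = u ∨ v = s • u))
    (hloc : ∀ u ∈ O, LocFree C D Psi u ∨ LocFold C D s Psi u) :
    ∃ e : OpenPartialHomeomorph (Orb G Y) U, e.source = pr G '' O ∧ e.target = Psi '' O ∧
      (∀ u ∈ O, e (pr G u) = Psi u) ∧
      (∀ (c : RC G C) (k : D.ι), DifferentiableOn ℂ (fun z => D.e k (e (c.eM.symm z)))
        (c.eM.target ∩ c.eM.symm ⁻¹' (e.source ∩ e ⁻¹' (D.e k).source))) ∧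
      (∀ (k : D.ι) (c : RC G C), DifferentiableOn ℂ (fun w => c.eM (e.symm ((D.e k).symm w)))
        ((D.e k).target ∩ (D.e k).symm ⁻¹' (e.target ∩ e.symm ⁻¹' c.eM.source))) := by
  have hhol : ∀ u ∈ O, DiffU C D Psi u := fun u hu => (hloc u hu).elim LocFree.diffU LocFold.diffU
  have hcA : ∀ u ∈ O, ContinuousAt Psi u := fun u hu => hc.continuousAt (hO.mem_nhds hu)
  have hcE : ∀ u ∈ O, ∀ᶠ y in 𝓝 u, ContinuousAt Psi y := fun u hu => by
    filter_upwards [hO.mem_nhds hu] with y hy using hcA y hy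
  have hL : ∀ u ∈ O, Loc G C D Psi u := fun u hu => by
    rcases hloc u hu with h | h
    · exact h.loc hG hcov (hcE u hu)
    · exact h.loc (hcE u hu)
  have hopen : ∀ V, V ⊆ O → IsOpen V → IsOpen (Psi '' V) := by
    intro V hV hVo
    rw [isOpen_iff_mem_nhds]
    rintro _ ⟨u, hu, rfl⟩
    obtain ⟨σ, hσ, -⟩ := hL u (hV hu)
    filter_upwards [hσ V (hVo.mem_nhds hu)] with v hv
    obtain ⟨y, hy, hyv, -⟩ := hv
    exact ⟨y, hy, hyv⟩
  have : Nonempty (Orb G Y) := ⟨pr G (Classical.arbitrary Y)⟩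
  have hiff : ∀ u ∈ O, ∀ v ∈ O, Psi u = Psi v ↔ pr G u = pr G v := by
    intro u hu v hv
    rw [hfib u hu v hv, pr_eq_iff]
    constructor
    · rintro (h | h)
      · exact ⟨1, by rw [one_smul, h]⟩
      · exact ⟨s, h.symm⟩
    · rintro ⟨g, hg⟩
      rcases hgrp g u hu (by rw [hg]; exact hv) with h | h
      · left; rw [← hg, h, one_smul]
      · right; rw [← hg, h]
  obtain ⟨e, he1, he2, he3⟩ := exists_quot_chart (π := pr G) isOpenQuotientMap_pr hO hc
    (fun V hV hVo => hopen V hV hVo) hiff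
  refine ⟨e, he1, he2, he3, ?_, ?_⟩
  · -- forward
    intro c k z hz
    have hVo : IsOpen (e.source ∩ e ⁻¹' (D.e k).source) :=
      e.isOpen_inter_preimage (D.e k).open_source
    refine (c.desc hVo (h := fun m => D.e k (e m)) ?_ (fun u hu huV => ?_) hz.1
      hz.2).differentiableWithinAt
    · exact (D.e k).continuousOn.comp (e.continuousOn.mono inter_subset_left) fun x hx => hx.2
    · -- choose a representative in `O`
      obtain ⟨huV1, huV2⟩ := huV
      rw [he1] at huV1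
      obtain ⟨v, hv, hvu⟩ := huV1
      obtain ⟨g, hg⟩ := pr_eq_iff.1 hvu.symm
      obtain ⟨i, k', hi, hk', hd⟩ := hhol v hv
      have hkv : Psi v ∈ (D.e k).source := by
        rw [mem_preimage, ← hvu, he3 v hv] at huV2
        exact huV2
      -- differentiability of `D.e k ∘ Psi` at `v`
      have h1 : DifferentiableAt ℂ (fun z => D.e k (Psi ((C.e i).symm z))) (C.e i v) := by
        have h2 : DifferentiableAt ℂ (fun w => D.e k ((D.e k').symm w))
            (D.e k' (Psi ((C.e i).symm (C.e i v)))) := by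
          rw [(C.e i).left_inv hi]
          exact (D.holo k' k).differentiableAt (((D.e k').isOpen_inter_preimage_symm
            (D.e k).open_source).mem_nhds ⟨(D.e k').map_source hk', by
              rw [mem_preimage, (D.e k').left_inv hk']; exact hkv⟩)
        have h3 := DifferentiableAt.comp (C.e i v)
          (g := fun w => D.e k ((D.e k').symm w))
          (f := fun z => D.e k' (Psi ((C.e i).symm z))) h2 hd
        refine h3.congr_of_eventuallyEq ?_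
        have h4 : ContinuousAt (fun z => Psi ((C.e i).symm z)) (C.e i v) := by
          refine ContinuousAt.comp (f := (C.e i).symm) (g := Psi) ?_
            ((C.e i).continuousAt_symm ((C.e i).map_source hi))
          rw [(C.e i).left_inv hi]
          exact hcA v hv
        have h5 : ∀ᶠ z in 𝓝 (C.e i v), Psi ((C.e i).symm z) ∈ (D.e k').source := by
          refine h4.preimage_mem_nhds ?_
          rw [(C.e i).left_inv hi]
          exact (D.e k').open_source.mem_nhds hk'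
        filter_upwards [h5] with z hz
        simp only [Function.comp]
        rw [(D.e k').left_inv hz]
      have h6 : DifferentiableAt ℂ (fun w => C.e i (g • c.e.symm w)) (c.e u) := by
        have h7 := c.diffAt (hG g) (j := i) hu (by rw [hg]; exact hi)
        exact h7
      have h8 : DifferentiableAt ℂ (fun z => D.e k (Psi ((C.e i).symm z)))
          (C.e i (g • c.e.symm (c.e u))) := by
        rw [c.e.left_inv hu, hg]
        exact h1
      have h9 := DifferentiableAt.comp (c.e u)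
        (g := fun z => D.e k (Psi ((C.e i).symm z)))
        (f := fun w => C.e i (g • c.e.symm w)) h8 h6
      refine h9.congr_of_eventuallyEq ?_
      have h10 : ContinuousAt (fun w => g • c.e.symm w) (c.e u) :=
        (c.e.continuousAt_symm (c.e.map_source hu)).const_smul g
      have h11 : ∀ᶠ w in 𝓝 (c.e u), g • c.e.symm w ∈ O ∩ (C.e i).source := by
        refine h10.preimage_mem_nhds ?_
        rw [c.e.left_inv hu, hg]
        exact (hO.inter (C.e i).open_source).mem_nhds ⟨hv, hi⟩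
      filter_upwards [h11] with w hw
      simp only [Function.comp]
      rw [(C.e i).left_inv hw.2, ← he3 _ hw.1, pr_smul]
  · -- backward
    intro k c w hw
    obtain ⟨hw1, hw2, hw3⟩ := hw
    have hw2' := hw2
    rw [he2] at hw2'
    obtain ⟨u, hu, hPu⟩ := hw2'
    obtain ⟨σ, hσ, k', c', hk', hc', hd⟩ := hL u hu
    have hwk : D.e k (Psi u) = w := by rw [hPu, (D.e k).right_inv hw1]
    have hku : Psi u ∈ (D.e k).source := by rw [hPu]; exact (D.e k).map_target hw1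
    have hes : e.symm (Psi u) = pr G u := by
      rw [← he3 u hu, e.left_inv]
      rw [he1]; exact mem_image_of_mem _ hu
    have hcu : pr G u ∈ c.eM.source := by
      rw [mem_preimage, ← hPu, hes] at hw3
      exact hw3
    have hσu : σ (Psi u) = pr G u := by
      obtain ⟨y, hy, hy1, hy2⟩ := (hσ O (hO.mem_nhds hu)).self_of_nhds
      rw [← hy2]
      exact (hiff y hy u hu).1 hy1
    -- change of charts
    have h0 : c'.eM (σ ((D.e k').symm (D.e k' (Psi u)))) = c'.eM (pr G u) := by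
      rw [(D.e k').left_inv hk', hσu]
    have h1 : DifferentiableAt ℂ (fun z => c.eM (c'.eM.symm z))
        (c'.eM (σ ((D.e k').symm (D.e k' (Psi u))))) := by
      rw [h0]
      exact ((qFam hG hcov).holo c' c).differentiableAt
        ((c'.eM.isOpen_inter_preimage_symm c.eM.open_source).mem_nhds
          ⟨c'.eM.map_source (c'.mem_eM_source hc'), by
            rw [mem_preimage, c'.eM.left_inv (c'.mem_eM_source hc')]; exact hcu⟩)
    have h2 := DifferentiableAt.comp (D.e k' (Psi u)) (g := fun z => c.eM (c'.eM.symm z))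
      (f := fun w => c'.eM (σ ((D.e k').symm w))) h1 hd
    have h3 : DifferentiableAt ℂ (fun w => D.e k' ((D.e k).symm w)) (D.e k (Psi u)) :=
      (D.holo k k').differentiableAt (((D.e k).isOpen_inter_preimage_symm
        (D.e k').open_source).mem_nhds ⟨(D.e k).map_source hku, by
          rw [mem_preimage, (D.e k).left_inv hku]; exact hk'⟩)
    have h4 : DifferentiableAt ℂ ((fun z => c.eM (c'.eM.symm z)) ∘
        (fun w => c'.eM (σ ((D.e k').symm w)))) (D.e k' ((D.e k).symm (D.e k (Psi u)))) := by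
      rw [(D.e k).left_inv hku]
      exact h2
    have h5 := DifferentiableAt.comp (D.e k (Psi u)) (f := fun w => D.e k' ((D.e k).symm w)) h4 h3
    rw [← hwk]
    refine (h5.congr_of_eventuallyEq ?_).differentiableWithinAt
    -- the functions agree near
    have hcs : ContinuousAt (D.e k).symm (D.e k (Psi u)) :=
      (D.e k).continuousAt_symm ((D.e k).map_source hku)
    have h6 : ∀ᶠ v in 𝓝 (Psi u), ∃ y ∈ O ∩ (pr G : Y → Orb G Y) ⁻¹' c'.eM.source,
        Psi y = v ∧ pr G y = σ v := by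
      refine hσ _ ?_
      refine inter_mem (hO.mem_nhds hu) ?_
      exact (c'.eM.open_source.preimage isOpenQuotientMap_pr.continuous).mem_nhds
        (c'.mem_eM_source hc')
    have h7 : ∀ᶠ v in 𝓝 (Psi u), v ∈ (D.e k').source := (D.e k').open_source.mem_nhds hk'
    have h8 : Tendsto (D.e k).symm (𝓝 (D.e k (Psi u))) (𝓝 (Psi u)) := by
      have := hcs.tendsto
      rwa [(D.e k).left_inv hku] at this
    filter_upwards [h8.eventually h6, h8.eventually h7] with w' hw' hw'2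
    obtain ⟨y, ⟨hyO, hyc⟩, hy1, hy2⟩ := hw'
    simp only [Function.comp]
    rw [(D.e k').left_inv hw'2, ← hy2, c'.eM.left_inv hyc, ← hy1]
    congr 1
    rw [← he3 y hyO, e.left_inv]
    rw [he1]; exact mem_image_of_mem _ hyO

end

end Crest.Agent.R272.Idn_834
end

-- ▼ part R272/Idn2_834

/-!
# R272, leaf IDENT-E (helper834), part 2: elementary consequences of the interfaces

* `evInv` : analytic + invertible derivative at one point ==> strictly invertible nearby;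
* `BB F γ` : the map `(z₀, z₁, ξ) ↦ (F (z₀, z₁), ξ γ (z₀, z₁))`;
* slopes: `slope_iv`, `near_alt`, `slope_surj`.
-/

set_option autoImplicit false
set_option linter.unusedSectionVars false

open Set Filter Topology
open scoped ContDiff

namespace Crest.Agent.R272.Idn_834

open Crest.Agent.R275.Geo Crest.Agent.R273.Fam_835 Crest.Agent.R272.Refl_246
open Crest.Agent.R272.AJ_956

noncomputable section

section Analysis

variable {E : Type*} [NormedAddCommGroup E] [NormedSpace ℂ E] [CompleteSpace E]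
  {F : Type*} [NormedAddCommGroup F] [NormedSpace ℂ F] [CompleteSpace F]

/-- analytic with invertible derivative at a point: strictly invertible nearby -/
theorem evInv {f : E → F} {z₀ : E} (hf : AnalyticAt ℂ f z₀) {f' : E ≃L[ℂ] F}
    (h : HasFDerivAt f (f' : E →L[ℂ] F) z₀) :
    ∀ᶠ z in 𝓝 z₀, ∃ g' : E ≃L[ℂ] F, HasStrictFDerivAt f (g' : E →L[ℂ] F) z := by
  have h1 : ContinuousAt (fderiv ℂ f) z₀ := hf.fderiv.continuousAt
  have h2 : range ((↑) : (E ≃L[ℂ] F) → E →L[ℂ] F) ∈ 𝓝 (fderiv ℂ f z₀) := by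
    rw [h.fderiv]
    exact f'.nhds
  filter_upwards [h1 h2, hf.eventually_analyticAt] with z hz hz2
  obtain ⟨g', hg'⟩ := hz
  refine ⟨g', ?_⟩
  rw [hg']
  exact hz2.hasStrictFDerivAt

/-- analytic with invertible derivative: injective nearby -/
theorem evInj {f : E → F} {z₀ : E} (hf : AnalyticAt ℂ f z₀) {f' : E ≃L[ℂ] F}
    (h : HasFDerivAt f (f' : E →L[ℂ] F) z₀) : ∀ᶠ z in 𝓝 z₀, f z = f z₀ → z = z₀ := by
  have hs : HasStrictFDerivAt f (f' : E →L[ℂ] F) z₀ := by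
    have := hf.hasStrictFDerivAt
    rwa [h.fderiv] at this
  filter_upwards [hs.eventually_left_inverse] with z hz hzz
  have h2 : hs.localInverse f f' z₀ (f z₀) = z₀ := hs.localInverse_apply_image
  rw [← hz, hzz, h2]

end Analysis

/-- `(z₀, z₁, ξ) ↦ (F (z₀, z₁), ξ γ (z₀, z₁))` -/
def BB (F : ℂ × ℂ → ℂ × ℂ) (γ : ℂ × ℂ → ℂ) (z : Cn 3) : Cn 3 :=
  h3 (F (z 0, z 1), z 2 * γ (z 0, z 1))

theorem BB_eq (F : ℂ × ℂ → ℂ × ℂ) (γ : ℂ × ℂ → ℂ) :
    BB F γ = fun z => h3 ((fun q : (ℂ × ℂ) × ℂ => (F q.1, q.2 * γ q.1)) (h3.symm z)) := by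
  funext z
  rfl

theorem BB_an {F : ℂ × ℂ → ℂ × ℂ} {γ : ℂ × ℂ → ℂ} (hF : AnalyticAt ℂ F 0)
    (hγ : AnalyticAt ℂ γ 0) : AnalyticAt ℂ (BB F γ) 0 := by
  rw [BB_eq]
  have h0 : h3.symm (0 : Cn 3) = 0 := map_zero _
  have h1 : AnalyticAt ℂ (fun q : (ℂ × ℂ) × ℂ => F q.1) 0 :=
    AnalyticAt.comp (g := F) (f := Prod.fst) hF analyticAt_fst
  have h2 : AnalyticAt ℂ (fun q : (ℂ × ℂ) × ℂ => q.2 * γ q.1) 0 :=
    analyticAt_snd.mul (AnalyticAt.comp (g := γ) (f := Prod.fst) hγ analyticAt_fst)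
  have h4 : AnalyticAt ℂ (fun q : (ℂ × ℂ) × ℂ => (F q.1, q.2 * γ q.1)) (h3.symm 0) := by
    rw [h0]
    exact h1.prod h2
  have h5 : AnalyticAt ℂ (fun z : Cn 3 => (fun q : (ℂ × ℂ) × ℂ => (F q.1, q.2 * γ q.1))
      (h3.symm z)) 0 :=
    AnalyticAt.comp (g := fun q : (ℂ × ℂ) × ℂ => (F q.1, q.2 * γ q.1)) h4
      ((h3.symm : Cn 3 →L[ℂ] (ℂ × ℂ) × ℂ).analyticAt 0)
  exact AnalyticAt.comp (g := h3) ((h3 : (ℂ × ℂ) × ℂ →L[ℂ] Cn 3).analyticAt _) h5

theorem BB_deriv {F : ℂ × ℂ → ℂ × ℂ} {γ : ℂ × ℂ → ℂ} {F' : (ℂ × ℂ) ≃L[ℂ] (ℂ × ℂ)}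
    (hF' : HasFDerivAt F (F' : (ℂ × ℂ) →L[ℂ] (ℂ × ℂ)) 0)
    (hγ : AnalyticAt ℂ γ 0) (h0 : γ 0 ≠ 0) :
    ∃ f' : Cn 3 ≃L[ℂ] Cn 3, HasFDerivAt (BB F γ) (f' : Cn 3 →L[ℂ] Cn 3) 0 := by
  let m : ℂ ≃L[ℂ] ℂ := ContinuousLinearEquiv.unitsEquivAut ℂ (Units.mk0 (γ 0) h0)
  have hm : (m : ℂ →L[ℂ] ℂ) = (γ 0) • ContinuousLinearMap.id ℂ ℂ := by
    ext
    simp [m]
  let P : ((ℂ × ℂ) × ℂ) ≃L[ℂ] ((ℂ × ℂ) × ℂ) := F'.prodCongr m
  refine ⟨(h3.symm.trans P).trans h3, ?_⟩
  have e1 : HasFDerivAt (fun q : (ℂ × ℂ) × ℂ => F q.1)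
      ((F' : (ℂ × ℂ) →L[ℂ] (ℂ × ℂ)).comp (ContinuousLinearMap.fst ℂ (ℂ × ℂ) ℂ)) 0 :=
    HasFDerivAt.comp (g := F) (f := Prod.fst) (0 : (ℂ × ℂ) × ℂ) hF' hasFDerivAt_fst
  have e2 : HasFDerivAt (fun q : (ℂ × ℂ) × ℂ => q.2 * γ q.1)
      ((γ 0) • (ContinuousLinearMap.snd ℂ (ℂ × ℂ) ℂ)) 0 := by
    have a1 : HasFDerivAt (fun q : (ℂ × ℂ) × ℂ => γ q.1)
        ((fderiv ℂ γ 0).comp (ContinuousLinearMap.fst ℂ (ℂ × ℂ) ℂ)) 0 :=
      HasFDerivAt.comp (g := γ) (f := Prod.fst) (0 : (ℂ × ℂ) × ℂ)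
        hγ.differentiableAt.hasFDerivAt hasFDerivAt_fst
    have a2 : HasFDerivAt (fun q : (ℂ × ℂ) × ℂ => q.2)
      (ContinuousLinearMap.snd ℂ (ℂ × ℂ) ℂ) (0 : (ℂ × ℂ) × ℂ) := hasFDerivAt_snd
    have a3 := a2.mul a1
    refine HasFDerivAt.congr_fderiv a3 ?_
    refine ContinuousLinearMap.ext fun v => ?_
    simp
  have e3 := e1.prodMk e2
  have e4 : HasFDerivAt (fun q : (ℂ × ℂ) × ℂ => (F q.1, q.2 * γ q.1))
      (P : ((ℂ × ℂ) × ℂ) →L[ℂ] ((ℂ × ℂ) × ℂ)) 0 := by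
    refine HasFDerivAt.congr_fderiv e3 ?_
    refine ContinuousLinearMap.ext fun v => ?_
    refine Prod.ext ?_ ?_
    · simp [P]
    · change γ 0 * v.2 = (m : ℂ →L[ℂ] ℂ) v.2
      rw [hm]
      simp
  rw [BB_eq]
  have e5 : HasFDerivAt (fun z : Cn 3 => (fun q : (ℂ × ℂ) × ℂ => (F q.1, q.2 * γ q.1))
      (h3.symm z)) ((P : ((ℂ × ℂ) × ℂ) →L[ℂ] ((ℂ × ℂ) × ℂ)).comp
        (h3.symm : Cn 3 →L[ℂ] (ℂ × ℂ) × ℂ)) 0 := by
    refine HasFDerivAt.comp (g := fun q : (ℂ × ℂ) × ℂ => (F q.1, q.2 * γ q.1)) (0 : Cn 3) ?_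
      (h3.symm : Cn 3 →L[ℂ] (ℂ × ℂ) × ℂ).hasFDerivAt
    have : h3.symm (0 : Cn 3) = 0 := map_zero _
    change HasFDerivAt _ _ (h3.symm (0 : Cn 3))
    rw [this]
    exact e4
  exact HasFDerivAt.comp (g := h3) (0 : Cn 3)
    (h3 : (ℂ × ℂ) × ℂ →L[ℂ] Cn 3).hasFDerivAt e5

/-! ### slopes -/

variable {C : Type} [TopologicalSpace C] {𝒞 : Cur C}

theorem w_ne (c : C) : 𝒞.w c ≠ 0 := by
  intro h
  by_cases hc : 𝒞.iv c = c
  · have := 𝒞.nd3 c hc
    rw [show deriv (𝒞.G c) 0 = 0 from h] at this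
    simp [det2] at this
  · have := 𝒞.nd c hc
    rw [show deriv (𝒞.G c) 0 = 0 from h] at this
    simp [det2] at this

theorem exists_Ci (c : C) : ∃ i, c ∈ Ci 𝒞 i := by
  by_contra h
  push Not at h
  refine w_ne (𝒞 := 𝒞) c ?_
  funext i
  have := h i
  exact not_not.1 this

/-- `w (iv c)` is proportional to `w c` -/
theorem w_iv (c : C) : ∃ r : ℂ, 𝒞.w c = r • 𝒞.w (𝒞.iv c) := by
  set φ : ℂ → ℂ := fun z => 𝒞.k (𝒞.iv c) (𝒞.iv ((𝒞.k c).symm z)) with hφ
  have h0 : (𝒞.k c).symm 0 = c := by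
    rw [← 𝒞.k_zero c]
    exact (𝒞.k c).left_inv (𝒞.k_mem c)
  have hφ0 : φ 0 = 0 := by
    simp only [hφ, h0, 𝒞.k_zero]
  have h0t : (0 : ℂ) ∈ (𝒞.k c).target := by
    rw [← 𝒞.k_zero c]
    exact (𝒞.k c).map_source (𝒞.k_mem c)
  have h0t' : (0 : ℂ) ∈ (𝒞.k (𝒞.iv c)).target := by
    rw [← 𝒞.k_zero (𝒞.iv c)]
    exact (𝒞.k (𝒞.iv c)).map_source (𝒞.k_mem _)
  have h1 : ∀ᶠ z in 𝓝 (0 : ℂ), 𝒞.G (𝒞.iv c) (φ z) = - 𝒞.G c z := by
    have h2 : Tendsto (𝒞.k c).symm (𝓝 0) (𝓝 c) := by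
      have := ((𝒞.k c).continuousAt_symm h0t).tendsto
      rwa [h0] at this
    filter_upwards [h2.eventually (𝒞.anti c), (𝒞.k c).open_target.mem_nhds h0t] with z hz hz2
    rw [(𝒞.k c).right_inv hz2] at hz
    exact hz
  have h3 : HasDerivAt (𝒞.G (𝒞.iv c)) (𝒞.w (𝒞.iv c)) (φ 0) := by
    rw [hφ0]
    exact ((𝒞.G_an (𝒞.iv c)) 0 h0t').differentiableAt.hasDerivAt
  have h4 : HasDerivAt φ (deriv φ 0) 0 := (𝒞.iv_an c).differentiableAt.hasDerivAt
  have h5 : HasDerivAt (fun z => 𝒞.G (𝒞.iv c) (φ z)) (deriv φ 0 • 𝒞.w (𝒞.iv c)) 0 :=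
    HasDerivAt.scomp (0 : ℂ) h3 h4
  have h6 : HasDerivAt (fun z => - 𝒞.G c z) (- 𝒞.w c) 0 :=
    ((𝒞.G_an c) 0 h0t).differentiableAt.hasDerivAt.neg
  have h7 := (h5.congr_of_eventuallyEq (h1.mono fun z hz => hz.symm)).unique h6
  refine ⟨- deriv φ 0, ?_⟩
  rw [neg_smul, h7, neg_neg]

theorem Ci_iv {i : Fin 2} {c : C} (h : c ∈ Ci 𝒞 i) : 𝒞.iv c ∈ Ci 𝒞 i := by
  obtain ⟨r, hr⟩ := w_iv (𝒞 := 𝒞) c
  intro h0
  apply h
  rw [hr]
  simp [h0]

theorem slope_iv {i : Fin 2} {c : C} (h : c ∈ Ci 𝒞 i) : tv 𝒞 i (𝒞.iv c) = tv 𝒞 i c := by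
  obtain ⟨r, hr⟩ := w_iv (𝒞 := 𝒞) c
  have h1 := Ci_iv h
  have hr0 : r ≠ 0 := by
    rintro rfl
    rw [zero_smul] at hr
    exact w_ne c hr
  simp only [tv]
  rw [hr]
  simp only [Pi.smul_apply, smul_eq_mul]
  rw [mul_div_mul_left _ _ hr0]

theorem mem_Gam_swap {x : C × C} : x.swap ∈ 𝒞.Gam ↔ x ∈ 𝒞.Gam := by
  constructor
  · intro h
    have h1 : x.1 = 𝒞.iv x.2 := h
    change x.2 = 𝒞.iv x.1
    rw [h1, 𝒞.iv_iv]
  · intro h
    have h1 : x.2 = 𝒞.iv x.1 := h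
    change x.1 = 𝒞.iv x.2
    rw [h1, 𝒞.iv_iv]

/-- equal slopes -/
theorem eq_of_slope {i : Fin 2} {c c' : C} (h : c ∈ Ci 𝒞 i) (h' : c' ∈ Ci 𝒞 i)
    (he : tv 𝒞 i c = tv 𝒞 i c') : c' = c ∨ c' = 𝒞.iv c := by
  by_contra hn
  push Not at hn
  refine 𝒞.nd2 c c' hn.1 hn.2 ?_
  change det2 (𝒞.w c) (𝒞.w c') = 0
  have h1 : 𝒞.w c i ≠ 0 := h
  have h2 : 𝒞.w c' i ≠ 0 := h'
  simp only [tv] at he
  rw [div_eq_div_iff h1 h2] at he
  unfold det2
  fin_cases i
  · simp only [Fin.zero_eta, Fin.isValue, sub_zero] at he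
    linear_combination -he
  · simp only [Fin.mk_one, Fin.isValue, sub_self] at he
    linear_combination he

theorem tv_inv (i : Fin 2) (c : C) : tv 𝒞 (1 - i) c = (tv 𝒞 i c)⁻¹ := by
  simp only [tv, sub_sub_cancel, inv_div]

variable {N : Set (C × C)} {U : C × C → E2}

theorem TT_gam {i : Fin 2} {x : C × C} (h : x ∈ 𝒞.Gam) : 𝒞.TT U i x = tv 𝒞 i x.1 := by
  simp [Cur.TT, h, tv]

theorem TT_off {i : Fin 2} {x : C × C} (h : x ∉ 𝒞.Gam) : 𝒞.TT U i x = U x (1 - i) / U x i := by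
  simp [Cur.TT, h]

theorem TT_swap (hN : 𝒞.NearE N U) {i : Fin 2} {x : C × C} (hx : x ∈ N)
    (h : x ∈ 𝒞.Gam → x.1 ∈ Ci 𝒞 i) : 𝒞.TT U i x.swap = 𝒞.TT U i x := by
  by_cases hg : x ∈ 𝒞.Gam
  · rw [TT_gam (mem_Gam_swap.2 hg), TT_gam hg]
    have h1 : x.swap.1 = 𝒞.iv x.1 := hg
    rw [h1, slope_iv (h hg)]
  · rw [TT_off (fun h => hg (mem_Gam_swap.1 h)), TT_off hg, hN.swap x hx]

theorem U_gam (hN : 𝒞.NearE N U) {x : C × C} (h : x ∈ 𝒞.Gam) : U x = 0 :=
  (hN.zero x (hN.sub h)).2 h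

theorem TT_eq_zero_of {i : Fin 2} {x : C × C} (hg : x ∉ 𝒞.Gam)
    (h : U x i = 0) : 𝒞.TT U i x = 0 := by
  rw [TT_off hg, h, div_zero]

/-- a continuous function `Φ` of `x` with `(TT, U i) x = Φ x` and `Φ x = Φ x₀ → x = x₀` -/
theorem coordPhi (hN : 𝒞.NearE N U) {i : Fin 2} {c : C} (hc : c ∈ Ci 𝒞 i) :
    ∃ Φ : C × C → ℂ × ℂ, ContinuousAt Φ (c, 𝒞.iv c) ∧
      (∀ᶠ x in 𝓝 ((c, 𝒞.iv c) : C × C), (𝒞.TT U i x, U x i) = Φ x) ∧
      ∀ᶠ x in 𝓝 ((c, 𝒞.iv c) : C × C), Φ x = Φ (c, 𝒞.iv c) → x = (c, 𝒞.iv c) := by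
  by_cases hW : 𝒞.iv c = c
  · obtain ⟨F, F', hF, hF', hev⟩ := hN.coordW c i hW hc
    rw [hW]
    have hk : ContinuousAt (fun x : C × C => (𝒞.k c x.1, 𝒞.k c x.2)) (c, c) :=
      ContinuousAt.prodMk
        (ContinuousAt.comp (f := Prod.fst) (g := 𝒞.k c)
          ((𝒞.k c).continuousAt (𝒞.k_mem c)) continuousAt_fst)
        (ContinuousAt.comp (f := Prod.snd) (g := 𝒞.k c)
          ((𝒞.k c).continuousAt (𝒞.k_mem c)) continuousAt_snd)
    have hσ : ContinuousAt (fun x : C × C =>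
        (𝒞.k c x.1 + 𝒞.k c x.2, (𝒞.k c x.1 - 𝒞.k c x.2) ^ 2)) (c, c) := by
      have hm : Continuous fun p : ℂ × ℂ => (p.1 + p.2, (p.1 - p.2) ^ 2) := by fun_prop
      exact ContinuousAt.comp (f := fun x : C × C => (𝒞.k c x.1, 𝒞.k c x.2))
        (g := fun p : ℂ × ℂ => (p.1 + p.2, (p.1 - p.2) ^ 2)) hm.continuousAt hk
    have hσ0 : (𝒞.k c c + 𝒞.k c c, (𝒞.k c c - 𝒞.k c c) ^ 2) = (0 : ℂ × ℂ) := by
      rw [𝒞.k_zero c]; norm_num
    refine ⟨fun x => F (𝒞.k c x.1 + 𝒞.k c x.2, (𝒞.k c x.1 - 𝒞.k c x.2) ^ 2), ?_, hev, ?_⟩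
    · refine ContinuousAt.comp (f := fun x : C × C =>
        (𝒞.k c x.1 + 𝒞.k c x.2, (𝒞.k c x.1 - 𝒞.k c x.2) ^ 2)) (g := F) ?_ hσ
      simp only
      rw [hσ0]
      exact hF.continuousAt
    · have h1 := hσ.tendsto
      simp only [hσ0] at h1
      filter_upwards [h1.eventually (evInj hF hF'), prod_mem_nhds
        ((𝒞.k c).open_source.mem_nhds (𝒞.k_mem c))
        ((𝒞.k c).open_source.mem_nhds (𝒞.k_mem c))] with x hx hx2 hxe
      simp only [hσ0] at hxe
      have h2 := hx hxe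
      rw [Prod.ext_iff] at h2
      obtain ⟨h3, h4⟩ := h2
      simp only [Prod.fst_zero, Prod.snd_zero] at h3 h4
      have h5 : 𝒞.k c x.1 - 𝒞.k c x.2 = 0 := by
        rcases pow_eq_zero_iff (two_ne_zero) |>.1 h4 with h
        exact h
      have h6 : 𝒞.k c x.1 = 0 := by linear_combination (h3 + h5) / 2
      have h7 : 𝒞.k c x.2 = 0 := by linear_combination (h3 - h5) / 2
      refine Prod.ext ?_ ?_
      · exact (𝒞.k c).injOn hx2.1 (𝒞.k_mem c) (by rw [h6, 𝒞.k_zero])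
      · exact (𝒞.k c).injOn hx2.2 (𝒞.k_mem c) (by rw [h7, 𝒞.k_zero])
  · obtain ⟨F, F', hF, hF', hev⟩ := hN.coord c i hW hc
    have hk : ContinuousAt (fun x : C × C => (𝒞.k c x.1, 𝒞.k (𝒞.iv c) x.2)) (c, 𝒞.iv c) :=
      ContinuousAt.prodMk
        (ContinuousAt.comp (f := Prod.fst) (g := 𝒞.k c)
          ((𝒞.k c).continuousAt (𝒞.k_mem c)) continuousAt_fst)
        (ContinuousAt.comp (f := Prod.snd) (g := 𝒞.k (𝒞.iv c))
          ((𝒞.k (𝒞.iv c)).continuousAt (𝒞.k_mem _)) continuousAt_snd)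
    have hσ0 : (𝒞.k c c, 𝒞.k (𝒞.iv c) (𝒞.iv c)) = (0 : ℂ × ℂ) := by
      rw [𝒞.k_zero c, 𝒞.k_zero]; rfl
    refine ⟨fun x => F (𝒞.k c x.1, 𝒞.k (𝒞.iv c) x.2), ?_, hev, ?_⟩
    · refine ContinuousAt.comp (f := fun x : C × C => (𝒞.k c x.1, 𝒞.k (𝒞.iv c) x.2))
        (g := F) ?_ hk
      simp only
      rw [hσ0]
      exact hF.continuousAt
    · have h1 := hk.tendsto
      simp only [hσ0] at h1
      filter_upwards [h1.eventually (evInj hF hF'), prod_mem_nhds
        ((𝒞.k c).open_source.mem_nhds (𝒞.k_mem c))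
        ((𝒞.k (𝒞.iv c)).open_source.mem_nhds (𝒞.k_mem _))] with x hx hx2 hxe
      simp only [hσ0] at hxe
      have h2 := hx hxe
      rw [Prod.ext_iff] at h2
      obtain ⟨h3, h4⟩ := h2
      simp only [Prod.fst_zero, Prod.snd_zero] at h3 h4
      refine Prod.ext ?_ ?_
      · exact (𝒞.k c).injOn hx2.1 (𝒞.k_mem c) (by rw [h3, 𝒞.k_zero])
      · exact (𝒞.k (𝒞.iv c)).injOn hx2.2 (𝒞.k_mem _) (by rw [h4, 𝒞.k_zero])

/-- the slope function is continuous at `(c, iv c)` -/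
theorem TT_cont (hN : 𝒞.NearE N U) {i : Fin 2} {c : C} (hc : c ∈ Ci 𝒞 i) :
    ContinuousAt (fun x => 𝒞.TT U i x) (c, 𝒞.iv c) := by
  obtain ⟨Φ, hΦc, hΦe, -⟩ := coordPhi hN hc
  exact hΦc.fst.congr (hΦe.mono fun x hx => by simp only [← hx])

/-- near `(c, iv c)` with `w c i ≠ 0`: off `Γ` the coordinate `U i` does not vanish -/
theorem near_alt (hN : 𝒞.NearE N U) {i : Fin 2} {c : C} (hc : c ∈ Ci 𝒞 i) :
    ∀ᶠ x in 𝓝 ((c, 𝒞.iv c) : C × C), x ∈ 𝒞.Gam ∨ U x i ≠ 0 := by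
  have hg : ((c, 𝒞.iv c) : C × C) ∈ 𝒞.Gam := rfl
  have h0 : (𝒞.TT U i (c, 𝒞.iv c), U (c, 𝒞.iv c) i) = (tv 𝒞 i c, 0) := by
    rw [TT_gam hg, U_gam hN hg]; rfl
  obtain ⟨Φ, hΦc, hΦe, hΦi⟩ := coordPhi hN hc
  have hΦ0 : Φ (c, 𝒞.iv c) = (tv 𝒞 i c, 0) := by
    rw [← h0]; exact hΦe.self_of_nhds.symm
  by_cases ht : tv 𝒞 i c = 0
  · filter_upwards [hΦe, hΦi] with x h1 h2
    by_contra hn
    push Not at hn
    obtain ⟨hn1, hn2⟩ := hn
    rw [TT_eq_zero_of hn1 hn2, hn2] at h1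
    have h3 := h2 (by rw [← h1, hΦ0, ht])
    exact hn1 (by rw [h3]; exact hg)
  · have h1 : ∀ᶠ x in 𝓝 ((c, 𝒞.iv c) : C × C), (Φ x).1 ≠ 0 := by
      have h2 : ContinuousAt (fun x => (Φ x).1) (c, 𝒞.iv c) := hΦc.fst
      refine h2.eventually_ne ?_
      rw [hΦ0]; exact ht
    filter_upwards [hΦe, h1] with x h3 h4
    by_contra hn
    push Not at hn
    obtain ⟨hn1, hn2⟩ := hn
    rw [TT_eq_zero_of hn1 hn2] at h3
    exact h4 (by rw [← h3])

/-- **every slope occurs** -/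
theorem slope_surj (hN : 𝒞.NearE N U) (i : Fin 2) (T : ℂ) : ∃ c, c ∈ Ci 𝒞 i ∧ tv 𝒞 i c = T := by
  classical
  by_contra hno
  push Not at hno
  -- small neighbourhoods
  have hloc : ∀ c : C, ∃ O : Set (C × C), IsOpen O ∧ ((c, 𝒞.iv c) : C × C) ∈ O ∧
      ∀ x ∈ O, x ∉ 𝒞.Gam → U x i ≠ 0 → U x (1 - i) ≠ T * U x i := by
    intro c
    have hg : ((c, 𝒞.iv c) : C × C) ∈ 𝒞.Gam := rfl
    have h1 : ∀ᶠ x in 𝓝 ((c, 𝒞.iv c) : C × C), x ∉ 𝒞.Gam → U x i ≠ 0 →
        U x (1 - i) ≠ T * U x i := by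
      by_cases hc : c ∈ Ci 𝒞 i
      · have h2 : ∀ᶠ x in 𝓝 ((c, 𝒞.iv c) : C × C), 𝒞.TT U i x ≠ T := by
          refine (TT_cont hN hc).eventually_ne ?_
          rw [TT_gam hg]
          exact hno c hc
        filter_upwards [h2] with x h3 h4 h5 h6
        apply h3
        rw [TT_off h4, h6]
        field_simp
      · obtain ⟨j, hj⟩ := exists_Ci (𝒞 := 𝒞) c
        have hji : j = 1 - i := by
          by_contra hne
          have : j = i := by
            fin_cases i <;> fin_cases j <;> simp_all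
          exact hc (this ▸ hj)
        have hc' : c ∈ Ci 𝒞 (1 - i) := hji ▸ hj
        by_cases hT : T = 0
        · filter_upwards [near_alt hN hc'] with x h3 h4 h5 h6
          rcases h3 with h3 | h3
          · exact h4 h3
          · exact h3 (by rw [h6, hT, zero_mul])
        · have h2 : ∀ᶠ x in 𝓝 ((c, 𝒞.iv c) : C × C), 𝒞.TT U (1 - i) x ≠ T⁻¹ := by
            refine (TT_cont hN hc').eventually_ne ?_
            rw [TT_gam hg]
            have h7 : tv 𝒞 (1 - i) c = 0 := by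
              have h8 : 𝒞.w c i = 0 := not_not.1 hc
              simp [tv, h8]
            rw [h7]
            exact (inv_ne_zero hT).symm
          filter_upwards [h2] with x h3 h4 h5 h6
          apply h3
          rw [TT_off h4, h6, sub_sub_cancel]
          field_simp
    obtain ⟨O, hO, hOo, hcO⟩ := eventually_nhds_iff.1 h1
    exact ⟨O, hOo, hcO, hO⟩
  choose O hOo hcO hO using hloc
  obtain ⟨δ, hδ, -, hsm⟩ := hN.small (⋃ c, O c) (isOpen_iUnion hOo) (by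
    intro x hx
    have h1 : x = (x.1, 𝒞.iv x.1) := Prod.ext rfl hx
    rw [h1]
    exact mem_iUnion.2 ⟨x.1, hcO x.1⟩)
  -- a small vector of slope `T`
  let l : ℂ := ((δ / (2 * (1 + ‖T‖)) : ℝ) : ℂ)
  have hp : 0 < 1 + ‖T‖ := by positivity
  have hl0 : l ≠ 0 := by
    simp only [l]
    exact_mod_cast (by positivity : δ / (2 * (1 + ‖T‖)) ≠ 0)
  have hln : ‖l‖ = δ / (2 * (1 + ‖T‖)) := by
    simp only [l]
    rw [Complex.norm_real, Real.norm_of_nonneg (by positivity)]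
  let v : E2 := fun j => if j = i then l else T * l
  have hvi : v i = l := by simp [v]
  have hne : (1 - i : Fin 2) ≠ i := by fin_cases i <;> decide
  have hvj : v (1 - i) = T * l := by simp [v, hne]
  have hv : v ∈ Metric.ball (0 : E2) δ := by
    rw [mem_ball_zero_iff, pi_norm_lt_iff hδ]
    intro j
    by_cases hj : j = i
    · simp only [v, hj, if_true]
      rw [hln, div_lt_iff₀ (by positivity)]
      nlinarith [norm_nonneg T]
    · simp only [v, hj, if_false]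
      rw [norm_mul, hln, mul_div_assoc', div_lt_iff₀ (by positivity)]
      nlinarith [norm_nonneg T]
  obtain ⟨x, ⟨hxN, hxO⟩, hxv⟩ := hsm hv
  obtain ⟨c, hc⟩ := mem_iUnion.1 hxO
  have h1 : x ∉ 𝒞.Gam := by
    intro h
    have h2 := U_gam hN h
    rw [h2] at hxv
    apply hl0
    rw [← hvi, ← hxv]
    rfl
  refine hO c x hc h1 ?_ ?_
  · rw [hxv, hvi]; exact hl0
  · rw [hxv, hvi, hvj]

end

end Crest.Agent.R272.Idn_834
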