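import Crest.Agent.R272.Ax2_834
import Crest.Agent.R272.HFam_342
import Crest.Agent.R272.Idn2_834
import Crest.Agent.R272.IdnE_834

-- ▼ part R272/Ax3_834
section

/-!
# R272, leaf D4 (helper834), part 3: immersions read in given coordinates, and the quotient by a
reflection

`ImmW F q x κ` : near `x` the map `q` is `Q ∘ κ` in a chart of `F`, `Q` analytic and immersive at
`0` (`κ x = 0`);
`ImmW.comp_LC` : composition with local biholomorphisms;
`lC_pr` : the projection to the orbit space is a local biholomorphism at points with trivial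
stabiliser; `immW_pr_diag` : symmetric coordinates on the diagonal.
-/

set_option autoImplicit false
set_option linter.unusedSectionVars false

open Set Filter Topology
open scoped ContDiff

namespace Crest.Agent.R272.Ax_834

open Crest.Agent.R275.Geo Crest.Agent.R273.Fam_835 Crest.Agent.R272.Refl_246
open Crest.Agent.R272.AJ_956 Crest.Agent.R272.Idn_834 Crest.Agent.R272.HFam_342

noncomputable section

variable {n : ℕ} {M M' X : Type} [TopologicalSpace M] [TopologicalSpace M'] [TopologicalSpace X]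

/-- immersion read in the coordinates `κ` -/
def ImmW (F : Fam n M) (q : X → M) (x : X) (κ : X → ℂ × ℂ) : Prop :=
  ∃ j, q x ∈ (F.e j).source ∧ ∃ Q : ℂ × ℂ → Cn n, Imm Q 0 ∧ ∀ᶠ y in 𝓝 x, F.e j (q y) = Q (κ y)

/-- holomorphy near a point gives analyticity in charts -/
theorem an_rc {m : ℕ} {F : Fam n M} {F' : Fam m M'} {h : M → M'} {u : M}
    (hev : ∀ᶠ y in 𝓝 u, HC F F' h y) {i : F.ι} {j : F'.ι} (hi : u ∈ (F.e i).source)
    (hj : h u ∈ (F'.e j).source) : AnalyticAt ℂ (rc F F' h i j) (F.e i u) := by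
  have hc : ContinuousAt h u := hev.self_of_nhds.1
  have h1 : ∀ᶠ y in 𝓝 u, HC F F' h y ∧ h y ∈ (F'.e j).source :=
    hev.and (hc.eventually ((F'.e j).open_source.mem_nhds hj))
  have h2 := eventually_chartC hi h1
  have h3 : ∀ᶠ z in 𝓝 (F.e i u), DifferentiableAt ℂ (rc F F' h i j) z := by
    filter_upwards [h2] with z hz
    have h4 := hz.2.1.2 i j ((F.e i).map_target hz.1) hz.2.2
    rwa [(F.e i).right_inv hz.1] at h4
  obtain ⟨V, hV, hVo, hzV⟩ := eventually_nhds_iff.1 h3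
  have h5 : ContDiffAt ℂ ω (rc F F' h i j) (F.e i u) :=
    (Crest.Agent.R266.SCV.contDiffOn_omega_of_differentiableOn hVo
      (fun z hz => (hV z hz).differentiableWithinAt)).contDiffAt (hVo.mem_nhds hzV)
  exact h5.analyticAt

theorem ImmW.comp_LC {F : Fam n M} {F' : Fam n M'} {q : X → M} {x : X} {κ : X → ℂ × ℂ}
    (hq : ImmW F q x κ) (hκ : κ x = 0) (hc : ContinuousAt q x) {h : M → M'}
    (hev : ∀ᶠ y in 𝓝 (q x), HC F F' h y) (hl : LC F F' h (q x)) :
    ImmW F' (fun y => h (q y)) x κ := by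
  obtain ⟨j, hj, Q, hQ, hQe⟩ := hq
  obtain ⟨j', hj'⟩ := F'.cover (h (q x))
  refine ⟨j', hj', fun z => rc F F' h j j' (Q z), ?_, ?_⟩
  · have h0 : Q 0 = F.e j (q x) := by
      have := hQe.self_of_nhds
      rw [hκ] at this
      exact this.symm
    refine imm_comp (Q := rc F F' h j j') (B := Q) ?_ hQ
    rw [h0]
    refine ⟨an_rc hev hj hj', fun v hv => ?_⟩
    refine hl.2 j j' hj hj' ?_
    rw [hv, map_zero]
  · filter_upwards [hQe, hc.eventually ((F.e j).open_source.mem_nhds hj)] with y hy hy2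
    rw [← hy]
    unfold Crest.Agent.R272.HFam_342.rc
    rw [(F.e j).left_inv hy2]

/-! ### the projection to the orbit space -/

variable {Y : Type} [TopologicalSpace Y] {C : Fam n Y} {G : Type} [Group G] [MulAction G Y]
  [ContinuousConstSMul G Y] [Nonempty Y]

/-- the derivative of `sq a` is injective off the hyperplane -/
theorem inj_sq (a : Fin n) {w : Cn n} (hw : w a ≠ 0) :
    Function.Injective (fderiv ℂ (sq a) w) := by
  obtain ⟨r, hr1, hr2, hr3⟩ := exists_sqrt a hw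
  have h1 : HasFDerivAt (sq a) (fderiv ℂ (sq a) w) (r (sq a w)) := by
    rw [hr1]
    exact (differentiable_sq a w).hasFDerivAt
  have h2 := HasFDerivAt.comp (sq a w) h1 hr2.hasFDerivAt
  have h3 : HasFDerivAt (sq a ∘ r) (ContinuousLinearMap.id ℂ (Cn n)) (sq a w) :=
    (hasFDerivAt_id _).congr_of_eventuallyEq (hr3.mono fun z hz => hz)
  have h4 := h2.unique h3
  have hsurj : Function.Surjective (fderiv ℂ (sq a) w) := fun v => by
    refine ⟨fderiv ℂ r (sq a w) v, ?_⟩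
    exact congrArg (fun T => T v) h4
  have := (LinearMap.injective_iff_surjective
    (f := (fderiv ℂ (sq a) w : Cn n →ₗ[ℂ] Cn n))).2 hsurj
  exact this

/-- a chart with trivial reflection does not exist -/
theorem rc_ne_one (c : RC G C) {s : G} {a : Fin n} (hk : c.k = some (s, a)) {u : Y}
    (hu : u ∈ c.e.source) : s ≠ 1 := by
  intro hs
  have h1 : ∀ z ∈ c.e.target, z a = 0 := by
    intro z hz
    have h2 := c.ref s a hk _ (c.e.map_target hz)
    rw [hs, one_smul, c.e.right_inv hz] at h2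
    have h3 := congrArg (fun v : Cn n => v a) h2
    simp only [rf_same] at h3
    have h4 : (2 : ℂ) * z a = 0 := by linear_combination h3
    simpa using h4
  have h5 : c.e.target ∈ 𝓝 (c.e u) := c.e.open_target.mem_nhds (c.e.map_source hu)
  have hc : Continuous fun t : ℂ => c.e u + t • EuclideanSpace.single a (1 : ℂ) := by fun_prop
  have h6 : ∀ᶠ t in 𝓝 (0 : ℂ), c.e u + t • EuclideanSpace.single a (1 : ℂ) ∈ c.e.target := by
    have := hc.tendsto 0
    rw [zero_smul, add_zero] at this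
    exact this h5
  have h7 : ∀ᶠ t in 𝓝[≠] (0 : ℂ), c.e u + t • EuclideanSpace.single a (1 : ℂ) ∈ c.e.target ∧
      t ≠ 0 := (h6.filter_mono nhdsWithin_le_nhds).and self_mem_nhdsWithin
  obtain ⟨t, ht, ht0⟩ := h7.exists
  have h8 := h1 _ ht
  have h9 := h1 _ (c.e.map_source hu)
  simp only [PiLp.add_apply, PiLp.smul_apply, PiLp.single_apply, if_true, h9,
    zero_add, smul_eq_mul, mul_one] at h8
  exact ht0 h8

theorem rc_coord_ne (c : RC G C) {s : G} {a : Fin n} (hk : c.k = some (s, a)) {u : Y}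
    (hu : u ∈ c.e.source) (hs : s • u ≠ u) : c.e u a ≠ 0 := by
  intro h0
  apply hs
  refine c.e.injOn (c.inv s a hk u hu) hu ?_
  rw [c.ref s a hk u hu, rf, h0, neg_zero, ← h0, up_self]

/-- the projection is a local biholomorphism at points with trivial stabiliser -/
theorem lC_pr (hG : ∀ g : G, HolC C C (fun y => g • y))
    (hcov : ∀ y : Y, ∃ c : RC G C, y ∈ c.e.source) {u : Y} (hst : ∀ g : G, g • u = u → g = 1) :
    LC C (qFam hG hcov) (pr G) u := by
  obtain ⟨c, hc⟩ := hcov u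
  obtain ⟨i, hi⟩ := C.cover u
  refine LC.of (B := qFam hG hcov) ((holC_pi hG hcov).hC u) i c hi (c.mem_eM_source hc) ?_
  -- the chart change `c.e ∘ (C.e i).symm`
  have hd : DifferentiableAt ℂ (fun z => c.e ((C.e i).symm z)) (C.e i u) :=
    (c.holi i).differentiableAt (((C.e i).isOpen_inter_preimage_symm c.e.open_source).mem_nhds
      ⟨(C.e i).map_source hi, by rw [mem_preimage, (C.e i).left_inv hi]; exact hc⟩)
  have hd' : DifferentiableAt ℂ (fun z => C.e i (c.e.symm z)) (c.e u) :=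
    (c.hol i).differentiableAt ((c.e.isOpen_inter_preimage_symm (C.e i).open_source).mem_nhds
      ⟨c.e.map_source hc, by rw [mem_preimage, c.e.left_inv hc]; exact hi⟩)
  have hinj : Function.Injective (fderiv ℂ (fun z => c.e ((C.e i).symm z)) (C.e i u)) := by
    have e1 : c.e ((C.e i).symm (C.e i u)) = c.e u := by rw [(C.e i).left_inv hi]
    have h1 := HasFDerivAt.comp (C.e i u) (g := fun z => C.e i (c.e.symm z))
      (f := fun z => c.e ((C.e i).symm z)) (by rw [e1]; exact hd'.hasFDerivAt) hd.hasFDerivAt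
    have h2 : HasFDerivAt ((fun z => C.e i (c.e.symm z)) ∘ (fun z => c.e ((C.e i).symm z)))
        (ContinuousLinearMap.id ℂ (Cn n)) (C.e i u) := by
      refine (hasFDerivAt_id _).congr_of_eventuallyEq ?_
      filter_upwards [eventually_chartC hi (c.e.open_source.mem_nhds hc)] with z hz
      simp only [Function.comp, id]
      rw [c.e.left_inv hz.2, (C.e i).right_inv hz.1]
    have h3 := h1.unique h2
    intro v w hvw
    have h5 := congrArg (fun T => T v) h3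
    have h6 := congrArg (fun T => T w) h3
    simp only [ContinuousLinearMap.comp_apply, ContinuousLinearMap.id_apply] at h5 h6
    rw [← h5, ← h6, hvw]
  have hq : Function.Injective (fderiv ℂ (qk c.k) (c.e u)) := by
    rcases hk : c.k with _ | ⟨s, a⟩
    · simp only [qk_none, fderiv_id]
      exact fun v w h => h
    · simp only [qk_some]
      refine inj_sq a (rc_coord_ne c hk hc ?_)
      intro hs
      exact rc_ne_one c hk hc (hst s hs)
  have e2 : c.e ((C.e i).symm (C.e i u)) = c.e u := by rw [(C.e i).left_inv hi]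
  have h7 : fderiv ℂ (rc C (qFam hG hcov) (pr G) i c) (C.e i u) =
      (fderiv ℂ (qk c.k) (c.e u)).comp (fderiv ℂ (fun z => c.e ((C.e i).symm z)) (C.e i u)) := by
    have h8 := fderiv_comp (C.e i u) (g := qk c.k) (f := fun z => c.e ((C.e i).symm z))
      (differentiable_qk c.k _) hd
    rw [e2] at h8
    rw [← h8]
    refine Filter.EventuallyEq.fderiv_eq ?_
    filter_upwards [eventually_chartC hi (c.e.open_source.mem_nhds hc)] with z hz
    exact c.eM_apply hz.2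
  rw [h7]
  exact hq.comp hinj

/-- antisymmetric / symmetric coordinates on the diagonal: analytic part -/
theorem sym_quot {a : Fin n} {g : ℂ × ℂ → Cn n} (hg : Imm g 0) (hg0 : g 0 a = 0)
    (hs : ∀ᶠ p in 𝓝 (0 : ℂ × ℂ), g (p.2, p.1) = rf a (g p)) :
    ∃ h : ℂ × ℂ → Cn n, Imm h 0 ∧ ∀ᶠ p in 𝓝 (0 : ℂ × ℂ), sq a (g p) =
      h (p.1 + p.2, (p.1 - p.2) ^ 2) := by
  classical
  let L : ℂ × ℂ → ℂ × ℂ := fun p => ((p.1 + p.2) / 2, (p.1 - p.2) / 2)
  let Lc : (ℂ × ℂ) →L[ℂ] (ℂ × ℂ) :=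
    ((1 / 2 : ℂ) • (ContinuousLinearMap.fst ℂ ℂ ℂ + ContinuousLinearMap.snd ℂ ℂ ℂ)).prod
      ((1 / 2 : ℂ) • (ContinuousLinearMap.fst ℂ ℂ ℂ - ContinuousLinearMap.snd ℂ ℂ ℂ))
  have hL : ∀ p, Lc p = L p := by
    intro p
    simp only [Lc, L]
    refine Prod.ext ?_ ?_
    · simp; ring
    · simp; ring
  have hLe : (fun p => Lc p) = L := funext hL
  have hLan : AnalyticAt ℂ L 0 := by rw [← hLe]; exact Lc.analyticAt 0
  have hL0 : L 0 = 0 := by simp [L]
  -- `G = g ∘ L`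
  set G' : ℂ × ℂ → Cn n := fun p => g (L p) with hG'
  have hG'an : AnalyticAt ℂ G' 0 := by
    refine AnalyticAt.comp (g := g) (f := L) ?_ hLan
    rw [hL0]; exact hg.1
  have hG'imm : Imm G' 0 := by
    refine imm_comp (Q := g) (B := L) (by rw [hL0]; exact hg) ⟨hLan, fun v hv => ?_⟩
    rw [← hLe, Lc.fderiv] at hv
    rw [hL] at hv
    simp only [L, Prod.mk_eq_zero] at hv
    obtain ⟨h1, h2⟩ := hv
    have h3 : v.1 + v.2 = 0 := by simpa using h1
    have h4 : v.1 - v.2 = 0 := by simpa using h2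
    refine Prod.ext ?_ ?_
    · simp only [Prod.fst_zero]; linear_combination (h3 + h4) / 2
    · simp only [Prod.snd_zero]; linear_combination (h3 - h4) / 2
  have hsG : ∀ᶠ p in 𝓝 (0 : ℂ × ℂ), G' (p.1, -p.2) = rf a (G' p) := by
    have hLt : Tendsto L (𝓝 0) (𝓝 0) := by
      have := hLan.continuousAt.tendsto
      rwa [hL0] at this
    filter_upwards [hLt.eventually hs] with p hp
    simp only [hG']
    rw [← hp]
    simp only [L]
    congr 2 <;> ring
  -- coordinates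
  have hGb : ∀ b, AnalyticAt ℂ (fun p => G' p b) 0 := fun b =>
    ((EuclideanSpace.proj b : Cn n →L[ℂ] ℂ).analyticAt _).comp hG'an
  have hSb : ∀ b, AnalyticAt ℂ (fun p => sq a (G' p) b) 0 := by
    intro b
    by_cases hb : b = a
    · subst hb
      simp only [sq_same]
      exact (hGb b).pow 2
    · simp only [sq_ne hb]
      exact hGb b
  have hSe : ∀ b, ∀ᶠ p in 𝓝 (0 : ℂ × ℂ), sq a (G' (p.1, -p.2)) b = sq a (G' p) b := by
    intro b
    filter_upwards [hsG] with p hp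
    rw [hp, sq_rf]
  choose h hh1 hh2 using fun b => even_desc (hSb b) (hSe b)
  -- derivative data of `G'`
  have hD : HasFDerivAt G' (fderiv ℂ G' 0) 0 := hG'an.differentiableAt.hasFDerivAt
  have hDb : ∀ b, HasFDerivAt (fun p => G' p b)
      ((EuclideanSpace.proj b : Cn n →L[ℂ] ℂ).comp (fderiv ℂ G' 0)) 0 := fun b =>
    (EuclideanSpace.proj b : Cn n →L[ℂ] ℂ).hasFDerivAt.comp (0 : ℂ × ℂ) hD
  have hG'0a : G' 0 a = 0 := by simp only [hG', hL0]; exact hg0
  -- restriction to the axes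
  have hax1 : ∀ b, HasDerivAt (fun t : ℂ => G' (t, 0) b) (fderiv ℂ G' 0 (1, 0) b) 0 := by
    intro b
    have g1 : HasDerivAt (fun σ : ℂ => ((σ, 0) : ℂ × ℂ)) (1, 0) 0 :=
      (hasDerivAt_id (0 : ℂ)).prodMk (hasDerivAt_const (0 : ℂ) (0 : ℂ))
    exact HasFDerivAt.comp_hasDerivAt (0 : ℂ) (l := fun p => G' p b)
      (f := fun σ : ℂ => ((σ, 0) : ℂ × ℂ)) (hDb b) g1
  have hax2 : ∀ b, HasDerivAt (fun t : ℂ => G' (0, t) b) (fderiv ℂ G' 0 (0, 1) b) 0 := by
    intro b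
    have g1 : HasDerivAt (fun σ : ℂ => ((0, σ) : ℂ × ℂ)) (0, 1) 0 :=
      (hasDerivAt_const (0 : ℂ) (0 : ℂ)).prodMk (hasDerivAt_id (0 : ℂ))
    exact HasFDerivAt.comp_hasDerivAt (0 : ℂ) (l := fun p => G' p b)
      (f := fun σ : ℂ => ((0, σ) : ℂ × ℂ)) (hDb b) g1
  have t1 : ContinuousAt (fun t : ℂ => ((t, 0) : ℂ × ℂ)) 0 := by fun_prop
  have t2 : ContinuousAt (fun t : ℂ => ((0, t) : ℂ × ℂ)) 0 := by fun_prop
  -- `∂_σ G'_a = 0`
  have k1 : fderiv ℂ G' 0 (1, 0) a = 0 := by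
    have e1 : ∀ᶠ t in 𝓝 (0 : ℂ), G' (t, 0) a = 0 := by
      filter_upwards [t1.eventually hsG] with t ht
      have h2 := congrArg (fun v : Cn n => v a) ht
      simp only [neg_zero, rf_same] at h2
      have h4 : (2 : ℂ) * G' (t, 0) a = 0 := by linear_combination h2
      simpa using h4
    exact (hax1 a).unique ((hasDerivAt_const (0 : ℂ) (0 : ℂ)).congr_of_eventuallyEq
      (e1.mono fun t ht => ht))
  -- `∂_d G'_b = 0` for `b ≠ a`
  have k2 : ∀ b, b ≠ a → fderiv ℂ G' 0 (0, 1) b = 0 := by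
    intro b hb
    have e1 : ∀ᶠ t in 𝓝 (0 : ℂ), G' (0, -t) b = G' (0, t) b := by
      filter_upwards [t2.eventually hsG] with t ht
      have h2 := congrArg (fun v : Cn n => v b) ht
      simp only [rf_ne hb] at h2
      exact h2
    have e2 : HasDerivAt (fun t : ℂ => G' (0, -t) b) (-(fderiv ℂ G' 0 (0, 1) b)) 0 := by
      have b1 : HasDerivAt (fun t : ℂ => G' (0, t) b) (fderiv ℂ G' 0 (0, 1) b) (-0) := by
        rw [neg_zero]; exact hax2 b
      have b2 : HasDerivAt (fun t : ℂ => -t) (-1) (0 : ℂ) := (hasDerivAt_id (0 : ℂ)).neg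
      have b3 := HasDerivAt.comp (0 : ℂ) (h₂ := fun t : ℂ => G' (0, t) b)
        (h := fun t : ℂ => -t) b1 b2
      refine b3.congr_deriv ?_
      ring
    have e3 := (e2.congr_of_eventuallyEq (e1.mono fun t ht => ht.symm)).unique (hax2 b)
    have h4 : (2 : ℂ) * fderiv ℂ G' 0 (0, 1) b = 0 := by linear_combination -e3
    simpa using h4
  have k3 : fderiv ℂ G' 0 (0, 1) a ≠ 0 := by
    intro h0
    have h1 : fderiv ℂ G' 0 (0, 1) = 0 := by
      ext b
      by_cases hb : b = a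
      · subst hb; exact h0
      · exact k2 b hb
    have h2 := hG'imm.2 _ h1
    simp at h2
  have k4 : ∃ b, b ≠ a ∧ fderiv ℂ G' 0 (1, 0) b ≠ 0 := by
    by_contra hno
    push Not at hno
    have h1 : fderiv ℂ G' 0 (1, 0) = 0 := by
      ext b
      by_cases hb : b = a
      · subst hb; exact k1
      · exact hno b hb
    have h2 := hG'imm.2 _ h1
    simp at h2
  -- derivatives of `h`
  have hhd : ∀ b, HasFDerivAt (h b) (fderiv ℂ (h b) 0) 0 := fun b =>
    (hh1 b).differentiableAt.hasFDerivAt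
  have m1 : ∀ b, HasDerivAt (fun t : ℂ => h b (t, 0)) (fderiv ℂ (h b) 0 (1, 0)) 0 := by
    intro b
    have g1 : HasDerivAt (fun σ : ℂ => ((σ, 0) : ℂ × ℂ)) (1, 0) 0 :=
      (hasDerivAt_id (0 : ℂ)).prodMk (hasDerivAt_const (0 : ℂ) (0 : ℂ))
    exact HasFDerivAt.comp_hasDerivAt (0 : ℂ) (l := h b)
      (f := fun σ : ℂ => ((σ, 0) : ℂ × ℂ)) (hhd b) g1
  have m2 : ∀ b, HasDerivAt (fun t : ℂ => h b (0, t)) (fderiv ℂ (h b) 0 (0, 1)) 0 := by
    intro b
    have g1 : HasDerivAt (fun σ : ℂ => ((0, σ) : ℂ × ℂ)) (0, 1) 0 :=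
      (hasDerivAt_const (0 : ℂ) (0 : ℂ)).prodMk (hasDerivAt_id (0 : ℂ))
    exact HasFDerivAt.comp_hasDerivAt (0 : ℂ) (l := h b)
      (f := fun σ : ℂ => ((0, σ) : ℂ × ℂ)) (hhd b) g1
  have m3 : ∀ b, b ≠ a → fderiv ℂ (h b) 0 (1, 0) = fderiv ℂ G' 0 (1, 0) b := by
    intro b hb
    have e1 : ∀ᶠ t in 𝓝 (0 : ℂ), G' (t, 0) b = h b (t, 0) := by
      filter_upwards [t1.eventually (hh2 b)] with t ht
      simp only [sq_ne hb] at ht
      rw [zero_pow two_ne_zero] at ht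
      exact ht
    exact ((m1 b).congr_of_eventuallyEq (e1.mono fun t ht => ht)).unique (hax1 b)
  have m4 : fderiv ℂ (h a) 0 (1, 0) = 0 := by
    have e1 : ∀ᶠ t in 𝓝 (0 : ℂ), (0 : ℂ) = h a (t, 0) := by
      have e0 : ∀ᶠ t in 𝓝 (0 : ℂ), G' (t, 0) a = 0 := by
        filter_upwards [t1.eventually hsG] with t ht
        have h2 := congrArg (fun v : Cn n => v a) ht
        simp only [neg_zero, rf_same] at h2
        have h4 : (2 : ℂ) * G' (t, 0) a = 0 := by linear_combination h2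
        simpa using h4
      filter_upwards [t1.eventually (hh2 a), e0] with t ht ht0
      simp only [sq_same, ht0] at ht
      rw [zero_pow two_ne_zero] at ht
      exact ht
    exact ((m1 a).congr_of_eventuallyEq (e1.mono fun t ht => ht)).unique
      (hasDerivAt_const (0 : ℂ) (0 : ℂ))
  have m5 : fderiv ℂ (h a) 0 (0, 1) = (fderiv ℂ G' 0 (0, 1) a) ^ 2 := by
    have hh0 : h a (0, 0) = 0 := by
      have := (hh2 a).self_of_nhds
      simp only [sq_same, hG'0a, Prod.fst_zero, Prod.snd_zero] at this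
      rw [zero_pow two_ne_zero] at this
      exact this.symm
    have e1 : ∀ᶠ t in 𝓝 (0 : ℂ), (G' (0, t) a) ^ 2 = h a (0, t ^ 2) := by
      filter_upwards [t2.eventually (hh2 a)] with t ht
      simpa only [sq_same] using ht
    -- limits of difference quotients
    have l1 : Tendsto (fun t : ℂ => t⁻¹ * G' (0, t) a) (𝓝[≠] 0) (𝓝 (fderiv ℂ G' 0 (0, 1) a)) := by
      have := (hasDerivAt_iff_tendsto_slope_zero.1 (hax2 a))
      refine this.congr fun t => ?_
      simp only [zero_add, smul_eq_mul]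
      have h0 : G' (0, 0) a = 0 := hG'0a
      rw [h0, sub_zero]
    have l2 : Tendsto (fun t : ℂ => (t ^ 2)⁻¹ * h a (0, t ^ 2)) (𝓝[≠] 0)
        (𝓝 (fderiv ℂ (h a) 0 (0, 1))) := by
      have h3 := (hasDerivAt_iff_tendsto_slope_zero.1 (m2 a))
      have h4 : Tendsto (fun t : ℂ => t ^ 2) (𝓝[≠] 0) (𝓝[≠] 0) := by
        refine tendsto_nhdsWithin_iff.2 ⟨?_, ?_⟩
        · have : ContinuousAt (fun t : ℂ => t ^ 2) 0 := by fun_prop
          have h5 := this.tendsto
          rw [zero_pow two_ne_zero] at h5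
          exact h5.mono_left nhdsWithin_le_nhds
        · filter_upwards [self_mem_nhdsWithin] with t ht
          exact pow_ne_zero 2 ht
      refine (h3.comp h4).congr fun t => ?_
      simp only [Function.comp, zero_add, smul_eq_mul, hh0, sub_zero]
    have l3 : Tendsto (fun t : ℂ => (t ^ 2)⁻¹ * h a (0, t ^ 2)) (𝓝[≠] 0)
        (𝓝 ((fderiv ℂ G' 0 (0, 1) a) ^ 2)) := by
      refine (l1.pow 2).congr' ?_
      filter_upwards [e1.filter_mono nhdsWithin_le_nhds] with t ht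
      rw [← ht, mul_pow, inv_pow]
    exact tendsto_nhds_unique l2 l3
  refine ⟨fun p => WithLp.toLp 2 fun b => h b p, ⟨?_, ?_⟩, ?_⟩
  · have h1 : AnalyticAt ℂ (fun p : ℂ × ℂ => fun b => h b p) 0 := by
      rw [analyticAt_pi_iff]; exact hh1
    exact (((PiLp.continuousLinearEquiv 2 ℂ (fun _ : Fin n => ℂ)).symm :
      (Fin n → ℂ) →L[ℂ] Cn n).analyticAt _).comp h1
  · intro v hv
    have hH : HasFDerivAt (fun p : ℂ × ℂ => (WithLp.toLp 2 fun b => h b p : Cn n))
        (((PiLp.continuousLinearEquiv 2 ℂ (fun _ : Fin n => ℂ)).symm :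
          (Fin n → ℂ) →L[ℂ] Cn n).comp (ContinuousLinearMap.pi fun b => fderiv ℂ (h b) 0)) 0 :=
      (((PiLp.continuousLinearEquiv 2 ℂ (fun _ : Fin n => ℂ)).symm :
        (Fin n → ℂ) →L[ℂ] Cn n).hasFDerivAt).comp (0 : ℂ × ℂ) (hasFDerivAt_pi.2 hhd)
    rw [hH.fderiv] at hv
    have hvb : ∀ b, fderiv ℂ (h b) 0 v = 0 := fun b => congrArg (fun w : Cn n => w b) hv
    have hlin : ∀ b, fderiv ℂ (h b) 0 v =
        v.1 * fderiv ℂ (h b) 0 (1, 0) + v.2 * fderiv ℂ (h b) 0 (0, 1) := by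
      intro b
      have hv' : v = v.1 • ((1, 0) : ℂ × ℂ) + v.2 • ((0, 1) : ℂ × ℂ) := by
        ext <;> simp
      conv_lhs => rw [hv']
      rw [map_add, map_smul, map_smul, smul_eq_mul, smul_eq_mul]
    have h2 : v.2 = 0 := by
      have := hvb a
      rw [hlin, m4, m5, mul_zero, zero_add] at this
      rcases mul_eq_zero.1 this with h | h
      · exact h
      · exact absurd (pow_eq_zero_iff (two_ne_zero) |>.1 h) k3
    have h1 : v.1 = 0 := by
      obtain ⟨b, hb, hbne⟩ := k4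
      have := hvb b
      rw [hlin, h2, zero_mul, add_zero, m3 b hb] at this
      exact (mul_eq_zero.1 this).resolve_right hbne
    exact Prod.ext h1 h2
  · -- the formula
    have hLinv : ∀ p : ℂ × ℂ, L (p.1 + p.2, p.1 - p.2) = p := by
      intro p
      simp only [L]
      refine Prod.ext ?_ ?_
      · change (p.1 + p.2 + (p.1 - p.2)) / 2 = p.1
        ring
      · change (p.1 + p.2 - (p.1 - p.2)) / 2 = p.2
        ring
    have hT : Tendsto (fun p : ℂ × ℂ => ((p.1 + p.2, p.1 - p.2) : ℂ × ℂ)) (𝓝 0) (𝓝 0) := by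
      have hc : Continuous (fun p : ℂ × ℂ => ((p.1 + p.2, p.1 - p.2) : ℂ × ℂ)) := by fun_prop
      have := hc.tendsto 0
      simp only [Prod.fst_zero, Prod.snd_zero, add_zero, sub_self] at this
      exact this
    have hall : ∀ᶠ p in 𝓝 (0 : ℂ × ℂ), ∀ b, sq a (G' p) b = h b (p.1, p.2 ^ 2) :=
      eventually_all.2 hh2
    filter_upwards [hT.eventually hall] with p hp
    ext b
    have := hp b
    simp only [hG', hLinv] at this
    exact this

end

end Crest.Agent.R272.Ax_834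
end

-- ▼ part R272/Idn3_834
section

/-!
# R272, leaf IDENT-E (helper834), part 3: the map `Psi` and its fibres
-/

set_option autoImplicit false
set_option linter.unusedSectionVars false

open Set Filter Topology
open scoped ContDiff

namespace Crest.Agent.R272.Idn_834

open Crest.Agent.R275.Geo Crest.Agent.R273.Fam_835 Crest.Agent.R272.Refl_246
open Crest.Agent.R272.AJ_956

noncomputable section

variable {C : Type} [TopologicalSpace C] {𝒞 : Cur C} {N : Set (C × C)} {U : C × C → E2}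
  {Y : Type} [TopologicalSpace Y] {CY : Fam 3 Y} {G : Type} [Group G] [MulAction G Y] {s : G}
  {V : Type} [TopologicalSpace V] {D : Fam 3 V}

/-- everything which goes into IDENT-E -/
structure Inp (𝒞 : Cur C) (N : Set (C × C)) (U : C × C → E2) (CY : Fam 3 Y) (G : Type) [Group G]
    [MulAction G Y] (s : G) (D : Fam 3 V) where
  hN : 𝒞.NearE N U
  K : K3 𝒞 U
  Ge : Germ 𝒞 CY G s
  S : StdU D

namespace Inp

variable (I : Inp 𝒞 N U CY G s D)

/-- the domain of the formula of index `i` -/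
def Dm (i : Fin 2) : Set ((C × C) × ℂ) := {p | p ∈ (I.Ge.E i).source ∧ p.1 ∈ N ∧ p.1 ∈ I.K.N i}

/-- coordinates of `Psi` -/
def co (_ : Inp 𝒞 N U CY G s D) (i : Fin 2) (p : (C × C) × ℂ) : (ℂ × ℂ) × ℂ :=
  ((𝒞.TT U i p.1, U p.1 i), p.2 * I.K.g i p.1)

/-- the formula of index `i` -/
def psi (i : Fin 2) (p : (C × C) × ℂ) : V := (D.e (I.S.d i)).symm (h3 (I.co I i p))

theorem psi_mem (i : Fin 2) (p : (C × C) × ℂ) : I.psi i p ∈ (D.e (I.S.d i)).source := by
  refine (D.e (I.S.d i)).map_target ?_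
  rw [I.S.tgt i]
  trivial

theorem e_psi (i : Fin 2) (p : (C × C) × ℂ) : D.e (I.S.d i) (I.psi i p) = h3 (I.co I i p) := by
  refine (D.e (I.S.d i)).right_inv ?_
  rw [I.S.tgt i]
  trivial

include I in
theorem ss (y : Y) : s • s • y = y := by
  rw [smul_smul, I.Ge.two, one_smul]

theorem sw_Dm {i : Fin 2} {p : (C × C) × ℂ} (hp : p ∈ I.Dm i) : sw p ∈ I.Dm i :=
  ⟨I.Ge.swap_mem i p hp.1, I.hN.swap_N _ hp.2.1, I.K.swap_mem i _ hp.2.2⟩

theorem Dm_Ci {i : Fin 2} {p : (C × C) × ℂ} (hp : p ∈ I.Dm i) :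
    p.1.1 ∈ Ci 𝒞 i ∧ p.1.2 ∈ Ci 𝒞 i := I.Ge.dom i p hp.1

theorem psi_sw {i : Fin 2} {p : (C × C) × ℂ} (hp : p ∈ I.Dm i) : I.psi i (sw p) = I.psi i p := by
  have h1 : 𝒞.TT U i p.1.swap = 𝒞.TT U i p.1 :=
    TT_swap I.hN hp.2.1 fun _ => (I.Dm_Ci hp).1
  have h2 : U p.1.swap = U p.1 := I.hN.swap _ hp.2.1
  have h3 := I.K.symm i _ hp.2.2
  simp only [psi, co, sw, h1, h2, h3]

/-- same index -/
theorem same {i : Fin 2} {p q : (C × C) × ℂ} (hp : p ∈ I.Dm i) (hq : q ∈ I.Dm i)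
    (h : I.psi i p = I.psi i q) : q = p ∨ q = sw p := by
  have h0 : I.co I i p = I.co I i q := by
    have := congrArg (D.e (I.S.d i)) h
    rw [I.e_psi, I.e_psi] at this
    exact h3.injective this
  obtain ⟨⟨x, x'⟩, ξ⟩ := p
  simp only [co, Prod.mk.injEq] at h0
  obtain ⟨⟨h1, h2⟩, h4⟩ := h0
  have hpN := hp.2.1
  have hqN := hq.2.1
  simp only at hpN hqN
  have hpd := I.K.dom i _ hp.2.2
  have hqd := I.K.dom i _ hq.2.2
  simp only at hpd hqd
  have hx : q.1 = (x, x') ∨ q.1 = (x, x').swap := by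
    by_cases hg : ((x, x') : C × C) ∈ 𝒞.Gam
    · have hU : U (x, x') i = 0 := by rw [U_gam I.hN hg]; rfl
      have hg' : q.1 ∈ 𝒞.Gam := by
        rcases hqd.2.2 with h | h
        · exact h
        · exact absurd (by rw [← h2, hU]) h
      rw [TT_gam hg, TT_gam hg'] at h1
      have h5 := eq_of_slope hpd.1 hqd.1 h1
      have e1 : q.1.2 = 𝒞.iv q.1.1 := hg'
      have e2 : x' = 𝒞.iv x := hg
      rcases h5 with h5 | h5
      · left
        refine Prod.ext h5 ?_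
        change q.1.2 = x'
        rw [e1, show q.1.1 = x from h5, e2]
      · right
        refine Prod.ext ?_ ?_
        · change q.1.1 = x'
          rw [show q.1.1 = 𝒞.iv x from h5, e2]
        · change q.1.2 = x
          rw [e1, show q.1.1 = 𝒞.iv x from h5, 𝒞.iv_iv]
    · have hU : U (x, x') i ≠ 0 := hpd.2.2.resolve_left hg
      have hU' : U q.1 i ≠ 0 := by rw [← h2]; exact hU
      have hg' : q.1 ∉ 𝒞.Gam := fun hh => hU' (by rw [U_gam I.hN hh]; rfl)
      rw [TT_off hg, TT_off hg', ← h2] at h1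
      have h6 : U (x, x') (1 - i) = U q.1 (1 - i) := by
        field_simp at h1
        exact h1
      have h7 : U (x, x') = U q.1 := by
        funext j
        have : j = i ∨ j = 1 - i := by fin_cases i <;> fin_cases j <;> simp
        rcases this with rfl | rfl
        · exact h2
        · exact h6
      refine I.hN.inj _ hpN _ hqN h7 ?_
      intro h0
      exact hU (by rw [h0]; rfl)
  have hgg : I.K.g i q.1 = I.K.g i (x, x') := by
    rcases hx with h | h
    · rw [h]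
    · rw [h, I.K.symm i _ hp.2.2]
  have hne : I.K.g i (x, x') ≠ 0 := I.K.ne i _ hp.2.2
  have h8 : q.2 = ξ := by
    rw [hgg] at h4
    exact (mul_right_cancel₀ hne h4).symm
  rcases hx with h | h
  · left
    exact Prod.ext h h8
  · right
    exact Prod.ext h h8

/-- different index -/
theorem diff01 {p q : (C × C) × ℂ} (hp : p ∈ I.Dm 0) (hq : q ∈ I.Dm 1) :
    I.psi 0 p = I.psi 1 q ↔ (I.Ge.E 1 q = I.Ge.E 0 p ∨ I.Ge.E 1 q = s • I.Ge.E 0 p) := by
  have hpN := hp.2.1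
  have hqN := hq.2.1
  have hpd := I.K.dom 0 _ hp.2.2
  have hqd := I.K.dom 1 _ hq.2.2
  have hpc := I.Dm_Ci hp
  have hqc := I.Dm_Ci hq
  -- equality of values in terms of coordinates, given the chart condition
  have hval : ∀ p : (C × C) × ℂ, 𝒞.TT U 0 p.1 ≠ 0 →
      D.e (I.S.d 1) (I.psi 0 p) = h3 (((𝒞.TT U 0 p.1)⁻¹, 𝒞.TT U 0 p.1 * U p.1 0),
        (𝒞.TT U 0 p.1) ^ 2 * (p.2 * I.K.g 0 p.1)) ∧ I.psi 0 p ∈ (D.e (I.S.d 1)).source := by
    intro p hT
    have h1 : I.psi 0 p ∈ (D.e (I.S.d (1 - 0))).source := by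
      rw [I.S.ov 0 _ (I.psi_mem 0 p), I.e_psi]
      exact hT
    have h2 := I.S.tr 0 _ (I.psi_mem 0 p) h1
    rw [I.e_psi] at h2
    exact ⟨h2, h1⟩
  constructor
  · intro h
    have hT : 𝒞.TT U 0 p.1 ≠ 0 := by
      have h1 : I.psi 0 p ∈ (D.e (I.S.d (1 - 0))).source := by
        rw [h]; exact I.psi_mem 1 q
      rw [I.S.ov 0 _ (I.psi_mem 0 p), I.e_psi] at h1
      exact h1
    have h0 : I.co I 1 q = (((𝒞.TT U 0 p.1)⁻¹, 𝒞.TT U 0 p.1 * U p.1 0),
        (𝒞.TT U 0 p.1) ^ 2 * (p.2 * I.K.g 0 p.1)) := by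
      have := (hval p hT).1
      rw [h, I.e_psi] at this
      exact h3.injective this
    simp only [co, Prod.mk.injEq] at h0
    obtain ⟨⟨h1, h2⟩, h4⟩ := h0
    have hx : q.1 = p.1 ∨ q.1 = p.1.swap := by
      by_cases hg : p.1 ∈ 𝒞.Gam
      · have hU : U p.1 0 = 0 := by rw [U_gam I.hN hg]; rfl
        have hg' : q.1 ∈ 𝒞.Gam := by
          rcases hqd.2.2 with h | h
          · exact h
          · exact absurd (by rw [h2, hU, mul_zero]) h
        rw [TT_gam hg, TT_gam hg'] at h1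
        rw [TT_gam hg] at hT
        -- `p.1.1 ∈ Ci 1`
        have hp1 : p.1.1 ∈ Ci 𝒞 1 := by
          intro h0
          apply hT
          simp [tv, h0]
        have h5 : tv 𝒞 1 p.1.1 = tv 𝒞 1 q.1.1 := by
          rw [h1]
          exact tv_inv 0 p.1.1
        have h6 := eq_of_slope hp1 hqd.1 h5
        have e1 : q.1.2 = 𝒞.iv q.1.1 := hg'
        have e2 : p.1.2 = 𝒞.iv p.1.1 := hg
        rcases h6 with h6 | h6
        · left
          refine Prod.ext h6 ?_
          rw [e1, h6, e2]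
        · right
          refine Prod.ext ?_ ?_
          · rw [h6, Prod.fst_swap, e2]
          · rw [e1, h6, 𝒞.iv_iv, Prod.snd_swap]
      · have hU : U p.1 0 ≠ 0 := hpd.2.2.resolve_left hg
        rw [TT_off hg] at h1 h2 hT
        simp only [sub_zero] at h1 h2 hT
        have h5 : U q.1 1 = U p.1 1 := by
          rw [h2]; field_simp
        have hU1 : U p.1 1 ≠ 0 := fun h0 => hT (by rw [h0, zero_div])
        have hU1' : U q.1 1 ≠ 0 := by rw [h5]; exact hU1
        have hg' : q.1 ∉ 𝒞.Gam := fun hh => hU1' (by rw [U_gam I.hN hh]; rfl)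
        rw [TT_off hg'] at h1
        simp only [sub_self] at h1
        have h6 : U q.1 0 = U p.1 0 := by
          rw [h5, inv_div] at h1
          field_simp at h1
          exact h1
        have h7 : U p.1 = U q.1 := by
          funext j
          fin_cases j
          · exact h6.symm
          · exact h5.symm
        refine I.hN.inj _ hpN _ hqN h7 ?_
        intro h0
        exact hU (by rw [h0]; rfl)
    have hp1 : p.1 ∈ I.K.N 1 := by
      rcases hx with h | h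
      · rw [← h]; exact hq.2.2
      · have := I.K.swap_mem 1 _ hq.2.2
        rw [h, Prod.swap_swap] at this
        exact this
    have hgg : I.K.g 1 q.1 = I.K.g 1 p.1 := by
      rcases hx with h | h
      · rw [h]
      · rw [h, I.K.symm 1 _ hp1]
    have hne : I.K.g 1 p.1 ≠ 0 := I.K.ne 1 _ hp1
    have hrel := I.K.rel _ hp.2.2 hp1
    have h8 : q.2 = p.2 * (tv 𝒞 0 p.1.1 * tv 𝒞 0 p.1.2) := by
      rw [hgg] at h4
      apply mul_right_cancel₀ hne
      rw [h4]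
      linear_combination -p.2 * hrel
    rcases hx with h | h
    · left
      exact ((I.Ge.ov p hp.1 q hq.1).2 ⟨h, h8⟩).symm
    · right
      have h9 : I.Ge.E 0 p = I.Ge.E 1 (sw q) := by
        refine (I.Ge.ov p hp.1 (sw q) (I.Ge.swap_mem 1 _ hq.1)).2 ⟨?_, h8⟩
        simp only [sw, h, Prod.swap_swap]
      rw [← I.Ge.swap 1 q hq.1] at h9
      rw [h9, I.ss]
  · -- reverse
    have key : ∀ p ∈ I.Dm 0, ∀ q ∈ I.Dm 1, I.Ge.E 1 q = I.Ge.E 0 p → I.psi 0 p = I.psi 1 q := by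
      intro p hp q hq h
      obtain ⟨h1, h2⟩ := (I.Ge.ov p hp.1 q hq.1).1 h.symm
      have hp1 : p.1 ∈ I.K.N 1 := by rw [← h1]; exact hq.2.2
      have hpc := I.Dm_Ci hp
      have hpd := I.K.dom 0 _ hp.2.2
      have hpd1 := I.K.dom 1 _ hp1
      have hrel := I.K.rel _ hp.2.2 hp1
      have hT : 𝒞.TT U 0 p.1 ≠ 0 ∧ 𝒞.TT U 1 p.1 = (𝒞.TT U 0 p.1)⁻¹ ∧
          U p.1 1 = 𝒞.TT U 0 p.1 * U p.1 0 := by
        by_cases hg : p.1 ∈ 𝒞.Gam
        · rw [TT_gam hg, TT_gam hg, U_gam I.hN hg]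
          refine ⟨?_, tv_inv 0 _, by simp⟩
          simp only [tv, sub_zero]
          exact div_ne_zero hpd1.1 hpd.1
        · have hU : U p.1 0 ≠ 0 := hpd.2.2.resolve_left hg
          have hU1 : U p.1 1 ≠ 0 := hpd1.2.2.resolve_left hg
          rw [TT_off hg, TT_off hg]
          simp only [sub_zero, sub_self]
          refine ⟨div_ne_zero hU1 hU, by rw [inv_div], by field_simp⟩
      obtain ⟨hT0, hT1, hT2⟩ := hT
      obtain ⟨hv1, hv2⟩ := hval p hT0
      refine (D.e (I.S.d 1)).injOn hv2 (I.psi_mem 1 q) ?_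
      rw [hv1, I.e_psi]
      congr 1
      simp only [co, h1, hT1, hT2, h2, Prod.mk.injEq, true_and]
      linear_combination -p.2 * hrel
    rintro (h | h)
    · exact key p hp q hq h
    · rw [I.Ge.swap 0 p hp.1] at h
      rw [← I.psi_sw hp]
      exact key (sw p) (I.sw_Dm hp) q hq h

theorem E_inj {i : Fin 2} {p q : (C × C) × ℂ} (hp : p ∈ (I.Ge.E i).source)
    (hq : q ∈ (I.Ge.E i).source) (h : I.Ge.E i p = I.Ge.E i q) : p = q :=
  (I.Ge.E i).injOn hp hq h

/-- **fibres** -/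
theorem fib {i j : Fin 2} {p q : (C × C) × ℂ} (hp : p ∈ I.Dm i) (hq : q ∈ I.Dm j) :
    I.psi i p = I.psi j q ↔ (I.Ge.E j q = I.Ge.E i p ∨ I.Ge.E j q = s • I.Ge.E i p) := by
  have hij : i = j ∨ (i = 0 ∧ j = 1) ∨ (i = 1 ∧ j = 0) := by
    fin_cases i <;> fin_cases j <;> simp
  rcases hij with rfl | ⟨rfl, rfl⟩ | ⟨rfl, rfl⟩
  · constructor
    · intro h
      rcases I.same hp hq h with h | h
      · left; rw [h]
      · right; rw [I.Ge.swap i p hp.1, h]
    · rintro (h | h)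
      · rw [I.E_inj hq.1 hp.1 h]
      · rw [I.Ge.swap i p hp.1] at h
        rw [I.E_inj hq.1 (I.sw_Dm hp).1 h, I.psi_sw hp]
  · exact I.diff01 hp hq
  · rw [eq_comm, I.diff01 hq hp]
    constructor
    · rintro (h | h)
      · left; exact h.symm
      · right; rw [h, I.ss]
    · rintro (h | h)
      · left; exact h.symm
      · right; rw [h, I.ss]

open Classical in
/-- the map `Psi` -/
def Psi (y : Y) : V :=
  if h : ∃ p ∈ I.Dm 0, I.Ge.E 0 p = y then I.psi 0 h.choose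
  else I.psi 1 ((I.Ge.E 1).symm y)

theorem Psi_E {i : Fin 2} {p : (C × C) × ℂ} (hp : p ∈ I.Dm i) :
    I.Psi (I.Ge.E i p) = I.psi i p := by
  classical
  by_cases h : ∃ q ∈ I.Dm 0, I.Ge.E 0 q = I.Ge.E i p
  · have h1 : I.Psi (I.Ge.E i p) = I.psi 0 h.choose := dif_pos h
    rw [h1]
    obtain ⟨h2, h4⟩ := h.choose_spec
    exact (I.fib h2 hp).2 (Or.inl h4.symm)
  · have h1 : I.Psi (I.Ge.E i p) = I.psi 1 ((I.Ge.E 1).symm (I.Ge.E i p)) := dif_neg h
    have hi : i = 1 := by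
      fin_cases i
      · exact absurd ⟨p, hp, rfl⟩ h
      · rfl
    subst hi
    rw [h1, (I.Ge.E 1).left_inv hp.1]

/-- the covered region -/
def Reg : Set Y := {y | ∃ i, ∃ p ∈ I.Dm i, y = I.Ge.E i p}

theorem Psi_fib {y y' : Y} (hy : y ∈ I.Reg) (hy' : y' ∈ I.Reg) :
    I.Psi y = I.Psi y' ↔ (y' = y ∨ y' = s • y) := by
  obtain ⟨i, p, hp, rfl⟩ := hy
  obtain ⟨j, q, hq, rfl⟩ := hy'
  rw [I.Psi_E hp, I.Psi_E hq]
  exact I.fib hp hq

theorem grp {y : Y} (hy : y ∈ I.Reg) (g : G) (hg : g • y ∈ I.Reg) : g = 1 ∨ g = s := by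
  obtain ⟨i, p, hp, rfl⟩ := hy
  obtain ⟨j, q, hq, h⟩ := hg
  exact I.Ge.grp g i j p hp.1 q hq.1 h

end Inp

end

end Crest.Agent.R272.Idn_834
end

-- ▼ part R272/Idn4_834
section

/-!
# R272, leaf IDENT-E (helper834), part 4: local structure of `Psi` along `e` and the theorem `ident`
-/

set_option autoImplicit false
set_option linter.unusedSectionVars false

open Set Filter Topology
open scoped ContDiff

namespace Crest.Agent.R272.Idn_834

open Crest.Agent.R275.Geo Crest.Agent.R273.Fam_835 Crest.Agent.R272.Refl_246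
open Crest.Agent.R272.AJ_956

noncomputable section

/-- `(z₀, z₁, ξ) ↦ (z₀ + z₁, z₀ - z₁, ξ)` -/
def Lpm : Cn 3 ≃L[ℂ] Cn 3 :=
  LinearEquiv.toContinuousLinearEquiv
    { toFun := fun z => WithLp.toLp 2 ![z 0 + z 1, z 0 - z 1, z 2]
      invFun := fun z => WithLp.toLp 2 ![(z 0 + z 1) / 2, (z 0 - z 1) / 2, z 2]
      map_add' := by
        intro p q
        ext i
        fin_cases i
        · simp; ring
        · simp; ring
        · simp
      map_smul' := by
        intro r p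
        ext i
        fin_cases i
        · simp; ring
        · simp; ring
        · simp
      left_inv := by
        intro z
        ext i
        fin_cases i
        · simp
        · simp
        · simp
      right_inv := by
        intro z
        ext i
        fin_cases i
        · simp; ring
        · simp; ring
        · simp }

@[simp] theorem Lpm_0 (z : Cn 3) : Lpm z 0 = z 0 + z 1 := rfl
@[simp] theorem Lpm_1 (z : Cn 3) : Lpm z 1 = z 0 - z 1 := rfl
@[simp] theorem Lpm_2 (z : Cn 3) : Lpm z 2 = z 2 := rfl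

variable {C : Type} [TopologicalSpace C] {𝒞 : Cur C} {N : Set (C × C)} {U : C × C → E2}
  {Y : Type} [TopologicalSpace Y] {CY : Fam 3 Y} {G : Type} [Group G] [MulAction G Y] {s : G}
  {V : Type} [TopologicalSpace V] {D : Fam 3 V}

theorem mem_pc {c c' : C} {p : (C × C) × ℂ} :
    p ∈ (pc 𝒞 c c').source ↔ p.1.1 ∈ (𝒞.k c).source ∧ p.1.2 ∈ (𝒞.k c').source := by
  simp [pc, mem_prod]

theorem pc_apply (c c' : C) (p : (C × C) × ℂ) :
    pc 𝒞 c c' p = h3 ((𝒞.k c p.1.1, 𝒞.k c' p.1.2), p.2) := rfl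

namespace Inp

variable (I : Inp 𝒞 N U CY G s D)

/-- the centre -/
def y0 (i : Fin 2) (c : C) : Y := I.Ge.E i ((c, 𝒞.iv c), 0)

/-- the chart of `Y` at the centre -/
def ph (i : Fin 2) (c c' : C) : OpenPartialHomeomorph Y (Cn 3) :=
  (I.Ge.E i).symm.trans (pc 𝒞 c c')

theorem mem_ph {i : Fin 2} {c c' : C} {y : Y} : y ∈ (I.ph i c c').source ↔
    ∃ p ∈ (I.Ge.E i).source, I.Ge.E i p = y ∧ p.1.1 ∈ (𝒞.k c).source ∧
      p.1.2 ∈ (𝒞.k c').source := by
  rw [ph, OpenPartialHomeomorph.trans_source, OpenPartialHomeomorph.symm_source]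
  constructor
  · rintro ⟨h1, h2⟩
    rw [mem_preimage, mem_pc] at h2
    exact ⟨(I.Ge.E i).symm y, (I.Ge.E i).map_target h1, (I.Ge.E i).right_inv h1, h2.1, h2.2⟩
  · rintro ⟨p, hp, rfl, h1, h2⟩
    refine ⟨(I.Ge.E i).map_source hp, ?_⟩
    rw [mem_preimage, (I.Ge.E i).left_inv hp, mem_pc]
    exact ⟨h1, h2⟩

theorem ph_E {i : Fin 2} {c c' : C} {p : (C × C) × ℂ} (hp : p ∈ (I.Ge.E i).source) :
    I.ph i c c' (I.Ge.E i p) = h3 ((𝒞.k c p.1.1, 𝒞.k c' p.1.2), p.2) := by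
  change pc 𝒞 c c' ((I.Ge.E i).symm (I.Ge.E i p)) = _
  rw [(I.Ge.E i).left_inv hp, pc_apply]

theorem y0_mem {i : Fin 2} {c : C} (hc : c ∈ Ci 𝒞 i) : I.y0 i c ∈ (I.ph i c (𝒞.iv c)).source := by
  rw [I.mem_ph]
  exact ⟨_, I.Ge.mem i c hc, rfl, 𝒞.k_mem c, 𝒞.k_mem _⟩

theorem ph_y0 {i : Fin 2} {c : C} (hc : c ∈ Ci 𝒞 i) : I.ph i c (𝒞.iv c) (I.y0 i c) = 0 := by
  rw [y0, I.ph_E (I.Ge.mem i c hc)]
  simp only [𝒞.k_zero]
  exact map_zero h3

/-- transfer of local statements about `C × C` -/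
theorem ev {i : Fin 2} {c : C} (hc : c ∈ Ci 𝒞 i) {P : C × C → Prop}
    (hP : ∀ᶠ x in 𝓝 ((c, 𝒞.iv c) : C × C), P x) :
    ∀ᶠ y in 𝓝 (I.y0 i c), ∃ p ∈ (I.Ge.E i).source, I.Ge.E i p = y ∧ P p.1 := by
  have h0 := I.Ge.mem i c hc
  have ht : I.y0 i c ∈ (I.Ge.E i).target := (I.Ge.E i).map_source h0
  have h1 : Tendsto (fun y => ((I.Ge.E i).symm y).1) (𝓝 (I.y0 i c)) (𝓝 (c, 𝒞.iv c)) := by
    have h2 : ContinuousAt (fun y => ((I.Ge.E i).symm y).1) (I.y0 i c) :=
      ((I.Ge.E i).continuousAt_symm ht).fst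
    have h3 := h2.tendsto
    have h4 : ((I.Ge.E i).symm (I.y0 i c)).1 = (c, 𝒞.iv c) := by
      rw [y0, (I.Ge.E i).left_inv h0]
    rwa [h4] at h3
  filter_upwards [h1.eventually hP, (I.Ge.E i).open_target.mem_nhds ht] with y hy hy2
  exact ⟨_, (I.Ge.E i).map_target hy2, (I.Ge.E i).right_inv hy2, hy⟩

/-- near the centre everything is in the region -/
theorem ev_Dm {i : Fin 2} {c : C} (hc : c ∈ Ci 𝒞 i) {P : C × C → Prop}
    (hP : ∀ᶠ x in 𝓝 ((c, 𝒞.iv c) : C × C), P x) :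
    ∀ᶠ y in 𝓝 (I.y0 i c), ∃ p ∈ I.Dm i, I.Ge.E i p = y ∧ P p.1 := by
  have hg : ((c, 𝒞.iv c) : C × C) ∈ 𝒞.Gam := rfl
  have h1 : ∀ᶠ x in 𝓝 ((c, 𝒞.iv c) : C × C), x ∈ N ∧ x ∈ I.K.N i :=
    inter_mem (I.hN.open_N.mem_nhds (I.hN.sub hg)) ((I.K.open_N i).mem_nhds (I.K.sub i c hc))
  filter_upwards [I.ev hc (h1.and hP)] with y hy
  obtain ⟨p, hp, hpy, h2, h3⟩ := hy
  exact ⟨p, ⟨hp, h2.1, h2.2⟩, hpy, h3⟩

theorem cont_aux {φ : Y → Cn 3} {B : Cn 3 → Cn 3} {k : D.ι} (hk : (D.e k).target = univ) {y : Y}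
    (hφ : ContinuousAt φ y) (hB : ContinuousAt B (φ y)) {Ps : Y → V}
    (hev : ∀ᶠ y' in 𝓝 y, Ps y' = (D.e k).symm (B (φ y'))) : ContinuousAt Ps y := by
  have h1 : ContinuousAt (fun y' => (D.e k).symm (B (φ y'))) y := by
    have h2 : ContinuousAt (fun y' => B (φ y')) y := ContinuousAt.comp (f := φ) (g := B) hB hφ
    refine ContinuousAt.comp (f := fun y' => B (φ y')) (g := (D.e k).symm) ?_ h2
    refine (D.e k).continuousAt_symm ?_
    rw [hk]; trivial
  exact h1.congr (hev.mono fun y' h => h.symm)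

/-- non-Weierstrass points -/
theorem loc_free {i : Fin 2} {c : C} (hc : c ∈ Ci 𝒞 i) (hW : 𝒞.iv c ≠ c) :
    ∀ᶠ y in 𝓝 (I.y0 i c), y ∈ I.Reg ∧ ContinuousAt I.Psi y ∧ LocFree CY D I.Psi y := by
  obtain ⟨F, F', hF, hF', hev⟩ := I.hN.coord c i hW hc
  obtain ⟨γ, hγ, hev2⟩ := I.K.an i c hc
  set φ := I.ph i c (𝒞.iv c) with hφ
  have hγ0 : γ 0 ≠ 0 := by
    have h1 := hev2.self_of_nhds
    simp only [𝒞.k_zero] at h1
    change I.K.g i (c, 𝒞.iv c) = γ 0 at h1
    rw [← h1]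
    exact I.K.ne i _ (I.K.sub i c hc)
  obtain ⟨B', hB'⟩ := BB_deriv hF' hγ hγ0
  have hBan := BB_an hF hγ
  -- the formula near the centre
  have hform : ∀ᶠ y in 𝓝 (I.y0 i c), y ∈ I.Reg ∧ I.Psi y = (D.e (I.S.d i)).symm (BB F γ (φ y)) := by
    filter_upwards [I.ev_Dm hc (hev.and hev2)] with y hy
    obtain ⟨p, hp, rfl, h1, h2⟩ := hy
    refine ⟨⟨i, p, hp, rfl⟩, ?_⟩
    rw [I.Psi_E hp, psi, hφ, I.ph_E hp.1]
    congr 1
    simp only [co, BB, h3_0, h3_1, h3_2]
    rw [← h1, ← h2]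
  have hy0 : I.y0 i c ∈ φ.source := I.y0_mem hc
  have hφ0 : φ (I.y0 i c) = 0 := I.ph_y0 hc
  have hinv : ∀ᶠ y in 𝓝 (I.y0 i c), ∃ g' : Cn 3 ≃L[ℂ] Cn 3,
      HasStrictFDerivAt (BB F γ) (g' : Cn 3 →L[ℂ] Cn 3) (φ y) := by
    have h1 := (φ.continuousAt hy0).tendsto
    rw [hφ0] at h1
    exact h1.eventually (evInv hBan hB')
  filter_upwards [hform, eventually_eventually_nhds.2 hform, hinv, φ.open_source.mem_nhds hy0]
    with y h1 h2 h4 h5
  obtain ⟨g', hg'⟩ := h4
  refine ⟨h1.1, ?_, ?_⟩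
  · exact cont_aux (I.S.tgt i) (φ.continuousAt h5) hg'.continuousAt (h2.mono fun _ h => h.2)
  · refine ⟨φ, I.Ge.cpt i c (𝒞.iv c), I.S.d i, g', h5, ?_, ?_⟩
    · rw [h1.2]
      refine (D.e (I.S.d i)).map_target ?_
      rw [I.S.tgt]; trivial
    · refine hg'.congr_of_eventuallyEq ?_
      have h6 : Tendsto φ.symm (𝓝 (φ y)) (𝓝 y) := by
        have := (φ.continuousAt_symm (φ.map_source h5)).tendsto
        rwa [φ.left_inv h5] at this
      filter_upwards [h6.eventually h2, φ.open_target.mem_nhds (φ.map_source h5)] with z hz hz2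
      rw [hz.2, φ.right_inv hz2, (D.e (I.S.d i)).right_inv]
      rw [I.S.tgt]; trivial

/-- the adapted chart at a Weierstrass point -/
def rc (i : Fin 2) (c : C) : RC G CY where
  e := (I.ph i c c).transHomeomorph Lpm.toHomeomorph
  hol := ((I.Ge.cpt i c c).transLin Lpm).hol
  holi := ((I.Ge.cpt i c c).transLin Lpm).holi
  k := some (s, 1)
  free := fun h => absurd h (by simp)
  inv := by
    intro s' a h u hu
    rw [Option.some.injEq, Prod.mk.injEq] at h
    obtain ⟨rfl, rfl⟩ := h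
    rw [OpenPartialHomeomorph.transHomeomorph_source, I.mem_ph] at hu ⊢
    obtain ⟨p, hp, rfl, h1, h2⟩ := hu
    exact ⟨sw p, I.Ge.swap_mem i p hp, (I.Ge.swap i p hp).symm, h2, h1⟩
  ref := by
    intro s' a h u hu
    rw [Option.some.injEq, Prod.mk.injEq] at h
    obtain ⟨rfl, rfl⟩ := h
    rw [OpenPartialHomeomorph.transHomeomorph_source, I.mem_ph] at hu
    obtain ⟨p, hp, rfl, h1, h2⟩ := hu
    change Lpm (I.ph i c c (s • I.Ge.E i p)) = rf 1 (Lpm (I.ph i c c (I.Ge.E i p)))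
    rw [I.Ge.swap i p hp, I.ph_E (I.Ge.swap_mem i p hp), I.ph_E hp]
    ext j
    fin_cases j
    · change Lpm _ 0 = rf 1 (Lpm _) 0
      rw [rf_ne (by decide)]
      simp only [sw, Lpm_0, h3_0, h3_1, Prod.fst_swap, Prod.snd_swap]
      ring
    · change Lpm _ 1 = rf 1 (Lpm _) 1
      rw [rf_same]
      simp only [sw, Lpm_1, h3_0, h3_1, Prod.fst_swap, Prod.snd_swap]
      ring
    · change Lpm _ 2 = rf 1 (Lpm _) 2
      rw [rf_ne (by decide)]
      simp only [sw, Lpm_2, h3_2]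
  two := by
    intro s' a h g u hu hgu
    rw [Option.some.injEq, Prod.mk.injEq] at h
    obtain ⟨rfl, rfl⟩ := h
    rw [OpenPartialHomeomorph.transHomeomorph_source, I.mem_ph] at hu hgu
    obtain ⟨p, hp, rfl, h1, h2⟩ := hu
    obtain ⟨q, hq, hqe, h4, h5⟩ := hgu
    exact I.Ge.grp g i i p hp q hq hqe.symm

/-- Weierstrass points -/
theorem loc_fold {i : Fin 2} {c : C} (hc : c ∈ Ci 𝒞 i) (hW : 𝒞.iv c = c) :
    ∀ᶠ y in 𝓝 (I.y0 i c), y ∈ I.Reg ∧ ContinuousAt I.Psi y ∧ LocFold CY D s I.Psi y := by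
  obtain ⟨F, F', hF, hF', hev⟩ := I.hN.coordW c i hW hc
  obtain ⟨γ, hγ, hev2⟩ := I.K.an i c hc
  set φ := I.ph i c c with hφ
  have hyy : I.y0 i c = I.Ge.E i ((c, c), 0) := by rw [y0, hW]
  have hmem : ((c, c), (0 : ℂ)) ∈ (I.Ge.E i).source := by
    have := I.Ge.mem i c hc
    rwa [hW] at this
  rw [hW] at hev2
  have hsubc : ((c, c) : C × C) ∈ I.K.N i := by
    have := I.K.sub i c hc
    rwa [hW] at this
  have hy0 : I.y0 i c ∈ φ.source := by
    rw [hφ, I.mem_ph, hyy]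
    exact ⟨_, hmem, rfl, 𝒞.k_mem c, 𝒞.k_mem c⟩
  have hφ0 : φ (I.y0 i c) = 0 := by
    rw [hφ, hyy, I.ph_E hmem]
    simp only [𝒞.k_zero]
    exact map_zero h3
  -- evenness of `γ`
  have h0t : (0 : ℂ) ∈ (𝒞.k c).target := by
    rw [← 𝒞.k_zero c]
    exact (𝒞.k c).map_source (𝒞.k_mem c)
  have hks : ContinuousAt (fun z : ℂ × ℂ => (((𝒞.k c).symm z.1, (𝒞.k c).symm z.2) : C × C)) 0 := by
    refine ContinuousAt.prodMk ?_ ?_
    · exact ContinuousAt.comp (f := Prod.fst) (g := (𝒞.k c).symm)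
        ((𝒞.k c).continuousAt_symm h0t) continuousAt_fst
    · exact ContinuousAt.comp (f := Prod.snd) (g := (𝒞.k c).symm)
        ((𝒞.k c).continuousAt_symm h0t) continuousAt_snd
  have hk0 : (𝒞.k c).symm 0 = c := by
    rw [← 𝒞.k_zero c]; exact (𝒞.k c).left_inv (𝒞.k_mem c)
  have hsym : ∀ᶠ z in 𝓝 (0 : ℂ × ℂ), γ (z.2, z.1) = γ z := by
    have h1 := hks.tendsto
    simp only [Prod.fst_zero, Prod.snd_zero, hk0] at h1
    have hsw : Tendsto (fun x : C × C => x.swap) (𝓝 (c, c)) (𝓝 (c, c)) :=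
      (continuous_swap.tendsto (c, c))
    have h2 : ∀ᶠ x in 𝓝 ((c, c) : C × C), x ∈ I.K.N i ∧ I.K.g i x = γ (𝒞.k c x.1, 𝒞.k c x.2) ∧
        I.K.g i x.swap = γ (𝒞.k c x.2, 𝒞.k c x.1) :=
      inter_mem ((I.K.open_N i).mem_nhds hsubc) (hev2.and (hsw.eventually hev2))
    filter_upwards [h1.eventually h2, prod_mem_nhds ((𝒞.k c).open_target.mem_nhds h0t)
      ((𝒞.k c).open_target.mem_nhds h0t)] with z hz hz2
    obtain ⟨hz0, hz1, hz3⟩ := hz
    simp only [(𝒞.k c).right_inv hz2.1, (𝒞.k c).right_inv hz2.2] at hz1 hz3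
    rw [← hz3, I.K.symm i _ hz0, hz1]
  let L : ℂ × ℂ → ℂ × ℂ := fun p => ((p.1 + p.2) / 2, (p.1 - p.2) / 2)
  have hLc : Continuous L := by fun_prop
  have hL0 : L 0 = 0 := by simp [L]
  have hLan : AnalyticAt ℂ L 0 := by
    have h1 : AnalyticAt ℂ (fun p : ℂ × ℂ => (p.1 + p.2) / 2) 0 :=
      (analyticAt_fst.add analyticAt_snd).div_const
    have h2 : AnalyticAt ℂ (fun p : ℂ × ℂ => (p.1 - p.2) / 2) 0 :=
      (analyticAt_fst.sub analyticAt_snd).div_const
    exact h1.prod h2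
  have hfan : AnalyticAt ℂ (fun p => γ (L p)) 0 := by
    refine AnalyticAt.comp (g := γ) (f := L) ?_ hLan
    rw [hL0]; exact hγ
  have hfe : ∀ᶠ p in 𝓝 (0 : ℂ × ℂ), γ (L (p.1, -p.2)) = γ (L p) := by
    have h1 := hLc.tendsto 0
    rw [hL0] at h1
    filter_upwards [h1.eventually hsym] with p hp
    rw [← hp]
    simp only [L]
    congr 2 <;> ring
  obtain ⟨γe, hγe, hγev⟩ := even_desc hfan hfe
  have hγe0 : γe 0 ≠ 0 := by
    have h1 := hγev.self_of_nhds
    rw [hL0] at h1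
    simp only [Prod.fst_zero, Prod.snd_zero] at h1
    have h2 : (((0 : ℂ), (0 : ℂ) ^ 2) : ℂ × ℂ) = 0 := by
      rw [zero_pow two_ne_zero]; rfl
    rw [h2] at h1
    rw [← h1]
    have h3 := hev2.self_of_nhds
    simp only [𝒞.k_zero] at h3
    change I.K.g i (c, c) = γ 0 at h3
    rw [← h3]
    exact I.K.ne i _ hsubc
  obtain ⟨B', hB'⟩ := BB_deriv hF' hγe hγe0
  have hBan := BB_an hF hγe
  -- `g` in terms of `γe`
  have hkc : ContinuousAt (fun x : C × C => (𝒞.k c x.1 + 𝒞.k c x.2, 𝒞.k c x.1 - 𝒞.k c x.2))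
      (c, c) := by
    have hk : ContinuousAt (fun x : C × C => (𝒞.k c x.1, 𝒞.k c x.2)) (c, c) :=
      ContinuousAt.prodMk
        (ContinuousAt.comp (f := Prod.fst) (g := 𝒞.k c)
          ((𝒞.k c).continuousAt (𝒞.k_mem c)) continuousAt_fst)
        (ContinuousAt.comp (f := Prod.snd) (g := 𝒞.k c)
          ((𝒞.k c).continuousAt (𝒞.k_mem c)) continuousAt_snd)
    have hm : Continuous fun p : ℂ × ℂ => (p.1 + p.2, p.1 - p.2) := by fun_prop
    exact ContinuousAt.comp (f := fun x : C × C => (𝒞.k c x.1, 𝒞.k c x.2))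
      (g := fun p : ℂ × ℂ => (p.1 + p.2, p.1 - p.2)) hm.continuousAt hk
  have hg : ∀ᶠ x in 𝓝 ((c, c) : C × C), I.K.g i x =
      γe (𝒞.k c x.1 + 𝒞.k c x.2, (𝒞.k c x.1 - 𝒞.k c x.2) ^ 2) := by
    have h1 := hkc.tendsto
    simp only [𝒞.k_zero, add_zero, sub_self] at h1
    filter_upwards [hev2, h1.eventually hγev] with x hx hx2
    rw [hx, ← hx2]
    simp only [L]
    congr 2 <;> ring
  have hev' : ∀ᶠ x in 𝓝 ((c, 𝒞.iv c) : C × C), (𝒞.TT U i x, U x i) =
      F (𝒞.k c x.1 + 𝒞.k c x.2, (𝒞.k c x.1 - 𝒞.k c x.2) ^ 2) ∧ I.K.g i x =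
      γe (𝒞.k c x.1 + 𝒞.k c x.2, (𝒞.k c x.1 - 𝒞.k c x.2) ^ 2) := by
    rw [hW]
    exact hev.and hg
  -- the formula near the centre
  let e := (I.rc i c).e
  have he : ∀ y, e y = Lpm (φ y) := fun y => rfl
  have hform : ∀ᶠ y in 𝓝 (I.y0 i c), y ∈ I.Reg ∧
      I.Psi y = (D.e (I.S.d i)).symm (BB F γe (sq 1 (e y))) := by
    filter_upwards [I.ev_Dm hc hev'] with y hy
    obtain ⟨p, hp, rfl, h1, h2⟩ := hy
    refine ⟨⟨i, p, hp, rfl⟩, ?_⟩
    have hs0 : sq 1 (e (I.Ge.E i p)) 0 = 𝒞.k c p.1.1 + 𝒞.k c p.1.2 := by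
      rw [sq_ne (by decide), he, hφ, I.ph_E hp.1]
      rfl
    have hs1 : sq 1 (e (I.Ge.E i p)) 1 = (𝒞.k c p.1.1 - 𝒞.k c p.1.2) ^ 2 := by
      rw [sq_same, he, hφ, I.ph_E hp.1]
      rfl
    have hs2 : sq 1 (e (I.Ge.E i p)) 2 = p.2 := by
      rw [sq_ne (by decide), he, hφ, I.ph_E hp.1]
      rfl
    rw [I.Psi_E hp, psi]
    congr 1
    simp only [co, BB, hs0, hs1, hs2]
    rw [← h1, ← h2]
  have hy0' : I.y0 i c ∈ e.source := by
    change I.y0 i c ∈ ((I.ph i c c).transHomeomorph Lpm.toHomeomorph).source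
    rw [OpenPartialHomeomorph.transHomeomorph_source]
    exact hy0
  have hsq0 : sq 1 (e (I.y0 i c)) = 0 := by
    rw [he, hφ0, map_zero]
    ext j
    by_cases hj : j = 1
    · subst hj; simp
    · rw [sq_ne hj]
  have hcont : ∀ y ∈ e.source, ContinuousAt (fun y => sq 1 (e y)) y := fun y hy =>
    ContinuousAt.comp (f := e) (g := sq 1) (continuous_sq 1).continuousAt (e.continuousAt hy)
  have hinv : ∀ᶠ y in 𝓝 (I.y0 i c), ∃ g' : Cn 3 ≃L[ℂ] Cn 3,
      HasStrictFDerivAt (BB F γe) (g' : Cn 3 →L[ℂ] Cn 3) (sq 1 (e y)) := by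
    have h1 := (hcont _ hy0').tendsto
    rw [hsq0] at h1
    exact h1.eventually (evInv hBan hB')
  filter_upwards [hform, eventually_eventually_nhds.2 hform, hinv, e.open_source.mem_nhds hy0']
    with y h1 h2 h4 h5
  obtain ⟨g', hg'⟩ := h4
  refine ⟨h1.1, ?_, ?_⟩
  · exact cont_aux (I.S.tgt i) (hcont y h5) hg'.continuousAt (h2.mono fun _ h => h.2)
  · refine ⟨I.rc i c, 1, I.S.d i, BB F γe, g', rfl, h5, ?_, hg', ?_⟩
    · rw [h1.2]
      refine (D.e (I.S.d i)).map_target ?_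
      rw [I.S.tgt]; trivial
    · filter_upwards [h2] with y' hy'
      rw [hy'.2, (D.e (I.S.d i)).right_inv]
      rw [I.S.tgt]; trivial

/-- the set on which everything works -/
def OO1 : Set Y := {y | y ∈ I.Reg ∧ ContinuousAt I.Psi y ∧
  (LocFree CY D I.Psi y ∨ LocFold CY D s I.Psi y)}

/-- the open set on which everything works -/
def OO : Set Y := interior I.OO1

theorem isOpen_OO : IsOpen I.OO := isOpen_interior

theorem OO_sub {y : Y} (hy : y ∈ I.OO) : y ∈ I.Reg ∧ ContinuousAt I.Psi y ∧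
    (LocFree CY D I.Psi y ∨ LocFold CY D s I.Psi y) := interior_subset (s := I.OO1) hy

theorem y0_OO {i : Fin 2} {c : C} (hc : c ∈ Ci 𝒞 i) : I.y0 i c ∈ I.OO := by
  rw [OO, mem_interior_iff_mem_nhds]
  by_cases hW : 𝒞.iv c = c
  · exact (I.loc_fold hc hW).mono fun y hy => ⟨hy.1, hy.2.1, Or.inr hy.2.2⟩
  · exact (I.loc_free hc hW).mono fun y hy => ⟨hy.1, hy.2.1, Or.inl hy.2.2⟩

end Inp

end

end Crest.Agent.R272.Idn_834
end

-- ▼ part R272/Idn5_834
section

/-!
# R272, leaf IDENT-E (helper834), part 5: the theorem `ident`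
-/

set_option autoImplicit false
set_option linter.unusedSectionVars false

open Set Filter Topology
open scoped ContDiff

namespace Crest.Agent.R272.Idn_834

open Crest.Agent.R275.Geo Crest.Agent.R273.Fam_835 Crest.Agent.R272.Refl_246
open Crest.Agent.R272.AJ_956 Crest.Agent.R272.HFam_342

noncomputable section

/-- chartwise holomorphy on the source of a partial homeomorphism -/
theorem hC_of_on {n : ℕ} {M N : Type} [TopologicalSpace M] [TopologicalSpace N] {A : Fam n M}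
    {B : Fam n N} {f : M → N} {W : Set M} (hW : IsOpen W) (hc : ContinuousOn f W)
    (h : ∀ i j, DifferentiableOn ℂ (fun z => B.e j (f ((A.e i).symm z)))
      ((A.e i).target ∩ (A.e i).symm ⁻¹' (W ∩ f ⁻¹' (B.e j).source))) {x : M} (hx : x ∈ W) :
    HC A B f x := by
  have hcx : ContinuousAt f x := hc.continuousAt (hW.mem_nhds hx)
  refine ⟨hcx, fun i j hi hj => ?_⟩
  have ho : IsOpen (W ∩ f ⁻¹' (B.e j).source) := hc.isOpen_inter_preimage hW (B.e j).open_source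
  refine (h i j).differentiableAt (((A.e i).isOpen_inter_preimage_symm ho).mem_nhds
    ⟨(A.e i).map_source hi, ?_⟩)
  rw [mem_preimage, (A.e i).left_inv hi]
  exact ⟨hx, hj⟩

variable {C : Type} [TopologicalSpace C] {𝒞 : Cur C} {N : Set (C × C)} {U : C × C → E2}
  {Y : Type} [TopologicalSpace Y] {CY : Fam 3 Y} {G : Type} [Group G] [MulAction G Y] {s : G}
  {V : Type} [TopologicalSpace V] {D : Fam 3 V}

namespace Inp

variable (I : Inp 𝒞 N U CY G s D)

theorem psi_zero {i : Fin 2} {c : C} (hc : c ∈ Ci 𝒞 i) :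
    I.psi i ((c, 𝒞.iv c), 0) = (D.e (I.S.d i)).symm (h3 ((tv 𝒞 i c, 0), 0)) := by
  have hg : ((c, 𝒞.iv c) : C × C) ∈ 𝒞.Gam := rfl
  simp only [psi, co, TT_gam hg, U_gam I.hN hg, zero_mul]
  rfl

theorem mem_Dm_zero {i : Fin 2} {c : C} (hc : c ∈ Ci 𝒞 i) :
    (((c, 𝒞.iv c), 0) : (C × C) × ℂ) ∈ I.Dm i :=
  ⟨I.Ge.mem i c hc, I.hN.sub rfl, I.K.sub i c hc⟩

/-- **IDENT-E** : near `e` the quotient `G \ Y` is the standard germ -/
theorem ident [ContinuousConstSMul G Y] [Nonempty Y] [Nonempty V]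
    (hG : ∀ g : G, HolC CY CY (fun y => g • y)) (hcov : ∀ y : Y, ∃ c : RC G CY, y ∈ c.e.source) :
    ∃ e : OpenPartialHomeomorph (Orb G Y) V,
      e.source = pr G '' I.OO ∧
      (∀ i, ∀ p ∈ I.Dm i, I.Ge.E i p ∈ I.OO →
        e (pr G (I.Ge.E i p)) = (D.e (I.S.d i)).symm (h3 (I.co I i p))) ∧
      (∀ i, ∀ c ∈ Ci 𝒞 i, pr G (I.Ge.E i ((c, 𝒞.iv c), 0)) ∈ e.source) ∧
      (∀ x ∈ e.source, HC (qFam hG hcov) D e x) ∧
      (∀ u ∈ e.target, HC D (qFam hG hcov) e.symm u) ∧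
      (∀ i, ∀ u ∈ (D.e (I.S.d i)).source, D.e (I.S.d i) u 1 = 0 → D.e (I.S.d i) u 2 = 0 →
        u ∈ e.target ∧ ∃ c ∈ Ci 𝒞 i, u = e (pr G (I.Ge.E i ((c, 𝒞.iv c), 0)))) := by
  obtain ⟨e, he1, he2, he3, he4, he5⟩ := exists_ident (C := CY) (D := D) hG hcov
    (O := I.OO) I.isOpen_OO (s := s)
    (fun g u hu hgu => I.grp (I.OO_sub hu).1 g (I.OO_sub hgu).1)
    (Psi := I.Psi)
    (fun u hu => (I.OO_sub hu).2.1.continuousWithinAt)
    (fun u hu v hv => I.Psi_fib (I.OO_sub hu).1 (I.OO_sub hv).1)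
    (fun u hu => (I.OO_sub hu).2.2)
  refine ⟨e, he1, ?_, ?_, ?_, ?_, ?_⟩
  · intro i p hp hpO
    rw [he3 _ hpO, I.Psi_E hp]
    rfl
  · intro i c hc
    rw [he1]
    exact mem_image_of_mem _ (I.y0_OO hc)
  · intro x hx
    exact hC_of_on (A := qFam hG hcov) (B := D) e.open_source e.continuousOn
      (fun c k => he4 c k) hx
  · intro u hu
    exact hC_of_on (A := D) (B := qFam hG hcov) e.open_target e.symm.continuousOn
      (fun k c => he5 k c) hu
  · intro i u hu h1 h2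
    obtain ⟨c, hc, hT⟩ := slope_surj I.hN i (D.e (I.S.d i) u 0)
    have h4 : I.Psi (I.Ge.E i ((c, 𝒞.iv c), 0)) = u := by
      rw [I.Psi_E (I.mem_Dm_zero hc), I.psi_zero hc]
      have h5 : h3 ((tv 𝒞 i c, 0), 0) = D.e (I.S.d i) u := by
        rw [hT]
        ext j
        fin_cases j
        · rfl
        · exact h1.symm
        · exact h2.symm
      rw [h5, (D.e (I.S.d i)).left_inv hu]
    refine ⟨?_, c, hc, ?_⟩
    · rw [he2]
      exact ⟨_, I.y0_OO hc, h4⟩
    · have h6 := he3 _ (I.y0_OO hc)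
      rw [y0] at h6
      rw [h6, h4]

end Inp

end

end Crest.Agent.R272.Idn_834
end

-- ▼ part R272/Ax4_834

/-!
# R272, leaf D4 (helper834), part 4: the zero section and its image in the orbit space

`ZSec Ge z` : the zero section `z : C × C → Y` of the cover `Y`;
`immW_of_frame` : immersivity of `y ↦ E (y, 0)`, `E` a biholomorphic frame;
`ZSec.off`, `ZSec.diag` : the image in the orbit space `G \ Y`, in natural coordinates.
-/

set_option autoImplicit false
set_option linter.unusedSectionVars false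

open Set Filter Topology
open scoped ContDiff

namespace Crest.Agent.R272.Ax_834

open Crest.Agent.R275.Geo Crest.Agent.R273.Fam_835 Crest.Agent.R272.Refl_246
open Crest.Agent.R272.AJ_956 Crest.Agent.R272.Idn_834 Crest.Agent.R272.HFam_342

noncomputable section

variable {C : Type} [TopologicalSpace C] {𝒞 : Cur C} {Y : Type} [TopologicalSpace Y]
  {CY : Fam 3 Y} {G : Type} [Group G] [MulAction G Y] {s : G}

/-- the zero section -/
structure ZSec (Ge : Germ 𝒞 CY G s) (z : C × C → Y) : Prop where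
  cont : Continuous z
  inj : Function.Injective z
  imm : ∀ x : C × C, ImmW CY z x (fun y => (𝒞.k x.1 y.1, 𝒞.k x.2 y.2))
  swap : ∀ x, s • z x = z x.swap
  grp : ∀ (g : G) (x x' : C × C), g • z x = z x' → g = 1 ∨ g = s
  germ : ∀ i x, ((x, 0) : (C × C) × ℂ) ∈ (Ge.E i).source → Ge.E i (x, 0) = z x

/-- `y ↦ E (y, 0)` is immersive for a biholomorphic frame `E` -/
theorem immW_of_frame {E : OpenPartialHomeomorph ((C × C) × ℂ) Y}
    (hE : ∀ c c', Cpt CY (E.symm.trans (pc 𝒞 c c'))) {z : C × C → Y}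
    (hz : ∀ y, ((y, 0) : (C × C) × ℂ) ∈ E.source → z y = E (y, 0)) {x : C × C}
    (hx : ((x, 0) : (C × C) × ℂ) ∈ E.source) :
    ImmW CY z x (fun y => (𝒞.k x.1 y.1, 𝒞.k x.2 y.2)) := by
  obtain ⟨j, hj⟩ := CY.cover (z x)
  have hc := hE x.1 x.2
  set e' := E.symm.trans (pc 𝒞 x.1 x.2) with he'
  have hpx : ((x, 0) : (C × C) × ℂ) ∈ (pc 𝒞 x.1 x.2).source := by
    rw [mem_pc]; exact ⟨𝒞.k_mem _, 𝒞.k_mem _⟩
  have hzx : z x = E (x, 0) := hz x hx
  have hmem : z x ∈ e'.source := by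
    rw [he', OpenPartialHomeomorph.trans_source, OpenPartialHomeomorph.symm_source, hzx]
    refine ⟨E.map_source hx, ?_⟩
    rw [mem_preimage, E.left_inv hx]
    exact hpx
  have he0 : ∀ y : C × C, ((y, 0) : (C × C) × ℂ) ∈ E.source → e' (z y) =
      h3 ((𝒞.k x.1 y.1, 𝒞.k x.2 y.2), 0) := by
    intro y hy
    rw [he', OpenPartialHomeomorph.trans_apply, hz y hy, E.left_inv hy, pc_apply]
  have he1 : e' (z x) = 0 := by
    rw [he0 x hx, 𝒞.k_zero, 𝒞.k_zero]
    ext i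
    fin_cases i <;> rfl
  -- the chart change
  set τ : Cn 3 → Cn 3 := fun v => CY.e j (e'.symm v) with hτ
  have ho : IsOpen (e'.target ∩ e'.symm ⁻¹' (CY.e j).source) :=
    e'.isOpen_inter_preimage_symm (CY.e j).open_source
  have h0 : (0 : Cn 3) ∈ e'.target ∩ e'.symm ⁻¹' (CY.e j).source := by
    rw [← he1]
    refine ⟨e'.map_source hmem, ?_⟩
    rw [mem_preimage, e'.left_inv hmem]
    exact hj
  have hτan : AnalyticAt ℂ τ 0 :=
    ((Crest.Agent.R266.SCV.contDiffOn_omega_of_differentiableOn ho (hc.hol j)).contDiffAt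
      (ho.mem_nhds h0)).analyticAt
  have hτi : ∀ v, fderiv ℂ τ 0 v = 0 → v = 0 := by
    have hz0 : e'.symm 0 = z x := by rw [← he1, e'.left_inv hmem]
    have hτ0 : τ 0 = CY.e j (z x) := by rw [hτ]; simp only [hz0]
    have hd : DifferentiableAt ℂ (fun w => e' ((CY.e j).symm w)) (τ 0) := by
      rw [hτ0]
      refine (hc.holi j).differentiableAt
        (((CY.e j).isOpen_inter_preimage_symm e'.open_source).mem_nhds
          ⟨(CY.e j).map_source hj, ?_⟩)
      rw [mem_preimage, (CY.e j).left_inv hj]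
      exact hmem
    have h1 := HasFDerivAt.comp (0 : Cn 3) hd.hasFDerivAt hτan.differentiableAt.hasFDerivAt
    have h2 : HasFDerivAt ((fun w => e' ((CY.e j).symm w)) ∘ τ)
        (ContinuousLinearMap.id ℂ (Cn 3)) 0 := by
      refine (hasFDerivAt_id _).congr_of_eventuallyEq ?_
      filter_upwards [ho.mem_nhds h0] with v hv
      simp only [Function.comp, id, hτ]
      rw [(CY.e j).left_inv hv.2, e'.right_inv hv.1]
    have h3 := h1.unique h2
    intro v hv
    have h4 := congrArg (fun T => T v) h3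
    simp only [ContinuousLinearMap.comp_apply, ContinuousLinearMap.id_apply, hv, map_zero] at h4
    exact h4.symm
  -- the linear part
  let Lc : (ℂ × ℂ) →L[ℂ] Cn 3 := (h3 : ((ℂ × ℂ) × ℂ) →L[ℂ] Cn 3).comp
    (ContinuousLinearMap.inl ℂ (ℂ × ℂ) ℂ)
  have hL : ∀ p, Lc p = h3 (p, 0) := fun p => rfl
  have hLi : Imm (fun p => Lc p) 0 := by
    refine ⟨Lc.analyticAt 0, fun v hv => ?_⟩
    rw [Lc.fderiv, hL] at hv
    have := h3.injective (hv.trans (map_zero h3).symm)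
    exact (Prod.mk.inj this).1
  refine ⟨j, hj, fun p => τ (Lc p), ?_, ?_⟩
  · refine imm_comp (Q := τ) (B := fun p => Lc p) ?_ hLi
    rw [map_zero]
    exact ⟨hτan, hτi⟩
  · have hcy : ContinuousAt (fun y : C × C => ((y, 0) : (C × C) × ℂ)) x := by fun_prop
    filter_upwards [hcy.eventually (E.open_source.mem_nhds hx),
      ((𝒞.k x.1).open_source.prod (𝒞.k x.2).open_source).mem_nhds
        (show x ∈ (𝒞.k x.1).source ×ˢ (𝒞.k x.2).source from ⟨𝒞.k_mem _, 𝒞.k_mem _⟩)] with y hy hy2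
    have hmy : z y ∈ e'.source := by
      rw [he', OpenPartialHomeomorph.trans_source, OpenPartialHomeomorph.symm_source, hz y hy]
      refine ⟨E.map_source hy, ?_⟩
      rw [mem_preimage, E.left_inv hy, mem_pc]
      exact hy2
    simp only [hL, hτ]
    rw [← he0 y hy, e'.left_inv hmy]

/-- immersions read in an arbitrary compatible chart -/
theorem ImmW.in_chart {n : ℕ} {X : Type} [TopologicalSpace X] {F : Fam n Y} {q : X → Y} {x : X}
    {κ : X → ℂ × ℂ} (hq : ImmW F q x κ) (hκ : κ x = 0) (hc : ContinuousAt q x)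
    {e : OpenPartialHomeomorph Y (Cn n)} (he : Cpt F e) (hx : q x ∈ e.source) :
    ∃ Q : ℂ × ℂ → Cn n, Imm Q 0 ∧ ∀ᶠ y in 𝓝 x, e (q y) = Q (κ y) := by
  obtain ⟨j, hj, Q, hQ, hQe⟩ := hq
  have h0 : Q 0 = F.e j (q x) := by
    have := hQe.self_of_nhds
    rw [hκ] at this
    exact this.symm
  set τ : Cn n → Cn n := fun v => e ((F.e j).symm v) with hτ
  have ho : IsOpen ((F.e j).target ∩ (F.e j).symm ⁻¹' e.source) :=
    (F.e j).isOpen_inter_preimage_symm e.open_source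
  have hm : F.e j (q x) ∈ (F.e j).target ∩ (F.e j).symm ⁻¹' e.source :=
    ⟨(F.e j).map_source hj, by rw [mem_preimage, (F.e j).left_inv hj]; exact hx⟩
  have hτan : AnalyticAt ℂ τ (F.e j (q x)) :=
    ((Crest.Agent.R266.SCV.contDiffOn_omega_of_differentiableOn ho (he.holi j)).contDiffAt
      (ho.mem_nhds hm)).analyticAt
  have hτi : ∀ v, fderiv ℂ τ (F.e j (q x)) v = 0 → v = 0 := by
    have hτ0 : τ (F.e j (q x)) = e (q x) := by rw [hτ]; simp only [(F.e j).left_inv hj]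
    have hd : DifferentiableAt ℂ (fun w => F.e j (e.symm w)) (τ (F.e j (q x))) := by
      rw [hτ0]
      refine (he.hol j).differentiableAt
        ((e.isOpen_inter_preimage_symm (F.e j).open_source).mem_nhds ⟨e.map_source hx, ?_⟩)
      rw [mem_preimage, e.left_inv hx]
      exact hj
    have h1 := HasFDerivAt.comp (F.e j (q x)) hd.hasFDerivAt hτan.differentiableAt.hasFDerivAt
    have h2 : HasFDerivAt ((fun w => F.e j (e.symm w)) ∘ τ)
        (ContinuousLinearMap.id ℂ (Cn n)) (F.e j (q x)) := by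
      refine (hasFDerivAt_id _).congr_of_eventuallyEq ?_
      filter_upwards [ho.mem_nhds hm] with v hv
      simp only [Function.comp, id, hτ]
      rw [e.left_inv hv.2, (F.e j).right_inv hv.1]
    have h3 := h1.unique h2
    intro v hv
    have h4 := congrArg (fun T => T v) h3
    simp only [ContinuousLinearMap.comp_apply, ContinuousLinearMap.id_apply, hv, map_zero] at h4
    exact h4.symm
  refine ⟨fun p => τ (Q p), imm_comp (Q := τ) (B := Q) (by rw [h0]; exact ⟨hτan, hτi⟩) hQ, ?_⟩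
  filter_upwards [hQe, hc.eventually ((F.e j).open_source.mem_nhds hj)] with y hy hy2
  simp only [hτ]
  rw [← hy, (F.e j).left_inv hy2]

/-- charts of 246 are compatible -/
theorem cpt_rc {n : ℕ} {F : Fam n Y} (c : RC G F) : Cpt F c.e := ⟨c.hol, c.holi⟩

namespace ZSec

variable {Ge : Germ 𝒞 CY G s} {z : C × C → Y} (Z : ZSec Ge z)

include Z in
theorem s_ne {c : C} (hc : 𝒞.iv c ≠ c) : s ≠ 1 := by
  intro hs
  have h1 := Z.swap (c, 𝒞.iv c)
  rw [hs, one_smul] at h1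
  have h2 := Z.inj h1
  exact hc (congrArg Prod.fst h2).symm

include Z in
theorem stab {x : C × C} (hx : x.1 ≠ x.2) (g : G) (hg : g • z x = z x) : g = 1 := by
  rcases Z.grp g x x hg with h | h
  · exact h
  · exfalso
    rw [h, Z.swap] at hg
    exact hx (congrArg Prod.snd (Z.inj hg))

include Z in
theorem pr_eq {x x' : C × C} : pr G (z x) = pr G (z x') ↔ (x' = x ∨ x' = x.swap) := by
  rw [pr_eq_iff]
  constructor
  · rintro ⟨g, hg⟩
    rcases Z.grp g x x' hg with h | h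
    · left
      rw [h, one_smul] at hg
      exact (Z.inj hg).symm
    · right
      rw [h, Z.swap] at hg
      exact (Z.inj hg).symm
  · rintro (h | h)
    · exact ⟨1, by rw [one_smul, h]⟩
    · exact ⟨s, by rw [Z.swap, h]⟩

variable [ContinuousConstSMul G Y] [Nonempty Y]

include Z in
/-- off the diagonal -/
theorem off (hG : ∀ g : G, HolC CY CY (fun y => g • y))
    (hcov : ∀ y : Y, ∃ c : RC G CY, y ∈ c.e.source) {x : C × C} (hx : x.1 ≠ x.2) :
    ImmW (qFam hG hcov) (fun y => pr G (z y)) x (fun y => (𝒞.k x.1 y.1, 𝒞.k x.2 y.2)) := by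
  refine (Z.imm x).comp_LC (F' := qFam hG hcov) ?_ Z.cont.continuousAt
    (h := pr G) (Eventually.of_forall fun y => (holC_pi hG hcov).hC y)
    (lC_pr hG hcov (Z.stab hx))
  simp only [𝒞.k_zero]
  rfl

include Z in
/-- on the diagonal -/
theorem diag (hG : ∀ g : G, HolC CY CY (fun y => g • y))
    (hcov : ∀ y : Y, ∃ c : RC G CY, y ∈ c.e.source) {c : C} (hc : 𝒞.iv c ≠ c) :
    ImmW (qFam hG hcov) (fun y => pr G (z y)) (c, c)
      (fun y => (𝒞.k c y.1 + 𝒞.k c y.2, (𝒞.k c y.1 - 𝒞.k c y.2) ^ 2)) := by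
  have hs1 := Z.s_ne hc
  have hsu : s • z (c, c) = z (c, c) := Z.swap (c, c)
  obtain ⟨r, hr⟩ := hcov (z (c, c))
  have hkr : ∃ a, r.k = some (s, a) := by
    rcases hk : r.k with _ | ⟨s', a⟩
    · exact absurd (r.free hk s _ hr (by rw [hsu]; exact hr)) hs1
    · rcases r.two s' a hk s _ hr (by rw [hsu]; exact hr) with h | h
      · exact absurd h hs1
      · exact ⟨a, by rw [h]⟩
  obtain ⟨a, ha⟩ := hkr
  obtain ⟨g, hg, hge⟩ := (Z.imm (c, c)).in_chart (by simp only [𝒞.k_zero]; rfl)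
    Z.cont.continuousAt (cpt_rc r) hr
  simp only at hge
  -- transport to `ℂ × ℂ`
  have hpt : Tendsto (pt 𝒞 c c) (𝓝 0) (𝓝 ((c, c) : C × C)) := by
    have h3 := (pt_cont (𝒞 := 𝒞) c c).tendsto
    rwa [pt_zero] at h3
  have hpts : Tendsto (fun p : ℂ × ℂ => pt 𝒞 c c p.swap) (𝓝 0) (𝓝 ((c, c) : C × C)) := by
    have h1 : Tendsto (Prod.swap : ℂ × ℂ → ℂ × ℂ) (𝓝 0) (𝓝 0) := continuous_swap.tendsto 0
    exact hpt.comp h1
  have hpe : ∀ᶠ p in 𝓝 (0 : ℂ × ℂ), r.e (z (pt 𝒞 c c p)) = g p := by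
    filter_upwards [hpt.eventually hge, ev_tgt (𝒞 := 𝒞) c c] with p hp hp2
    have e1 : 𝒞.k c (pt 𝒞 c c p).1 = p.1 := (𝒞.k c).right_inv hp2.1
    have e2 : 𝒞.k c (pt 𝒞 c c p).2 = p.2 := (𝒞.k c).right_inv hp2.2
    rw [e1, e2] at hp
    exact hp
  have hpe' : ∀ᶠ p in 𝓝 (0 : ℂ × ℂ), r.e (z (pt 𝒞 c c p.swap)) = g p.swap :=
    (continuous_swap.tendsto (0 : ℂ × ℂ)).eventually hpe
  have hsrc : ∀ᶠ p in 𝓝 (0 : ℂ × ℂ), z (pt 𝒞 c c p) ∈ r.e.source :=
    (Z.cont.continuousAt.tendsto.comp hpt).eventually (r.e.open_source.mem_nhds hr)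
  have hsym : ∀ᶠ p in 𝓝 (0 : ℂ × ℂ), g (p.2, p.1) = rf a (g p) := by
    filter_upwards [hpe, hpe', hsrc] with p h1 h2 h3
    have h4 : z (pt 𝒞 c c p.swap) = s • z (pt 𝒞 c c p) := by
      rw [Z.swap]; rfl
    rw [h4, r.ref s a ha _ h3, h1] at h2
    exact h2.symm
  have hg0 : g 0 a = 0 := by
    have h1 := hsym.self_of_nhds
    have h2 : g 0 = rf a (g 0) := h1
    have h3 := congrArg (fun v : Cn 3 => v a) h2
    simp only [rf_same] at h3
    have h4 : (2 : ℂ) * g 0 a = 0 := by linear_combination h3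
    simpa using h4
  obtain ⟨h, hh1, hh2⟩ := sym_quot hg hg0 hsym
  refine ⟨r, r.mem_eM_source hr, h, hh1, ?_⟩
  have hkk : Tendsto (fun y : C × C => (𝒞.k c y.1, 𝒞.k c y.2)) (𝓝 (c, c)) (𝓝 0) := by
    have h1 : ContinuousAt (fun y : C × C => (𝒞.k c y.1, 𝒞.k c y.2)) (c, c) :=
      ContinuousAt.prodMk
        (ContinuousAt.comp (f := Prod.fst) (g := 𝒞.k c) ((𝒞.k c).continuousAt (𝒞.k_mem c))
          continuousAt_fst)
        (ContinuousAt.comp (f := Prod.snd) (g := 𝒞.k c) ((𝒞.k c).continuousAt (𝒞.k_mem c))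
          continuousAt_snd)
    have h2 := h1.tendsto
    simp only [𝒞.k_zero] at h2
    exact h2
  filter_upwards [hkk.eventually hh2, hge,
    (Z.cont.continuousAt).eventually (r.e.open_source.mem_nhds hr)] with y h1 h2 h3
  have h4 : (qFam hG hcov).e r (pr G (z y)) = qk r.k (r.e (z y)) := r.eM_apply h3
  rw [h4, ha, qk_some, h2]
  exact h1

end ZSec

end

end Crest.Agent.R272.Ax_834
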