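import Crest.Agent.R272.PosGlue2_232

-- ▼ part R272/PosFib1_220
section

/-!
# R272, POS-FIB (helper220), file 1: tools

* `perturb`   : strict positivity of the Levi form is stable under smooth perturbations with a parameter
* `PosO h x`  : positive curvature of `h : HMo L U` at `x` (all charts); `posO_of` one chart suffices;
                `isOpen_posO`
* `HMo.mulExp`: the metric `h * exp (-u)`
* `NN A u x`  : the function `u` has Levi form `≥ 0` at `x`; `nn_of` one chart suffices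
-/

set_option autoImplicit false
set_option linter.unusedSectionVars false

open Set Filter Topology Complex
open scoped ContDiff Matrix ComplexConjugate Manifold

namespace Crest.Agent.R272.PosFib_220

open Crest.Agent.R275.Geo Crest.Agent.R275.Core144 Crest.Agent.R273.Defs_333
open Crest.Agent.R273.Map_835 Crest.Agent.R273 Crest.Agent.R275.QN2b734
open Crest.Agent.R272.PosGlue_232

noncomputable section

variable {n : ℕ}

/-! ### perturbation -/

theorem lev_param {Φ : ℝ × Cn n → ℝ} {p : ℝ × Cn n} (h : ContDiffAt ℝ 2 Φ p) (v : Cn n) :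
    Levi_145.lev (fun z => Φ (p.1, z)) p.2 v =
      (fderiv ℝ (fderiv ℝ Φ) p ((0 : ℝ), v) ((0 : ℝ), v) +
        fderiv ℝ (fderiv ℝ Φ) p ((0 : ℝ), I • v) ((0 : ℝ), I • v)) / 4 := by
  let ι : Cn n →L[ℝ] ℝ × Cn n := ContinuousLinearMap.inr ℝ ℝ (Cn n)
  have ht : Tendsto (fun z : Cn n => (p.1, z)) (𝓝 p.2) (𝓝 p) := by
    have : ContinuousAt (fun z : Cn n => (p.1, z)) p.2 := by fun_prop
    exact this
  have hd : ∀ q : ℝ × Cn n, HasFDerivAt (fun z : Cn n => (q.1, z)) ι q.2 := fun q =>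
    hasFDerivAt_prodMk_right q.1 q.2
  have he : ∀ᶠ q in 𝓝 p, DifferentiableAt ℝ Φ q := by
    have := h.eventually (by norm_num)
    exact this.mono fun q hq => hq.differentiableAt (by norm_num)
  have e1 : fderiv ℝ (fun z => Φ (p.1, z)) =ᶠ[𝓝 p.2] fun z => (fderiv ℝ Φ (p.1, z)).comp ι := by
    filter_upwards [ht.eventually he] with z hz
    exact (hz.hasFDerivAt.comp z (hd (p.1, z))).fderiv
  have h2 : HasFDerivAt (fderiv ℝ Φ) (fderiv ℝ (fderiv ℝ Φ) p) p :=
    ((h.fderiv_right (m := 1) (by norm_num)).differentiableAt (by norm_num)).hasFDerivAt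
  have e2 : HasFDerivAt (fun z => fderiv ℝ Φ (p.1, z)) ((fderiv ℝ (fderiv ℝ Φ) p).comp ι) p.2 :=
    HasFDerivAt.comp p.2 (g := fderiv ℝ Φ) h2 (hd p)
  have e3 : HasFDerivAt (fun z => (fderiv ℝ Φ (p.1, z)).comp ι)
      ((((ContinuousLinearMap.compL ℝ (Cn n) (ℝ × Cn n) ℝ).flip ι)).comp
        ((fderiv ℝ (fderiv ℝ Φ) p).comp ι)) p.2 :=
    (((ContinuousLinearMap.compL ℝ (Cn n) (ℝ × Cn n) ℝ).flip ι).hasFDerivAt).comp p.2 e2
  unfold Levi_145.lev
  rw [e1.fderiv_eq, e3.fderiv]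
  rfl

theorem perturb {Φ : ℝ × Cn n → ℝ} {z0 : Cn n} (hΦ : ContDiffAt ℝ ∞ Φ ((0 : ℝ), z0))
    (hpos : ∀ v : Cn n, v ≠ 0 → 0 < lev (fun z => Φ ((0 : ℝ), z)) z0 v) :
    ∀ᶠ p in 𝓝 ((0 : ℝ), z0), ∀ v : Cn n, v ≠ 0 → 0 < lev (fun z => Φ (p.1, z)) p.2 v := by
  have h2 : ContDiffAt ℝ 2 Φ ((0 : ℝ), z0) := hΦ.of_le (by norm_cast)
  have hD : ContinuousAt (fderiv ℝ (fderiv ℝ Φ)) ((0 : ℝ), z0) := by
    have h3 : ContDiffAt ℝ 1 (fderiv ℝ Φ) ((0 : ℝ), z0) := h2.fderiv_right (by norm_num)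
    exact (h3.fderiv_right (m := 0) (by norm_num)).continuousAt
  let Q : (ℝ × Cn n) → Cn n → ℝ := fun p v =>
    fderiv ℝ (fderiv ℝ Φ) p ((0 : ℝ), v) ((0 : ℝ), v) +
        fderiv ℝ (fderiv ℝ Φ) p ((0 : ℝ), I • v) ((0 : ℝ), I • v)
  have hQ : ∀ p v, ContDiffAt ℝ 2 Φ p → lev (fun z => Φ (p.1, z)) p.2 v = Q p v := by
    intro p v hp
    rw [PB_835.lev_bridge, lev_param hp]
    ring
  have hQc : ∀ v : Cn n, ContinuousAt (fun q : (ℝ × Cn n) × Cn n => Q q.1 q.2)
      (((0 : ℝ), z0), v) := by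
    intro v
    have k1 : ContinuousAt (fun q : (ℝ × Cn n) × Cn n => fderiv ℝ (fderiv ℝ Φ) q.1)
        (((0 : ℝ), z0), v) :=
      ContinuousAt.comp (f := fun q : (ℝ × Cn n) × Cn n => q.1) (g := fderiv ℝ (fderiv ℝ Φ))
        hD continuousAt_fst
    have k2 : ContinuousAt (fun q : (ℝ × Cn n) × Cn n => ((0 : ℝ), q.2))
        (((0 : ℝ), z0), v) := by fun_prop
    have k3 : ContinuousAt (fun q : (ℝ × Cn n) × Cn n => ((0 : ℝ), I • q.2))
        (((0 : ℝ), z0), v) := by fun_prop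
    exact ((k1.clm_apply k2).clm_apply k2).add ((k1.clm_apply k3).clm_apply k3)
  have hS : IsCompact (Metric.sphere (0 : Cn n) 1) := isCompact_sphere 0 1
  have h4 : ∀ᶠ p in 𝓝 ((0 : ℝ), z0), ∀ v ∈ Metric.sphere (0 : Cn n) 1, 0 < Q p v := by
    refine hS.eventually_forall_of_forall_eventually fun v hv => ?_
    have hv0 : v ≠ 0 := by
      intro h0
      rw [h0] at hv
      simp at hv
    have h5 := hpos v hv0
    have h6 := hQ ((0 : ℝ), z0) v h2
    simp only at h6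
    rw [h6] at h5
    exact (hQc v).eventually (lt_mem_nhds h5)
  filter_upwards [h4, h2.eventually (by norm_num)] with p hp hp2 v hv
  have hn : 0 < ‖v‖ := norm_pos_iff.2 hv
  have h7 : ((‖v‖⁻¹ : ℝ) : ℂ) • v ∈ Metric.sphere (0 : Cn n) 1 := by
    simp [norm_smul, hn.ne']
  have h8 := hp _ h7
  rw [← hQ p _ hp2, lev_real_smul] at h8
  exact (mul_pos_iff_of_pos_left (by positivity)).1 h8

/-! ### positivity of a metric at a point -/

variable {M : Type} [TopologicalSpace M] {A : Atl n M}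

section HMoTools

variable {L : LB A} {U : Set M}

/-- positive curvature at the point `x` -/
def PosO (h : HMo L U) (x : M) : Prop :=
  ∀ i, x ∈ (A.e i).source → ∀ v : Cn n, v ≠ 0 → 0 < lev (h.wt i) (A.e i x) v

theorem tr_anal {i j : A.ι} {z : Cn n} (hz : z ∈ A.ov i j) :
    AnalyticAt ℂ (fun y => A.e j ((A.e i).symm y)) z :=
  Crest.Agent.R266.SCV.analyticOnNhd_of_differentiableOn (isOpen_ov i j) (A.holo i j) z hz

theorem g_anal (L : LB A) {i j : A.ι} {z : Cn n} (hz : z ∈ A.ov i j) :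
    AnalyticAt ℂ (fun y => L.g i j ((A.e i).symm y)) z :=
  Crest.Agent.R266.SCV.analyticOnNhd_of_differentiableOn (isOpen_ov i j) (L.hol i j) z hz

theorem wt_contDiffAt (h : HMo L U) (hU : IsOpen U) {i : A.ι} {x : M}
    (hx : x ∈ (A.e i).source) (hxU : x ∈ U) : ContDiffAt ℝ ∞ (h.wt i) (A.e i x) := by
  have ho : IsOpen ((A.e i).target ∩ (A.e i).symm ⁻¹' U) := (A.e i).isOpen_inter_preimage_symm hU
  refine (h.wt_smooth i).contDiffAt (ho.mem_nhds ⟨(A.e i).map_source hx, ?_⟩)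
  show (A.e i).symm (A.e i x) ∈ U
  rwa [(A.e i).left_inv hx]

theorem lev_chgO (h : HMo L U) (hU : IsOpen U) {i j : A.ι} {x : M} (hi : x ∈ (A.e i).source)
    (hj : x ∈ (A.e j).source) (hxU : x ∈ U) (v : Cn n) :
    lev (h.wt i) (A.e i x) v = lev (h.wt j) (A.e j x)
      (fderiv ℂ (fun y => A.e j ((A.e i).symm y)) (A.e i x) v) := by
  have hz : A.e i x ∈ A.ov i j := ⟨(A.e i).map_source hi, by rwa [(A.e i).left_inv hi]⟩
  have hox : (A.e i).symm (A.e i x) = x := (A.e i).left_inv hi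
  have ho : IsOpen ((A.e i).target ∩ (A.e i).symm ⁻¹' U) := (A.e i).isOpen_inter_preimage_symm hU
  have he : h.wt i =ᶠ[𝓝 (A.e i x)] fun y => h.wt j (A.e j ((A.e i).symm y)) +
      Real.log (‖L.g i j ((A.e i).symm y)‖ ^ 2) := by
    filter_upwards [(isOpen_ov i j).mem_nhds hz,
      ho.mem_nhds ⟨hz.1, show (A.e i).symm (A.e i x) ∈ U by rwa [hox]⟩] with y hy hyU
    have h1 : (A.e i).symm y ∈ (A.e i).source ∩ (A.e j).source := ⟨(A.e i).map_target hy.1, hy.2⟩
    have h2 := h.tr i j _ h1 hyU.2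
    have h3 := h.pos i _ h1.1 hyU.2
    have h4 := L.ne_zero i j ((A.e i).symm y)
    simp only [HMo.wt]
    rw [(A.e j).left_inv hy.2, h2, Real.log_mul (by positivity) h3.ne']
    ring
  have ht := tr_anal hz
  have hto : A.e j ((A.e i).symm (A.e i x)) = A.e j x := by rw [hox]
  have c1 : ContDiffAt ℝ 2 (h.wt j) (A.e j ((A.e i).symm (A.e i x))) := by
    rw [hto]
    exact (wt_contDiffAt h hU hj hxU).of_le (by norm_cast)
  have c2 : ContDiffAt ℝ 2 (fun y => h.wt j (A.e j ((A.e i).symm y))) (A.e i x) :=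
    ContDiffAt.comp (g := h.wt j) (f := fun y => A.e j ((A.e i).symm y)) (A.e i x) c1
      (ht.contDiffAt.restrict_scalars ℝ)
  have hg := g_anal L hz
  have hg0 : L.g i j ((A.e i).symm (A.e i x)) ≠ 0 := L.ne_zero _ _ _
  rw [PB_835.lev_congr' he, PB_835.lev_bridge,
    Levi_145.lev_add c2 (Levi_145.c2_log_normSq (f := fun y => L.g i j ((A.e i).symm y)) hg hg0 2),
    Levi_145.lev_log_normSq (f := fun y => L.g i j ((A.e i).symm y)) hg hg0,
    Levi_145.lev_comp (u := h.wt j) ht c1, hto, PB_835.lev_bridge]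
  ring

theorem posO_of (h : HMo L U) (hU : IsOpen U) {i : A.ι} {x : M} (hi : x ∈ (A.e i).source)
    (hxU : x ∈ U) (hp : ∀ v : Cn n, v ≠ 0 → 0 < lev (h.wt i) (A.e i x) v) : PosO h x := by
  intro j hj v hv
  have hz : A.e j x ∈ A.ov j i := ⟨(A.e j).map_source hj, by rwa [(A.e j).left_inv hj]⟩
  rw [lev_chgO h hU hj hi hxU v]
  exact hp _ fun h0 => hv (chg_inj hz h0)

theorem isOpen_posO (h : HMo L U) (hU : IsOpen U) : IsOpen {x | x ∈ U ∧ PosO h x} := by
  rw [isOpen_iff_mem_nhds]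
  rintro x ⟨hxU, hx⟩
  obtain ⟨i, hi⟩ := A.cover x
  have h1 : ContDiffAt ℝ ∞ (fun p : ℝ × Cn n => h.wt i p.2) ((0 : ℝ), A.e i x) :=
    ContDiffAt.comp (g := h.wt i) (f := fun p : ℝ × Cn n => p.2) ((0 : ℝ), A.e i x)
      (wt_contDiffAt h hU hi hxU) contDiffAt_snd
  have h2 := perturb h1 (hx i hi)
  have h3 : Tendsto (fun y => ((0 : ℝ), A.e i y)) (𝓝 x) (𝓝 ((0 : ℝ), A.e i x)) :=
    (continuousAt_const.prodMk ((A.e i).continuousAt hi))
  filter_upwards [h3.eventually h2, (A.e i).open_source.mem_nhds hi, hU.mem_nhds hxU] with y h4 h5 h6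
  exact ⟨h6, posO_of h hU h5 h6 h4⟩

/-- the metric `h * exp (-u)` -/
def mulExp (h : HMo L U) (hU : IsOpen U) (u : M → ℝ) (hu : ∀ x ∈ U, SmP A u x) : HMo L U where
  w i x := h.w i x * Real.exp (-(u x))
  pos i x hx hxU := mul_pos (h.pos i x hx hxU) (Real.exp_pos _)
  sm i := by
    refine (h.sm i).mul ?_
    intro z hz
    have h1 := hu _ hz.2 i ((A.e i).map_target hz.1)
    rw [(A.e i).right_inv hz.1] at h1
    exact (Real.contDiff_exp.contDiffAt.comp z h1.neg).contDiffWithinAt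
  tr i j x hx hxU := by
    rw [h.tr i j x hx hxU]
    ring

theorem mulExp_lev (h : HMo L U) (hU : IsOpen U) (u : M → ℝ) (hu : ∀ x ∈ U, SmP A u x) {i : A.ι}
    {x : M} (hi : x ∈ (A.e i).source) (hxU : x ∈ U) (v : Cn n) :
    lev ((mulExp h hU u hu).wt i) (A.e i x) v = lev (h.wt i) (A.e i x) v +
      lev (fun z => u ((A.e i).symm z)) (A.e i x) v := by
  have ho : IsOpen ((A.e i).target ∩ (A.e i).symm ⁻¹' U) := (A.e i).isOpen_inter_preimage_symm hU
  have he : (mulExp h hU u hu).wt i =ᶠ[𝓝 (A.e i x)] fun z => h.wt i z + u ((A.e i).symm z) := by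
    filter_upwards [ho.mem_nhds ⟨(A.e i).map_source hi,
      show (A.e i).symm (A.e i x) ∈ U by rwa [(A.e i).left_inv hi]⟩] with y hy
    have h3 := h.pos i _ ((A.e i).map_target hy.1) hy.2
    simp only [HMo.wt, mulExp]
    rw [Real.log_mul h3.ne' (Real.exp_pos _).ne', Real.log_exp]
    ring
  rw [PB_835.lev_congr' he, PB_835.lev_bridge,
    Levi_145.lev_add ((wt_contDiffAt h hU hi hxU).of_le (by norm_cast))
      ((hu x hxU i hi).of_le (by norm_cast)), PB_835.lev_bridge, PB_835.lev_bridge]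
  ring

end HMoTools

/-! ### functions -/

/-- the function `u` has Levi form `≥ 0` at the point `x` -/
def NN (A : Atl n M) (u : M → ℝ) (x : M) : Prop :=
  ∀ i, x ∈ (A.e i).source → ∀ v : Cn n, 0 ≤ lev (fun z => u ((A.e i).symm z)) (A.e i x) v

theorem lev_fun_chg {u : M → ℝ} {i j : A.ι} {x : M} (hi : x ∈ (A.e i).source)
    (hj : x ∈ (A.e j).source) (hu : ContDiffAt ℝ 2 (fun z => u ((A.e j).symm z)) (A.e j x))
    (v : Cn n) :
    lev (fun z => u ((A.e i).symm z)) (A.e i x) v = lev (fun z => u ((A.e j).symm z)) (A.e j x)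
      (fderiv ℂ (fun y => A.e j ((A.e i).symm y)) (A.e i x) v) := by
  have hz : A.e i x ∈ A.ov i j := ⟨(A.e i).map_source hi, by rwa [(A.e i).left_inv hi]⟩
  have hox : (A.e i).symm (A.e i x) = x := (A.e i).left_inv hi
  have he : (fun z => u ((A.e i).symm z)) =ᶠ[𝓝 (A.e i x)]
      fun y => (fun z => u ((A.e j).symm z)) (A.e j ((A.e i).symm y)) := by
    filter_upwards [(isOpen_ov i j).mem_nhds hz] with y hy
    show u _ = u _
    rw [(A.e j).left_inv hy.2]
  have hto : A.e j ((A.e i).symm (A.e i x)) = A.e j x := by rw [hox]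
  have hu' : ContDiffAt ℝ 2 (fun z => u ((A.e j).symm z)) (A.e j ((A.e i).symm (A.e i x))) := by
    rwa [hto]
  rw [PB_835.lev_congr' he, PB_835.lev_bridge,
    Levi_145.lev_comp (u := fun z => u ((A.e j).symm z)) (tr_anal hz) hu', hto,
    PB_835.lev_bridge]

theorem nn_of {u : M → ℝ} {i : A.ι} {x : M} (hi : x ∈ (A.e i).source)
    (hu : ContDiffAt ℝ 2 (fun z => u ((A.e i).symm z)) (A.e i x))
    (h : ∀ v : Cn n, 0 ≤ lev (fun z => u ((A.e i).symm z)) (A.e i x) v) : NN A u x := by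
  intro j hj v
  rw [lev_fun_chg hj hi hu]
  exact h _

theorem nn_zero {u : M → ℝ} {x : M} (h : ∀ᶠ y in 𝓝 x, u y = 0) : NN A u x := by
  intro i hi v
  have h1 : (fun z => u ((A.e i).symm z)) =ᶠ[𝓝 (A.e i x)] fun _ => (0 : ℝ) :=
    (tendsto_symm hi h)
  rw [PB_835.lev_congr' h1, PB_835.lev_bridge, Levi_145.lev_const]
  simp

theorem nn_sum {ι : Type*} (t : Finset ι) {u : ι → M → ℝ} {x : M} (hs : ∀ a ∈ t, SmP A (u a) x)
    (h : ∀ a ∈ t, NN A (u a) x) : NN A (fun y => ∑ a ∈ t, u a y) x := by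
  intro i hi v
  rw [PB_835.lev_bridge, Levi_145.lev_sum t (f := fun a z => u a ((A.e i).symm z))
    (fun a ha => (hs a ha i hi).of_le (by norm_cast)), Finset.mul_sum]
  refine Finset.sum_nonneg fun a ha => ?_
  have := h a ha i hi v
  rwa [PB_835.lev_bridge] at this

theorem smP_sum {ι : Type*} (t : Finset ι) {u : ι → M → ℝ} {x : M}
    (hs : ∀ a ∈ t, SmP A (u a) x) : SmP A (fun y => ∑ a ∈ t, u a y) x := by
  intro i hi
  exact ContDiffAt.sum fun a ha => hs a ha i hi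

end

end Crest.Agent.R272.PosFib_220
end

-- ▼ part R272/PosFib2_220
section

/-!
# R272, POS-FIB (helper220), file 2: positivity near a compact set from a few sections

`M` Hausdorff, `A : Atl n M`, `L : LB A`, `W` open, `K ⊆ W` compact, `S` finite, `y a` finitely many
holomorphic sections of `L` over `W`; `Fib` : for every `x ∈ K \ S`, in some chart,

* (NZ)  some `y a` is not zero at `x`;
* (TAN) if `v ≠ 0` and `d y_a (v) = c y_a` for all `a` (one `c`), then some holomorphic function vanishing on `K`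
        near `x` has `dg (v) ≠ 0`.

`posfib` : there are an open `W'`, `K ⊆ W' ⊆ W`, and a metric of `L` over `W'` with positive curvature at
all points of `W'`.
-/

set_option autoImplicit false
set_option linter.unusedSectionVars false
set_option linter.unusedVariables false

open Set Filter Topology Complex
open scoped ContDiff Matrix ComplexConjugate Manifold

namespace Crest.Agent.R272.PosFib_220

open Crest.Agent.R275.Geo Crest.Agent.R275.Core144 Crest.Agent.R273.Defs_333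
open Crest.Agent.R273.Map_835 Crest.Agent.R273 Crest.Agent.R275.QN2b734
open Crest.Agent.R272.PosGlue_232

noncomputable section

variable {n : ℕ} {M : Type} [TopologicalSpace M] {A : Atl n M} {L : LB A}
  {α : Type} [Fintype α]

/-- the good point condition -/
def Good (K : Set M) (y : α → A.ι → M → ℂ) (x : M) : Prop :=
  ∃ i, x ∈ (A.e i).source ∧ (∃ a, y a i x ≠ 0) ∧ ∀ v : Cn n, v ≠ 0 →
    (∃ c : ℂ, ∀ a, fderiv ℂ (fun z => y a i ((A.e i).symm z)) (A.e i x) v = c * y a i x) →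
    ∃ g : Cn n → ℂ, AnalyticAt ℂ g (A.e i x) ∧
      (∀ᶠ z in 𝓝 (A.e i x), (A.e i).symm z ∈ K → g z = 0) ∧ fderiv ℂ g (A.e i x) v ≠ 0

/-! ### sections in charts -/

theorem sec_anal {s : A.ι → M → ℂ} {W : Set M} (hW : IsOpen W) (hs : IsHS L W s) {i : A.ι} {x : M}
    (hi : x ∈ (A.e i).source) (hx : x ∈ W) :
    AnalyticAt ℂ (fun z => s i ((A.e i).symm z)) (A.e i x) := by
  refine Crest.Agent.R266.SCV.analyticOnNhd_of_differentiableOn
    ((A.e i).isOpen_inter_preimage_symm hW) (hs.hol i) _ ⟨(A.e i).map_source hi, ?_⟩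
  show (A.e i).symm (A.e i x) ∈ W
  rwa [(A.e i).left_inv hi]

/-- the local expression: `∑ |y_a|² + ε ∑_s χ_s |g_{i,c s}|²` -/
def FF (L : LB A) (y : α → A.ι → M → ℂ) (T : Finset M) (c : M → A.ι) (χ : M → M → ℝ) (ε : ℝ)
    (i : A.ι) (x : M) : ℝ :=
  ∑ a, ‖y a i x‖ ^ 2 + ε * ∑ s ∈ T, χ s x * ‖L.g i (c s) x‖ ^ 2

/-- the domain of positivity of `FF` -/
theorem FF_tr {W : Set M} {y : α → A.ι → M → ℂ} (hy : ∀ a, IsHS L W (y a)) {T : Finset M}
    {c : M → A.ι} {χ : M → M → ℝ} (hχ : ∀ s ∈ T, tsupport (χ s) ⊆ (A.e (c s)).source) {ε : ℝ}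
    {i j : A.ι} {x : M} (hx : x ∈ (A.e i).source ∩ (A.e j).source) (hW : x ∈ W) :
    FF L y T c χ ε i x = ‖L.g i j x‖ ^ 2 * FF L y T c χ ε j x := by
  unfold FF
  have h1 : ∀ a, ‖y a i x‖ ^ 2 = ‖L.g i j x‖ ^ 2 * ‖y a j x‖ ^ 2 := fun a => by
    rw [(hy a).tr i j x hx hW, norm_mul, mul_pow]
  have h2 : ∀ s ∈ T, χ s x * ‖L.g i (c s) x‖ ^ 2 =
      ‖L.g i j x‖ ^ 2 * (χ s x * ‖L.g j (c s) x‖ ^ 2) := by
    intro s hs
    by_cases hxs : x ∈ (A.e (c s)).source
    · rw [← L.mul i j (c s) x ⟨hx, hxs⟩, norm_mul]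
      ring
    · have : χ s x = 0 := image_eq_zero_of_notMem_tsupport fun h => hxs (hχ s hs h)
      rw [this]
      ring
  rw [Finset.sum_congr rfl fun a _ => h1 a, Finset.sum_congr rfl h2, ← Finset.mul_sum,
    ← Finset.mul_sum]
  ring

/-- joint smoothness of `FF` in `(ε, z)` -/
theorem FF_smooth {W : Set M} (hW : IsOpen W) {y : α → A.ι → M → ℂ} (hy : ∀ a, IsHS L W (y a))
    {T : Finset M} {c : M → A.ι} {χ : M → M → ℝ} (hsm : ∀ s x, SmP A (χ s) x)
    (hχ : ∀ s ∈ T, tsupport (χ s) ⊆ (A.e (c s)).source) {i : A.ι} {x : M}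
    (hi : x ∈ (A.e i).source) (hx : x ∈ W) (ε : ℝ) :
    ContDiffAt ℝ ∞ (fun p : ℝ × Cn n => FF L y T c χ p.1 i ((A.e i).symm p.2)) (ε, A.e i x) := by
  have hcomp : ∀ f : Cn n → ℝ, ContDiffAt ℝ ∞ f (A.e i x) →
      ContDiffAt ℝ ∞ (fun p : ℝ × Cn n => f p.2) (ε, A.e i x) := fun f hf =>
    ContDiffAt.comp (g := f) (f := fun p : ℝ × Cn n => p.2) (ε, A.e i x) hf contDiffAt_snd
  unfold FF
  refine ContDiffAt.add ?_ (ContDiffAt.mul contDiffAt_fst ?_)
  · refine ContDiffAt.sum fun a _ => ?_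
    exact hcomp (fun z => ‖y a i ((A.e i).symm z)‖ ^ 2)
      (Levi_145.c2_normSq (sec_anal hW (hy a) hi hx) ∞)
  · refine ContDiffAt.sum fun s hs => ?_
    refine hcomp (fun z => χ s ((A.e i).symm z) * ‖L.g i (c s) ((A.e i).symm z)‖ ^ 2) ?_
    by_cases hxs : x ∈ (A.e (c s)).source
    · have hz : A.e i x ∈ A.ov i (c s) := ⟨(A.e i).map_source hi, by rwa [(A.e i).left_inv hi]⟩
      exact (hsm s x i hi).mul
        (Levi_145.c2_normSq (f := fun z => L.g i (c s) ((A.e i).symm z)) (g_anal L hz) ∞)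
    · have h1 : x ∉ tsupport (χ s) := fun h => hxs (hχ s hs h)
      have h2 : ∀ᶠ y in 𝓝 x, χ s y = 0 := notMem_tsupport_iff_eventuallyEq.1 h1
      have h3 : (fun z => χ s ((A.e i).symm z) * ‖L.g i (c s) ((A.e i).symm z)‖ ^ 2) =ᶠ[𝓝 (A.e i x)]
          fun _ => (0 : ℝ) := by
        filter_upwards [tendsto_symm hi h2] with z hz
        rw [hz, zero_mul]
      exact contDiffAt_const.congr_of_eventuallyEq h3

/-- the open set where `FF` is positive -/
def FU (L : LB A) (W : Set M) (y : α → A.ι → M → ℂ) (T : Finset M) (c : M → A.ι) (χ : M → M → ℝ)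
    (ε : ℝ) : Set M :=
  {x | x ∈ W ∧ ∀ i, x ∈ (A.e i).source → 0 < FF L y T c χ ε i x}

section Fix

variable {W : Set M} {y : α → A.ι → M → ℂ} {T : Finset M} {c : M → A.ι} {χ : M → M → ℝ}

theorem mem_FU (hy : ∀ a, IsHS L W (y a))
    (hχ : ∀ s ∈ T, tsupport (χ s) ⊆ (A.e (c s)).source) {ε : ℝ} {i : A.ι} {x : M}
    (hi : x ∈ (A.e i).source) (hx : x ∈ W) (h : 0 < FF L y T c χ ε i x) :
    x ∈ FU L W y T c χ ε := by
  refine ⟨hx, fun j hj => ?_⟩
  rw [FF_tr hy hχ ⟨hj, hi⟩ hx]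
  have := L.ne_zero j i x
  positivity

theorem FF_smooth1 (hW : IsOpen W) (hy : ∀ a, IsHS L W (y a)) (hsm : ∀ s x, SmP A (χ s) x)
    (hχ : ∀ s ∈ T, tsupport (χ s) ⊆ (A.e (c s)).source) {i : A.ι} {x : M}
    (hi : x ∈ (A.e i).source) (hx : x ∈ W) (ε : ℝ) :
    ContDiffAt ℝ ∞ (fun z : Cn n => FF L y T c χ ε i ((A.e i).symm z)) (A.e i x) := by
  have h1 := FF_smooth hW hy hsm hχ hi hx ε
  have h2 : ContDiffAt ℝ ∞ (fun z : Cn n => (ε, z)) (A.e i x) :=
    contDiffAt_const.prodMk contDiffAt_id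
  exact ContDiffAt.comp (g := fun p : ℝ × Cn n => FF L y T c χ p.1 i ((A.e i).symm p.2))
    (f := fun z : Cn n => (ε, z)) (A.e i x) h1 h2

theorem isOpen_FU (hW : IsOpen W) (hy : ∀ a, IsHS L W (y a)) (hsm : ∀ s x, SmP A (χ s) x)
    (hχ : ∀ s ∈ T, tsupport (χ s) ⊆ (A.e (c s)).source) (ε : ℝ) :
    IsOpen (FU L W y T c χ ε) := by
  rw [isOpen_iff_mem_nhds]
  rintro x ⟨hxW, hx⟩
  obtain ⟨i, hi⟩ := A.cover x
  have h1 : ContinuousAt (fun z : Cn n => FF L y T c χ ε i ((A.e i).symm z)) (A.e i x) :=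
    (FF_smooth1 hW hy hsm hχ hi hxW ε).continuousAt
  have h2 : ContinuousAt (fun y' => FF L y T c χ ε i ((A.e i).symm (A.e i y'))) x :=
    ContinuousAt.comp (f := A.e i) (g := fun z : Cn n => FF L y T c χ ε i ((A.e i).symm z)) h1
      ((A.e i).continuousAt hi)
  have h3 : 0 < FF L y T c χ ε i ((A.e i).symm (A.e i x)) := by
    rw [(A.e i).left_inv hi]; exact hx i hi
  filter_upwards [h2.eventually (lt_mem_nhds h3), (A.e i).open_source.mem_nhds hi,
    hW.mem_nhds hxW] with y' h4 h5 h6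
  rw [(A.e i).left_inv h5] at h4
  exact mem_FU hy hχ h5 h6 h4

/-- the metric `1 / FF` -/
def hF (hW : IsOpen W) (hy : ∀ a, IsHS L W (y a)) (hsm : ∀ s x, SmP A (χ s) x)
    (hχ : ∀ s ∈ T, tsupport (χ s) ⊆ (A.e (c s)).source) (ε : ℝ) :
    HMo L (FU L W y T c χ ε) where
  w i x := (FF L y T c χ ε i x)⁻¹
  pos i x hx hU := inv_pos.2 (hU.2 i hx)
  sm i := by
    intro z hz
    have hx := (A.e i).map_target hz.1
    have h1 := FF_smooth1 hW hy hsm hχ hx hz.2.1 ε
    rw [(A.e i).right_inv hz.1] at h1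
    exact (h1.inv (hz.2.2 i hx).ne').contDiffWithinAt
  tr i j x hx hU := by
    have h1 := hU.2 j hx.2
    have h2 := L.ne_zero i j x
    rw [FF_tr hy hχ hx hU.1]
    field_simp

theorem hF_wt (hW : IsOpen W) (hy : ∀ a, IsHS L W (y a)) (hsm : ∀ s x, SmP A (χ s) x)
    (hχ : ∀ s ∈ T, tsupport (χ s) ⊆ (A.e (c s)).source) (ε : ℝ) (i : A.ι) (z : Cn n) :
    (hF hW hy hsm hχ ε).wt i z = Real.log (FF L y T c χ ε i ((A.e i).symm z)) := by
  simp only [HMo.wt, hF, Real.log_inv, neg_neg]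

theorem FF_zero (i : A.ι) (x : M) : FF L y T c χ 0 i x = ∑ a, ‖y a i x‖ ^ 2 := by
  simp [FF]

/-! ### the functions vanishing on `K` -/

/-- at a good point `x`: a smooth function `u`, Levi form `≥ 0` at the points of `K`, such that
`log ∑ |y_a|² + u` has positive Levi form at `x` -/
theorem exists_u [T2Space M] (hW : IsOpen W) (hy : ∀ a, IsHS L W (y a)) {K : Set M} {x : M}
    (hxW : x ∈ W) (hg : Good K y x) :
    ∃ u : M → ℝ, (∀ p, SmP A u p) ∧ (∀ k ∈ K, NN A u k) ∧ ∃ i, x ∈ (A.e i).source ∧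
      0 < ∑ a, ‖y a i x‖ ^ 2 ∧ ∀ v : Cn n, v ≠ 0 →
        0 < lev (fun z => Real.log (∑ a, ‖y a i ((A.e i).symm z)‖ ^ 2)) (A.e i x) v +
          lev (fun z => u ((A.e i).symm z)) (A.e i x) v := by
  classical
  obtain ⟨i, hi, hnz, htan⟩ := hg
  set z0 := A.e i x with hz0
  have hox : (A.e i).symm z0 = x := (A.e i).left_inv hi
  have hz0t : z0 ∈ (A.e i).target := (A.e i).map_source hi
  have hF : ∀ a, AnalyticAt ℂ (fun z => y a i ((A.e i).symm z)) z0 := fun a =>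
    sec_anal hW (hy a) hi hxW
  have hnz' : ∃ a, (fun a z => y a i ((A.e i).symm z)) a z0 ≠ 0 := by
    obtain ⟨a, ha⟩ := hnz
    exact ⟨a, by simpa [hox] using ha⟩
  -- the functions `g_v`
  have key : ∀ v : Cn n, ∃ g : Cn n → ℂ, AnalyticAt ℂ g z0 ∧
      (∀ᶠ z in 𝓝 z0, (A.e i).symm z ∈ K → g z = 0) ∧
      (v ≠ 0 → Levi_145.lev (fun z => Real.log (Levi_145.sumSq
        (fun a z => y a i ((A.e i).symm z)) z)) z0 v = 0 → fderiv ℂ g z0 v ≠ 0) := by
    intro v
    by_cases hv : v ≠ 0 ∧ Levi_145.lev (fun z => Real.log (Levi_145.sumSq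
        (fun a z => y a i ((A.e i).symm z)) z)) z0 v = 0
    · obtain ⟨c', hc'⟩ := Levi_145.lev_log_sumSq_eq_zero hF hnz' hv.2
      obtain ⟨g, g1, g2, g3⟩ := htan v hv.1 ⟨c', fun a => by
        have := hc' a
        simp only [hox] at this
        exact this⟩
      exact ⟨g, g1, g2, fun _ _ => g3⟩
    · exact ⟨0, analyticAt_const, Eventually.of_forall fun _ _ => rfl, fun h1 h2 =>
        absurd ⟨h1, h2⟩ hv⟩
  choose g g1 g2 g3 using key
  -- the compact set of null directions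
  let φ0 : Cn n → ℝ := fun z => Real.log (Levi_145.sumSq (fun a z => y a i ((A.e i).symm z)) z)
  let Sp : Set (Cn n) := Metric.sphere (0 : Cn n) 1
  have hSp : IsCompact Sp := isCompact_sphere 0 1
  have hne : ∀ v ∈ Sp, v ≠ 0 := by
    intro v hv h0
    rw [h0] at hv
    simp [Sp] at hv
  have hφc : Continuous fun v => Levi_145.lev φ0 z0 v := by
    unfold Levi_145.lev
    fun_prop
  let Z : Set (Cn n) := Sp ∩ {v | Levi_145.lev φ0 z0 v = 0}
  have hZ : IsCompact Z := hSp.inter_right (isClosed_eq hφc continuous_const)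
  obtain ⟨t, ht⟩ := hZ.elim_finite_subcover (fun v => {w : Cn n | fderiv ℂ (g v) z0 w ≠ 0})
    (fun v => (isOpen_ne_fun (fderiv ℂ (g v) z0).continuous continuous_const))
    (fun v hv => mem_iUnion.2 ⟨v, g3 v (hne v hv.1) hv.2⟩)
  -- `ρ = ∑ |g_v|²`
  let G : t → Cn n → ℂ := fun v => g v.1
  let ρ : Cn n → ℝ := Levi_145.sumSq G
  have hGev : ∀ᶠ z in 𝓝 z0, ∀ v : t, AnalyticAt ℂ (G v) z := by
    rw [eventually_all]
    exact fun v => (g1 v.1).eventually_analyticAt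
  have hGK : ∀ᶠ z in 𝓝 z0, ∀ v : t, (A.e i).symm z ∈ K → G v z = 0 := by
    rw [eventually_all]
    exact fun v => g2 v.1
  -- a neighbourhood and a bump
  have hN : {p | p ∈ (A.e i).source ∧ (∀ v : t, AnalyticAt ℂ (G v) (A.e i p)) ∧
      ∀ v : t, p ∈ K → G v (A.e i p) = 0} ∈ 𝓝 x := by
    have h1 : Tendsto (A.e i) (𝓝 x) (𝓝 z0) := (A.e i).continuousAt hi
    filter_upwards [(A.e i).open_source.mem_nhds hi, h1.eventually hGev, h1.eventually hGK]
      with p h2 h3 h4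
    refine ⟨h2, h3, fun v hp => h4 v ?_⟩
    rwa [(A.e i).left_inv h2]
  obtain ⟨ψ, p1, p2, p3, p4, p5⟩ := exists_bump_point A hN
  let u : M → ℝ := fun p => ψ p * ρ (A.e i p)
  have hu_in : ∀ p ∈ tsupport ψ, ContDiffAt ℝ ∞ (fun z => u ((A.e i).symm z)) (A.e i p) ∧
      (fun z => u ((A.e i).symm z)) =ᶠ[𝓝 (A.e i p)] fun z => ρ z * ψ ((A.e i).symm z) := by
    intro p hp
    obtain ⟨q1, q2, q3⟩ := p5 hp
    have h1 : (fun z => u ((A.e i).symm z)) =ᶠ[𝓝 (A.e i p)]
        fun z => ρ z * ψ ((A.e i).symm z) := by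
      filter_upwards [(A.e i).open_target.mem_nhds ((A.e i).map_source q1)] with z hz
      show ψ _ * ρ _ = _
      rw [(A.e i).right_inv hz, mul_comm]
    refine ⟨ContDiffAt.congr_of_eventuallyEq ?_ h1, h1⟩
    exact (Levi_145.c2_sumSq (F := G) q2 ∞).mul (p1 p i q1)
  have husm : ∀ p, SmP A u p := by
    intro p
    by_cases hp : p ∈ tsupport ψ
    · exact smP_of (p5 hp).1 (hu_in p hp).1
    · have h1 : ∀ᶠ q in 𝓝 p, ψ q = 0 := notMem_tsupport_iff_eventuallyEq.1 hp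
      intro j hj
      have h2 : (fun z => u ((A.e j).symm z)) =ᶠ[𝓝 (A.e j p)] fun _ => (0 : ℝ) := by
        filter_upwards [tendsto_symm hj h1] with z hz
        show ψ _ * _ = _
        rw [hz, zero_mul]
      exact contDiffAt_const.congr_of_eventuallyEq h2
  have hunn : ∀ k ∈ K, NN A u k := by
    intro k hk
    by_cases hp : k ∈ tsupport ψ
    · obtain ⟨q1, q2, q3⟩ := p5 hp
      refine nn_of q1 ((hu_in k hp).1.of_le (by norm_cast)) fun v => ?_
      have hv0 : ∀ v : t, G v (A.e i k) = 0 := fun v => q3 v hk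
      have hρ0 : ρ (A.e i k) = 0 := by
        show ∑ v, ‖G v (A.e i k)‖ ^ 2 = 0
        exact Finset.sum_eq_zero fun v _ => by rw [hv0 v]; simp
      have hρc : ContDiffAt ℝ 2 ρ (A.e i k) := Levi_145.c2_sumSq (F := G) q2 2
      have hmin : IsLocalMin ρ (A.e i k) := by
        refine Eventually.of_forall fun z => ?_
        rw [hρ0]
        exact Levi_145.sumSq_nonneg G z
      have hd : fderiv ℝ ρ (A.e i k) = 0 := hmin.fderiv_eq_zero
      rw [PB_835.lev_congr' (hu_in k hp).2, lev_mul_ker hρc ((p1 k i q1).of_le (by norm_cast)) v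
        (by rw [hd]; rfl) (by rw [hd]; rfl), hρ0, zero_mul, zero_add, PB_835.lev_bridge,
        Levi_145.lev_sumSq (F := G) q2]
      have := (p2 ((A.e i).symm (A.e i k))).1
      positivity
    · exact nn_zero ((notMem_tsupport_iff_eventuallyEq.1 hp : ∀ᶠ q in 𝓝 k, ψ q = 0).mono
        fun q hq => by show ψ q * _ = 0; rw [hq]; exact zero_mul _)
  refine ⟨u, husm, hunn, i, hi, ?_, fun v hv => ?_⟩
  · obtain ⟨a, ha⟩ := hnz
    exact Finset.sum_pos' (fun _ _ => by positivity) ⟨a, Finset.mem_univ a, by positivity⟩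
  · have hxs : x ∈ tsupport ψ := by
      refine subset_tsupport _ ?_
      rw [Function.mem_support, p3.self_of_nhds]
      exact one_ne_zero
    -- near `x`: `u = ρ`
    have h1 : (fun z => u ((A.e i).symm z)) =ᶠ[𝓝 z0] ρ := by
      filter_upwards [(hu_in x hxs).2, tendsto_symm hi p3] with z h2 h3
      rw [h2, h3, mul_one]
    have h2 : Levi_145.lev (fun z => Real.log (∑ a, ‖y a i ((A.e i).symm z)‖ ^ 2)) z0 v =
      Levi_145.lev φ0 z0 v := rfl
    rw [PB_835.lev_congr' h1, PB_835.lev_bridge, PB_835.lev_bridge, h2,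
      Levi_145.lev_sumSq (F := G) (fun w => g1 w.1)]
    have h3 : 0 ≤ Levi_145.lev φ0 z0 v := Levi_145.lev_log_sumSq_nonneg hF hnz' v
    have h4 : 0 ≤ ∑ w : t, ‖fderiv ℂ (G w) z0 v‖ ^ 2 := Finset.sum_nonneg fun _ _ => by positivity
    rcases h3.lt_or_eq with h5 | h5
    · linarith
    · -- null direction
      have hn : 0 < ‖v‖ := norm_pos_iff.2 hv
      have hc2 : ContDiffAt ℝ 2 φ0 z0 :=
        (Levi_145.c2_sumSq hF 2).log (Levi_145.sumSq_pos hnz').ne'
      have h6 : ((‖v‖⁻¹ : ℝ) : ℂ) • v ∈ Z := by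
        refine ⟨by simp [Sp, norm_smul, hn.ne'], ?_⟩
        show Levi_145.lev φ0 z0 _ = 0
        rw [Levi_145.lev_smul hc2, ← h5, mul_zero]
      obtain ⟨w, hw, h7⟩ := mem_iUnion₂.1 (ht h6)
      have h8 : fderiv ℂ (g w) z0 v ≠ 0 := by
        intro h0
        apply h7
        show fderiv ℂ (g w) z0 _ = 0
        rw [map_smul, h0, smul_zero]
      have h9 : 0 < ∑ w : t, ‖fderiv ℂ (G w) z0 v‖ ^ 2 :=
        Finset.sum_pos' (fun _ _ => by positivity) ⟨⟨w, hw⟩, Finset.mem_univ _, by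
          show 0 < ‖fderiv ℂ (g w) z0 v‖ ^ 2
          positivity⟩
      linarith

end Fix

end

end Crest.Agent.R272.PosFib_220
end

-- ▼ part R272/PosFib3_220

/-!
# R272, POS-FIB (helper220), file 3: the theorem

`posfib` : positivity near a compact set from a few sections, finitely many bad points.
`posfib_map` : the same over a neighbourhood of a point of the base, as an `HMo L (p ⁻¹' V)` with `PosK`.
-/

set_option autoImplicit false
set_option linter.unusedSectionVars false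
set_option linter.unusedVariables false

open Set Filter Topology Complex
open scoped ContDiff Matrix ComplexConjugate Manifold

namespace Crest.Agent.R272.PosFib_220

open Crest.Agent.R275.Geo Crest.Agent.R275.Core144 Crest.Agent.R273.Defs_333
open Crest.Agent.R273.Map_835 Crest.Agent.R273 Crest.Agent.R275.QN2b734
open Crest.Agent.R272.PosGlue_232

noncomputable section

variable {n : ℕ} {M : Type} [TopologicalSpace M] {A : Atl n M} {L : LB A}
  {α : Type} [Fintype α]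

/-- a pair of nested bumps at `s` -/
theorem exists_bumps [T2Space M] (A : Atl n M) {s : M} {U : Set M} (hU : U ∈ 𝓝 s) :
    ∃ θ χ : M → ℝ, (∀ p, SmP A θ p) ∧ (∀ p, SmP A χ p) ∧ tsupport θ ⊆ U ∧ tsupport χ ⊆ U ∧
      (∀ p ∈ tsupport χ, ∀ᶠ q in 𝓝 p, θ q = 1) ∧ (∀ᶠ q in 𝓝 s, χ q = 1) ∧
      (∀ p, 0 ≤ χ p) := by
  obtain ⟨θ, a1, a2, a3, a4, a5⟩ := exists_bump_point A hU
  obtain ⟨χ, b1, b2, b3, b4, b5⟩ := exists_bump_point A (inter_mem hU (eventually_eventually_nhds.2 a3))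
  exact ⟨θ, χ, a1, b1, a5, fun p hp => (b5 hp).1, fun p hp => (b5 hp).2, b3, fun p => (b2 p).1⟩

/-- the function `θ ‖z - z_s‖²` -/
def rad (A : Atl n M) (i : A.ι) (s : M) (θ : M → ℝ) (p : M) : ℝ :=
  θ p * ‖A.e i p - A.e i s‖ ^ 2

theorem rad_smooth {i : A.ι} {s : M} {θ : M → ℝ} (hθ : ∀ p, SmP A θ p)
    (hs : tsupport θ ⊆ (A.e i).source) (p : M) : SmP A (rad A i s θ) p := by
  by_cases hp : p ∈ tsupport θ
  · refine smP_of (hs hp) ?_
    have h1 : (fun z => rad A i s θ ((A.e i).symm z)) =ᶠ[𝓝 (A.e i p)]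
        fun z => θ ((A.e i).symm z) * ‖z - A.e i s‖ ^ 2 := by
      filter_upwards [(A.e i).open_target.mem_nhds ((A.e i).map_source (hs hp))] with z hz
      simp only [rad]
      rw [(A.e i).right_inv hz]
    refine ContDiffAt.congr_of_eventuallyEq ?_ h1
    exact (hθ p i (hs hp)).mul ((contDiffAt_id.sub contDiffAt_const).norm_sq ℝ)
  · have h1 : ∀ᶠ q in 𝓝 p, θ q = 0 := notMem_tsupport_iff_eventuallyEq.1 hp
    intro j hj
    have h2 : (fun z => rad A i s θ ((A.e j).symm z)) =ᶠ[𝓝 (A.e j p)] fun _ => (0 : ℝ) := by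
      filter_upwards [tendsto_symm hj h1] with z hz
      simp only [rad]
      rw [hz, zero_mul]
    exact contDiffAt_const.congr_of_eventuallyEq h2

theorem lev_norm_sq (z0 z v : Cn n) :
    lev (fun w : Cn n => ‖w - z0‖ ^ 2) z v = 4 * ‖v‖ ^ 2 := by
  have h1 : (fun w : Cn n => ‖w - z0‖ ^ 2) =
      Levi_145.sumSq (fun (a : Fin n) (w : Cn n) => w a - z0 a) := by
    funext w
    rw [EuclideanSpace.norm_sq_eq]
    rfl
  have h2 : ∀ a : Fin n, HasFDerivAt (fun w : Cn n => w a - z0 a)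
      (EuclideanSpace.proj (𝕜 := ℂ) a : Cn n →L[ℂ] ℂ) z := fun a =>
    ((EuclideanSpace.proj (𝕜 := ℂ) a : Cn n →L[ℂ] ℂ).hasFDerivAt).sub_const _
  have h3 : ∀ a : Fin n, AnalyticAt ℂ (fun w : Cn n => w a - z0 a) z := fun a =>
    ((EuclideanSpace.proj (𝕜 := ℂ) a : Cn n →L[ℂ] ℂ).analyticAt z).sub analyticAt_const
  rw [PB_835.lev_bridge, h1, Levi_145.lev_sumSq h3, EuclideanSpace.norm_sq_eq]
  congr 1
  refine Finset.sum_congr rfl fun a _ => ?_
  rw [(h2 a).fderiv]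
  rfl

theorem posfib [T2Space M] {W : Set M} (hW : IsOpen W) {K : Set M} (hK : IsCompact K)
    (hKW : K ⊆ W) {S : Set M} (hS : S.Finite) {y : α → A.ι → M → ℂ} (hy : ∀ a, IsHS L W (y a))
    (hgood : ∀ x ∈ K, x ∉ S → Good K y x) :
    ∃ W' : Set M, IsOpen W' ∧ K ⊆ W' ∧ W' ⊆ W ∧ ∃ h : HMo L W', ∀ x ∈ W', PosO h x := by
  classical
  -- the bad points in `K`
  have hT' : (S ∩ K).Finite := hS.subset inter_subset_left
  obtain ⟨T, hT⟩ : ∃ T : Finset M, (T : Set M) = S ∩ K := ⟨hT'.toFinset, hT'.coe_toFinset⟩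
  obtain ⟨V, hV1, hV2⟩ := hT'.t2_separation
  choose c hc using A.cover
  have hNb : ∀ s : M, V s ∩ (A.e (c s)).source ∈ 𝓝 s := fun s =>
    inter_mem ((hV1 s).2.mem_nhds (hV1 s).1) ((A.e (c s)).open_source.mem_nhds (hc s))
  choose θ χ t1 t2 t3 t4 t5 t6 t7 using fun s => exists_bumps A (hNb s)
  have hχs : ∀ s ∈ T, tsupport (χ s) ⊆ (A.e (c s)).source := fun s _ p hp => (t4 s hp).2
  -- the open sets where `χ s = 1`
  let N : M → Set M := fun s => interior {q | χ s q = 1}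
  have hNo : ∀ s, IsOpen (N s) := fun s => isOpen_interior
  have hNs : ∀ s, s ∈ N s := fun s => mem_interior_iff_mem_nhds.2 (t6 s)
  have hN1 : ∀ s, ∀ p ∈ N s, ∀ᶠ q in 𝓝 p, χ s q = 1 := fun s p hp =>
    mem_interior_iff_mem_nhds.1 hp
  have hNt : ∀ s, ∀ p ∈ N s, p ∈ tsupport (χ s) := by
    intro s p hp
    refine subset_tsupport _ ?_
    rw [Function.mem_support, (hN1 s p hp).self_of_nhds]
    exact one_ne_zero
  let K1 : Set M := K \ ⋃ s ∈ T, N s
  have hK1 : IsCompact K1 := hK.diff (isOpen_biUnion fun s _ => hNo s)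
  have hK1S : ∀ x ∈ K1, x ∉ S := by
    rintro x ⟨hx, hx2⟩ hxS
    refine hx2 (mem_iUnion₂.2 ⟨x, ?_, hNs x⟩)
    have : x ∈ (T : Set M) := by rw [hT]; exact ⟨hxS, hx⟩
    exact this
  -- the metric at `ε = 0`
  let U0 : Set M := FU L W y T c χ 0
  let h0 : HMo L U0 := hF hW hy t2 hχs 0
  have hU0 : IsOpen U0 := isOpen_FU hW hy t2 hχs 0
  -- the functions `u x`
  have hu : ∀ x : M, ∃ u : M → ℝ, (∀ p, SmP A u p) ∧ (∀ k ∈ K, NN A u k) ∧
      (x ∈ K1 → x ∈ U0 ∧ ∀ (hu : ∀ p ∈ U0, SmP A u p), PosO (mulExp h0 hU0 u hu) x) := by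
    intro x
    by_cases hx : x ∈ K1
    · obtain ⟨u, u1, u2, i, hi, u3, u4⟩ := exists_u hW hy (hKW hx.1) (hgood x hx.1 (hK1S x hx))
      have hxU : x ∈ U0 := mem_FU hy hχs hi (hKW hx.1) (by rw [FF_zero]; exact u3)
      refine ⟨u, u1, u2, fun _ => ⟨hxU, fun hu' => posO_of _ hU0 hi hxU fun v hv => ?_⟩⟩
      rw [mulExp_lev h0 hU0 u hu' hi hxU]
      have h1 : h0.wt i = fun z => Real.log (∑ a, ‖y a i ((A.e i).symm z)‖ ^ 2) := by
        funext z
        rw [hF_wt, FF_zero]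
      rw [h1]
      exact u4 v hv
    · refine ⟨fun _ => 0, fun p j hj => contDiffAt_const, fun k _ =>
        nn_zero (Eventually.of_forall fun _ => rfl), fun h => absurd h hx⟩
  choose u hu1 hu2 hu3 using hu
  have huS : ∀ x, ∀ p ∈ U0, SmP A (u x) p := fun x p _ => hu1 x p
  obtain ⟨t, ht⟩ := hK1.elim_nhds_subcover
    (fun x => if x ∈ K1 then {p | p ∈ U0 ∧ PosO (mulExp h0 hU0 (u x) (huS x)) p} else univ)
    (fun x hx => by
      simp only [hx, if_true]
      exact (isOpen_posO _ hU0).mem_nhds ⟨(hu3 x hx).1, (hu3 x hx).2 (huS x)⟩)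
  let u1 : M → ℝ := fun p => ∑ x ∈ t, u x p
  have hu1s : ∀ p, SmP A u1 p := fun p => smP_sum t fun x _ => hu1 x p
  have hu1n : ∀ k ∈ K, NN A u1 k := fun k hk => nn_sum t (fun x _ => hu1 x k) fun x _ => hu2 x k hk
  -- positivity on `K1` for `ε = 0`
  have hpos0 : ∀ k ∈ K1, k ∈ U0 ∧ ∀ j, k ∈ (A.e j).source → ∀ v : Cn n, v ≠ 0 →
      0 < lev (h0.wt j) (A.e j k) v + lev (fun z => u1 ((A.e j).symm z)) (A.e j k) v := by
    intro k hk
    obtain ⟨x, hxt, hkx⟩ := mem_iUnion₂.1 (ht.2 hk)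
    have hxK := ht.1 x hxt
    simp only [hxK, if_true] at hkx
    refine ⟨hkx.1, fun j hj v hv => ?_⟩
    have h1 := hkx.2 j hj v hv
    rw [mulExp_lev h0 hU0 (u x) (huS x) hj hkx.1] at h1
    have h2 : lev (fun z => u1 ((A.e j).symm z)) (A.e j k) v =
        ∑ x ∈ t, lev (fun z => u x ((A.e j).symm z)) (A.e j k) v := by
      have := Levi_145.lev_sum t (f := fun a z => u a ((A.e j).symm z)) (z := A.e j k)
        (fun a _ => (hu1 a k j hj).of_le (by norm_cast)) v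
      rw [PB_835.lev_bridge]
      simp only [PB_835.lev_bridge]
      rw [← Finset.mul_sum, ← this]
    rw [h2]
    have h3 : lev (fun z => u x ((A.e j).symm z)) (A.e j k) v ≤
        ∑ x ∈ t, lev (fun z => u x ((A.e j).symm z)) (A.e j k) v :=
      Finset.single_le_sum (f := fun x => lev (fun z => u x ((A.e j).symm z)) (A.e j k) v)
        (fun a _ => hu2 a k hk.1 j hj v) hxt
    linarith
  -- the function near the bad points
  let u2 : M → ℝ := fun p => ∑ s ∈ T, rad A (c s) s (θ s) p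
  have hu2s : ∀ p, SmP A u2 p := fun p => smP_sum T fun s _ =>
    rad_smooth (t1 s) (fun q hq => (t3 s hq).2) p
  let uu : ℝ → M → ℝ := fun ε p => u1 p + ε * u2 p
  have huus : ∀ ε p, SmP A (uu ε) p := fun ε p j hj =>
    (hu1s p j hj).add (contDiffAt_const.mul (hu2s p j hj))
  have hUo : ∀ ε, IsOpen (FU L W y T c χ ε) := fun ε => isOpen_FU hW hy t2 hχs ε
  let hh : ∀ ε, HMo L (FU L W y T c χ ε) := fun ε =>
    mulExp (hF hW hy t2 hχs ε) (hUo ε) (uu ε) (fun p _ => huus ε p)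
  -- small `ε`: positivity on `K1`
  have hev : ∀ᶠ ε in 𝓝 (0 : ℝ), ∀ x ∈ K1, x ∈ FU L W y T c χ ε ∧ PosO (hh ε) x := by
    refine hK1.eventually_forall_of_forall_eventually fun k hk => ?_
    obtain ⟨hkU, hkp⟩ := hpos0 k hk
    obtain ⟨j, hj⟩ := A.cover k
    have s1 := FF_smooth (c := c) (T := T) (χ := χ) hW hy t2 hχs hj (hKW hk.1) 0
    have s2 : (0 : ℝ) < FF L y T c χ ((0 : ℝ), A.e j k).1 j
        ((A.e j).symm ((0 : ℝ), A.e j k).2) := by
      simp only
      rw [(A.e j).left_inv hj]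
      exact hkU.2 j hj
    have hcomp : ∀ f : Cn n → ℝ, ContDiffAt ℝ ∞ f (A.e j k) →
        ContDiffAt ℝ ∞ (fun p : ℝ × Cn n => f p.2) ((0 : ℝ), A.e j k) := fun f hf =>
      ContDiffAt.comp (g := f) (f := fun p : ℝ × Cn n => p.2) ((0 : ℝ), A.e j k) hf contDiffAt_snd
    have s3 : ContDiffAt ℝ ∞ (fun p : ℝ × Cn n =>
        Real.log (FF L y T c χ p.1 j ((A.e j).symm p.2)) + uu p.1 ((A.e j).symm p.2))
        ((0 : ℝ), A.e j k) := by
      refine (s1.log s2.ne').add ((hcomp _ (hu1s k j hj)).add (contDiffAt_fst.mul ?_))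
      exact hcomp (fun z => u2 ((A.e j).symm z)) (hu2s k j hj)
    have s4 : ∀ v : Cn n, v ≠ 0 → 0 < lev (fun z => (fun p : ℝ × Cn n =>
        Real.log (FF L y T c χ p.1 j ((A.e j).symm p.2)) + uu p.1 ((A.e j).symm p.2))
        ((0 : ℝ), z)) (A.e j k) v := by
      intro v hv
      have h1 := hkp j hj v hv
      have h2 : (fun z => (fun p : ℝ × Cn n =>
        Real.log (FF L y T c χ p.1 j ((A.e j).symm p.2)) + uu p.1 ((A.e j).symm p.2))
        ((0 : ℝ), z)) = fun z => h0.wt j z + u1 ((A.e j).symm z) := by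
        funext z
        simp only [uu, zero_mul, add_zero]
        rw [hF_wt]
      rw [h2, PB_835.lev_bridge, Levi_145.lev_add ((wt_contDiffAt h0 hU0 hj hkU).of_le
        (by norm_cast)) ((hu1s k j hj).of_le (by norm_cast))]
      rw [PB_835.lev_bridge, PB_835.lev_bridge] at h1
      linarith
    have s5 := perturb s3 s4
    have s6 : Tendsto (fun p : ℝ × M => (p.1, A.e j p.2)) (𝓝 ((0 : ℝ), k))
        (𝓝 ((0 : ℝ), A.e j k)) := by
      have : ContinuousAt (fun p : ℝ × M => (p.1, A.e j p.2)) ((0 : ℝ), k) := by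
        refine continuousAt_fst.prodMk ?_
        exact ContinuousAt.comp (f := fun p : ℝ × M => p.2) (g := A.e j)
          ((A.e j).continuousAt hj) continuousAt_snd
      exact this
    have s7 : Tendsto (fun p : ℝ × M => p.2) (𝓝 ((0 : ℝ), k)) (𝓝 k) := continuousAt_snd
    have s8 : ∀ᶠ p in 𝓝 ((0 : ℝ), A.e j k), 0 < FF L y T c χ p.1 j ((A.e j).symm p.2) :=
      s1.continuousAt.eventually (lt_mem_nhds s2)
    filter_upwards [s6.eventually s5, s7.eventually ((A.e j).open_source.mem_nhds hj),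
      s7.eventually (hW.mem_nhds (hKW hk.1)), s6.eventually s8] with p p1 p2 p3 p4
    obtain ⟨ε, x⟩ := p
    simp only at p1 p2 p3 p4
    have p2' : x ∈ (A.e j).source := p2
    rw [(A.e j).left_inv p2'] at p4
    have hxU : x ∈ FU L W y T c χ ε := mem_FU hy hχs p2' p3 p4
    refine ⟨hxU, posO_of _ (hUo ε) p2' hxU fun v hv => ?_⟩
    have h1 := p1 v hv
    have h2 : (fun z => Real.log (FF L y T c χ ε j ((A.e j).symm z)) + uu ε ((A.e j).symm z)) =
        fun z => (hF hW hy t2 hχs ε).wt j z + uu ε ((A.e j).symm z) := by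
      funext z
      rw [hF_wt]
    rw [h2, PB_835.lev_bridge, Levi_145.lev_add ((wt_contDiffAt _ (hUo ε) p2' hxU).of_le
      (by norm_cast)) ((huus ε x j p2').of_le (by norm_cast))] at h1
    rw [mulExp_lev _ (hUo ε) (uu ε) (fun p _ => huus ε p) p2' hxU, PB_835.lev_bridge,
      PB_835.lev_bridge]
    linarith
  obtain ⟨ε, hε0, hε⟩ : ∃ ε : ℝ, 0 < ε ∧ ∀ x ∈ K1, x ∈ FU L W y T c χ ε ∧ PosO (hh ε) x := by
    obtain ⟨d, hd, hd2⟩ := Metric.eventually_nhds_iff.1 hev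
    refine ⟨d / 2, by positivity, hd2 ?_⟩
    rw [Real.dist_eq, sub_zero, abs_of_pos (by positivity)]
    linarith
  -- near the bad points
  have hbad : ∀ s ∈ T, ∀ k ∈ K, k ∈ N s → k ∈ FU L W y T c χ ε ∧ PosO (hh ε) k := by
    intro s hs k hk hkN
    have hkt := hNt s k hkN
    have hki : k ∈ (A.e (c s)).source := hχs s hs hkt
    have hkV : k ∈ V s := (t4 s hkt).1
    have hoth : ∀ s' ∈ T, s' ≠ s → ∀ᶠ q in 𝓝 k, χ s' q = 0 ∧ θ s' q = 0 := by
      intro s' hs' hne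
      have hd : Disjoint (V s') (V s) := by
        refine hV2 ?_ ?_ hne
        · have : s' ∈ (T : Set M) := hs'
          rwa [hT] at this
        · have : s ∈ (T : Set M) := hs
          rwa [hT] at this
      filter_upwards [(hV1 s).2.mem_nhds hkV] with q hq
      have hq' : q ∉ V s' := fun h => (Set.disjoint_left.1 hd h hq)
      exact ⟨image_eq_zero_of_notMem_tsupport fun h => hq' (t4 s' h).1,
        image_eq_zero_of_notMem_tsupport fun h => hq' (t3 s' h).1⟩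
    have hoth' : ∀ᶠ q in 𝓝 k, ∀ s' ∈ T, s' ≠ s → χ s' q = 0 ∧ θ s' q = 0 := by
      rw [Filter.eventually_all_finset]
      intro s' hs'
      by_cases hne : s' = s
      · exact Eventually.of_forall fun q h => absurd hne h
      · exact (hoth s' hs' hne).mono fun q hq _ => hq
    -- the local expression
    have hFe : ∀ᶠ q in 𝓝 k, q ∈ (A.e (c s)).source ∧ FF L y T c χ ε (c s) q =
        (∑ a, ‖y a (c s) q‖ ^ 2) + ε := by
      filter_upwards [hoth', hN1 s k hkN, (A.e (c s)).open_source.mem_nhds hki] with q q1 q2 q3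
      refine ⟨q3, ?_⟩
      unfold FF
      rw [Finset.sum_eq_single s (fun s' hs' hne => by rw [(q1 s' hs' hne).1, zero_mul])
        (fun h => absurd hs h), q2, L.self]
      simp
    have hu2e : ∀ᶠ q in 𝓝 k, q ∈ (A.e (c s)).source ∧ u2 q =
        ‖A.e (c s) q - A.e (c s) s‖ ^ 2 := by
      filter_upwards [hoth', t5 s k hkt, (A.e (c s)).open_source.mem_nhds hki] with q q1 q2 q3
      refine ⟨q3, ?_⟩
      show ∑ s' ∈ T, rad A (c s') s' (θ s') q = _
      rw [Finset.sum_eq_single s (fun s' hs' hne => by rw [rad, (q1 s' hs' hne).2, zero_mul])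
        (fun h => absurd hs h), rad, q2, one_mul]
    have hkU : k ∈ FU L W y T c χ ε := by
      refine mem_FU hy hχs hki (hKW hk) ?_
      rw [hFe.self_of_nhds.2]
      have : 0 ≤ ∑ a, ‖y a (c s) k‖ ^ 2 := Finset.sum_nonneg fun _ _ => by positivity
      linarith
    refine ⟨hkU, posO_of _ (hUo ε) hki hkU fun v hv => ?_⟩
    rw [mulExp_lev _ (hUo ε) (uu ε) (fun p _ => huus ε p) hki hkU]
    -- first term
    let F : Option α → Cn n → ℂ := fun a z =>
      match a with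
      | some a => y a (c s) ((A.e (c s)).symm z)
      | none => ((Real.sqrt ε : ℝ) : ℂ)
    have hFa : ∀ a, AnalyticAt ℂ (F a) (A.e (c s) k) := by
      intro a
      cases a with
      | none => exact analyticAt_const
      | some a => exact sec_anal hW (hy a) hki (hKW hk)
    have hF0 : ∃ a, F a (A.e (c s) k) ≠ 0 := by
      refine ⟨none, ?_⟩
      show ((Real.sqrt ε : ℝ) : ℂ) ≠ 0
      exact_mod_cast (Real.sqrt_pos.2 hε0).ne'
    have e1 : (hF hW hy t2 hχs ε).wt (c s) =ᶠ[𝓝 (A.e (c s) k)]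
        fun z => Real.log (Levi_145.sumSq F z) := by
      filter_upwards [tendsto_symm hki hFe] with z hz
      rw [hF_wt, hz.2]
      congr 1
      unfold Levi_145.sumSq
      rw [Fintype.sum_option, add_comm]
      congr 1
      show ε = ‖((Real.sqrt ε : ℝ) : ℂ)‖ ^ 2
      rw [Complex.norm_real, Real.norm_eq_abs, sq_abs, Real.sq_sqrt hε0.le]
    have e2 : 0 ≤ lev ((hF hW hy t2 hχs ε).wt (c s)) (A.e (c s) k) v := by
      rw [PB_835.lev_congr' e1, PB_835.lev_bridge]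
      have := Levi_145.lev_log_sumSq_nonneg hFa hF0 v
      linarith
    -- second term
    have e3 : (fun z => uu ε ((A.e (c s)).symm z)) =ᶠ[𝓝 (A.e (c s) k)]
        fun z => u1 ((A.e (c s)).symm z) + ε * ‖z - A.e (c s) s‖ ^ 2 := by
      filter_upwards [tendsto_symm hki hu2e,
        (A.e (c s)).open_target.mem_nhds ((A.e (c s)).map_source hki)] with z hz hzt
      show u1 _ + ε * u2 _ = _
      rw [hz.2, (A.e (c s)).right_inv hzt]
    have c1 : ContDiffAt ℝ 2 (fun z => u1 ((A.e (c s)).symm z)) (A.e (c s) k) :=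
      (hu1s k (c s) hki).of_le (by norm_cast)
    have c2 : ContDiffAt ℝ 2 (fun z : Cn n => ‖z - A.e (c s) s‖ ^ 2) (A.e (c s) k) :=
      (contDiffAt_id.sub contDiffAt_const).norm_sq ℝ
    have e4 : lev (fun z => uu ε ((A.e (c s)).symm z)) (A.e (c s) k) v =
        lev (fun z => u1 ((A.e (c s)).symm z)) (A.e (c s) k) v + ε * (4 * ‖v‖ ^ 2) := by
      rw [PB_835.lev_congr' e3, PB_835.lev_bridge, Levi_145.lev_add c1 (contDiffAt_const.mul c2),
        Levi_145.lev_const_mul ε c2, ← lev_norm_sq (A.e (c s) s) (A.e (c s) k) v,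
        PB_835.lev_bridge, PB_835.lev_bridge]
      ring
    have e5 := hu1n k hk (c s) hki v
    have hn : 0 < ‖v‖ := norm_pos_iff.2 hv
    rw [e4]
    have : 0 < ε * (4 * ‖v‖ ^ 2) := by positivity
    linarith
  -- conclusion
  refine ⟨{x | x ∈ FU L W y T c χ ε ∧ PosO (hh ε) x}, isOpen_posO _ (hUo ε), ?_, ?_, ?_⟩
  · intro k hk
    by_cases h : k ∈ ⋃ s ∈ T, N s
    · obtain ⟨s, hs, hkN⟩ := mem_iUnion₂.1 h
      exact hbad s hs k hk hkN
    · exact hε k ⟨hk, h⟩
  · exact fun x hx => hx.1.1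
  · exact ⟨(hh ε).mono fun x hx => hx.1, fun x hx => hx.2⟩

/-! ### over the base -/

section Base

variable {m : ℕ} {N : Type} [TopologicalSpace N] {B : Atl m N} {p : M → N}


end Base

end

end Crest.Agent.R272.PosFib_220
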