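import Crest.Agent.R272.CB1_232
import Crest.Agent.R272.PosFib3_220

-- ▼ part R272/CB2_232
section

/-!
# R272, task CB (helper232), part 2: from open covers to atlases

`CB.lb`        : the line bundle on an atlas subordinate to the cover of a `CB`;
`isHS_lb`      : sections;  `hmo_lb`, `hm_lb` : metrics;
`Tan C y K x j`: the condition (TAN) of POS-FIB (220) in the chart `j`; `tan_chg`, `tan_frame` : it does not
                 depend on the chart or on the frame.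
-/

set_option autoImplicit false
set_option linter.unusedSectionVars false

open Set Filter Topology Complex
open scoped ContDiff Matrix ComplexConjugate Manifold

namespace Crest.Agent.R272.CB_232

open Crest.Agent.R275.Geo Crest.Agent.R275.Core144 Crest.Agent.R275.GC293
open Crest.Agent.R273.Defs_333 Crest.Agent.R273.Map_835 Crest.Agent.R273.PB_835
open Crest.Agent.R273.Fam_835
open Crest.Agent.R272.Quot_783 Crest.Agent.R272.PosGlue_232

noncomputable section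

variable {n m : ℕ} {X N : Type} [TopologicalSpace X] [TopologicalSpace N]
  {C C' : Fam n X} {D : Fam m N} {p : X → N} {U V W : Set X} {F G : X → ℂ}

theorem HolC.anAt (h : HolC C D p) {i : C.ι} {j : D.ι} {z : Cn n} (hz : z ∈ (C.e i).target)
    (hj : p ((C.e i).symm z) ∈ (D.e j).source) :
    AnalyticAt ℂ (fun z => D.e j (p ((C.e i).symm z))) z :=
  Crest.Agent.R266.SCV.analyticOnNhd_of_differentiableOn (h.isOpen_dm i j) (h.hol i j) z ⟨hz, hj⟩

theorem smOn_comp {U : Set N} {f : N → ℝ} (hp : HolC C D p) (hU : IsOpen U) (hf : SmOn D U f) :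
    SmOn C (p ⁻¹' U) fun x => f (p x) := by
  intro j z hz
  set x := (C.e j).symm z with hx
  obtain ⟨l, hl⟩ := D.cover (p x)
  have h1 : ContDiffAt ℝ ∞ (fun y => f ((D.e l).symm y)) (D.e l (p x)) :=
    (hf l).contDiffAt (((D.e l).isOpen_inter_preimage_symm hU).mem_nhds
      ⟨(D.e l).map_source hl, by rw [mem_preimage, (D.e l).left_inv hl]; exact hz.2⟩)
  have h2 : ContDiffAt ℝ ∞ (fun z => D.e l (p ((C.e j).symm z))) z :=
    (HolC.anAt hp (i := j) (j := l) hz.1 hl).contDiffAt.restrict_scalars ℝ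
  have h3 := ContDiffAt.comp z (g := fun y => f ((D.e l).symm y))
    (f := fun z => D.e l (p ((C.e j).symm z))) h1 h2
  refine (h3.congr_of_eventuallyEq ?_).contDiffWithinAt
  filter_upwards [(hp.isOpen_dm j l).mem_nhds ⟨hz.1, hl⟩] with w hw
  simp only [Function.comp]
  rw [(D.e l).left_inv hw.2]

section Bridge

variable (L : CB C) (A : Atl n X) (hA : HolC (fam A) C id) (c : A.ι → L.α)
  (hc : ∀ i, (A.e i).source ⊆ L.V (c i))

open Classical in
/-- the line bundle on a subordinate atlas -/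
def CB.lb : LB A where
  g i j x := if x ∈ (A.e i).source ∩ (A.e j).source then L.g (c i) (c j) x else 1
  hol i j := by
    have h1 : HolF (fam A) (id ⁻¹' (L.V (c i) ∩ L.V (c j))) fun x => L.g (c i) (c j) (id x) :=
      holF_comp hA ((L.op _).inter (L.op _)) (L.hol _ _)
    refine ((h1 i).mono ?_).congr ?_
    · rintro z ⟨hz, hz'⟩
      exact ⟨hz, hc i ((A.e i).map_target hz), hc j hz'⟩
    · rintro z ⟨hz, hz'⟩
      exact if_pos ⟨(A.e i).map_target hz, hz'⟩
  off i j x hx := if_neg hx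
  self i x := by
    by_cases hx : x ∈ (A.e i).source
    · rw [if_pos ⟨hx, hx⟩, L.self (hc i hx)]
    · rw [if_neg fun h => hx h.1]
  mul i j k x hx := by
    rw [if_pos hx.1, if_pos ⟨hx.1.2, hx.2⟩, if_pos ⟨hx.1.1, hx.2⟩,
      L.mul _ _ _ x ⟨⟨hc i hx.1.1, hc j hx.1.2⟩, hc k hx.2⟩]

theorem CB.lb_g {i j : A.ι} {x : X} (hi : x ∈ (A.e i).source) (hj : x ∈ (A.e j).source) :
    (CB.lb L A hA c hc).g i j x = L.g (c i) (c j) x := if_pos ⟨hi, hj⟩

open Classical in
/-- a section on the subordinate atlas -/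
def Sec.on (y : Sec L W) (i : A.ι) (x : X) : ℂ :=
  if x ∈ (A.e i).source ∩ W then y.s (c i) x else 0

variable {L} in
theorem Sec.on_eq (y : Sec L W) {i : A.ι} {x : X} (hi : x ∈ (A.e i).source) (hx : x ∈ W) :
    Sec.on L A c y i x = y.s (c i) x := if_pos ⟨hi, hx⟩

theorem isHS_lb (hW : IsOpen W) (y : Sec L W) :
    IsHS (CB.lb L A hA c hc) W (Sec.on L A c y) where
  hol i := by
    have h1 : HolF (fam A) (id ⁻¹' (L.V (c i) ∩ W)) fun x => y.s (c i) (id x) :=
      holF_comp hA ((L.op _).inter hW) (y.hol _)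
    refine ((h1 i).mono ?_).congr ?_
    · rintro z ⟨hz, hz'⟩
      exact ⟨hz, hc i ((A.e i).map_target hz), hz'⟩
    · rintro z ⟨hz, hz'⟩
      exact if_pos ⟨(A.e i).map_target hz, hz'⟩
  off i x hx := if_neg fun h => hx h.1
  tr i j x hx hxW := by
    rw [Sec.on_eq A c y hx.1 hxW, Sec.on_eq A c y hx.2 hxW, CB.lb_g L A hA c hc hx.1 hx.2,
      y.tr _ _ x ⟨⟨hc i hx.1, hc j hx.2⟩, hxW⟩]

/-- a local metric on the subordinate atlas -/
def hmo_lb (hW : IsOpen W) (h : Met L W) : HMo (CB.lb L A hA c hc) W where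
  w i x := h.w (c i) x
  pos i x hx hxW := h.pos _ x ⟨hc i hx, hxW⟩
  sm i := by
    have h1 : SmOn (fam A) (id ⁻¹' (L.V (c i) ∩ W)) fun x => h.w (c i) (id x) :=
      smOn_comp hA ((L.op _).inter hW) (h.sm _)
    exact (h1 i).mono fun z hz => ⟨hz.1, hc i ((A.e i).map_target hz.1), hz.2⟩
  tr i j x hx hxW := by
    rw [CB.lb_g L A hA c hc hx.1 hx.2]
    exact h.tr _ _ x ⟨⟨hc i hx.1, hc j hx.2⟩, hxW⟩


end Bridge

/-! ### change of chart -/

/-- the coordinate change, its derivative is injective -/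
theorem chg_ne (h₁ : HolC C' C id) (h₂ : HolC C C' id) {j : C.ι} {j' : C'.ι} {x : X}
    (hj : x ∈ (C.e j).source) (hj' : x ∈ (C'.e j').source) {v : Cn n} (hv : v ≠ 0) :
    fderiv ℂ (fun z => C.e j ((C'.e j').symm z)) (C'.e j' x) v ≠ 0 := by
  intro h0
  have d1 : DifferentiableAt ℂ (fun z => C.e j (id ((C'.e j').symm z))) (C'.e j' x) :=
    h₁.diffAt (i := j') (j := j) ((C'.e j').map_source hj')
      (by rw [(C'.e j').left_inv hj']; exact hj)
  have d2 : DifferentiableAt ℂ (fun z => C'.e j' (id ((C.e j).symm z))) (C.e j x) :=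
    h₂.diffAt (i := j) (j := j') ((C.e j).map_source hj) (by rw [(C.e j).left_inv hj]; exact hj')
  have e1 : C.e j (id ((C'.e j').symm (C'.e j' x))) = C.e j x := by
    rw [(C'.e j').left_inv hj', id]
  have d2' : DifferentiableAt ℂ (fun z => C'.e j' (id ((C.e j).symm z)))
      (C.e j (id ((C'.e j').symm (C'.e j' x)))) := by rw [e1]; exact d2
  have h3 : HasFDerivAt (fun z => C'.e j' (id ((C.e j).symm (C.e j (id ((C'.e j').symm z))))))
      ((fderiv ℂ (fun z => C'.e j' (id ((C.e j).symm z)))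
        (C.e j (id ((C'.e j').symm (C'.e j' x))))).comp
        (fderiv ℂ (fun z => C.e j (id ((C'.e j').symm z))) (C'.e j' x))) (C'.e j' x) :=
    HasFDerivAt.comp (C'.e j' x) (g := fun z => C'.e j' (id ((C.e j).symm z)))
      (f := fun z => C.e j (id ((C'.e j').symm z))) d2'.hasFDerivAt d1.hasFDerivAt
  have ho : IsOpen ((C'.e j').target ∩ (C'.e j').symm ⁻¹' (C.e j).source) :=
    (C'.e j').isOpen_inter_preimage_symm (C.e j).open_source
  have h4 : HasFDerivAt (fun z => C'.e j' (id ((C.e j).symm (C.e j (id ((C'.e j').symm z))))))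
      (ContinuousLinearMap.id ℂ (Cn n)) (C'.e j' x) := by
    refine (hasFDerivAt_id _).congr_of_eventuallyEq ?_
    filter_upwards [ho.mem_nhds ⟨(C'.e j').map_source hj', by
      rw [mem_preimage, (C'.e j').left_inv hj']; exact hj⟩] with w hw
    simp only [id]
    rw [(C.e j).left_inv hw.2, (C'.e j').right_inv hw.1]
  have h5 := h3.unique h4
  have h6 := congrArg (fun T : Cn n →L[ℂ] Cn n => T v) h5
  simp only [ContinuousLinearMap.comp_apply, ContinuousLinearMap.id_apply] at h6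
  have h0' : fderiv ℂ (fun z => C.e j (id ((C'.e j').symm z))) (C'.e j' x) v = 0 := h0
  rw [h0', map_zero] at h6
  exact hv h6.symm





end

end Crest.Agent.R272.CB_232
end

-- ▼ part R272/CB3_232
section

/-!
# R272, task CB (helper232), part 3: positivity

`lv C w j x v`  : the Levi form of `-log w` at `x` in the chart `j`; `lv_chg`, `lv_unit`, `lv_mul`;
`PosAtC h x`    : positive curvature of `h : Met L W` at `x`; `posAtC_of` : one frame and one chart suffice;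
`PosNear L K`   : `L` has a metric of positive curvature near `K`; `PosNear.of_zpow` (roots), `PosNear.zpow`,
                  `PosNear.tens`;
`pos_end`       : **`PosNear L (p⁻¹{q})` for all `q` + a positive bundle on the base ⟹ a positive bundle on `X`.**
-/

set_option autoImplicit false
set_option linter.unusedSectionVars false

open Set Filter Topology Complex
open scoped ContDiff Matrix ComplexConjugate Manifold

namespace Crest.Agent.R272.CB_232

open Crest.Agent.R275.Geo Crest.Agent.R275.Core144 Crest.Agent.R275.GC293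
open Crest.Agent.R273 Crest.Agent.R273.Defs_333 Crest.Agent.R273.Map_835
open Crest.Agent.R273.Fam_835
open Crest.Agent.R272.Quot_783 Crest.Agent.R272.PosGlue_232

noncomputable section

variable {n m : ℕ} {X N : Type} [TopologicalSpace X] [TopologicalSpace N]
  {C C' : Fam n X} {D : Fam m N} {p : X → N} {U V W : Set X} {w w' : X → ℝ}

theorem SmOn.contDiffAt (h : SmOn C U w) (hU : IsOpen U) {j : C.ι} {x : X}
    (hj : x ∈ (C.e j).source) (hx : x ∈ U) :
    ContDiffAt ℝ ∞ (fun z => w ((C.e j).symm z)) (C.e j x) :=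
  (h j).contDiffAt (((C.e j).isOpen_inter_preimage_symm hU).mem_nhds
    ⟨(C.e j).map_source hj, by rw [mem_preimage, (C.e j).left_inv hj]; exact hx⟩)

/-- Levi form of `-log w` at `x`, in the chart `j` -/
def lv (C : Fam n X) (w : X → ℝ) (j : C.ι) (x : X) (v : Cn n) : ℝ :=
  lev (fun z => - Real.log (w ((C.e j).symm z))) (C.e j x) v

theorem log_c2 (h : SmOn C U w) (hU : IsOpen U) (hpos : ∀ x ∈ U, 0 < w x) {j : C.ι} {x : X}
    (hj : x ∈ (C.e j).source) (hx : x ∈ U) :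
    ContDiffAt ℝ ∞ (fun z => - Real.log (w ((C.e j).symm z))) (C.e j x) := by
  have h1 := h.contDiffAt hU hj hx
  exact (h1.log (by rw [(C.e j).left_inv hj]; exact (hpos x hx).ne')).neg

theorem lv_congr {j : C.ι} {x : X} (hj : x ∈ (C.e j).source) (he : ∀ᶠ y in 𝓝 x, w' y = w y)
    (v : Cn n) : lv C w' j x v = lv C w j x v := by
  refine PB_835.lev_congr' ?_ v
  have h1 : Tendsto (C.e j).symm (𝓝 (C.e j x)) (𝓝 x) := by
    have := (C.e j).continuousAt_symm ((C.e j).map_source hj)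
    rwa [ContinuousAt, (C.e j).left_inv hj] at this
  filter_upwards [h1.eventually he] with z hz
  rw [hz]

/-- change of chart -/
theorem lv_chg (h₁ : HolC C' C id) (hU : IsOpen U) (hw : SmOn C U w) (hpos : ∀ x ∈ U, 0 < w x)
    {j : C.ι} {j' : C'.ι} {x : X} (hj : x ∈ (C.e j).source) (hj' : x ∈ (C'.e j').source)
    (hx : x ∈ U) (v : Cn n) :
    lv C' w j' x v = lv C w j x (fderiv ℂ (fun z => C.e j ((C'.e j').symm z)) (C'.e j' x) v) := by
  have e1 : C.e j (id ((C'.e j').symm (C'.e j' x))) = C.e j x := by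
    rw [(C'.e j').left_inv hj', id]
  have ha : AnalyticAt ℂ (fun z => C.e j (id ((C'.e j').symm z))) (C'.e j' x) :=
    HolC.anAt h₁ (i := j') (j := j) ((C'.e j').map_source hj')
      (by rw [(C'.e j').left_inv hj']; exact hj)
  have hu : ContDiffAt ℝ 2 (fun z => - Real.log (w ((C.e j).symm z)))
      (C.e j (id ((C'.e j').symm (C'.e j' x)))) := by
    rw [e1]
    exact (log_c2 hw hU hpos hj hx).of_le (by norm_cast)
  have h2 := Levi_145.lev_comp (z := C'.e j' x) ha hu v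
  have ho : IsOpen ((C'.e j').target ∩ (C'.e j').symm ⁻¹' (C.e j).source) :=
    (C'.e j').isOpen_inter_preimage_symm (C.e j).open_source
  have h4 : (fun z => - Real.log (w ((C'.e j').symm z))) =ᶠ[𝓝 (C'.e j' x)]
      fun z => - Real.log (w ((C.e j).symm (C.e j (id ((C'.e j').symm z))))) := by
    filter_upwards [ho.mem_nhds ⟨(C'.e j').map_source hj', by
      rw [mem_preimage, (C'.e j').left_inv hj']; exact hj⟩] with y hy
    simp only [id]
    rw [(C.e j).left_inv hy.2]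
  unfold lv
  rw [PB_835.lev_congr' h4, PB_835.lev_bridge, h2, ← PB_835.lev_bridge, e1]
  rfl

/-- products -/
theorem lv_mul (hU : IsOpen U) (hw : SmOn C U w) (hpos : ∀ x ∈ U, 0 < w x) (hw' : SmOn C U w')
    (hpos' : ∀ x ∈ U, 0 < w' x) {j : C.ι} {x : X} (hj : x ∈ (C.e j).source) (hx : x ∈ U)
    (v : Cn n) : lv C (fun y => w y * w' y) j x v = lv C w j x v + lv C w' j x v := by
  have h1 := (log_c2 hw hU hpos hj hx).of_le (show (2 : WithTop ℕ∞) ≤ ∞ by norm_cast)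
  have h2 := (log_c2 hw' hU hpos' hj hx).of_le (show (2 : WithTop ℕ∞) ≤ ∞ by norm_cast)
  have ho : IsOpen ((C.e j).target ∩ (C.e j).symm ⁻¹' U) := (C.e j).isOpen_inter_preimage_symm hU
  have hm : C.e j x ∈ (C.e j).target ∩ (C.e j).symm ⁻¹' U :=
    ⟨(C.e j).map_source hj, by rw [mem_preimage, (C.e j).left_inv hj]; exact hx⟩
  have h3 : (fun z => - Real.log (w ((C.e j).symm z) * w' ((C.e j).symm z))) =ᶠ[𝓝 (C.e j x)]
      fun z => - Real.log (w ((C.e j).symm z)) + - Real.log (w' ((C.e j).symm z)) := by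
    filter_upwards [ho.mem_nhds hm] with z hz
    rw [Real.log_mul (hpos _ hz.2).ne' (hpos' _ hz.2).ne']
    ring
  unfold lv
  rw [PB_835.lev_congr' h3, PB_835.lev_bridge, Levi_145.lev_add h1 h2, mul_add,
    ← PB_835.lev_bridge, ← PB_835.lev_bridge]

/-- multiplication by `‖u‖²`, `u` holomorphic without zeros -/
theorem lv_unit {u : X → ℂ} (hU : IsOpen U) (hw : SmOn C U w) (hpos : ∀ x ∈ U, 0 < w x)
    (hu : HolF C U u) (hu0 : ∀ x ∈ U, u x ≠ 0) {j : C.ι} {x : X} (hj : x ∈ (C.e j).source)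
    (hx : x ∈ U) (v : Cn n) : lv C (fun y => ‖u y‖ ^ 2 * w y) j x v = lv C w j x v := by
  have ho : IsOpen ((C.e j).target ∩ (C.e j).symm ⁻¹' U) := (C.e j).isOpen_inter_preimage_symm hU
  have hm : C.e j x ∈ (C.e j).target ∩ (C.e j).symm ⁻¹' U :=
    ⟨(C.e j).map_source hj, by rw [mem_preimage, (C.e j).left_inv hj]; exact hx⟩
  have h0 : u ((C.e j).symm (C.e j x)) ≠ 0 := by rw [(C.e j).left_inv hj]; exact hu0 x hx
  have ha : AnalyticAt ℂ (fun z => u ((C.e j).symm z)) (C.e j x) :=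
    Crest.Agent.R266.SCV.analyticOnNhd_of_differentiableOn ho (hu j) _ hm
  rw [lv_mul hU (holF_smOn_normSq hU hu) (fun y hy => by have := hu0 y hy; positivity) hw hpos
    hj hx v]
  have h1 : lv C (fun y => ‖u y‖ ^ 2) j x v = 0 := by
    unfold lv
    have h2 : (fun z => - Real.log (‖u ((C.e j).symm z)‖ ^ 2)) =
        fun z => (-1 : ℝ) * Real.log (‖u ((C.e j).symm z)‖ ^ 2) := by
      funext z; ring
    rw [PB_835.lev_bridge, h2, Levi_145.lev_const_mul (-1) (Levi_145.c2_log_normSq ha h0 2),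
      Levi_145.lev_log_normSq ha h0]
    ring
  rw [h1, zero_add]

/-- scaling of the weight -/
theorem lv_scale (hU : IsOpen U) (hw : SmOn C U w) (hpos : ∀ x ∈ U, 0 < w x) (c : ℝ)
    {j : C.ι} {x : X} (hj : x ∈ (C.e j).source) (hx : x ∈ U) (v : Cn n) :
    lv C (fun y => Real.exp (c * Real.log (w y))) j x v = c * lv C w j x v := by
  have h1 := (log_c2 hw hU hpos hj hx).of_le (show (2 : WithTop ℕ∞) ≤ ∞ by norm_cast)
  unfold lv
  have h2 : (fun z => - Real.log (Real.exp (c * Real.log (w ((C.e j).symm z))))) =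
      fun z => c * - Real.log (w ((C.e j).symm z)) := by
    funext z
    rw [Real.log_exp]
    ring
  rw [h2, PB_835.lev_bridge, Levi_145.lev_const_mul c h1, PB_835.lev_bridge]
  ring

/-! ### positivity at a point -/

variable {L L' : CBo C V}

/-- positive curvature at `x` -/
def PosAtC (h : Met L W) (x : X) : Prop :=
  ∀ a j, x ∈ L.V a → x ∈ (C.e j).source → ∀ v : Cn n, v ≠ 0 → 0 < lv C (h.w a) j x v

/-- change of frame -/
theorem lv_frame (hW : IsOpen W) (h : Met L W) {a b : L.α} {j : C.ι} {x : X} (ha : x ∈ L.V a)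
    (hb : x ∈ L.V b) (hj : x ∈ (C.e j).source) (hx : x ∈ W) (v : Cn n) :
    lv C (h.w b) j x v = lv C (h.w a) j x v := by
  have hU : IsOpen (L.V a ∩ L.V b ∩ W) := ((L.op a).inter (L.op b)).inter hW
  rw [← lv_unit (u := L.g a b) hU ((h.sm a).mono fun y hy => ⟨hy.1.1, hy.2⟩)
    (fun y hy => h.pos a y ⟨hy.1.1, hy.2⟩) (holF_mono (L.hol a b) inter_subset_left)
    (fun y hy => L.ne a b y hy.1) hj ⟨⟨ha, hb⟩, hx⟩ v]
  refine lv_congr hj ?_ v
  filter_upwards [hU.mem_nhds ⟨⟨ha, hb⟩, hx⟩] with y hy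
  exact h.tr a b y hy

theorem holC_id (C : Fam n X) : HolC C C id := HolC.id C

theorem posAtC_of (hW : IsOpen W) {h : Met L W} {a : L.α} {j : C.ι} {x : X} (ha : x ∈ L.V a)
    (hj : x ∈ (C.e j).source) (hx : x ∈ W) (H : ∀ v : Cn n, v ≠ 0 → 0 < lv C (h.w a) j x v) :
    PosAtC h x := by
  intro b l hb hl v hv
  rw [lv_frame hW h ha hb hl hx v]
  have hU : IsOpen (L.V a ∩ W) := (L.op a).inter hW
  rw [lv_chg (holC_id C) hU (h.sm a) (fun y hy => h.pos a y hy) hj hl ⟨ha, hx⟩ v]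
  exact H _ (chg_ne (holC_id C) (holC_id C) hj hl hv)

/-- `L` has a metric with positive curvature near `K` -/
def PosNear (L : CBo C V) (K : Set X) : Prop :=
  ∃ W, IsOpen W ∧ K ⊆ W ∧ ∃ h : Met L W, ∀ x ∈ W, PosAtC h x

theorem PosNear.mono {K K' : Set X} (h : PosNear L K) (hK : K' ⊆ K) : PosNear L K' := by
  obtain ⟨W, h1, h2, h3⟩ := h
  exact ⟨W, h1, hK.trans h2, h3⟩

theorem smOn_exp_log (hU : IsOpen U) (hw : SmOn C U w) (hpos : ∀ x ∈ U, 0 < w x) (c : ℝ) :
    SmOn C U fun y => Real.exp (c * Real.log (w y)) := by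
  intro j
  have h1 : ContDiffOn ℝ ∞ (fun z => Real.log (w ((C.e j).symm z)))
      ((C.e j).target ∩ (C.e j).symm ⁻¹' U) := (hw j).log fun z hz => (hpos _ hz.2).ne'
  exact Real.contDiff_exp.comp_contDiffOn (contDiffOn_const.mul h1)

/-- metrics of powers: `c * k = 1` gives roots -/
def Met.root (hW : IsOpen W) {k : ℕ} (hk : k ≠ 0) (h : Met (L.zpow k) W) : Met L W where
  w a x := Real.exp ((k : ℝ)⁻¹ * Real.log (h.w a x))
  pos _ _ _ := Real.exp_pos _
  sm a := smOn_exp_log ((L.op a).inter hW) (h.sm a) (fun x hx => h.pos a x hx) _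
  tr a b x hx := by
    have h1 : h.w b x = ‖L.g a b x ^ (k : ℤ)‖ ^ 2 * h.w a x := h.tr a b x hx
    have h2 := L.ne a b x hx.1
    have h3 : 0 < ‖L.g a b x‖ := norm_pos_iff.2 h2
    have h4 : 0 < h.w a x := h.pos a x ⟨hx.1.1, hx.2⟩
    have hk' : (k : ℝ) ≠ 0 := by exact_mod_cast hk
    rw [h1, zpow_natCast, norm_pow, ← pow_mul, Real.log_mul (by positivity) h4.ne', Real.log_pow,
      mul_add, Real.exp_add]
    congr 1
    rw [show (k : ℝ)⁻¹ * (((k * 2 : ℕ) : ℝ) * Real.log ‖L.g a b x‖) = 2 * Real.log ‖L.g a b x‖ by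
      push_cast; field_simp]
    rw [show (2 : ℝ) * Real.log ‖L.g a b x‖ = Real.log (‖L.g a b x‖ ^ 2) by
      rw [Real.log_pow]; norm_cast]
    exact Real.exp_log (by positivity)

/-- natural powers of a metric -/
def Met.npow (h : Met L W) (k : ℕ) : Met (L.zpow k) W where
  w a x := h.w a x ^ k
  pos a x hx := pow_pos (h.pos a x hx) k
  sm a := fun j => (h.sm a j).pow k
  tr a b x hx := by
    rw [h.tr a b x hx, mul_pow]
    show _ = ‖L.g a b x ^ (k : ℤ)‖ ^ 2 * _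
    rw [zpow_natCast, norm_pow]
    ring

theorem PosNear.of_zpow {K : Set X} {k : ℕ} (hk : k ≠ 0) (h : PosNear (L.zpow k) K) :
    PosNear L K := by
  obtain ⟨W, hW, hK, h, hp⟩ := h
  refine ⟨W, hW, hK, Met.root hW hk h, fun x hx a j ha hj v hv => ?_⟩
  have h1 := lv_scale (C := C) (U := L.V a ∩ W) ((L.op a).inter hW) (h.sm a)
    (fun y hy => h.pos a y hy) (k : ℝ)⁻¹ hj ⟨ha, hx⟩ v
  have h2 := hp x hx a j ha hj v hv
  have h3 : (0 : ℝ) < (k : ℝ)⁻¹ := by positivity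
  show 0 < lv C (fun y => Real.exp ((k : ℝ)⁻¹ * Real.log (h.w a y))) j x v
  rw [h1]
  exact mul_pos h3 h2


theorem lv_tens (hW : IsOpen W) (h : Met L W) (h' : Met L' W) {a : (L.tens L').α} {j : C.ι} {x : X}
    (ha : x ∈ (L.tens L').V a) (hj : x ∈ (C.e j).source) (hx : x ∈ W) (v : Cn n) :
    lv C ((h.tens h').w a) j x v = lv C (h.w a.1) j x v + lv C (h'.w a.2) j x v :=
  lv_mul (U := (L.V a.1 ∩ L'.V a.2) ∩ W) (((L.op _).inter (L'.op _)).inter hW)
    ((h.sm a.1).mono fun y hy => ⟨hy.1.1, hy.2⟩) (fun y hy => h.pos _ y ⟨hy.1.1, hy.2⟩)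
    ((h'.sm a.2).mono fun y hy => ⟨hy.1.2, hy.2⟩) (fun y hy => h'.pos _ y ⟨hy.1.2, hy.2⟩)
    hj ⟨ha, hx⟩ v

end

end Crest.Agent.R272.CB_232
end

-- ▼ part R272/CB4_232
section

/-!
# R272, task CB (helper232), part 4: the end theorem of positivity

`exists_posAtC` : `Q` positive on the open `W ⊇ K` compact, `D` any metric ⟹ `Q^k ⊗ D` positive on `K`, `k ≥ k₀`;
`pos_end`       : `PosNear L (p⁻¹{q})` for all `q` + a positive bundle on the base ⟹ a positive bundle on `X`.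
-/

set_option autoImplicit false
set_option linter.unusedSectionVars false
set_option linter.unusedVariables false

open Set Filter Topology Complex
open scoped ContDiff Matrix ComplexConjugate Manifold

namespace Crest.Agent.R272.CB_232

open Crest.Agent.R275.Geo Crest.Agent.R275.Core144 Crest.Agent.R275.GC293
open Crest.Agent.R273 Crest.Agent.R273.Defs_333 Crest.Agent.R273.Map_835
open Crest.Agent.R273.Fam_835
open Crest.Agent.R272.Quot_783 Crest.Agent.R272.PosGlue_232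

noncomputable section

variable {n m : ℕ} {X N : Type} [TopologicalSpace X] [TopologicalSpace N]
  {C C' : Fam n X} {D : Fam m N} {p : X → N} {U V W : Set X}

theorem lv_npow {L : CBo C V} (hW : IsOpen W) (h : Met L W) (k : ℕ) {a : L.α} {j : C.ι} {x : X}
    (ha : x ∈ L.V a) (hj : x ∈ (C.e j).source) (hx : x ∈ W) (v : Cn n) :
    lv C ((h.npow k).w a) j x v = k * lv C (h.w a) j x v := by
  have hU : IsOpen (L.V a ∩ W) := (L.op a).inter hW
  rw [← lv_scale (C := C) (U := L.V a ∩ W) hU (h.sm a) (fun y hy => h.pos a y hy) (k : ℝ) hj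
    ⟨ha, hx⟩ v]
  refine lv_congr hj ?_ v
  filter_upwards [hU.mem_nhds ⟨ha, hx⟩] with y hy
  show h.w a y ^ k = _
  rw [← Real.log_pow, Real.exp_log (pow_pos (h.pos a y hy) k)]

/-- local form of `exists_posAtC` -/
theorem exists_posAtC_local {Q D : CBo C V} (hW : IsOpen W) (hQ : Met Q W) (hD : Met D W)
    (hpos : ∀ x ∈ W, PosAtC hQ x) {x : X} (hx : x ∈ W) (hxV : x ∈ V) :
    ∃ k₀ : ℕ, ∀ᶠ y in 𝓝 x, ∀ k : ℕ, k₀ ≤ k → PosAtC ((hQ.npow k).tens hD) y := by
  obtain ⟨j, hj⟩ := C.cover x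
  obtain ⟨a, ha⟩ := Q.cov x hxV
  obtain ⟨b, hb⟩ := D.cov x hxV
  have hU : IsOpen (Q.V a ∩ D.V b ∩ W) := ((Q.op a).inter (D.op b)).inter hW
  have ho : IsOpen ((C.e j).target ∩ (C.e j).symm ⁻¹' (Q.V a ∩ D.V b ∩ W)) :=
    (C.e j).isOpen_inter_preimage_symm hU
  have hm : C.e j x ∈ (C.e j).target ∩ (C.e j).symm ⁻¹' (Q.V a ∩ D.V b ∩ W) :=
    ⟨(C.e j).map_source hj, by rw [mem_preimage, (C.e j).left_inv hj]; exact ⟨⟨ha, hb⟩, hx⟩⟩
  obtain ⟨r, hr, hball⟩ := Metric.isOpen_iff.1 ho _ hm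
  have hcb : Metric.closedBall (C.e j x) (r / 2) ⊆
      (C.e j).target ∩ (C.e j).symm ⁻¹' (Q.V a ∩ D.V b ∩ W) :=
    (Metric.closedBall_subset_ball (by linarith)).trans hball
  have hK : IsCompact (Metric.closedBall (C.e j x) (r / 2) ×ˢ Metric.sphere (0 : Cn n) 1) :=
    (isCompact_closedBall _ _).prod (isCompact_sphere _ _)
  have cQ : ContDiffOn ℝ ∞ (fun z => - Real.log (hQ.w a ((C.e j).symm z)))
      ((C.e j).target ∩ (C.e j).symm ⁻¹' (Q.V a ∩ D.V b ∩ W)) := by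
    have h1 := ((hQ.sm a).mono (show Q.V a ∩ D.V b ∩ W ⊆ Q.V a ∩ W from
      fun y hy => ⟨hy.1.1, hy.2⟩)) j
    exact (h1.log fun z hz => (hQ.pos a _ ⟨hz.2.1.1, hz.2.2⟩).ne').neg
  have cD : ContDiffOn ℝ ∞ (fun z => - Real.log (hD.w b ((C.e j).symm z)))
      ((C.e j).target ∩ (C.e j).symm ⁻¹' (Q.V a ∩ D.V b ∩ W)) := by
    have h1 := ((hD.sm b).mono (show Q.V a ∩ D.V b ∩ W ⊆ D.V b ∩ W from
      fun y hy => ⟨hy.1.2, hy.2⟩)) j
    exact (h1.log fun z hz => (hD.pos b _ ⟨hz.2.1.2, hz.2.2⟩).ne').neg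
  have hsub : Metric.closedBall (C.e j x) (r / 2) ×ˢ Metric.sphere (0 : Cn n) 1 ⊆
      ((C.e j).target ∩ (C.e j).symm ⁻¹' (Q.V a ∩ D.V b ∩ W)) ×ˢ univ :=
    fun q hq => ⟨hcb hq.1, mem_univ _⟩
  have hposK : ∀ q ∈ Metric.closedBall (C.e j x) (r / 2) ×ˢ Metric.sphere (0 : Cn n) 1,
      0 < lev (fun z => - Real.log (hQ.w a ((C.e j).symm z))) q.1 q.2 := by
    rintro ⟨z, v⟩ ⟨hz, hv⟩
    have hz' := hcb hz
    have h1 := hpos _ hz'.2.2 a j hz'.2.1.1 ((C.e j).map_target hz'.1) v (by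
      rintro rfl
      simp at hv)
    unfold lv at h1
    rwa [(C.e j).right_inv hz'.1] at h1
  obtain ⟨k₀, hk₀⟩ := exists_large hK
    (a := fun q => lev (fun z => - Real.log (hD.w b ((C.e j).symm z))) q.1 q.2)
    (b := fun q => lev (fun z => - Real.log (hQ.w a ((C.e j).symm z))) q.1 q.2)
    ((lev_continuousOn ho cD).mono hsub) ((lev_continuousOn ho cQ).mono hsub)
    (fun q hq => (hposK q hq).le) (fun q hq h0 => absurd h0 (hposK q hq).ne')
  refine ⟨k₀, ?_⟩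
  have hev : ∀ᶠ y in 𝓝 x, C.e j y ∈ Metric.closedBall (C.e j x) (r / 2) :=
    ((C.e j).continuousAt hj).eventually_mem (Metric.closedBall_mem_nhds _ (by linarith))
  filter_upwards [hev, (C.e j).open_source.mem_nhds hj] with y hy hys k hk
  have hyU : y ∈ Q.V a ∩ D.V b ∩ W := by
    have := (hcb hy).2
    rwa [mem_preimage, (C.e j).left_inv hys] at this
  let ab : ((Q.zpow (k : ℤ)).tens D).α := (a, b)
  have hab : y ∈ ((Q.zpow (k : ℤ)).tens D).V ab := hyU.1
  refine posAtC_of hW (a := ab) (j := j) hab hys hyU.2 fun v hv => ?_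
  rw [lv_tens hW (hQ.npow k) hD (a := ab) hab hys hyU.2 v]
  show 0 < lv C ((hQ.npow k).w a) j y v + lv C (hD.w b) j y v
  rw [lv_npow hW hQ k hyU.1.1 hys hyU.2 v]
  have hv' : ‖v‖ ≠ 0 := norm_ne_zero_iff.2 hv
  set u : Cn n := ((‖v‖⁻¹ : ℝ) : ℂ) • v with hu
  have hun : ‖u‖ = 1 := by
    rw [hu, norm_smul, Complex.norm_real, norm_inv, norm_norm, inv_mul_cancel₀ hv']
  have hvu : v = ((‖v‖ : ℝ) : ℂ) • u := by
    rw [hu, smul_smul, ← Complex.ofReal_mul, mul_inv_cancel₀ hv', Complex.ofReal_one, one_smul]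
  have h1 := hk₀ k hk (C.e j y, u) ⟨hy, by simp [hun]⟩
  simp only at h1
  have h2 : ∀ w : X → ℝ, lv C w j y v = ‖v‖ ^ 2 * lev (fun z => - Real.log (w ((C.e j).symm z)))
      (C.e j y) u := by
    intro w
    unfold lv
    conv_lhs => rw [hvu]
    rw [lev_real_smul]
  rw [h2, h2]
  have h3 : 0 < ‖v‖ ^ 2 := by positivity
  nlinarith [mul_pos h3 h1]

/-- `Q` positive near the compact `K` ⟹ `Q^k ⊗ D` positive on `K` for large `k` -/
theorem exists_posAtC {Q D : CBo C V} (hW : IsOpen W) (hQ : Met Q W) (hD : Met D W)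
    (hpos : ∀ x ∈ W, PosAtC hQ x) {K : Set X} (hK : IsCompact K) (hKW : K ⊆ W) (hKV : K ⊆ V) :
    ∃ k₀ : ℕ, ∀ k : ℕ, k₀ ≤ k → ∀ x ∈ K, PosAtC ((hQ.npow k).tens hD) x := by
  have h1 : ∀ x ∈ K, ∃ k₀ : ℕ, ∀ᶠ y in 𝓝 x, ∀ k : ℕ, k₀ ≤ k →
      PosAtC ((hQ.npow k).tens hD) y := fun x hx =>
    exists_posAtC_local hW hQ hD hpos (hKW hx) (hKV hx)
  choose! k₀ hk₀ using h1
  obtain ⟨t, ht, htK⟩ := hK.elim_nhds_subcover
    (fun x => {y | ∀ k : ℕ, k₀ x ≤ k → PosAtC ((hQ.npow k).tens hD) y}) (fun x hx => hk₀ x hx)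
  refine ⟨t.sup k₀, fun k hk x hx => ?_⟩
  obtain ⟨y, hy, hxy⟩ := mem_iUnion₂.1 (htK hx)
  exact hxy k ((Finset.le_sup hy).trans hk)

/-- positivity of the metric transported to a subordinate atlas -/
theorem hmo_lb_pos (L : CB C) (A : Atl n X) (hA : HolC (fam A) C id) (hA' : HolC C (fam A) id)
    (c : A.ι → L.α) (hc : ∀ i, (A.e i).source ⊆ L.V (c i)) (hW : IsOpen W) (h : Met L W)
    (hpos : ∀ x ∈ W, PosAtC h x) (i : A.ι) {z : Cn n} (hz : z ∈ (A.e i).target)
    (hzW : (A.e i).symm z ∈ W) {v : Cn n} (hv : v ≠ 0) :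
    0 < lev ((hmo_lb L A hA c hc hW h).wt i) z v := by
  have hx := (A.e i).map_target hz
  set x := (A.e i).symm z with hxz
  obtain ⟨j, hj⟩ := C.cover x
  have hzx : A.e i x = z := (A.e i).right_inv hz
  have h1 := lv_chg (C := C) (C' := fam A) (j := j) (j' := i) hA
    (U := L.V (c i) ∩ W) ((L.op _).inter hW) (h.sm (c i)) (fun y hy => h.pos _ y hy) hj hx
    ⟨hc i hx, hzW⟩ v
  have h2 := hpos x hzW (c i) j (hc i hx) hj _ (chg_ne (C := C) (C' := fam A) hA hA' hj hx hv)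
  rw [← h1] at h2
  unfold lv at h2
  have h3 : (fam A).e i x = z := hzx
  rw [h3] at h2
  exact h2

/-- **the end theorem of positivity** -/
theorem pos_end [CompactSpace X] [T2Space X] [CompactSpace N] [T2Space N] (C : Fam n X)
    (B : Atl m N) {H : LB B} {hH : HM H} (hpos : hH.Pos) {p : X → N} (hp : HolC C (fam B) p)
    (L : CB C) (hloc : ∀ q, PosNear L (p ⁻¹' {q})) :
    ∃ A : Atl n X, Finite A.ι ∧ GoodA A ∧ Nonempty (Part A) ∧ HolC (fam A) C id ∧
      HolC C (fam A) id ∧ ∃ (P : LB A) (g : HM P), g.Pos := by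
  obtain ⟨A, h1, h2, h3, h4, h5, h6⟩ := C.exists_atl
    (fun q : L.α × B.ι => L.V q.1 ∩ p ⁻¹' (B.e q.2).source)
    (fun q => (L.op q.1).inter ((B.e q.2).open_source.preimage hp.cont))
    (fun x => by
      obtain ⟨a, ha⟩ := L.cov x (mem_univ x)
      obtain ⟨j, hj⟩ := B.cover (p x)
      exact ⟨(a, j), ha, hj⟩)
  choose c hc using h4
  have hpA : HolMap A B p := holC_iff.1 (hp.comp h5)
  let R : PB_835.Ref A B p := ⟨fun i => (c i).2, fun i x hx => (hc i hx).2⟩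
  let T : PB_835.PB p (PB_835.pullLB hpA R H) H := PB_835.PB.ref hpA R H
  have hcl : ∀ i, (A.e i).source ⊆ L.V (c i).1 := fun i x hx => (hc i hx).1
  choose W hW hqW h hh using hloc
  let U : N → Set N := fun q => (p '' (W q)ᶜ)ᶜ
  have hU : ∀ q, IsOpen (U q) := fun q =>
    (((hW q).isClosed_compl.isCompact).image hp.cont).isClosed.isOpen_compl
  have hqU : ∀ q, q ∈ U q := by
    rintro q ⟨x, hx, rfl⟩
    exact hx (hqW (p x) rfl)
  have hUW : ∀ q, p ⁻¹' (U q) ⊆ W q := by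
    intro q x hx
    by_contra hxW
    exact hx ⟨x, hxW, rfl⟩
  obtain ⟨m₀, hm⟩ := glue_pos hpA T hpos U hU (fun q => ⟨q, hqU q⟩)
    (fun q => (hmo_lb L A h5 (fun i => (c i).1) hcl (hW q) (h q)).mono (hUW q))
    (fun q i z hz hzU v hv _ =>
      hmo_lb_pos L A h5 h6 (fun i => (c i).1) hcl (hW q) (h q) (hh q) i hz (hUW q hzU) hv)
  obtain ⟨g, hg⟩ := hm m₀ le_rfl
  exact ⟨A, h1, h2, h3, h5, h6, _, g, hg⟩

end

end Crest.Agent.R272.CB_232
end

-- ▼ part R272/CB5_232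
section

/-!
# R272, task CB (helper232), part 5: from metrics on an atlas to metrics on the cover; POS-FIB for `CB`

`Met.ofHMo`          : a metric over `W` of the bundle on a subordinate atlas gives one of the `CB`;
`PosNear.of_hmo`     : positivity is preserved;
`PosNear.of_posfib`  : 220's POS-FIB for sections of a `CB`;
`PosNear.of_finite`  : finite sets.
-/

set_option autoImplicit false
set_option linter.unusedSectionVars false
set_option linter.unusedVariables false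

open Set Filter Topology Complex
open scoped ContDiff Matrix ComplexConjugate Manifold

namespace Crest.Agent.R272.CB_232

open Crest.Agent.R275.Geo Crest.Agent.R275.Core144 Crest.Agent.R275.GC293
open Crest.Agent.R273 Crest.Agent.R273.Defs_333 Crest.Agent.R273.Map_835
open Crest.Agent.R273.Fam_835
open Crest.Agent.R272.Quot_783 Crest.Agent.R272.PosGlue_232

noncomputable section

variable {n m : ℕ} {X N : Type} [TopologicalSpace X] [TopologicalSpace N]
  {C C' : Fam n X} {D : Fam m N} {p : X → N} {U V W : Set X}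

theorem smOn_of_chart (h : HolC C C' id) {f : X → ℝ} (H : ∀ x ∈ U, ∃ i : C'.ι,
    x ∈ (C'.e i).source ∧ ContDiffAt ℝ ∞ (fun z => f ((C'.e i).symm z)) (C'.e i x)) :
    SmOn C U f := by
  intro j z hz
  obtain ⟨i, hi, hf⟩ := H _ hz.2
  have h2 : ContDiffAt ℝ ∞ (fun z => C'.e i (id ((C.e j).symm z))) z :=
    (HolC.anAt h (i := j) (j := i) hz.1 hi).contDiffAt.restrict_scalars ℝ
  have h3 := ContDiffAt.comp z (g := fun y => f ((C'.e i).symm y))
    (f := fun z => C'.e i (id ((C.e j).symm z))) hf h2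
  refine (h3.congr_of_eventuallyEq ?_).contDiffWithinAt
  filter_upwards [(h.isOpen_dm j i).mem_nhds ⟨hz.1, hi⟩] with w hw
  simp only [Function.comp]
  rw [(C'.e i).left_inv hw.2]
  rfl

section OfHMo

variable (L : CB C) (A : Atl n X) (hA : HolC (fam A) C id) (hA' : HolC C (fam A) id)
  (c : A.ι → L.α) (hc : ∀ i, (A.e i).source ⊆ L.V (c i))

/-- the weight of the frame `a` from the weights of the atlas -/
def wOf {W : Set X} (h : HMo (CB.lb L A hA c hc) W) (a : L.α) (x : X) : ℝ :=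
  ‖L.g (c (PB_835.PB.ch A x)) a x‖ ^ 2 * h.w (PB_835.PB.ch A x) x

theorem wOf_eq {W : Set X} (h : HMo (CB.lb L A hA c hc) W) {a : L.α} {x : X} {i : A.ι}
    (hi : x ∈ (A.e i).source) (ha : x ∈ L.V a) (hx : x ∈ W) :
    wOf L A hA c hc h a x = ‖L.g (c i) a x‖ ^ 2 * h.w i x := by
  have hk : x ∈ (A.e (PB_835.PB.ch A x)).source := PB_835.PB.ch_mem A x
  have h1 := h.tr i (PB_835.PB.ch A x) x ⟨hi, hk⟩ hx
  rw [CB.lb_g L A hA c hc hi hk] at h1
  unfold wOf
  rw [h1, ← L.mul (c i) (c (PB_835.PB.ch A x)) a x ⟨⟨hc i hi, hc _ hk⟩, ha⟩, norm_mul]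
  ring

/-- **metrics on the atlas give metrics on the cover** -/
def Met.ofHMo (hW : IsOpen W) (h : HMo (CB.lb L A hA c hc) W) : Met L W where
  w := wOf L A hA c hc h
  pos a x hx := by
    have hk : x ∈ (A.e (PB_835.PB.ch A x)).source := PB_835.PB.ch_mem A x
    have h1 := h.pos _ x hk hx.2
    have h2 := L.ne (c (PB_835.PB.ch A x)) a x ⟨hc _ hk, hx.1⟩
    unfold wOf
    positivity
  sm a := by
    refine smOn_of_chart hA' fun x hx => ?_
    obtain ⟨i, hi⟩ := A.cover x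
    refine ⟨i, hi, ?_⟩
    have hU : IsOpen ((A.e i).source ∩ (L.V a ∩ W)) :=
      (A.e i).open_source.inter ((L.op a).inter hW)
    have hm : A.e i x ∈ (A.e i).target ∩ (A.e i).symm ⁻¹' ((A.e i).source ∩ (L.V a ∩ W)) :=
      ⟨(A.e i).map_source hi, by rw [mem_preimage, (A.e i).left_inv hi]; exact ⟨hi, hx⟩⟩
    have h1 : HolF (fam A) (id ⁻¹' (L.V (c i) ∩ L.V a)) fun x => L.g (c i) a (id x) :=
      holF_comp hA ((L.op _).inter (L.op _)) (L.hol _ _)
    have h2 : AnalyticAt ℂ (fun z => L.g (c i) a ((A.e i).symm z)) (A.e i x) := by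
      refine Crest.Agent.R266.SCV.analyticOnNhd_of_differentiableOn
        ((A.e i).isOpen_inter_preimage_symm ((L.op (c i)).inter (L.op a))) (h1 i) _
        ⟨(A.e i).map_source hi, ?_⟩
      rw [mem_preimage, (A.e i).left_inv hi]
      exact ⟨hc i hi, hx.1⟩
    have h3 : ContDiffAt ℝ ∞ (fun z => ‖L.g (c i) a ((A.e i).symm z)‖ ^ 2) (A.e i x) :=
      (h2.contDiffAt.restrict_scalars ℝ).norm_sq ℝ
    have h4 : ContDiffAt ℝ ∞ (fun z => h.w i ((A.e i).symm z)) (A.e i x) :=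
      (h.sm i).contDiffAt (((A.e i).isOpen_inter_preimage_symm hW).mem_nhds
        ⟨(A.e i).map_source hi, by rw [mem_preimage, (A.e i).left_inv hi]; exact hx.2⟩)
    refine (h3.mul h4).congr_of_eventuallyEq ?_
    filter_upwards [((A.e i).isOpen_inter_preimage_symm hU).mem_nhds hm] with z hz
    exact wOf_eq L A hA c hc h hz.2.1 hz.2.2.1 hz.2.2.2
  tr a b x hx := by
    have hk : x ∈ (A.e (PB_835.PB.ch A x)).source := PB_835.PB.ch_mem A x
    unfold wOf
    rw [← L.mul (c (PB_835.PB.ch A x)) a b x ⟨⟨hc _ hk, hx.1.1⟩, hx.1.2⟩, norm_mul]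
    ring

theorem posAtC_ofHMo (hW : IsOpen W) (h : HMo (CB.lb L A hA c hc) W) {x : X} (hx : x ∈ W)
    (hp : PosFib_220.PosO h x) : PosAtC (Met.ofHMo L A hA hA' c hc hW h) x := by
  obtain ⟨i, hi⟩ := A.cover x
  obtain ⟨j, hj⟩ := C.cover x
  refine posAtC_of hW (a := c i) (j := j) (hc i hi) hj hx fun v hv => ?_
  have hU : IsOpen (L.V (c i) ∩ W) := (L.op _).inter hW
  have hsmA : SmOn (fam A) (L.V (c i) ∩ W) ((Met.ofHMo L A hA hA' c hc hW h).w (c i)) :=
    smOn_comp hA hU ((Met.ofHMo L A hA hA' c hc hW h).sm (c i))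
  rw [lv_chg (C := fam A) (C' := C) (j := i) (j' := j) hA' hU hsmA
    (fun y hy => (Met.ofHMo L A hA hA' c hc hW h).pos _ y hy) hi hj ⟨hc i hi, hx⟩ v]
  have hne := chg_ne (C := fam A) (C' := C) (j := i) (j' := j) hA' hA hi hj hv
  set u := fderiv ℂ (fun z => (fam A).e i ((C.e j).symm z)) (C.e j x) v with hu
  have h1 := hp i hi u hne
  have h2 : lv (fam A) ((Met.ofHMo L A hA hA' c hc hW h).w (c i)) i x u =
      lv (fam A) (h.w i) i x u := by
    refine lv_congr (C := fam A) (j := i) hi ?_ u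
    filter_upwards [((A.e i).open_source.inter hW).mem_nhds ⟨hi, hx⟩] with y hy
    show wOf L A hA c hc h (c i) y = h.w i y
    rw [wOf_eq L A hA c hc h hy.1 (hc i hy.1) hy.2, L.self (hc i hy.1)]
    simp
  rw [h2]
  exact h1

include hA' in
theorem PosNear.of_hmo {K : Set X} (hW : IsOpen W) (hK : K ⊆ W)
    (h : HMo (CB.lb L A hA c hc) W) (hp : ∀ x ∈ W, PosFib_220.PosO h x) : PosNear L K :=
  ⟨W, hW, hK, Met.ofHMo L A hA hA' c hc hW h, fun x hx =>
    posAtC_ofHMo L A hA hA' c hc hW h hx (hp x hx)⟩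

end OfHMo



end

end Crest.Agent.R272.CB_232
end

-- ▼ part R272/CB6_232

/-!
# R272, task CB (helper232), part 6: isomorphisms, local equations (bundled), sections from functions, transport

`IsoOn L L' W`    : isomorphism over `W`; `Met.ofIso`, `PosNear.ofIso`; `IsoOn.ofSub` (same transition
                    functions under an index map);
`Eqs C U`         : local equations (bundled `CBo.ofEq`); `Eqs.cb`, `Eqs.idl k` = the `k`-th power of the
                    ideal generated by the equations; `Eqs.secFun` : a function divisible by `f a ^ k`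
                    near every point is a section of `idl k`;
`exists_met`      : every `CB` on a compact Hausdorff manifold has a metric;
`exists_posNear_tens` : `Q` positive near all fibres ⟹ `Q^k ⊗ D` positive near all fibres, `k ≥ k₀`;
`CBo.push`, `Met.push`, `PosNear.push` : transport by a biholomorphic `OpenPartialHomeomorph`.
-/

set_option autoImplicit false
set_option linter.unusedSectionVars false
set_option linter.unusedVariables false

open Set Filter Topology Complex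
open scoped ContDiff Matrix ComplexConjugate Manifold

namespace Crest.Agent.R272.CB_232

open Crest.Agent.R275.Geo Crest.Agent.R275.Core144 Crest.Agent.R275.GC293
open Crest.Agent.R273 Crest.Agent.R273.Defs_333 Crest.Agent.R273.Map_835
open Crest.Agent.R273.Fam_835
open Crest.Agent.R272.Quot_783 Crest.Agent.R272.PosGlue_232

noncomputable section

variable {n m : ℕ} {X Y N : Type} [TopologicalSpace X] [TopologicalSpace Y] [TopologicalSpace N]
  {C C' : Fam n X} {D : Fam m N} {p : X → N} {U U' V W : Set X}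

/-! ### isomorphisms -/

/-- isomorphism over `W` -/
structure IsoOn (L : CBo C U) (L' : CBo C U') (W : Set X) where
  h : L.α → L'.α → X → ℂ
  hol : ∀ a b, HolF C (L.V a ∩ L'.V b ∩ W) (h a b)
  ne : ∀ a b, ∀ x ∈ L.V a ∩ L'.V b ∩ W, h a b x ≠ 0
  left : ∀ a a' b, ∀ x ∈ L.V a ∩ L.V a' ∩ L'.V b ∩ W, L.g a a' x * h a' b x = h a b x
  right : ∀ a b b', ∀ x ∈ L.V a ∩ L'.V b ∩ L'.V b' ∩ W, h a b x * L'.g b b' x = h a b' x

/-- the same transition functions under an index map -/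
def IsoOn.ofSub {L : CBo C U} {L' : CBo C U'} (e : L.α → L'.α) (hV : ∀ a, L.V a ∩ W ⊆ L'.V (e a))
    (hg : ∀ a b, ∀ x ∈ L.V a ∩ L.V b ∩ W, L.g a b x = L'.g (e a) (e b) x) :
    IsoOn L L' W where
  h a b x := L'.g (e a) b x
  hol a b := holF_mono (L'.hol (e a) b) fun x hx => ⟨hV a ⟨hx.1.1, hx.2⟩, hx.1.2⟩
  ne a b x hx := L'.ne (e a) b x ⟨hV a ⟨hx.1.1, hx.2⟩, hx.1.2⟩
  left a a' b x hx := by
    rw [hg a a' x ⟨hx.1.1, hx.2⟩]
    exact L'.mul _ _ _ x ⟨⟨hV a ⟨hx.1.1.1, hx.2⟩, hV a' ⟨hx.1.1.2, hx.2⟩⟩, hx.1.2⟩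
  right a b b' x hx := L'.mul _ _ _ x ⟨⟨hV a ⟨hx.1.1.1, hx.2⟩, hx.1.1.2⟩, hx.1.2⟩

def IsoOn.symm {L : CBo C U} {L' : CBo C U'} (I : IsoOn L L' W) : IsoOn L' L W where
  h b a x := (I.h a b x)⁻¹
  hol b a := holF_inv (holF_mono (I.hol a b) fun x hx => ⟨⟨hx.1.2, hx.1.1⟩, hx.2⟩)
    fun x hx => I.ne a b x ⟨⟨hx.1.2, hx.1.1⟩, hx.2⟩
  ne b a x hx := inv_ne_zero (I.ne a b x ⟨⟨hx.1.2, hx.1.1⟩, hx.2⟩)
  left b b' a x hx := by
    have h1 := I.ne a b x ⟨⟨hx.1.2, hx.1.1.1⟩, hx.2⟩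
    have h2 := I.ne a b' x ⟨⟨hx.1.2, hx.1.1.2⟩, hx.2⟩
    have h3 := I.right a b b' x ⟨⟨⟨hx.1.2, hx.1.1.1⟩, hx.1.1.2⟩, hx.2⟩
    rw [← h3] at h2 ⊢
    field_simp [right_ne_zero_of_mul h2]
  right b a a' x hx := by
    have h1 := I.ne a b x ⟨⟨hx.1.1.2, hx.1.1.1⟩, hx.2⟩
    have h2 := I.ne a' b x ⟨⟨hx.1.2, hx.1.1.1⟩, hx.2⟩
    have h3 := I.left a a' b x ⟨⟨⟨hx.1.1.2, hx.1.2⟩, hx.1.1.1⟩, hx.2⟩
    rw [← h3] at h1 ⊢
    field_simp [left_ne_zero_of_mul h1]

open Classical in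
/-- an index `b` with `x ∈ V b` (if there is one) -/
def CBo.ix (L : CBo C U) (a₀ : L.α) (x : X) : L.α :=
  if h : ∃ b, x ∈ L.V b then h.choose else a₀

theorem CBo.mem_ix (L : CBo C U) (a₀ : L.α) {x : X} {b : L.α} (hb : x ∈ L.V b) :
    x ∈ L.V (L.ix a₀ x) := by
  have h : ∃ b, x ∈ L.V b := ⟨b, hb⟩
  unfold CBo.ix
  rw [dif_pos h]
  exact h.choose_spec

section OfIso

variable {L : CBo C U} {L' : CBo C U'} (I : IsoOn L L' W)

open Classical in
/-- weights of `L` from weights of `L'` -/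
def wIso (h : Met L' W) (a : L.α) (x : X) : ℝ :=
  if hb : ∃ b, x ∈ L'.V b then h.w hb.choose x * (‖I.h a hb.choose x‖ ^ 2)⁻¹ else 1

theorem wIso_eq (h : Met L' W) {a : L.α} {b : L'.α} {x : X} (ha : x ∈ L.V a) (hb : x ∈ L'.V b)
    (hx : x ∈ W) : wIso I h a x = h.w b x * (‖I.h a b x‖ ^ 2)⁻¹ := by
  have hex : ∃ b, x ∈ L'.V b := ⟨b, hb⟩
  unfold wIso
  rw [dif_pos hex]
  have hb' := hex.choose_spec
  rw [h.tr b hex.choose x ⟨⟨hb, hb'⟩, hx⟩,
    ← I.right a b hex.choose x ⟨⟨⟨ha, hb⟩, hb'⟩, hx⟩, norm_mul]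
  have h1 := L'.ne b hex.choose x ⟨hb, hb'⟩
  have h2 := I.ne a b x ⟨⟨ha, hb⟩, hx⟩
  have h3 : ‖L'.g b hex.choose x‖ ≠ 0 := norm_ne_zero_iff.2 h1
  have h4 : ‖I.h a b x‖ ≠ 0 := norm_ne_zero_iff.2 h2
  field_simp

/-- metrics along isomorphisms -/
def Met.ofIso (hW : IsOpen W) (hWU : W ⊆ U') (h : Met L' W) : Met L W where
  w := wIso I h
  pos a x hx := by
    obtain ⟨b, hb⟩ := L'.cov x (hWU hx.2)
    rw [wIso_eq I h hx.1 hb hx.2]
    have h1 := h.pos b x ⟨hb, hx.2⟩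
    have h2 := norm_pos_iff.2 (I.ne a b x ⟨⟨hx.1, hb⟩, hx.2⟩)
    positivity
  sm a := by
    refine smOn_of_chart (holC_id C) fun x hx => ?_
    obtain ⟨b, hb⟩ := L'.cov x (hWU hx.2)
    obtain ⟨j, hj⟩ := C.cover x
    refine ⟨j, hj, ?_⟩
    have hO : IsOpen (L.V a ∩ L'.V b ∩ W) := ((L.op a).inter (L'.op b)).inter hW
    have hm : C.e j x ∈ (C.e j).target ∩ (C.e j).symm ⁻¹' (L.V a ∩ L'.V b ∩ W) :=
      ⟨(C.e j).map_source hj, by rw [mem_preimage, (C.e j).left_inv hj]; exact ⟨⟨hx.1, hb⟩, hx.2⟩⟩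
    have h1 : ContDiffAt ℝ ∞ (fun z => h.w b ((C.e j).symm z)) (C.e j x) :=
      (h.sm b).contDiffAt ((L'.op b).inter hW) hj ⟨hb, hx.2⟩
    have h2 : ContDiffAt ℝ ∞ (fun z => ‖I.h a b ((C.e j).symm z)‖ ^ 2) (C.e j x) :=
      (holF_smOn_normSq hO (I.hol a b)).contDiffAt hO hj ⟨⟨hx.1, hb⟩, hx.2⟩
    have h3 : ‖I.h a b ((C.e j).symm (C.e j x))‖ ^ 2 ≠ 0 := by
      rw [(C.e j).left_inv hj]
      have := norm_pos_iff.2 (I.ne a b x ⟨⟨hx.1, hb⟩, hx.2⟩)
      positivity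
    refine (h1.mul (h2.inv h3)).congr_of_eventuallyEq ?_
    filter_upwards [((C.e j).isOpen_inter_preimage_symm hO).mem_nhds hm] with z hz
    exact wIso_eq I h hz.2.1.1 hz.2.1.2 hz.2.2
  tr a a' x hx := by
    obtain ⟨b, hb⟩ := L'.cov x (hWU hx.2)
    rw [wIso_eq I h hx.1.1 hb hx.2, wIso_eq I h hx.1.2 hb hx.2,
      ← I.left a a' b x ⟨⟨hx.1, hb⟩, hx.2⟩, norm_mul]
    have h1 := norm_ne_zero_iff.2 (L.ne a a' x hx.1)
    have h2 := norm_ne_zero_iff.2 (I.ne a' b x ⟨⟨hx.1.2, hb⟩, hx.2⟩)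
    field_simp

theorem posAtC_ofIso (hW : IsOpen W) (hWU : W ⊆ U') (h : Met L' W) {x : X} (hx : x ∈ W)
    {a : L.α} (ha : x ∈ L.V a) (hp : PosAtC h x) : PosAtC (Met.ofIso I hW hWU h) x := by
  obtain ⟨b, hb⟩ := L'.cov x (hWU hx)
  obtain ⟨j, hj⟩ := C.cover x
  refine posAtC_of hW (a := a) (j := j) ha hj hx fun v hv => ?_
  have hO : IsOpen (L.V a ∩ L'.V b ∩ W) := ((L.op a).inter (L'.op b)).inter hW
  have h1 : lv C ((Met.ofIso I hW hWU h).w a) j x v =
      lv C (fun y => ‖(I.h a b y)⁻¹‖ ^ 2 * h.w b y) j x v := by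
    refine lv_congr hj ?_ v
    filter_upwards [hO.mem_nhds ⟨⟨ha, hb⟩, hx⟩] with y hy
    show wIso I h a y = _
    rw [wIso_eq I h hy.1.1 hy.1.2 hy.2, norm_inv, inv_pow, mul_comm]
  rw [h1, lv_unit hO ((h.sm b).mono fun y hy => ⟨hy.1.2, hy.2⟩)
    (fun y hy => h.pos b y ⟨hy.1.2, hy.2⟩) (holF_inv (I.hol a b) (I.ne a b))
    (fun y hy => inv_ne_zero (I.ne a b y hy)) hj ⟨⟨ha, hb⟩, hx⟩ v]
  exact hp b j hb hj v hv

end OfIso

/-- positivity along isomorphisms -/
theorem PosNear.ofIso {L : CBo C U} {L' : CBo C U'} {K : Set X} (hW : IsOpen W) (hWU : W ⊆ U)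
    (hWU' : W ⊆ U') (hK : K ⊆ W) (I : IsoOn L L' W) (h : PosNear L' K) : PosNear L K := by
  obtain ⟨W₁, h1, h2, h3, h4⟩ := h
  let I' : IsoOn L L' (W ∩ W₁) :=
    { h := I.h
      hol := fun a b => holF_mono (I.hol a b) fun x hx => ⟨hx.1, hx.2.1⟩
      ne := fun a b x hx => I.ne a b x ⟨hx.1, hx.2.1⟩
      left := fun a a' b x hx => I.left a a' b x ⟨hx.1, hx.2.1⟩
      right := fun a b b' x hx => I.right a b b' x ⟨hx.1, hx.2.1⟩ }
  have hWW : IsOpen (W ∩ W₁) := hW.inter h1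
  refine ⟨W ∩ W₁, hWW, subset_inter hK h2,
    Met.ofIso I' hWW (inter_subset_left.trans hWU') (h3.mono inter_subset_right), fun x hx => ?_⟩
  obtain ⟨a, ha⟩ := L.cov x (hWU hx.1)
  refine posAtC_ofIso I' hWW (inter_subset_left.trans hWU') _ hx ha ?_
  exact h4 x hx.2

/-! ### local equations -/

/-- local equations of a divisor -/
structure Eqs (C : Fam n X) (U : Set X) where
  α : Type
  V : α → Set X
  op : ∀ a, IsOpen (V a)
  cov : ∀ x ∈ U, ∃ a, x ∈ V a
  f : α → X → ℂ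
  dense : ∀ a, V a ⊆ closure {x | f a x ≠ 0}
  loc : ∀ a b, ∀ x ∈ V a ∩ V b, ∃ W, IsOpen W ∧ x ∈ W ∧ ∃ u, HolF C W u ∧ (∀ y ∈ W, u y ≠ 0) ∧
    ∀ y ∈ W, f a y = u y * f b y

namespace Eqs

variable (E : Eqs C U)

/-- the bundle with the canonical section `f` -/
def cb : CBo C U := CBo.ofEq E.α E.V E.op E.cov E.f E.dense E.loc

/-- the `k`-th power of the ideal generated by the equations -/
def idl (k : ℕ) : CBo C U := E.cb.zpow (-(k : ℤ))

theorem dense_pow (k : ℕ) (a : E.α) : E.V a ⊆ closure {x | E.f a x ^ k ≠ 0} := by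
  refine (E.dense a).trans (closure_mono fun x hx => ?_)
  exact pow_ne_zero k hx

theorem g_eq {a b : E.α} {x : X} (hx : x ∈ E.V a ∩ E.V b) {W : Set X} (hW : IsOpen W) (hxW : x ∈ W)
    {u : X → ℂ} (hu : HolF C W u) (he : ∀ y ∈ W, E.f a y = u y * E.f b y) : E.cb.g a b x = u x :=
  quo_eq (E.dense b hx.2) (holF_contAt hW hu hxW) (by
    filter_upwards [hW.mem_nhds hxW] with z hz using he z hz)

/-- **a function divisible by `f a ^ k` near every point of `V a ∩ W` is a section of `idl k`** -/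
def secFun (k : ℕ) {F : X → ℂ} {W : Set X}
    (hF : ∀ a, ∀ x ∈ E.V a ∩ W, ∃ W', IsOpen W' ∧ x ∈ W' ∧ ∃ u, HolF C W' u ∧
      ∀ y ∈ W', F y = u y * E.f a y ^ k) : Sec (E.idl k) W where
  s a := quo F fun y => E.f a y ^ k
  hol a := by
    refine holF_of_local fun x hx => ?_
    obtain ⟨W', hW', hxW, u, hu, he⟩ := hF a x hx
    refine ⟨W' ∩ E.V a, hW'.inter (E.op a), ⟨hxW, hx.1⟩,
      holF_congr (holF_mono hu inter_subset_left) ?_⟩
    intro y hy
    exact quo_eq (E.dense_pow k a hy.2) (holF_contAt hW' hu hy.1) (by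
      filter_upwards [hW'.mem_nhds hy.1] with z hz using he z hz)
  tr a b x hx := by
    obtain ⟨W₁, hW₁, hx₁, u, hu, he⟩ := hF a x ⟨hx.1.1, hx.2⟩
    obtain ⟨W₂, hW₂, hx₂, v, hv, hv0, hev⟩ := E.loc a b x hx.1
    have h1 : quo F (fun y => E.f a y ^ k) x = u x :=
      quo_eq (E.dense_pow k a hx.1.1) (holF_contAt hW₁ hu hx₁) (by
        filter_upwards [hW₁.mem_nhds hx₁] with z hz using he z hz)
    have h2 : quo F (fun y => E.f b y ^ k) x = u x * v x ^ k :=
      quo_eq (u := fun y => u y * v y ^ k) (E.dense_pow k b hx.1.2)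
        ((holF_contAt hW₁ hu hx₁).mul ((holF_contAt hW₂ hv hx₂).pow k)) (by
        filter_upwards [hW₁.mem_nhds hx₁, hW₂.mem_nhds hx₂] with z hz hz'
        rw [he z hz, hev z hz']
        ring)
    have h3 : (E.idl k).g a b x = (v x) ^ (-(k : ℤ)) := by
      show E.cb.g a b x ^ (-(k : ℤ)) = _
      rw [E.g_eq hx.1 hW₂ hx₂ hv hev]
    have h4 := hv0 x hx₂
    show quo F (fun y => E.f a y ^ k) x = (E.idl k).g a b x * quo F (fun y => E.f b y ^ k) x
    rw [h1, h2, h3, zpow_neg, zpow_natCast]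
    field_simp

theorem secFun_s (k : ℕ) {F : X → ℂ} {W : Set X}
    (hF : ∀ a, ∀ x ∈ E.V a ∩ W, ∃ W', IsOpen W' ∧ x ∈ W' ∧ ∃ u, HolF C W' u ∧
      ∀ y ∈ W', F y = u y * E.f a y ^ k) {a : E.α} {x : X} (ha : x ∈ E.V a) {W' : Set X}
    (hW' : IsOpen W') (hx : x ∈ W') {u : X → ℂ} (hu : HolF C W' u)
    (he : ∀ y ∈ W', F y = u y * E.f a y ^ k) : (E.secFun k hF).s a x = u x :=
  quo_eq (E.dense_pow k a ha) (holF_contAt hW' hu hx) (by
    filter_upwards [hW'.mem_nhds hx] with z hz using he z hz)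

end Eqs

/-! ### existence of metrics; twisting by a bundle -/

theorem exists_met [CompactSpace X] [T2Space X] (L : CB C) : Nonempty (Met L univ) := by
  obtain ⟨A, hfin, -, ⟨P⟩, h4, hA, hA'⟩ := C.exists_atl L.V L.op (fun x => L.cov x (mem_univ x))
  choose c hc using h4
  have := hfin
  obtain ⟨h⟩ := HM_333.exists_hm P (CB.lb L A hA c hc)
  exact ⟨Met.ofHMo L A hA hA' c hc isOpen_univ (HMo.ofHM h univ)⟩

/-- `Q` positive near all fibres ⟹ `Q^k ⊗ D` positive near all fibres for `k ≥ k₀` -/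
theorem exists_posNear_tens [CompactSpace X] [T2Space X] [CompactSpace N] [T2Space N]
    (hp : Continuous p) {Q D : CB C} (hQ : ∀ q, PosNear Q (p ⁻¹' {q})) :
    ∃ k₀ : ℕ, ∀ k : ℕ, k₀ ≤ k → ∀ q, PosNear ((Q.zpow k).tens D) (p ⁻¹' {q}) := by
  obtain ⟨hD⟩ := exists_met D
  have h1 : ∀ q : N, ∃ B : Set N, IsOpen B ∧ q ∈ B ∧ ∃ k₀ : ℕ, ∀ k : ℕ, k₀ ≤ k → ∀ q' ∈ B,
      PosNear ((Q.zpow k).tens D) (p ⁻¹' {q'}) := by
    intro q
    obtain ⟨W, hW, hqW, h, hh⟩ := hQ q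
    have hcl : IsClosed (p '' Wᶜ) := (hW.isClosed_compl.isCompact.image hp).isClosed
    have hq : q ∈ (p '' Wᶜ)ᶜ := by
      rintro ⟨x, hx, hxq⟩
      exact hx (hqW hxq)
    obtain ⟨B, hB1, hB2, hB3⟩ := exists_compact_subset hcl.isOpen_compl hq
    have hKW : p ⁻¹' B ⊆ W := by
      intro x hx
      by_contra hxW
      exact hB3 hx ⟨x, hxW, rfl⟩
    have hKc : IsCompact (p ⁻¹' B) := (hB1.isClosed.preimage hp).isCompact
    obtain ⟨k₀, hk₀⟩ := exists_posAtC hW h (hD.mono (subset_univ W)) hh hKc hKW (subset_univ _)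
    refine ⟨interior B, isOpen_interior, hB2, k₀, fun k hk q' hq' => ?_⟩
    refine ⟨p ⁻¹' (interior B), isOpen_interior.preimage hp, ?_,
      ((h.npow k).tens (hD.mono (subset_univ W))).mono
        ((preimage_mono interior_subset).trans hKW), ?_⟩
    · rintro x rfl
      exact hq'
    · intro x hx
      exact hk₀ k hk x (show p x ∈ B from interior_subset hx)
  choose B hB1 hB2 k₀ hk₀ using h1
  obtain ⟨t, ht⟩ := isCompact_univ.elim_finite_subcover B hB1
    (fun q _ => mem_iUnion.2 ⟨q, hB2 q⟩)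
  refine ⟨t.sup k₀, fun k hk q => ?_⟩
  obtain ⟨q', hq', hqq⟩ := mem_iUnion₂.1 (ht (mem_univ q))
  exact hk₀ q' k ((Finset.le_sup hq').trans hk) q hqq

end

end Crest.Agent.R272.CB_232
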