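import Crest.Agent.R273.Fam_835

-- ▼ part R272/Quot1_783
section

/-!
# R272, leaf QUOT (helper783), part 1: quotients of complex manifolds by free group actions

* `QD B G p`        : `p : X → M` is the quotient map of the complex manifold `(X, B)` (`B : Fam n X`)
                      by a group `G` of biholomorphic maps, and `p` is a local homeomorphism;
* `QD.ofPD`         : the instance for a free, properly discontinuous action (Mathlib);
* `QD.fam`          : the induced complex structure on `M`; `holC_p`, `holC_iff`, `holC_desc`;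
* `Sheets h A`      : an atlas `A : Atl n M` of the quotient with holomorphic sections `σ i` of `p`
                      over its charts; `QD.exists_sheets` (finite, good, with partition of unity,
                      subordinate to any open cover of `M`, when `M` is compact).
-/

set_option autoImplicit false
set_option linter.unusedSectionVars false

open Set Filter Topology Complex
open scoped ContDiff Matrix ComplexConjugate Manifold

namespace Crest.Agent.R272.Quot_783

open Crest.Agent.R275.Geo Crest.Agent.R275.Core144 Crest.Agent.R275.GC293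
open Crest.Agent.R273.Defs_333 Crest.Agent.R273.Map_835 Crest.Agent.R273.PB_835
open Crest.Agent.R273.Fam_835

noncomputable section

variable {n m : ℕ} {X M N : Type} [TopologicalSpace X] [TopologicalSpace M] [TopologicalSpace N]

/-- `p : X → M` is the quotient of the complex manifold `X` by the group `G` of biholomorphic maps,
and `p` is a local homeomorphism -/
structure QD (B : Fam n X) (G : Type*) [Group G] [MulAction G X] (p : X → M) : Prop where
  lh : IsLocalHomeomorph p
  surj : Function.Surjective p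
  orb : ∀ x y, p x = p y ↔ ∃ g : G, g • x = y
  hol : ∀ g : G, HolC B B (fun x => g • x)

/-- free properly discontinuous actions -/
theorem QD.ofPD {B : Fam n X} {G : Type*} [Group G] [MulAction G X] [ProperlyDiscontinuousSMul G X]
    [IsCancelSMul G X] [T2Space X] [LocallyCompactSpace X]
    (hol : ∀ g : G, HolC B B (fun x => g • x)) :
    QD B G (Quotient.mk (MulAction.orbitRel G X) : X → MulAction.orbitRel.Quotient G X) := by
  have : ContinuousConstSMul G X := ⟨fun g => (hol g).cont⟩
  have hq := isQuotientCoveringMap_quotientMk_of_properlyDiscontinuousSMul (E := X) (G := G)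
  refine ⟨hq.isCoveringMap.isLocalHomeomorph, Quotient.mk_surjective, fun x y => ?_, hol⟩
  constructor
  · intro h
    have h1 : (MulAction.orbitRel G X).r x y := Quotient.exact h
    obtain ⟨g, hg⟩ := (MulAction.orbitRel_apply (G := G)).1 h1
    exact ⟨g⁻¹, by rw [← hg]; simp⟩
  · rintro ⟨g, rfl⟩
    apply Quotient.sound
    exact (MulAction.orbitRel_apply (G := G)).2 ⟨g⁻¹, by simp⟩

namespace QD

variable {B : Fam n X} {G : Type*} [Group G] [MulAction G X] {p : X → M} (h : QD B G p)

include h

theorem cont : Continuous p := h.lh.continuous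

theorem p_smul (g : G) (x : X) : p (g • x) = p x := ((h.orb x (g • x)).2 ⟨g, rfl⟩).symm

theorem cont_smul (g : G) : Continuous (fun x : X => g • x) := (h.hol g).cont

omit h in
/-- the chosen local homeomorphism at `x` -/
def lhp (h : QD B G p) (x : X) : OpenPartialHomeomorph X M := (h.lh x).choose

theorem mem_lhp (x : X) : x ∈ (h.lhp x).source := (h.lh x).choose_spec.1

theorem lhp_apply (x y : X) : h.lhp x y = p y := (congrFun (h.lh x).choose_spec.2 y).symm

theorem p_lhp_symm (x : X) {y : M} (hy : y ∈ (h.lhp x).target) : p ((h.lhp x).symm y) = y := by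
  rw [← h.lhp_apply x]
  exact (h.lhp x).right_inv hy

theorem lhp_symm_p (x : X) {y : X} (hy : y ∈ (h.lhp x).source) : (h.lhp x).symm (p y) = y := by
  rw [← h.lhp_apply x]
  exact (h.lhp x).left_inv hy

/-- a continuous local section of `p`, composed with `p`, is locally a translation by `g : G` -/
theorem local_smul {s : M → X} {U : Set M} (hU : IsOpen U) (hs : ContinuousOn s U)
    (hsec : ∀ y ∈ U, p (s y) = y) {u : X} (hu : p u ∈ U) {g : G} (hg : g • u = s (p u)) :
    ∀ᶠ w in 𝓝 u, g • w = s (p w) := by
  -- both sides lie in the source of the same local homeomorphism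
  set v := s (p u) with hv
  have h1 : ∀ᶠ w in 𝓝 u, g • w ∈ (h.lhp v).source := by
    have hc : ContinuousAt (fun w : X => g • w) u := (h.cont_smul g).continuousAt
    refine hc.eventually_mem ?_
    rw [hg]
    exact (h.lhp v).open_source.mem_nhds (h.mem_lhp v)
  have h2 : ∀ᶠ w in 𝓝 u, s (p w) ∈ (h.lhp v).source := by
    have hc : ContinuousAt (fun w : X => s (p w)) u :=
      ContinuousAt.comp (g := s) ((hs.continuousAt (hU.mem_nhds hu))) h.cont.continuousAt
    exact hc.eventually_mem ((h.lhp v).open_source.mem_nhds (h.mem_lhp v))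
  have h3 : ∀ᶠ w in 𝓝 u, p w ∈ U := h.cont.continuousAt.eventually_mem (hU.mem_nhds hu)
  filter_upwards [h1, h2, h3] with w hw1 hw2 hw3
  have e1 := h.lhp_symm_p v hw1
  have e2 := h.lhp_symm_p v hw2
  rw [h.p_smul] at e1
  rw [hsec _ hw3] at e2
  rw [← e1, ← e2]

omit h in
/-- the complex structure of the quotient -/
def fam (h : QD B G p) : Fam n M where
  ι := X
  e x := (h.lhp x).symm.trans (B.e (B.cover x).choose)
  cover y := by
    obtain ⟨x, rfl⟩ := h.surj y
    refine ⟨x, ?_⟩
    have h1 : p x ∈ (h.lhp x).target := by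
      rw [← h.lhp_apply x x]
      exact (h.lhp x).map_source (h.mem_lhp x)
    rw [OpenPartialHomeomorph.trans_source]
    refine ⟨h1, ?_⟩
    rw [mem_preimage, h.lhp_symm_p x (h.mem_lhp x)]
    exact (B.cover x).choose_spec
  holo x y := by
    intro z hz
    set i := (B.cover x).choose with hi
    set j := (B.cover y).choose with hj
    obtain ⟨hz1, hz2⟩ := hz
    rw [OpenPartialHomeomorph.trans_target] at hz1
    have ht : z ∈ (B.e i).target := hz1.1
    have hu : (B.e i).symm z ∈ (h.lhp x).source := hz1.2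
    set u := (B.e i).symm z with hudef
    have hpu : ((h.lhp x).symm.trans (B.e i)).symm z = p u := by
      rw [OpenPartialHomeomorph.coe_trans_symm, Function.comp_apply,
        OpenPartialHomeomorph.symm_symm, h.lhp_apply]
    have hz2' : p u ∈ ((h.lhp y).symm.trans (B.e j)).source := by
      rw [← hpu]; exact hz2
    rw [OpenPartialHomeomorph.trans_source] at hz2'
    have hy1 : p u ∈ (h.lhp y).target := hz2'.1
    have hy2 : (h.lhp y).symm (p u) ∈ (B.e j).source := hz2'.2
    obtain ⟨g, hg⟩ := (h.orb u ((h.lhp y).symm (p u))).1 (h.p_lhp_symm y hy1).symm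
    have h1 := h.local_smul (h.lhp y).open_target (h.lhp y).continuousOn_symm
      (fun w hw => h.p_lhp_symm y hw) hy1 hg
    have h2 : DifferentiableAt ℂ (fun w => B.e j (g • ((B.e i).symm w))) z :=
      (h.hol g).diffAt ht (by rw [← hudef, hg]; exact hy2)
    refine (h2.congr_of_eventuallyEq ?_).differentiableWithinAt
    have hc : ContinuousAt (B.e i).symm z := (B.e i).continuousAt_symm ht
    filter_upwards [hc.eventually h1] with w hw
    show B.e j ((h.lhp y).symm ((h.lhp x).symm.symm ((B.e i).symm w))) = _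
    rw [OpenPartialHomeomorph.symm_symm, h.lhp_apply, ← hw]

/-- the projection is holomorphic -/
theorem holC_p : HolC B h.fam p := by
  refine holC_of_local h.cont fun x => ?_
  have hx : x ∈ (B.e (B.cover x).choose).source := (B.cover x).choose_spec
  have h1 : p x ∈ (h.lhp x).target := by
    rw [← h.lhp_apply x x]
    exact (h.lhp x).map_source (h.mem_lhp x)
  refine ⟨(B.cover x).choose, x, hx, ?_, ?_⟩
  · show p x ∈ ((h.lhp x).symm.trans (B.e (B.cover x).choose)).source
    rw [OpenPartialHomeomorph.trans_source]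
    refine ⟨h1, ?_⟩
    rw [mem_preimage, h.lhp_symm_p x (h.mem_lhp x)]
    exact hx
  · set i := (B.cover x).choose
    have hc : ContinuousAt (B.e i).symm (B.e i x) := (B.e i).continuousAt_symm ((B.e i).map_source hx)
    have h2 : ∀ᶠ w in 𝓝 (B.e i x), (B.e i).symm w ∈ (h.lhp x).source := by
      refine hc.eventually_mem ?_
      rw [(B.e i).left_inv hx]
      exact (h.lhp x).open_source.mem_nhds (h.mem_lhp x)
    refine (differentiableAt_id (𝕜 := ℂ)).congr_of_eventuallyEq ?_
    filter_upwards [h2, (B.e i).open_target.mem_nhds ((B.e i).map_source hx)] with w hw hw'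
    show B.e i ((h.lhp x).symm (p ((B.e i).symm w))) = w
    rw [h.lhp_symm_p x hw, (B.e i).right_inv hw']

/-- universal property: a map out of the quotient is holomorphic iff its pull-back is -/
theorem holC_iff' {D : Fam m N} {f : M → N} : HolC h.fam D f ↔ HolC B D (fun x => f (p x)) := by
  constructor
  · intro hf
    exact hf.comp h.holC_p
  · intro hf
    have hcont : Continuous f := by
      rw [h.lh.isOpenMap.isQuotientMap h.cont h.surj |>.continuous_iff]
      exact hf.cont
    refine holC_of_local hcont fun y => ?_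
    obtain ⟨x, rfl⟩ := h.surj y
    have hx : x ∈ (B.e (B.cover x).choose).source := (B.cover x).choose_spec
    have h1 : p x ∈ (h.lhp x).target := by
      rw [← h.lhp_apply x x]
      exact (h.lhp x).map_source (h.mem_lhp x)
    obtain ⟨j, hj⟩ := D.cover (f (p x))
    set i := (B.cover x).choose with hi
    refine ⟨x, j, ?_, hj, ?_⟩
    · show p x ∈ ((h.lhp x).symm.trans (B.e i)).source
      rw [OpenPartialHomeomorph.trans_source]
      refine ⟨h1, ?_⟩
      rw [mem_preimage, h.lhp_symm_p x (h.mem_lhp x)]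
      exact hx
    · have e1 : h.fam.e x (p x) = B.e i x := by
        show B.e i ((h.lhp x).symm (p x)) = _
        rw [h.lhp_symm_p x (h.mem_lhp x)]
      rw [e1]
      have h2 : DifferentiableAt ℂ (fun w => D.e j (f (p ((B.e i).symm w)))) (B.e i x) :=
        hf.diffAt ((B.e i).map_source hx) (by rw [(B.e i).left_inv hx]; exact hj)
      refine h2.congr_of_eventuallyEq ?_
      filter_upwards with w
      show D.e j (f ((h.lhp x).symm.symm ((B.e i).symm w))) = _
      rw [OpenPartialHomeomorph.symm_symm, h.lhp_apply]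


end QD

/-! ### atlases of the quotient with sections of `p` over the charts -/

/-- an atlas `A` of the quotient with continuous (hence holomorphic) sections of `p` over its
charts -/
structure Sheets {B : Fam n X} {G : Type*} [Group G] [MulAction G X] {p : X → M} (h : QD B G p)
    (A : Atl n M) where
  σ : A.ι → M → X
  cont : ∀ i, ContinuousOn (σ i) (A.e i).source
  sec : ∀ i, ∀ y ∈ (A.e i).source, p (σ i y) = y
  toF : HolC (Crest.Agent.R273.Fam_835.fam A) h.fam id
  frF : HolC h.fam (Crest.Agent.R273.Fam_835.fam A) id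

variable {B : Fam n X} {G : Type*} [Group G] [MulAction G X] {p : X → M}

/-- on a compact quotient: finite good atlas with partition of unity and sheets, subordinate to a
given open cover of `M` -/
theorem QD.exists_sheets [CompactSpace M] [T2Space M] (h : QD B G p) {κ : Type*} (O : κ → Set M)
    (hO : ∀ k, IsOpen (O k)) (hOc : ∀ x, ∃ k, x ∈ O k) :
    ∃ A : Atl n M, Finite A.ι ∧ GoodA A ∧ Nonempty (Part A) ∧
      (∀ i, ∃ k, (A.e i).source ⊆ O k) ∧ Nonempty (Sheets h A) := by
  obtain ⟨A, h1, h2, h3, h4, h5, h6⟩ := h.fam.exists_atl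
    (fun q : κ × X => O q.1 ∩ (h.lhp q.2).target) (fun q => (hO q.1).inter (h.lhp q.2).open_target)
    (fun y => by
      obtain ⟨k, hk⟩ := hOc y
      obtain ⟨x, rfl⟩ := h.surj y
      refine ⟨(k, x), hk, ?_⟩
      rw [← h.lhp_apply x x]
      exact (h.lhp x).map_source (h.mem_lhp x))
  choose k hk using h4
  refine ⟨A, h1, h2, h3, fun i => ⟨(k i).1, fun y hy => (hk i hy).1⟩, ⟨⟨fun i => (h.lhp (k i).2).symm,
    fun i => (h.lhp (k i).2).continuousOn_symm.mono fun y hy => (hk i hy).2,
    fun i y hy => h.p_lhp_symm _ (hk i hy).2, h5, h6⟩⟩⟩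

end

end Crest.Agent.R272.Quot_783
end

-- ▼ part R272/Quot2_783

/-!
# R272, leaf QUOT (helper783), part 2: line bundles and metrics from automorphy factors

`S : Sheets h A`, free action.
* `S.dk i j y`  : the element of `G` with `dk • σ j y = σ i y` (locally constant);
* `Aut B G`     : automorphy factor `J (g g') x = J g (g' x) * J g' x`, holomorphic, zero free;
* `S.lb J`      : the line bundle on the quotient; `S.sec F`, `isHS_sec`: functions with
                  `F (g x) = J g x * F x` are holomorphic sections (also over open sets);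
* `S.hm J W`    : the metric of a weight `W > 0` with `W (g x) * ‖J g x‖² = W x`;
                  `hm_pos`, `hm_semipos`: positivity upstairs gives positivity downstairs.
-/

set_option autoImplicit false
set_option linter.unusedSectionVars false

open Set Filter Topology Complex
open scoped ContDiff Matrix ComplexConjugate Manifold

namespace Crest.Agent.R272.Quot_783

open Crest.Agent.R275.Geo Crest.Agent.R275.Core144 Crest.Agent.R275.GC293
open Crest.Agent.R273.Defs_333 Crest.Agent.R273.Map_835 Crest.Agent.R273.PB_835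
open Crest.Agent.R273.Fam_835

noncomputable section

variable {n m : ℕ} {X M N : Type} [TopologicalSpace X] [TopologicalSpace M] [TopologicalSpace N]

/-! ### holomorphic and smooth functions on a family -/

/-- holomorphic function on the open set `U` of a manifold `(X, B)` -/
def HolF (B : Fam n X) (U : Set X) (F : X → ℂ) : Prop :=
  ∀ j, DifferentiableOn ℂ (fun z => F ((B.e j).symm z)) ((B.e j).target ∩ (B.e j).symm ⁻¹' U)

/-- smooth function on a manifold `(X, B)` -/
def SmF (B : Fam n X) {W : Type*} [NormedAddCommGroup W] [NormedSpace ℝ W] (F : X → W) : Prop :=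
  ∀ j, ContDiffOn ℝ ∞ (fun z => F ((B.e j).symm z)) (B.e j).target

theorem HolF.diffAt {B : Fam n X} {U : Set X} (hU : IsOpen U) {F : X → ℂ} (hF : HolF B U F)
    {j : B.ι} {x : X} (hx : x ∈ (B.e j).source) (hxU : x ∈ U) :
    DifferentiableAt ℂ (fun z => F ((B.e j).symm z)) (B.e j x) :=
  (hF j).differentiableAt (((B.e j).isOpen_inter_preimage_symm hU).mem_nhds
    ⟨(B.e j).map_source hx, by rw [mem_preimage, (B.e j).left_inv hx]; exact hxU⟩)

variable {B : Fam n X} {G : Type*} [Group G] [MulAction G X] {p : X → M} {h : QD B G p}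
  {A : Atl n M}

namespace Sheets

variable (S : Sheets h A)

/-- the local section, read in the charts, is holomorphic -/
theorem diffAt {i : A.ι} {j : B.ι} {z : Cn n} (hz : z ∈ (A.e i).target)
    (hj : S.σ i ((A.e i).symm z) ∈ (B.e j).source) :
    DifferentiableAt ℂ (fun w => B.e j (S.σ i ((A.e i).symm w))) z := by
  set y := (A.e i).symm z with hy
  have hys : y ∈ (A.e i).source := (A.e i).map_target hz
  set u := S.σ i y with hu
  have hpu : p u = y := S.sec i y hys
  set j0 := (B.cover u).choose with hj0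
  have hj0s : u ∈ (B.e j0).source := (B.cover u).choose_spec
  -- the section agrees with the chosen inverse near `y`
  have h1 : ∀ᶠ w in 𝓝 u, (1 : G) • w = S.σ i (p w) :=
    h.local_smul (A.e i).open_source (S.cont i) (S.sec i) (by rw [hpu]; exact hys)
      (by rw [one_smul, hpu])
  have hyt : y ∈ (h.lhp u).target := by
    rw [← hpu, ← h.lhp_apply u u]
    exact (h.lhp u).map_source (h.mem_lhp u)
  have hlu : (h.lhp u).symm y = u := by
    rw [← hpu]; exact h.lhp_symm_p u (h.mem_lhp u)
  have h2 : ∀ᶠ y' in 𝓝 y, (h.lhp u).symm y' = S.σ i y' := by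
    have hc : ContinuousAt (h.lhp u).symm y := (h.lhp u).continuousAt_symm hyt
    have h3 : ∀ᶠ y' in 𝓝 y, (1 : G) • (h.lhp u).symm y' = S.σ i (p ((h.lhp u).symm y')) :=
      hc.eventually (by rw [hlu]; exact h1)
    filter_upwards [h3, (h.lhp u).open_target.mem_nhds hyt] with y' h4 h5
    rw [one_smul, h.p_lhp_symm u h5] at h4
    exact h4
  have hd : DifferentiableAt ℂ (fun w => h.fam.e u (id ((A.e i).symm w))) z := by
    refine S.toF.diffAt (i := i) (j := u) hz ?_
    show (id y : M) ∈ ((h.lhp u).symm.trans (B.e j0)).source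
    rw [OpenPartialHomeomorph.trans_source]
    exact ⟨hyt, by rw [mem_preimage, id, hlu]; exact hj0s⟩
  have hct : ContinuousAt (A.e i).symm z := (A.e i).continuousAt_symm hz
  have hd0 : DifferentiableAt ℂ (fun w => B.e j0 (S.σ i ((A.e i).symm w))) z := by
    refine hd.congr_of_eventuallyEq ?_
    filter_upwards [hct.eventually h2] with w hw
    show _ = B.e j0 ((h.lhp u).symm ((A.e i).symm w))
    rw [hw]
  -- change of chart upstairs
  have hd1 : DifferentiableAt ℂ (fun w => B.e j ((B.e j0).symm w)) (B.e j0 u) :=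
    (B.holo j0 j).differentiableAt (((B.e j0).isOpen_inter_preimage_symm
      (B.e j).open_source).mem_nhds ⟨(B.e j0).map_source hj0s, by
        rw [mem_preimage, (B.e j0).left_inv hj0s]; exact hj⟩)
  have hd2 := DifferentiableAt.comp z (g := fun w => B.e j ((B.e j0).symm w))
    (f := fun w => B.e j0 (S.σ i ((A.e i).symm w))) hd1 hd0
  refine hd2.congr_of_eventuallyEq ?_
  have hcs : ContinuousAt (fun w => S.σ i ((A.e i).symm w)) z :=
    ContinuousAt.comp (g := S.σ i) ((S.cont i).continuousAt ((A.e i).open_source.mem_nhds hys)) hct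
  filter_upwards [hcs.eventually_mem ((B.e j0).open_source.mem_nhds hj0s)] with w hw
  simp only [Function.comp]
  rw [(B.e j0).left_inv hw]

include S in
/-- the projection, read in the charts, is holomorphic -/
theorem diffAt_p {i : A.ι} {j : B.ι} {x : X} (hx : x ∈ (B.e j).source) (hi : p x ∈ (A.e i).source) :
    DifferentiableAt ℂ (fun w => A.e i (p ((B.e j).symm w))) (B.e j x) := by
  have h1 := (S.frF.comp h.holC_p).diffAt (i := j) (j := i) ((B.e j).map_source hx)
    (by rw [(B.e j).left_inv hx]; exact hi)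
  exact h1

theorem contAt {i : A.ι} {y : M} (hy : y ∈ (A.e i).source) : ContinuousAt (S.σ i) y :=
  (S.cont i).continuousAt ((A.e i).open_source.mem_nhds hy)

theorem contAt' {i : A.ι} {z : Cn n} (hz : z ∈ (A.e i).target) :
    ContinuousAt (fun w => S.σ i ((A.e i).symm w)) z :=
  ContinuousAt.comp (g := S.σ i) (S.contAt ((A.e i).map_target hz)) ((A.e i).continuousAt_symm hz)

/-- analyticity of the section -/
theorem analyticAt {i : A.ι} {j : B.ι} {z : Cn n} (hz : z ∈ (A.e i).target)
    (hj : S.σ i ((A.e i).symm z) ∈ (B.e j).source) :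
    AnalyticAt ℂ (fun w => B.e j (S.σ i ((A.e i).symm w))) z := by
  have h1 : ∀ᶠ w in 𝓝 z, DifferentiableAt ℂ (fun w => B.e j (S.σ i ((A.e i).symm w))) w := by
    filter_upwards [(A.e i).open_target.mem_nhds hz,
      (S.contAt' hz).eventually_mem ((B.e j).open_source.mem_nhds hj)] with w hw hw'
    exact S.diffAt hw hw'
  obtain ⟨U, hU, hUo, hzU⟩ := eventually_nhds_iff.1 h1
  exact Crest.Agent.R266.SCV.analyticOnNhd_of_differentiableOn hUo
    (fun w hw => (hU w hw).differentiableWithinAt) z hzU

/-- the differential of the section is injective -/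
theorem fderiv_inj {i : A.ι} {j : B.ι} {z : Cn n} (hz : z ∈ (A.e i).target)
    (hj : S.σ i ((A.e i).symm z) ∈ (B.e j).source) :
    Function.Injective (fderiv ℂ (fun w => B.e j (S.σ i ((A.e i).symm w))) z) := by
  set y := (A.e i).symm z with hy
  have hys : y ∈ (A.e i).source := (A.e i).map_target hz
  have hpu : p (S.σ i y) = y := S.sec i y hys
  have h1 := S.diffAt hz hj
  have h2 := S.diffAt_p (i := i) hj (by rw [hpu]; exact hys)
  have h3 : (fun w => A.e i (p ((B.e j).symm (B.e j (S.σ i ((A.e i).symm w)))))) =ᶠ[𝓝 z] id := by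
    filter_upwards [(A.e i).open_target.mem_nhds hz,
      (S.contAt' hz).eventually_mem ((B.e j).open_source.mem_nhds hj)] with w hw hw'
    rw [(B.e j).left_inv hw', S.sec i _ ((A.e i).map_target hw), (A.e i).right_inv hw, id]
  have h4 : HasFDerivAt (fun w => A.e i (p ((B.e j).symm (B.e j (S.σ i ((A.e i).symm w))))))
      ((fderiv ℂ (fun w => A.e i (p ((B.e j).symm w))) (B.e j (S.σ i y))).comp
        (fderiv ℂ (fun w => B.e j (S.σ i ((A.e i).symm w))) z)) z :=
    HasFDerivAt.comp z (g := fun w => A.e i (p ((B.e j).symm w))) h2.hasFDerivAt h1.hasFDerivAt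
  have h5 := h4.congr_of_eventuallyEq h3.symm
  have h6 := h5.unique (hasFDerivAt_id z)
  intro v w hvw
  have h7 := congrArg (fun T : Cn n →L[ℂ] Cn n => T v) h6
  have h8 := congrArg (fun T : Cn n →L[ℂ] Cn n => T w) h6
  simp only [ContinuousLinearMap.comp_apply, ContinuousLinearMap.id_apply] at h7 h8
  rw [← h7, ← h8, hvw]

/-- pull-back of holomorphic functions along the sections -/
theorem holAt_comp {U : Set X} (hU : IsOpen U) {F : X → ℂ} (hF : HolF B U F) (i : A.ι) {V : Set M}
    (hV : ∀ y ∈ V, y ∈ (A.e i).source → S.σ i y ∈ U) : HolAt A i V (fun y => F (S.σ i y)) := by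
  intro z hz
  set y := (A.e i).symm z with hy
  have hys : y ∈ (A.e i).source := (A.e i).map_target hz.1
  obtain ⟨j, hj⟩ := B.cover (S.σ i y)
  have h1 := HolF.diffAt hU hF hj (hV y hz.2 hys)
  have h2 := S.diffAt hz.1 hj
  have h3 := DifferentiableAt.comp z (g := fun w => F ((B.e j).symm w))
    (f := fun w => B.e j (S.σ i ((A.e i).symm w))) h1 h2
  refine (h3.congr_of_eventuallyEq ?_).differentiableWithinAt
  filter_upwards [(S.contAt' hz.1).eventually_mem ((B.e j).open_source.mem_nhds hj)] with w hw
  simp only [Function.comp]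
  rw [(B.e j).left_inv hw]

/-! ### the deck elements -/

open Classical in
/-- the element of `G` with `dk • σ j y = σ i y` -/
def dk (i j : A.ι) (y : M) : G :=
  if hy : y ∈ (A.e i).source ∩ (A.e j).source then
    ((h.orb (S.σ j y) (S.σ i y)).1 (by rw [S.sec j y hy.2, S.sec i y hy.1])).choose
  else 1

theorem dk_smul {i j : A.ι} {y : M} (hy : y ∈ (A.e i).source ∩ (A.e j).source) :
    S.dk i j y • S.σ j y = S.σ i y := by
  rw [dk, dif_pos hy]
  exact ((h.orb (S.σ j y) (S.σ i y)).1 (by rw [S.sec j y hy.2, S.sec i y hy.1])).choose_spec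

variable (hfree : ∀ (g : G) (x : X), g • x = x → g = 1)

include hfree

omit h A S in
theorem smul_left_inj {g g' : G} {x : X} (hx : g • x = g' • x) : g = g' := by
  have h1 : (g'⁻¹ * g) • x = x := by rw [mul_smul, hx, inv_smul_smul]
  have h2 := hfree _ _ h1
  rw [inv_mul_eq_one] at h2
  exact h2.symm

theorem dk_unique {i j : A.ι} {y : M} (hy : y ∈ (A.e i).source ∩ (A.e j).source) {g : G}
    (hg : g • S.σ j y = S.σ i y) : S.dk i j y = g :=
  smul_left_inj hfree ((S.dk_smul hy).trans hg.symm)

theorem dk_self {i : A.ι} {y : M} (hy : y ∈ (A.e i).source) : S.dk i i y = 1 :=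
  S.dk_unique hfree ⟨hy, hy⟩ (one_smul _ _)

theorem dk_mul {i j k : A.ι} {y : M}
    (hy : y ∈ (A.e i).source ∩ (A.e j).source ∩ (A.e k).source) :
    S.dk i j y * S.dk j k y = S.dk i k y := by
  refine (S.dk_unique hfree ⟨hy.1.1, hy.2⟩ ?_).symm
  rw [mul_smul, S.dk_smul ⟨hy.1.2, hy.2⟩, S.dk_smul ⟨hy.1.1, hy.1.2⟩]

theorem dk_loc {i j : A.ι} {y : M} (hy : y ∈ (A.e i).source ∩ (A.e j).source) :
    ∀ᶠ y' in 𝓝 y, S.dk i j y' = S.dk i j y := by
  have h1 := h.local_smul (A.e i).open_source (S.cont i) (S.sec i) (u := S.σ j y)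
    (g := S.dk i j y) (by rw [S.sec j y hy.2]; exact hy.1)
    (by rw [S.sec j y hy.2]; exact S.dk_smul hy)
  have h2 := (S.contAt hy.2).eventually h1
  filter_upwards [h2, ((A.e i).open_source.inter (A.e j).open_source).mem_nhds hy] with y' h3 h4
  rw [S.sec j y' h4.2] at h3
  exact S.dk_unique hfree h4 h3

end Sheets

/-! ### automorphy factors -/

/-- holomorphic automorphy factor -/
structure AutF (B : Fam n X) (G : Type*) [Group G] [MulAction G X] where
  J : G → X → ℂ
  hol : ∀ g, HolF B univ (J g)
  ne : ∀ g x, J g x ≠ 0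
  mul : ∀ g g' x, J (g * g') x = J g (g' • x) * J g' x

namespace AutF

theorem one (J : AutF B G) (x : X) : J.J 1 x = 1 := by
  have h1 := J.mul 1 1 x
  rw [one_mul, one_smul] at h1
  exact (mul_eq_left₀ (J.ne 1 x)).1 h1.symm

/-- product -/
def prod (J J' : AutF B G) : AutF B G where
  J g x := J.J g x * J'.J g x
  hol g j := (J.hol g j).mul (J'.hol g j)
  ne g x := mul_ne_zero (J.ne g x) (J'.ne g x)
  mul g g' x := by rw [J.mul, J'.mul]; ring

/-- inverse -/
def inv (J : AutF B G) : AutF B G where
  J g x := (J.J g x)⁻¹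
  hol g j := (J.hol g j).inv fun z _ => J.ne g _
  ne g x := inv_ne_zero (J.ne g x)
  mul g g' x := by rw [J.mul, mul_inv]

/-- power -/
def pow (J : AutF B G) (k : ℕ) : AutF B G where
  J g x := J.J g x ^ k
  hol g j := (J.hol g j).pow k
  ne g x := pow_ne_zero _ (J.ne g x)
  mul g g' x := by rw [J.mul, mul_pow]

end AutF

namespace Sheets

variable (S : Sheets h A) (hfree : ∀ (g : G) (x : X), g • x = x → g = 1)

open Classical in
/-- the line bundle on the quotient with automorphy factor `J` -/
def lb (J : AutF B G) : LB A where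
  g i j y := if y ∈ (A.e i).source ∩ (A.e j).source then J.J (S.dk i j y) (S.σ j y) else 1
  hol i j := by
    refine holAt_of_local fun y hy hyj => ?_
    have hyy : y ∈ (A.e i).source ∩ (A.e j).source := ⟨hy, hyj⟩
    obtain ⟨U, hU, hUo, hyU⟩ := eventually_nhds_iff.1 (S.dk_loc hfree hyy)
    refine ⟨U ∩ (A.e j).source, hUo.inter (A.e j).open_source, ⟨hyU, hyj⟩, ?_⟩
    have h1 : HolAt A j (U ∩ (A.e j).source) (fun y' => J.J (S.dk i j y) (S.σ j y')) :=
      S.holAt_comp isOpen_univ (J.hol _) j fun _ _ _ => mem_univ _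
    have h2 := h1.chg (hUo.inter (A.e j).open_source) i
    have h3 : HolAt A i (U ∩ (A.e j).source) (fun y' => J.J (S.dk i j y) (S.σ j y')) :=
      h2.mono fun y' hy' => ⟨hy', hy'.2⟩
    refine h3.congr fun y' hy' hyU' => ?_
    rw [if_pos ⟨hy', hyU'.2⟩, hU y' hyU'.1]
  off i j y hy := if_neg hy
  self i y := by
    split_ifs with hy
    · rw [S.dk_self hfree hy.1, J.one]
    · rfl
  mul i j k y hy := by
    rw [if_pos hy.1, if_pos ⟨hy.1.2, hy.2⟩, if_pos ⟨hy.1.1, hy.2⟩, ← S.dk_mul hfree hy, J.mul,
      S.dk_smul ⟨hy.1.2, hy.2⟩]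

theorem lb_g (J : AutF B G) {i j : A.ι} {y : M} (hy : y ∈ (A.e i).source ∩ (A.e j).source) :
    (S.lb hfree J).g i j y = J.J (S.dk i j y) (S.σ j y) := if_pos hy







/-- the metric of an equivariant weight -/
def hm (J : AutF B G) {W : X → ℝ} (hW : ∀ x, 0 < W x) (hs : SmF B W)
    (hJ : ∀ g x, W (g • x) * ‖J.J g x‖ ^ 2 = W x) : HM (S.lb hfree J) where
  w i y := W (S.σ i y)
  pos i y _ := hW _
  sm i := by
    intro z hz
    obtain ⟨j, hj⟩ := B.cover (S.σ i ((A.e i).symm z))
    have h1 : ContDiffAt ℝ ∞ (fun w => B.e j (S.σ i ((A.e i).symm w))) z :=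
      (S.analyticAt hz hj).contDiffAt.restrict_scalars ℝ
    have h2 : ContDiffAt ℝ ∞ (fun w => W ((B.e j).symm w)) (B.e j (S.σ i ((A.e i).symm z))) :=
      (hs j).contDiffAt ((B.e j).open_target.mem_nhds ((B.e j).map_source hj))
    refine ((h2.comp z h1).congr_of_eventuallyEq ?_).contDiffWithinAt
    filter_upwards [(S.contAt' hz).eventually_mem ((B.e j).open_source.mem_nhds hj)] with w hw
    simp only [Function.comp]
    rw [(B.e j).left_inv hw]
  tr i j y hy := by
    rw [S.lb_g hfree J hy, ← S.dk_smul hy, mul_comm, hJ]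

/-- the weight of the metric in terms of the weight upstairs -/
theorem hm_lev (J : AutF B G) {W : X → ℝ} (hW : ∀ x, 0 < W x) (hs : SmF B W)
    (hJ : ∀ g x, W (g • x) * ‖J.J g x‖ ^ 2 = W x) {i : A.ι} {j : B.ι} {z : Cn n}
    (hz : z ∈ (A.e i).target) (hj : S.σ i ((A.e i).symm z) ∈ (B.e j).source) (v : Cn n) :
    lev ((S.hm hfree J hW hs hJ).wt i) z v =
      lev (fun w => - Real.log (W ((B.e j).symm w))) (B.e j (S.σ i ((A.e i).symm z)))
        (fderiv ℂ (fun w => B.e j (S.σ i ((A.e i).symm w))) z v) := by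
  have he : (S.hm hfree J hW hs hJ).wt i =ᶠ[𝓝 z]
      fun w => - Real.log (W ((B.e j).symm (B.e j (S.σ i ((A.e i).symm w))))) := by
    filter_upwards [(S.contAt' hz).eventually_mem ((B.e j).open_source.mem_nhds hj)] with w hw
    rw [(B.e j).left_inv hw]
    rfl
  have hu : ContDiffAt ℝ 2 (fun w => - Real.log (W ((B.e j).symm w)))
      (B.e j (S.σ i ((A.e i).symm z))) := by
    have h2 : ContDiffAt ℝ 2 (fun w => W ((B.e j).symm w)) (B.e j (S.σ i ((A.e i).symm z))) :=
      ((hs j).contDiffAt ((B.e j).open_target.mem_nhds ((B.e j).map_source hj))).of_le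
        (by norm_cast)
    exact (h2.log (hW _).ne').neg
  rw [lev_congr' he, lev_bridge, Crest.Agent.R273.Levi_145.lev_comp (S.analyticAt hz hj) hu,
    ← lev_bridge]

theorem hm_pos (J : AutF B G) {W : X → ℝ} (hW : ∀ x, 0 < W x) (hs : SmF B W)
    (hJ : ∀ g x, W (g • x) * ‖J.J g x‖ ^ 2 = W x)
    (hpos : ∀ j, ∀ z ∈ (B.e j).target, ∀ v : Cn n, v ≠ 0 →
      0 < lev (fun w => - Real.log (W ((B.e j).symm w))) z v) :
    (S.hm hfree J hW hs hJ).Pos := by
  intro i z hz v hv
  obtain ⟨j, hj⟩ := B.cover (S.σ i ((A.e i).symm z))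
  rw [S.hm_lev hfree J hW hs hJ hz hj]
  refine hpos j _ ((B.e j).map_source hj) _ fun h0 => hv ?_
  exact S.fderiv_inj hz hj (by rw [h0, map_zero])


end Sheets

end

end Crest.Agent.R272.Quot_783
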