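import Crest.Agent.R272.PEnd2_732
import Crest.Agent.R272.Lc1_220
import Crest.Agent.R272.HFam_342
import Crest.Agent.R272.FinCB3_876
import Crest.Agent.R272.CB7_232
import Crest.Agent.R272.Lc2_220

-- ▼ part R272/PEnd3_732
section

/-!
# R272, task POS-END (helper732), part 3: germs

`GenAt C Φ x γ` : the germ `γ` generates the ideal of the functions `Φ i` at `x`; transport along
locally biholomorphic maps.
-/

set_option autoImplicit false
set_option linter.unusedSectionVars false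
set_option linter.unusedVariables false

open Set Filter Topology Complex
open scoped ContDiff Matrix ComplexConjugate Manifold

namespace Crest.Agent.R272.PEnd_732

open Crest.Agent.R275.Geo Crest.Agent.R275.Core144 Crest.Agent.R275.GC293
open Crest.Agent.R273 Crest.Agent.R273.Defs_333 Crest.Agent.R273.Map_835
open Crest.Agent.R273.Fam_835
open Crest.Agent.R272.Quot_783 Crest.Agent.R272.PosGlue_232 Crest.Agent.R272.CB_232
open Crest.Agent.R272.Lc_220 Crest.Agent.R272.HFam_342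

noncomputable section

variable {n m : ℕ} {X Y N : Type} [TopologicalSpace X] [TopologicalSpace Y] [TopologicalSpace N]
  {C : Fam n X} {C' : Fam n Y} {U V W : Set X} {x : X} {f g γ γ' : X → ℂ} {κ : Type}
  {Φ : κ → X → ℂ}

/-- the germ `γ` generates the ideal of the functions `Φ i` at `x` -/
structure GenAt (C : Fam n X) (Φ : κ → X → ℂ) (x : X) (γ : X → ℂ) : Prop where
  hol : HolN C x γ
  nz : NZ x γ
  dvd : ∀ i, Dvd C x γ (Φ i)
  gen : ∃ i, Asc C x (Φ i) γ

theorem GenAt.mk' {ψ : κ → X → ℂ} (hγ : HolN C x γ) (h0 : NZ x γ) (hψ : ∀ i, HolN C x (ψ i))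
    (hne : ∃ i, ψ i x ≠ 0) (he : ∀ i, ∀ᶠ y in 𝓝 x, Φ i y = γ y * ψ i y) : GenAt C Φ x γ where
  hol := hγ
  nz := h0
  dvd i := ⟨ψ i, hψ i, (he i).mono fun y hy => by rw [hy, mul_comm]⟩
  gen := by
    obtain ⟨i, hi⟩ := hne
    exact ⟨i, ψ i, hψ i, hi, (he i).mono fun y hy => by rw [hy, mul_comm]⟩

theorem GenAt.asc (h : GenAt C Φ x γ) (h' : GenAt C Φ x γ') : Asc C x γ γ' := by
  obtain ⟨i, hi⟩ := h.gen
  obtain ⟨k, hk⟩ := h'.gen
  -- `γ ~ Φ i`, divisible by `γ'`; `γ' ~ Φ k`, divisible by `γ`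
  refine Asc.of_dvd h.hol h.nz ?_ ?_
  · exact (hi.symm.dvd).trans (h'.dvd i)
  · exact (hk.symm.dvd).trans (h.dvd k)


theorem GenAt.congr {Φ' : κ → X → ℂ} (h : GenAt C Φ x γ) (he : ∀ i, ∀ᶠ y in 𝓝 x, Φ' i y = Φ i y) :
    GenAt C Φ' x γ where
  hol := h.hol
  nz := h.nz
  dvd i := (h.dvd i).congr (Eventually.of_forall fun _ => rfl) (he i)
  gen := by
    obtain ⟨i, hi⟩ := h.gen
    exact ⟨i, hi.congr (he i) (Eventually.of_forall fun _ => rfl)⟩

theorem mem_closure_of_nz (h : NZ x γ) : x ∈ closure {y | γ y ≠ 0} :=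
  mem_closure_iff_frequently.2 fun h' => h (h'.mono fun _ hy => not_not.1 hy)

theorem GenAt.exists_gen [Finite κ] (h : GenAt C Φ x γ) :
    ∃ O ψ, x ∈ O ∧ Gen C Φ O γ ψ ∧ ∀ y ∈ O, GenAt C Φ y γ := by
  have h1 := h.dvd
  choose ψ hψ hψe using h1
  obtain ⟨i, u, hu, hu0, hue⟩ := h.gen
  have h2 : ∀ᶠ y in 𝓝 x, ψ i y = u y := by
    refine ev_eq_of_mul h.hol (hψ i) hu h.nz ?_
    filter_upwards [hψe i, hue] with y h3 h4
    rw [← h3, h4]
  have h3 : ψ i x ≠ 0 := by rw [h2.self_of_nhds]; exact hu0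
  have h4 : ∀ᶠ y in 𝓝 x, ∀ i, HolN C y (ψ i) := eventually_all.2 fun i => (hψ i).eventually
  have h5 : ∀ᶠ y in 𝓝 x, ∀ i, ∀ᶠ z in 𝓝 y, Φ i z = ψ i z * γ z :=
    eventually_all.2 fun i => (hψe i).eventually_nhds
  obtain ⟨O, hO1, hO, hxO⟩ := mem_nhds_iff.1 (h4.and (h5.and
    (((hψ i).continuousAt.eventually_ne h3).and (h.hol.eventually.and (NZ.eventually h.hol h.nz)))))
  refine ⟨O, ψ, hxO, ⟨hO, fun k => (holF_iff hO).2 fun y hy => (hO1 hy).1 k,
    fun y hy => ⟨i, (hO1 hy).2.2.1⟩, fun k y hy => ?_, fun y hy =>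
      mem_closure_of_nz (hO1 hy).2.2.2.2⟩, fun y hy => ?_⟩
  · rw [((hO1 hy).2.1 k).self_of_nhds, mul_comm]
  · refine GenAt.mk' (hO1 hy).2.2.2.1 (hO1 hy).2.2.2.2 (hO1 hy).1 ⟨i, (hO1 hy).2.2.1⟩ fun k => ?_
    filter_upwards [(hO1 hy).2.1 k] with z hz
    rw [hz, mul_comm]

theorem GenAt.eventually [Finite κ] (h : GenAt C Φ x γ) : ∀ᶠ y in 𝓝 x, GenAt C Φ y γ := by
  obtain ⟨O, ψ, hx, hG, hO⟩ := h.exists_gen
  filter_upwards [hG.op.mem_nhds hx] with y hy using hO y hy

/-! ### transport along biholomorphic local homeomorphisms -/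

section Transport

variable (e : OpenPartialHomeomorph X Y)

/-- holomorphic on the source -/
def HolP (C : Fam n X) (C' : Fam n Y) (e : OpenPartialHomeomorph X Y) : Prop :=
  ∀ x ∈ e.source, HC C C' e x

variable {e}

theorem HolP.comp (he : HolP C C' e) (hx : x ∈ e.source) {g : Y → ℂ} (hg : HolN C' (e x) g) :
    HolN C x fun y => g (e y) := by
  obtain ⟨i, hi⟩ := C.cover x
  obtain ⟨j, hj⟩ := C'.cover (e x)
  have hO1 : IsOpen (e.source ∩ e ⁻¹' (C'.e j).source) := e.isOpen_inter_preimage (C'.e j).open_source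
  have hO : IsOpen ((C.e i).target ∩ (C.e i).symm ⁻¹' (e.source ∩ e ⁻¹' (C'.e j).source)) :=
    (C.e i).isOpen_inter_preimage_symm hO1
  have h1 : DifferentiableOn ℂ (HFam_342.rc C C' e i j)
      ((C.e i).target ∩ (C.e i).symm ⁻¹' (e.source ∩ e ⁻¹' (C'.e j).source)) := by
    intro z hz
    have h2 := (he _ hz.2.1).2 i j ((C.e i).map_target hz.1) hz.2.2
    rw [(C.e i).right_inv hz.1] at h2
    exact h2.differentiableWithinAt
  have h3 : AnalyticAt ℂ (HFam_342.rc C C' e i j) (C.e i x) := by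
    refine Crest.Agent.R266.SCV.analyticOnNhd_of_differentiableOn hO h1 _
      ⟨(C.e i).map_source hi, ?_⟩
    rw [mem_preimage, (C.e i).left_inv hi]
    exact ⟨hx, hj⟩
  refine holN_of hi ?_
  have h4 := hg j hj
  have h5 : AnalyticAt ℂ (fun z => g ((C'.e j).symm z)) (HFam_342.rc C C' e i j (C.e i x)) := by
    rw [HFam_342.rc_apply C C' e j hi]
    exact h4
  have h6 := AnalyticAt.comp (g := fun z => g ((C'.e j).symm z)) (f := HFam_342.rc C C' e i j) h5 h3
  refine h6.congr ?_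
  have h7 : ∀ᶠ y in 𝓝 x, y ∈ e.source ∩ e ⁻¹' (C'.e j).source := hO1.mem_nhds ⟨hx, hj⟩
  filter_upwards [(ev_chart hi).2 h7] with z hz
  simp only [Function.comp, HFam_342.rc]
  rw [(C'.e j).left_inv hz.2]

theorem ev_comp (hx : x ∈ e.source) {P : Y → Prop} (h : ∀ᶠ y in 𝓝 (e x), P y) :
    ∀ᶠ y in 𝓝 x, P (e y) := (e.continuousAt hx).eventually h


theorem HolP.dvd (he : HolP C C' e) (hx : x ∈ e.source) {f g : Y → ℂ} (h : Dvd C' (e x) g f) :
    Dvd C x (fun y => g (e y)) fun y => f (e y) := by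
  obtain ⟨a, ha, ha2⟩ := h
  exact ⟨_, he.comp hx ha, ev_comp hx ha2⟩

theorem HolP.asc (he : HolP C C' e) (hx : x ∈ e.source) {f g : Y → ℂ} (h : Asc C' (e x) f g) :
    Asc C x (fun y => f (e y)) fun y => g (e y) := by
  obtain ⟨a, ha, h0, ha2⟩ := h
  exact ⟨_, he.comp hx ha, h0, ev_comp hx ha2⟩


end Transport

end

end Crest.Agent.R272.PEnd_732
end

-- ▼ part R272/CB9_232

/-!
# R272, bundles in charts (helper232), part 9: transport of `GenAt`, `ValC` (876's FinCB3)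

* `genAt_iff`, `valC_iff` : descriptions by germs (220's `HolN`);
* `congr`, change of the generator, constructors `genAt_of_mul`, `valC_of_mul`, `valC_of_qv`;
* `genAt_pr_iff`, `valC_pr_iff` : along `pr G : Y → Orb G Y` (783's `RA`);
* `genAt_push_iff`, `valC_push_iff` : along a locally biholomorphic `OpenPartialHomeomorph`;
* `valC_compHC` : pull back along a holomorphic map.
-/

set_option autoImplicit false
set_option linter.unusedSectionVars false
set_option linter.unusedVariables false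

open Set Filter Topology Complex

namespace Crest.Agent.R272.CB9_232

open Crest.Agent.R275.Geo Crest.Agent.R273.Fam_835
open Crest.Agent.R272.Quot_783 Crest.Agent.R272.CB_232 Crest.Agent.R272.FinCB3_876
open Crest.Agent.R272.Lc_220 Crest.Agent.R272.HFam_342 Crest.Agent.R272.MQ_783
open Crest.Agent.R272.Refl_246

noncomputable section

variable {n m : ℕ} {X Y N : Type} [TopologicalSpace X] [TopologicalSpace Y] [TopologicalSpace N]
  {C : Fam n X} {D : Fam n Y} {E : Fam m N} {κ : Type} {x : X} {f f' u : κ → X → ℂ}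
  {e e' g : X → ℂ} {c : κ → ℂ}

/-! ### descriptions by germs -/

theorem holN_of_holF {W : Set X} (hW : IsOpen W) (h : HolF C W g) (hx : x ∈ W) : HolN C x g :=
  (holF_iff hW).1 h x hx

/-- finitely many germs live on one neighbourhood, where an eventual condition holds -/
theorem exists_holF [Finite κ] (hu : ∀ j, HolN C x (u j)) {P : X → Prop}
    (hP : ∀ᶠ y in 𝓝 x, P y) : ∃ W, IsOpen W ∧ x ∈ W ∧ (∀ j, HolF C W (u j)) ∧ ∀ y ∈ W, P y := by
  have h4 : ∀ᶠ y in 𝓝 x, ∀ j, HolN C y (u j) := eventually_all.2 fun j => (hu j).eventually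
  obtain ⟨W, hW1, hW, hx⟩ := mem_nhds_iff.1 (h4.and hP)
  exact ⟨W, hW, hx, fun j => (holF_iff hW).2 fun y hy => (hW1 hy).1 j, fun y hy => (hW1 hy).2⟩

theorem genAt_iff [Finite κ] : GenAt C f e x ↔ ∃ u : κ → X → ℂ, (∀ j, HolN C x (u j)) ∧
    (∀ j, ∀ᶠ y in 𝓝 x, f j y = u j y * e y) ∧ ∃ j, u j x ≠ 0 := by
  constructor
  · rintro ⟨W, hW, hx, u, hu, hue, hj⟩
    exact ⟨u, fun j => holN_of_holF hW (hu j) hx,
      fun j => eventually_of_mem (hW.mem_nhds hx) fun y hy => hue y hy j, hj⟩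
  · rintro ⟨u, hu, hue, hj⟩
    obtain ⟨W, hW, hx, hW1, hW2⟩ := exists_holF hu (eventually_all.2 hue)
    exact ⟨W, hW, hx, u, hW1, hW2, hj⟩

theorem valC_iff [Finite κ] : ValC C f x c ↔ c ≠ 0 ∧ ∃ e : X → ℂ,
    (∀ᶠ y in 𝓝 x, y ∈ closure {y | e y ≠ 0}) ∧ ∃ u : κ → X → ℂ, (∀ j, HolN C x (u j)) ∧
    (∀ j, ∀ᶠ y in 𝓝 x, f j y = u j y * e y) ∧ ∀ j, u j x = c j := by
  constructor
  · rintro ⟨hc, W, hW, hx, e, he, u, hu, hue, hj⟩
    exact ⟨hc, e, eventually_of_mem (hW.mem_nhds hx) he, u, fun j => holN_of_holF hW (hu j) hx,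
      fun j => eventually_of_mem (hW.mem_nhds hx) fun y hy => hue y hy j, hj⟩
  · rintro ⟨hc, e, he, u, hu, hue, hj⟩
    obtain ⟨W, hW, hx, hW1, hW2⟩ := exists_holF hu (he.and (eventually_all.2 hue))
    exact ⟨hc, W, hW, hx, e, fun y hy => (hW2 y hy).1, u, hW1, fun y hy => (hW2 y hy).2, hj⟩

theorem ev_closure (he : HolN C x e) (h0 : NZ x e) : ∀ᶠ y in 𝓝 x, y ∈ closure {y | e y ≠ 0} := by
  filter_upwards [NZ.eventually he h0] with y hy
  exact mem_closure_iff_frequently.2 fun h' => hy (h'.mono fun _ hy => not_not.1 hy)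

theorem nz_of_closure (h : x ∈ closure {y | e y ≠ 0}) : NZ x e := fun h' =>
  (mem_closure_iff_frequently.1 h) (h'.mono fun _ hy => not_not.2 hy)

/-! ### constructors -/

theorem genAt_of_mul [Finite κ] (hu : ∀ j, HolN C x (u j))
    (he : ∀ j, ∀ᶠ y in 𝓝 x, f j y = u j y * e y) (hj : ∃ j, u j x ≠ 0) : GenAt C f e x :=
  genAt_iff.2 ⟨u, hu, he, hj⟩

theorem valC_of_mul [Finite κ] (hc : c ≠ 0) (hel : HolN C x e) (h0 : NZ x e)
    (hu : ∀ j, HolN C x (u j)) (he : ∀ j, ∀ᶠ y in 𝓝 x, f j y = u j y * e y)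
    (hj : ∀ j, u j x = c j) : ValC C f x c :=
  valC_iff.2 ⟨hc, e, ev_closure hel h0, u, hu, he, hj⟩




/-! ### congruence and change of the generator -/

theorem _root_.Crest.Agent.R272.FinCB3_876.GenAt.congr [Finite κ] (h : GenAt C f e x)
    (h1 : ∀ j, ∀ᶠ y in 𝓝 x, f' j y = f j y) (h2 : ∀ᶠ y in 𝓝 x, e' y = e y) :
    GenAt C f' e' x := by
  obtain ⟨u, hu, hue, hj⟩ := genAt_iff.1 h
  refine genAt_of_mul hu (fun j => ?_) hj
  filter_upwards [hue j, h1 j, h2] with y a b d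
  rw [b, a, d]

theorem _root_.Crest.Agent.R272.FinCB3_876.ValC.congr [Finite κ] (h : ValC C f x c)
    (h1 : ∀ j, ∀ᶠ y in 𝓝 x, f' j y = f j y) : ValC C f' x c := by
  obtain ⟨hc, e, he, u, hu, hue, hj⟩ := valC_iff.1 h
  refine valC_iff.2 ⟨hc, e, he, u, hu, fun j => ?_, hj⟩
  filter_upwards [hue j, h1 j] with y a b
  rw [b, a]

theorem _root_.Crest.Agent.R272.FinCB3_876.GenAt.asc [Finite κ] (h : GenAt C f e x)
    (h1 : Asc C x e e') : GenAt C f e' x := by
  obtain ⟨u, hu, hue, j, hj⟩ := genAt_iff.1 h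
  obtain ⟨v, hv, hv0, hve⟩ := h1
  refine genAt_of_mul (u := fun j y => u j y * v y) (fun j => (hu j).mul hv) (fun j => ?_)
    ⟨j, mul_ne_zero hj hv0⟩
  filter_upwards [hue j, hve] with y a b
  rw [a, b, mul_assoc]

theorem _root_.Crest.Agent.R272.FinCB3_876.ValC.smul [Finite κ] (h : ValC C f x c) {a : ℂ}
    (ha : a ≠ 0) : ValC C f x fun j => a * c j := by
  obtain ⟨hc, e, he, u, hu, hue, hj⟩ := valC_iff.1 h
  obtain ⟨j₁, hj₁⟩ := Function.ne_iff.1 hc
  refine valC_iff.2 ⟨Function.ne_iff.2 ⟨j₁, mul_ne_zero ha hj₁⟩, fun y => a⁻¹ * e y, ?_,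
    fun j y => a * u j y, fun j => (holN_const a).mul (hu j), fun j => ?_, fun j => by simp only [hj j]⟩
  · filter_upwards [he] with y hy
    refine closure_mono (fun z hz => ?_) hy
    exact mul_ne_zero (inv_ne_zero ha) hz
  · filter_upwards [hue j] with y hy
    rw [hy]
    field_simp


/-- the function `f i` with `c i ≠ 0` is a generator -/
theorem _root_.Crest.Agent.R272.FinCB3_876.ValC.exists_quot [Finite κ] (h : ValC C f x c) {i : κ}
    (hi : c i ≠ 0) : NZ x (f i) ∧ ∃ w : κ → X → ℂ, (∀ j, HolN C x (w j)) ∧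
      (∀ j, ∀ᶠ y in 𝓝 x, f j y = w j y * f i y) ∧ ∀ j, w j x = c j * (c i)⁻¹ := by
  obtain ⟨hc, e, he, u, hu, hue, hj⟩ := valC_iff.1 h
  have hui : u i x ≠ 0 := by rw [hj]; exact hi
  have hne : ∀ᶠ y in 𝓝 x, u i y ≠ 0 := (hu i).continuousAt.eventually_ne hui
  refine ⟨fun h0 => ?_, fun j y => u j y * (u i y)⁻¹, fun j => (hu j).mul ((hu i).inv hui),
    fun j => ?_, fun j => by simp only [hj]⟩
  · refine nz_of_closure he.self_of_nhds ?_
    filter_upwards [h0, hue i, hne] with y a b d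
    rw [a] at b
    exact (mul_eq_zero.1 b.symm).resolve_left d
  · filter_upwards [hue j, hue i, hne] with y a b d
    rw [a, b, ← mul_assoc, mul_assoc (u j y), inv_mul_cancel₀ d, mul_one]

/-! ### descent to the orbit space -/

section Descent

variable {k : ℕ} {Z : Type} [TopologicalSpace Z] {CZ : Fam k Z} {G : Type} [Group G] [MulAction G Z]
  [ContinuousConstSMul G Z] [Nonempty Z]

theorem genAt_pr_iff [Finite κ] (h : RA CZ G) {z : Z} {F : κ → Orb G Z → ℂ} {H : Orb G Z → ℂ}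
    (hH : HolN CZ z fun v => H (pr G v)) (h0 : NZ z fun v => H (pr G v)) :
    GenAt h.fam F H (pr G z) ↔ GenAt CZ (fun j v => F j (pr G v)) (fun v => H (pr G v)) z := by
  constructor
  · intro hg
    obtain ⟨u, hu, hue, j, hj⟩ := genAt_iff.1 hg
    exact genAt_of_mul (u := fun j v => u j (pr G v)) (fun j => (hu j).comp h.holC_pr)
      (fun j => ev_pr.1 (hue j)) ⟨j, hj⟩
  · intro hg
    obtain ⟨u, hu, hue, j, hj⟩ := genAt_iff.1 hg
    have hd : ∀ j, Dvd h.fam (pr G z) H (F j) := fun j =>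
      (dvd_desc h hH h0).2 ⟨u j, hu j, hue j⟩
    choose w hw hwe using hd
    refine genAt_of_mul hw hwe ⟨j, ?_⟩
    have h1 : ∀ᶠ v in 𝓝 z, w j (pr G v) = u j v := by
      refine ev_eq_of_mul hH ((hw j).comp h.holC_pr) (hu j) h0 ?_
      filter_upwards [ev_pr.1 (hwe j), hue j] with v a b
      rw [← a, ← b]
    rw [h1.self_of_nhds]
    exact hj

theorem valC_pr_iff [Finite κ] (h : RA CZ G) {z : Z} {F : κ → Orb G Z → ℂ}
    (hF : ∀ j, HolN CZ z fun v => F j (pr G v)) :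
    ValC h.fam F (pr G z) c ↔ ValC CZ (fun j v => F j (pr G v)) z c := by
  constructor
  · intro hv
    obtain ⟨j₁, hj₁⟩ := Function.ne_iff.1 hv.1
    simp only [Pi.zero_apply] at hj₁
    obtain ⟨hnz, w, hw, hwe, hwx⟩ := hv.exists_quot hj₁
    refine valC_of_mul (e := fun v => F j₁ (pr G v) * (c j₁)⁻¹) (u := fun j v => c j₁ * w j (pr G v))
      hv.1 ((hF j₁).mul (holN_const _)) ?_ (fun j => (holN_const _).mul ((hw j).comp h.holC_pr))
      (fun j => ?_) (fun j => ?_)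
    · exact NZ.mul (hF j₁) (holN_const _) (nz_pr.1 hnz)
        (nz_of_ne continuousAt_const (inv_ne_zero hj₁))
    · filter_upwards [ev_pr.1 (hwe j)] with v hv
      rw [hv]
      field_simp
    · simp only [hwx]
      field_simp
  · intro hv
    obtain ⟨j₁, hj₁⟩ := Function.ne_iff.1 hv.1
    simp only [Pi.zero_apply] at hj₁
    obtain ⟨hnz, w, hw, hwe, hwx⟩ := hv.exists_quot hj₁
    have hd : ∀ j, Dvd h.fam (pr G z) (F j₁) (F j) := fun j =>
      (dvd_desc h (hF j₁) hnz).2 ⟨w j, hw j, hwe j⟩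
    choose W hW hWe using hd
    have hWx : ∀ j, W j (pr G z) = c j * (c j₁)⁻¹ := by
      intro j
      have h1 : ∀ᶠ v in 𝓝 z, W j (pr G v) = w j v := by
        refine ev_eq_of_mul (hF j₁) ((hW j).comp h.holC_pr) (hw j) hnz ?_
        filter_upwards [ev_pr.1 (hWe j), hwe j] with v a b
        rw [← a, ← b]
      rw [← hwx j]
      exact h1.self_of_nhds
    refine valC_of_mul (C := h.fam) (x := pr G z) (e := fun q => F j₁ q * (c j₁)⁻¹)
      (u := fun j q => c j₁ * W j q)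
      hv.1 (((holN_pr_iff h).2 (hF j₁)).mul (holN_const _)) ?_
      (fun j => (holN_const _).mul (hW j)) (fun j => ?_) (fun j => ?_)
    · exact NZ.mul ((holN_pr_iff h).2 (hF j₁)) (holN_const _) (nz_pr.2 hnz)
        (nz_of_ne continuousAt_const (inv_ne_zero hj₁))
    · filter_upwards [hWe j] with v hv
      rw [hv]
      field_simp
    · simp only [hWx]
      field_simp

end Descent

/-! ### holomorphic maps -/

theorem holN_compHC {p : X → N} (hp : ∀ᶠ y in 𝓝 x, HC C E p y) {F : N → ℂ}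
    (hF : HolN E (p x) F) : HolN C x fun y => F (p y) := by
  obtain ⟨i, hi⟩ := C.cover x
  obtain ⟨j, hj⟩ := E.cover (p x)
  have h0 : ∀ᶠ y in 𝓝 x, p y ∈ (E.e j).source :=
    hp.self_of_nhds.1.eventually ((E.e j).open_source.mem_nhds hj)
  have h3 : AnalyticAt ℂ (HFam_342.rc C E p i j) (C.e i x) := by
    refine Crest.Agent.R266.SCV.analyticAt_of_eventually_differentiableAt ?_
    filter_upwards [eventually_chartC hi (hp.and h0)] with z hz
    have h2 := hz.2.1.2 i j ((C.e i).map_target hz.1) hz.2.2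
    rwa [(C.e i).right_inv hz.1] at h2
  refine holN_of hi ?_
  have h5 : AnalyticAt ℂ (fun z => F ((E.e j).symm z)) (HFam_342.rc C E p i j (C.e i x)) := by
    rw [HFam_342.rc_apply C E p j hi]
    exact hF j hj
  have h6 := AnalyticAt.comp (g := fun z => F ((E.e j).symm z)) (f := HFam_342.rc C E p i j) h5 h3
  refine h6.congr ?_
  filter_upwards [eventually_chartC hi h0] with z hz
  simp only [Function.comp, HFam_342.rc]
  rw [(E.e j).left_inv hz.2]



/-! ### along a partial homeomorphism -/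

section Push

variable (φ : OpenPartialHomeomorph X Y)

theorem ev_push {P : Y → Prop} (hx : x ∈ φ.source) :
    (∀ᶠ y in 𝓝 (φ x), P y) ↔ ∀ᶠ y in 𝓝 x, P (φ y) := by
  rw [← φ.map_nhds_eq hx, Filter.eventually_map]

theorem ev_hc (hφ : ∀ x ∈ φ.source, LC C D φ x) (hx : x ∈ φ.source) :
    ∀ᶠ y in 𝓝 x, HC C D φ y :=
  eventually_of_mem (φ.open_source.mem_nhds hx) fun y hy => (hφ y hy).1

theorem lC_symm {φ : OpenPartialHomeomorph X Y} (hφ : ∀ x ∈ φ.source, LC C D φ x) :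
    ∀ y ∈ φ.symm.source, LC D C φ.symm y := by
  intro y hy
  have hy' : y ∈ φ.target := hy
  have hx := φ.map_target hy'
  have h1 : HC D C φ.symm y := by
    have := LC.symm φ hx (hφ _ hx)
    rwa [φ.right_inv hy'] at this
  refine LC.of_left_inverse (q := φ) h1 (hφ _ hx).1 ?_
  filter_upwards [φ.open_target.mem_nhds hy'] with z hz
  exact φ.right_inv hz



theorem closure_push_iff (hx : x ∈ φ.source) {F : Y → ℂ} :
    x ∈ closure {y | F (φ y) ≠ 0} ↔ φ x ∈ closure {y | F y ≠ 0} := by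
  rw [mem_closure_iff_frequently, mem_closure_iff_frequently]
  exact not_congr (ev_push φ hx (P := fun y => ¬ (y ∈ {y | F y ≠ 0}))).symm


theorem valC_push_iff [Finite κ] (hφ : ∀ x ∈ φ.source, LC C D φ x) (hx : x ∈ φ.source)
    {F : κ → Y → ℂ} : ValC C (fun j y => F j (φ y)) x c ↔ ValC D F (φ x) c := by
  constructor
  · intro h
    obtain ⟨hc, e, he, u, hu, hue, hj⟩ := valC_iff.1 h
    refine valC_iff.2 ⟨hc, fun y => e (φ.symm y), ?_, fun j y => u j (φ.symm y), fun j => ?_,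
      fun j => ?_, fun j => ?_⟩
    · refine (ev_push φ hx).2 ?_
      filter_upwards [he, φ.open_source.mem_nhds hx] with y hy hy'
      have h2 := (closure_push_iff φ.symm (x := φ y) (φ.map_source hy') (F := e)).2
      rw [φ.left_inv hy'] at h2
      exact h2 hy
    · refine holN_compHC (E := C) (p := φ.symm) (F := u j)
        (ev_hc φ.symm (lC_symm hφ) (φ.map_source hx)) ?_
      rw [φ.left_inv hx]
      exact hu j
    · refine (ev_push φ hx).2 ?_
      filter_upwards [hue j, φ.open_source.mem_nhds hx] with y a b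
      rw [a, φ.left_inv b]
    · simp only [φ.left_inv hx, hj j]
  · intro h
    obtain ⟨hc, e, he, u, hu, hue, hj⟩ := valC_iff.1 h
    refine valC_iff.2 ⟨hc, fun y => e (φ y), ?_, fun j y => u j (φ y), fun j =>
      holN_compHC (ev_hc φ hφ hx) (hu j), fun j => (ev_push φ hx).1 (hue j), hj⟩
    filter_upwards [(ev_push φ hx).1 he, φ.open_source.mem_nhds hx] with y hy hy'
    exact (closure_push_iff φ hy').2 hy

/-- with functions agreeing only near the point -/
theorem valC_push_congr [Finite κ] (hφ : ∀ x ∈ φ.source, LC C D φ x) (hx : x ∈ φ.source)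
    {F : κ → Y → ℂ} (hf : ∀ j, ∀ᶠ y in 𝓝 x, f j y = F j (φ y)) :
    ValC C f x c ↔ ValC D F (φ x) c := by
  rw [← valC_push_iff φ hφ hx]
  exact ⟨fun h => h.congr fun j => (hf j).mono fun y hy => hy.symm, fun h => h.congr hf⟩


end Push

end

end Crest.Agent.R272.CB9_232
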