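import Mathlib

-- ▼ part R272/Gauss8_981
section

set_option autoImplicit false

/-!
# Gauss sums of nondegenerate quadratic forms on finite abelian groups

`A` finite abelian group, `Q : A → V` a quadratic map over `ℤ`, `ψ : V → ℂ` a unitary additive
character, the bilinear form `ψ (polar Q a b)` nondegenerate.  Then `G = ∑ ψ (Q a)` satisfies
`|G|² = |A|` and `(G/|G|)⁸ = 1` (quaternion trick of helper295, post 5229).
-/

namespace Crest.Agent.R272.Gauss8_981

open QuadraticMap

variable {A V : Type*} [AddCommGroup A] [AddCommGroup V]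

section quat

variable (Q : QuadraticMap ℤ A V) (a b c d : ℤ)

/-- left multiplication by the quaternion `a + bi + cj + dk` on `A⁴` -/
def M (x : A × A × A × A) : A × A × A × A :=
  (a • x.1 - b • x.2.1 - c • x.2.2.1 - d • x.2.2.2,
   b • x.1 + a • x.2.1 - d • x.2.2.1 + c • x.2.2.2,
   c • x.1 + d • x.2.1 + a • x.2.2.1 - b • x.2.2.2,
   d • x.1 - c • x.2.1 + b • x.2.2.1 + a • x.2.2.2)

theorem M_conj (x : A × A × A × A) :
    M a (-b) (-c) (-d) (M a b c d x) = (a ^ 2 + b ^ 2 + c ^ 2 + d ^ 2) • x := by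
  obtain ⟨x, y, z, w⟩ := x
  simp only [M, Prod.smul_mk]
  refine Prod.ext ?_ (Prod.ext ?_ (Prod.ext ?_ ?_)) <;> simp only <;> module

/-- the quadratic map on `A⁴` -/
def Q4 (x : A × A × A × A) : V := Q x.1 + Q x.2.1 + Q x.2.2.1 + Q x.2.2.2

theorem Q_lin (x y z w : A) (p q r s : ℤ) :
    Q (p • x + q • y + r • z + s • w) =
      (p ^ 2) • Q x + (q ^ 2) • Q y + (r ^ 2) • Q z + (s ^ 2) • Q w
      + (p * q) • polar Q x y + (p * r) • polar Q x z + (p * s) • polar Q x w
      + (q * r) • polar Q y z + (q * s) • polar Q y w + (r * s) • polar Q z w := by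
  have e : ∀ u v : A, Q (u + v) = Q u + Q v + polar Q u v := fun u v => QuadraticMap.map_add Q u v
  have sm : ∀ (n : ℤ) (u : A), Q (n • u) = (n ^ 2) • Q u := fun n u => by
    rw [QuadraticMap.map_smul, _root_.sq]
  rw [e, e, e, sm, sm, sm, sm]
  simp only [QuadraticMap.polar_add_left, QuadraticMap.polar_smul_left,
    QuadraticMap.polar_smul_right]
  module

theorem Q4_M (x : A × A × A × A) :
    Q4 Q (M a b c d x) = (a ^ 2 + b ^ 2 + c ^ 2 + d ^ 2) • Q4 Q x := by
  obtain ⟨x, y, z, w⟩ := x
  simp only [Q4, M]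
  have h1 : a • x - b • y - c • z - d • w = a • x + (-b) • y + (-c) • z + (-d) • w := by module
  have h2 : b • x + a • y - d • z + c • w = b • x + a • y + (-d) • z + c • w := by module
  have h3 : c • x + d • y + a • z - b • w = c • x + d • y + a • z + (-b) • w := by module
  have h4 : d • x - c • y + b • z + a • w = d • x + (-c) • y + b • z + a • w := by module
  rw [h1, h2, h3, h4, Q_lin, Q_lin, Q_lin, Q_lin]
  module

end quat

section gauss

variable [Fintype A] (Q : QuadraticMap ℤ A V) (ψ : AddChar V ℂ)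

/-- The Gauss sum. -/
noncomputable def G : ℂ := ∑ a : A, ψ (Q a)

theorem exists_four (x : A) : (Fintype.card A ^ 2) • Q x = 0 := by
  have h : (Fintype.card A : ℤ) • x = 0 := by
    rw [natCast_zsmul]; exact card_nsmul_eq_zero
  have h2 := Q.map_smul (Fintype.card A : ℤ) x
  rw [h, Q.map_zero] at h2
  have : ((Fintype.card A : ℤ) * (Fintype.card A : ℤ)) • Q x = (Fintype.card A ^ 2) • Q x := by
    rw [← natCast_zsmul]; congr 1; push_cast; ring
  rw [← this, ← h2]

theorem G_pow_four_conj (hψ : ∀ v, (starRingEnd ℂ) (ψ v) = ψ (-v)) :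
    (starRingEnd ℂ) (G Q ψ ^ 4) = G Q ψ ^ 4 := by
  classical
  have hcard : 0 < Fintype.card A := Fintype.card_pos
  obtain ⟨a, b, c, d, h⟩ := Nat.sum_four_squares (Fintype.card A ^ 2 - 1)
  have hN : (a : ℤ) ^ 2 + (b : ℤ) ^ 2 + (c : ℤ) ^ 2 + (d : ℤ) ^ 2 = (Fintype.card A : ℤ) ^ 2 - 1 := by
    have h1 : 1 ≤ Fintype.card A ^ 2 := Nat.one_le_pow _ _ hcard
    zify [h1] at h
    exact h
  have hkill : ∀ x : A × A × A × A, ((Fintype.card A : ℤ) ^ 2) • x = 0 := by
    intro x
    have : ∀ y : A, ((Fintype.card A : ℤ) ^ 2) • y = 0 := by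
      intro y
      rw [_root_.sq, mul_smul]
      have : (Fintype.card A : ℤ) • y = 0 := by rw [natCast_zsmul]; exact card_nsmul_eq_zero
      rw [this, smul_zero]
    obtain ⟨x, y, z, w⟩ := x
    simp only [Prod.smul_mk, this]; rfl
  have hkillQ : ∀ x : A × A × A × A, ((Fintype.card A : ℤ) ^ 2) • Q4 Q x = 0 := by
    intro x
    have : ∀ y : A, ((Fintype.card A : ℤ) ^ 2) • Q y = 0 := by
      intro y
      have := exists_four Q y
      rw [← natCast_zsmul] at this; push_cast at this; exact this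
    simp only [Q4, smul_add, this]; simp
  have hinj : Function.Injective (M (A := A) a b c d) := by
    intro x y hxy
    have h1 := M_conj (a : ℤ) b c d x
    have h2 := M_conj (a : ℤ) b c d y
    rw [hxy, h2, hN, sub_smul, sub_smul, hkill, hkill] at h1
    simpa using h1.symm
  have hbij : Function.Bijective (M (A := A) a b c d) :=
    Finite.injective_iff_bijective.mp hinj
  have hG4 : G Q ψ ^ 4 = ∑ x : A × A × A × A, ψ (Q4 Q x) := by
    simp only [Fintype.sum_prod_type, Q4, AddChar.map_add_eq_mul, ← Finset.mul_sum,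
      ← Finset.sum_mul]
    unfold G
    ring
  rw [hG4, map_sum]
  rw [← Function.Bijective.sum_comp hbij (fun x => ψ (Q4 Q x))]
  refine Finset.sum_congr rfl (fun x _ => ?_)
  rw [hψ, Q4_M, hN, sub_smul, hkillQ]
  simp




end gauss

end Crest.Agent.R272.Gauss8_981
end

-- ▼ part R272/EChi4_307

/-!
# Row 272, division E, T3: Gauss sums of quadratic characters on `M ⧸ N`
-/

set_option autoImplicit false

noncomputable section

open Complex
open scoped ComplexConjugate

namespace Crest.Agent.R272.EChi4_307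

open Crest.Agent.R272.Gauss8_981

section grp

variable {M C : Type*} [AddCommGroup M] [CommGroup C] {q : M → C} {bb : M → M → C}

theorem bb_zsmul (hadd : ∀ m m' k, bb (m + m') k = bb m k * bb m' k) (n : ℤ) (m k : M) :
    bb (n • m) k = bb m k ^ n := by
  let f : M →+ Additive C := AddMonoidHom.mk' (fun m => Additive.ofMul (bb m k)) (fun a b => by
    rw [hadd]; rfl)
  have := map_zsmul f n m
  exact this

theorem q_zero (hadd : ∀ m m' k, bb (m + m') k = bb m k * bb m' k)
    (hq : ∀ m m', q (m + m') = q m * q m' * bb m m') : q 0 = 1 := by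
  have h0 : bb 0 0 = 1 := by
    have := bb_zsmul hadd 0 (0 : M) 0
    simpa using this
  have h1 := hq 0 0
  rw [h0, add_zero, mul_one] at h1
  exact (mul_eq_left.1 h1.symm)

theorem q_zsmul (hadd : ∀ m m' k, bb (m + m') k = bb m k * bb m' k)
    (hq : ∀ m m', q (m + m') = q m * q m' * bb m m') (hq2 : ∀ m, q m ^ (2 : ℤ) = bb m m)
    (n : ℤ) (m : M) : q (n • m) = q m ^ (n * n) := by
  have step : ∀ k : ℤ, q ((k + 1) • m) = q (k • m) * q m ^ (2 * k + 1) := by
    intro k
    rw [add_smul, one_smul, hq, bb_zsmul hadd, ← hq2, ← zpow_mul, mul_assoc, zpow_add, zpow_one,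
      mul_comm (q m)]
  induction n using Int.induction_on with
  | zero => simp [q_zero hadd hq]
  | succ i ih =>
    rw [step, ih, ← zpow_add]
    congr 1
    ring
  | pred i ih =>
    have h := step (-(i : ℤ) - 1)
    rw [sub_add_cancel, ih] at h
    have h2 : q ((-(i : ℤ) - 1) • m) = q m ^ (-(i : ℤ) * -(i : ℤ)) * (q m ^ (2 * (-(i : ℤ) - 1) + 1))⁻¹ := by
      rw [h, mul_inv_cancel_right]
    rw [h2, ← zpow_neg, ← zpow_add]
    congr 1
    ring

end grp

section desc

variable {M : Type*} [AddCommGroup M] (N : Submodule ℤ M) {q : M → Circle} {bb : M → M → Circle}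

theorem q_out (hper : ∀ m, ∀ n ∈ N, q (m + n) = q m) (m : M) :
    q (Quotient.out (Submodule.Quotient.mk m : M ⧸ N)) = q m := by
  have h : (Submodule.Quotient.mk (Quotient.out (Submodule.Quotient.mk m : M ⧸ N)) : M ⧸ N) =
      Submodule.Quotient.mk m := Quotient.out_eq _
  rw [Submodule.Quotient.eq] at h
  have := hper m _ h
  rw [← this]
  congr 1
  abel

/-- the quadratic map on the quotient -/
def Qd (hadd : ∀ m m' k, bb (m + m') k = bb m k * bb m' k)
    (hq : ∀ m m', q (m + m') = q m * q m' * bb m m') (hq2 : ∀ m, q m ^ (2 : ℤ) = bb m m)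
    (hper : ∀ m, ∀ n ∈ N, q (m + n) = q m) : QuadraticMap ℤ (M ⧸ N) (Additive Circle) :=
  have hpol : ∀ m m', QuadraticMap.polar (fun a : M ⧸ N => Additive.ofMul (q a.out))
      (Submodule.Quotient.mk m) (Submodule.Quotient.mk m') = Additive.ofMul (bb m m') := by
    intro m m'
    unfold QuadraticMap.polar
    simp only
    rw [← Submodule.Quotient.mk_add, q_out N hper, q_out N hper, q_out N hper, hq, ofMul_mul, ofMul_mul]
    abel
  have hadd' : ∀ x x' y : M ⧸ N, QuadraticMap.polar (fun a : M ⧸ N => Additive.ofMul (q a.out)) (x + x') y =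
      QuadraticMap.polar (fun a : M ⧸ N => Additive.ofMul (q a.out)) x y +
      QuadraticMap.polar (fun a : M ⧸ N => Additive.ofMul (q a.out)) x' y := by
    intro x x' y
    obtain ⟨x, rfl⟩ := Submodule.Quotient.mk_surjective _ x
    obtain ⟨x', rfl⟩ := Submodule.Quotient.mk_surjective _ x'
    obtain ⟨y, rfl⟩ := Submodule.Quotient.mk_surjective _ y
    rw [← Submodule.Quotient.mk_add, hpol, hpol, hpol, hadd, ofMul_mul]
  QuadraticMap.ofPolar (fun a => Additive.ofMul (q a.out))
    (by
      intro n a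
      obtain ⟨m, rfl⟩ := Submodule.Quotient.mk_surjective _ a
      rw [← Submodule.Quotient.mk_smul, q_out N hper, q_out N hper, q_zsmul hadd hq hq2]
      rfl)
    hadd'
    (by
      intro n x y
      let f : (M ⧸ N) →+ Additive Circle := AddMonoidHom.mk'
        (fun x => QuadraticMap.polar (fun a : M ⧸ N => Additive.ofMul (q a.out)) x y)
        (fun a b => hadd' a b y)
      exact map_zsmul f n x)

/-- the additive character -/
def ψ : AddChar (Additive Circle) ℂ where
  toFun z := ((Additive.toMul z : Circle) : ℂ)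
  map_zero_eq_one' := by simp
  map_add_eq_mul' a b := by simp

theorem ψ_conj (v : Additive Circle) : conj (ψ v) = ψ (-v) := by
  show conj ((Additive.toMul v : Circle) : ℂ) = ((Additive.toMul (-v) : Circle) : ℂ)
  rw [toMul_neg, Circle.coe_inv_eq_conj]

end desc

/-- **Fourth power of a Gauss sum is real.** -/
theorem gauss_four {M : Type*} [AddCommGroup M] (N : Submodule ℤ M) [Fintype (M ⧸ N)]
    {q : M → ℂ} {bb : M → M → ℂ} (hn : ∀ m, ‖q m‖ = 1)
    (hadd : ∀ m m' k, bb (m + m') k = bb m k * bb m' k)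
    (hq : ∀ m m', q (m + m') = q m * q m' * bb m m') (hq2 : ∀ m, q m ^ 2 = bb m m)
    (hper : ∀ m, ∀ n ∈ N, q (m + n) = q m) :
    conj ((∑ a : M ⧸ N, q a.out) ^ 4) = (∑ a : M ⧸ N, q a.out) ^ 4 := by
  have hnb : ∀ m m', ‖bb m m'‖ = 1 := by
    intro m m'
    have := congrArg norm (hq m m')
    rw [norm_mul, norm_mul, hn, hn, hn, one_mul, one_mul] at this
    exact this.symm
  let q' : M → Circle := fun m => ⟨q m, by simp [Submonoid.unitSphere, hn]⟩
  let bb' : M → M → Circle := fun m m' => ⟨bb m m', by simp [Submonoid.unitSphere, hnb]⟩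
  have e1 : ∀ m m' k, bb' (m + m') k = bb' m k * bb' m' k := by
    intro m m' k
    ext
    exact hadd m m' k
  have e2 : ∀ m m', q' (m + m') = q' m * q' m' * bb' m m' := by
    intro m m'
    ext
    exact hq m m'
  have e3 : ∀ m, q' m ^ (2 : ℤ) = bb' m m := by
    intro m
    ext
    have := hq2 m
    rw [zpow_ofNat]
    exact this
  have e4 : ∀ m, ∀ n ∈ N, q' (m + n) = q' m := by
    intro m n hn'
    ext
    exact hper m n hn'
  have h := G_pow_four_conj (Qd N e1 e2 e3 e4) ψ ψ_conj
  have h2 : G (Qd N e1 e2 e3 e4) ψ = ∑ a : M ⧸ N, q a.out := by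
    unfold G
    rfl
  rw [h2] at h
  exact h

end Crest.Agent.R272.EChi4_307
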