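import Crest.Agent.R272.Poi_307
import Crest.Agent.R272.EChi3_307
import Crest.Agent.R272.EThDefs_445
import Crest.Agent.R272.EChi4_307
import Crest.Agent.R272.ETh4Defs_295

-- ▼ part R272/EChi2_307
section

/-!
# Row 272, division E, T3: unfolding lemma

`unfold`: if `∑ₘ q(m) Ψ(m + B y) = ∑ₖ c(k) e(k·y)` for all `y`, `q` periodic mod `β(ℤ^κ)`,
`B` the real extension of `β`, then `c 0 = (∑_{a ∈ ℤ^κ/β} q(a)) ∫ Ψ(B y) dy`.
-/

set_option autoImplicit false
set_option linter.unusedSectionVars false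

noncomputable section

open MeasureTheory Complex Set Filter Topology Module
open Crest.Agent.R272.Poi307

namespace Crest.Agent.R272.EChi2_307

variable {κ : Type*} [Fintype κ]

lemma integral_ch (k : κ → ℤ) : ∫ x in cubeM (0 : κ → ℤ), ch k x = if k = 0 then 1 else 0 := by
  classical
  have h1 := UnitAddTorus.integral_preimage (fun t : UnitAddTorus κ => UnitAddTorus.mFourier k t)
    (0 : κ → ℝ)
  have hcube : {x : κ → ℝ | ∀ i, x i ∈ Set.Ioc ((0 : κ → ℝ) i) ((0 : κ → ℝ) i + 1)} = cubeM 0 := by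
    ext x; simp [cubeM]
  rw [hcube] at h1
  have h0 : ∫ x in cubeM (0 : κ → ℤ), ch k x =
      ∫ x in cubeM (0 : κ → ℤ), UnitAddTorus.mFourier k (fun i => (x i : UnitAddCircle)) := by
    refine integral_congr_ae (Filter.Eventually.of_forall fun x => ?_)
    exact (mFourier_pj k x).symm
  have h2 := h0.trans h1.symm
  rw [h2]
  have h3 := (orthonormal_iff_ite.mp (UnitAddTorus.orthonormal_mFourier (d := κ))) 0 k
  rw [ContinuousMap.inner_toLp] at h3
  have h5 : (0 : κ → ℤ) = k ↔ k = 0 := eq_comm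
  simp only [h5, UnitAddTorus.mFourier_zero, ContinuousMap.one_apply, map_one, mul_one] at h3
  exact h3

lemma vol_cube : volume (cubeM (0 : κ → ℤ)) ≠ ⊤ := by
  have : cubeM (0 : κ → ℤ) = Set.pi Set.univ (fun _ : κ => Set.Ioc (0:ℝ) (0 + 1)) := by
    ext x; simp [cubeM]
  rw [this, Real.volume_pi_Ioc]
  simp

/-- constant term of an absolutely convergent Fourier series -/
lemma integral_series {c : (κ → ℤ) → ℂ} (hc : Summable fun k => ‖c k‖) :
    ∫ x in cubeM (0 : κ → ℤ), ∑' k, c k * ch k x = c 0 := by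
  classical
  have hint : ∀ k, IntegrableOn (fun x => c k * ch k x) (cubeM (0 : κ → ℤ)) := by
    intro k
    refine Measure.integrableOn_of_bounded (M := ‖c k‖) vol_cube
      ((continuous_const.mul (continuous_ch k)).aestronglyMeasurable) ?_
    refine Filter.Eventually.of_forall fun x => ?_
    rw [norm_mul, norm_ch, mul_one]
  rw [← integral_tsum_of_summable_integral_norm hint]
  · rw [tsum_eq_single 0]
    · rw [integral_const_mul, integral_ch, if_pos rfl, mul_one]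
    · intro k hk
      rw [integral_const_mul, integral_ch, if_neg hk, mul_zero]
  · refine (hc.mul_left ((volume (cubeM (0 : κ → ℤ))).toReal)).congr fun k => ?_
    have : (fun x => ‖c k * ch k x‖) = fun _ : κ → ℝ => ‖c k‖ := by
      funext x; rw [norm_mul, norm_ch, mul_one]
    rw [this, setIntegral_const, smul_eq_mul, Measure.real]

/-- integral of a periodization -/
lemma integral_per {C : ℝ} {n : ℕ} {g : (κ → ℝ) → ℂ} (hc : Continuous g) (hC : 0 ≤ C)
    (hn : Fintype.card κ < n) (hg : Dec C n g) :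
    ∫ x in cubeM (0 : κ → ℤ), per g x = ∫ x, g x := by
  have h1 := coeff_perT hc hC hn hg 0
  rw [UnitAddTorus.mFourierCoeff_eq_integral _ _ (0 : κ → ℝ)] at h1
  have hcube : {x : κ → ℝ | ∀ i, x i ∈ Set.Ioc ((0 : κ → ℝ) i) ((0 : κ → ℝ) i + 1)} = cubeM 0 := by
    ext x; simp [cubeM]
  rw [hcube] at h1
  have h2 : ∫ x in cubeM (0 : κ → ℤ), per g x =
      ∫ x in cubeM (0 : κ → ℤ), UnitAddTorus.mFourier (-(0 : κ → ℤ)) (fun i => (x i : UnitAddCircle)) •
      perT hc hC hn hg (fun i => (x i : UnitAddCircle)) := by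
    refine integral_congr_ae (Filter.Eventually.of_forall fun x => ?_)
    have e1 : (fun i => (x i : UnitAddCircle)) = pj x := rfl
    simp only
    rw [e1, perT_pj, neg_zero, UnitAddTorus.mFourier_zero]
    simp
  rw [h2, h1, FTp]
  refine integral_congr_ae (Filter.Eventually.of_forall fun x => ?_)
  simp [ch, dot]

variable (β : (κ → ℤ) →ₗ[ℤ] (κ → ℤ)) (B : (κ → ℝ) ≃ₗ[ℝ] (κ → ℝ))

/-- the quotient is finite -/
lemma finite_quot (hβ : Function.Injective β) : Finite ((κ → ℤ) ⧸ LinearMap.range β) := by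
  classical
  refine Module.finite_of_fg_torsion _ ?_
  intro x
  obtain ⟨x, rfl⟩ := Submodule.Quotient.mk_surjective _ x
  let M : Matrix κ κ ℤ := LinearMap.toMatrix' β
  have hM : ∀ v, M.mulVec v = β v := fun v => by
    show (LinearMap.toMatrix' β).mulVec v = β v
    rw [← Matrix.toLin'_apply, Matrix.toLin'_toMatrix']
  have hdet : M.det ≠ 0 := by
    intro h0
    obtain ⟨v, hv, hv0⟩ := Matrix.exists_mulVec_eq_zero_iff.2 h0
    rw [hM] at hv0
    exact hv (hβ (by rw [hv0, map_zero]))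
  refine ⟨⟨M.det, mem_nonZeroDivisors_of_ne_zero hdet⟩, ?_⟩
  show M.det • Submodule.Quotient.mk (p := LinearMap.range β) x = 0
  rw [← Submodule.Quotient.mk_smul, Submodule.Quotient.mk_eq_zero]
  refine ⟨M.adjugate.mulVec x, ?_⟩
  rw [← hM, Matrix.mulVec_mulVec, Matrix.mul_adjugate, Matrix.smul_mulVec, Matrix.one_mulVec]

/-- the bijection `A × ℤ^κ → ℤ^κ`, `(a,k) ↦ a.out + β k` -/
def eqA (hβ : Function.Injective β) :
    (((κ → ℤ) ⧸ LinearMap.range β) × (κ → ℤ)) ≃ (κ → ℤ) :=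
  Equiv.ofBijective (fun p => p.1.out + β p.2) (by
    constructor
    · rintro ⟨a, k⟩ ⟨a', k'⟩ h
      simp only at h
      have h1 : a = a' := by
        have e1 : Submodule.Quotient.mk (p := LinearMap.range β) (a.out + β k) = a := by
          rw [Submodule.Quotient.mk_add]
          rw [(Submodule.Quotient.mk_eq_zero (LinearMap.range β)).2 ⟨k, rfl⟩, add_zero]
          exact Quotient.out_eq a
        have e2 : Submodule.Quotient.mk (p := LinearMap.range β) (a'.out + β k') = a' := by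
          rw [Submodule.Quotient.mk_add]
          rw [(Submodule.Quotient.mk_eq_zero (LinearMap.range β)).2 ⟨k', rfl⟩, add_zero]
          exact Quotient.out_eq a'
        rw [← e1, ← e2, h]
      subst h1
      have h2 : β k = β k' := add_left_cancel h
      rw [hβ h2]
    · intro m
      have h1 : Submodule.Quotient.mk (p := LinearMap.range β)
          (Submodule.Quotient.mk (p := LinearMap.range β) m).out = Submodule.Quotient.mk m :=
        Quotient.out_eq _
      rw [Submodule.Quotient.eq] at h1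
      obtain ⟨k, hk⟩ := h1
      refine ⟨(Submodule.Quotient.mk m, -k), ?_⟩
      simp only [map_neg, hk]
      abel)

lemma eqA_apply (hβ : Function.Injective β) (a : (κ → ℤ) ⧸ LinearMap.range β) (k : κ → ℤ) :
    eqA β hβ (a, k) = a.out + β k := rfl

lemma dec_shift {C : ℝ} {n : ℕ} {Ψ : (κ → ℝ) → ℂ} (hC : 0 ≤ C) (hΨ : Dec C n Ψ) (s : κ → ℝ) :
    ∃ C', 0 ≤ C' ∧ Dec C' n (fun x => Ψ (s + B x)) := by
  let Bs : (κ → ℝ) →L[ℝ] (κ → ℝ) := (B.symm.toLinearMap).toContinuousLinearMap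
  have hBs : ∀ x, Bs (B x) = x := fun x => B.symm_apply_apply x
  let K : ℝ := 1 + ‖Bs‖ * (1 + ‖s‖)
  have hK : 0 ≤ K := by positivity
  refine ⟨C * K ^ n, by positivity, fun x => ?_⟩
  refine (hΨ _).trans ?_
  rw [mul_assoc]
  refine mul_le_mul_of_nonneg_left ?_ hC
  rw [← mul_pow]
  refine pow_le_pow_left₀ (by positivity) ?_ n
  rw [← div_eq_mul_inv, le_div_iff₀ (by positivity), inv_mul_le_iff₀ (by positivity)]
  have h1 : ‖x‖ ≤ ‖Bs‖ * (‖s + B x‖ + ‖s‖) := by
    calc ‖x‖ = ‖Bs (B x)‖ := by rw [hBs]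
      _ ≤ ‖Bs‖ * ‖B x‖ := Bs.le_opNorm _
      _ ≤ _ := by
          refine mul_le_mul_of_nonneg_left ?_ (norm_nonneg _)
          calc ‖B x‖ = ‖(s + B x) - s‖ := by congr 1; abel
            _ ≤ _ := norm_sub_le _ _
  have h2 := norm_nonneg (s + B x)
  have h3 := norm_nonneg s
  have h4 := norm_nonneg Bs
  simp only [K]
  nlinarith [mul_nonneg h4 h2, mul_nonneg h4 h3, mul_nonneg (mul_nonneg h4 h2) h3]


/-- **unfolding** -/
theorem unfold (hβ : Function.Injective β) (hB : ∀ m, B (ic m) = ic (β m))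
    {q : (κ → ℤ) → ℂ} (hq : ∀ m k, q (m + β k) = q m)
    {Ψ : (κ → ℝ) → ℂ} {C : ℝ} {n : ℕ} (hc : Continuous Ψ) (hC : 0 ≤ C)
    (hn : Fintype.card κ < n) (hΨ : Dec C n Ψ)
    {c : (κ → ℤ) → ℂ} (hcs : Summable fun k => ‖c k‖)
    (H : ∀ y, HasSum (fun m => q m * Ψ (ic m + B y)) (∑' k, c k * ch k y))
    [Fintype ((κ → ℤ) ⧸ LinearMap.range β)] :
    c 0 = (∑ a : (κ → ℤ) ⧸ LinearMap.range β, q a.out) * ∫ y, Ψ (B y) := by
  classical
  have hBc : Continuous B := B.toLinearMap.continuous_of_finiteDimensional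
  let g : ((κ → ℤ) ⧸ LinearMap.range β) → (κ → ℝ) → ℂ := fun a x => Ψ (ic a.out + B x)
  have hgc : ∀ a, Continuous (g a) := fun a => hc.comp (continuous_const.add hBc)
  have key : ∀ y, (∑' k, c k * ch k y) = ∑ a : (κ → ℤ) ⧸ LinearMap.range β, q a.out * per (g a) y := by
    intro y
    have h1 := (eqA β hβ).hasSum_iff.2 (H y)
    rw [← h1.tsum_eq, h1.summable.tsum_prod, tsum_fintype]
    refine Finset.sum_congr rfl fun a _ => ?_
    rw [per, ← tsum_mul_left]
    refine tsum_congr fun k => ?_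
    simp only [Function.comp, eqA_apply, hq, g]
    rw [ic_add, map_add, hB]
    congr 2
    abel
  rw [← integral_series hcs]
  have h2 : ∫ x in cubeM (0 : κ → ℤ), ∑' k, c k * ch k x =
      ∫ x in cubeM (0 : κ → ℤ), ∑ a : (κ → ℤ) ⧸ LinearMap.range β, q a.out * per (g a) x := by
    refine integral_congr_ae (Filter.Eventually.of_forall fun x => ?_)
    exact key x
  rw [h2]
  choose C' hC' hdec using fun a : (κ → ℤ) ⧸ LinearMap.range β => dec_shift B hC hΨ (ic a.out)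
  have hper : ∀ a, Continuous (per (g a)) := fun a => continuous_per (hgc a) (hC' a) hn (hdec a)
  rw [integral_finset_sum]
  · rw [Finset.sum_mul]
    refine Finset.sum_congr rfl fun a _ => ?_
    rw [integral_const_mul, integral_per (hgc a) (hC' a) hn (hdec a)]
    congr 1
    have h3 : ∀ x, g a x = (fun y => Ψ (B y)) (x + B.symm (ic a.out)) := by
      intro x
      simp only [g, map_add, LinearEquiv.apply_symm_apply]
      rw [add_comm]
    simp_rw [h3]
    exact integral_add_right_eq_self (μ := volume) (fun y => Ψ (B y)) (B.symm (ic a.out))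
  · intro a _
    have hcont : Continuous fun x => q a.out * per (g a) x := continuous_const.mul (hper a)
    have hsub : cubeM (0 : κ → ℤ) ⊆ Set.Icc (0 : κ → ℝ) (fun _ => 1) := by
      intro x hx
      refine ⟨fun i => ?_, fun i => ?_⟩
      · have := (hx i).1; simpa using this.le
      · have := (hx i).2; simpa using this
    exact (hcont.continuousOn.integrableOn_compact isCompact_Icc).mono_set hsub

end Crest.Agent.R272.EChi2_307
end
end

-- ▼ part R272/EChi5_307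
section

/-!
# Row 272, division E, T3: the law of `t` under an automorphism of `(L, ε)`
-/

set_option autoImplicit false

noncomputable section

open Complex
open scoped ComplexConjugate

namespace Crest.Agent.R272.EChi5_307

open Crest.Agent.R272.EBase_641 Crest.Agent.R272.EBase2_641 Crest.Agent.R272.EThDefs_445
  Crest.Agent.R272.EChi3_307

variable {n m : ℕ}

/-- the group of pairs -/
abbrev GG (n m : ℕ) := UG n × (W m ≃ₗᵢ[ℂ] W m)

/-- the action on vectors -/
def gA (g : GG n m) : (V1 n × W m) ≃ₗ[ℂ] (V1 n × W m) :=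
  LinearEquiv.prodCongr g.1.1 g.2.toLinearEquiv

@[simp] theorem gA_apply (g : GG n m) (v : V1 n × W m) : gA g v = (g.1.1 v.1, g.2 v.2) := rfl

theorem gA_mul (g h : GG n m) (v : V1 n × W m) : gA (g * h) v = gA g (gA h v) := rfl

theorem gA_one (v : V1 n × W m) : gA (1 : GG n m) v = v := rfl

theorem ee_gA (g : GG n m) (v w : V1 n × W m) : ee (gA g v) (gA g w) = ee v w := by
  simp only [ee, gA_apply, UG_hh, LinearIsometryEquiv.inner_map_map]

theorem hV_gA (g : GG n m) (v w : V1 n × W m) : hV (gA g v) (gA g w) = hV v w := by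
  simp only [hV, gA_apply, UG_hh, LinearIsometryEquiv.inner_map_map]

theorem wt_gA (g : GG n m) (v : V1 n × W m) : wt (gA g v) = wt v := by
  have h := hV_gA g v v
  rw [hV_self, hV_self] at h
  have h2 := Complex.ofReal_injective h
  simp only [wt]
  rw [h2]

theorem ss_eq (z w : E n) : ss z w = -hh (z, 1) (w, 1) := by
  simp [ss, hh]

theorem ss_act (g : UG n) {z w : E n} (hz : z ∈ Ball n) (hw : w ∈ Ball n) :
    ss z w = jj g z * conj (jj g w) * ss (act g z) (act g w) := by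
  rw [ss_eq, ss_eq, ← UG_hh g (z, 1) (w, 1), apply_eq g hz, apply_eq g hw, hh_smul_left,
    hh_smul_right]
  ring

theorem ss_ne {z w : E n} (hz : z ∈ Ball n) (hw : w ∈ Ball n) : ss z w ≠ 0 := by
  intro h
  have h1 : (inner ℂ w z : ℂ) = 1 := by
    unfold ss at h
    exact (sub_eq_zero.1 h).symm
  have h2 := norm_inner_le_norm (𝕜 := ℂ) w z
  rw [h1, norm_one] at h2
  have h3 := mem_Ball.1 hz
  have h4 := mem_Ball.1 hw
  have h5 := norm_nonneg z
  have h6 := norm_nonneg w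
  nlinarith

theorem Rp_gA (g : GG n m) (v : V1 n × W m) {z w : E n} (hz : z ∈ Ball n) (hw : w ∈ Ball n) :
    Rp (gA g v).1 (act g.1 z) (act g.1 w) = Rp v.1 z w := by
  have hjz := jj_ne_zero g.1 hz
  have hjw : conj (jj g.1 w) ≠ 0 := by
    rw [Ne, map_eq_zero]
    exact jj_ne_zero g.1 hw
  have hs := ss_ne (act_mem g.1 hz) (act_mem g.1 hw)
  unfold Rp
  have h1 : (gA g v).1 = g.1.1 v.1 := rfl
  rw [h1, lin_act _ _ hz, lin_act _ _ hw, map_div₀, ss_act g.1 hz hw]
  field_simp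

theorem psi_gA (g : GG n m) (v : V1 n × W m) {z w : E n} (hz : z ∈ Ball n) (hw : w ∈ Ball n) :
    EThDefs_445.psi (gA g v) (act g.1 z) (act g.1 w) =
      jj g.1 z * conj (jj g.1 w) * EThDefs_445.psi v z w := by
  have hjz := jj_ne_zero g.1 hz
  have hjw : conj (jj g.1 w) ≠ 0 := by
    rw [Ne, map_eq_zero]
    exact jj_ne_zero g.1 hw
  have hs := ss_ne (act_mem g.1 hz) (act_mem g.1 hw)
  unfold EThDefs_445.psi
  rw [Rp_gA g v hz hw, wt_gA, ss_act g.1 hz hw]
  field_simp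

theorem ph_ne (x : ℝ) : ph x ≠ 0 := Complex.exp_ne_zero _

theorem norm_ph (x : ℝ) : ‖ph x‖ = 1 := by
  unfold ph
  have : (Real.pi : ℂ) * I * x = ((Real.pi * x : ℝ) : ℂ) * I := by push_cast; ring
  rw [this, Complex.norm_exp_ofReal_mul_I]

theorem ph_add (x y : ℝ) : ph (x + y) = ph x * ph y := by
  unfold ph
  rw [← Complex.exp_add]
  congr 1
  push_cast
  ring

theorem ph_zero : ph 0 = 1 := by simp [ph]

theorem ph_two_int (k : ℤ) : ph (2 * k) = 1 := by
  unfold ph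
  have : (Real.pi : ℂ) * I * ((2 * k : ℝ) : ℂ) = k * (2 * Real.pi * I) := by push_cast; ring
  rw [this, Complex.exp_int_mul_two_pi_mul_I]


theorem ee_self (v : V1 n × W m) : ee v v = 0 := by
  rw [ee_eq, hV_self, Complex.ofReal_im]

theorem ee_swap (v w : V1 n × W m) : ee v w = -ee w v := by
  rw [ee_eq, ee_eq, ← hV_conj, Complex.conj_im]

theorem ee_add_left (u v w : V1 n × W m) : ee (u + v) w = ee u w + ee v w := by
  simp only [ee_eq, hV_add_left, Complex.add_im]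

theorem ee_add_right (u v w : V1 n × W m) : ee u (v + w) = ee u v + ee u w := by
  rw [ee_swap, ee_add_left, ee_swap v u, ee_swap w u]
  ring

theorem ee_smul_left (r : ℝ) (v w : V1 n × W m) : ee (r • v) w = r * ee v w := by
  have h : r • v = (r : ℂ) • v := rfl
  rw [ee_eq, ee_eq, h, hV_smul_left]
  simp

theorem ee_smul_right (r : ℝ) (v w : V1 n × W m) : ee v (r • w) = r * ee v w := by
  rw [ee_swap, ee_smul_left, ee_swap w v]
  ring

theorem ee_neg_left (v w : V1 n × W m) : ee (-v) w = -ee v w := by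
  have := ee_smul_left (-1) v w
  simpa using this

theorem ee_neg_right (v w : V1 n × W m) : ee v (-w) = -ee v w := by
  have := ee_smul_right (-1) v w
  simpa using this

theorem ee_sub_left (u v w : V1 n × W m) : ee (u - v) w = ee u w - ee v w := by
  rw [sub_eq_add_neg, ee_add_left, ee_neg_left]; ring

theorem ee_sub_right (u v w : V1 n × W m) : ee u (v - w) = ee u v - ee u w := by
  rw [sub_eq_add_neg, ee_add_right, ee_neg_right]; ring

theorem ee_zero_left (v : V1 n × W m) : ee 0 v = 0 := by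
  have := ee_smul_left 0 v v
  simpa using this


section law

variable {L : AddSubgroup (V1 n × W m)} (T : TData L)

include T in
theorem eps_sq (l : V1 n × W m) (hl : l ∈ L) : T.ε l * T.ε l = 1 := by
  rcases T.ε_pm l hl with h | h <;> rw [h] <;> norm_num

theorem eps_ne (l : V1 n × W m) (hl : l ∈ L) : T.ε l ≠ 0 := by
  intro h
  have := eps_sq T l hl
  rw [h] at this
  norm_num at this

theorem eps_zero : T.ε 0 = 1 := by
  have h := T.ε_add 0 L.zero_mem 0 L.zero_mem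
  rw [add_zero, ee_zero_left, ph_zero, mul_one] at h
  exact (mul_eq_left₀ (eps_ne T 0 L.zero_mem)).1 h.symm

theorem eps_neg (l : V1 n × W m) (hl : l ∈ L) : T.ε (-l) = T.ε l := by
  have h := T.ε_add l hl (-l) (L.neg_mem hl)
  rw [add_neg_cancel, eps_zero, ee_neg_right, ee_self, neg_zero, ph_zero, mul_one] at h
  have h2 := eps_sq T l hl
  have h3 := eps_ne T l hl
  exact mul_left_cancel₀ h3 (h.symm.trans h2.symm)

/-- automorphisms of `(L, ε)` -/
def Sg : Subgroup (GG n m) where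
  carrier := {g | (∀ v, gA g v ∈ L ↔ v ∈ L) ∧ ∀ v ∈ L, T.ε (gA g v) = T.ε v}
  mul_mem' := by
    intro a b ha hb
    refine ⟨fun v => ?_, fun v hv => ?_⟩
    · rw [gA_mul, ha.1, hb.1]
    · rw [gA_mul, ha.2 _ ((hb.1 v).2 hv), hb.2 v hv]
  one_mem' := ⟨fun v => Iff.rfl, fun v _ => rfl⟩
  inv_mem' := by
    intro a ha
    have key : ∀ v, gA a (gA a⁻¹ v) = v := by
      intro v
      rw [← gA_mul, mul_inv_cancel, gA_one]
    refine ⟨fun v => ?_, fun v hv => ?_⟩
    · rw [← ha.1 (gA a⁻¹ v), key]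
    · have h1 : gA a⁻¹ v ∈ L := by rw [← ha.1 (gA a⁻¹ v), key]; exact hv
      rw [← ha.2 _ h1, key]

/-- the equivalence of `L` induced by `g` -/
def eL (g : Sg T) : L ≃ L where
  toFun l := ⟨gA g.1 l.1, (g.2.1 l.1).2 l.2⟩
  invFun l := ⟨gA g.1⁻¹ l.1, ((g⁻¹).2.1 l.1).2 l.2⟩
  left_inv l := by
    ext1
    show gA g.1⁻¹ (gA g.1 l.1) = l.1
    rw [← gA_mul, inv_mul_cancel, gA_one]
  right_inv l := by
    ext1
    show gA g.1 (gA g.1⁻¹ l.1) = l.1
    rw [← gA_mul, mul_inv_cancel, gA_one]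

theorem prod_law (g : Sg T) (a b : V1 n × W m) {z w : E n} (hz : z ∈ Ball n) (hw : w ∈ Ball n) :
    T.t (gA g.1 a) (act g.1.1 z) * conj (T.t (gA g.1 b) (act g.1.1 w)) =
      jj g.1.1 z * conj (jj g.1.1 w) * (T.t a z * conj (T.t b w)) := by
  have h1 := T.vv (gA g.1 a) (gA g.1 b) _ (act_mem g.1.1 hz) _ (act_mem g.1.1 hw)
  have h2 := (T.vv a b z hz w hw).mul_left (jj g.1.1 z * conj (jj g.1.1 w))
  rw [← (eL T g).hasSum_iff] at h1
  have h3 : (fun l : L => T.ε l * ph (ee (l : V1 n × W m) (gA g.1 a + gA g.1 b)) *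
      EThDefs_445.psi ((l : V1 n × W m) + gA g.1 a - gA g.1 b) (act g.1.1 z) (act g.1.1 w)) ∘ (eL T g) =
      fun l : L => jj g.1.1 z * conj (jj g.1.1 w) *
        (T.ε l * ph (ee (l : V1 n × W m) (a + b)) * EThDefs_445.psi ((l : V1 n × W m) + a - b) z w) := by
    funext l
    have e1 : ((eL T g l : L) : V1 n × W m) = gA g.1 l.1 := rfl
    simp only [Function.comp_apply, e1]
    rw [← map_add, ← map_add, ← map_sub, ee_gA, psi_gA _ _ hz hw, g.2.2 _ l.2]
    ring
  rw [h3] at h1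
  have h4 := h1.unique h2
  rw [ee_gA] at h4
  have h5 := ph_ne (ee b a)
  apply mul_left_cancel₀ h5
  rw [h4]
  ring

/-- the law of `t` -/
def Law (g : GG n m) (χ : ℂ) : Prop :=
  ∀ a, ∀ z ∈ Ball n, T.t (gA g a) (act g.1 z) = χ * jj g.1 z * T.t a z

theorem zero_mem_Ball : (0 : E n) ∈ Ball n := by rw [mem_Ball]; simp

theorem exists_law (g : Sg T) : ∃ χ : ℂ, ‖χ‖ = 1 ∧ Law T g.1 χ := by
  obtain ⟨a0, ha0⟩ := T.t_ne
  set j0 := jj g.1.1 (0 : E n) with hj0
  have hj0' : j0 ≠ 0 := jj_ne_zero g.1.1 zero_mem_Ball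
  have h1 := prod_law T g a0 a0 zero_mem_Ball zero_mem_Ball
  set t0 := T.t (gA g.1 a0) (act g.1.1 0) with ht0
  have hc : ∀ x : ℂ, x * conj x = ((‖x‖ ^ 2 : ℝ) : ℂ) := by
    intro x
    rw [Complex.mul_conj, Complex.normSq_eq_norm_sq]
  have hn : ‖t0‖ = ‖j0‖ * ‖T.t a0 0‖ := by
    have h2 : ((‖t0‖ ^ 2 : ℝ) : ℂ) = ((‖j0‖ ^ 2 * ‖T.t a0 0‖ ^ 2 : ℝ) : ℂ) := by
      rw [Complex.ofReal_mul, ← hc, ← hc, ← hc]
      exact h1
    have h3 := Complex.ofReal_injective h2
    rw [← mul_pow] at h3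
    exact (pow_left_inj₀ (norm_nonneg _) (by positivity) two_ne_zero).1 h3
  refine ⟨t0 / (j0 * T.t a0 0), ?_, ?_⟩
  · rw [norm_div, norm_mul, hn, div_self]
    exact mul_ne_zero (norm_ne_zero_iff.2 hj0') (norm_ne_zero_iff.2 ha0)
  · intro a z hz
    have h2 := prod_law T g a a0 hz zero_mem_Ball
    rw [← hj0, ← ht0] at h2
    have ht0' : t0 ≠ 0 := by
      rw [← norm_ne_zero_iff, hn]
      exact mul_ne_zero (norm_ne_zero_iff.2 hj0') (norm_ne_zero_iff.2 ha0)
    have ht0c : conj t0 ≠ 0 := by rwa [Ne, map_eq_zero]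
    apply mul_right_cancel₀ ht0c
    rw [h2]
    have h3 : t0 * conj t0 = j0 * conj j0 * (T.t a0 0 * conj (T.t a0 0)) := h1
    field_simp
    linear_combination (-(jj g.1.1 z * T.t a z)) * h3

theorem law_unique {g : GG n m} {χ χ' : ℂ} (h : Law T g χ) (h' : Law T g χ') : χ = χ' := by
  obtain ⟨a0, ha0⟩ := T.t_ne
  have h1 := (h a0 0 zero_mem_Ball).symm.trans (h' a0 0 zero_mem_Ball)
  have hj0' := jj_ne_zero g.1 (zero_mem_Ball (n := n))
  have h2 : (jj g.1 (0 : E n) * T.t a0 0) ≠ 0 := mul_ne_zero hj0' ha0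
  apply mul_right_cancel₀ h2
  linear_combination h1

theorem law_mul {g h : GG n m} {χ χ' : ℂ} (hg : Law T g χ) (hh : Law T h χ') :
    Law T (g * h) (χ * χ') := by
  intro a z hz
  have e1 : act (g * h).1 z = act g.1 (act h.1 z) := act_mul g.1 h.1 hz
  have e2 : jj (g * h).1 z = jj g.1 (act h.1 z) * jj h.1 z := jj_mul g.1 h.1 hz
  rw [gA_mul, e1, hg _ _ (act_mem h.1 hz), hh _ _ hz, e2]
  ring

theorem law_one : Law T (1 : GG n m) 1 := by
  intro a z hz
  have e1 : act (1 : GG n m).1 z = z := act_one z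
  have e2 : jj (1 : GG n m).1 z = 1 := jj_one z
  rw [gA_one, e1, e2]
  ring

/-- the character -/
def χ (g : Sg T) : ℂ := (exists_law T g).choose

theorem norm_χ (g : Sg T) : ‖χ T g‖ = 1 := (exists_law T g).choose_spec.1

theorem law_χ (g : Sg T) : Law T g.1 (χ T g) := (exists_law T g).choose_spec.2

theorem χ_eq (g : Sg T) {x : ℂ} (h : Law T g.1 x) : χ T g = x := law_unique T (law_χ T g) h

theorem χ_mul (g h : Sg T) : χ T (g * h) = χ T g * χ T h :=
  χ_eq T _ (law_mul T (law_χ T g) (law_χ T h))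

theorem χ_one : χ T 1 = 1 := χ_eq T _ (law_one T)

/-- `-1` -/
def mn (n m : ℕ) : GG n m :=
  (⟨LinearEquiv.neg ℂ, by
    intro v w
    simp only [LinearEquiv.neg_apply]
    have h1 : -v = (-1 : ℂ) • v := by simp
    have h2 : -w = (-1 : ℂ) • w := by simp
    rw [h1, h2, hh_smul_left, hh_smul_right]
    simp⟩, LinearIsometryEquiv.neg ℂ)

theorem gA_mn (v : V1 n × W m) : gA (mn n m) v = -v := by
  ext1
  · show (LinearEquiv.neg ℂ : V1 n ≃ₗ[ℂ] V1 n) v.1 = -v.1
    simp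
  · rfl

theorem mn_mem : mn n m ∈ Sg T := by
  refine ⟨fun v => ?_, fun v hv => ?_⟩
  · rw [gA_mn]; exact neg_mem_iff
  · rw [gA_mn, eps_neg T v hv]

theorem mn_sq : mn n m * mn n m = 1 := by
  ext1
  · ext1
    refine LinearEquiv.ext fun v => ?_
    show (LinearEquiv.neg ℂ : V1 n ≃ₗ[ℂ] V1 n) ((LinearEquiv.neg ℂ : V1 n ≃ₗ[ℂ] V1 n) v) = v
    simp
  · refine LinearIsometryEquiv.ext fun v => ?_
    show (LinearIsometryEquiv.neg ℂ : W m ≃ₗᵢ[ℂ] W m) ((LinearIsometryEquiv.neg ℂ : W m ≃ₗᵢ[ℂ] W m) v) = v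
    simp

theorem χ_mn_sq : χ T ⟨mn n m, mn_mem T⟩ ^ 2 = 1 := by
  rw [pow_two, ← χ_mul]
  have h : (⟨mn n m, mn_mem T⟩ * ⟨mn n m, mn_mem T⟩ : Sg T) = 1 := by
    ext1
    exact mn_sq
  rw [h, χ_one]

end law

end Crest.Agent.R272.EChi5_307
end
end

-- ▼ part R272/EChi6_307
section

/-!
# Row 272, division E, T3: coordinates of a lattice, duality
-/

set_option autoImplicit false

noncomputable section

open Complex MeasureTheory
open scoped ComplexConjugate

namespace Crest.Agent.R272.EChi6_307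

open Crest.Agent.R272.Poi307

theorem exists_crd {E : Type} [NormedAddCommGroup E] [NormedSpace ℝ E] [FiniteDimensional ℝ E]
    (L : AddSubgroup E) (disc : ∀ r : ℝ, {v : E | v ∈ L ∧ ‖v‖ ≤ r}.Finite)
    (span : Submodule.span ℝ (L : Set E) = ⊤) :
    ∃ (κ : Type) (_ : Fintype κ) (Λ : (κ → ℝ) ≃ₗ[ℝ] E),
      (∀ m, Λ (ic m) ∈ L) ∧ ∀ v ∈ L, ∃ m, Λ (ic m) = v := by
  classical
  have : ProperSpace E := FiniteDimensional.proper ℝ E
  let L' : Submodule ℤ E := L.toIntSubmodule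
  have hL' : ∀ v, v ∈ L' ↔ v ∈ L := fun v => Iff.rfl
  have : DiscreteTopology L' := by
    have h1 : Filter.Tendsto ((↑) : L' → E) Filter.cofinite (Filter.cocompact E) := by
      rw [tendsto_cofinite_cocompact_iff]
      intro K hK
      obtain ⟨r, hr⟩ := hK.isBounded.exists_norm_le
      have h2 : (((↑) : L' → E) ⁻¹' K) ⊆ ((↑) : L' → E) ⁻¹' {v : E | v ∈ L ∧ ‖v‖ ≤ r} := by
        intro x hx
        exact ⟨x.2, hr _ hx⟩
      exact (Set.Finite.preimage (Subtype.coe_injective.injOn) (disc r)).subset h2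
    exact Continuous.discrete_of_tendsto_cofinite_cocompact continuous_subtype_val h1
  have hz : IsZLattice ℝ L' := ⟨span⟩
  have : Module.Finite ℤ L' := ZLattice.module_finite ℝ L'
  have : Module.Free ℤ L' := ZLattice.module_free ℝ L'
  let b := Module.Free.chooseBasis ℤ L'
  let b' := b.ofZLatticeBasis ℝ L'
  refine ⟨_, inferInstance, b'.equivFun.symm, ?_, ?_⟩
  · intro m
    rw [Module.Basis.equivFun_symm_apply]
    refine L.sum_mem fun i _ => ?_
    have : b' i = b i := b.ofZLatticeBasis_apply ℝ L' i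
    rw [this, ic_apply, Int.cast_smul_eq_zsmul]
    exact L.zsmul_mem (b i).2 _
  · intro v hv
    refine ⟨fun i => b.repr ⟨v, hv⟩ i, ?_⟩
    rw [LinearEquiv.symm_apply_eq]
    ext i
    rw [Module.Basis.equivFun_apply]
    exact (b.ofZLatticeBasis_repr_apply ℝ L' ⟨v, hv⟩ i).symm

/-- `exp(-δ r²)` decays faster than any power -/
theorem exp_dec (δ : ℝ) (hδ : 0 < δ) (n : ℕ) {r : ℝ} (hr : 0 ≤ r) :
    Real.exp (-δ * r ^ 2) ≤ (n.factorial * Real.exp (1 + 1 / (4 * δ))) * ((1 + r)⁻¹) ^ n := by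
  have h1 := Real.pow_div_factorial_le_exp (1 + r) (by positivity) n
  have h2 : (0:ℝ) < n.factorial := by exact_mod_cast n.factorial_pos
  rw [div_le_iff₀ h2] at h1
  rw [inv_pow, ← div_eq_mul_inv, le_div_iff₀ (by positivity)]
  calc Real.exp (-δ * r ^ 2) * (1 + r) ^ n ≤ Real.exp (-δ * r ^ 2) * (Real.exp (1 + r) * n.factorial) :=
        mul_le_mul_of_nonneg_left h1 (Real.exp_pos _).le
    _ = n.factorial * Real.exp (-δ * r ^ 2 + (1 + r)) := by
      rw [Real.exp_add (-δ * r ^ 2) (1 + r)]; ring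
    _ ≤ _ := by
      refine mul_le_mul_of_nonneg_left (Real.exp_le_exp.2 ?_) h2.le
      have h3 : 0 ≤ (2 * δ * r - 1) ^ 2 / (4 * δ) := by positivity
      have h4 : (2 * δ * r - 1) ^ 2 / (4 * δ) = δ * r ^ 2 - r + 1 / (4 * δ) := by
        field_simp
        ring
      linarith

section dual

open Crest.Agent.R272.EBase_641 Crest.Agent.R272.EBase2_641 Crest.Agent.R272.EThDefs_445
  Crest.Agent.R272.EChi3_307 Crest.Agent.R272.EChi5_307

variable {n m : ℕ}

theorem psi_eq (v : V1 n × W m) (z w : E n) : EThDefs_445.psi v z w = EChi3_307.psi v z w := by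
  unfold EThDefs_445.psi EChi3_307.psi ss wt Rp ss
  rw [mul_assoc, Complex.ofReal_exp, ← Complex.exp_add]
  congr 2
  push_cast
  ring

/-- `ee` is nondegenerate -/
theorem ee_nondeg (v : V1 n × W m) (h : ∀ w, ee v w = 0) : v = 0 := by
  have h1 : ee v (I • ((v.1.1, -v.1.2), v.2)) = -(‖v.1.1‖ ^ 2 + ‖v.1.2‖ ^ 2 + ‖v.2‖ ^ 2) := by
    rw [ee_eq, ← hV_conj, hV_smul_left, map_mul, hV_conj]
    have h2 : hV v ((v.1.1, -v.1.2), v.2) = ((‖v.1.1‖ ^ 2 + ‖v.1.2‖ ^ 2 + ‖v.2‖ ^ 2 : ℝ) : ℂ) := by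
      simp only [hV, hh, inner_self_eq_norm_sq_to_K, map_neg, mul_neg, sub_neg_eq_add]
      rw [Complex.mul_conj, Complex.normSq_eq_norm_sq]
      push_cast
      simp
    rw [h2, Complex.conj_I, neg_mul, Complex.neg_im, Complex.I_mul_im, Complex.ofReal_re]
  rw [h] at h1
  have a1 := sq_nonneg ‖v.1.1‖
  have a2 := sq_nonneg ‖v.1.2‖
  have a3 := sq_nonneg ‖v.2‖
  have b1 : ‖v.1.1‖ ^ 2 = 0 := by linarith
  have b2 : ‖v.1.2‖ ^ 2 = 0 := by linarith
  have b3 : ‖v.2‖ ^ 2 = 0 := by linarith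
  ext1
  · ext1
    · exact norm_eq_zero.1 (pow_eq_zero_iff (two_ne_zero)|>.1 b1)
    · exact norm_eq_zero.1 (pow_eq_zero_iff (two_ne_zero)|>.1 b2)
  · exact norm_eq_zero.1 (pow_eq_zero_iff (two_ne_zero)|>.1 b3)

variable {κ : Type} [Fintype κ] (Λ : (κ → ℝ) ≃ₗ[ℝ] (V1 n × W m))

/-- `ee v (Λ y) = ∑ y_i ee v (Λ e_i)` -/
theorem ee_Λ [DecidableEq κ] (v : V1 n × W m) (y : κ → ℝ) :
    ee v (Λ y) = ∑ i, ee v (Λ (Pi.single i 1)) * y i := by
  let f : (κ → ℝ) →ₗ[ℝ] ℝ :=
    { toFun := fun y => ee v (Λ y)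
      map_add' := fun a b => by rw [map_add, ee_add_right]
      map_smul' := fun r a => by rw [map_smul, ee_smul_right]; rfl }
  have h := LinearMap.pi_apply_eq_sum_univ f y
  show f y = _
  rw [h]
  refine Finset.sum_congr rfl fun i _ => ?_
  have h2 : (fun j => if i = j then (1:ℝ) else 0) = Pi.single i 1 := by
    funext j
    simp [Pi.single_apply, eq_comm]
  rw [smul_eq_mul, mul_comm, h2]
  rfl

/-- the dual coordinates -/
def dmap [DecidableEq κ] : (V1 n × W m) →ₗ[ℝ] (κ → ℝ) where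
  toFun v i := ee v (Λ (Pi.single i 1))
  map_add' a b := by funext i; exact ee_add_left _ _ _
  map_smul' r a := by funext i; exact ee_smul_left _ _ _

theorem dmap_inj [DecidableEq κ] : Function.Injective (dmap Λ) := by
  rw [injective_iff_map_eq_zero]
  intro v hv
  refine ee_nondeg v fun w => ?_
  obtain ⟨y, rfl⟩ := Λ.surjective w
  rw [ee_Λ]
  refine Finset.sum_eq_zero fun i _ => ?_
  have : dmap Λ v i = 0 := by rw [hv]; rfl
  have h2 : ee v (Λ (Pi.single i 1)) = 0 := this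
  rw [h2, zero_mul]

theorem dmap_surj [DecidableEq κ] : Function.Surjective (dmap Λ) := by
  have h1 : Function.Injective (dmap Λ ∘ₗ Λ.toLinearMap) := (dmap_inj Λ).comp Λ.injective
  have h2 := LinearMap.injective_iff_surjective.1 h1
  intro y
  obtain ⟨x, hx⟩ := h2 y
  exact ⟨Λ x, hx⟩

variable {Λ} {L : AddSubgroup (V1 n × W m)}

theorem exists_dual [DecidableEq κ] (h1 : ∀ m, Λ (ic m) ∈ L) (h2 : ∀ v ∈ L, ∃ m, Λ (ic m) = v)
    (int : ∀ v ∈ L, ∀ w ∈ L, ∃ k : ℤ, ee v w = k)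
    (dual : ∀ v, (∀ w ∈ L, ∃ k : ℤ, ee v w = k) → v ∈ L) :
    ∃ e : L ≃ (κ → ℤ), ∀ (l : L) (y : κ → ℝ), ee (l : V1 n × W m) (Λ y) = dot (e l) y := by
  have hs : ∀ i : κ, Λ (Pi.single i 1) ∈ L := by
    intro i
    have h := h1 (Pi.single i 1)
    have h3 : ic (Pi.single i 1 : κ → ℤ) = (Pi.single i 1 : κ → ℝ) := by
      funext j
      by_cases hj : j = i
      · subst hj; simp
      · simp [hj]
    rwa [h3] at h
  choose f hf using fun (l : L) (i : κ) => int l.1 l.2 _ (hs i)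
  have hd : ∀ l : L, dmap Λ l.1 = ic (f l) := fun l => by funext i; exact hf l i
  have hinj : Function.Injective f := by
    intro l l' h
    have h3 : dmap Λ l.1 = dmap Λ l'.1 := by rw [hd, hd, h]
    exact Subtype.ext (dmap_inj Λ h3)
  have hsurj : Function.Surjective f := by
    intro k
    obtain ⟨v, hv⟩ := dmap_surj Λ (ic k)
    have hvL : v ∈ L := by
      refine dual v fun w hw => ?_
      obtain ⟨x, rfl⟩ := h2 w hw
      refine ⟨∑ i, k i * x i, ?_⟩
      rw [ee_Λ]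
      push_cast
      refine Finset.sum_congr rfl fun i _ => ?_
      have h4 : dmap Λ v i = k i := by rw [hv]; rfl
      have h5 : ee v (Λ (Pi.single i 1)) = k i := h4
      rw [h5, ic_apply]
    refine ⟨⟨v, hvL⟩, ?_⟩
    funext i
    have h6 := congrFun (hd ⟨v, hvL⟩) i
    have h7 : dmap Λ v i = k i := by rw [hv]; rfl
    have h8 : ((f ⟨v, hvL⟩ i : ℤ) : ℝ) = ((k i : ℤ) : ℝ) := h6.symm.trans h7
    exact_mod_cast h8
  refine ⟨Equiv.ofBijective f ⟨hinj, hsurj⟩, fun l y => ?_⟩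
  rw [ee_Λ]
  refine Finset.sum_congr rfl fun i _ => ?_
  rw [hf]
  rfl

end dual

end Crest.Agent.R272.EChi6_307
end
end

-- ▼ part R272/EChi7_307
section

/-!
# Row 272, division E, T3: the main lemma
-/

set_option autoImplicit false

noncomputable section

open Complex MeasureTheory
open scoped ComplexConjugate

namespace Crest.Agent.R272.EChi7_307

open Crest.Agent.R272.Poi307
open Crest.Agent.R272.EBase_641 Crest.Agent.R272.EBase2_641 Crest.Agent.R272.EThDefs_445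
  Crest.Agent.R272.EChi3_307 Crest.Agent.R272.EChi5_307 Crest.Agent.R272.EChi6_307
  Crest.Agent.R272.EChi4_307 Crest.Agent.R272.EChi2_307

/-- change of variables up to a positive constant -/
theorem haar_cmp {κ ι : Type} [Fintype κ] [Fintype ι] (Λ : (κ → ℝ) ≃ₗ[ℝ] (ι → ℂ)) :
    ∃ c : ℝ, 0 < c ∧ ∀ F : (ι → ℂ) → ℂ, ∫ y, F (Λ y) = c * ∫ x, F x := by
  let Λ' : (κ → ℝ) ≃L[ℝ] (ι → ℂ) := Λ.toContinuousLinearEquiv
  let μ : Measure (ι → ℂ) := Measure.map Λ' volume
  have hμ : μ.IsAddHaarMeasure := Λ'.isAddHaarMeasure_map volume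
  obtain ⟨c, h2, h1⟩ : ∃ c : NNReal, 0 < c ∧ μ = c • (volume : Measure (ι → ℂ)) :=
    ⟨_, Measure.addHaarScalarFactor_pos_of_isAddHaarMeasure μ (volume : Measure (ι → ℂ)),
      Measure.isAddLeftInvariant_eq_smul μ (volume : Measure (ι → ℂ))⟩
  refine ⟨c, by exact_mod_cast h2, ?_⟩
  intro F
  have h3 : ∫ x, F x ∂μ = ∫ y, F (Λ y) := by
    have h4 : MeasurableEmbedding (Λ' : (κ → ℝ) → (ι → ℂ)) := Λ'.toHomeomorph.measurableEmbedding
    exact h4.integral_map F
  rw [← h3, h1, integral_smul_nnreal_measure]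
  rfl

variable {n m : ℕ}

section bound

theorem norm_psi_le (v : V1 n × W m) {z : E n} (hz : ‖z‖ < 1) :
    ‖EChi3_307.psi v z 0‖ ≤ Real.exp (-(Real.pi / 2 * (1 - ‖z‖)) * ‖v‖ ^ 2) := by
  rw [psi_zero, Complex.norm_exp]
  refine Real.exp_le_exp.2 ?_
  rw [hV_self]
  have h1 : (-((Real.pi : ℂ) / 2) * ((‖v.1.1‖ ^ 2 - ‖v.1.2‖ ^ 2 + ‖v.2‖ ^ 2 : ℝ) : ℂ) +
      Real.pi * v.1.2 * (inner ℂ v.1.1 z - conj v.1.2)).re =
      -(Real.pi / 2) * (‖v.1.1‖ ^ 2 - ‖v.1.2‖ ^ 2 + ‖v.2‖ ^ 2) +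
      Real.pi * ((v.1.2 * inner ℂ v.1.1 z).re - ‖v.1.2‖ ^ 2) := by
    have e1 : -((Real.pi : ℂ) / 2) * ((‖v.1.1‖ ^ 2 - ‖v.1.2‖ ^ 2 + ‖v.2‖ ^ 2 : ℝ) : ℂ) =
        ((-(Real.pi / 2) * (‖v.1.1‖ ^ 2 - ‖v.1.2‖ ^ 2 + ‖v.2‖ ^ 2) : ℝ) : ℂ) := by push_cast; ring
    have e2 : (Real.pi : ℂ) * v.1.2 * (inner ℂ v.1.1 z - conj v.1.2) =
        (Real.pi : ℝ) * (v.1.2 * inner ℂ v.1.1 z - ((‖v.1.2‖ ^ 2 : ℝ) : ℂ)) := by
      rw [← Complex.normSq_eq_norm_sq, ← Complex.mul_conj]; ring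
    rw [Complex.add_re, e1, e2, Complex.ofReal_re, Complex.re_ofReal_mul, Complex.sub_re,
      Complex.ofReal_re]
  rw [h1]
  have h2 : (v.1.2 * inner ℂ v.1.1 z).re ≤ ‖v.1.2‖ * (‖v.1.1‖ * ‖z‖) := by
    refine (Complex.re_le_norm _).trans ?_
    rw [norm_mul]
    exact mul_le_mul_of_nonneg_left (norm_inner_le_norm _ _) (norm_nonneg _)
  have h3 : ‖v‖ ^ 2 ≤ ‖v.1.1‖ ^ 2 + ‖v.1.2‖ ^ 2 + ‖v.2‖ ^ 2 := by
    have a1 := sq_nonneg ‖v.1.1‖
    have a2 := sq_nonneg ‖v.1.2‖
    have a3 := sq_nonneg ‖v.2‖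
    rw [Prod.norm_def, Prod.norm_def]
    rcases max_choice (max ‖v.1.1‖ ‖v.1.2‖) ‖v.2‖ with h | h
    · rw [h]
      rcases max_choice ‖v.1.1‖ ‖v.1.2‖ with h | h <;> rw [h] <;> linarith
    · rw [h]; linarith
  have hp := Real.pi_pos
  have n1 := norm_nonneg v.1.1
  have n2 := norm_nonneg v.1.2
  have n3 := norm_nonneg v.2
  have nz := norm_nonneg z
  have h4 : ‖v.1.2‖ * (‖v.1.1‖ * ‖z‖) ≤ ‖z‖ * ((‖v.1.1‖ ^ 2 + ‖v.1.2‖ ^ 2) / 2) := by
    nlinarith [mul_nonneg nz (sq_nonneg (‖v.1.1‖ - ‖v.1.2‖))]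
  have h5 : (1 - ‖z‖) * ‖v‖ ^ 2 ≤ (1 - ‖z‖) * (‖v.1.1‖ ^ 2 + ‖v.1.2‖ ^ 2 + ‖v.2‖ ^ 2) :=
    mul_le_mul_of_nonneg_left h3 (by linarith)
  have h6 : 0 ≤ ‖z‖ * ‖v.2‖ ^ 2 := by positivity
  have h7 : -(‖v.1.1‖ ^ 2 - ‖v.1.2‖ ^ 2 + ‖v.2‖ ^ 2) / 2 + ((v.1.2 * inner ℂ v.1.1 z).re - ‖v.1.2‖ ^ 2)
      ≤ -((1 - ‖z‖) * ‖v‖ ^ 2) / 2 := by
    nlinarith
  calc _ = Real.pi * (-(‖v.1.1‖ ^ 2 - ‖v.1.2‖ ^ 2 + ‖v.2‖ ^ 2) / 2 +
        ((v.1.2 * inner ℂ v.1.1 z).re - ‖v.1.2‖ ^ 2)) := by ring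
    _ ≤ Real.pi * (-((1 - ‖z‖) * ‖v‖ ^ 2) / 2) := mul_le_mul_of_nonneg_left h7 hp.le
    _ = _ := by ring

theorem continuous_psi (z : E n) : Continuous fun v : V1 n × W m => EChi3_307.psi v z 0 := by
  simp_rw [psi_zero, hV_self]
  have h1 : Continuous fun v : V1 n × W m => inner ℂ v.1.1 z :=
    (continuous_fst.comp continuous_fst).inner continuous_const
  have h2 : Continuous fun v : V1 n × W m => v.1.2 := continuous_snd.comp continuous_fst
  have h3 : Continuous fun v : V1 n × W m => (‖v.1.1‖ ^ 2 - ‖v.1.2‖ ^ 2 + ‖v.2‖ ^ 2 : ℝ) := by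
    fun_prop
  have h4 : Continuous fun v : V1 n × W m => conj v.1.2 := Complex.continuous_conj.comp h2
  exact Complex.continuous_exp.comp
    ((continuous_const.mul (Complex.continuous_ofReal.comp h3)).add
      ((continuous_const.mul h2).mul (h1.sub h4)))

end bound

section endo

/-- the endomorphism `g - 1` -/
def Bg (g : GG n m) : (V1 n × W m) →ₗ[ℝ] (V1 n × W m) where
  toFun v := gA g v - v
  map_add' a b := by rw [map_add]; abel
  map_smul' r a := by
    have h : gA g (r • a) = r • gA g a := by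
      have h2 : r • a = (r : ℂ) • a := rfl
      rw [h2, map_smul]; rfl
    rw [h, RingHom.id_apply, smul_sub]

/-- `g - 1` as an equivalence -/
def BE (g : GG n m) (hinj : ∀ v, gA g v = v → v = 0) : (V1 n × W m) ≃ₗ[ℝ] (V1 n × W m) :=
  LinearEquiv.ofInjectiveEndo (Bg g) (by
    rw [injective_iff_map_eq_zero]
    intro v hv
    exact hinj v (sub_eq_zero.1 hv))

variable {g : GG n m} (hinj : ∀ v, gA g v = v → v = 0)

theorem BE_apply (v : V1 n × W m) : BE g hinj v = gA g v - v := rfl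

/-- `q(l) = ph (ee (B⁻¹ l) l)` -/
def q0 (l : V1 n × W m) : ℂ := ph (ee ((BE g hinj).symm l) l)

theorem phase_id (l v : V1 n × W m) :
    ph (-ee v (gA g v)) * ph (ee l (gA g v + v)) =
      q0 hinj l * ph (-ee ((BE g hinj).symm (l + BE g hinj v)) (l + BE g hinj v)) := by
  obtain ⟨u, rfl⟩ := (BE g hinj).surjective l
  rw [q0, ← map_add, LinearEquiv.symm_apply_apply, LinearEquiv.symm_apply_apply, ← ph_add, ← ph_add]
  congr 1
  simp only [BE_apply, ee_add_left, ee_add_right, ee_sub_left, ee_sub_right, ee_gA, ee_self, map_add]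
  have h1 := ee_swap v u
  have h2 := ee_swap (gA g v) u
  have h3 := ee_swap (gA g u) v
  have h4 := ee_swap (gA g v) v
  have h5 := ee_swap (gA g u) u
  linarith

theorem q0_add (l l' : V1 n × W m) :
    ph (ee l l') * q0 hinj (l + l') = q0 hinj l * q0 hinj l' *
      (ph (ee l l') * ph (ee ((BE g hinj).symm l) l') * ph (ee ((BE g hinj).symm l') l)) := by
  unfold q0
  rw [map_add, ee_add_left, ee_add_right, ee_add_right, ph_add, ph_add, ph_add]
  ring

theorem bb_eq (l l' : V1 n × W m) :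
    ph (ee l l') * ph (ee ((BE g hinj).symm l) l') * ph (ee ((BE g hinj).symm l') l) =
      ph (2 * ee ((BE g hinj).symm l') l) := by
  obtain ⟨u, rfl⟩ := (BE g hinj).surjective l
  obtain ⟨u', rfl⟩ := (BE g hinj).surjective l'
  rw [LinearEquiv.symm_apply_apply, LinearEquiv.symm_apply_apply, ← ph_add, ← ph_add]
  congr 1
  simp only [BE_apply, ee_sub_left, ee_sub_right, ee_gA]
  have h1 := ee_swap u' u
  have h2 := ee_swap u' (gA g u)
  linarith

end endo

section main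

variable {L : AddSubgroup (V1 n × W m)} (T : TData L) (g : Sg T)
  (hinj : ∀ v, gA g.1 v = v → v = 0)

/-- the quadratic character -/
def qq (l : V1 n × W m) : ℂ := T.ε l * q0 hinj l

theorem norm_qq (l : V1 n × W m) (hl : l ∈ L) : ‖qq T g hinj l‖ = 1 := by
  unfold qq q0
  rw [norm_mul, norm_ph, mul_one]
  rcases T.ε_pm l hl with h | h <;> rw [h] <;> simp

/-- bilinear form -/
def bq (l l' : V1 n × W m) : ℂ := ph (2 * ee ((BE g.1 hinj).symm l') l)

theorem bq_add (a b c : V1 n × W m) : bq T g hinj (a + b) c = bq T g hinj a c * bq T g hinj b c := by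
  unfold bq
  rw [ee_add_right, mul_add, ph_add]

theorem qq_add (l : V1 n × W m) (hl : l ∈ L) (l' : V1 n × W m) (hl' : l' ∈ L) :
    qq T g hinj (l + l') = qq T g hinj l * qq T g hinj l' * bq T g hinj l l' := by
  unfold qq bq
  rw [T.ε_add l hl l' hl', mul_assoc, q0_add, bb_eq]
  ring

theorem qq_sq (l : V1 n × W m) (hl : l ∈ L) : qq T g hinj l ^ 2 = bq T g hinj l l := by
  unfold qq bq q0
  rw [two_mul, ph_add]
  linear_combination (ph (ee ((BE g.1 hinj).symm l) l)) ^ 2 * eps_sq T l hl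

theorem qq_per (int : ∀ v ∈ L, ∀ w ∈ L, ∃ k : ℤ, ee v w = k) (l : V1 n × W m) (hl : l ∈ L)
    (k : V1 n × W m) (hk : k ∈ L) : qq T g hinj (l + BE g.1 hinj k) = qq T g hinj l := by
  have hgk : gA g.1 k ∈ L := (g.2.1 k).2 hk
  have hB : BE g.1 hinj k ∈ L := L.sub_mem hgk hk
  rw [qq_add T g hinj l hl _ hB]
  have h1 : bq T g hinj l (BE g.1 hinj k) = 1 := by
    unfold bq
    rw [LinearEquiv.symm_apply_apply]
    obtain ⟨j, hj⟩ := int k hk l hl
    rw [hj, ph_two_int]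
  have h2 : qq T g hinj (BE g.1 hinj k) = 1 := by
    unfold qq q0
    rw [LinearEquiv.symm_apply_apply, BE_apply, sub_eq_add_neg, T.ε_add _ hgk _ (L.neg_mem hk),
      eps_neg T k hk, g.2.2 k hk, eps_sq T k hk, one_mul, ← ph_add, ee_add_right, ee_neg_right,
      ee_neg_right, ee_self]
    obtain ⟨j, hj⟩ := int k hk _ hgk
    have h3 := ee_swap (gA g.1 k) k
    have h4 : -ee (gA g.1 k) k + (ee k (gA g.1 k) + -0) = 2 * j := by rw [h3, hj]; ring
    rw [h4, ph_two_int]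
  rw [h1, h2, mul_one, mul_one]

theorem main_series (v : V1 n × W m) :
    HasSum (fun l : L => qq T g hinj l *
      (ph (-ee ((BE g.1 hinj).symm (l + BE g.1 hinj v)) (l + BE g.1 hinj v)) *
        EChi3_307.psi ((l : V1 n × W m) + BE g.1 hinj v) (act g.1.1 0) 0))
      (χ T g * jj g.1.1 0 * ∑' l : L, T.ε l * EChi3_307.psi (l : V1 n × W m) 0 0 * ph (2 * ee (l : V1 n × W m) v)) := by
  have h1 := T.vv (gA g.1 v) v _ (act_mem g.1.1 zero_mem_Ball) _ zero_mem_Ball
  have h2 := T.vv v v 0 zero_mem_Ball 0 zero_mem_Ball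
  rw [law_χ T g v 0 zero_mem_Ball] at h1
  rw [ee_self, ph_zero, one_mul] at h2
  have h3 : ∑' l : L, T.ε l * EChi3_307.psi (l : V1 n × W m) 0 0 * ph (2 * ee (l : V1 n × W m) v) =
      T.t v 0 * conj (T.t v 0) := by
    rw [← h2.tsum_eq]
    refine tsum_congr fun l => ?_
    rw [psi_eq, add_sub_cancel_right, ee_add_right, two_mul]
    ring
  rw [h3]
  have h4 := h1.mul_left (ph (-ee v (gA g.1 v)))
  have h5 : ph (-ee v (gA g.1 v)) * ph (ee v (gA g.1 v)) = 1 := by
    rw [← ph_add, neg_add_cancel, ph_zero]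
  have h6 : ph (-ee v (gA g.1 v)) * (ph (ee v (gA g.1 v)) *
      (χ T g * jj g.1.1 0 * T.t v 0 * conj (T.t v 0))) =
      χ T g * jj g.1.1 0 * (T.t v 0 * conj (T.t v 0)) := by
    linear_combination (χ T g * jj g.1.1 0 * T.t v 0 * conj (T.t v 0)) * h5
  rw [h6] at h4
  have h9 : ∀ l : L, qq T g hinj l *
      (ph (-ee ((BE g.1 hinj).symm (l + BE g.1 hinj v)) (l + BE g.1 hinj v)) *
        EChi3_307.psi ((l : V1 n × W m) + BE g.1 hinj v) (act g.1.1 0) 0) =
      ph (-ee v (gA g.1 v)) * (T.ε l * ph (ee (l : V1 n × W m) (gA g.1 v + v)) *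
        EThDefs_445.psi ((l : V1 n × W m) + gA g.1 v - v) (act g.1.1 0) 0) := ?_
  · simp_rw [h9]
    exact h4
  intro l
  have h7 := phase_id (g := g.1) hinj l v
  have h8 : (l : V1 n × W m) + gA g.1 v - v = l + BE g.1 hinj v := by rw [BE_apply]; abel
  rw [psi_eq, h8]
  unfold qq
  linear_combination (-(T.ε l * EChi3_307.psi ((l : V1 n × W m) + BE g.1 hinj v) (act g.1.1 0) 0)) * h7

theorem hT_time : (gA g.1).toLinearMap ((0, 1), 0) = jj g.1.1 (0 : E n) • (((act g.1.1 0, 1), 0) : V1 n × W m) := by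
  have h := apply_eq g.1.1 (zero_mem_Ball (n := n))
  show ((g.1.1.1 (0, 1), g.1.2 0) : V1 n × W m) = _
  rw [h, map_zero]
  ext1
  · rfl
  · simp

/-- **Main lemma** -/
theorem phase_main (disc : ∀ r : ℝ, {v : V1 n × W m | v ∈ L ∧ ‖v‖ ≤ r}.Finite)
    (span : Submodule.span ℝ (L : Set (V1 n × W m)) = ⊤)
    (int : ∀ v ∈ L, ∀ w ∈ L, ∃ k : ℤ, ee v w = k)
    (dual : ∀ v, (∀ w ∈ L, ∃ k : ℤ, ee v w = k) → v ∈ L) (hinj : ∀ v, gA g.1 v = v → v = 0) :
    ∃ (c : ℝ) (S : ℂ), 0 < c ∧ conj (S ^ 4) = S ^ 4 ∧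
      χ T g * ((-Hm (oo n m)).det * LinearMap.det ((gA g.1).toLinearMap - 1)) = c * S := by
  classical
  obtain ⟨κ, _, Λ, hΛ1, hΛ2⟩ := exists_crd L disc span
  obtain ⟨e, he⟩ := exists_dual hΛ1 hΛ2 int dual
  -- coordinates of the lattice
  have hicinj : Function.Injective (fun k : κ → ℤ => Λ (ic k)) := by
    intro a b h
    have h1 : ic a = ic b := Λ.injective h
    funext i
    have h2 : (a i : ℝ) = b i := congrFun h1 i
    exact_mod_cast h2
  let eK : (κ → ℤ) ≃ L := Equiv.ofBijective (fun k => ⟨Λ (ic k), hΛ1 k⟩)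
    ⟨fun a b h => hicinj (congrArg Subtype.val h), fun l => by
      obtain ⟨k, hk⟩ := hΛ2 l.1 l.2
      exact ⟨k, Subtype.ext hk⟩⟩
  have hBL : ∀ k : κ → ℤ, BE g.1 hinj (Λ (ic k)) ∈ L := fun k =>
    L.sub_mem ((g.2.1 _).2 (hΛ1 k)) (hΛ1 k)
  choose β0 hβ0 using fun k : κ → ℤ => hΛ2 _ (hBL k)
  let β : (κ → ℤ) →ₗ[ℤ] (κ → ℤ) := (AddMonoidHom.mk' β0 (fun a b => by
    apply hicinj
    show Λ (ic (β0 (a + b))) = Λ (ic (β0 a + β0 b))
    rw [ic_add, map_add, hβ0, hβ0, hβ0, ic_add, map_add, map_add])).toIntLinearMap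
  have hβ : ∀ k, Λ (ic (β k)) = BE g.1 hinj (Λ (ic k)) := hβ0
  let B : (κ → ℝ) ≃ₗ[ℝ] (κ → ℝ) := (Λ.trans (BE g.1 hinj)).trans Λ.symm
  have hΛB : ∀ y, Λ (B y) = BE g.1 hinj (Λ y) := fun y => Λ.apply_symm_apply _
  have hB : ∀ k, B (ic k) = ic (β k) := by
    intro k
    apply Λ.injective
    rw [hΛB, hβ]
  have hβinj : Function.Injective β := by
    intro a b h
    apply hicinj
    apply (BE g.1 hinj).injective
    show BE g.1 hinj (Λ (ic a)) = BE g.1 hinj (Λ (ic b))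
    rw [← hβ, ← hβ, h]
  have : Finite ((κ → ℤ) ⧸ LinearMap.range β) := finite_quot β hβinj
  let _ : Fintype ((κ → ℤ) ⧸ LinearMap.range β) := Fintype.ofFinite _
  -- the data
  let z0 : E n := act g.1.1 0
  have hz0 : ‖z0‖ < 1 := mem_Ball.1 (act_mem g.1.1 zero_mem_Ball)
  let q : (κ → ℤ) → ℂ := fun k => qq T g hinj (Λ (ic k))
  let Ψ : (κ → ℝ) → ℂ := fun x => ph (-ee ((BE g.1 hinj).symm (Λ x)) (Λ x)) * EChi3_307.psi (Λ x) z0 0
  let c : (κ → ℤ) → ℂ := fun k => χ T g * jj g.1.1 0 *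
    (T.ε (e.symm k) * EChi3_307.psi (e.symm k : V1 n × W m) 0 0)
  have hΛc : Continuous Λ := Λ.toLinearMap.continuous_of_finiteDimensional
  have hΨc : Continuous Ψ := by
    have h1 : Continuous fun x : κ → ℝ => ee ((BE g.1 hinj).symm (Λ x)) (Λ x) := by
      have h2 : ∀ x, ee ((BE g.1 hinj).symm (Λ x)) (Λ x) =
          (hV ((BE g.1 hinj).symm (Λ x)) (Λ x)).im := fun x => ee_eq _ _
      simp_rw [h2]
      have h3 : Continuous fun x => (BE g.1 hinj).symm (Λ x) :=
        ((BE g.1 hinj).symm.toLinearMap.continuous_of_finiteDimensional).comp hΛc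
      refine Complex.continuous_im.comp ?_
      unfold hV hh
      have a1 : Continuous fun x => (Λ x).1.1 := (continuous_fst.comp continuous_fst).comp hΛc
      have a2 : Continuous fun x => (Λ x).1.2 := (continuous_snd.comp continuous_fst).comp hΛc
      have a3 : Continuous fun x => (Λ x).2 := continuous_snd.comp hΛc
      have b1 : Continuous fun x => ((BE g.1 hinj).symm (Λ x)).1.1 :=
        (continuous_fst.comp continuous_fst).comp h3
      have b2 : Continuous fun x => ((BE g.1 hinj).symm (Λ x)).1.2 :=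
        (continuous_snd.comp continuous_fst).comp h3
      have b3 : Continuous fun x => ((BE g.1 hinj).symm (Λ x)).2 := continuous_snd.comp h3
      exact ((a1.inner b1).sub (b2.mul (Complex.continuous_conj.comp a2))).add (a3.inner b3)
    refine Continuous.mul ?_ ((continuous_psi z0).comp hΛc)
    unfold ph
    exact Complex.continuous_exp.comp (continuous_const.mul (Complex.continuous_ofReal.comp h1.neg))
  obtain ⟨K, hK0, hK⟩ : ∃ K : ℝ, 0 < K ∧ ∀ x : κ → ℝ, ‖x‖ ≤ K * ‖Λ x‖ := by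
    let Λ' : (κ → ℝ) ≃L[ℝ] (V1 n × W m) := Λ.toContinuousLinearEquiv
    refine ⟨‖(Λ'.symm : (V1 n × W m) →L[ℝ] (κ → ℝ))‖ + 1, by positivity, fun x => ?_⟩
    have h1 : ‖x‖ ≤ ‖(Λ'.symm : (V1 n × W m) →L[ℝ] (κ → ℝ))‖ * ‖Λ x‖ := by
      have h2 := (Λ'.symm : (V1 n × W m) →L[ℝ] (κ → ℝ)).le_opNorm (Λ x)
      have h3 : (Λ'.symm : (V1 n × W m) →L[ℝ] (κ → ℝ)) (Λ x) = x := Λ'.symm_apply_apply x
      rwa [h3] at h2
    nlinarith [norm_nonneg (Λ x)]
  let δ : ℝ := Real.pi / 2 * (1 - ‖z0‖) / K ^ 2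
  have hδ : 0 < δ := by
    have : 0 < 1 - ‖z0‖ := by linarith
    have := Real.pi_pos
    positivity
  let N : ℕ := Fintype.card κ + 1
  have hΨ : Dec (N.factorial * Real.exp (1 + 1 / (4 * δ))) N Ψ := by
    intro x
    refine le_trans ?_ (exp_dec δ hδ N (norm_nonneg x))
    simp only [Ψ]
    rw [norm_mul, norm_ph, one_mul]
    refine (norm_psi_le (Λ x) hz0).trans (Real.exp_le_exp.2 ?_)
    have h1 := hK x
    have h2 : ‖x‖ ^ 2 ≤ K ^ 2 * ‖Λ x‖ ^ 2 := by
      rw [← mul_pow]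
      exact pow_le_pow_left₀ (norm_nonneg x) h1 2
    have h3 : δ * ‖x‖ ^ 2 ≤ Real.pi / 2 * (1 - ‖z0‖) * ‖Λ x‖ ^ 2 := by
      calc δ * ‖x‖ ^ 2 ≤ δ * (K ^ 2 * ‖Λ x‖ ^ 2) := mul_le_mul_of_nonneg_left h2 hδ.le
        _ = _ := by simp only [δ]; field_simp
    linarith
  have hcs : Summable fun k => ‖c k‖ := by
    have h1 := (T.vv 0 0 0 zero_mem_Ball 0 zero_mem_Ball).summable
    have h2 := h1.norm
    have h3 := (h2.mul_left ‖χ T g * jj g.1.1 0‖)
    rw [← e.symm.summable_iff] at h3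
    refine h3.congr fun k => ?_
    simp only [Function.comp, c, norm_mul, norm_ph, mul_one, add_zero, sub_zero, psi_eq]
  have H : ∀ y, HasSum (fun k => q k * Ψ (ic k + B y)) (∑' k, c k * ch k y) := by
    intro y
    have h1 := main_series T g hinj (Λ y)
    rw [← eK.hasSum_iff] at h1
    have h2 : (∑' k, c k * ch k y) = χ T g * jj g.1.1 0 * ∑' l : L, T.ε l *
        EChi3_307.psi (l : V1 n × W m) 0 0 * ph (2 * ee (l : V1 n × W m) (Λ y)) := by
      rw [← e.tsum_eq, ← tsum_mul_left]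
      refine tsum_congr fun l => ?_
      simp only [c, Equiv.symm_apply_apply]
      have h3 : ch (e l) y = ph (2 * ee (l : V1 n × W m) (Λ y)) := by
        unfold ch ph
        rw [he]
        congr 1
        push_cast
        ring
      rw [h3]
      ring
    rw [h2]
    convert h1 using 1
    funext k
    have h4 : ((eK k : L) : V1 n × W m) = Λ (ic k) := rfl
    simp only [Function.comp, q, Ψ, h4, map_add, hΛB]
    rfl
  have hmain := unfold β B hβinj hB
    (q := q) (by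
      intro a b
      simp only [q]
      rw [ic_add, map_add, hβ]
      exact qq_per T g hinj int _ (hΛ1 a) _ (hΛ1 b))
    hΨc (by positivity) (Nat.lt_succ_self _) hΨ hcs H
  -- the Gauss sum
  have hS : conj ((∑ a : (κ → ℤ) ⧸ LinearMap.range β, q a.out) ^ 4) =
      (∑ a : (κ → ℤ) ⧸ LinearMap.range β, q a.out) ^ 4 := by
    refine gauss_four (LinearMap.range β) (q := q)
      (bb := fun a b => bq T g hinj (Λ (ic a)) (Λ (ic b))) ?_ ?_ ?_ ?_ ?_
    · exact fun k => norm_qq T g hinj _ (hΛ1 k)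
    · intro a b k
      rw [ic_add, map_add, bq_add]
    · intro a b
      simp only [q]
      rw [ic_add, map_add]
      exact qq_add T g hinj _ (hΛ1 a) _ (hΛ1 b)
    · exact fun k => qq_sq T g hinj _ (hΛ1 k)
    · rintro a _ ⟨b, rfl⟩
      simp only [q]
      rw [ic_add, map_add, hβ]
      exact qq_per T g hinj int _ (hΛ1 a) _ (hΛ1 b)
  set S := ∑ a : (κ → ℤ) ⧸ LinearMap.range β, q a.out with hSdef
  -- the constant term
  have hc0 : c 0 = χ T g * jj g.1.1 0 := by
    have he0 : ((e.symm 0 : L) : V1 n × W m) = 0 := by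
      refine ee_nondeg _ fun w => ?_
      obtain ⟨y, rfl⟩ := Λ.surjective w
      rw [he, Equiv.apply_symm_apply]
      simp [dot]
    simp only [c]
    rw [he0, eps_zero, psi_zero]
    have h1 : hV (0 : V1 n × W m) 0 = 0 := by rw [hV_self]; simp
    rw [h1]
    simp
  -- the integral
  let Λ' : (κ → ℝ) ≃ₗ[ℝ] (Ix n m → ℂ) := Λ.trans ((Φ (n := n) (m := m)).symm.restrictScalars ℝ)
  obtain ⟨c1, hc1, hint⟩ := haar_cmp Λ'
  have hI : ∫ y, Ψ (B y) = c1 * ∫ x : Ix n m → ℂ,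
      cexp (-(Real.pi * I * ee (Φ x) ((gA g.1).toLinearMap (Φ x)))) *
        EChi3_307.psi ((gA g.1).toLinearMap (Φ x) - Φ x) z0 0 := by
    rw [← hint]
    refine integral_congr_ae (Filter.Eventually.of_forall fun y => ?_)
    have h1 : Φ (Λ' y) = Λ y := Φ.apply_symm_apply _
    simp only [Ψ]
    rw [h1, hΛB, LinearEquiv.symm_apply_apply]
    have h2 : ee (Λ y) (BE g.1 hinj (Λ y)) = ee (Λ y) ((gA g.1).toLinearMap (Λ y)) := by
      rw [BE_apply, ee_sub_right, ee_self, sub_zero]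
      rfl
    rw [h2]
    unfold ph
    congr 1
    congr 1
    push_cast
    ring
  obtain ⟨c2, hc2, hG⟩ := gauss_phase (gA g.1).toLinearMap (fun x y => hV_gA g.1 x y)
    (fun v hv => hinj v hv) hz0 (jj_ne_zero g.1.1 zero_mem_Ball) (hT_time T g)
  rw [hc0, hI] at hmain
  refine ⟨c1 * c2, S, by positivity, hS, ?_⟩
  have hj := jj_ne_zero g.1.1 (zero_mem_Ball (n := n))
  apply mul_left_cancel₀ hj
  push_cast
  linear_combination ((-Hm (oo n m)).det * LinearMap.det ((gA g.1).toLinearMap - 1)) * hmain +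
    S * c1 * hG

end main

end Crest.Agent.R272.EChi7_307
end
end

-- ▼ part R272/EChi8_307
section

/-!
# Row 272, division E, T3: `χ(g)⁸ = 1`
-/

set_option autoImplicit false

noncomputable section

open Complex Matrix
open scoped ComplexConjugate

namespace Crest.Agent.R272.EChi8_307

open Crest.Agent.R272.EBase_641 Crest.Agent.R272.EBase2_641 Crest.Agent.R272.EThDefs_445
  Crest.Agent.R272.EChi3_307 Crest.Agent.R272.EChi5_307 Crest.Agent.R272.EChi7_307

variable {n m : ℕ}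

theorem gA_mn_mul (g : GG n m) (v : V1 n × W m) : gA (mn n m * g) v = -gA g v := by
  rw [gA_mul, gA_mn]

theorem mat_neg (T : (V1 n × W m) →ₗ[ℂ] (V1 n × W m)) : mat (-T) = -mat T := by
  refine Matrix.ext_of_mulVec_single fun i => ?_
  rw [Matrix.neg_mulVec, mat_mulVec, mat_mulVec]
  simp

theorem det_real (g : GG n m) (hdet : LinearMap.det (gA g).toLinearMap = 1) :
    conj (LinearMap.det ((gA (mn n m * g)).toLinearMap - 1)) =
      LinearMap.det ((gA (mn n m * g)).toLinearMap - 1) := by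
  have h0 : (gA (mn n m * g)).toLinearMap = -(gA g).toLinearMap := by
    refine LinearMap.ext fun v => ?_
    exact gA_mn_mul g v
  set T := (gA (mn n m * g)).toLinearMap with hT
  have hU := mat_unitary T (fun x y => hV_gA (mn n m * g) x y)
  have hdG : (mat T).det = (-1) ^ Fintype.card (Ix n m) := by
    rw [h0, mat_neg, Matrix.det_neg, mat_det, hdet, mul_one]
  rw [← mat_det, ← mat_sub_one]
  set G := mat T
  have h1 : (G - 1)ᴴ * (Hm (oo n m) * G) = -Hm (oo n m) * (G - 1) := by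
    rw [Matrix.conjTranspose_sub, Matrix.conjTranspose_one, Matrix.sub_mul, ← Matrix.mul_assoc, hU,
      Matrix.one_mul, Matrix.mul_sub, Matrix.mul_one, Matrix.neg_mul]
    abel
  have h2 := congrArg Matrix.det h1
  rw [det_mul, det_mul, det_mul, hdG, Matrix.det_conjTranspose, Matrix.det_neg] at h2
  have h3 : (Hm (oo n m)).det ≠ 0 := by
    intro h
    have := (det_Hm_real (oo n m)).2
    rw [Matrix.det_neg, h, mul_zero] at this
    exact this rfl
  have h4 : ((-1 : ℂ) ^ Fintype.card (Ix n m)) ≠ 0 := pow_ne_zero _ (by norm_num)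
  have h5 : ((-1 : ℂ) ^ Fintype.card (Ix n m)) * (Hm (oo n m)).det ≠ 0 := mul_ne_zero h4 h3
  apply mul_left_cancel₀ h5
  have h6 : conj (G - 1).det = star (G - 1).det := rfl
  rw [h6]
  linear_combination h2

theorem χ_eight {L : AddSubgroup (V1 n × W m)} (T : TData L) (g : Sg T)
    (disc : ∀ r : ℝ, {v : V1 n × W m | v ∈ L ∧ ‖v‖ ≤ r}.Finite)
    (span : Submodule.span ℝ (L : Set (V1 n × W m)) = ⊤)
    (int : ∀ v ∈ L, ∀ w ∈ L, ∃ k : ℤ, ee v w = k)
    (dual : ∀ v, (∀ w ∈ L, ∃ k : ℤ, ee v w = k) → v ∈ L)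
    (hdet : LinearMap.det (gA g.1).toLinearMap = 1)
    (hinj : ∀ v, gA g.1 v = -v → v = 0) : χ T g ^ 8 = 1 := by
  set g' : Sg T := ⟨mn n m, mn_mem T⟩ * g with hg'
  have e1 : g'.1 = mn n m * g.1 := rfl
  have hinj' : ∀ v, gA g'.1 v = v → v = 0 := by
    intro v hv
    rw [e1, gA_mn_mul] at hv
    apply hinj v
    rw [← hv, neg_neg, hv]
  obtain ⟨c, S, hc, hS, h⟩ := phase_main T g' disc span int dual hinj'
  set D := (-Hm (oo n m)).det * LinearMap.det ((gA g'.1).toLinearMap - 1) with hD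
  have hDr : conj D = D := by
    rw [hD, map_mul, (det_Hm_real (oo n m)).1, e1, det_real g.1 hdet]
  have hD0 : D ≠ 0 := by
    refine mul_ne_zero (det_Hm_real (oo n m)).2 ?_
    let f : (V1 n × W m) →ₗ[ℂ] (V1 n × W m) := (gA g'.1).toLinearMap - 1
    have h1 : Function.Injective f := by
      rw [injective_iff_map_eq_zero]
      intro v hv
      exact hinj' v (sub_eq_zero.1 hv)
    exact (LinearEquiv.isUnit_det' (LinearEquiv.ofInjectiveEndo f h1)).ne_zero
  have h2 : χ T g' ^ 4 * D ^ 4 = c ^ 4 * S ^ 4 := by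
    rw [← mul_pow, h, mul_pow]
  have h3 : conj (χ T g') ^ 4 * D ^ 4 = c ^ 4 * S ^ 4 := by
    have := congrArg conj h2
    rw [map_mul, map_mul, hS, map_pow, map_pow, map_pow, Complex.conj_ofReal, hDr] at this
    exact this
  have h4 : χ T g' ^ 4 = conj (χ T g') ^ 4 := by
    apply mul_right_cancel₀ (pow_ne_zero 4 hD0)
    rw [h2, h3]
  have h5 : χ T g' * conj (χ T g') = 1 := by
    rw [Complex.mul_conj, Complex.normSq_eq_norm_sq, norm_χ]
    norm_num
  have h6 : χ T g' ^ 8 = 1 := by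
    calc χ T g' ^ 8 = χ T g' ^ 4 * χ T g' ^ 4 := by ring
      _ = χ T g' ^ 4 * conj (χ T g') ^ 4 := by rw [h4]
      _ = (χ T g' * conj (χ T g')) ^ 4 := by ring
      _ = 1 := by rw [h5, one_pow]
  rw [hg', χ_mul, mul_pow] at h6
  have h7 : χ T ⟨mn n m, mn_mem T⟩ ^ 8 = 1 := by
    calc χ T ⟨mn n m, mn_mem T⟩ ^ 8 = (χ T ⟨mn n m, mn_mem T⟩ ^ 2) ^ 4 := by ring
      _ = 1 := by rw [χ_mn_sq, one_pow]
  rw [h7, one_mul] at h6
  exact h6

end Crest.Agent.R272.EChi8_307
end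
end

-- ▼ part R272/EChi9_307
section

/-!
# Row 272, division E, T3: the finite index subgroup on which `χ = 1`
-/

set_option autoImplicit false

noncomputable section

open Complex Matrix
open scoped ComplexConjugate

namespace Crest.Agent.R272.EChi9_307

open Crest.Agent.R272.Poi307
open Crest.Agent.R272.EBase_641 Crest.Agent.R272.EBase2_641 Crest.Agent.R272.EThDefs_445
  Crest.Agent.R272.EChi3_307 Crest.Agent.R272.EChi5_307 Crest.Agent.R272.EChi6_307
  Crest.Agent.R272.EChi7_307 Crest.Agent.R272.EChi8_307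

/-- the action of the group of `EDat` -/
def hom (D : EDat) : D.G →* GG D.n D.m := D.ρ.prod D.σ

theorem gA_hom (D : EDat) (g : D.G) (v : V1 D.n × W D.m) :
    gA (hom D g) v = ((D.ρ g).1 v.1, D.σ g v.2) := rfl

theorem gA_hom_mem (D : EDat) (g : D.G) (v : V1 D.n × W D.m) :
    gA (hom D g) v ∈ D.L ↔ v ∈ D.L := by
  constructor
  · intro h
    have h1 := D.stab g⁻¹ _ h
    rw [← gA_hom, ← gA_mul, ← map_mul, inv_mul_cancel, map_one, gA_one] at h1
    exact h1
  · intro h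
    exact D.stab g v h

theorem det_hom (D : EDat) (g : D.G) : LinearMap.det (gA (hom D g)).toLinearMap = 1 := by
  have h1 : (gA (hom D g)).toLinearMap =
      ((D.ρ g).1 : V1 D.n →ₗ[ℂ] V1 D.n).prodMap ((D.σ g).toLinearEquiv : W D.m →ₗ[ℂ] W D.m) := rfl
  rw [h1, LinearMap.det_prodMap, D.det1]

/-- congruence subgroup -/
theorem exists_cong (D : EDat) : ∃ H : Subgroup D.G, H.FiniteIndex ∧ ∀ g ∈ H,
    (∀ v ∈ D.L, ∃ w ∈ D.L, gA (hom D g) v = v + (4:ℤ) • w) ∧
    ∀ v, gA (hom D g) v = -v → v = 0 := by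
  classical
  obtain ⟨κ, _, Λ, hΛ1, hΛ2⟩ := exists_crd D.L D.disc D.span
  have hicinj : Function.Injective (fun k : κ → ℤ => Λ (ic k)) := by
    intro a b h
    have h1 : ic a = ic b := Λ.injective h
    funext i
    have h2 : (a i : ℝ) = b i := congrFun h1 i
    exact_mod_cast h2
  choose β0 hβ0 using fun (g : D.G) (k : κ → ℤ) => hΛ2 _ ((gA_hom_mem D g _).2 (hΛ1 k))
  let β : D.G → (κ → ℤ) →ₗ[ℤ] (κ → ℤ) := fun g => (AddMonoidHom.mk' (β0 g) (fun a b => by
    apply hicinj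
    show Λ (ic (β0 g (a + b))) = Λ (ic (β0 g a + β0 g b))
    rw [ic_add, map_add, hβ0, hβ0, hβ0, ic_add, map_add, map_add])).toIntLinearMap
  have hβ : ∀ g k, Λ (ic (β g k)) = gA (hom D g) (Λ (ic k)) := hβ0
  let F : D.G →* Matrix κ κ ℤ :=
    { toFun := fun g => LinearMap.toMatrix' (β g)
      map_one' := by
        have : β 1 = LinearMap.id := by
          refine LinearMap.ext fun k => ?_
          apply hicinj
          show Λ (ic (β 1 k)) = Λ (ic k)
          rw [hβ, map_one, gA_one]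
        rw [this, LinearMap.toMatrix'_id]
      map_mul' := by
        intro g h
        have : β (g * h) = (β g).comp (β h) := by
          refine LinearMap.ext fun k => ?_
          apply hicinj
          show Λ (ic (β (g * h) k)) = Λ (ic (β g (β h k)))
          rw [hβ, hβ, hβ, map_mul, gA_mul]
        rw [this, LinearMap.toMatrix'_comp] }
  let F4 : D.G →* (Matrix κ κ (ZMod 4))ˣ :=
    (((Int.castRingHom (ZMod 4)).mapMatrix : Matrix κ κ ℤ →+* Matrix κ κ (ZMod 4)).toMonoidHom.comp F).toHomUnits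
  refine ⟨F4.ker, inferInstance, fun g hg => ?_⟩
  have h1 : (Int.castRingHom (ZMod 4)).mapMatrix (F g) = 1 := by
    have := congrArg Units.val (MonoidHom.mem_ker.1 hg)
    exact this
  have h2 : ∀ i j, ∃ x : ℤ, F g i j = (1 : Matrix κ κ ℤ) i j + 4 * x := by
    intro i j
    have h3 := congrFun (congrFun h1 i) j
    have h4 : ((F g i j : ℤ) : ZMod 4) = (((1 : Matrix κ κ ℤ) i j : ℤ) : ZMod 4) := by
      have h5 : (Int.castRingHom (ZMod 4)).mapMatrix (1 : Matrix κ κ ℤ) = 1 := map_one _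
      have h6 := congrFun (congrFun h5 i) j
      exact h3.trans h6.symm
    rw [ZMod.intCast_eq_intCast_iff_dvd_sub] at h4
    obtain ⟨x, hx⟩ := h4
    refine ⟨-x, ?_⟩
    push_cast at hx
    linarith
  choose X hX using h2
  have hFX : F g = 1 + (4:ℤ) • (Matrix.of X) := by
    ext i j
    rw [hX]
    rfl
  have hFk : ∀ k : κ → ℤ, β g k = k + (4:ℤ) • (Matrix.of X *ᵥ k) := by
    intro k
    have h3 : β g k = F g *ᵥ k := by
      show _ = LinearMap.toMatrix' (β g) *ᵥ k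
      rw [← Matrix.toLin'_apply, Matrix.toLin'_toMatrix']
    rw [h3, hFX, Matrix.add_mulVec, Matrix.one_mulVec, Matrix.smul_mulVec]
  refine ⟨fun v hv => ?_, fun v hv => ?_⟩
  · obtain ⟨k, rfl⟩ := hΛ2 v hv
    refine ⟨_, hΛ1 (Matrix.of X *ᵥ k), ?_⟩
    rw [← hβ, hFk, ic_add, map_add]
    congr 1
    have : ic ((4:ℤ) • (Matrix.of X *ᵥ k)) = (4:ℤ) • ic (Matrix.of X *ᵥ k) := by
      funext i
      simp
    rw [this, map_zsmul]
  · obtain ⟨y, rfl⟩ := Λ.surjective v
    -- real matrix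
    let Xr : Matrix κ κ ℝ := (Matrix.of X).map (fun x : ℤ => (x : ℝ))
    have h3 : ∀ y : κ → ℝ, gA (hom D g) (Λ y) = Λ (y + (4:ℝ) • (Xr *ᵥ y)) := by
      intro y
      let A1 : (κ → ℝ) →ₗ[ℝ] (V1 D.n × W D.m) :=
        { toFun := fun y => gA (hom D g) (Λ y)
          map_add' := fun a b => by rw [map_add, map_add]
          map_smul' := fun r a => by
            rw [map_smul]
            have h4 : gA (hom D g) (r • Λ a) = r • gA (hom D g) (Λ a) := by
              have h2 : r • Λ a = (r : ℂ) • Λ a := rfl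
              rw [h2, map_smul]; rfl
            rw [h4]; rfl }
      let A2 : (κ → ℝ) →ₗ[ℝ] (V1 D.n × W D.m) :=
        Λ.toLinearMap ∘ₗ (LinearMap.id + (4:ℝ) • Xr.mulVecLin)
      have h5 : A1 = A2 := by
        refine (Pi.basisFun ℝ κ).ext fun i => ?_
        rw [Pi.basisFun_apply]
        have h6 : (Pi.single i 1 : κ → ℝ) = ic (Pi.single i 1 : κ → ℤ) := by
          funext j
          by_cases hj : j = i
          · subst hj; simp
          · simp [hj]
        show gA (hom D g) (Λ (Pi.single i 1)) = Λ (Pi.single i 1 + (4:ℝ) • (Xr *ᵥ Pi.single i 1))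
        rw [h6, ← hβ, hFk, ic_add]
        congr 2
        funext j
        have h7 : (Xr *ᵥ ic (Pi.single i 1 : κ → ℤ)) j = (((Matrix.of X *ᵥ Pi.single i 1) j : ℤ) : ℝ) := by
          simp only [Matrix.mulVec, dotProduct, Xr, Matrix.map_apply, ic_apply]
          push_cast
          rfl
        rw [Pi.smul_apply, h7]
        simp
      exact LinearMap.congr_fun h5 y
    rw [h3, ← map_neg] at hv
    have h4 := Λ.injective hv
    have h5 : (1 + (2:ℝ) • Xr) *ᵥ y = 0 := by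
      rw [Matrix.add_mulVec, Matrix.one_mulVec, Matrix.smul_mulVec]
      have h6 : (2:ℝ) • (y + (2:ℝ) • (Xr *ᵥ y)) = 0 := by
        have h7 : y + (4:ℝ) • (Xr *ᵥ y) + y = 0 := by rw [h4]; simp
        rw [smul_add, smul_smul, ← h7]
        norm_num
        module
      exact (smul_eq_zero.1 h6).resolve_left (by norm_num)
    have h6 : (1 + (2:ℝ) • Xr).det ≠ 0 := by
      have e1 : (1 + (2:ℝ) • Xr) = (Int.castRingHom ℝ).mapMatrix (1 + (2:ℤ) • Matrix.of X) := by
        ext i j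
        simp [Xr, Matrix.one_apply]
      rw [e1, ← RingHom.map_det]
      have e2 : (1 + (2:ℤ) • Matrix.of X).det ≠ 0 := by
        intro h0
        have e3 : (Int.castRingHom (ZMod 2)).mapMatrix (1 + (2:ℤ) • Matrix.of X) = 1 := by
          ext i j
          have : (2 : ZMod 2) = 0 := by decide
          simp [Matrix.one_apply, this]
        have e4 := congrArg Matrix.det e3
        rw [← RingHom.map_det, h0, map_zero, Matrix.det_one] at e4
        exact zero_ne_one e4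
      simpa using e2
    rw [Matrix.eq_zero_of_mulVec_eq_zero h6 h5, map_zero]

end Crest.Agent.R272.EChi9_307
end
end

-- ▼ part R272/EChi10_307

/-!
# Row 272, division E, T3: the result

`T3`: a finite index subgroup on which `t` and `A` transform without character.
-/

set_option autoImplicit false

noncomputable section

open Complex
open scoped ComplexConjugate

namespace Crest.Agent.R272.EChi10_307

open Crest.Agent.R272.EBase_641 Crest.Agent.R272.EBase2_641 Crest.Agent.R272.EThDefs_445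
  Crest.Agent.R272.EChi3_307 Crest.Agent.R272.EChi5_307 Crest.Agent.R272.EChi6_307
  Crest.Agent.R272.EChi7_307 Crest.Agent.R272.EChi8_307 Crest.Agent.R272.EChi9_307

section sub

theorem eps_cong {n m : ℕ} {L : AddSubgroup (V1 n × W m)} (T : TData L)
    (int : ∀ v ∈ L, ∀ w ∈ L, ∃ k : ℤ, ee v w = k) (v : V1 n × W m) (hv : v ∈ L)
    (w : V1 n × W m) (hw : w ∈ L) : T.ε (v + (4:ℤ) • w) = T.ε v := by
  have h1 : (4:ℤ) • w = (2:ℤ) • w + (2:ℤ) • w := by module
  have h2 : (2:ℤ) • w ∈ L := L.zsmul_mem hw 2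
  rw [h1, T.ε_add v hv _ (L.add_mem h2 h2), T.ε_add _ h2 _ h2, ee_self, ph_zero, eps_sq T _ h2,
    ee_add_right]
  obtain ⟨k, hk⟩ := int v hv _ h2
  rw [hk, ← two_mul, ph_two_int]
  ring

variable (D : EDat) (T : TData D.L)

theorem exists_T3 : ∃ H : Subgroup D.G, H.FiniteIndex ∧ ∀ g ∈ H,
    ∃ hg : hom D g ∈ Sg T, χ T ⟨hom D g, hg⟩ = 1 := by
  classical
  obtain ⟨H, hH, h⟩ := exists_cong D
  have hmem : ∀ g ∈ H, hom D g ∈ Sg T := by
    intro g hg
    refine ⟨fun v => gA_hom_mem D g v, fun v hv => ?_⟩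
    obtain ⟨w, hw, h1⟩ := (h g hg).1 v hv
    rw [h1, eps_cong T D.int v hv w hw]
  let toS : H →* Sg T :=
    { toFun := fun g => ⟨hom D g.1, hmem g.1 g.2⟩
      map_one' := Subtype.ext (map_one (hom D))
      map_mul' := fun a b => Subtype.ext (map_mul (hom D) a.1 b.1) }
  have h8 : ∀ g : H, χ T (toS g) ^ 8 = 1 := fun g =>
    χ_eight T (toS g) D.disc D.span D.int D.dual (det_hom D g.1) (h g.1 g.2).2
  let f : H →* rootsOfUnity 8 ℂ :=
    { toFun := fun g => rootsOfUnity.mkOfPowEq (χ T (toS g)) (h8 g)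
      map_one' := by
        ext
        rw [rootsOfUnity.coe_mkOfPowEq, map_one, χ_one]
        rfl
      map_mul' := fun a b => by
        ext
        rw [rootsOfUnity.coe_mkOfPowEq, map_mul, χ_mul]
        simp }
  have hfin : f.ker.FiniteIndex := inferInstance
  refine ⟨f.ker.map H.subtype, ?_, ?_⟩
  · constructor
    rw [Subgroup.index_map_subtype]
    exact mul_ne_zero hfin.index_ne_zero hH.index_ne_zero
  · intro g hg
    obtain ⟨x, hx, rfl⟩ := Subgroup.mem_map.1 hg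
    refine ⟨hmem x.1 x.2, ?_⟩
    have h1 : f x = 1 := MonoidHom.mem_ker.1 hx
    have h2 : ((f x : ℂˣ) : ℂ) = χ T (toS x) := rootsOfUnity.coe_mkOfPowEq _
    rw [h1] at h2
    exact h2.symm

end sub

section deriv

variable {n m : ℕ}

theorem hasFDerivAt_lin (v : V1 n) (z : E n) : HasFDerivAt (lin v) (innerSL ℂ v.1) z := by
  have h : lin v = fun z => (innerSL ℂ v.1) z - conj v.2 := by
    funext z; simp [lin]
  rw [h]
  exact (innerSL ℂ v.1).hasFDerivAt.sub_const _

theorem hasFDerivAt_ss (z w : E n) : HasFDerivAt (fun z => ss z w) (-innerSL ℂ w) z := by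
  have h : (fun z => ss z w) = fun z => 1 - (innerSL ℂ w) z := by
    funext z; simp [ss]
  rw [h]
  exact (innerSL ℂ w).hasFDerivAt.const_sub _

theorem differentiableAt_apply (g : UG n) (z : E n) :
    DifferentiableAt ℂ (fun z : E n => g.1 ((z, 1) : V1 n)) z := by
  let g' : V1 n →L[ℂ] V1 n := LinearMap.toContinuousLinearMap (g.1 : V1 n →ₗ[ℂ] V1 n)
  have h : (fun z : E n => g.1 ((z, 1) : V1 n)) = fun z => g' (z, 1) := rfl
  rw [h]
  exact g'.differentiableAt.comp z (differentiableAt_id.prodMk (differentiableAt_const _))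

theorem differentiableAt_jj (g : UG n) (z : E n) : DifferentiableAt ℂ (jj g) z :=
  (differentiableAt_apply g z).snd

theorem differentiableAt_act (g : UG n) {z : E n} (hz : z ∈ Ball n) :
    DifferentiableAt ℂ (act g) z :=
  ((differentiableAt_jj g z).inv (jj_ne_zero g hz)).smul (differentiableAt_apply g z).fst

/-- the function whose derivative enters `psiF` -/
def fq (v : V1 n) (w z : E n) : ℂ := lin v z / ss z w

theorem hasFDerivAt_fq (v : V1 n) {z w : E n} (hz : z ∈ Ball n) (hw : w ∈ Ball n) :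
    HasFDerivAt (fq v w) ((ss z w)⁻¹ • (innerSL ℂ v.1 + (lin v z / ss z w) • innerSL ℂ w)) z := by
  have hs := ss_ne hz hw
  have h1 := (hasFDerivAt_lin v z).mul ((hasDerivAt_inv hs).comp_hasFDerivAt z (hasFDerivAt_ss z w))
  have h2 : fq v w = fun z => lin v z * (ss z w)⁻¹ := by
    funext z; rw [fq, div_eq_mul_inv]
  rw [h2]
  refine h1.congr_fderiv ?_
  ext X
  simp
  field_simp
  ring

theorem psiF_eq (v : V1 n × W m) {z w : E n} (hz : z ∈ Ball n) (hw : w ∈ Ball n) (X : E n) :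
    psiF v z w X = ss z w * fderiv ℂ (fq v.1 w) z X * EThDefs_445.psi v z w := by
  have hs := ss_ne hz hw
  rw [(hasFDerivAt_fq v.1 hz hw).fderiv]
  unfold psiF
  simp only [_root_.smul_apply, _root_.add_apply, innerSL_apply_apply,
    smul_eq_mul]
  field_simp

theorem fq_act (g : UG n) (v : V1 n) {z w : E n} (hz : z ∈ Ball n) (hw : w ∈ Ball n) :
    fq (g.1 v) (act g w) (act g z) = conj (jj g w) * fq v w z := by
  have hjz := jj_ne_zero g hz
  have hjw : conj (jj g w) ≠ 0 := by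
    rw [Ne, map_eq_zero]
    exact jj_ne_zero g hw
  have hs := ss_ne (act_mem g hz) (act_mem g hw)
  unfold fq
  rw [lin_act _ _ hz, ss_act g hz hw]
  field_simp

theorem isOpen_Ball : IsOpen (Ball n) := Metric.isOpen_ball

theorem fderiv_fq_act (g : UG n) (v : V1 n) {z w : E n} (hz : z ∈ Ball n) (hw : w ∈ Ball n) (X : E n) :
    fderiv ℂ (fq (g.1 v) (act g w)) (act g z) (fderiv ℂ (act g) z X) =
      conj (jj g w) * fderiv ℂ (fq v w) z X := by
  have h1 : HasFDerivAt (fun z => fq (g.1 v) (act g w) (act g z))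
      ((fderiv ℂ (fq (g.1 v) (act g w)) (act g z)).comp (fderiv ℂ (act g) z)) z :=
    (hasFDerivAt_fq (g.1 v) (act_mem g hz) (act_mem g hw)).differentiableAt.hasFDerivAt.comp z
      (differentiableAt_act g hz).hasFDerivAt
  have h2 : HasFDerivAt (fun z => conj (jj g w) * fq v w z) (conj (jj g w) • fderiv ℂ (fq v w) z) z :=
    (hasFDerivAt_fq v hz hw).differentiableAt.hasFDerivAt.const_mul _
  have h3 : (fun z => fq (g.1 v) (act g w) (act g z)) =ᶠ[nhds z] fun z => conj (jj g w) * fq v w z := by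
    filter_upwards [isOpen_Ball.mem_nhds hz] with z' hz'
    exact fq_act g v hz' hw
  have h4 := h1.unique (h2.congr_of_eventuallyEq h3)
  have h5 := congrArg (fun l : E n →L[ℂ] ℂ => l X) h4
  exact h5

theorem psiF_gA (g : GG n m) (v : V1 n × W m) {z w : E n} (hz : z ∈ Ball n) (hw : w ∈ Ball n) (X : E n) :
    psiF (gA g v) (act g.1 z) (act g.1 w) (fderiv ℂ (act g.1) z X) =
      conj (jj g.1 w) * psiF v z w X := by
  rw [psiF_eq _ (act_mem g.1 hz) (act_mem g.1 hw), psiF_eq _ hz hw, psi_gA g v hz hw, ss_act g.1 hz hw]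
  have h1 : (gA g v).1 = g.1.1 v.1 := rfl
  rw [h1, fderiv_fq_act g.1 v.1 hz hw]
  ring

variable {L : AddSubgroup (V1 n × W m)} (T : TData L)

theorem dA_law (g : Sg T) (a : V1 n × W m) {z : E n} (hz : z ∈ Ball n) (X : E n) :
    fderiv ℂ (T.A (gA g.1 a)) (act g.1.1 z) (fderiv ℂ (act g.1.1) z X) * conj (χ T g) =
      fderiv ℂ (T.A a) z X := by
  obtain ⟨b, hb⟩ := T.t_ne
  have h1 := T.Fv (gA g.1 a) (gA g.1 b) _ (act_mem g.1.1 hz) _ (act_mem g.1.1 zero_mem_Ball)
    (fderiv ℂ (act g.1.1) z X)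
  have h2 := (T.Fv a b z hz 0 zero_mem_Ball X).mul_left (conj (jj g.1.1 0))
  rw [← (eL T g).hasSum_iff] at h1
  have h3 : (fun l : L => T.ε l * ph (ee (l : V1 n × W m) (gA g.1 a + gA g.1 b)) *
      psiF ((l : V1 n × W m) + gA g.1 a - gA g.1 b) (act g.1.1 z) (act g.1.1 0)
        (fderiv ℂ (act g.1.1) z X)) ∘ (eL T g) =
      fun l : L => conj (jj g.1.1 0) *
        (T.ε l * ph (ee (l : V1 n × W m) (a + b)) * psiF ((l : V1 n × W m) + a - b) z 0 X) := by
    funext l
    have e1 : ((eL T g l : L) : V1 n × W m) = gA g.1 l.1 := rfl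
    simp only [Function.comp_apply, e1]
    rw [← map_add, ← map_add, ← map_sub, ee_gA, psiF_gA _ _ hz zero_mem_Ball, g.2.2 _ l.2]
    ring
  rw [h3] at h1
  have h4 := h1.unique h2
  rw [ee_gA, law_χ T g b 0 zero_mem_Ball, map_mul, map_mul] at h4
  have h5 := ph_ne (ee b a)
  have h6 : conj (jj g.1.1 (0 : E n)) ≠ 0 := by
    rw [Ne, map_eq_zero]
    exact jj_ne_zero g.1.1 zero_mem_Ball
  have h7 : conj (T.t b 0) ≠ 0 := by rwa [Ne, map_eq_zero]
  apply mul_left_cancel₀ h5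
  apply mul_left_cancel₀ h6
  apply mul_left_cancel₀ h7
  linear_combination h4

theorem A_law (g : Sg T) (hχ : χ T g = 1) (a : V1 n × W m) :
    ∃ c : ℂ, ∀ z ∈ Ball n, T.A (gA g.1 a) (act g.1.1 z) = T.A a z + c := by
  have hd : ∀ z ∈ Ball n, HasFDerivAt (fun z => T.A (gA g.1 a) (act g.1.1 z) - T.A a z)
      (0 : E n →L[ℂ] ℂ) z := by
    intro z hz
    have h1 : HasFDerivAt (fun z => T.A (gA g.1 a) (act g.1.1 z))
        ((fderiv ℂ (T.A (gA g.1 a)) (act g.1.1 z)).comp (fderiv ℂ (act g.1.1) z)) z :=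
      (((T.A_hol (gA g.1 a)).differentiableAt
        (isOpen_Ball.mem_nhds (act_mem g.1.1 hz))).hasFDerivAt).comp z
        (differentiableAt_act g.1.1 hz).hasFDerivAt
    have h2 : HasFDerivAt (T.A a) (fderiv ℂ (T.A a) z) z :=
      ((T.A_hol a).differentiableAt (isOpen_Ball.mem_nhds hz)).hasFDerivAt
    refine (h1.sub h2).congr_fderiv ?_
    ext X
    have h3 := dA_law T g a hz X
    rw [hχ, map_one, mul_one] at h3
    exact sub_eq_zero.2 h3
  refine ⟨T.A (gA g.1 a) (act g.1.1 0) - T.A a 0, fun z hz => ?_⟩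
  have hconv : Convex ℝ (Ball n) := convex_ball 0 1
  have h5 : T.A (gA g.1 a) (act g.1.1 z) - T.A a z = T.A (gA g.1 a) (act g.1.1 0) - T.A a 0 :=
    isOpen_Ball.is_const_of_fderiv_eq_zero (𝕜 := ℂ)
      (f := fun z : E n => T.A (gA g.1 a) (act g.1.1 z) - T.A a z) hconv.isPreconnected
      (fun y hy => (hd y hy).differentiableAt.differentiableWithinAt)
      (fun y hy => (hd y hy).fderiv) hz zero_mem_Ball
  linear_combination h5

end deriv

/-- the input of T4 (helper295) from `TData`. -/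
def mkTIn (D : EDat) (T : TData D.L) : Crest.Agent.R272.ETh4Defs_295.TIn D where
  ε := T.ε
  ε_sq := fun l hl => eps_sq T l hl
  ε_add := T.ε_add
  A := T.A
  A_hol := T.A_hol
  κ := Real.pi
  κ_ne := by exact_mod_cast Real.pi_ne_zero
  rank := by
    intro a b z hz w hw X Y
    have h := (T.FF a b z hz w hw X Y).mul_left (Real.pi : ℂ)
    have hp : (Real.pi : ℂ) ≠ 0 := by exact_mod_cast Real.pi_ne_zero
    have h9 : ∀ l : D.L, T.ε (l : V1 D.n × W D.m) *
        Complex.exp (Real.pi * Complex.I * (ee (l : V1 D.n × W D.m) (a + b) : ℝ)) *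
        ((wt ((l : V1 D.n × W D.m) + a - b) : ℝ) * Kp ((l : V1 D.n × W D.m) + a - b).1 z w X Y) =
        Real.pi * (T.ε l * ph (ee (l : V1 D.n × W D.m) (a + b)) *
          psiFF ((l : V1 D.n × W D.m) + a - b) z w X Y) := by
      intro l
      unfold psiFF ph
      field_simp
    have h10 : Real.pi * Complex.exp (Real.pi * Complex.I * (ee b a : ℝ)) *
        (fderiv ℂ (T.A a) z X * conj (fderiv ℂ (T.A b) w Y)) =
        Real.pi * (ph (ee b a) * (fderiv ℂ (T.A a) z X * conj (fderiv ℂ (T.A b) w Y))) := by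
      unfold ph
      ring
    rw [h10]
    simp_rw [h9]
    exact h
  H0 := (exists_T3 D T).choose
  H0_fin := (exists_T3 D T).choose_spec.1
  A_act := by
    intro g hg a
    obtain ⟨h1, h2⟩ := (exists_T3 D T).choose_spec.2 g hg
    exact A_law T ⟨hom D g, h1⟩ h2 a


end Crest.Agent.R272.EChi10_307
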