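import Mathlib
import Crest.Agent.R272.EBase_641
import Crest.Agent.R272.E5_528

-- ▼ part R272/Pol1_898
section

/-!
Row 272, (E): the scalar identity behind the polarized potentials (post #5446 (a)).
`Ein` is any entire function with `x * Ein' x = 1 - exp (-x)`.
-/
set_option autoImplicit false

namespace Crest.Agent.R272.Pol_898

open Complex MeasureTheory Set Filter Topology
open scoped ComplexConjugate Real

/-- the only facts about `Ein` which are used here -/
structure EinLike (Ein : ℂ → ℂ) : Prop where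
  diff : Differentiable ℂ Ein
  der : ∀ x, x * deriv Ein x = 1 - exp (-x)

namespace EinLike

variable {Ein : ℂ → ℂ} (h : EinLike Ein)
include h

lemma diff' : Differentiable ℂ (deriv Ein) :=
  (h.diff.contDiff (n := 2)).differentiable_deriv_two

lemma der2 (x : ℂ) : x * deriv (deriv Ein) x + deriv Ein x = exp (-x) := by
  have h1 : HasDerivAt (fun x : ℂ => x * deriv Ein x) (1 * deriv Ein x + x * deriv (deriv Ein) x) x :=
    (hasDerivAt_id x).mul (h.diff' x).hasDerivAt
  have h2 : HasDerivAt (fun x : ℂ => 1 - exp (-x)) (exp (-x)) x := by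
    have := ((hasDerivAt_id x).neg.cexp).const_sub 1
    simpa using this
  have h3 : (fun x : ℂ => x * deriv Ein x) = fun x : ℂ => 1 - exp (-x) := funext h.der
  rw [h3] at h1
  have := h1.unique h2
  rw [← this]; ring

end EinLike

/-- `R = a b / q`, the point value of the kernel `e^{-πR} (Berg - π W)` in terms of the scalar data. -/
noncomputable def kerS (a a1 b b1 q qs qt qst : ℂ) : ℂ :=
  exp (-(π * (a * b / q))) *
    ((qs * qt - qst * q) / q ^ 2 - π * ((a1 - a * qs / q) * (b1 - b * qt / q) / q))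

variable {Ein : ℂ → ℂ} 

/-- first derivative of `Ein (π R) + log q` -/
lemma hasDerivAt_pot1 (h : EinLike Ein) {a q : ℝ → ℂ} {a1 b qs : ℂ} {s : ℝ}
    (ha : HasDerivAt a a1 s) (hq : HasDerivAt q qs s) (hs : q s ∈ slitPlane) :
    HasDerivAt (fun s => Ein (π * (a s * b / q s)) + log (q s))
      (π * deriv Ein (π * (a s * b / q s)) * (b / q s * (a1 - a s * qs / q s)) + qs / q s) s := by
  have hq0 : q s ≠ 0 := slitPlane_ne_zero hs
  have h1 : HasDerivAt (fun s => π * (a s * b / q s))
      (π * (b / q s * (a1 - a s * qs / q s))) s := by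
    refine (((ha.mul_const b).fun_div hq hq0).const_mul (π : ℂ)).congr_deriv ?_
    field_simp
  have h2 := HasDerivAt.scomp s ((h.diff (π * (a s * b / q s))).hasDerivAt) h1
  have h3 : HasDerivAt (fun s => log (q s)) (qs / q s) s := hq.clog_real hs
  refine (h2.add h3).congr_deriv ?_
  simp only [smul_eq_mul]
  ring

/-- second (mixed) derivative -/
lemma hasDerivAt_pot2 (h : EinLike Ein) {b q qs : ℝ → ℂ} {a a1 b1 qt qst : ℂ} {t : ℝ}
    (hb : HasDerivAt b b1 t) (hq : HasDerivAt q qt t) (hqs : HasDerivAt qs qst t) (hs : q t ≠ 0) :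
    HasDerivAt (fun t => π * deriv Ein (π * (a * b t / q t)) * (b t / q t * (a1 - a * qs t / q t)) + qs t / q t)
      (- kerS a a1 (b t) b1 (q t) (qs t) qt qst) t := by
  have h1 : HasDerivAt (fun t => π * (a * b t / q t))
      (π * (a / q t * (b1 - b t * qt / q t))) t := by
    refine (((hb.const_mul a).fun_div hq hs).const_mul (π : ℂ)).congr_deriv ?_
    field_simp
  have h2 := HasDerivAt.scomp t ((h.diff' (π * (a * b t / q t))).hasDerivAt) h1
  have h3 : HasDerivAt (fun t => b t / q t * (a1 - a * qs t / q t))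
      ((b1 * q t - b t * qt) / q t ^ 2 * (a1 - a * qs t / q t) +
        b t / q t * (-((a * qst * q t - a * qs t * qt) / q t ^ 2))) t := by
    have e1 := hb.fun_div hq hs
    have e2 := (((hqs.const_mul a).fun_div hq hs).const_sub a1)
    exact e1.fun_mul e2
  have h4 := hqs.fun_div hq hs
  have h5 := ((h2.const_mul (π : ℂ)).fun_mul h3).fun_add h4
  refine h5.congr_deriv ?_
  simp only [smul_eq_mul, Function.comp_apply]
  set X : ℂ := π * (a * b t / q t) with hX
  have k2 := h.der2 X
  have k1' : X * deriv Ein X = 1 - exp (-X) := h.der X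
  unfold kerS
  rw [← hX]
  generalize deriv (deriv Ein) X = g' at k2 ⊢
  generalize deriv Ein X = g at k1' k2 ⊢
  have key : π * (π * (a / q t * (b1 - b t * qt / q t)) * g') * (b t / q t * (a1 - a * qs t / q t)) +
      π * g * ((b1 * q t - b t * qt) / q t ^ 2 * (a1 - a * qs t / q t) +
        b t / q t * (-((a * qst * q t - a * qs t * qt) / q t ^ 2))) +
      (qst * q t - qs t * qt) / q t ^ 2 =
      (π * (a1 - a * qs t / q t) * (b1 - b t * qt / q t) / q t) * (X * g' + g) +
        (qs t * qt - qst * q t) / q t ^ 2 * (X * g - 1) := by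
    rw [hX]; field_simp; ring
  rw [key, k2, k1']
  ring

end Crest.Agent.R272.Pol_898
end

-- ▼ part R272/Pol2_898
section

/-!
Row 272, (E): polarized kernels on the ball (posts #5446 (898) / #5491 (429)).

`qq z w = 1 - <w,z>`, `RR v z w = lin v z * conj (lin v w) / qq z w`,
`QQ v z w = - Ein (π RR) - log qq`, `dd F p z w` = second difference at the base point `p`,
`Psi p v z w = dd (QQ v) p z w`.
-/
set_option autoImplicit false

namespace Crest.Agent.R272.Pol_898

open Complex Set Filter Topology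
open scoped ComplexConjugate Real
open Crest.Agent.R272.EBase_641

noncomputable section

/-! ### second differences -/

section dd

variable {X : Type*}

/-- second difference of a function of two variables at the base point `p` -/
def dd (F : X → X → ℂ) (p z w : X) : ℂ := F z w - F z p - F p w + F p p

theorem dd_left (F : X → X → ℂ) (p w : X) : dd F p p w = 0 := by simp [dd]

theorem dd_right (F : X → X → ℂ) (p z : X) : dd F p z p = 0 := by simp [dd]








end dd

/-! ### the cocycle of an invariant kernel -/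

section coc

open Crest.Agent.R272.E5_528 (IsCoc)

/-- an (abstract) action of a group on a subset `B` -/
structure ActOn {G X : Type*} [Group G] (a : G → X → X) (B : Set X) : Prop where
  mem : ∀ g, ∀ z ∈ B, a g z ∈ B
  mul : ∀ g h, ∀ z ∈ B, a (g * h) z = a g (a h z)
  one : ∀ z ∈ B, a 1 z = z

variable {G X : Type*} [Group G] {a : G → X → X} {B : Set X}


theorem ActOn.act_inv (h : ActOn a B) (g : G) {z : X} (hz : z ∈ B) : a g (a g⁻¹ z) = z := by
  rw [← h.mul _ _ _ hz, mul_inv_cancel, h.one _ hz]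

/-- the kernel `S` is invariant up to functions of one variable; normalised at `p` -/
structure InvKer (a : G → X → X) (B : Set X) (p : X) (S : X → X → ℂ) : Prop where
  left : ∀ w ∈ B, S p w = 0
  right : ∀ z ∈ B, S z p = 0
  inv : ∀ g, ∀ z ∈ B, ∀ w ∈ B, S (a g z) (a g w) - S (a g z) (a g p) - S (a g p) (a g w)
      + S (a g p) (a g p) = S z w

/-- the 2-cocycle `σ(g,h) = S(h p, g⁻¹ p)` -/
def sig (a : G → X → X) (p : X) (S : X → X → ℂ) (g h : G) : ℂ := S (a h p) (a g⁻¹ p)

variable {p : X} {S : X → X → ℂ}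

/-- `S(hz, g⁻¹p) + S(z, h⁻¹p) = S(z, (gh)⁻¹p) + σ(g,h)` -/
theorem InvKer.cob (hS : InvKer a B p S) (ha : ActOn a B) (hp : p ∈ B) (g h : G) {z : X}
    (hz : z ∈ B) :
    S (a h z) (a g⁻¹ p) + S z (a h⁻¹ p) = S z (a (g * h)⁻¹ p) + sig a p S g h := by
  have h1 := hS.inv h z hz (a (g * h)⁻¹ p) (ha.mem _ _ hp)
  have e1 : a h (a (g * h)⁻¹ p) = a g⁻¹ p := by
    rw [← ha.mul _ _ _ hp]; congr 1; group
  have h2 := hS.inv h z hz (a h⁻¹ p) (ha.mem _ _ hp)
  have e2 : a h (a h⁻¹ p) = p := ha.act_inv h hp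
  rw [e1] at h1
  rw [e2, hS.right _ (ha.mem _ _ hz), hS.right _ (ha.mem _ _ hp)] at h2
  rw [sig, ← h1, ← h2]; ring

theorem InvKer.isCoc (hS : InvKer a B p S) (ha : ActOn a B) (hp : p ∈ B) :
    IsCoc (sig a p S) := by
  intro g h k
  -- σ(g,h) = A_g(h z) + A_h(z) - A_{gh}(z), with A_g(z) = S(z, g⁻¹ p)
  have hkp := ha.mem k p hp
  have h1 := hS.cob ha hp g h hkp
  have h2 := hS.cob ha hp (g * h) k hp
  have h3 := hS.cob ha hp h k hp
  have h4 := hS.cob ha hp g (h * k) hp
  rw [ha.mul h k p hp] at h4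
  rw [mul_assoc] at h2
  linear_combination -h1 - h2 + h3 + h4

theorem InvKer.self (hS : InvKer a B p S) (ha : ActOn a B) (hp : p ∈ B) (g h : G) :
    sig a p S g h = S (a g p) (a g p) - S (a (g * h) p) (a g p) := by
  have hh := ha.mem h p hp
  have h1 := hS.inv g (a h p) hh (a g⁻¹ p) (ha.mem _ _ hp)
  rw [ha.act_inv g hp, hS.right _ (ha.mem _ _ hh), hS.right _ (ha.mem _ _ hp),
    ← ha.mul _ _ _ hp] at h1
  rw [sig, ← h1]; ring



end coc

end

end Crest.Agent.R272.Pol_898
end

-- ▼ part R272/Pol3_898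

/-!
Row 272, (E): polarized kernels on the ball: `qq`, `RR`, `QQ`, `Psi` and their invariance.
-/
set_option autoImplicit false

namespace Crest.Agent.R272.Pol_898

open Complex Set Filter Topology
open scoped ComplexConjugate Real
open Crest.Agent.R272.EBase_641

noncomputable section

variable {n : ℕ}

/-- `1 - <z,w>`, holomorphic in `z`, antiholomorphic in `w` -/
def qq (z w : E n) : ℂ := 1 - inner ℂ w z

/-- polarized `R` -/
def RR (v : V1 n) (z w : E n) : ℂ := lin v z * conj (lin v w) / qq z w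

theorem norm_inner_lt {z w : E n} (hz : z ∈ Ball n) (hw : w ∈ Ball n) : ‖inner ℂ w z‖ < 1 := by
  have h1 := mem_Ball.1 hz
  have h2 := mem_Ball.1 hw
  have h3 := norm_inner_le_norm (𝕜 := ℂ) w z
  nlinarith [norm_nonneg z, norm_nonneg w]

theorem qq_re_pos {z w : E n} (hz : z ∈ Ball n) (hw : w ∈ Ball n) : 0 < (qq z w).re := by
  have h := norm_inner_lt hz hw
  have h2 := re_le_norm (inner ℂ w z : ℂ)
  simp only [qq, sub_re, one_re]; linarith

theorem qq_slit {z w : E n} (hz : z ∈ Ball n) (hw : w ∈ Ball n) : qq z w ∈ slitPlane :=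
  Or.inl (qq_re_pos hz hw)

theorem qq_ne {z w : E n} (hz : z ∈ Ball n) (hw : w ∈ Ball n) : qq z w ≠ 0 :=
  slitPlane_ne_zero (qq_slit hz hw)



theorem qq_eq_hh (z w : E n) : qq z w = - hh (z, 1) (w, 1) := by
  simp [qq, hh]

theorem qq_act (g : UG n) {z w : E n} (hz : z ∈ Ball n) (hw : w ∈ Ball n) :
    qq (act g z) (act g w) = qq z w / (jj g z * conj (jj g w)) := by
  have h1 := jj_ne_zero g hz
  have h2 : conj (jj g w) ≠ 0 := by simpa using jj_ne_zero g hw
  rw [eq_div_iff (mul_ne_zero h1 h2), qq_eq_hh, qq_eq_hh z w, ← UG_hh g (z, 1) (w, 1),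
    apply_eq g hz, apply_eq g hw, hh_smul_left, hh_smul_right]
  ring



theorem RR_act (g : UG n) (v : V1 n) {z w : E n} (hz : z ∈ Ball n) (hw : w ∈ Ball n) :
    RR (g.1 v) (act g z) (act g w) = RR v z w := by
  have h1 := jj_ne_zero g hz
  have h2 : conj (jj g w) ≠ 0 := by simpa using jj_ne_zero g hw
  have h3 := qq_ne hz hw
  rw [RR, RR, lin_act g v hz, lin_act g v hw, qq_act g hz hw, map_div₀]
  field_simp

/-! ### the logarithm -/

theorem continuous_qq : Continuous fun p : E n × E n => qq p.1 p.2 := by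
  unfold qq
  exact continuous_const.sub (continuous_inner.comp (continuous_snd.prodMk continuous_fst))

theorem continuousOn_logqq :
    ContinuousOn (fun p : E n × E n => log (qq p.1 p.2)) (Ball n ×ˢ Ball n) := by
  refine ContinuousOn.clog continuous_qq.continuousOn ?_
  rintro ⟨z, w⟩ ⟨hz, hw⟩
  exact qq_slit hz hw

theorem continuousOn_jj (g : UG n) : ContinuousOn (jj g) (Ball n) := by
  have : Continuous (g.1 : V1 n → V1 n) :=
    LinearMap.continuous_of_finiteDimensional (g.1 : V1 n →ₗ[ℂ] V1 n)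
  unfold jj
  exact (continuous_snd.comp (this.comp (continuous_id.prodMk continuous_const))).continuousOn

theorem continuousOn_act (g : UG n) : ContinuousOn (act g) (Ball n) := by
  have h0 : Continuous (g.1 : V1 n → V1 n) :=
    LinearMap.continuous_of_finiteDimensional (g.1 : V1 n →ₗ[ℂ] V1 n)
  unfold act
  refine ContinuousOn.smul ((continuousOn_jj g).inv₀ fun z hz => jj_ne_zero g hz) ?_
  exact (continuous_fst.comp (h0.comp (continuous_id.prodMk continuous_const))).continuousOn

theorem exp_dd_log {p z w : E n} (hp : p ∈ Ball n) (hz : z ∈ Ball n) (hw : w ∈ Ball n) :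
    exp (dd (fun z w => log (qq z w)) p z w) =
      qq z w * qq p p / (qq z p * qq p w) := by
  simp only [dd, exp_add, exp_sub]
  rw [exp_log (qq_ne hz hw), exp_log (qq_ne hz hp), exp_log (qq_ne hp hw), exp_log (qq_ne hp hp)]
  field_simp

/-- second difference of `log (1 - <z,w>)` is invariant -/
theorem dd_log_act (g : UG n) {p z w : E n} (hp : p ∈ Ball n) (hz : z ∈ Ball n)
    (hw : w ∈ Ball n) :
    dd (fun z w => log (qq z w)) (act g p) (act g z) (act g w)
      = dd (fun z w => log (qq z w)) p z w := by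
  -- the difference takes values in `2πiℤ`, is continuous and vanishes at `(p,p)`
  set D : E n × E n → ℂ := fun x =>
    dd (fun z w => log (qq z w)) (act g p) (act g x.1) (act g x.2)
      - dd (fun z w => log (qq z w)) p x.1 x.2 with hD
  have hact : ContinuousOn (fun x : E n × E n => (act g x.1, act g x.2)) (Ball n ×ˢ Ball n) := by
    refine ContinuousOn.prodMk ?_ ?_
    · exact (continuousOn_act g).comp continuousOn_fst fun x hx => hx.1
    · exact (continuousOn_act g).comp continuousOn_snd fun x hx => hx.2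
  have hmaps : MapsTo (fun x : E n × E n => (act g x.1, act g x.2)) (Ball n ×ˢ Ball n)
      (Ball n ×ˢ Ball n) := fun x hx => ⟨act_mem g hx.1, act_mem g hx.2⟩
  have hdd : ∀ q ∈ Ball n, ContinuousOn
      (fun x : E n × E n => dd (fun z w => log (qq z w)) q x.1 x.2) (Ball n ×ˢ Ball n) := by
    intro q hq
    unfold dd
    refine ((continuousOn_logqq.sub ?_).sub ?_).add continuousOn_const
    · exact continuousOn_logqq.comp (f := fun x : E n × E n => (x.1, q))
        ((continuous_fst.prodMk continuous_const).continuousOn) fun x hx => ⟨hx.1, hq⟩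
    · exact continuousOn_logqq.comp (f := fun x : E n × E n => (q, x.2))
        ((continuous_const.prodMk continuous_snd).continuousOn) fun x hx => ⟨hq, hx.2⟩
  have hcont : ContinuousOn D (Ball n ×ˢ Ball n) :=
    ((hdd _ (act_mem g hp)).comp hact hmaps).sub (hdd p hp)
  have hexp : ∀ x ∈ Ball n ×ˢ Ball n, exp (D x) = 1 := by
    rintro ⟨z, w⟩ ⟨hz, hw⟩
    simp only [hD]
    rw [exp_sub, exp_dd_log (act_mem g hp) (act_mem g hz) (act_mem g hw), exp_dd_log hp hz hw,
      qq_act g hz hw, qq_act g hp hp, qq_act g hz hp, qq_act g hp hw]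
    have h1 := jj_ne_zero g hz
    have h2 : conj (jj g w) ≠ 0 := by simpa using jj_ne_zero g hw
    have h3 := jj_ne_zero g hp
    have h4 : conj (jj g p) ≠ 0 := by simpa using h3
    have h5 := qq_ne hz hw
    have h6 := qq_ne hz hp
    have h7 := qq_ne hp hw
    have h8 := qq_ne hp hp
    field_simp
  have hconn : IsPreconnected (Ball n ×ˢ Ball n) := by
    refine IsPreconnected.prod ?_ ?_ <;> exact (convex_ball _ _).isPreconnected
  -- `D / (2πi)` has values in the discrete set of integers
  have hval : ∀ x ∈ Ball n ×ˢ Ball n, ∃ k : ℤ, D x = k * (2 * π * I) := fun x hx =>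
    exp_eq_one_iff.1 (hexp x hx)
  have hzero : D (p, p) = 0 := by simp [hD, dd_left]
  have key : ∀ x ∈ Ball n ×ˢ Ball n, D x = 0 := by
    intro x hx
    by_contra hne
    -- norm of D is a continuous function avoiding the interval (0, 2π)
    have hc : ContinuousOn (fun y => ‖D y‖) (Ball n ×ˢ Ball n) := hcont.norm
    have himg := hconn.image _ hc
    have h1 : (0:ℝ) ∈ (fun y => ‖D y‖) '' (Ball n ×ˢ Ball n) := ⟨(p, p), ⟨hp, hp⟩, by simp [hzero]⟩
    have h2 : ‖D x‖ ∈ (fun y => ‖D y‖) '' (Ball n ×ˢ Ball n) := ⟨x, hx, rfl⟩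
    have hle : 2 * π ≤ ‖D x‖ := by
      obtain ⟨k, hk⟩ := hval x hx
      have hk0 : k ≠ 0 := by rintro rfl; apply hne; simpa using hk
      have hk1 : (1:ℝ) ≤ |(k:ℝ)| := by exact_mod_cast Int.one_le_abs hk0
      rw [hk]; simp only [norm_mul, Complex.norm_intCast, norm_I, mul_one, Complex.norm_ofNat,
        Complex.norm_real, Real.norm_eq_abs, abs_of_pos Real.pi_pos]
      nlinarith [Real.pi_pos]
    have h3 : (1:ℝ) ∈ (fun y => ‖D y‖) '' (Ball n ×ˢ Ball n) := by
      refine himg.Icc_subset h1 h2 ⟨by norm_num, ?_⟩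
      linarith [Real.pi_gt_three]
    obtain ⟨y, hy, hy1⟩ := h3
    simp only at hy1
    obtain ⟨k, hk⟩ := hval y hy
    have : k ≠ 0 := by
      rintro rfl
      rw [hk] at hy1; simp at hy1
    have hk1 : (1:ℝ) ≤ |(k:ℝ)| := by exact_mod_cast Int.one_le_abs this
    rw [hk] at hy1
    simp only [norm_mul, Complex.norm_intCast, norm_I, mul_one, Complex.norm_ofNat,
        Complex.norm_real, Real.norm_eq_abs, abs_of_pos Real.pi_pos] at hy1
    nlinarith [Real.pi_gt_three]
  have := key (z, w) ⟨hz, hw⟩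
  simpa [hD, sub_eq_zero] using this

/-! ### the potential -/

/-- `QQ_v(z,w) = - Ein (π R(v;z,w)) - log (1 - <z,w>)` -/
def QQ (Ein : ℂ → ℂ) (v : V1 n) (z w : E n) : ℂ := - Ein (π * RR v z w) - log (qq z w)

/-- the polarized potential of the kernel, normalised at `p` -/
def Psi (Ein : ℂ → ℂ) (p : E n) (v : V1 n) (z w : E n) : ℂ := dd (QQ Ein v) p z w

theorem Psi_left (Ein : ℂ → ℂ) (p : E n) (v : V1 n) (w : E n) : Psi Ein p v p w = 0 :=
  dd_left _ _ _

theorem Psi_right (Ein : ℂ → ℂ) (p : E n) (v : V1 n) (z : E n) : Psi Ein p v z p = 0 :=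
  dd_right _ _ _

theorem Psi_act (Ein : ℂ → ℂ) (g : UG n) (v : V1 n) {p z w : E n} (hp : p ∈ Ball n)
    (hz : z ∈ Ball n) (hw : w ∈ Ball n) :
    Psi Ein (act g p) (g.1 v) (act g z) (act g w) = Psi Ein p v z w := by
  have h := dd_log_act g hp hz hw
  simp only [Psi, dd, QQ] at h ⊢
  rw [RR_act g v hz hw, RR_act g v hz hp, RR_act g v hp hw, RR_act g v hp hp]
  linear_combination -h

theorem Psi_inv (Ein : ℂ → ℂ) (g : UG n) (v : V1 n) {p z w : E n} (hp : p ∈ Ball n)
    (hz : z ∈ Ball n) (hw : w ∈ Ball n) :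
    Psi Ein p (g.1 v) (act g z) (act g w) - Psi Ein p (g.1 v) (act g z) (act g p)
      - Psi Ein p (g.1 v) (act g p) (act g w) + Psi Ein p (g.1 v) (act g p) (act g p)
      = Psi Ein p v z w := by
  rw [← Psi_act Ein g v hp hz hw]
  simp only [Psi, dd]; ring




theorem actOn_hom {G : Type*} [Group G] (ρ : G →* UG n) :
    ActOn (fun (g : G) (z : E n) => act (ρ g) z) (Ball n) where
  mem g z hz := act_mem _ hz
  mul g h z hz := by simp only [map_mul]; exact act_mul _ _ hz
  one z _ := by simp

end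

end Crest.Agent.R272.Pol_898
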