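import Mathlib
import Crest.Agent.R272.E5_528
import Crest.Agent.R272.EBase_641
import Crest.Agent.R272.Pol3_898

-- ▼ part R272/Heis_981
section

set_option autoImplicit false

/-!
# Group theory of step (6) of the evenness theorem (E)

`G` finitely generated, `Z` a central subgroup containing all commutators, `Z` and `G/Z`
torsion free, `c₀ ∈ Z`, `c₀ ≠ 1`: for every `k ≥ 1` there are a finite index subgroup `H ∋ c₀`
and a character `H → ℤ/k` with `c₀ ↦ 1`.
-/

namespace Crest.Agent.R272.Heis_981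

open Subgroup

theorem finiteIndex_comap {G G' : Type*} [Group G] [Group G'] (f : G →* G') (H : Subgroup G')
    [H.FiniteIndex] : (H.comap f).FiniteIndex := by
  constructor
  rw [Subgroup.index_comap]
  exact (inferInstance : (H.subgroupOf f.range).FiniteIndex).index_ne_zero

section class2

variable {G : Type*} [Group G] (Z : Subgroup G)

theorem comm_of_mem (hZ : Z ≤ center G) {z : G} (hz : z ∈ Z) (g : G) : z * g = g * z :=
  ((mem_center_iff.mp (hZ hz)) g).symm

theorem comm_pow_left (hZ : Z ≤ center G) (g h c : G) (hc : c ∈ Z) (e : h * g = c * (g * h))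
    (n : ℕ) : h ^ n * g = c ^ n * (g * h ^ n) := by
  have cc : ∀ x : G, c * x = x * c := comm_of_mem Z hZ hc
  have ccn : ∀ (m : ℕ) (x : G), c ^ m * x = x * c ^ m := fun m x =>
    comm_of_mem Z hZ (Z.pow_mem hc m) x
  induction n with
  | zero => simp
  | succ n ih =>
    calc h ^ (n + 1) * g = h ^ n * (h * g) := by rw [pow_succ]; group
      _ = h ^ n * (c * (g * h)) := by rw [e]
      _ = c * (h ^ n * g) * h := by rw [← mul_assoc, ← cc]; group
      _ = c * (c ^ n * (g * h ^ n)) * h := by rw [ih]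
      _ = c ^ (n + 1) * (g * h ^ (n + 1)) := by rw [pow_succ' c, pow_succ h]; group

theorem mul_pow_class2 (hZ : Z ≤ center G) (g h c : G) (hc : c ∈ Z) (e : h * g = c * (g * h))
    (n : ℕ) : (g * h) ^ n = c ^ (n.choose 2) * (g ^ n * h ^ n) := by
  have ccn : ∀ (m : ℕ) (x : G), c ^ m * x = x * c ^ m := fun m x =>
    comm_of_mem Z hZ (Z.pow_mem hc m) x
  induction n with
  | zero => simp
  | succ n ih =>
    have h1 := comm_pow_left Z hZ g h c hc e n
    calc (g * h) ^ (n + 1) = (c ^ (n.choose 2) * (g ^ n * h ^ n)) * (g * h) := by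
            rw [pow_succ, ih]
      _ = c ^ (n.choose 2) * g ^ n * (h ^ n * g) * h := by group
      _ = c ^ (n.choose 2) * (g ^ n * c ^ n) * (g * h ^ n) * h := by rw [h1]; group
      _ = c ^ (n.choose 2) * (c ^ n * g ^ n) * (g * h ^ n) * h := by rw [ccn n (g ^ n)]
      _ = c ^ (n.choose 2 + n) * (g ^ (n + 1) * h ^ (n + 1)) := by
            rw [pow_add, pow_succ g, pow_succ h]; group
      _ = c ^ ((n + 1).choose 2) * (g ^ (n + 1) * h ^ (n + 1)) := by
            congr 2
            rw [Nat.choose_succ_succ' n 1, Nat.choose_one_right]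
            exact Nat.add_comm _ _

end class2

section char

variable {G : Type*} [Group G] (Z : Subgroup G)

/-- Data of the construction. -/
structure Dat (Z : Subgroup G) : Prop where
  cen : Z ≤ center G
  com : ∀ g h : G, ∃ c ∈ Z, h * g = c * (g * h)
  iso : ∀ (g : G) (n : ℕ), n ≠ 0 → g ^ n ∈ Z → g ∈ Z

/-- the subgroup `Z · G^N` when `N.choose 2` is fine: here as a set of products -/
def HN (Z : Subgroup G) (N : ℕ) (g : G) : Prop := ∃ z ∈ Z, ∃ x : G, g = z * x ^ N

theorem HN_mul {Z : Subgroup G} (D : Dat Z) (N : ℕ) {z₁ x₁ z₂ x₂ : G} (_h₁ : z₁ ∈ Z) (h₂ : z₂ ∈ Z) :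
    ∃ c ∈ Z, (z₁ * x₁ ^ N) * (z₂ * x₂ ^ N) =
      (z₁ * z₂ * (c ^ (N.choose 2))⁻¹) * (x₁ * x₂) ^ N := by
  obtain ⟨c, hc, e⟩ := D.com x₁ x₂
  refine ⟨c, hc, ?_⟩
  rw [mul_pow_class2 Z D.cen x₁ x₂ c hc e N]
  have : z₂ * x₁ ^ N = x₁ ^ N * z₂ := comm_of_mem Z D.cen h₂ _
  calc z₁ * x₁ ^ N * (z₂ * x₂ ^ N) = z₁ * (x₁ ^ N * z₂) * x₂ ^ N := by group
    _ = z₁ * (z₂ * x₁ ^ N) * x₂ ^ N := by rw [this]
    _ = _ := by group

/-- well-definedness: `z₁ x₁^N = z₂ x₂^N` forces `z₂ = z₁ w^N` with `w ∈ Z`, up to `c^(N choose 2)`. -/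
theorem HN_unique {Z : Subgroup G} (D : Dat Z) (N : ℕ) (hN : N ≠ 0) {z₁ x₁ z₂ x₂ : G}
    (h₁ : z₁ ∈ Z) (h₂ : z₂ ∈ Z) (e : z₁ * x₁ ^ N = z₂ * x₂ ^ N) :
    ∃ w ∈ Z, z₂ = z₁ * w ^ N := by
  -- x₁ x₂⁻¹ ∈ Z
  have key : x₂⁻¹ * x₁ ∈ Z := by
    apply D.iso _ N hN
    obtain ⟨c, hc, ec⟩ := D.com x₂⁻¹ x₁
    rw [mul_pow_class2 Z D.cen x₂⁻¹ x₁ c hc ec N]
    refine Z.mul_mem (Z.pow_mem hc _) ?_
    have : x₁ ^ N = z₁⁻¹ * z₂ * x₂ ^ N := by rw [mul_assoc, ← e]; group
    have h3 : z₁⁻¹ * z₂ ∈ Z := Z.mul_mem (Z.inv_mem h₁) h₂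
    rw [this, ← mul_assoc, ← comm_of_mem Z D.cen h3 (x₂⁻¹ ^ N)]
    have : z₁⁻¹ * z₂ * x₂⁻¹ ^ N * x₂ ^ N = z₁⁻¹ * z₂ := by rw [inv_pow]; group
    rw [this]; exact h3
  refine ⟨x₂⁻¹ * x₁, key, ?_⟩
  have hx : x₁ = x₂ * (x₂⁻¹ * x₁) := by group
  set w := x₂⁻¹ * x₁ with hw
  have hcomm : Commute x₂ w := (comm_of_mem Z D.cen key x₂).symm
  rw [hx, hcomm.mul_pow] at e
  have : z₁ * (x₂ ^ N * w ^ N) = z₁ * w ^ N * x₂ ^ N := by
    rw [(hcomm.pow_pow N N).eq]; group
  rw [this] at e
  exact (mul_right_cancel e).symm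

/-- The subgroup `Z · G^N`. -/
def HSub {Z : Subgroup G} (D : Dat Z) (N : ℕ) : Subgroup G where
  carrier := {g | HN Z N g}
  one_mem' := ⟨1, Z.one_mem, 1, by simp⟩
  mul_mem' := by
    rintro _ _ ⟨z₁, h₁, x₁, rfl⟩ ⟨z₂, h₂, x₂, rfl⟩
    obtain ⟨c, hc, e⟩ := HN_mul D N (x₁ := x₁) (x₂ := x₂) h₁ h₂
    exact ⟨_, Z.mul_mem (Z.mul_mem h₁ h₂) (Z.inv_mem (Z.pow_mem hc _)), _, e⟩
  inv_mem' := by
    rintro _ ⟨z, h, x, rfl⟩
    refine ⟨z⁻¹, Z.inv_mem h, x⁻¹, ?_⟩
    rw [mul_inv_rev, inv_pow, comm_of_mem Z D.cen (Z.inv_mem h)]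


theorem le_HSub {Z : Subgroup G} (D : Dat Z) (N : ℕ) : Z ≤ HSub D N := fun z hz =>
  ⟨z, hz, 1, by simp⟩

/-- The character of `Z · G^N` extending a character of `Z` which kills `N`-th and
`N.choose 2`-th powers. -/
theorem exists_extend {Z : Subgroup G} (D : Dat Z) (N : ℕ) (hN : N ≠ 0) {C : Type*} [CommGroup C]
    (f : Z →* C) (hf : ∀ z, f z ^ N = 1) (hf2 : ∀ z, f z ^ (N.choose 2) = 1) :
    ∃ χ : HSub D N →* C, ∀ z : Z, χ ⟨z, le_HSub D N z.2⟩ = f z := by
  classical
  have ch : ∀ g : HSub D N, ∃ z : Z, ∃ x : G, (g : G) = z * x ^ N := by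
    rintro ⟨g, z, hz, x, rfl⟩; exact ⟨⟨z, hz⟩, x, rfl⟩
  choose ζ ξ hζ using ch
  have uniq : ∀ (g : HSub D N) (z : Z) (x : G), (g : G) = z * x ^ N → f z = f (ζ g) := by
    intro g z x e
    rw [hζ g] at e
    obtain ⟨w, hw, ew⟩ := HN_unique D N hN (ζ g).2 z.2 e
    have : z = ζ g * (⟨w, hw⟩ : Z) ^ N := by
      apply Subtype.ext; simpa using ew
    rw [this, map_mul, map_pow, hf, mul_one]
  refine ⟨{ toFun := fun g => f (ζ g), map_one' := ?_, map_mul' := ?_ }, ?_⟩
  · rw [← uniq 1 1 1 (by simp)]; simp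
  · intro g h
    obtain ⟨c, hc, e⟩ := HN_mul D N (x₁ := ξ g) (x₂ := ξ h) (ζ g).2 (ζ h).2
    have := uniq (g * h) (ζ g * ζ h * ((⟨c, hc⟩ : Z) ^ (N.choose 2))⁻¹) (ξ g * ξ h) (by
      rw [Subgroup.coe_mul, hζ g, hζ h, e]; simp)
    rw [← this, map_mul, map_mul, map_inv, map_pow, hf2]; simp
  · intro z
    exact (uniq _ z 1 (by simp)).symm

/-- `Z · G^N` has finite index when `G` is finitely generated. -/
theorem HSub_finiteIndex {Z : Subgroup G} (D : Dat Z) (N : ℕ) (hN : N ≠ 0) [Group.FG G] :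
    (HSub D N).FiniteIndex := by
  classical
  have hnorm : (HSub D N).Normal := by
    constructor
    intro h hh g
    obtain ⟨c, hc, e⟩ := D.com h g
    have : g * h * g⁻¹ = c * h := by
      rw [e]; group
    rw [this]
    exact (HSub D N).mul_mem (le_HSub D N hc) hh
  let cg : CommGroup (G ⧸ HSub D N) :=
    { (inferInstance : Group (G ⧸ HSub D N)) with
      mul_comm := by
        intro a b
        induction a using QuotientGroup.induction_on with | _ a =>
        induction b using QuotientGroup.induction_on with | _ b =>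
        obtain ⟨c, hc, e⟩ := D.com b a
        rw [← QuotientGroup.mk_mul, ← QuotientGroup.mk_mul, e, eq_comm, QuotientGroup.eq]
        have : (b * a)⁻¹ * (c * (b * a)) = c := by
          rw [comm_of_mem Z D.cen hc]; group
        rw [this]
        exact le_HSub D N hc }
  have tor : ∀ a : G ⧸ HSub D N, a ^ N = 1 := by
    intro a
    induction a using QuotientGroup.induction_on with | _ a =>
    rw [← QuotientGroup.mk_pow, QuotientGroup.eq_one_iff]
    exact ⟨1, Z.one_mem, a, by simp⟩
  have hfin : Finite (G ⧸ HSub D N) := by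
    refine @CommGroup.finite_of_fg_isMulTorsion (G ⧸ HSub D N) cg ?_ ?_
    · exact Group.fg_of_surjective (QuotientGroup.mk'_surjective (HSub D N))
    · intro a
      exact isOfFinOrder_iff_pow_eq_one.mpr ⟨N, Nat.pos_of_ne_zero hN, tor a⟩
  exact Subgroup.finiteIndex_of_finite_quotient

theorem Dat.normal {Z : Subgroup G} (D : Dat Z) : Z.Normal := by
  constructor
  intro z hz g
  have : g * z * g⁻¹ = z := by rw [← comm_of_mem Z D.cen hz]; group
  rw [this]; exact hz

theorem normal_of_le_center {Z : Subgroup G} (h : Z ≤ center G) : Z.Normal := by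
  constructor
  intro z hz g
  have : g * z * g⁻¹ = z := by rw [← comm_of_mem Z h hz]; group
  rw [this]; exact hz

/-- `Z` is finitely generated when `G` is. -/
theorem Dat.fg {Z : Subgroup G} (D : Dat Z) [hG : Group.FG G] : Z.FG := by
  classical
  have hn : Z.Normal := D.normal
  let cg : CommGroup (G ⧸ Z) :=
    { (inferInstance : Group (G ⧸ Z)) with
      mul_comm := by
        intro a b
        induction a using QuotientGroup.induction_on with | _ a =>
        induction b using QuotientGroup.induction_on with | _ b =>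
        obtain ⟨c, hc, e⟩ := D.com b a
        rw [← QuotientGroup.mk_mul, ← QuotientGroup.mk_mul, e, eq_comm, QuotientGroup.eq]
        have : (b * a)⁻¹ * (c * (b * a)) = c := by
          rw [comm_of_mem Z D.cen hc]; group
        rw [this]
        exact hc }
  have tf : IsMulTorsionFree (G ⧸ Z) := by
    constructor
    intro n hn0 a b hab
    simp only at hab
    have h1 : (a * b⁻¹) ^ n = 1 := by
      rw [mul_pow, hab, inv_pow, mul_inv_cancel]
    have h2 : a * b⁻¹ = 1 := by
      generalize a * b⁻¹ = q at h1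
      induction q using QuotientGroup.induction_on with | _ g =>
      rw [← QuotientGroup.mk_pow, QuotientGroup.eq_one_iff] at h1
      exact (QuotientGroup.eq_one_iff g).mpr (D.iso g n hn0 h1)
    exact mul_inv_eq_one.mp h2
  have fgA : Group.FG (G ⧸ Z) := Group.fg_of_surjective (QuotientGroup.mk'_surjective Z)
  have : Module.Finite ℤ (Additive (G ⧸ Z)) := Module.Finite.iff_addGroup_fg.mpr inferInstance
  obtain ⟨n, b⟩ := Module.basisOfFiniteTypeTorsionFree' (R := ℤ) (M := Additive (G ⧸ Z))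
  have hx : ∀ i, ∃ x : G, (QuotientGroup.mk x : G ⧸ Z) = (b i).toMul := fun i =>
    QuotientGroup.mk_surjective _
  choose x hx using hx
  -- `X₀ = ⟨x_i⟩` maps onto `G/Z`
  have hX : ∀ g : G, ∃ y ∈ closure (Set.range x), g * y⁻¹ ∈ Z := by
    intro g
    have hsp : (Additive.ofMul (QuotientGroup.mk g : G ⧸ Z)) ∈
        Submodule.span ℤ (Set.range b) := by rw [b.span_eq]; trivial
    have key : ∀ a : Additive (G ⧸ Z), a ∈ Submodule.span ℤ (Set.range b) →
        ∃ y ∈ closure (Set.range x), (QuotientGroup.mk y : G ⧸ Z) = a.toMul := by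
      intro a ha
      induction ha using Submodule.span_induction with
      | mem a ha =>
        obtain ⟨i, rfl⟩ := ha
        exact ⟨x i, subset_closure ⟨i, rfl⟩, hx i⟩
      | zero => exact ⟨1, one_mem _, rfl⟩
      | add a c _ _ iha ihc =>
        obtain ⟨y, hy, ey⟩ := iha
        obtain ⟨w, hw, ew⟩ := ihc
        exact ⟨y * w, mul_mem hy hw, by rw [QuotientGroup.mk_mul, ey, ew]; rfl⟩
      | smul m a _ iha =>
        obtain ⟨y, hy, ey⟩ := iha
        exact ⟨y ^ m, zpow_mem hy _, by rw [QuotientGroup.mk_zpow, ey]; rfl⟩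
    obtain ⟨y, hy, ey⟩ := key _ hsp
    refine ⟨y, hy, ?_⟩
    have : (QuotientGroup.mk (g * y⁻¹) : G ⧸ Z) = 1 := by
      rw [QuotientGroup.mk_mul, QuotientGroup.mk_inv, ey]; simp
    exact (QuotientGroup.eq_one_iff _).mp this
  choose y hy hyz using hX
  choose c hc ec using D.com
  obtain ⟨S, hS⟩ := hG.out
  -- the finite generating set
  let T : Set G := (fun s => s * (y s)⁻¹) '' (S : Set G) ∪
    Set.range (fun p : Fin n × Fin n => c (x p.1) (x p.2))
  have hT : T.Finite := ((S.finite_toSet).image _).union (Set.finite_range _)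
  have hTZ : closure T ≤ Z := by
    rw [closure_le]
    rintro _ (⟨s, _, rfl⟩ | ⟨p, rfl⟩)
    · exact hyz s
    · exact hc _ _
  have hn0 : (closure T).Normal := normal_of_le_center (hTZ.trans D.cen)
  -- `Q = G / ⟨T⟩` is commutative
  have hgen : ∀ g : G, ∃ w ∈ closure (Set.range x),
      (QuotientGroup.mk g : G ⧸ closure T) = QuotientGroup.mk w := by
    intro g
    have hg : g ∈ closure (S : Set G) := by rw [hS]; trivial
    induction hg using closure_induction with
    | mem s hs =>
      refine ⟨y s, hy s, ?_⟩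
      rw [eq_comm, QuotientGroup.eq]
      have h1 : s * (y s)⁻¹ ∈ closure T := subset_closure (Or.inl ⟨s, hs, rfl⟩)
      have : (y s)⁻¹ * s = s * (y s)⁻¹ := by
        have := comm_of_mem Z D.cen (hyz s) (y s)
        have h2 : s * (y s)⁻¹ * y s = s := by group
        rw [h2] at this
        calc (y s)⁻¹ * s = (y s)⁻¹ * (y s * (s * (y s)⁻¹)) := by rw [← this]
          _ = s * (y s)⁻¹ := by group
      rw [this]; exact h1
    | one => exact ⟨1, one_mem _, rfl⟩
    | mul a d _ _ iha ihd =>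
      obtain ⟨w, hw, ew⟩ := iha
      obtain ⟨v, hv, ev⟩ := ihd
      exact ⟨w * v, mul_mem hw hv, by rw [QuotientGroup.mk_mul, ew, ev]; rfl⟩
    | inv a _ iha =>
      obtain ⟨w, hw, ew⟩ := iha
      exact ⟨w⁻¹, inv_mem hw, by rw [QuotientGroup.mk_inv, ew]; rfl⟩
  have hcomm : ∀ u ∈ closure (Set.range x), ∀ v ∈ closure (Set.range x),
      (QuotientGroup.mk u : G ⧸ closure T) * QuotientGroup.mk v =
        QuotientGroup.mk v * QuotientGroup.mk u := by
    intro u hu v hv
    induction hu, hv using closure_induction₂ with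
    | mem a d ha hd =>
      obtain ⟨i, rfl⟩ := ha
      obtain ⟨j, rfl⟩ := hd
      rw [← QuotientGroup.mk_mul, ← QuotientGroup.mk_mul, ec (x j) (x i), eq_comm,
        QuotientGroup.eq]
      have h1 : c (x j) (x i) ∈ closure T := subset_closure (Or.inr ⟨(j, i), rfl⟩)
      have : (x j * x i)⁻¹ * (c (x j) (x i) * (x j * x i)) = c (x j) (x i) := by
        rw [comm_of_mem Z D.cen (hc _ _)]; group
      rw [this]; exact h1
    | one_left a _ => simp
    | one_right a _ => simp
    | mul_left a b d _ _ _ h1 h2 =>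
      rw [QuotientGroup.mk_mul, mul_assoc, h2, ← mul_assoc, h1, mul_assoc]
    | mul_right a b d _ _ _ h1 h2 =>
      rw [QuotientGroup.mk_mul, ← mul_assoc, h1, mul_assoc, h2, mul_assoc]
    | inv_left a b _ _ h => 
      rw [QuotientGroup.mk_inv]
      exact (show Commute _ _ from h).inv_left
    | inv_right a b _ _ h =>
      rw [QuotientGroup.mk_inv]
      exact (show Commute _ _ from h).inv_right
  let cq : CommGroup (G ⧸ closure T) :=
    { (inferInstance : Group (G ⧸ closure T)) with
      mul_comm := by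
        intro a d
        induction a using QuotientGroup.induction_on with | _ a =>
        induction d using QuotientGroup.induction_on with | _ d =>
        obtain ⟨w, hw, ew⟩ := hgen a
        obtain ⟨v, hv, ev⟩ := hgen d
        rw [ew, ev]
        exact hcomm w hw v hv }
  let σ : Additive (G ⧸ Z) →ₗ[ℤ] Additive (G ⧸ closure T) :=
    b.constr ℤ (fun i => Additive.ofMul (QuotientGroup.mk (x i) : G ⧸ closure T))
  have hσ : ∀ i, σ (b i) = Additive.ofMul (QuotientGroup.mk (x i) : G ⧸ closure T) := fun i =>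
    b.constr_basis ℤ _ i
  let ψ : G →* (G ⧸ closure T) :=
    (MonoidHom.toAdditive.symm σ.toAddMonoidHom).comp (QuotientGroup.mk' Z)
  have hψ : ∀ g, ψ g = (σ (Additive.ofMul (QuotientGroup.mk g : G ⧸ Z))).toMul := fun g => rfl
  have hψx : ∀ w ∈ closure (Set.range x), ψ w = QuotientGroup.mk w := by
    intro w hw
    induction hw using closure_induction with
    | mem a ha =>
      obtain ⟨i, rfl⟩ := ha
      rw [hψ, hx i]
      exact congrArg Additive.toMul (hσ i)
    | one => rw [map_one]; rfl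
    | mul a d _ _ h1 h2 => rw [map_mul, h1, h2]; rfl
    | inv a _ h1 => rw [map_inv, h1]; rfl
  have hZ0 : Z ≤ closure T := by
    intro z hz
    -- ψ z = 1 and mk z = ψ z
    have h1 : ψ z = 1 := by
      rw [hψ, (QuotientGroup.eq_one_iff z).mpr hz]
      exact congrArg Additive.toMul (map_zero σ)
    have h2 : ∀ g : G, ψ g = QuotientGroup.mk g := by
      intro g
      have hg : g ∈ closure (S : Set G) := by rw [hS]; trivial
      induction hg using closure_induction with
      | mem s hs =>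
        have e1 : (QuotientGroup.mk s : G ⧸ Z) = QuotientGroup.mk (y s) := by
          rw [eq_comm, QuotientGroup.eq]
          have := comm_of_mem Z D.cen (hyz s) (y s)
          have h2 : s * (y s)⁻¹ * y s = s := by group
          rw [h2] at this
          have : (y s)⁻¹ * s = s * (y s)⁻¹ := by
            calc (y s)⁻¹ * s = (y s)⁻¹ * (y s * (s * (y s)⁻¹)) := by rw [← this]
              _ = s * (y s)⁻¹ := by group
          rw [this]; exact hyz s
        have e2 : (QuotientGroup.mk s : G ⧸ closure T) = QuotientGroup.mk (y s) := by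
          rw [eq_comm, QuotientGroup.eq]
          have := comm_of_mem Z D.cen (hyz s) (y s)
          have h2 : s * (y s)⁻¹ * y s = s := by group
          rw [h2] at this
          have : (y s)⁻¹ * s = s * (y s)⁻¹ := by
            calc (y s)⁻¹ * s = (y s)⁻¹ * (y s * (s * (y s)⁻¹)) := by rw [← this]
              _ = s * (y s)⁻¹ := by group
          rw [this]; exact subset_closure (Or.inl ⟨s, hs, rfl⟩)
        rw [e2, ← hψx _ (hy s), hψ, hψ, e1]
      | one => rw [map_one]; rfl
      | mul a d _ _ h1 h2 => rw [map_mul, h1, h2]; rfl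
      | inv a _ h1 => rw [map_inv, h1]; rfl
    rw [h2 z] at h1
    exact (QuotientGroup.eq_one_iff z).mp h1
  have : Z = closure T := le_antisymm hZ0 hTZ
  rw [this]
  exact (Subgroup.fg_iff _).mpr ⟨T, rfl, hT⟩

/-- A nontrivial element of `Z` is seen by a character to `ℤ`. -/
theorem Dat.exists_int {Z : Subgroup G} (D : Dat Z) [hG : Group.FG G]
    (tf : ∀ z ∈ Z, ∀ n : ℕ, n ≠ 0 → z ^ n = 1 → z = 1) (c₀ : Z) (hc₀ : c₀ ≠ 1) :
    ∃ f : Z →* Multiplicative ℤ, f c₀ ≠ 1 := by
  classical
  let cz : CommGroup Z :=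
    { (inferInstance : Group Z) with
      mul_comm := fun a b => Subtype.ext (comm_of_mem Z D.cen a.2 b) }
  have : Group.FG Z := (Group.fg_iff_subgroup_fg Z).mpr D.fg
  have tf' : IsMulTorsionFree Z := by
    constructor
    intro n hn0 a b hab
    simp only at hab
    have h1 : (a * b⁻¹) ^ n = 1 := by
      rw [mul_pow, hab, inv_pow, mul_inv_cancel]
    have h2 : a * b⁻¹ = 1 := Subtype.ext (tf _ (a * b⁻¹).2 n hn0 (by
      have := congrArg Subtype.val h1
      simpa using this))
    exact mul_inv_eq_one.mp h2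
  have : Module.Finite ℤ (Additive Z) := Module.Finite.iff_addGroup_fg.mpr inferInstance
  obtain ⟨n, b⟩ := Module.basisOfFiniteTypeTorsionFree' (R := ℤ) (M := Additive Z)
  have hne : b.repr (Additive.ofMul c₀) ≠ 0 := by
    intro h
    apply hc₀
    have := (LinearEquiv.map_eq_zero_iff b.repr).mp h
    exact this
  obtain ⟨i, hi⟩ := Finsupp.ne_iff.mp hne
  refine ⟨AddMonoidHom.toMultiplicativeRight ((b.coord i).toAddMonoidHom), ?_⟩
  intro h
  apply hi
  exact congrArg Multiplicative.toAdd h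

/-- **Main theorem.** -/
theorem Dat.exists_char {Z : Subgroup G} (D : Dat Z) [hG : Group.FG G]
    (tf : ∀ z ∈ Z, ∀ n : ℕ, n ≠ 0 → z ^ n = 1 → z = 1) (c₀ : G) (hc : c₀ ∈ Z) (hc₀ : c₀ ≠ 1)
    (k : ℕ) (hk : k ≠ 0) :
    ∃ (H : Subgroup G) (_ : H.FiniteIndex) (hcH : c₀ ∈ H)
      (χ : H →* Multiplicative (ZMod k)), χ ⟨c₀, hcH⟩ = Multiplicative.ofAdd 1 := by
  classical
  obtain ⟨f, hf⟩ := D.exists_int tf ⟨c₀, hc⟩ (fun h => hc₀ (congrArg Subtype.val h))
  set t : ℤ := (f ⟨c₀, hc⟩).toAdd with ht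
  have ht0 : t ≠ 0 := fun h => hf (by rw [ht] at h; exact congrArg Multiplicative.ofAdd h)
  have hm0 : t.natAbs ≠ 0 := Int.natAbs_ne_zero.mpr ht0
  set M : ℕ := t.natAbs * k with hM
  have hM0 : M ≠ 0 := Nat.mul_ne_zero hm0 hk
  have : NeZero M := ⟨hM0⟩
  have : NeZero k := ⟨hk⟩
  let red : Multiplicative ℤ →* Multiplicative (ZMod M) :=
    AddMonoidHom.toMultiplicative (Int.castAddHom (ZMod M))
  have hred : ∀ x : ℤ, red (Multiplicative.ofAdd x) = Multiplicative.ofAdd (x : ZMod M) :=
    fun x => rfl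
  have hpow : ∀ (x : Multiplicative (ZMod M)) (j : ℕ), x ^ (M * j) = 1 := by
    intro x j
    apply Multiplicative.toAdd.injective
    rw [toAdd_pow, toAdd_one, nsmul_eq_mul]
    simp
  have hN0 : 2 * M ≠ 0 := by omega
  obtain ⟨χ₀, hχ₀⟩ := exists_extend D (2 * M) hN0 (red.comp f)
    (fun z => by rw [mul_comm]; exact hpow _ _)
    (fun z => by
      have : (2 * M).choose 2 = M * (2 * M - 1) := by
        rw [Nat.choose_two_right]
        rw [mul_assoc, Nat.mul_div_cancel_left _ (by norm_num : 0 < 2)]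
      rw [this]; exact hpow _ _)
  -- the embedding `ZMod k → ZMod M`, `1 ↦ t`
  let ι : ZMod k →+ ZMod M := ZMod.lift k ⟨zmultiplesHom (ZMod M) (t : ZMod M), by
    have : (zmultiplesHom (ZMod M) (t : ZMod M)) (k : ℤ) = ((M * t.sign : ℤ) : ZMod M) := by
      rw [zmultiplesHom_apply, zsmul_eq_mul]
      have h1 : (M : ℤ) * t.sign = k * t := by
        rw [hM]; push_cast
        have := Int.sign_mul_natAbs t
        have h2 : (t.natAbs : ℤ) * t.sign = t := by rw [mul_comm]; exact this
        calc (|t| * (k : ℤ)) * t.sign = k * ((t.natAbs : ℤ) * t.sign) := by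
              rw [Int.natCast_natAbs]; ring
          _ = k * t := by rw [h2]
      rw [h1]; push_cast; rfl
    rw [this]; simp⟩
  have hι1 : ∀ j : ℤ, ι (j : ZMod k) = ((j * t : ℤ) : ZMod M) := by
    intro j
    have := ZMod.lift_coe k (⟨zmultiplesHom (ZMod M) (t : ZMod M), by
      have : (zmultiplesHom (ZMod M) (t : ZMod M)) (k : ℤ) = ((M * t.sign : ℤ) : ZMod M) := by
        rw [zmultiplesHom_apply, zsmul_eq_mul]
        have h1 : (M : ℤ) * t.sign = k * t := by
          rw [hM]; push_cast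
          have := Int.sign_mul_natAbs t
          have h2 : (t.natAbs : ℤ) * t.sign = t := by rw [mul_comm]; exact this
          calc (|t| * (k : ℤ)) * t.sign = k * ((t.natAbs : ℤ) * t.sign) := by
                rw [Int.natCast_natAbs]; ring
            _ = k * t := by rw [h2]
        rw [h1]; push_cast; rfl
      rw [this]; simp⟩ : {f : ℤ →+ ZMod M // f k = 0}) j
    rw [this]
    simp [zmultiplesHom_apply]
  have hιinj : Function.Injective ι := by
    rw [injective_iff_map_eq_zero]
    intro a ha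
    obtain ⟨j, rfl⟩ := ZMod.intCast_surjective a
    rw [hι1, ZMod.intCast_zmod_eq_zero_iff_dvd] at ha
    rw [ZMod.intCast_zmod_eq_zero_iff_dvd]
    have h1 : ((k : ℤ) * t) ∣ j * t := by
      have h2 : ((k : ℤ) * t) ∣ (M : ℤ) := by
        rw [hM]; push_cast
        rw [mul_comm]
        exact mul_dvd_mul_right (by rw [dvd_abs]) _
      exact h2.trans ha
    exact (mul_dvd_mul_iff_right ht0).mp h1
  let ι' : Multiplicative (ZMod k) →* Multiplicative (ZMod M) := AddMonoidHom.toMultiplicative ι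
  have hι' : Function.Injective ι' := hιinj
  have hval : χ₀ ⟨c₀, le_HSub D (2 * M) hc⟩ = ι' (Multiplicative.ofAdd 1) := by
    have h1 := hχ₀ ⟨c₀, hc⟩
    rw [h1]
    have h2 := hι1 1
    simp only [Int.cast_one, one_mul] at h2
    change red (f ⟨c₀, hc⟩) = Multiplicative.ofAdd (ι 1)
    rw [h2]
    rfl
  let K : Subgroup (HSub D (2 * M)) := ι'.range.comap χ₀
  have hHfin := HSub_finiteIndex D (2 * M) hN0
  have hKfin : K.FiniteIndex := by
    have : ι'.range.FiniteIndex := inferInstance
    exact finiteIndex_comap _ _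
  let e1 : K ≃* K.map (HSub D (2 * M)).subtype :=
    K.equivMapOfInjective (HSub D (2 * M)).subtype Subtype.val_injective
  let g1 : K →* ι'.range := (χ₀.comp K.subtype).codRestrict ι'.range (fun x => x.2)
  let e2 : Multiplicative (ZMod k) ≃* ι'.range := MonoidHom.ofInjective hι'
  have hcK : (⟨c₀, le_HSub D (2 * M) hc⟩ : HSub D (2 * M)) ∈ K := ⟨_, hval.symm⟩
  refine ⟨K.map (HSub D (2 * M)).subtype, ?_, ⟨_, hcK, rfl⟩,
    e2.symm.toMonoidHom.comp (g1.comp e1.symm.toMonoidHom), ?_⟩
  · constructor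
    rw [Subgroup.index_map_subtype]
    exact mul_ne_zero hKfin.index_ne_zero hHfin.index_ne_zero
  · change e2.symm (g1 (e1.symm _)) = _
    rw [MulEquiv.symm_apply_eq]
    have : e1.symm ⟨c₀, ⟨_, hcK, rfl⟩⟩ = ⟨⟨c₀, le_HSub D (2 * M) hc⟩, hcK⟩ := by
      rw [MulEquiv.symm_apply_eq]; rfl
    rw [this]
    apply Subtype.ext
    exact hval

end char

section heis

/-- The Heisenberg group of a bilinear form `ω` on a real vector space:
`(v,t)(w,s) = (v+w, t+s+ω(v,w))`. -/
@[ext] structure Heis {V : Type*} [AddCommGroup V] [Module ℝ V] (ω : V →ₗ[ℝ] V →ₗ[ℝ] ℝ) where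
  v : V
  t : ℝ

variable {V : Type*} [AddCommGroup V] [Module ℝ V] (ω : V →ₗ[ℝ] V →ₗ[ℝ] ℝ)

instance : Group (Heis ω) where
  mul a b := ⟨a.v + b.v, a.t + b.t + ω a.v b.v⟩
  one := ⟨0, 0⟩
  inv a := ⟨-a.v, -a.t + ω a.v a.v⟩
  mul_assoc a b c := by
    ext
    · exact add_assoc _ _ _
    · change (a.t + b.t + ω a.v b.v) + c.t + ω (a.v + b.v) c.v =
        a.t + (b.t + c.t + ω b.v c.v) + ω a.v (b.v + c.v)
      rw [map_add, map_add, LinearMap.add_apply]; ring
  one_mul a := by
    ext
    · exact zero_add _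
    · change 0 + a.t + ω 0 a.v = a.t
      simp
  mul_one a := by
    ext
    · exact add_zero _
    · change a.t + 0 + ω a.v 0 = a.t
      simp
  inv_mul_cancel a := by
    ext
    · exact neg_add_cancel _
    · change (-a.t + ω a.v a.v) + a.t + ω (-a.v) a.v = 0
      simp

@[simp] theorem Heis.mul_v (a b : Heis ω) : (a * b).v = a.v + b.v := rfl
@[simp] theorem Heis.mul_t (a b : Heis ω) : (a * b).t = a.t + b.t + ω a.v b.v := rfl
@[simp] theorem Heis.one_v : (1 : Heis ω).v = 0 := rfl
@[simp] theorem Heis.one_t : (1 : Heis ω).t = 0 := rfl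
@[simp] theorem Heis.inv_v (a : Heis ω) : (a⁻¹).v = -a.v := rfl

theorem Heis.pow_v (a : Heis ω) (n : ℕ) : (a ^ n).v = n • a.v := by
  induction n with
  | zero => simp
  | succ n ih => rw [pow_succ, Heis.mul_v, ih, succ_nsmul]

theorem Heis.pow_t (a : Heis ω) (ha : a.v = 0) (n : ℕ) : (a ^ n).t = n * a.t := by
  induction n with
  | zero => simp
  | succ n ih => rw [pow_succ, Heis.mul_t, ih, Heis.pow_v, ha]; simp; ring

/-- The horizontal part of a subgroup of the Heisenberg group. -/
def cenPart (G : Subgroup (Heis ω)) : Subgroup G where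
  carrier := {g | (g : Heis ω).v = 0}
  one_mem' := rfl
  mul_mem' := by
    intro a b ha hb
    change ((a : Heis ω) * b).v = 0
    rw [Heis.mul_v, ha, hb, add_zero]
  inv_mem' := by
    intro a ha
    change ((a : Heis ω)⁻¹).v = 0
    rw [Heis.inv_v, ha, neg_zero]

theorem mem_cenPart {G : Subgroup (Heis ω)} (g : G) : g ∈ cenPart ω G ↔ (g : Heis ω).v = 0 :=
  Iff.rfl

theorem cenPart_dat (G : Subgroup (Heis ω)) : Dat (cenPart ω G) where
  cen := by
    intro z hz
    rw [mem_center_iff]
    intro g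
    apply Subtype.ext
    have hz' : (z : Heis ω).v = 0 := hz
    change (g : Heis ω) * z = z * g
    ext
    · rw [Heis.mul_v, Heis.mul_v, add_comm]
    · rw [Heis.mul_t, Heis.mul_t, hz']; simp; ring
  com := by
    intro g h
    refine ⟨h * g * (g * h)⁻¹, ?_, by group⟩
    rw [mem_cenPart]
    change (((h : Heis ω) * g) * ((g : Heis ω) * h)⁻¹).v = 0
    rw [Heis.mul_v, Heis.inv_v, Heis.mul_v, Heis.mul_v]; abel
  iso := by
    intro g n hn h
    rw [mem_cenPart] at h ⊢
    have h' : ((g : Heis ω) ^ n).v = 0 := h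
    rw [Heis.pow_v, ← Nat.cast_smul_eq_nsmul ℝ] at h'
    exact (smul_eq_zero.mp h').resolve_left (by exact_mod_cast hn)

/-- **Corollary (step (6) of the evenness theorem).** `Γ` finitely generated, `P : Γ → Heis(ℝ)`
a homomorphism, `c₀ ≠ 0`.  Then for every `k ≥ 1` there are a finite index subgroup `Γ''` and a
character `Γ'' → ℤ/k` with value `1` at every `γ` with `P γ = (0, c₀)`. -/
theorem exists_char_heis {Γ : Type*} [Group Γ] [Group.FG Γ] (P : Γ →* Heis ω) (c₀ : ℝ)
    (hc₀ : c₀ ≠ 0) (k : ℕ) (hk : k ≠ 0) :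
    ∃ (Γ₁ : Subgroup Γ) (_ : Γ₁.FiniteIndex) (χ : Γ₁ →* Multiplicative (ZMod k)),
      ∀ γ : Γ, P γ = ⟨0, c₀⟩ → ∃ h : γ ∈ Γ₁, χ ⟨γ, h⟩ = Multiplicative.ofAdd 1 := by
  classical
  by_cases hex : ∃ γ : Γ, P γ = ⟨0, c₀⟩
  · have : Group.FG P.range := Group.fg_of_surjective P.rangeRestrict_surjective
    obtain ⟨γ₀, hγ₀⟩ := hex
    let c : P.range := ⟨⟨0, c₀⟩, ⟨γ₀, hγ₀⟩⟩
    obtain ⟨H, hH, hcH, χ, hχ⟩ := (cenPart_dat ω P.range).exists_char
      (fun z hz n hn hzn => by
        have hz' : (z : Heis ω).v = 0 := hz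
        have h1 : ((z : Heis ω) ^ n).t = 0 := by
          have := congrArg (fun g : P.range => (g : Heis ω).t) hzn
          exact this
        rw [Heis.pow_t ω _ hz'] at h1
        have h2 : (z : Heis ω).t = 0 :=
          (mul_eq_zero.mp h1).resolve_left (by exact_mod_cast hn)
        exact Subtype.ext (Heis.ext hz' h2)) c rfl
      (fun h => hc₀ (congrArg (fun g : P.range => (g : Heis ω).t) h)) k hk
    refine ⟨H.comap P.rangeRestrict, finiteIndex_comap _ _,
      χ.comp (P.rangeRestrict.subgroupComap H), ?_⟩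
    intro γ hγ
    have e : P.rangeRestrict γ = c := Subtype.ext hγ
    refine ⟨by rw [mem_comap, e]; exact hcH, ?_⟩
    rw [← hχ]
    change χ _ = χ _
    congr 1
    apply Subtype.ext
    exact e
  · exact ⟨⊤, inferInstance, 1, fun γ hγ => (hex ⟨γ, hγ⟩).elim⟩

end heis

end Crest.Agent.R272.Heis_981
end

-- ▼ part R272/E7_528
section

/-!
R272, division E, step (T) = E7 (helper528): root extraction from 981's E-HEIS.

`C (g g') = C g * C g' * exp (sig g g')`, `sig` a complex 2-cocycle whose imaginary part is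
virtually a sum of cup products + coboundary ⟹ on a finite index subgroup logarithms
`l g` of `C g` can be chosen with `l (g g') - l g - l g' - sig g g' ∈ 2πi k ℤ`.
-/

set_option autoImplicit false

noncomputable section

namespace Crest.Agent.R272.E7_528

open Crest.Agent.R272.E5_528 Crest.Agent.R272.Heis_981
open scoped Real

variable {G : Type*} [Group G]

/-- the group of pairs `(g, l)`, `exp l = C g` -/
def Gt (C : G → ℂ) (sig : G → G → ℂ) (hs : IsCoc sig)
    (hC : ∀ g, C g ≠ 0) (hCC : ∀ g g', C (g * g') = C g * C g' * Complex.exp (sig g g')) :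
    letI := Ext.group hs; Subgroup (Ext sig) :=
  letI := Ext.group hs
  { carrier := {x | Complex.exp x.t = C x.g}
    mul_mem' := by
      intro x y hx hy
      change Complex.exp (x.t + y.t + sig x.g y.g) = C (x.g * y.g)
      rw [Complex.exp_add, Complex.exp_add, hCC]
      rw [show Complex.exp x.t = C x.g from hx, show Complex.exp y.t = C y.g from hy]
    one_mem' := by
      change Complex.exp (-sig 1 1) = C 1
      have h := hCC 1 1
      rw [mul_one] at h
      have h1 : C 1 * Complex.exp (sig 1 1) = 1 := by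
        have h2 : C 1 * (C 1 * Complex.exp (sig 1 1)) = C 1 * 1 := by
          rw [← mul_assoc, ← h, mul_one]
        exact mul_left_cancel₀ (hC 1) h2
      rw [Complex.exp_neg]
      exact (eq_inv_of_mul_eq_one_left h1).symm
    inv_mem' := by
      intro x hx
      change Complex.exp (-x.t - sig x.g⁻¹ x.g - sig 1 1) = C x.g⁻¹
      have hx' : Complex.exp x.t = C x.g := hx
      have h := hCC x.g⁻¹ x.g
      rw [inv_mul_cancel] at h
      have h1 : C 1 = Complex.exp (-sig 1 1) := by
        have h := hCC 1 1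
        rw [mul_one] at h
        have h1 : C 1 * Complex.exp (sig 1 1) = 1 := by
          have h2 : C 1 * (C 1 * Complex.exp (sig 1 1)) = C 1 * 1 := by
            rw [← mul_assoc, ← h, mul_one]
          exact mul_left_cancel₀ (hC 1) h2
        rw [Complex.exp_neg]
        exact (eq_inv_of_mul_eq_one_left h1)
      rw [h1] at h
      have hne := Complex.exp_ne_zero (sig x.g⁻¹ x.g)
      have hne2 := hC x.g
      have : Complex.exp (-x.t - sig x.g⁻¹ x.g - sig 1 1)
          = Complex.exp (-sig 1 1) * (Complex.exp (sig x.g⁻¹ x.g))⁻¹ * (Complex.exp x.t)⁻¹ := by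
        rw [← Complex.exp_neg, ← Complex.exp_neg, ← Complex.exp_add, ← Complex.exp_add]
        congr 1; ring
      rw [this, h, hx']
      field_simp }

/-- **E7, main form** (429's (6)). -/
theorem root [Group.FG G] (C : G → ℂ) (hC : ∀ g, C g ≠ 0) (sig : G → G → ℂ) (hs : IsCoc sig)
    (hCC : ∀ g g', C (g * g') = C g * C g' * Complex.exp (sig g g'))
    (hv : Virt (fun g g' => (sig g g').im)) (k : ℕ) (hk : k ≠ 0) :
    ∃ (H : Subgroup G) (_ : H.FiniteIndex) (l : H → ℂ), (∀ g, Complex.exp (l g) = C g) ∧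
      ∀ g g' : H, ∃ m : ℤ, l (g * g') = l g + l g' + sig g g' + 2 * π * Complex.I * (k * m) := by
  classical
  obtain ⟨K, hK, r, a, b, φ, hcup⟩ := hv
  -- restrict everything to K
  let CK : K → ℂ := fun g => C g
  let sK : K → K → ℂ := fun g h => sig g h
  have hsK : IsCoc sK := fun g h k => hs g h k
  have hCK : ∀ g, CK g ≠ 0 := fun g => hC g
  have hCCK : ∀ g g', CK (g * g') = CK g * CK g' * Complex.exp (sK g g') :=
    fun g g' => hCC g g'
  let _ := Ext.group hsK
  let E : Subgroup (Ext sK) := Gt CK sK hsK hCK hCCK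
  have hmemE : ∀ x : Ext sK, x ∈ E ↔ Complex.exp x.t = CK x.g := fun _ => Iff.rfl
  have hC1 : Complex.exp (-sK 1 1) = CK 1 := (Gt CK sK hsK hCK hCCK).one_mem'
  -- projection
  let p : E →* K :=
    { toFun := fun x => x.1.g
      map_one' := rfl
      map_mul' := fun _ _ => rfl }
  -- the central ℤ
  let z : Multiplicative ℤ →* E :=
    { toFun := fun n => ⟨⟨1, -sK 1 1 + 2 * π * Complex.I * (n.toAdd : ℂ)⟩, by
        rw [hmemE, Complex.exp_add, hC1]
        have : Complex.exp (2 * π * Complex.I * (n.toAdd : ℂ)) = 1 :=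
          Complex.exp_eq_one_iff.mpr ⟨n.toAdd, by ring⟩
        rw [this, mul_one]⟩
      map_one' := by
        apply Subtype.ext
        apply Ext.ext
        · rfl
        · change -sK 1 1 + 2 * π * Complex.I * ((Multiplicative.toAdd (1 : Multiplicative ℤ) : ℤ) : ℂ)
            = -sK 1 1
          simp
      map_mul' := by
        intro m n
        apply Subtype.ext
        apply Ext.ext
        · exact (mul_one _).symm
        · change -sK 1 1 + 2 * π * Complex.I * ((m.toAdd + n.toAdd : ℤ) : ℂ)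
            = (-sK 1 1 + 2 * π * Complex.I * (m.toAdd : ℂ))
              + (-sK 1 1 + 2 * π * Complex.I * (n.toAdd : ℂ)) + sK 1 1
          push_cast; ring }
  let c : E := z (Multiplicative.ofAdd 1)
  have hcz : ∀ n : ℤ, c ^ n = z (Multiplicative.ofAdd n) := by
    intro n
    rw [← map_zpow]; congr 1
    apply Multiplicative.toAdd.injective
    simp
  -- two elements of E over the same g differ by a power of c
  have hfib : ∀ x y : E, p x = p y → ∃ n : ℤ, x = y * c ^ n ∧
      x.1.t = y.1.t + 2 * π * Complex.I * n := by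
    intro x y hxy
    have hx := (hmemE _).mp x.2
    have hy := (hmemE _).mp y.2
    have hg : x.1.g = y.1.g := hxy
    rw [hg, ← hy] at hx
    obtain ⟨n, hn⟩ := Complex.exp_eq_exp_iff_exists_int.mp hx
    refine ⟨n, ?_, by rw [hn]; ring⟩
    rw [hcz]
    apply Subtype.ext
    apply Ext.ext
    · change x.1.g = y.1.g * 1
      rw [mul_one]; exact hg
    · change x.1.t = y.1.t + (-sK 1 1 + 2 * π * Complex.I * (n : ℂ)) + sK y.1.g 1
      have h1 : sK y.1.g 1 = sK 1 1 := hsK.one_right _
      rw [h1, hn]; ring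
  have hpsurj : Function.Surjective p := by
    intro g
    refine ⟨⟨⟨g, Complex.log (CK g)⟩, ?_⟩, rfl⟩
    rw [hmemE]; exact Complex.exp_log (hCK g)
  -- E is finitely generated
  have hKfg : Group.FG K := inferInstance
  have hEfg : Group.FG E := by
    obtain ⟨S, hS⟩ := hKfg.out
    choose s hsec using hpsurj
    refine ⟨⟨insert c (S.image s), ?_⟩⟩
    rw [eq_top_iff]
    rintro x -
    set Q := Subgroup.closure ((insert c (S.image s) : Finset E) : Set E) with hQ
    have hcQ : c ∈ Q := Subgroup.subset_closure (by simp)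
    have hmap : Q.map p = ⊤ := by
      rw [eq_top_iff, ← hS, Subgroup.closure_le]
      intro g hg
      refine ⟨s g, Subgroup.subset_closure ?_, hsec g⟩
      simp only [Finset.coe_insert, Finset.coe_image]
      exact Or.inr ⟨g, hg, rfl⟩
    obtain ⟨y, hy, hyx⟩ : p x ∈ Q.map p := by rw [hmap]; trivial
    obtain ⟨n, hn, -⟩ := hfib x y hyx.symm
    rw [hn]
    exact Q.mul_mem hy (Q.zpow_mem hcQ n)
  -- the homomorphism to the Heisenberg group
  let ω : ((Fin r → ℝ) × (Fin r → ℝ)) →ₗ[ℝ] ((Fin r → ℝ) × (Fin r → ℝ)) →ₗ[ℝ] ℝ :=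
    LinearMap.mk₂ ℝ (fun u w => ∑ i, u.1 i * w.2 i)
      (by intro u v w; simp [add_mul, Finset.sum_add_distrib])
      (by intro t u w; simp [Finset.mul_sum, mul_assoc])
      (by intro u v w; simp [mul_add, Finset.sum_add_distrib])
      (by intro t u w; simp [Finset.mul_sum, mul_left_comm])
  have hω : ∀ u w, ω u w = ∑ i, u.1 i * w.2 i := fun _ _ => rfl
  have hφ1 : (sK 1 1).im = φ 1 := by
    have := hcup 1 1
    simp only [map_one, toAdd_one, mul_zero, Finset.sum_const_zero, zero_add, mul_one] at this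
    change (sK 1 1).im = φ 1 + φ 1 - φ 1 at this
    rw [this]; ring
  let P : E →* Heis ω :=
    { toFun := fun x => ⟨(fun i => (a i x.1.g).toAdd, fun i => (b i x.1.g).toAdd),
        x.1.t.im + φ x.1.g⟩
      map_one' := by
        apply Heis.ext
        · change ((fun i => (a i 1).toAdd, fun i => (b i 1).toAdd) : (Fin r → ℝ) × (Fin r → ℝ)) = 0
          ext i <;> simp
        · change (-sK 1 1).im + φ 1 = 0
          rw [Complex.neg_im, hφ1]; ring
      map_mul' := by
        intro x y
        apply Heis.ext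
        · change ((fun i => (a i (x.1.g * y.1.g)).toAdd, fun i => (b i (x.1.g * y.1.g)).toAdd) :
            (Fin r → ℝ) × (Fin r → ℝ)) = (_, _) + (_, _)
          ext i <;> simp
        · change (x.1.t + y.1.t + sK x.1.g y.1.g).im + φ (x.1.g * y.1.g)
            = (x.1.t.im + φ x.1.g) + (y.1.t.im + φ y.1.g)
              + ∑ i, (a i x.1.g).toAdd * (b i y.1.g).toAdd
          have := hcup x.1.g y.1.g
          rw [Complex.add_im, Complex.add_im]
          change (sK x.1.g y.1.g).im = _ at this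
          rw [this]; ring }
  have hPc : P c = ⟨0, 2 * π⟩ := by
    apply Heis.ext
    · change ((fun i => (a i 1).toAdd, fun i => (b i 1).toAdd) : (Fin r → ℝ) × (Fin r → ℝ)) = 0
      ext i <;> simp
    · change (-sK 1 1 + 2 * π * Complex.I * ((1 : ℤ) : ℂ)).im + φ 1 = 2 * π
      rw [Complex.add_im, Complex.neg_im, hφ1]
      simp
  obtain ⟨Γ₁, hΓ₁, χ, hχ⟩ := exists_char_heis ω P (2 * π) (by positivity) k hk
  obtain ⟨hcΓ, hχc⟩ := hχ c hPc
  -- the finite index subgroup
  let H₁ : Subgroup K := Γ₁.map p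
  have hH₁ : H₁.FiniteIndex := by
    constructor
    intro h0
    have := Subgroup.index_map_dvd (f := p) Γ₁ hpsurj
    rw [h0] at this
    exact hΓ₁.index_ne_zero (Nat.eq_zero_of_zero_dvd this)
  let H : Subgroup G := H₁.map K.subtype
  have hH : H.FiniteIndex := by
    constructor
    rw [Subgroup.index_map_subtype]
    exact mul_ne_zero hH₁.index_ne_zero hK.index_ne_zero
  -- choice of lifts in the kernel of χ
  have hlift : ∀ g : H, ∃ x : E, ∃ hx : x ∈ Γ₁, ((p x : K) : G) = g ∧ χ ⟨x, hx⟩ = 1 := by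
    rintro ⟨_, g₁, ⟨x, hx, rfl⟩, rfl⟩
    obtain ⟨n, hn⟩ := ZMod.intCast_surjective (χ ⟨x, hx⟩).toAdd
    have hmem : x * c ^ (-n) ∈ Γ₁ := Γ₁.mul_mem hx (Γ₁.zpow_mem hcΓ _)
    refine ⟨x * c ^ (-n), hmem, ?_, ?_⟩
    · have : p (x * c ^ (-n)) = p x := by
        rw [map_mul, map_zpow]
        have : p c = 1 := rfl
        rw [this, one_zpow, mul_one]
      rw [this]; rfl
    · have : (⟨x * c ^ (-n), hmem⟩ : Γ₁) = ⟨x, hx⟩ * ⟨c, hcΓ⟩ ^ (-n) := by
        apply Subtype.ext; simp
      rw [this, map_mul, map_zpow, hχc]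
      apply Multiplicative.toAdd.injective
      rw [toAdd_mul, toAdd_zpow, toAdd_ofAdd, toAdd_one, ← hn]
      simp
  choose x hx hxg hxχ using hlift
  refine ⟨H, hH, fun g => (x g).1.t, fun g => ?_, fun g g' => ?_⟩
  · have := (hmemE _).mp (x g).2
    rw [this]
    change C ((x g).1.g : G) = C g
    rw [← hxg g]
    rfl
  · have hpp : p (x g * x g') = p (x (g * g')) := by
      apply Subtype.ext
      rw [map_mul, Subgroup.coe_mul, hxg, hxg, hxg]; rfl
    obtain ⟨n, hn, ht⟩ := hfib _ _ hpp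
    have hmul : (x g * x g').1.t = (x g).1.t + (x g').1.t + sig g g' := by
      change (x g).1.t + (x g').1.t + sK (x g).1.g (x g').1.g = _
      congr 1
      change sig ((p (x g) : K) : G) ((p (x g') : K) : G) = _
      rw [hxg, hxg]
    have hχn : ((n : ℤ) : ZMod k) = 0 := by
      have hm : x (g * g') * c ^ n ∈ Γ₁ := Γ₁.mul_mem (hx _) (Γ₁.zpow_mem hcΓ _)
      have h1 : (⟨x g, hx g⟩ : Γ₁) * ⟨x g', hx g'⟩ = ⟨x (g * g'), hx _⟩ * ⟨c, hcΓ⟩ ^ n := by
        apply Subtype.ext
        simpa using hn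
      have h2 := congrArg χ h1
      rw [map_mul, map_mul, map_zpow, hxχ, hxχ, hxχ, hχc, one_mul, one_mul] at h2
      have h3 := congrArg Multiplicative.toAdd h2
      rw [toAdd_one, toAdd_zpow, toAdd_ofAdd] at h3
      simpa using h3.symm
    obtain ⟨m, hm⟩ := (ZMod.intCast_zmod_eq_zero_iff_dvd n k).mp hχn
    refine ⟨-m, ?_⟩
    rw [hmul] at ht
    change (x (g * g')).1.t = (x g).1.t + (x g').1.t + sig g g' + _
    rw [ht, hm]; push_cast; ring



end Crest.Agent.R272.E7_528
end
end

-- ▼ part R272/Macb1_562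
section

/-!
# Macbeath's theorem (helper562, row 272, division E)

* `Crest.Agent.R272.Macb_562.cech` : a constant non-abelian Čech 1-cocycle on a simply connected,
  locally path connected space with respect to an open cover by preconnected sets is a coboundary.
* `macbeath` : Macbeath's theorem in extension form.
* `closure_eq_top` : `Γ` is generated by the elements `g` with `U ∩ g • U ≠ ∅`.
* `coboundary_of_local` : a 2-cocycle which is a coboundary on the nerve is a coboundary.
-/

set_option autoImplicit false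

namespace Crest.Agent.R272.Macb_562

open Set Topology Function
open scoped Pointwise

/-- A function on the index set of an open cover of a preconnected space by non-empty sets which
takes equal values on the indices of intersecting sets is constant. -/
theorem const_of_cover {X ι T : Type*} [TopologicalSpace X] [PreconnectedSpace X] (V : ι → Set X)
    (hV : ∀ i, IsOpen (V i)) (hne : ∀ i, (V i).Nonempty) (hcov : ∀ x, ∃ i, x ∈ V i) (φ : ι → T)
    (hφ : ∀ i j, (V i ∩ V j).Nonempty → φ i = φ j) (i j : ι) : φ i = φ j := by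
  classical
  choose k hk using hcov
  have hloc : IsLocallyConstant (fun x => φ (k x)) := by
    refine (IsLocallyConstant.iff_eventually_eq _).2 fun x => ?_
    filter_upwards [(hV (k x)).mem_nhds (hk x)] with y hy
    exact hφ _ _ ⟨y, hk y, hy⟩
  obtain ⟨x, hx⟩ := hne i
  obtain ⟨y, hy⟩ := hne j
  have h1 : φ i = φ (k x) := hφ _ _ ⟨x, hx, hk x⟩
  have h2 : φ j = φ (k y) := hφ _ _ ⟨y, hy, hk y⟩
  rw [h1, h2]
  exact hloc.apply_eq_of_preconnectedSpace x y

section Cech

variable {X ι : Type*} {G : Type*} [TopologicalSpace X] [Group G]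

/-- The principal bundle of a constant cocycle. -/
noncomputable def core [TopologicalSpace G] [DiscreteTopology G] (V : ι → Set X)
    (hV : ∀ i, IsOpen (V i)) (k : X → ι) (hk : ∀ x, x ∈ V (k x)) (t : ι → ι → G)
    (ht : ∀ i j l, (V i ∩ V j ∩ V l).Nonempty → t l j * t j i = t l i) :
    FiberBundleCore ι X G where
  baseSet := V
  isOpen_baseSet := hV
  indexAt := k
  mem_baseSet_at := hk
  coordChange i j _ v := t j i * v
  coordChange_self i x hx v := by
    have h := ht i i i ⟨x, ⟨hx, hx⟩, hx⟩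
    have : t i i = 1 := by simpa using h
    simp [this]
  continuousOn_coordChange i j := by
    have : Continuous fun p : X × G => t j i * p.2 :=
      (continuous_of_discreteTopology (f := fun v : G => t j i * v)).comp continuous_snd
    exact this.continuousOn
  coordChange_comp i j l x hx v := by
    rw [← mul_assoc, ht i j l ⟨x, hx⟩]

/-- **Vanishing of non-abelian constant Čech `H¹`** on a simply connected space. -/
theorem cech [SimplyConnectedSpace X] [LocallyPathConnectedSpace X] (V : ι → Set X)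
    (hV : ∀ i, IsOpen (V i)) (hpc : ∀ i, IsPreconnected (V i)) (hcov : ∀ x, ∃ i, x ∈ V i)
    (t : ι → ι → G)
    (ht : ∀ i j l, (V i ∩ V j ∩ V l).Nonempty → t l j * t j i = t l i) :
    ∃ a : ι → G, ∀ i j, (V i ∩ V j).Nonempty → a j = t j i * a i := by
  classical
  let _ : TopologicalSpace G := ⊥
  have : DiscreteTopology G := ⟨rfl⟩
  choose k hk using hcov
  let Z := core V hV k hk t ht
  have hcv : IsCoveringMap (Bundle.TotalSpace.proj (F := G) (E := Z.Fiber)) :=
    FiberBundle.isCoveringMap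
  have : PathConnectedSpace X := inferInstance
  obtain ⟨x₀⟩ := (PathConnectedSpace.nonempty : Nonempty X)
  obtain ⟨σ, ⟨-, hσ⟩, -⟩ := hcv.existsUnique_continuousMap_lifts (ContinuousMap.id X) x₀
    (⟨x₀, (1 : G)⟩ : Z.TotalSpace) rfl
  have hσ' : ∀ x, (σ x).proj = x := fun x => congrFun hσ x
  -- the coordinates of the section
  let b : ι → X → G := fun i x => (Z.localTriv i (σ x)).2
  have hb : ∀ i, ∀ x ∈ V i, ∀ y ∈ V i, b i x = b i y := by
    intro i x hx y hy
    have hc : ContinuousOn (b i) (V i) := by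
      have h1 : ContinuousOn (fun x => Z.localTriv i (σ x)) (V i) := by
        refine ((Z.localTriv i).continuousOn_toFun).comp σ.continuous.continuousOn ?_
        intro z hz
        show σ z ∈ (Z.localTriv i).source
        rw [(Z.localTriv i).mem_source]
        show (σ z).proj ∈ V i
        rw [hσ']
        exact hz
      exact continuous_snd.comp_continuousOn h1
    exact (hpc i).constant hc hx hy
  have hch : ∀ i j x, x ∈ V i → x ∈ V j → b j x = t j i * b i x := by
    intro i j x hi hj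
    have e : (σ x).proj = x := hσ' x
    let v : G := (σ x).2
    show t j (k (σ x).proj) * v = t j i * (t i (k (σ x).proj) * v)
    rw [← mul_assoc, ht (k (σ x).proj) i j]
    refine ⟨x, ⟨?_, hi⟩, hj⟩
    rw [e]
    exact hk x
  refine ⟨fun i => if h : (V i).Nonempty then b i h.some else 1, ?_⟩
  rintro i j ⟨x, hi, hj⟩
  have hi' : (V i).Nonempty := ⟨x, hi⟩
  have hj' : (V j).Nonempty := ⟨x, hj⟩
  simp only [hi', hj', dif_pos]
  rw [hb i _ hi'.some_mem x hi, hb j _ hj'.some_mem x hj]
  exact hch i j x hi hj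

end Cech

section Action

variable {Γ X : Type*} [Group Γ] [TopologicalSpace X] [MulAction Γ X] [ContinuousConstSMul Γ X]

/-- The elements moving `U` to a set meeting `U`. -/
def meets (Γ : Type*) {X : Type*} [Group Γ] [MulAction Γ X] (U : Set X) : Set Γ :=
  {g | (U ∩ g • U).Nonempty}

/-- The pairs `(g, h)` such that `U`, `g • U`, `(g * h) • U` have a common point. -/
def triples (Γ : Type*) {X : Type*} [Group Γ] [MulAction Γ X] (U : Set X) : Set (Γ × Γ) :=
  {p | (U ∩ p.1 • U ∩ (p.1 * p.2) • U).Nonempty}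

omit [TopologicalSpace X] [ContinuousConstSMul Γ X] in
theorem inter_smul_iff (U : Set X) (i j : Γ) :
    (i • U ∩ j • U).Nonempty ↔ (U ∩ (i⁻¹ * j) • U).Nonempty := by
  rw [← smul_set_nonempty (a := i⁻¹) (s := i • U ∩ j • U), smul_set_inter, inv_smul_smul,
    smul_smul]

omit [TopologicalSpace X] [ContinuousConstSMul Γ X] in
theorem inter3_smul_iff (U : Set X) (i j l : Γ) :
    (i • U ∩ j • U ∩ l • U).Nonempty ↔
      (U ∩ (i⁻¹ * j) • U ∩ (i⁻¹ * l) • U).Nonempty := by
  rw [← smul_set_nonempty (a := i⁻¹) (s := i • U ∩ j • U ∩ l • U), smul_set_inter, smul_set_inter,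
    inv_smul_smul, smul_smul, smul_smul]


/-- a function on `Γ` with equal values at `i, j` whenever `i • U` meets `j • U` is constant. -/
theorem const_of_smul [PreconnectedSpace X] {T : Type*} (U : Set X) (hU : IsOpen U)
    (hne : U.Nonempty) (hcov : ∀ x : X, ∃ g : Γ, x ∈ g • U) (φ : Γ → T)
    (hφ : ∀ i g, g ∈ meets Γ U → φ i = φ (i * g)) (i j : Γ) : φ i = φ j := by
  refine const_of_cover (fun g : Γ => g • U) (fun g => hU.smul g) (fun g => hne.smul_set) hcov φ
    (fun i j hij => ?_) i j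
  have := hφ i (i⁻¹ * j) ((inter_smul_iff U i j).1 hij)
  simpa using this

/-- `Γ` is generated by the elements `g` with `U ∩ g • U ≠ ∅`. -/
theorem closure_eq_top [PreconnectedSpace X] (U : Set X) (hU : IsOpen U) (hne : U.Nonempty)
    (hcov : ∀ x : X, ∃ g : Γ, x ∈ g • U) : Subgroup.closure (meets Γ U) = ⊤ := by
  rw [eq_top_iff]
  rintro g -
  have := const_of_smul U hU hne hcov
    (fun g : Γ => (QuotientGroup.mk g : Γ ⧸ Subgroup.closure (meets Γ U)))
    (fun i s hs => by
      rw [QuotientGroup.eq]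
      simpa using Subgroup.subset_closure hs) 1 g
  rw [QuotientGroup.eq] at this
  simpa using this

/-- **Macbeath's theorem**, extension form. -/
theorem macbeath [SimplyConnectedSpace X] [LocallyPathConnectedSpace X] {G : Type*} [Group G]
    (U : Set X) (hU : IsOpen U) (hpc : IsPreconnected U)
    (hcov : ∀ x : X, ∃ g : Γ, x ∈ g • U) (f : Γ → G)
    (hf : ∀ g h, (g, h) ∈ triples Γ U → f (g * h) = f g * f h) :
    ∃ F : Γ →* G, ∀ g ∈ meets Γ U, F g = f g := by
  have : PathConnectedSpace X := inferInstance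
  have hne : U.Nonempty := by
    obtain ⟨x⟩ := (PathConnectedSpace.nonempty : Nonempty X)
    obtain ⟨g, hg⟩ := hcov x
    exact smul_set_nonempty.1 ⟨x, hg⟩
  obtain ⟨a, ha⟩ := cech (fun g : Γ => g • U) (fun g => hU.smul g)
    (fun g => by
      have := hpc.image (fun x => g • x) (continuous_const_smul g).continuousOn
      simpa [image_smul] using this) hcov
    (fun j i => f (j⁻¹ * i)) (by
      intro i j l h
      have h' : (l • U ∩ j • U ∩ i • U).Nonempty := by
        obtain ⟨x, ⟨h1, h2⟩, h3⟩ := h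
        exact ⟨x, ⟨h3, h2⟩, h1⟩
      have h3 := (inter3_smul_iff U l j i).1 h'
      have := hf (l⁻¹ * j) (j⁻¹ * i) (by
        show (U ∩ (l⁻¹ * j) • U ∩ (l⁻¹ * j * (j⁻¹ * i)) • U).Nonempty
        have e : l⁻¹ * j * (j⁻¹ * i) = l⁻¹ * i := by group
        rw [e]; exact h3)
      have e : l⁻¹ * j * (j⁻¹ * i) = l⁻¹ * i := by group
      rw [e] at this
      exact this.symm)
  -- constants
  have hc : ∀ γ i : Γ, (a i)⁻¹ * a (γ * i) = (a 1)⁻¹ * a γ := by
    intro γ i
    have := const_of_smul U hU hne hcov (fun i : Γ => (a i)⁻¹ * a (γ * i)) (by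
      intro i g hg
      have h1 : (i • U ∩ (i * g) • U).Nonempty := by
        rw [inter_smul_iff]; simpa [meets] using hg
      have h2 : ((γ * i) • U ∩ (γ * (i * g)) • U).Nonempty := by
        rw [inter_smul_iff]
        have e : (γ * i)⁻¹ * (γ * (i * g)) = g := by group
        rw [e]; exact hg
      have e1 := ha _ _ h1
      have e2 := ha _ _ h2
      have e3 : (γ * (i * g))⁻¹ * (γ * i) = (i * g)⁻¹ * i := by group
      simp only [e3] at e2
      simp only [e1, e2]
      group) i 1
    simpa using this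
  refine ⟨{ toFun := fun γ => a 1 * (a γ)⁻¹, map_one' := by simp, map_mul' := ?_ }, ?_⟩
  · intro γ γ'
    have h := hc γ γ'
    have h' : a (γ * γ') = a γ' * ((a 1)⁻¹ * a γ) := by rw [← h]; group
    rw [h']; group
  · intro g hg
    show a 1 * (a g)⁻¹ = f g
    have h1 : (g • U ∩ (1 : Γ) • U).Nonempty := by
      rw [one_smul, inter_comm]; exact hg
    have := ha _ _ h1
    simp only [inv_one, one_mul] at this
    rw [this]; group


end Action

end Crest.Agent.R272.Macb_562
end

-- ▼ part R272/Macb3_562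
section

/-!
# Macbeath's presentation (helper562, row 272, division E)

`Γ` acts continuously on the simply connected, locally path connected space `X`, `U` is open and
preconnected, `Γ • U = X`, and finitely many `g` satisfy `U ∩ g • U ≠ ∅`.  Then `Γ` is finitely
presented.

* `pres_of_action` : `Nonempty (E5_528.Pres Γ)`.
* `lim_of_action` : the LIM statement of `E5_528` for such a `Γ`.
-/

set_option autoImplicit false

namespace Crest.Agent.R272.Macb_562

open Set Topology Function Filter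
open scoped Pointwise

section

variable {Γ X : Type*} [Group Γ] [TopologicalSpace X] [MulAction Γ X] [ContinuousConstSMul Γ X]

omit [TopologicalSpace X] [ContinuousConstSMul Γ X] in
theorem triples_meets {U : Set X} {g h : Γ} (H : (g, h) ∈ triples Γ U) :
    g ∈ meets Γ U ∧ h ∈ meets Γ U ∧ g * h ∈ meets Γ U := by
  obtain ⟨x, ⟨h1, h2⟩, h3⟩ := H
  refine ⟨⟨x, h1, h2⟩, ?_, ⟨x, h1, h3⟩⟩
  have : (g • U ∩ (g * h) • U).Nonempty := ⟨x, h2, h3⟩
  rw [inter_smul_iff] at this
  simpa [meets] using this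

/-- **Macbeath's theorem**: the presentation by the nerve of the cover. -/
theorem macbeath_ker [SimplyConnectedSpace X] [LocallyPathConnectedSpace X]
    (U : Set X) (hU : IsOpen U) (hpc : IsPreconnected U)
    (hcov : ∀ x : X, ∃ g : Γ, x ∈ g • U) {S : Type*} (e : S ≃ meets Γ U) :
    (FreeGroup.lift (fun s => (e s : Γ))).ker = Subgroup.normalClosure
      {w : FreeGroup S | ∃ i j k : S, ((e i : Γ), (e j : Γ)) ∈ triples Γ U ∧
        (e k : Γ) = e i * e j ∧ w = FreeGroup.of i * FreeGroup.of j * (FreeGroup.of k)⁻¹} := by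
  classical
  set R : Set (FreeGroup S) := {w : FreeGroup S | ∃ i j k : S,
    ((e i : Γ), (e j : Γ)) ∈ triples Γ U ∧
        (e k : Γ) = e i * e j ∧ w = FreeGroup.of i * FreeGroup.of j * (FreeGroup.of k)⁻¹} with hR
  apply le_antisymm
  · let N := Subgroup.normalClosure R
    obtain ⟨F, hF⟩ := macbeath (G := FreeGroup S ⧸ N) U hU hpc hcov
      (fun g => if h : g ∈ meets Γ U then QuotientGroup.mk' N (FreeGroup.of (e.symm ⟨g, h⟩))
        else 1) (by
      intro g h H
      obtain ⟨h1, h2, h3⟩ := triples_meets H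
      simp only [h1, h2, h3, dite_true]
      rw [← map_mul, eq_comm, ← mul_inv_eq_one, ← map_inv, ← map_mul]
      rw [QuotientGroup.mk'_apply, QuotientGroup.eq_one_iff]
      apply Subgroup.subset_normalClosure
      refine ⟨_, _, _, ?_, ?_, rfl⟩
      · simpa using H
      · simp)
    have key : F.comp (FreeGroup.lift (fun s => (e s : Γ))) = QuotientGroup.mk' N := by
      apply FreeGroup.ext_hom
      intro s
      rw [MonoidHom.comp_apply, FreeGroup.lift_apply_of, hF _ (e s).2]
      simp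
    intro w hw
    rw [MonoidHom.mem_ker] at hw
    have := DFunLike.congr_fun key w
    rw [MonoidHom.comp_apply, hw, map_one] at this
    exact (QuotientGroup.eq_one_iff w).1 this.symm
  · apply Subgroup.normalClosure_le_normal
    rintro w ⟨i, j, k, -, h, rfl⟩
    rw [SetLike.mem_coe, MonoidHom.mem_ker]
    simp [h]

/-- **Macbeath's theorem**: `Γ` is finitely presented. -/
theorem pres_of_action [SimplyConnectedSpace X] [LocallyPathConnectedSpace X]
    (U : Set X) (hU : IsOpen U) (hpc : IsPreconnected U)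
    (hcov : ∀ x : X, ∃ g : Γ, x ∈ g • U) (hfin : (meets Γ U).Finite) :
    Nonempty (E5_528.Pres Γ) := by
  classical
  have : PathConnectedSpace X := inferInstance
  have hne : U.Nonempty := by
    obtain ⟨x⟩ := (PathConnectedSpace.nonempty : Nonempty X)
    obtain ⟨g, hg⟩ := hcov x
    exact smul_set_nonempty.1 ⟨x, hg⟩
  have : Finite (meets Γ U) := hfin
  obtain ⟨n, ⟨e'⟩⟩ := Finite.exists_equiv_fin (meets Γ U)
  let e := e'.symm
  let R : Set (FreeGroup (Fin n)) := {w : FreeGroup (Fin n) | ∃ i j k : Fin n,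
    ((e i : Γ), (e j : Γ)) ∈ triples Γ U ∧
        (e k : Γ) = e i * e j ∧ w = FreeGroup.of i * FreeGroup.of j * (FreeGroup.of k)⁻¹}
  have hRf : R.Finite := by
    refine (Set.finite_range (fun p : Fin n × Fin n × Fin n =>
      FreeGroup.of p.1 * FreeGroup.of p.2.1 * (FreeGroup.of p.2.2)⁻¹)).subset ?_
    rintro w ⟨i, j, k, -, -, rfl⟩
    exact ⟨(i, j, k), rfl⟩
  refine ⟨{ S := Fin n, fin := inferInstance, π := FreeGroup.lift (fun s => (e s : Γ)),
            surj := ?_, R := hRf.toFinset, ker := ?_ }⟩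
  · rw [← MonoidHom.range_eq_top, FreeGroup.range_lift_eq_closure]
    have : range (fun s => (e s : Γ)) = meets Γ U := by
      ext g
      constructor
      · rintro ⟨s, rfl⟩; exact (e s).2
      · intro hg; exact ⟨e.symm ⟨g, hg⟩, by simp⟩
    rw [this]
    exact closure_eq_top U hU hne hcov
  · rw [Finite.coe_toFinset]
    exact macbeath_ker U hU hpc hcov e


end

end Crest.Agent.R272.Macb_562
end

-- ▼ part R272/Macb4_562
section

/-!
# Macbeath for groups acting on the ball in the language of `EBase_641` (helper562)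

`ρ : G →* UG n`, cocompact and proper on the ball (in the sense of `EDat`): `G` is finitely
presented and finitely generated.
-/

set_option autoImplicit false

namespace Crest.Agent.R272.Macb_562

open Set Topology Function Filter
open scoped Pointwise
open Crest.Agent.R272.EBase_641

variable {n : ℕ}

theorem continuousOn_apply (g : UG n) : Continuous (fun z : E n => g.1 ((z, 1) : V1 n)) := by
  have h : Continuous (fun v : V1 n => g.1 v) :=
    LinearMap.continuous_of_finiteDimensional (g.1 : V1 n →ₗ[ℂ] V1 n)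
  exact h.comp (by fun_prop)

theorem continuous_jj (g : UG n) : Continuous (jj g) :=
  continuous_snd.comp (continuousOn_apply g)

theorem continuousOn_act (g : UG n) : ContinuousOn (act g) (Ball n) := by
  have h1 : ContinuousOn (fun z : E n => (jj g z)⁻¹) (Ball n) :=
    (continuous_jj g).continuousOn.inv₀ fun z hz => jj_ne_zero g hz
  exact h1.smul (continuous_fst.comp (continuousOn_apply g)).continuousOn

/-- `G` acts on the ball through `ρ`. -/
@[reducible] noncomputable def ballAction {G : Type*} [Group G] (ρ : G →* UG n) :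
    MulAction G (Ball n) where
  smul g z := ⟨act (ρ g) z, act_mem _ z.2⟩
  one_smul z := by
    apply Subtype.ext
    show act (ρ 1) z = z
    rw [map_one, act_one]
  mul_smul g h z := by
    apply Subtype.ext
    show act (ρ (g * h)) z = act (ρ g) (act (ρ h) z)
    rw [map_mul, act_mul _ _ z.2]


theorem ball_continuousConstSMul {G : Type*} [Group G] (ρ : G →* UG n) :
    letI := ballAction ρ
    ContinuousConstSMul G (Ball n) := by
  letI := ballAction ρ
  refine ⟨fun g => ?_⟩
  refine Continuous.subtype_mk ?_ _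
  exact (continuousOn_act (ρ g)).comp_continuous continuous_subtype_val fun z => z.2

theorem convex_Ball : Convex ℝ (Ball n) := convex_ball 0 1

theorem zero_mem_Ball : (0 : E n) ∈ Ball n := by simp [Ball]

instance : SimplyConnectedSpace (Ball n) := by
  have : ContractibleSpace (Ball n) := convex_Ball.contractibleSpace ⟨0, zero_mem_Ball⟩
  infer_instance

instance : LocallyPathConnectedSpace (Ball n) :=
  IsOpen.locallyPathConnectedSpace (U := Ball n) Metric.isOpen_ball

/-- finite presentability of a cocompact, proper group of automorphisms of the ball -/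
theorem pres_of_ball {G : Type*} [Group G] (ρ : G →* UG n)
    (cocpt : ∃ r : ℝ, r < 1 ∧ ∀ z ∈ Ball n, ∃ g, ‖act (ρ g) z‖ ≤ r)
    (proper : ∀ r : ℝ, r < 1 → {g | ∃ z, ‖z‖ ≤ r ∧ ‖act (ρ g) z‖ ≤ r}.Finite) :
    Nonempty (E5_528.Pres G) := by
  letI := ballAction ρ
  haveI := ball_continuousConstSMul ρ
  obtain ⟨r, hr, hc⟩ := cocpt
  have hr0 : 0 ≤ r := by
    obtain ⟨g, hg⟩ := hc 0 zero_mem_Ball
    exact (norm_nonneg _).trans hg
  obtain ⟨s, hrs, hs⟩ := exists_between hr
  let U : Set (Ball n) := {z | ‖(z : E n)‖ < s}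
  have hU : IsOpen U := isOpen_lt (continuous_subtype_val.norm) continuous_const
  have hpc : IsPreconnected U := by
    have : Subtype.val '' U = Metric.ball (0 : E n) s := by
      ext z
      simp only [mem_image, mem_ball_zero_iff]
      constructor
      · rintro ⟨w, hw, rfl⟩; exact hw
      · intro hz; exact ⟨⟨z, mem_Ball.2 (hz.trans hs)⟩, hz, rfl⟩
    rw [← IsInducing.subtypeVal.isPreconnected_image, this]
    exact (convex_ball 0 s).isPreconnected
  refine pres_of_action (Γ := G) U hU hpc (fun x => ?_) ?_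
  · obtain ⟨g, hg⟩ := hc x x.2
    refine ⟨g⁻¹, ?_⟩
    rw [Set.mem_smul_set_iff_inv_smul_mem, inv_inv]
    exact lt_of_le_of_lt hg hrs
  · refine (proper s hs).subset ?_
    rintro g ⟨z, hz, hz'⟩
    rw [Set.mem_smul_set_iff_inv_smul_mem] at hz'
    refine ⟨((g⁻¹ • z : Ball n) : E n), le_of_lt hz', ?_⟩
    have : act (ρ g) ((g⁻¹ • z : Ball n) : E n) = ((g • g⁻¹ • z : Ball n) : E n) := rfl
    rw [this, smul_inv_smul]
    exact le_of_lt hz

theorem fg_of_pres {G : Type*} [Group G] (P : E5_528.Pres G) : Group.FG G := by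
  have := P.fin
  exact Group.fg_of_surjective (f := P.π) P.surj

/-- the group of an `EDat` is finitely presented -/
theorem pres_EDat (D : EDat) : Nonempty (E5_528.Pres D.G) :=
  pres_of_ball D.ρ D.cocpt D.proper

theorem fg_EDat (D : EDat) : Group.FG D.G := by
  obtain ⟨P⟩ := pres_EDat D
  exact fg_of_pres P

/-- LIM for the group of an `EDat` -/
theorem lim_EDat (D : EDat) {c : ℕ → D.G → D.G → ℝ} {d : D.G → D.G → ℝ}
    (hc : ∀ N, E5_528.IsCoc (c N))
    (h : ∀ g g', Tendsto (fun N => c N g g') atTop (𝓝 (d g g')))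
    (hv : ∀ N, E5_528.Virt (c N)) : E5_528.Virt d := by
  obtain ⟨P⟩ := pres_EDat D
  exact E5_528.lim P hc h hv

end Crest.Agent.R272.Macb_562
end

-- ▼ part R272/EMain_528

/-!
R272, division E (helper528): second half of the assembly of `EMain`.

`XD D S` = everything the analysis provides for one class of hyperplanes: the holomorphic
function `f`, its automorphy formula `f (g z) = f z * C g * exp (K z (g⁻¹ p))`, the invariant
kernel `K` and its approximations `KN` which are finite sums of products of additive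
automorphic functions of finite index subgroups. Output: `EMain`.
-/

set_option autoImplicit false

noncomputable section

namespace Crest.Agent.R272.EMain_528

open Crest.Agent.R272.EBase_641 Crest.Agent.R272.Pol_898 Crest.Agent.R272.E5_528
open Filter Topology
open scoped Real ComplexConjugate

/-- the action of an arithmetic datum on the ball -/
abbrev da (D : EDat) (g : D.G) (z : E D.n) : E D.n := act (D.ρ g) z

theorem actOn_da (D : EDat) : ActOn (da D) (Ball D.n) := actOn_hom D.ρ

/-- The analytic input for one class `S` of hyperplanes. -/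
structure XD (D : EDat) (S : Set (V1 D.n)) where
  p : E D.n
  hp : p ∈ Ball D.n
  f : E D.n → ℂ
  f_hol : DifferentiableOn ℂ f (Ball D.n)
  fin : ∀ z ∈ Ball D.n, {v | v ∈ S ∧ lin v z = 0}.Finite
  f_div : ∀ z ∈ Ball D.n, ∃ U ∈ 𝓝 z, ∃ u : E D.n → ℂ, DifferentiableOn ℂ u U ∧
    (∀ w ∈ U, u w ≠ 0) ∧
    ∃ F : Finset (V1 D.n), (∀ v, v ∈ F ↔ v ∈ S ∧ lin v z = 0) ∧
      ∀ w ∈ U, f w = (∏ v ∈ F, lin v w) * u w
  f_p : f p ≠ 0
  K : E D.n → E D.n → ℂ
  K_hol : ∀ w ∈ Ball D.n, DifferentiableOn ℂ (fun z => K z w) (Ball D.n)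
  K_inv : InvKer (da D) (Ball D.n) p K
  Cg : D.G → ℂ
  f_act : ∀ g, ∀ z ∈ Ball D.n, f (da D g z) = f z * Cg g * Complex.exp (K z (da D g⁻¹ p))
  KN : ℕ → E D.n → E D.n → ℂ
  KN_inv : ∀ N, InvKer (da D) (Ball D.n) p (KN N)
  KN_lim : ∀ z ∈ Ball D.n, ∀ w ∈ Ball D.n, Tendsto (fun N => KN N z w) atTop (𝓝 (K z w))
  KN_rk : ∀ N, ∃ (r : ℕ) (c : Fin r → ℂ) (A B : Fin r → E D.n → ℂ) (H : Subgroup D.G),
      H.FiniteIndex ∧
      (∀ i, ∀ g ∈ H, ∃ a : ℂ, ∀ z ∈ Ball D.n, A i (da D g z) = A i z + a) ∧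
      (∀ i, ∀ g ∈ H, ∃ b : ℂ, ∀ z ∈ Ball D.n, B i (da D g z) = B i z + b) ∧
      ∀ z ∈ Ball D.n, ∀ w ∈ Ball D.n,
        KN N z w = ∑ i, c i * ((A i z - A i p) * conj (B i w - B i p))

/-- additive automorphic functions have periods which are homomorphisms -/
theorem exists_per {G X : Type*} [Group G] {a : G → X → X} {B : Set X} (ha : ActOn a B)
    {p : X} (hp : p ∈ B) {H : Subgroup G} {A : X → ℂ}
    (hA : ∀ g ∈ H, ∃ c : ℂ, ∀ z ∈ B, A (a g z) = A z + c) :
    ∃ α : H →* Multiplicative ℂ, ∀ g : H, ∀ z ∈ B, A (a g z) = A z + (α g).toAdd := by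
  choose! α hα using hA
  refine ⟨{ toFun := fun g => Multiplicative.ofAdd (α g)
            map_one' := ?_
            map_mul' := ?_ }, fun g z hz => hα g g.2 z hz⟩
  · have h := hα 1 H.one_mem p hp
    rw [ha.one p hp] at h
    have : α 1 = 0 := by
      have h' : A p + 0 = A p + α 1 := by rw [add_zero]; exact h
      exact (add_left_cancel h').symm
    show Multiplicative.ofAdd (α ((1 : H) : G)) = 1
    rw [Subgroup.coe_one, this]; rfl
  · intro g g'
    have h := hα (g * g') (H.mul_mem g.2 g'.2) p hp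
    rw [ha.mul _ _ _ hp, hα g g.2 _ (ha.mem _ _ hp), hα g' g'.2 _ hp] at h
    show Multiplicative.ofAdd (α ((g * g' : H) : G)) = Multiplicative.ofAdd (α g)
      * Multiplicative.ofAdd (α g')
    rw [← ofAdd_add]
    congr 1
    rw [Subgroup.coe_mul]
    have h2 : A p + (α g' + α g) = A p + α (g * g') := by rw [← h]; ring
    rw [← add_left_cancel h2]; ring

/-- real part of an additive homomorphism -/
def reHom : Multiplicative ℂ →* Multiplicative ℝ := AddMonoidHom.toMultiplicative Complex.reAddGroupHom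

/-- imaginary part -/
def imHom : Multiplicative ℂ →* Multiplicative ℝ := AddMonoidHom.toMultiplicative Complex.imAddGroupHom

/-- multiplication by a constant -/
def mulHom (c : ℂ) : Multiplicative ℂ →* Multiplicative ℂ :=
  AddMonoidHom.toMultiplicative (AddMonoidHom.mulLeft c)

/-- **LEAF CUP.** -/
theorem cupOn_of_rk {G X : Type*} [Group G] {a : G → X → X} {B : Set X} (ha : ActOn a B)
    {p : X} (hp : p ∈ B) {K : X → X → ℂ} {r : ℕ} {c : Fin r → ℂ} {A A' : Fin r → X → ℂ}
    {H : Subgroup G}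
    (hA : ∀ i, ∀ g ∈ H, ∃ c : ℂ, ∀ z ∈ B, A i (a g z) = A i z + c)
    (hA' : ∀ i, ∀ g ∈ H, ∃ c : ℂ, ∀ z ∈ B, A' i (a g z) = A' i z + c)
    (hK : ∀ z ∈ B, ∀ w ∈ B, K z w = ∑ i, c i * ((A i z - A i p) * conj (A' i w - A' i p))) :
    CupOn H (fun g h => (sig a p K g h).im) := by
  choose α hα using fun i => exists_per ha hp (hA i)
  choose β hβ using fun i => exists_per ha hp (hA' i)
  have key : ∀ g h : H, (sig a p K g h).im =
      ∑ i, ((-(β i g).toAdd.re) * (c i * (α i h).toAdd).im
        + (β i g).toAdd.im * (c i * (α i h).toAdd).re) := by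
    intro g h
    have e1 : sig a p K g h = ∑ i, c i * (-((α i h).toAdd * conj ((β i g).toAdd))) := by
      rw [sig, hK _ (ha.mem _ _ hp) _ (ha.mem _ _ hp)]
      refine Finset.sum_congr rfl fun i _ => ?_
      have h1 : A' i (a (g : G)⁻¹ p) = A' i p - (β i g).toAdd := by
        have := hβ i g (a (g : G)⁻¹ p) (ha.mem _ _ hp)
        rw [ha.act_inv (g : G) hp] at this
        rw [this]; ring
      rw [h1, hα i h p hp]
      have e : A' i p - (β i g).toAdd - A' i p = - (β i g).toAdd := by ring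
      rw [e, map_neg]; ring
    rw [e1, Complex.im_sum]
    refine Finset.sum_congr rfl fun i _ => ?_
    have : c i * -((α i h).toAdd * conj ((β i g).toAdd))
        = -((c i * (α i h).toAdd) * conj ((β i g).toAdd)) := by ring
    rw [this, Complex.neg_im, Complex.mul_im, Complex.conj_re, Complex.conj_im]
    ring
  refine ⟨r + r,
    Fin.append (fun i => reHom.comp ((mulHom (-1)).comp (β i))) (fun i => imHom.comp (β i)),
    Fin.append (fun i => imHom.comp ((mulHom (c i)).comp (α i)))
      (fun i => reHom.comp ((mulHom (c i)).comp (α i))), fun _ => 0, fun g h => ?_⟩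
  change (sig a p K (g : G) (h : G)).im = _
  rw [Fin.sum_univ_add, key g h]
  simp only [Fin.append_left, Fin.append_right, ← Finset.sum_add_distrib, add_zero, sub_zero]
  refine Finset.sum_congr rfl fun i _ => ?_
  have e1 : (reHom.comp ((mulHom (-1)).comp (β i)) g).toAdd = -(β i g).toAdd.re := by
    change ((-1 : ℂ) * (β i g).toAdd).re = _
    simp
  rw [e1]
  rfl

variable {D : EDat} {S : Set (V1 D.n)}

theorem XD.virt (X : XD D S) : Virt (fun g h => (sig (da D) X.p X.K g h).im) := by
  refine Macb_562.lim_EDat D (c := fun N g h => (sig (da D) X.p (X.KN N) g h).im) ?_ ?_ ?_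
  · intro N g h k
    have := (X.KN_inv N).isCoc (actOn_da D) X.hp g h k
    have h2 := congrArg Complex.im this
    simpa using h2
  · intro g h
    have := X.KN_lim (da D h X.p) ((actOn_da D).mem _ _ X.hp) (da D g⁻¹ X.p)
      ((actOn_da D).mem _ _ X.hp)
    exact (Complex.continuous_im.tendsto _).comp this
  · intro N
    obtain ⟨r, c, A, B, H, hH, hA, hB, hK⟩ := X.KN_rk N
    exact ⟨H, hH, cupOn_of_rk (actOn_da D) X.hp hA hB hK⟩

theorem XD.Cg_ne (X : XD D S) (g : D.G) : X.Cg g ≠ 0 := by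
  intro h0
  have h := X.f_act g (da D g⁻¹ X.p) ((actOn_da D).mem _ _ X.hp)
  rw [(actOn_da D).act_inv g X.hp, h0] at h
  exact X.f_p (by rw [h]; ring)

theorem XD.Cg_mul (X : XD D S) (g g' : D.G) :
    X.Cg (g * g') = X.Cg g * X.Cg g' * Complex.exp (sig (da D) X.p X.K g g') := by
  have ha := actOn_da D
  have h1 := X.f_act (g * g') X.p X.hp
  rw [X.K_inv.left _ (ha.mem _ _ X.hp), Complex.exp_zero, mul_one, ha.mul _ _ _ X.hp,
    X.f_act g _ (ha.mem _ _ X.hp), X.f_act g' _ X.hp, X.K_inv.left _ (ha.mem _ _ X.hp),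
    Complex.exp_zero, mul_one] at h1
  have h2 : X.f X.p * (X.Cg g * X.Cg g' * Complex.exp (sig (da D) X.p X.K g g'))
      = X.f X.p * X.Cg (g * g') := by
    rw [← h1, sig]; ring
  exact (mul_left_cancel₀ X.f_p h2).symm

/-- **the root cocycle of one class**. -/
theorem XD.exists_root (X : XD D S) (k : ℕ) (hk : 0 < k) :
    ∃ H : Subgroup D.G, H.FiniteIndex ∧ Nonempty (Root D.n k (D.ρ.comp H.subtype) S) := by
  have := Macb_562.fg_EDat D
  have ha := actOn_da D
  obtain ⟨H, hH, l, hl, hm⟩ := E7_528.root X.Cg X.Cg_ne (sig (da D) X.p X.K)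
    (X.K_inv.isCoc ha X.hp) X.Cg_mul X.virt k hk.ne'
  have hk' : (k : ℂ) ≠ 0 := by exact_mod_cast hk.ne'
  refine ⟨H, hH, ⟨{
    f := X.f
    j := fun g z => Complex.exp ((l g + X.K z (da D (g : D.G)⁻¹ X.p)) / k)
    f_hol := X.f_hol
    fin := X.fin
    f_div := X.f_div
    j_hol := fun g => ?_
    j_ne := fun g z _ => Complex.exp_ne_zero _
    j_mul := fun g g' z hz => ?_
    f_act := fun g z hz => ?_ }⟩⟩
  · have h := X.K_hol (da D (g : D.G)⁻¹ X.p) (ha.mem _ _ X.hp)
    have h2 := ((h.const_add (l g)).mul_const ((k : ℂ)⁻¹)).cexp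
    simpa only [div_eq_mul_inv] using h2
  · obtain ⟨m, hm⟩ := hm g g'
    have hc := X.K_inv.cob ha X.hp (g : D.G) (g' : D.G) hz
    change Complex.exp ((l (g * g') + X.K z (da D ((g : D.G) * (g' : D.G))⁻¹ X.p)) / k)
      = Complex.exp ((l g + X.K (da D (g' : D.G) z) (da D (g : D.G)⁻¹ X.p)) / k)
        * Complex.exp ((l g' + X.K z (da D (g' : D.G)⁻¹ X.p)) / k)
    rw [← Complex.exp_add, Complex.exp_eq_exp_iff_exists_int]
    refine ⟨m, ?_⟩
    have h2 : X.K z (da D ((g : D.G) * (g' : D.G))⁻¹ X.p)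
        = X.K (da D (g' : D.G) z) (da D (g : D.G)⁻¹ X.p) + X.K z (da D (g' : D.G)⁻¹ X.p)
          - sig (da D) X.p X.K g g' := by
      rw [hc]; ring
    rw [hm, h2]
    field_simp
    ring
  · change X.f (da D (g : D.G) z) = _
    rw [X.f_act _ z hz, ← Complex.exp_nat_mul, mul_div_cancel₀ _ hk', Complex.exp_add, hl]
    ring

/-- restriction of a root structure -/
def Root.restrict {n k : ℕ} {G : Type} [Group G] {ρ : G →* UG n} {S : Set (V1 n)}
    {H H' : Subgroup G} (hHH : H' ≤ H) (R : Root n k (ρ.comp H.subtype) S) :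
    Root n k (ρ.comp H'.subtype) S where
  f := R.f
  j g := R.j (Subgroup.inclusion hHH g)
  f_hol := R.f_hol
  fin := R.fin
  f_div := R.f_div
  j_hol g := R.j_hol _
  j_ne g := R.j_ne _
  j_mul g g' z hz := by
    rw [map_mul]
    exact R.j_mul _ _ z hz
  f_act g z hz := R.f_act (Subgroup.inclusion hHH g) z hz

/-- **EMain from the analytic data of single classes.** -/
theorem emain_of_XD (h : ∀ (D : EDat) (C : ECls D), Nonempty (XD D (Prod.fst '' C.S))) : EMain := by
  intro D ι _ C k hk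
  have h1 : ∀ i, ∃ H : Subgroup D.G, H.FiniteIndex ∧
      Nonempty (Root D.n k (D.ρ.comp H.subtype) (Prod.fst '' (C i).S)) := fun i => by
    obtain ⟨X⟩ := h D (C i)
    exact X.exists_root k hk
  choose H hH hR using h1
  refine ⟨⨅ i, H i, Subgroup.finiteIndex_iInf hH, fun i => ?_⟩
  obtain ⟨R⟩ := hR i
  exact ⟨Root.restrict (iInf_le _ i) R⟩

end Crest.Agent.R272.EMain_528

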