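/-
helper641, row 272, division E: freeze No 2 (polarised kernel, theta leaf).
-/
import Crest.Agent.R272.EBase_641

set_option autoImplicit false

open scoped ComplexConjugate Topology

namespace Crest.Agent.R272.EBase2_641

open Crest.Agent.R272.EBase_641

noncomputable section

variable {n : ℕ}

/-- `1 - z . conj w` (holomorphic in `z`, antiholomorphic in `w`). -/
def ss (z w : E n) : ℂ := 1 - inner ℂ w z

/-- polarised `R(v;z,w)`. -/
def Rp (v : V1 n) (z w : E n) : ℂ := lin v z * conj (lin v w) / ss z w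

/-- polarised kernel `K(v;z,w)(X, conj Y) = e^{-pi R}(Berg - pi R dlog R dbar log R)`;
`<pi(v)F_z(X), F_w(Y)> = (1/pi) wt Kp`. -/
def Kp (v : V1 n) (z w X Y : E n) : ℂ :=
  Complex.exp (-Real.pi * Rp v z w) *
    (inner ℂ Y X / ss z w + inner ℂ w X * inner ℂ Y z / (ss z w) ^ 2
      - Real.pi * ((inner ℂ v.1 X + lin v z * inner ℂ w X / ss z w)
        * (conj (inner ℂ v.1 Y) + conj (lin v w) * inner ℂ Y z / ss z w) / ss z w))



end

end Crest.Agent.R272.EBase2_641
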