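import Mathlib
import Crest.Agent.R272.EBase2_641
import Crest.Agent.R272.Pol3_898

-- ▼ part R272/EXD1_429
section

/-!
Row 272, division E (helper429): locally uniformly convergent series of holomorphic functions in
several variables.
-/

set_option autoImplicit false

open Metric

namespace Crest.Agent.R272.EXD_429

variable {V : Type*} [NormedAddCommGroup V] [NormedSpace ℂ V]

/-- Cauchy estimate for the Fréchet derivative -/
theorem norm_fderiv_le {F : V → ℂ} {z : V} {δ C : ℝ} (hδ : 0 < δ)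
    (hF : DifferentiableOn ℂ F (ball z δ)) (hC : ∀ w ∈ ball z δ, ‖F w‖ ≤ C) :
    ‖fderiv ℂ F z‖ ≤ 2 * C / δ := by
  have hC0 : 0 ≤ C := (norm_nonneg _).trans (hC z (mem_ball_self hδ))
  refine ContinuousLinearMap.opNorm_le_bound _ (by positivity) fun X => ?_
  by_cases hX : X = 0
  · simp [hX]
  have hX' : 0 < ‖X‖ := norm_pos_iff.2 hX
  set s : ℝ := δ / (2 * ‖X‖) with hs
  have hs0 : 0 < s := by positivity
  have hmem : ∀ t : ℂ, ‖t‖ ≤ s → z + t • X ∈ ball z δ := by
    intro t ht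
    rw [mem_ball, dist_eq_norm, add_sub_cancel_left, norm_smul]
    calc ‖t‖ * ‖X‖ ≤ s * ‖X‖ := by gcongr
      _ = δ / 2 := by rw [hs]; field_simp
      _ < δ := by linarith
  have hd : ∀ t : ℂ, ‖t‖ ≤ s → DifferentiableAt ℂ (fun t : ℂ => F (z + t • X)) t := by
    intro t ht
    have h1 : DifferentiableAt ℂ F (z + t • X) :=
      (hF _ (hmem t ht)).differentiableAt (isOpen_ball.mem_nhds (hmem t ht))
    exact h1.comp t (by fun_prop)
  have hdc : DiffContOnCl ℂ (fun t : ℂ => F (z + t • X)) (ball 0 s) := by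
    apply DifferentiableOn.diffContOnCl
    rw [closure_ball _ hs0.ne']
    intro t ht
    exact (hd t (by simpa using ht)).differentiableWithinAt
  have h1 := Complex.norm_deriv_le_of_forall_mem_sphere_norm_le hs0 hdc (C := C) fun t ht => by
    have : ‖t‖ = s := by simpa using ht
    exact hC _ (hmem t this.le)
  have h2 : deriv (fun t : ℂ => F (z + t • X)) 0 = fderiv ℂ F z X := by
    have h3 : HasFDerivAt F (fderiv ℂ F z) (z + (0:ℂ) • X) := by
      rw [zero_smul, add_zero]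
      exact ((hF z (mem_ball_self hδ)).differentiableAt
        (isOpen_ball.mem_nhds (mem_ball_self hδ))).hasFDerivAt
    have h4 : HasDerivAt (fun t : ℂ => z + t • X) X 0 := by
      simpa using ((hasDerivAt_id (0:ℂ)).smul_const X).const_add z
    exact (h3.comp_hasDerivAt (0:ℂ) h4).deriv
  rw [h2] at h1
  calc ‖fderiv ℂ F z X‖ ≤ C / s := h1
    _ = 2 * C / δ * ‖X‖ := by rw [hs]; field_simp

/-- Weierstrass M-test in several complex variables -/
theorem differentiableOn_tsum {ι : Type*} {F : ι → V → ℂ} {U : Set V} (hU : IsOpen U)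
    (hF : ∀ i, DifferentiableOn ℂ (F i) U)
    (hb : ∀ z ∈ U, ∃ δ > 0, ∃ u : ι → ℝ, Summable u ∧ ∀ i, ∀ w ∈ ball z δ, w ∈ U → ‖F i w‖ ≤ u i) :
    DifferentiableOn ℂ (fun z => ∑' i, F i z) U := by
  intro z hz
  obtain ⟨δ, hδ, u, hu, hle⟩ := hb z hz
  obtain ⟨ε, hε, hεU⟩ := Metric.isOpen_iff.1 hU z hz
  set η : ℝ := min δ ε with hη
  have hη0 : 0 < η := lt_min hδ hε
  have hηU : ball z η ⊆ U := (ball_subset_ball (min_le_right _ _)).trans hεU
  have hηδ : ball z η ⊆ ball z δ := ball_subset_ball (min_le_left _ _)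
  have hsub : ∀ w ∈ ball z (η / 2), ball w (η / 2) ⊆ ball z η := by
    intro w hw
    refine ball_subset_ball' ?_
    have := mem_ball.1 hw
    linarith
  have hzs : z ∈ ball z (η / 2) := mem_ball_self (by positivity)
  have hwU : ∀ w ∈ ball z (η / 2), w ∈ U := fun w hw =>
    hηU (hsub w hw (mem_ball_self (by positivity)))
  have key := hasFDerivAt_tsum_of_isPreconnected (𝕜 := ℂ) (f := F)
    (f' := fun i w => fderiv ℂ (F i) w)
    (u := fun i => 2 * u i / (η / 2)) (s := ball z (η / 2)) (x₀ := z) (x := z)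
    ((hu.mul_left 2).div_const _) isOpen_ball (convex_ball z _).isPreconnected
    (fun i w hw => ((hF i w (hwU w hw)).differentiableAt (hU.mem_nhds (hwU w hw))).hasFDerivAt)
    (fun i w hw => norm_fderiv_le (by positivity)
      ((hF i).mono ((hsub w hw).trans hηU)) fun w' hw' =>
        hle i w' (hηδ (hsub w hw hw')) (hηU (hsub w hw hw')))
    hzs
    (Summable.of_norm_bounded hu fun i => hle i z (mem_ball_self hδ) hz)
    hzs
  exact key.differentiableAt.differentiableWithinAt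

end Crest.Agent.R272.EXD_429
end

-- ▼ part R272/Ex3_429
section

/-!
Row 272, division E (helper429): the explicit product `f_p` and its automorphy factor.

Abstract data: points `X`, an index set `I` of hyperplanes, a kernel `x i z w` (`= π R(v_i;z,w)`),
`L z w` (`= log (1 - z·w̄)`), with `x i z w = l i z * a i w * exp (- L z w)`.
`EE y = y * exp (c - Ein y)`; `Q i z w = - Ein (x i z w) - L z w`; `Psi p i z w` its second
difference at `p`; `S p z w = ∑' i, Psi p i z w`; `fp p z = ∏' i, EE (x i z p)`.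
-/

set_option autoImplicit false

open Complex

namespace Crest.Agent.R272.Ex_429

variable {X I : Type*}

/-- the entire factor -/
noncomputable def EEc (Ein : ℂ → ℂ) (c : ℂ) (y : ℂ) : ℂ := y * cexp (c - Ein y)

/-- the potential -/
noncomputable def Q (Ein : ℂ → ℂ) (L : X → X → ℂ) (x : I → X → X → ℂ) (i : I) (z w : X) : ℂ :=
  - Ein (x i z w) - L z w

/-- second difference at `p` of a kernel -/
def dd (K : X → X → ℂ) (p z w : X) : ℂ := K z w - K z p - K p w + K p p

@[simp] theorem dd_left (K : X → X → ℂ) (p w : X) : dd K p p w = 0 := by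
  simp [dd]

@[simp] theorem dd_right (K : X → X → ℂ) (p z : X) : dd K p z p = 0 := by
  simp only [dd]; ring

/-- factorisation hypothesis of the kernel -/
def Fac (L : X → X → ℂ) (x : I → X → X → ℂ) : Prop :=
  ∃ l a : I → X → ℂ, ∀ i z w, x i z w = l i z * a i w * cexp (- L z w)

/-- the factorwise identity -/
theorem star {Ein : ℂ → ℂ} {c : ℂ} {L : X → X → ℂ} {x : I → X → X → ℂ} (h : Fac L x)
    (i : I) (p q z : X) :
    EEc Ein c (x i z q) * EEc Ein c (x i p p) =
      EEc Ein c (x i z p) * EEc Ein c (x i p q) * cexp (dd (Q Ein L x i) p z q) := by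
  obtain ⟨l, a, h⟩ := h
  have key : ∀ z w, EEc Ein c (x i z w) = l i z * a i w * cexp c * cexp (Q Ein L x i z w) := by
    intro z w
    have h1 : cexp (c - Ein (x i z w)) * cexp (- L z w) = cexp c * cexp (Q Ein L x i z w) := by
      rw [← Complex.exp_add, ← Complex.exp_add]
      congr 1
      simp only [Q]; ring
    calc EEc Ein c (x i z w) = (l i z * a i w * cexp (- L z w)) * cexp (c - Ein (x i z w)) := by
          simp only [EEc]; rw [← h i z w]
      _ = l i z * a i w * (cexp (c - Ein (x i z w)) * cexp (- L z w)) := by ring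
      _ = _ := by rw [h1]; ring
  rw [key z q, key p p, key z p, key p q]
  have h2 : cexp (Q Ein L x i z q) * cexp (Q Ein L x i p p) =
      cexp (Q Ein L x i z p) * cexp (Q Ein L x i p q) * cexp (dd (Q Ein L x i) p z q) := by
    rw [← Complex.exp_add, ← Complex.exp_add, ← Complex.exp_add]
    congr 1
    simp only [dd]; ring
  calc l i z * a i q * cexp c * cexp (Q Ein L x i z q) *
        (l i p * a i p * cexp c * cexp (Q Ein L x i p p))
      = (l i z * a i q * cexp c * (l i p * a i p * cexp c)) *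
        (cexp (Q Ein L x i z q) * cexp (Q Ein L x i p p)) := by ring
    _ = _ := by rw [h2]; ring

/-- the product -/
noncomputable def fp (Ein : ℂ → ℂ) (c : ℂ) (x : I → X → X → ℂ) (p z : X) : ℂ :=
  ∏' i, EEc Ein c (x i z p)

/-- the sum of the polarised potentials -/
noncomputable def S (Ein : ℂ → ℂ) (L : X → X → ℂ) (x : I → X → X → ℂ) (p z w : X) : ℂ :=
  ∑' i, dd (Q Ein L x i) p z w

/-- change of base point -/
theorem fp_change {Ein : ℂ → ℂ} {c : ℂ} {L : X → X → ℂ} {x : I → X → X → ℂ} (h : Fac L x)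
    (hm : ∀ z w : X, Multipliable fun i => EEc Ein c (x i z w))
    {p q z : X} (hs : Summable fun i => dd (Q Ein L x i) p z q) :
    fp Ein c x q z * fp Ein c x p p =
      fp Ein c x p z * fp Ein c x q p * cexp (S Ein L x p z q) := by
  have hS : HasProd (fun i => cexp (dd (Q Ein L x i) p z q)) (cexp (S Ein L x p z q)) :=
    hs.hasSum.cexp
  unfold fp
  rw [← (hm z q).tprod_mul (hm p p), ← hS.tprod_eq, ← (hm z p).tprod_mul (hm p q),
    ← ((hm z p).mul (hm p q)).tprod_mul hS.multipliable]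
  exact tprod_congr fun i => star h i p q z

section Grp

variable {G : Type*} [Group G] [MulAction G X] [MulAction G I]








/-- kernels with `(INV)`, vanishing at the base point -/
structure Inv (G : Type*) [Group G] [MulAction G X] (p : X) (K : X → X → ℂ) : Prop where
  left : ∀ w, K p w = 0
  right : ∀ z, K z p = 0
  inv : ∀ (g : G) (z w : X), dd K (g • p) (g • z) (g • w) = K z w






end Grp

end Crest.Agent.R272.Ex_429
namespace Crest.Agent.R272.Ex_429.Inv
end Crest.Agent.R272.Ex_429.Inv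
end

-- ▼ part R272/EXD2_429

/-!
Row 272, division E (helper429): the function `f_p` and the kernel `K = Σ_{v∈S} Psi_v` of a class,
group action and automorphy. Convergence is a hypothesis here.
-/

set_option autoImplicit false

open Complex Set Filter Topology
open scoped ComplexConjugate Real

namespace Crest.Agent.R272.EXD_429

open Crest.Agent.R272.EBase_641
open Crest.Agent.R272.Pol_898 (qq RR QQ Psi)

noncomputable section

variable {D : EDat}

/-- the action of `G` on `V × W` -/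
def gv (D : EDat) (g : D.G) (v : V1 D.n × W D.m) : V1 D.n × W D.m :=
  ((D.ρ g).1 v.1, D.σ g v.2)

theorem gv_mul (g h : D.G) (v : V1 D.n × W D.m) : gv D (g * h) v = gv D g (gv D h v) := by
  simp only [gv, map_mul]; rfl

theorem gv_one (v : V1 D.n × W D.m) : gv D 1 v = v := by
  simp only [gv, map_one]; rfl

theorem gv_inv_gv (g : D.G) (v : V1 D.n × W D.m) : gv D g⁻¹ (gv D g v) = v := by
  rw [← gv_mul, inv_mul_cancel, gv_one]

theorem gv_gv_inv (g : D.G) (v : V1 D.n × W D.m) : gv D g (gv D g⁻¹ v) = v := by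
  rw [← gv_mul, mul_inv_cancel, gv_one]

/-- permutation of an invariant set -/
def perm (D : EDat) (S : Set (V1 D.n × W D.m)) (hS : ∀ g, ∀ v ∈ S, gv D g v ∈ S) (g : D.G) :
    S ≃ S where
  toFun v := ⟨gv D g v.1, hS g _ v.2⟩
  invFun v := ⟨gv D g⁻¹ v.1, hS g⁻¹ _ v.2⟩
  left_inv v := Subtype.ext (gv_inv_gv g v.1)
  right_inv v := Subtype.ext (gv_gv_inv g v.1)

theorem wt_gv (g : D.G) (v : V1 D.n × W D.m) : wt (gv D g v) = wt v := by
  have h1 : ‖((D.ρ g).1 v.1).1‖ ^ 2 - ‖((D.ρ g).1 v.1).2‖ ^ 2 = ‖v.1.1‖ ^ 2 - ‖v.1.2‖ ^ 2 := by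
    have h := UG_hh (D.ρ g) v.1 v.1
    rw [hh_self, hh_self] at h
    exact Complex.ofReal_injective h
  have h2 : ‖D.σ g v.2‖ = ‖v.2‖ := (D.σ g).norm_map v.2
  simp only [wt, gv, h1, h2]

/-- the polarised sum with coefficients -/
def KS (Ein : ℂ → ℂ) (D : EDat) (S : Set (V1 D.n × W D.m)) (c : V1 D.n × W D.m → ℂ)
    (p z w : E D.n) : ℂ := ∑' v : S, c v.1 * Psi Ein p v.1.1 z w

variable {S : Set (V1 D.n × W D.m)} {c : V1 D.n × W D.m → ℂ} {Ein : ℂ → ℂ}

theorem KS_left (p w : E D.n) : KS Ein D S c p p w = 0 := by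
  simp [KS, Pol_898.Psi_left]

theorem KS_right (p z : E D.n) : KS Ein D S c p z p = 0 := by
  simp [KS, Pol_898.Psi_right]

/-- **(INV)** for the sum -/
theorem KS_inv (hS : ∀ g, ∀ v ∈ S, gv D g v ∈ S) (hc : ∀ g v, c (gv D g v) = c v) {p : E D.n}
    (hp : p ∈ Ball D.n)
    (hs : ∀ z ∈ Ball D.n, ∀ w ∈ Ball D.n, Summable fun v : S => c v.1 * Psi Ein p v.1.1 z w)
    (g : D.G) {z w : E D.n} (hz : z ∈ Ball D.n) (hw : w ∈ Ball D.n) :
    KS Ein D S c p (act (D.ρ g) z) (act (D.ρ g) w) - KS Ein D S c p (act (D.ρ g) z) (act (D.ρ g) p)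
      - KS Ein D S c p (act (D.ρ g) p) (act (D.ρ g) w)
      + KS Ein D S c p (act (D.ρ g) p) (act (D.ρ g) p) = KS Ein D S c p z w := by
  have gz := act_mem (D.ρ g) hz
  have gw := act_mem (D.ρ g) hw
  have gp := act_mem (D.ρ g) hp
  unfold KS
  rw [← (hs _ gz _ gw).tsum_sub (hs _ gz _ gp),
    ← ((hs _ gz _ gw).sub (hs _ gz _ gp)).tsum_sub (hs _ gp _ gw),
    ← (((hs _ gz _ gw).sub (hs _ gz _ gp)).sub (hs _ gp _ gw)).tsum_add (hs _ gp _ gp),
    ← (perm D S hS g).tsum_eq]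
  refine tsum_congr fun v => ?_
  have h := Pol_898.Psi_inv Ein (D.ρ g) v.1.1 hp hz hw
  show c (gv D g v.1) * Psi Ein p ((D.ρ g).1 v.1.1) _ _
    - c (gv D g v.1) * Psi Ein p ((D.ρ g).1 v.1.1) _ _
    - c (gv D g v.1) * Psi Ein p ((D.ρ g).1 v.1.1) _ _
    + c (gv D g v.1) * Psi Ein p ((D.ρ g).1 v.1.1) _ _ = _
  rw [hc]
  linear_combination (c v.1) * h

theorem KS_inv' (hS : ∀ g, ∀ v ∈ S, gv D g v ∈ S) (hc : ∀ g v, c (gv D g v) = c v) {p : E D.n}
    (hp : p ∈ Ball D.n)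
    (hs : ∀ z ∈ Ball D.n, ∀ w ∈ Ball D.n, Summable fun v : S => c v.1 * Psi Ein p v.1.1 z w)
    (g : D.G) {z w : E D.n} (hz : z ∈ Ball D.n) (hw : w ∈ Ball D.n) :
    Pol_898.dd (KS Ein D S c p) (act (D.ρ g) p) (act (D.ρ g) z) (act (D.ρ g) w)
      = KS Ein D S c p z w := KS_inv hS hc hp hs g hz hw

/-! ### the product -/

/-- `f_p(z) = ∏_{v ∈ S} EE(π R(v;z,p))` -/
def FP (EE : ℂ → ℂ) (D : EDat) (S : Set (V1 D.n × W D.m)) (p z : E D.n) : ℂ :=
  ∏' v : S, EE (π * RR v.1.1 z p)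

/-- the kernel `π R` on the subtype -/
def xk (D : EDat) (S : Set (V1 D.n × W D.m)) (v : S) (z w : Ball D.n) : ℂ :=
  π * RR v.1.1 z.1 w.1

def Lk (D : EDat) (z w : Ball D.n) : ℂ := log (qq z.1 w.1)

theorem fac_xk (D : EDat) (S : Set (V1 D.n × W D.m)) : Ex_429.Fac (Lk D) (xk D S) := by
  refine ⟨fun v z => π * lin v.1.1 z.1, fun v w => conj (lin v.1.1 w.1), fun v z w => ?_⟩
  simp only [xk, Lk, RR]
  rw [Complex.exp_neg, exp_log (Pol_898.qq_ne z.2 w.2)]
  ring

theorem FP_eq (ec : ℂ) (S : Set (V1 D.n × W D.m)) {p z : E D.n} (hp : p ∈ Ball D.n)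
    (hz : z ∈ Ball D.n) :
    FP (Ex_429.EEc Ein ec) D S p z = Ex_429.fp Ein ec (xk D S) ⟨p, hp⟩ ⟨z, hz⟩ := rfl

theorem S_eq (S : Set (V1 D.n × W D.m)) {p z w : E D.n} (hp : p ∈ Ball D.n)
    (hz : z ∈ Ball D.n) (hw : w ∈ Ball D.n) :
    KS Ein D S (fun _ => 1) p z w = Ex_429.S Ein (Lk D) (xk D S) ⟨p, hp⟩ ⟨z, hz⟩ ⟨w, hw⟩ := by
  unfold KS Ex_429.S
  refine tsum_congr fun v => ?_
  rw [one_mul]; rfl

/-- change of base point -/
theorem FP_change (ec : ℂ) {p q z : E D.n} (hp : p ∈ Ball D.n) (hq : q ∈ Ball D.n)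
    (hz : z ∈ Ball D.n)
    (hm : ∀ z ∈ Ball D.n, ∀ w ∈ Ball D.n,
      Multipliable fun v : S => Ex_429.EEc Ein ec (π * RR v.1.1 z w))
    (hs : Summable fun v : S => Psi Ein p v.1.1 z q) :
    FP (Ex_429.EEc Ein ec) D S q z * FP (Ex_429.EEc Ein ec) D S p p =
      FP (Ex_429.EEc Ein ec) D S p z * FP (Ex_429.EEc Ein ec) D S q p *
        cexp (KS Ein D S (fun _ => 1) p z q) := by
  rw [FP_eq ec S hq hz, FP_eq ec S hp hp, FP_eq ec S hp hz, FP_eq ec S hq hp, S_eq S hp hz hq]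
  refine Ex_429.fp_change (fac_xk D S) ?_ ?_
  · intro z w
    exact hm z.1 z.2 w.1 w.2
  · exact hs

/-- `f_p(g z) = f_{g⁻¹ p}(z)` -/
theorem FP_act (EE : ℂ → ℂ) (hS : ∀ g, ∀ v ∈ S, gv D g v ∈ S) (g : D.G) {p z : E D.n}
    (hp : p ∈ Ball D.n) (hz : z ∈ Ball D.n) :
    FP EE D S p (act (D.ρ g) z) = FP EE D S (act (D.ρ g)⁻¹ p) z := by
  unfold FP
  rw [← (perm D S hS g).tprod_eq]
  refine tprod_congr fun v => ?_
  have h := RR_act' g v.1.1 hz (act_mem (D.ρ g)⁻¹ hp)
  rw [act_act_inv _ hp] at h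
  show EE (π * RR ((D.ρ g).1 v.1.1) (act (D.ρ g) z) p) = _
  rw [h]
where
  RR_act' (g : D.G) (v : V1 D.n) {z w : E D.n} (hz : z ∈ Ball D.n) (hw : w ∈ Ball D.n) :
      RR ((D.ρ g).1 v) (act (D.ρ g) z) (act (D.ρ g) w) = RR v z w :=
    Pol_898.RR_act (D.ρ g) v hz hw

/-- **the automorphy formula** -/
theorem FP_automorphy (ec : ℂ) (hS : ∀ g, ∀ v ∈ S, gv D g v ∈ S) (g : D.G) {p z : E D.n}
    (hp : p ∈ Ball D.n) (hz : z ∈ Ball D.n)
    (hm : ∀ z ∈ Ball D.n, ∀ w ∈ Ball D.n,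
      Multipliable fun v : S => Ex_429.EEc Ein ec (π * RR v.1.1 z w))
    (hs : ∀ z ∈ Ball D.n, ∀ w ∈ Ball D.n, Summable fun v : S => Psi Ein p v.1.1 z w)
    (h0 : FP (Ex_429.EEc Ein ec) D S p p ≠ 0) :
    FP (Ex_429.EEc Ein ec) D S p (act (D.ρ g) z) =
      FP (Ex_429.EEc Ein ec) D S p z *
        (FP (Ex_429.EEc Ein ec) D S p (act (D.ρ g) p) / FP (Ex_429.EEc Ein ec) D S p p) *
        cexp (KS Ein D S (fun _ => 1) p z (act (D.ρ g)⁻¹ p)) := by
  have hq : act (D.ρ g)⁻¹ p ∈ Ball D.n := act_mem _ hp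
  have h1 := FP_change ec hp hq hz hm (hs z hz _ hq)
  rw [← FP_act _ hS g hp hz, ← FP_act _ hS g hp hp] at h1
  field_simp
  rw [h1]

end

end Crest.Agent.R272.EXD_429
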