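import Crest.Agent.R272.EBase_641

/-!
Row 272, division E (helper429): polarised kernel, common definitions on top of `EBase_641`.
`sp z w = 1 - ⟪w,z⟫` (holomorphic in `z`, antiholomorphic in `w`), `R2` = polarisation of `R`,
`K2` = polarisation of `Kf`, and the theta leaf `EThetaK` in polarised form.
-/

set_option autoImplicit false

open scoped ComplexConjugate Topology

namespace Crest.Agent.R272.EPol_429

open Crest.Agent.R272.EBase_641

noncomputable section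

variable {n : ℕ}

/-- `1 - ⟪w,z⟫` -/
def sp (z w : E n) : ℂ := 1 - inner ℂ w z

/-- polarisation of `R` -/
def R2 (v : V1 n) (z w : E n) : ℂ := lin v z * conj (lin v w) / sp z w

/-- polarisation of `om` -/
def om2 (z w X Y : E n) : ℂ := inner ℂ Y X / sp z w + inner ℂ w X * inner ℂ Y z / sp z w ^ 2

/-- polarisation of `Kf` -/
def K2 (v : V1 n) (z w X Y : E n) : ℂ :=
  Complex.exp (-(Real.pi : ℂ) * R2 v z w) *
    (om2 z w X Y - Real.pi * ((inner ℂ v.1 X + lin v z * inner ℂ w X / sp z w) *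
      (conj (inner ℂ v.1 Y) + conj (lin v w) * inner ℂ Y z / sp z w) / sp z w))





/-- **polarised theta leaf** -/
def EThetaK : Prop :=
  ∀ (D : EDat) (φ : (V1 D.n × W D.m) → ℝ),
    (∃ M : ℕ, 0 < M ∧ ∀ v, φ v ≠ 0 → M • v ∈ D.L) →
    (∃ M : ℕ, 0 < M ∧ ∀ v, ∀ l ∈ D.L, φ (v + M • l) = φ v) →
    ∃ (r : ℕ) (c : Fin r → ℂ) (A B : Fin r → E D.n → ℂ) (H : Subgroup D.G),
      H.FiniteIndex ∧
      (∀ i, DifferentiableOn ℂ (A i) (Ball D.n)) ∧ (∀ i, DifferentiableOn ℂ (B i) (Ball D.n)) ∧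
      (∀ i, ∀ g ∈ H, ∃ a : ℂ, ∀ z ∈ Ball D.n, A i (act (D.ρ g) z) = A i z + a) ∧
      (∀ i, ∀ g ∈ H, ∃ b : ℂ, ∀ z ∈ Ball D.n, B i (act (D.ρ g) z) = B i z + b) ∧
      ∀ z ∈ Ball D.n, ∀ w ∈ Ball D.n, ∀ X Y : E D.n,
        HasSum (fun v : {v : V1 D.n × W D.m // φ v ≠ 0} =>
          ((φ v.1 * wt v.1 : ℝ) : ℂ) * K2 v.1.1 z w X Y)
          (∑ i, c i * (fderiv ℂ (A i) z X * conj (fderiv ℂ (B i) w Y)))


end

end Crest.Agent.R272.EPol_429
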