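import Crest.Agent.R272.Sup4_528
import Mathlib
import Crest.Agent.R272.EBase_641
import Crest.Agent.R272.SupDefs_528

-- ▼ part R272/Sup5_528
section

/-!
R272, division E, road B (helper528), part 5: `Core L → TData L`.
-/

set_option autoImplicit false

open scoped ComplexConjugate Topology Real
open MeasureTheory

namespace Crest.Agent.R272.Sup_528

open Crest.Agent.R272.EBase_641 Crest.Agent.R272.EBase2_641 Crest.Agent.R272.EThDefs_445

noncomputable section

variable {n m : ℕ} {L : AddSubgroup (V1 n × W m)}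

theorem psi2_kk_zero (v : V1 n × W m) (z w X : E n) :
    psi2 v z 0 w 0 * (π * kk v z w 0 X) = -(π : ℂ) * psiF v z w X := by
  rw [psi2_zero, psiF, kk]
  simp only [inner_zero_left]
  ring

theorem psi2_second (v : V1 n × W m) {z w : E n} (hz : z ∈ Ball n) (hw : w ∈ Ball n) (X Y : E n) :
    psi2 v z 0 w 0 * (π * mm v z w Y) * (π * kk v z w 0 X)
      + psi2 v z 0 w 0 * (π * (inner ℂ Y X + inner ℂ w X * inner ℂ Y z / ss z w))
      = (π : ℂ) ^ 2 * psiFF v z w X Y := by
  have hs := ss_re_pos hz hw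
  have hs0 : ss z w ≠ 0 := by intro h; rw [h] at hs; simp at hs
  have hπ : (π : ℂ) ≠ 0 := by exact_mod_cast Real.pi_ne_zero
  rw [psi2_zero, psiFF, kk, mm, psi, Kp]
  simp only [inner_zero_left, inner_conj_symm]
  field_simp
  ring

theorem fderiv_primitive (hL : Disc L) (K : Core L) {b0 : V1 n × W m} (hb : tt K.T b0 0 0 ≠ 0)
    (a : V1 n × W m) {z : E n} (hz : z ∈ Ball n) (X : E n) :
    fderiv ℂ (fun z => Ser K b0 (fun v => kA v z) a) z X = -(π : ℂ)⁻¹ * DD K.T a z X := by
  have hπ : (π : ℂ) ≠ 0 := by exact_mod_cast Real.pi_ne_zero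
  have h2 : conj (tt K.T b0 0 0) ≠ 0 := (map_ne_zero _).2 hb
  obtain ⟨hs, hd⟩ := primitive hL K b0 a hz
  rw [hd.fderiv]
  have h3 : (∑' l : L, (K.ε l * ph (ee (l : V1 n × W m) (a + b0)))
        • (ex ((l : V1 n × W m) + a - b0) z • lv ((l : V1 n × W m) + a - b0))) X
      = ∑' l : L, ((K.ε l * ph (ee (l : V1 n × W m) (a + b0)))
        • (ex ((l : V1 n × W m) + a - b0) z • lv ((l : V1 n × W m) + a - b0))) X :=
    ((ContinuousLinearMap.apply ℂ ℂ X).map_tsum hs)
  rw [smul_apply, h3, smul_eq_mul]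
  have h4 := hasSum_DD hL K a b0 hz (zero_mem_Ball (n := n)) 0 X
  have h5 : (∑' l : L, ((K.ε l * ph (ee (l : V1 n × W m) (a + b0)))
        • (ex ((l : V1 n × W m) + a - b0) z • lv ((l : V1 n × W m) + a - b0))) X)
      = -(π : ℂ)⁻¹ * (ph (ee b0 a) * (DD K.T a z X * conj (tt K.T b0 0 0))) := by
    rw [← h4.tsum_eq, ← tsum_mul_left]
    refine tsum_congr fun l => ?_
    rw [← ex_eq_psi2]
    simp only [smul_apply, smul_eq_mul, lv_apply, kk, inner_zero_left]
    field_simp
    ring
  rw [h5]
  have h1 := ph_neg_mul (ee b0 a)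
  field_simp
  linear_combination (-(DD K.T a z X)) * h1

/-- **(B6)**: `Core L → TData L`. -/
def tdata (hL : Disc L) (K : Core L) {b0 : V1 n × W m} (hb : tt K.T b0 0 0 ≠ 0) : TData L where
  ε := K.ε
  ε_pm := K.ε_pm
  ε_add := K.ε_add
  t a z := tt K.T a z 0
  A a z := Ser K b0 (fun v => kA v z) a
  t_hol a := (differentiableOn_Ser_ex hL K b0 a).congr fun z hz => by
    rw [tt_eq hL K hb a hz]
    simp only [ex_eq_psi2]
  A_hol a z hz := (primitive hL K b0 a hz).2.differentiableAt.differentiableWithinAt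
  A_zero a := by
    rw [Ser]
    simp [kA]
  t_ne := ⟨b0, hb⟩
  t_add l hl a z hz := by
    rw [tt_eq hL K hb _ hz, tt_eq hL K hb _ hz, Ser_add K b0 _ hl]
  A_add l hl a z _ := Ser_add K b0 _ hl a
  vv a b z hz w hw := by
    refine hasSum_of_eq (hasSum_psi2 hL K a b hz hw 0 0) (fun l => ?_) rfl
    rw [psi2_zero]
  Fv a b z hz w hw X := by
    have hπ : (π : ℂ) ≠ 0 := by exact_mod_cast Real.pi_ne_zero
    refine hasSum_of_eq ((hasSum_DD hL K a b hz hw 0 X).mul_left (-(π : ℂ)⁻¹)) (fun l => ?_) ?_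
    · rw [psi2_kk_zero]
      field_simp
    · rw [fderiv_primitive hL K hb a hz]; ring
  FF a b z hz w hw X Y := by
    have hπ : (π : ℂ) ≠ 0 := by exact_mod_cast Real.pi_ne_zero
    refine hasSum_of_eq ((hasSum_DD2 hL K a b hz hw X Y).mul_left (((π : ℂ) ^ 2)⁻¹))
      (fun l => ?_) ?_
    · rw [psi2_second _ hz hw]
      field_simp
    · rw [fderiv_primitive hL K hb a hz, fderiv_primitive hL K hb b hw]
      simp only [map_mul, map_neg, map_inv₀, Complex.conj_ofReal]
      field_simp

/-- **road B**: the core rank one identity gives the output of leaf T2. -/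
theorem nonempty_tdata (hL : Disc L) (K : Core L) : Nonempty (TData L) := by
  obtain ⟨b, hb⟩ := exists_tt_ne hL K
  exact ⟨tdata hL K hb⟩

/-- T2 from the core -/
theorem t2_of_core (h : ∀ (n m : ℕ) (L : AddSubgroup (V1 n × W m)),
    (∀ r : ℝ, {v : V1 n × W m | v ∈ L ∧ ‖v‖ ≤ r}.Finite) →
    Submodule.span ℝ (L : Set (V1 n × W m)) = ⊤ →
    (∀ v ∈ L, ∀ w ∈ L, ∃ k : ℤ, ee v w = k) →
    (∀ v, (∀ w ∈ L, ∃ k : ℤ, ee v w = k) → v ∈ L) →
    Nonempty (Core L)) : T2 := by
  intro n m L h1 h2 h3 h4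
  obtain ⟨K⟩ := h n m L h1 h2 h3 h4
  exact nonempty_tdata h1 K

end

end Crest.Agent.R272.Sup_528
end

-- ▼ part R272/ETh1_445
section

/-!
# Row 272, division E (helper445): Heisenberg operators on entire functions, definitions and
Gaussian summability.
-/

set_option autoImplicit false

open Complex MeasureTheory Filter Topology
open scoped ComplexConjugate Real

namespace Crest.Agent.R272.ETh445

noncomputable section

variable {ι J : Type} [Fintype ι] [Fintype J]

/-- `|u|²` -/
def nsq (u : ι → ℂ) : ℝ := ∑ k, ‖u k‖ ^ 2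

/-- `∑ u_k conj (w_k)` -/
def hp (u w : ι → ℂ) : ℂ := ∑ k, u k * conj (w k)

/-- the Heisenberg operator `(π(v)f)(u) = exp(-π|v|²/2 - π ⟨u,v⟩) f(u+v)` -/
def hei (v : ι → ℂ) (f : (ι → ℂ) → ℂ) (u : ι → ℂ) : ℂ :=
  cexp (-(π / 2) * (nsq v : ℂ) - π * hp u v) * f (u + v)

/-- entire functions of growth `≤ C exp(π r |u|²/2)` with `r < 1` -/
structure State (f : (ι → ℂ) → ℂ) : Prop where
  cont : Continuous f
  hol : ∀ u d : ι → ℂ, Differentiable ℂ (fun s : ℂ => f (u + s • d))
  growth : ∃ C r : ℝ, 0 ≤ C ∧ r < 1 ∧ ∀ u, ‖f u‖ ≤ C * Real.exp (π / 2 * r * nsq u)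

/-- the Fock pairing -/
def pair (f g : (ι → ℂ) → ℂ) : ℂ :=
  ∫ u : ι → ℂ, f u * conj (g u) * (Real.exp (-π * nsq u) : ℂ)

/-- the combination `∑ σ_j P_j` -/
def lc (P : J → ι → ℂ) (σ : J → ℂ) : ι → ℂ := fun k => ∑ j, σ j * P j k

/-- the lattice point `∑ m_j P_j + ∑ n_j Q_j` -/
def lv (P Q : J → ι → ℂ) (p : (J → ℤ) × (J → ℤ)) : ι → ℂ :=
  lc P (fun j => (p.1 j : ℂ)) + lc Q (fun j => (p.2 j : ℂ))

/-- the sign `(-1)^{m·n}` -/
def sg (p : (J → ℤ) × (J → ℤ)) : ℂ := cexp (π * I * ((∑ i, p.1 i * p.2 i : ℤ) : ℂ))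

/-- symplectic families: `Im⟨Q_i,P_j⟩ = δ_ij`, all other products real -/
structure Symp [DecidableEq J] (P Q : J → ι → ℂ) : Prop where
  pp : ∀ i j, (hp (P i) (P j)).im = 0
  qq : ∀ i j, (hp (Q i) (Q j)).im = 0
  qp : ∀ i j, (hp (Q i) (P j)).im = if i = j then 1 else 0

/-- the lattice average `P f = ∑ ε(v) π(v) f` -/
def avg (P Q : J → ι → ℂ) (f : (ι → ℂ) → ℂ) (u : ι → ℂ) : ℂ :=
  ∑' p : (J → ℤ) × (J → ℤ), sg p * hei (lv P Q p) f u

/-! ### Gaussian summability -/

lemma summable_exp_int {c : ℝ} (hc : 0 < c) :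
    Summable fun n : ℤ => Real.exp (-c * (n : ℝ) ^ 2) := by
  have h := summable_pow_mul_jacobiTheta₂_term_bound 0 (T := c / π) (by positivity) 0
  refine h.congr fun n => ?_
  rw [pow_zero, one_mul]
  congr 1
  field_simp
  simp

lemma summable_exp_pi (κ : Type) [Fintype κ] :
    ∀ {c : ℝ}, 0 < c → Summable fun n : κ → ℤ => Real.exp (-c * ∑ i, (n i : ℝ) ^ 2) := by
  classical
  refine Fintype.induction_empty_option (P := fun κ _ =>
    ∀ {c : ℝ}, 0 < c → Summable fun n : κ → ℤ => Real.exp (-c * ∑ i, (n i : ℝ) ^ 2))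
    ?_ ?_ ?_ κ
  · intro α β _ e ih c hc
    have h := @ih c hc
    refine ((Equiv.arrowCongr e (Equiv.refl ℤ)).symm.summable_iff.2 h).congr fun n => ?_
    simp only [Function.comp_apply]
    congr 2
    exact @Fintype.sum_equiv α β _ (Fintype.ofEquiv β e.symm) _ _ e _ _ (fun x => rfl)
  · intro c hc
    exact Summable.of_finite
  · intro α _ ih c hc
    have h := (summable_exp_int hc).mul_of_nonneg (ih hc) (fun _ => (Real.exp_pos _).le)
      (fun _ => (Real.exp_pos _).le)
    refine ((Equiv.piOptionEquivProd (β := fun _ : Option α => ℤ)).summable_iff.2 h).congr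
      fun n => ?_
    simp only [Function.comp_apply, Equiv.piOptionEquivProd_apply, Fintype.sum_option, mul_add,
      Real.exp_add]

/-! ### elementary identities -/

lemma nsq_nonneg (u : ι → ℂ) : 0 ≤ nsq u := Finset.sum_nonneg fun _ _ => sq_nonneg _

@[simp] lemma nsq_zero : nsq (0 : ι → ℂ) = 0 := by simp [nsq]

@[simp] lemma nsq_neg (u : ι → ℂ) : nsq (-u) = nsq u := by simp [nsq]

lemma nsq_add (u v : ι → ℂ) : nsq (u + v) = nsq u + 2 * (hp u v).re + nsq v := by
  simp only [nsq, hp, re_sum, Finset.mul_sum, ← Finset.sum_add_distrib]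
  refine Finset.sum_congr rfl fun k _ => ?_
  simp only [Pi.add_apply, ← Complex.normSq_eq_norm_sq, Complex.normSq_add]
  simp [Complex.normSq_apply]
  ring

lemma hp_add_left (u v w : ι → ℂ) : hp (u + v) w = hp u w + hp v w := by
  simp [hp, add_mul, Finset.sum_add_distrib]

lemma hp_add_right (u v w : ι → ℂ) : hp u (v + w) = hp u v + hp u w := by
  simp [hp, mul_add, Finset.sum_add_distrib]

@[simp] lemma hp_zero_left (w : ι → ℂ) : hp 0 w = 0 := by simp [hp]

@[simp] lemma hp_zero_right (w : ι → ℂ) : hp w 0 = 0 := by simp [hp]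

@[simp] lemma hp_neg_right (u w : ι → ℂ) : hp u (-w) = -hp u w := by simp [hp]

@[simp] lemma hp_neg_left (u w : ι → ℂ) : hp (-u) w = -hp u w := by simp [hp]

lemma hp_conj (u w : ι → ℂ) : conj (hp u w) = hp w u := by
  simp [hp, mul_comm]


lemma hp_im_symm (u w : ι → ℂ) : (hp u w).im = -(hp w u).im := by
  rw [← hp_conj]; simp

/-- composition of Heisenberg operators -/
lemma hei_hei (v w : ι → ℂ) (f : (ι → ℂ) → ℂ) (u : ι → ℂ) :
    hei v (hei w f) u = cexp (-(π * I) * ((hp v w).im : ℂ)) * hei (v + w) f u := by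
  unfold hei
  rw [← mul_assoc, ← mul_assoc, ← Complex.exp_add, ← Complex.exp_add, add_assoc u v w]
  congr 2
  rw [nsq_add, hp_add_left, hp_add_right]
  have h : hp v w = ((hp v w).re : ℂ) + ((hp v w).im : ℂ) * I := (Complex.re_add_im _).symm
  push_cast
  linear_combination (-π) * h

lemma norm_hei (v : ι → ℂ) (f : (ι → ℂ) → ℂ) (u : ι → ℂ) :
    ‖hei v f u‖ * Real.exp (-(π / 2) * nsq u)
      = Real.exp (-(π / 2) * nsq (u + v)) * ‖f (u + v)‖ := by
  unfold hei
  rw [norm_mul, Complex.norm_exp, mul_right_comm, ← Real.exp_add]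
  congr 2
  rw [nsq_add]
  have : (-(π / 2 : ℂ) * (nsq v : ℂ) - π * hp u v).re = -(π / 2) * nsq v - π * (hp u v).re := by
    have h1 : (-(π / 2 : ℂ) * (nsq v : ℂ)) = ((-(π / 2) * nsq v : ℝ) : ℂ) := by push_cast; ring
    rw [sub_re, h1, ofReal_re, re_ofReal_mul]
  rw [this]; ring


lemma hp_lc_left (P : J → ι → ℂ) (σ : J → ℂ) (w : ι → ℂ) :
    hp (lc P σ) w = ∑ j, σ j * hp (P j) w := by
  simp only [hp, lc, Finset.sum_mul, Finset.mul_sum]
  rw [Finset.sum_comm]
  simp only [mul_assoc]

lemma hp_lc_right (P : J → ι → ℂ) (σ : J → ℂ) (w : ι → ℂ) :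
    hp w (lc P σ) = ∑ j, conj (σ j) * hp w (P j) := by
  rw [← hp_conj, hp_lc_left]
  simp only [map_sum, map_mul, hp_conj]

omit [Fintype ι] in
lemma lc_add (P : J → ι → ℂ) (σ τ : J → ℂ) : lc P (σ + τ) = lc P σ + lc P τ := by
  funext k
  simp [lc, add_mul, Finset.sum_add_distrib]

lemma nsq_eq_hp (u : ι → ℂ) : (nsq u : ℂ) = hp u u := by
  simp only [nsq, hp, ofReal_sum]
  refine Finset.sum_congr rfl fun k _ => ?_
  rw [Complex.mul_conj, Complex.normSq_eq_norm_sq]

lemma norm_hp_sq_le (u w : ι → ℂ) : ‖hp u w‖ ^ 2 ≤ nsq u * nsq w := by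
  have h1 : ‖hp u w‖ ≤ ∑ k, ‖u k‖ * ‖w k‖ := by
    refine (norm_sum_le _ _).trans (le_of_eq ?_)
    simp
  have h2 : (∑ k, ‖u k‖ * ‖w k‖) ^ 2 ≤ (∑ k, ‖u k‖ ^ 2) * ∑ k, ‖w k‖ ^ 2 :=
    Finset.sum_mul_sq_le_sq_mul_sq _ _ _
  refine le_trans ?_ h2
  exact pow_le_pow_left₀ (norm_nonneg _) h1 2

lemma sq_im_hp_le (u w : ι → ℂ) : (hp u w).im ^ 2 ≤ nsq u * nsq w := by
  refine le_trans ?_ (norm_hp_sq_le u w)
  rw [← sq_abs]
  exact pow_le_pow_left₀ (abs_nonneg _) (Complex.abs_im_le_norm _) 2

variable [DecidableEq J] {P Q : J → ι → ℂ}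

omit [Fintype J] in
lemma Symp.pq (h : Symp P Q) (i j : J) : (hp (P i) (Q j)).im = if i = j then -1 else 0 := by
  rw [hp_im_symm, h.qp]
  by_cases hij : i = j
  · simp [hij]
  · simp [hij, Ne.symm hij]

/-- the imaginary part of the product of two real combinations -/
lemma Symp.im_lc (h : Symp P Q) (x y x' y' : J → ℝ) :
    (hp (lc P (fun j => (x j : ℂ)) + lc Q (fun j => (y j : ℂ)))
      (lc P (fun j => (x' j : ℂ)) + lc Q (fun j => (y' j : ℂ)))).im
      = ∑ j, (y j * x' j - x j * y' j) := by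
  simp only [hp_add_left, hp_add_right, add_im, hp_lc_left, hp_lc_right, conj_ofReal, im_sum,
    im_ofReal_mul, h.pp, h.qq, h.qp, h.pq]
  simp only [mul_ite, mul_one, mul_zero, mul_neg, Finset.sum_ite_eq',
    Finset.mem_univ, if_true, Finset.sum_const_zero, add_zero, zero_add, Finset.sum_sub_distrib]
  have e1 : ∑ j, x' j * y j = ∑ j, y j * x' j := Finset.sum_congr rfl fun _ _ => mul_comm _ _
  have e2 : ∑ j, y' j * x j = ∑ j, x j * y' j := Finset.sum_congr rfl fun _ _ => mul_comm _ _
  simp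
  linarith

lemma Symp.im_lv (h : Symp P Q) (p q : (J → ℤ) × (J → ℤ)) :
    (hp (lv P Q q) (lv P Q p)).im
      = ((∑ i, p.1 i * q.2 i : ℤ) : ℝ) - ((∑ i, q.1 i * p.2 i : ℤ) : ℝ) := by
  have := h.im_lc (fun j => (q.1 j : ℝ)) (fun j => (q.2 j : ℝ)) (fun j => (p.1 j : ℝ))
    (fun j => (p.2 j : ℝ))
  simp only [ofReal_intCast] at this
  unfold lv
  rw [this, Finset.sum_sub_distrib]
  push_cast
  congr 1
  refine Finset.sum_congr rfl fun j _ => mul_comm _ _

lemma Symp.exists_delta (h : Symp P Q) :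
    ∃ δ : ℝ, 0 < δ ∧ ∀ p : (J → ℤ) × (J → ℤ),
      δ * (∑ i, (p.1 i : ℝ) ^ 2 + ∑ i, (p.2 i : ℝ) ^ 2) ≤ nsq (lv P Q p) := by
  set T : ℝ := ∑ i, (nsq (Q i) + nsq (P i)) with hT
  have hT0 : 0 ≤ T := Finset.sum_nonneg fun _ _ => add_nonneg (nsq_nonneg _) (nsq_nonneg _)
  refine ⟨(T + 1)⁻¹, by positivity, fun p => ?_⟩
  have h1 : ∀ i, (hp (lv P Q p) (Q i)).im = -(p.1 i : ℝ) := by
    intro i
    unfold lv
    simp only [hp_add_left, add_im, hp_lc_left, im_sum]
    simp only [← ofReal_intCast, im_ofReal_mul, h.pq, h.qq]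
    simp
  have h2 : ∀ i, (hp (lv P Q p) (P i)).im = (p.2 i : ℝ) := by
    intro i
    unfold lv
    simp only [hp_add_left, add_im, hp_lc_left, im_sum]
    simp only [← ofReal_intCast, im_ofReal_mul, h.qp, h.pp]
    simp
  rw [inv_mul_le_iff₀ (by positivity)]
  have h3 : ∑ i, (p.1 i : ℝ) ^ 2 + ∑ i, (p.2 i : ℝ) ^ 2 ≤ T * nsq (lv P Q p) := by
    rw [hT, Finset.sum_mul, ← Finset.sum_add_distrib]
    refine Finset.sum_le_sum fun i _ => ?_
    have e1 := sq_im_hp_le (lv P Q p) (Q i)
    have e2 := sq_im_hp_le (lv P Q p) (P i)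
    rw [h1] at e1
    rw [h2] at e2
    nlinarith
  refine h3.trans ?_
  have := nsq_nonneg (lv P Q p)
  nlinarith

lemma summable_gauss (h : Symp P Q) {c : ℝ} (hc : 0 < c) :
    Summable fun p : (J → ℤ) × (J → ℤ) => Real.exp (-c * nsq (lv P Q p)) := by
  obtain ⟨δ, hδ, hδ'⟩ := h.exists_delta
  have hs := summable_exp_pi J (c := c * δ) (by positivity)
  have h2 := hs.mul_of_nonneg hs (fun _ => (Real.exp_pos _).le) (fun _ => (Real.exp_pos _).le)
  refine Summable.of_nonneg_of_le (fun _ => (Real.exp_pos _).le) (fun p => ?_) h2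
  rw [← Real.exp_add]
  refine Real.exp_le_exp.2 ?_
  have := mul_le_mul_of_nonneg_left (hδ' p) hc.le
  nlinarith

end

end Crest.Agent.R272.ETh445
end

-- ▼ part R272/ETh2_445
section

/-!
# Row 272, division E (helper445): the lattice average `avg` : convergence, continuity,
holomorphy on complex lines, quasi-periodicity.
-/

set_option autoImplicit false
set_option linter.unusedSectionVars false

open Complex MeasureTheory Filter Topology
open scoped ComplexConjugate Real

namespace Crest.Agent.R272.ETh445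

noncomputable section

variable {ι J : Type} [Fintype ι] [Fintype J] {P Q : J → ι → ℂ}

lemma norm_sg (p : (J → ℤ) × (J → ℤ)) : ‖sg p‖ = 1 := by
  rw [sg, show (π * I * ((∑ i, p.1 i * p.2 i : ℤ) : ℂ))
    = ((π * (∑ i, p.1 i * p.2 i : ℤ) : ℝ) : ℂ) * I by push_cast; ring]
  exact Complex.norm_exp_ofReal_mul_I _

lemma nsq_half (u v : ι → ℂ) : nsq v / 2 ≤ nsq (u + v) + nsq u := by
  simp only [nsq, Finset.sum_div, ← Finset.sum_add_distrib]
  refine Finset.sum_le_sum fun k _ => ?_
  have h : ‖v k‖ ≤ ‖(u + v) k‖ + ‖u k‖ := by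
    have : v k = (u + v) k - u k := by simp
    rw [this]; exact norm_sub_le _ _
  have h0 := norm_nonneg (v k)
  have h1 := norm_nonneg ((u + v) k)
  have h2 := norm_nonneg (u k)
  nlinarith [sq_nonneg (‖(u + v) k‖ - ‖u k‖)]

/-- the basic bound of one term -/
lemma norm_hei_le {f : (ι → ℂ) → ℂ} {C r : ℝ} (hC : 0 ≤ C)
    (hf : ∀ u, ‖f u‖ ≤ C * Real.exp (π / 2 * r * nsq u)) (v u : ι → ℂ) :
    ‖hei v f u‖ ≤ C * Real.exp (π / 2 * nsq u) *
      Real.exp (-(π / 2 * (1 - r)) * nsq (u + v)) := by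
  have h := norm_hei v f u
  have h1 : ‖hei v f u‖ = Real.exp (π / 2 * nsq u) *
      (Real.exp (-(π / 2) * nsq (u + v)) * ‖f (u + v)‖) := by
    rw [← h, mul_comm, mul_assoc, ← Real.exp_add]
    simp
  rw [h1, mul_comm C, mul_assoc]
  refine mul_le_mul_of_nonneg_left ?_ (Real.exp_pos _).le
  refine (mul_le_mul_of_nonneg_left (hf _) (Real.exp_pos _).le).trans (le_of_eq ?_)
  rw [mul_left_comm, ← Real.exp_add]
  ring_nf

lemma norm_hei_le' {f : (ι → ℂ) → ℂ} {C r : ℝ} (hC : 0 ≤ C) (hr : r < 1)
    (hf : ∀ u, ‖f u‖ ≤ C * Real.exp (π / 2 * r * nsq u)) (v u : ι → ℂ) :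
    ‖hei v f u‖ ≤ C * Real.exp ((π / 2 + π / 2 * (1 - r)) * nsq u) *
      Real.exp (-(π / 4 * (1 - r)) * nsq v) := by
  refine (norm_hei_le hC hf v u).trans ?_
  rw [mul_assoc, mul_assoc, ← Real.exp_add, ← Real.exp_add]
  refine mul_le_mul_of_nonneg_left (Real.exp_le_exp.2 ?_) hC
  have h := nsq_half u v
  have h2 : 0 < π / 2 * (1 - r) := mul_pos (by positivity) (by linarith)
  nlinarith

lemma continuous_nsq : Continuous (nsq (ι := ι)) := by
  unfold nsq; fun_prop

lemma continuous_hp_left (v : ι → ℂ) : Continuous fun u => hp u v := by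
  unfold hp; fun_prop

lemma State.continuous_hei {f : (ι → ℂ) → ℂ} (hf : State f) (v : ι → ℂ) :
    Continuous (hei v f) := by
  unfold hei
  refine Continuous.mul ?_ (hf.cont.comp (continuous_id.add continuous_const))
  refine Complex.continuous_exp.comp ?_
  exact continuous_const.sub (continuous_const.mul (continuous_hp_left v))

lemma State.hol_hei {f : (ι → ℂ) → ℂ} (hf : State f) (v u d : ι → ℂ) :
    Differentiable ℂ (fun s : ℂ => hei v f (u + s • d)) := by
  unfold hei
  refine Differentiable.mul ?_ ?_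
  · refine Differentiable.cexp ?_
    refine (differentiable_const _).sub ((differentiable_const _).mul ?_)
    have : (fun s : ℂ => hp (u + s • d) v) = fun s => hp u v + s * hp d v := by
      funext s
      simp [hp, add_mul, Finset.sum_add_distrib, Finset.mul_sum, mul_assoc]
    rw [this]
    exact (differentiable_const _).add (differentiable_id.mul (differentiable_const _))
  · have : (fun s : ℂ => f (u + s • d + v)) = fun s => f ((u + v) + s • d) := by
      funext s; congr 1; abel
    rw [this]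
    exact hf.hol _ _


variable [DecidableEq J]

lemma State.summable {f : (ι → ℂ) → ℂ} (hf : State f) (h : Symp P Q) (u : ι → ℂ) :
    Summable fun p : (J → ℤ) × (J → ℤ) => sg p * hei (lv P Q p) f u := by
  obtain ⟨C, r, hC, hr, hb⟩ := hf.growth
  have hc : 0 < π / 4 * (1 - r) := mul_pos (by positivity) (by linarith)
  refine Summable.of_norm_bounded
    ((summable_gauss h hc).mul_left (C * Real.exp ((π / 2 + π / 2 * (1 - r)) * nsq u)))
    fun p => ?_
  rw [norm_mul, norm_sg, one_mul]
  exact norm_hei_le' hC hr hb _ _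

lemma State.norm_term_le {f : (ι → ℂ) → ℂ} {C r : ℝ} (hC : 0 ≤ C) (hr : r < 1)
    (hb : ∀ u, ‖f u‖ ≤ C * Real.exp (π / 2 * r * nsq u)) {R : ℝ} (p : (J → ℤ) × (J → ℤ))
    {u : ι → ℂ} (hu : nsq u ≤ R) :
    ‖sg p * hei (lv P Q p) f u‖ ≤ C * Real.exp ((π / 2 + π / 2 * (1 - r)) * R) *
      Real.exp (-(π / 4 * (1 - r)) * nsq (lv P Q p)) := by
  rw [norm_mul, norm_sg, one_mul]
  refine (norm_hei_le' hC hr hb _ _).trans ?_
  refine mul_le_mul_of_nonneg_right (mul_le_mul_of_nonneg_left (Real.exp_le_exp.2 ?_) hC)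
    (Real.exp_pos _).le
  refine mul_le_mul_of_nonneg_left hu ?_
  have : 0 < π / 2 * (1 - r) := mul_pos (by positivity) (by linarith)
  positivity

lemma State.continuous_avg {f : (ι → ℂ) → ℂ} (hf : State f) (h : Symp P Q) :
    Continuous (avg P Q f) := by
  obtain ⟨C, r, hC, hr, hb⟩ := hf.growth
  have hc : 0 < π / 4 * (1 - r) := mul_pos (by positivity) (by linarith)
  rw [continuous_iff_continuousAt]
  intro u0
  have hopen : IsOpen {u : ι → ℂ | nsq u < nsq u0 + 1} :=
    isOpen_lt continuous_nsq continuous_const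
  have hmem : u0 ∈ {u : ι → ℂ | nsq u < nsq u0 + 1} := by simp
  refine ContinuousOn.continuousAt (s := {u : ι → ℂ | nsq u < nsq u0 + 1}) ?_
    (hopen.mem_nhds hmem)
  refine continuousOn_tsum (fun p => ?_)
    ((summable_gauss h hc).mul_left
      (C * Real.exp ((π / 2 + π / 2 * (1 - r)) * (nsq u0 + 1)))) ?_
  · exact (continuous_const.mul (hf.continuous_hei _)).continuousOn
  · intro p u hu
    exact State.norm_term_le hC hr hb p (le_of_lt hu)

lemma State.hol_avg {f : (ι → ℂ) → ℂ} (hf : State f) (h : Symp P Q)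
    (u d : ι → ℂ) : Differentiable ℂ (fun s : ℂ => avg P Q f (u + s • d)) := by
  obtain ⟨C, r, hC, hr, hb⟩ := hf.growth
  have hc : 0 < π / 4 * (1 - r) := mul_pos (by positivity) (by linarith)
  intro s0
  have hcont : Continuous fun s : ℂ => nsq (u + s • d) :=
    continuous_nsq.comp (by fun_prop)
  set R := nsq (u + s0 • d) + 1 with hR
  have hopen : IsOpen {s : ℂ | nsq (u + s • d) < R} := isOpen_lt hcont continuous_const
  have hmem : s0 ∈ {s : ℂ | nsq (u + s • d) < R} := by simp [hR]
  refine DifferentiableOn.differentiableAt (s := {s : ℂ | nsq (u + s • d) < R}) ?_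
    (hopen.mem_nhds hmem)
  refine differentiableOn_tsum_of_summable_norm
    ((summable_gauss h hc).mul_left
      (C * Real.exp ((π / 2 + π / 2 * (1 - r)) * R)))
    (fun p => ?_) hopen ?_
  · exact ((differentiable_const _).mul (hf.hol_hei _ _ _)).differentiableOn
  · intro p s hs
    exact State.norm_term_le hC hr hb p (le_of_lt hs)

/-! ### quasi-periodicity -/

lemma lv_add (p q : (J → ℤ) × (J → ℤ)) : lv P Q (p + q) = lv P Q p + lv P Q q := by
  funext k
  simp only [lv, lc, Prod.fst_add, Prod.snd_add, Pi.add_apply, Int.cast_add, add_mul,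
    Finset.sum_add_distrib]
  ring

lemma exp_int_pi_sq (z : ℤ) : cexp (π * I * (z : ℂ)) * cexp (π * I * (z : ℂ)) = 1 := by
  rw [← Complex.exp_add, ← Complex.exp_int_mul_two_pi_mul_I z]
  congr 1; ring

lemma sg_sq (p : (J → ℤ) × (J → ℤ)) : sg p * sg p = 1 := exp_int_pi_sq _

/-- the cocycle rule of the sign -/
lemma sg_add (h : Symp P Q) (p q : (J → ℤ) × (J → ℤ)) :
    sg p * cexp (-(π * I) * ((hp (lv P Q q) (lv P Q p)).im : ℂ)) = sg (p + q) * sg q := by
  rw [h.im_lv]
  have h1 : sg (p + q) = sg p * sg q * cexp (π * I * ((∑ i, p.1 i * q.2 i : ℤ) : ℂ))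
      * cexp (π * I * ((∑ i, q.1 i * p.2 i : ℤ) : ℂ)) := by
    unfold sg
    rw [← Complex.exp_add, ← Complex.exp_add, ← Complex.exp_add]
    congr 1
    have : (∑ i, (p + q).1 i * (p + q).2 i : ℤ) = ∑ i, p.1 i * p.2 i + ∑ i, q.1 i * q.2 i
        + ∑ i, p.1 i * q.2 i + ∑ i, q.1 i * p.2 i := by
      rw [← Finset.sum_add_distrib, ← Finset.sum_add_distrib, ← Finset.sum_add_distrib]
      refine Finset.sum_congr rfl fun i _ => ?_
      simp only [Prod.fst_add, Prod.snd_add, Pi.add_apply]; ring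
    rw [this]; push_cast; ring
  rw [h1]
  have h2 : cexp (-(π * I) * (((((∑ i, p.1 i * q.2 i : ℤ) : ℝ) - ((∑ i, q.1 i * p.2 i : ℤ) : ℝ) : ℝ)) : ℂ))
      = cexp (π * I * ((∑ i, p.1 i * q.2 i : ℤ) : ℂ)) * cexp (π * I * ((∑ i, q.1 i * p.2 i : ℤ) : ℂ))
        := by
    have h3 : cexp (-(π * I) * (((((∑ i, p.1 i * q.2 i : ℤ) : ℝ)
        - ((∑ i, q.1 i * p.2 i : ℤ) : ℝ) : ℝ)) : ℂ))
        * (cexp (π * I * ((∑ i, p.1 i * q.2 i : ℤ) : ℂ))
          * cexp (π * I * ((∑ i, p.1 i * q.2 i : ℤ) : ℂ)))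
        = cexp (π * I * ((∑ i, p.1 i * q.2 i : ℤ) : ℂ))
          * cexp (π * I * ((∑ i, q.1 i * p.2 i : ℤ) : ℂ)) := by
      rw [← Complex.exp_add, ← Complex.exp_add, ← Complex.exp_add]
      congr 1; push_cast; ring
    rwa [exp_int_pi_sq, mul_one] at h3
  rw [h2]
  linear_combination (-(sg p) * cexp (π * I * ((∑ i, p.1 i * q.2 i : ℤ) : ℂ))
    * cexp (π * I * ((∑ i, q.1 i * p.2 i : ℤ) : ℂ))) * sg_sq q

/-- invariance of `avg` under the lattice -/
lemma hei_avg (h : Symp P Q) (q : (J → ℤ) × (J → ℤ)) (f : (ι → ℂ) → ℂ) (u : ι → ℂ) :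
    hei (lv P Q q) (avg P Q f) u = sg q * avg P Q f u := by
  have h1 : hei (lv P Q q) (avg P Q f) u
      = ∑' p : (J → ℤ) × (J → ℤ), sg p * hei (lv P Q q) (hei (lv P Q p) f) u := by
    unfold avg hei
    rw [← tsum_mul_left]
    refine tsum_congr fun p => ?_
    ring
  have h2 : ∀ p : (J → ℤ) × (J → ℤ), sg p * hei (lv P Q q) (hei (lv P Q p) f) u
      = sg q * (sg (p + q) * hei (lv P Q (p + q)) f u) := by
    intro p
    rw [hei_hei, ← mul_assoc, sg_add h, lv_add, add_comm (lv P Q q)]
    ring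
  rw [h1, tsum_congr h2, tsum_mul_left]
  congr 1
  exact (Equiv.addRight q).tsum_eq (fun p => sg p * hei (lv P Q p) f u)

end

end Crest.Agent.R272.ETh445
end

-- ▼ part R272/ETh3_445
section

/-!
# Row 272, division E (helper445): periodic functions that are holomorphic on complex coordinate
lines: the integral over the real period cube does not change under imaginary translations.
-/

set_option autoImplicit false

open Complex MeasureTheory Filter Topology Set
open scoped ComplexConjugate Real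

namespace Crest.Agent.R272.ETh445

noncomputable section

/-- measure of total mass one on `ℝ/ℤ` (same as in Mathlib's AddCircleMulti) -/
local instance : MeasureSpace UnitAddCircle := ⟨AddCircle.haarAddCircle⟩

local instance : Measure.IsAddHaarMeasure (volume : Measure UnitAddCircle) :=
  inferInstanceAs (Measure.IsAddHaarMeasure AddCircle.haarAddCircle)

local instance : IsProbabilityMeasure (volume : Measure UnitAddCircle) :=
  inferInstanceAs (IsProbabilityMeasure AddCircle.haarAddCircle)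

variable {ι : Type}

/-- lift of a periodic continuous function to the torus -/
lemma exists_torus_lift {g : (ι → ℝ) → ℂ} (hg : Continuous g)
    (hp : ∀ (t : ι → ℝ) (m : ι → ℤ), g (t + fun i => (m i : ℝ)) = g t) :
    ∃ G : C(UnitAddTorus ι, ℂ), ∀ t : ι → ℝ, G (fun i => (t i : UnitAddCircle)) = g t := by
  have hq : IsOpenQuotientMap
      (Pi.map (fun (_ : ι) (x : ℝ) => (x : UnitAddCircle))) :=
    IsOpenQuotientMap.piMap fun i => QuotientAddGroup.isOpenQuotientMap_mk
  let π' : C(ι → ℝ, UnitAddTorus ι) :=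
    ⟨Pi.map (fun (_ : ι) (x : ℝ) => (x : UnitAddCircle)), hq.continuous⟩
  have hq' : Topology.IsQuotientMap π' := hq.isQuotientMap
  have hf : Function.FactorsThrough (⟨g, hg⟩ : C(ι → ℝ, ℂ)) π' := by
    intro a b hab
    have h1 : ∀ i, ∃ n : ℤ, n • (1 : ℝ) = a i - b i := by
      intro i
      have := congrFun hab i
      have h2 : ((a i : ℝ) : UnitAddCircle) = ((b i : ℝ) : UnitAddCircle) := this
      rw [← AddCircle.coe_eq_zero_iff, AddCircle.coe_sub, h2, sub_self]
    choose n hn using h1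
    have h3 : a = b + fun i => (n i : ℝ) := by
      funext i
      have := hn i
      simp only [zsmul_eq_mul, mul_one] at this
      simp [this]
    change g a = g b
    rw [h3]; exact hp b n
  refine ⟨hq'.lift ⟨g, hg⟩ hf, fun t => ?_⟩
  exact congrArg (fun φ : C(ι → ℝ, ℂ) => φ t) (hq'.lift_comp ⟨g, hg⟩ hf)

variable [Fintype ι]

/-- the period cube -/
def cube (ι : Type) : Set (ι → ℝ) := {x : ι → ℝ | ∀ i, x i ∈ Ioc (0 : ℝ) (0 + 1)}

lemma integral_cube_shift {g : (ι → ℝ) → ℂ} (hg : Continuous g)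
    (hp : ∀ (t : ι → ℝ) (m : ι → ℤ), g (t + fun i => (m i : ℝ)) = g t) (s : ι → ℝ) :
    ∫ t in cube ι, g (t + s) = ∫ t in cube ι, g t := by
  obtain ⟨G, hG⟩ := exists_torus_lift hg hp
  have h1 := UnitAddTorus.integral_preimage (fun x => G x) (0 : ι → ℝ)
  have h2 := UnitAddTorus.integral_preimage
    (fun x => G (x + fun i => (s i : UnitAddCircle))) (0 : ι → ℝ)
  have h3 : ∫ x : UnitAddTorus ι, G (x + fun i => (s i : UnitAddCircle))
      = ∫ x : UnitAddTorus ι, G x := integral_add_right_eq_self (fun x => G x) _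
  have h4 := h2.symm.trans (h3.trans h1)
  simp only [cube]
  simp only [Pi.zero_apply] at h4
  convert h4 using 2
  · funext t
    rw [← hG]; congr 1
  · funext t
    rw [← hG]

/-- Cauchy for one periodic variable -/
lemma integral_period_shift {F : ℂ → ℂ} (hF : Differentiable ℂ F) (hp : ∀ z, F (z + 1) = F z)
    (s : ℝ) : ∫ x in (0 : ℝ)..1, F (x + s * I) = ∫ x in (0 : ℝ)..1, F x := by
  have h := integral_boundary_rect_eq_zero_of_differentiableOn F 0 (1 + s * I)
    hF.differentiableOn
  have h1 : ∀ y : ℝ, F (1 + y * I) = F (0 + y * I) := fun y => by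
    rw [add_comm, hp, zero_add]
  simp only [zero_re, zero_im, add_re, one_re, mul_re, ofReal_re, I_re, mul_zero, ofReal_im, I_im,
    mul_one, sub_self, add_zero, add_im, one_im, mul_im, zero_add, ofReal_zero, zero_mul,
    ofReal_one] at h
  have h2 : ∫ y in (0 : ℝ)..s, F (1 + y * I) = ∫ y in (0 : ℝ)..s, F (y * I) := by
    refine intervalIntegral.integral_congr fun y _ => ?_
    simpa using h1 y
  rw [h2] at h
  linear_combination -h

lemma isCompact_ccube : IsCompact {x : ι → ℝ | ∀ i, x i ∈ Icc (0 : ℝ) 1} := by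
  have : {x : ι → ℝ | ∀ i, x i ∈ Icc (0 : ℝ) 1} = Set.pi univ fun _ => Icc (0 : ℝ) 1 := by
    ext x; exact ⟨fun h i _ => h i, fun h i => h i (mem_univ i)⟩
  rw [this]
  exact isCompact_univ_pi fun _ => isCompact_Icc

variable [DecidableEq ι]

/-- the function `t ↦ F (t + i η)` -/
def tr (F : (ι → ℂ) → ℂ) (η t : ι → ℝ) : ℂ := F fun i => (t i : ℂ) + I * (η i : ℂ)

lemma tr_single {F : (ι → ℂ) → ℂ} (η t : ι → ℝ) (j : ι) (x s : ℝ) :
    tr F (η + Pi.single j s) (t + Pi.single j x)
      = F ((fun i => (t i : ℂ) + I * (η i : ℂ)) + ((x : ℂ) + s * I) • Pi.single j 1) := by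
  unfold tr
  congr 1
  funext i
  by_cases h : i = j
  · subst h; simp; ring
  · simp [h]

theorem integral_cube_single {F : (ι → ℂ) → ℂ} (hF : Continuous F)
    (hol : ∀ σ (j : ι), Differentiable ℂ fun s : ℂ => F (σ + s • Pi.single j 1))
    (hp : ∀ (σ : ι → ℂ) (m : ι → ℤ), F (σ + fun i => (m i : ℂ)) = F σ)
    (η : ι → ℝ) (j : ι) (s : ℝ) :
    ∫ t in cube ι, tr F (η + Pi.single j s) t = ∫ t in cube ι, tr F η t := by
  have hcont : ∀ η : ι → ℝ, Continuous (tr F η) := fun η => by
    unfold tr; fun_prop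
  have hper : ∀ (η t : ι → ℝ) (m : ι → ℤ), tr F η (t + fun i => (m i : ℝ)) = tr F η t := by
    intro η t m
    unfold tr
    rw [← hp (fun i => (t i : ℂ) + I * (η i : ℂ)) m]
    congr 1
    funext i
    simp; ring
  -- average over the translations by `x e_j`
  have key : ∀ η : ι → ℝ, ∫ t in cube ι, tr F η t
      = ∫ t in cube ι, ∫ x in (0 : ℝ)..1, tr F η (t + Pi.single j x) := by
    intro η
    have h1 : ∫ t in cube ι, tr F η t
        = ∫ x in (0 : ℝ)..1, ∫ t in cube ι, tr F η (t + Pi.single j x) := by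
      have : ∀ x : ℝ, ∫ t in cube ι, tr F η (t + Pi.single j x) = ∫ t in cube ι, tr F η t :=
        fun x => integral_cube_shift (hcont η) (hper η) _
      simp [this]
    rw [h1, intervalIntegral.integral_of_le zero_le_one]
    simp_rw [intervalIntegral.integral_of_le (zero_le_one' ℝ)]
    refine integral_integral_swap ?_
    have hc : Continuous (Function.uncurry fun (x : ℝ) (t : ι → ℝ) =>
        tr F η (t + Pi.single j x)) := by
      have h2 : Continuous fun p : ℝ × (ι → ℝ) => p.2 + Pi.single j p.1 := by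
        refine continuous_snd.add ?_
        exact (continuous_single j).comp continuous_fst
      exact (hcont η).comp h2
    rw [Measure.prod_restrict]
    have hcomp : IsCompact (Icc (0 : ℝ) 1 ×ˢ {x : ι → ℝ | ∀ i, x i ∈ Icc (0 : ℝ) 1}) :=
      isCompact_Icc.prod isCompact_ccube
    refine (hc.continuousOn.integrableOn_compact hcomp).mono_set ?_
    rintro ⟨x, t⟩ ⟨hx, ht⟩
    refine ⟨⟨hx.1.le, hx.2⟩, fun i => ?_⟩
    have := ht i
    exact ⟨this.1.le, by simpa using this.2⟩
  rw [key, key η]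
  congr 1
  funext t
  have h3 := integral_period_shift (F := fun z : ℂ =>
    F ((fun i => (t i : ℂ) + I * (η i : ℂ)) + z • Pi.single j 1)) (hol _ j) ?_ s
  · rw [show (∫ x in (0 : ℝ)..1, tr F (η + Pi.single j s) (t + Pi.single j x))
      = ∫ x in (0 : ℝ)..1, F ((fun i => (t i : ℂ) + I * (η i : ℂ))
        + ((x : ℂ) + s * I) • Pi.single j 1) from
      intervalIntegral.integral_congr fun x _ => tr_single η t j x s, h3]
    refine intervalIntegral.integral_congr fun x _ => ?_
    have := tr_single (F := F) η t j x 0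
    simp only [Pi.single_zero, add_zero, ofReal_zero, zero_mul] at this
    exact this.symm
  · intro z
    have h4 := hp ((fun i => (t i : ℂ) + I * (η i : ℂ)) + z • Pi.single j 1)
      (Pi.single j 1)
    rw [← h4]
    congr 1
    funext i
    by_cases h : i = j
    · subst h; simp; ring
    · simp [h]

theorem integral_cube_eq {F : (ι → ℂ) → ℂ} (hF : Continuous F)
    (hol : ∀ σ (j : ι), Differentiable ℂ fun s : ℂ => F (σ + s • Pi.single j 1))
    (hp : ∀ (σ : ι → ℂ) (m : ι → ℤ), F (σ + fun i => (m i : ℂ)) = F σ)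
    (η : ι → ℝ) :
    ∫ t in cube ι, tr F η t = ∫ t in cube ι, tr F 0 t := by
  have h : ∀ s : Finset ι, ∫ t in cube ι, tr F (∑ j ∈ s, Pi.single j (η j)) t
      = ∫ t in cube ι, tr F 0 t := by
    intro s
    induction s using Finset.induction_on with
    | empty => simp
    | insert j s hj ih =>
      rw [Finset.sum_insert hj, add_comm, integral_cube_single hF hol hp, ih]
  have := h Finset.univ
  rwa [Finset.univ_sum_single] at this

end

end Crest.Agent.R272.ETh445
end

-- ▼ part R272/ETh4_445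
section

/-!
# Row 272, division E (helper445): one-dimensionality of the space of quasi-periodic entire
functions.
-/

set_option autoImplicit false
set_option linter.unusedSectionVars false

open Complex MeasureTheory Filter Topology Set
open scoped ComplexConjugate Real

namespace Crest.Agent.R272.ETh445

noncomputable section

local instance : MeasureSpace UnitAddCircle := ⟨AddCircle.haarAddCircle⟩

local instance : Measure.IsAddHaarMeasure (volume : Measure UnitAddCircle) :=
  inferInstanceAs (Measure.IsAddHaarMeasure AddCircle.haarAddCircle)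

local instance : IsProbabilityMeasure (volume : Measure UnitAddCircle) :=
  inferInstanceAs (IsProbabilityMeasure AddCircle.haarAddCircle)

variable {ι J : Type} [Fintype ι] [Fintype J] {P Q : J → ι → ℂ}

/-- the character `exp(-2πi n·t)` -/
def ch (n : J → ℤ) (t : J → ℝ) : ℂ := cexp (-(2 * π * I) * ∑ j, (n j : ℂ) * (t j : ℂ))

lemma mFourier_neg_coe (n : J → ℤ) (t : J → ℝ) :
    UnitAddTorus.mFourier (-n) (fun j => (t j : UnitAddCircle)) = ch n t := by
  simp only [UnitAddTorus.mFourier, ContinuousMap.coe_mk, ch, Finset.mul_sum, Complex.exp_sum]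
  refine Finset.prod_congr rfl fun j _ => ?_
  rw [fourier_coe_apply]
  congr 1
  simp
  ring

/-- a continuous periodic function with vanishing Fourier coefficients is zero -/
lemma eq_zero_of_coeff {g : (J → ℝ) → ℂ} (hg : Continuous g)
    (hp : ∀ (t : J → ℝ) (m : J → ℤ), g (t + fun i => (m i : ℝ)) = g t)
    (h0 : ∀ n : J → ℤ, ∫ t in cube J, ch n t * g t = 0) (t : J → ℝ) : g t = 0 := by
  obtain ⟨G, hG⟩ := exists_torus_lift hg hp
  have hc : ∀ n, UnitAddTorus.mFourierCoeff G n = 0 := by
    intro n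
    rw [UnitAddTorus.mFourierCoeff_eq_integral G n 0, ← h0 n]
    simp only [cube, mFourier_neg_coe, hG, smul_eq_mul, Pi.zero_apply]
  have hs : Summable (UnitAddTorus.mFourierCoeff G) := by
    have : (UnitAddTorus.mFourierCoeff G) = fun _ => 0 := funext hc
    rw [this]; exact summable_zero
  have h2 := UnitAddTorus.hasSum_mFourier_series_apply_of_summable hs
    (fun j => (t j : UnitAddCircle))
  simp only [hc, zero_smul] at h2
  rw [← hG]
  exact h2.unique hasSum_zero

/-- identity theorem on one complex line -/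
lemma eq_zero_of_real {F : (J → ℂ) → ℂ}
    (hol : ∀ u d : J → ℂ, Differentiable ℂ fun s : ℂ => F (u + s • d))
    (h0 : ∀ t : J → ℝ, F (fun j => (t j : ℂ)) = 0) (σ : J → ℂ) : F σ = 0 := by
  set φ : ℂ → ℂ := fun s => F ((fun j => ((σ j).re : ℂ)) + s • fun j => ((σ j).im : ℂ)) with hφ
  have h1 : Differentiable ℂ φ := hol _ _
  have h2 : ∀ x : ℝ, φ x = 0 := by
    intro x
    have := h0 (fun j => (σ j).re + x * (σ j).im)
    rw [hφ]
    simp only
    rw [← this]
    congr 1
    funext j
    simp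
  have h3 : AnalyticOnNhd ℂ φ univ := fun s _ => h1.analyticAt s
  have h4 : ∃ᶠ z in 𝓝[≠] (0 : ℂ), φ z = 0 := by
    rw [frequently_nhdsWithin_iff]
    rw [Metric.nhds_basis_ball.frequently_iff]
    intro r hr
    refine ⟨((r / 2 : ℝ) : ℂ), ?_, h2 _, ?_⟩
    · simp only [Metric.mem_ball, dist_zero_right, Complex.norm_real, Real.norm_eq_abs]
      rw [abs_of_pos (by positivity)]; linarith
    · simp only [mem_compl_iff, mem_singleton_iff, ofReal_eq_zero]
      positivity
  have h5 := h3.eqOn_zero_of_preconnected_of_frequently_eq_zero isPreconnected_univ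
    (mem_univ 0) h4 (mem_univ I)
  have h6 : φ I = F σ := by
    rw [hφ]
    simp only
    congr 1
    funext j
    have := Complex.re_add_im (σ j)
    simp only [Pi.add_apply, Pi.smul_apply, smul_eq_mul]
    rw [mul_comm I]; exact this
  rw [← h6]; exact h5

/-- quasi-periodic entire functions -/
structure Good (P Q : J → ι → ℂ) (h : (ι → ℂ) → ℂ) : Prop where
  cont : Continuous h
  hol : ∀ u d : ι → ℂ, Differentiable ℂ (fun s : ℂ => h (u + s • d))
  per : ∀ (p : (J → ℤ) × (J → ℤ)) (u : ι → ℂ), hei (lv P Q p) h u = sg p * h u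

/-- the symmetric bilinear form -/
def bl (P : J → ι → ℂ) (a b : J → ℂ) : ℂ := hp (lc P a) (lc P fun j => conj (b j))

/-- the function in the coordinates of `P`, made periodic -/
def kf (P : J → ι → ℂ) (h : (ι → ℂ) → ℂ) (σ : J → ℂ) : ℂ :=
  cexp (-(π / 2) * bl P σ σ) * h (lc P σ)

lemma bl_eq (a b : J → ℂ) : bl P a b = ∑ i, ∑ j, a i * (b j * hp (P i) (P j)) := by
  unfold bl
  rw [hp_lc_left]
  refine Finset.sum_congr rfl fun i _ => ?_
  rw [hp_lc_right, Finset.mul_sum]
  simp

lemma continuous_lc : Continuous (lc P) := by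
  unfold lc; fun_prop

lemma continuous_bl : Continuous fun σ => bl P σ σ := by
  simp only [bl_eq]; fun_prop

variable [DecidableEq J]

lemma Symp.hp_symm (hS : Symp P Q) (i j : J) : hp (P i) (P j) = hp (P j) (P i) := by
  rw [← hp_conj, Complex.conj_eq_iff_im]
  exact hS.pp j i

lemma Symp.bl_symm (hS : Symp P Q) (a b : J → ℂ) : bl P a b = bl P b a := by
  rw [bl_eq, bl_eq, Finset.sum_comm]
  refine Finset.sum_congr rfl fun i _ => Finset.sum_congr rfl fun j _ => ?_
  rw [hS.hp_symm]; ring

lemma bl_add_left (a b c : J → ℂ) : bl P (a + b) c = bl P a c + bl P b c := by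
  unfold bl; rw [lc_add, hp_add_left]

lemma bl_add_right (a b c : J → ℂ) : bl P a (b + c) = bl P a b + bl P a c := by
  unfold bl
  rw [← hp_add_right, ← lc_add]
  congr 2
  funext j; simp

lemma kf_add (hS : Symp P Q) {h : (ι → ℂ) → ℂ} {ω : J → ℂ} {n : J → ℂ}
    (hn : ∀ j, hp (P j) (lc P fun i => ((ω i).im : ℂ)) = n j)
    (hv : ∀ u, h (u + lc P ω) = cexp (π / 2 * nsq (lc P ω) + π * hp u (lc P ω)) * h u)
    (σ : J → ℂ) :
    kf P h (σ + ω) = cexp (-(2 * π * I) * ∑ j, σ j * n j - π * I * ∑ j, ω j * n j)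
      * kf P h σ := by
  -- `⟨lc a, lc ω⟩ = bl a ω - 2 i a·n`
  have key : ∀ a : J → ℂ, hp (lc P a) (lc P ω) = bl P a ω - 2 * I * ∑ j, a j * n j := by
    intro a
    have h1 : lc P ω = lc P (fun j => conj (ω j)) + lc P fun j => 2 * I * ((ω j).im : ℂ) := by
      rw [← lc_add]
      congr 1
      funext j
      simp only [Pi.add_apply]
      apply Complex.ext <;> simp
      ring
    have h2 : hp (lc P a) (lc P fun j => 2 * I * ((ω j).im : ℂ))
        = -(2 * I) * ∑ j, a j * n j := by
      rw [hp_lc_left, Finset.mul_sum]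
      refine Finset.sum_congr rfl fun j _ => ?_
      rw [← hn j, hp_lc_right, hp_lc_right, Finset.mul_sum, Finset.mul_sum, Finset.mul_sum]
      refine Finset.sum_congr rfl fun i _ => ?_
      have e2 : conj (2 : ℂ) = 2 := map_ofNat (starRingEnd ℂ) 2
      simp [e2]
      ring
    rw [h1, hp_add_right, h2]
    unfold bl
    ring
  unfold kf
  rw [lc_add, hv, ← mul_assoc, ← mul_assoc, ← Complex.exp_add, ← Complex.exp_add]
  congr 2
  rw [nsq_eq_hp, key, key, bl_add_left, bl_add_right, bl_add_right, hS.bl_symm ω σ]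
  ring

/-! ### coordinates -/

/-- `σ ↦ ∑ σ_j P_j` is bijective -/
lemma Symp.lc_injective (hS : Symp P Q) : Function.Injective (lc P) := by
  have h0 : ∀ x : J → ℝ, (∀ k, hp (lc P fun j => (x j : ℂ)) (P k) = 0) → x = 0 := by
    intro x hx
    have h1 : nsq (lc P fun j => (x j : ℂ)) = 0 := by
      have : (nsq (lc P fun j => (x j : ℂ)) : ℂ) = 0 := by
        rw [nsq_eq_hp, hp_lc_right]
        simp [hx]
      exact_mod_cast this
    funext i
    have h2 := sq_im_hp_le (Q i) (lc P fun j => (x j : ℂ))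
    rw [h1, mul_zero, hp_lc_right] at h2
    simp only [conj_ofReal, im_sum, im_ofReal_mul, hS.qp] at h2
    simp only [mul_ite, mul_one, mul_zero, Finset.sum_ite_eq, Finset.mem_univ, if_true] at h2
    simpa using pow_eq_zero_iff (two_ne_zero) |>.1 (le_antisymm h2 (sq_nonneg _))
  have hlin : ∀ σ τ : J → ℂ, lc P (σ - τ) = lc P σ - lc P τ := by
    intro σ τ; funext k; simp [lc, sub_mul, Finset.sum_sub_distrib]
  intro σ τ h
  have h1 : lc P (σ - τ) = 0 := by rw [hlin, h, sub_self]
  have h2 : ∀ k, ∑ j, (σ - τ) j * hp (P j) (P k) = 0 := by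
    intro k
    rw [← hp_lc_left, h1, hp_zero_left]
  have h3 : ∀ k j, hp (P j) (P k) = (((hp (P j) (P k)).re : ℝ) : ℂ) := by
    intro k j
    apply Complex.ext
    · simp
    · simpa using hS.pp j k
  have h4 : (fun j => ((σ - τ) j).re) = 0 := by
    refine h0 _ fun k => ?_
    have := congrArg Complex.re (h2 k)
    rw [hp_lc_left]
    apply Complex.ext
    · rw [re_sum] at this ⊢
      rw [← this]
      refine Finset.sum_congr rfl fun j _ => ?_
      rw [h3 k j]; simp
    · rw [im_sum]
      simp [hS.pp]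
  have h5 : (fun j => ((σ - τ) j).im) = 0 := by
    refine h0 _ fun k => ?_
    have := congrArg Complex.im (h2 k)
    rw [hp_lc_left]
    apply Complex.ext
    · rw [im_sum] at this
      rw [re_sum]
      simp only [zero_re]
      rw [← zero_im, ← this]
      refine Finset.sum_congr rfl fun j _ => ?_
      rw [h3 k j]; simp
    · rw [im_sum]
      simp [hS.pp]
  funext j
  have e1 := congrFun h4 j
  have e2 := congrFun h5 j
  simp only [Pi.sub_apply, sub_re, sub_im, Pi.zero_apply] at e1 e2
  apply Complex.ext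
  · linarith
  · linarith

lemma Symp.lc_surjective (hS : Symp P Q) (hc : Fintype.card J = Fintype.card ι) :
    Function.Surjective (lc P) := by
  let L : (J → ℂ) →ₗ[ℂ] (ι → ℂ) :=
    { toFun := lc P
      map_add' := lc_add P
      map_smul' := by
        intro c σ; funext k
        simp [lc, Finset.mul_sum, mul_assoc] }
  have h1 : Function.Injective L := hS.lc_injective
  have h2 : Module.finrank ℂ (J → ℂ) = Module.finrank ℂ (ι → ℂ) := by
    rw [Module.finrank_pi, Module.finrank_pi, hc]
  exact (LinearMap.injective_iff_surjective_of_finrank_eq_finrank h2).1 h1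

lemma hol_kf {h : (ι → ℂ) → ℂ}
    (hh : ∀ u d : ι → ℂ, Differentiable ℂ (fun s : ℂ => h (u + s • d))) (σ d : J → ℂ) :
    Differentiable ℂ fun s : ℂ => kf P h (σ + s • d) := by
  unfold kf
  refine Differentiable.mul ?_ ?_
  · simp only [bl_eq]
    simp only [Pi.add_apply, Pi.smul_apply, smul_eq_mul]
    fun_prop
  · have : ∀ s : ℂ, lc P (σ + s • d) = lc P σ + s • lc P d := by
      intro s; funext k
      simp [lc, add_mul, Finset.sum_add_distrib, Finset.mul_sum, mul_assoc]
    simp only [this]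
    exact hh _ _

lemma Good.shift {h : (ι → ℂ) → ℂ} (hg : Good P Q h) (p : (J → ℤ) × (J → ℤ)) (hp1 : sg p = 1)
    (u : ι → ℂ) :
    h (u + lv P Q p) = cexp (π / 2 * nsq (lv P Q p) + π * hp u (lv P Q p)) * h u := by
  have h1 := hg.per p u
  rw [hp1, one_mul] at h1
  rw [← h1]
  unfold hei
  rw [← mul_assoc, ← Complex.exp_add]
  rw [show (π : ℂ) / 2 * (nsq (lv P Q p) : ℂ) + π * hp u (lv P Q p)
    + (-(π / 2) * (nsq (lv P Q p) : ℂ) - π * hp u (lv P Q p)) = 0 by ring, Complex.exp_zero,
    one_mul]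

/-- **uniqueness**: a quasi-periodic entire function with vanishing mean is zero -/
theorem Good.eq_zero (hS : Symp P Q) (hc : Fintype.card J = Fintype.card ι)
    {h : (ι → ℂ) → ℂ} (hg : Good P Q h)
    (h0 : ∫ t in cube J, kf P h (fun j => (t j : ℂ)) = 0) (u : ι → ℂ) : h u = 0 := by
  have hcont : Continuous (kf P h) := by
    unfold kf
    exact (Complex.continuous_exp.comp (continuous_const.mul continuous_bl)).mul
      (hg.cont.comp continuous_lc)
  have hhol : ∀ σ d : J → ℂ, Differentiable ℂ fun s : ℂ => kf P h (σ + s • d) := hol_kf hg.hol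
  -- periodicity
  have hper : ∀ (σ : J → ℂ) (m : J → ℤ), kf P h (σ + fun i => (m i : ℂ)) = kf P h σ := by
    intro σ m
    have h1 : lv P Q (m, 0) = lc P fun i => (m i : ℂ) := by
      funext k; simp [lv, lc]
    have h2 : sg ((m, 0) : (J → ℤ) × (J → ℤ)) = 1 := by simp [sg]
    have h3 := kf_add hS (ω := fun i => (m i : ℂ)) (n := 0) (h := h) ?_ ?_ σ
    · simpa using h3
    · intro j
      rw [hp_lc_right]; simp
    · intro u
      rw [← h1]; exact hg.shift _ h2 u
  have hreal : ∀ t : J → ℝ, kf P h (fun j => (t j : ℂ)) = 0 := by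
    have hcr : Continuous fun t : J → ℝ => kf P h (fun j => (t j : ℂ)) :=
      hcont.comp (by fun_prop)
    have hpr : ∀ (t : J → ℝ) (m : J → ℤ), kf P h (fun j => ((t + fun i => (m i : ℝ)) j : ℂ))
        = kf P h (fun j => (t j : ℂ)) := by
      intro t m
      rw [← hper (fun j => (t j : ℂ)) m]
      congr 1
      funext j; simp
    refine eq_zero_of_coeff hcr hpr fun n => ?_
    -- the period `ω(n)`
    obtain ⟨ω, hω⟩ := hS.lc_surjective hc (lc Q fun j => (n j : ℂ))
    have h1 : lv P Q (0, n) = lc P ω := by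
      rw [hω]; funext k; simp [lv, lc]
    have h2 : sg ((0, n) : (J → ℤ) × (J → ℤ)) = 1 := by simp [sg]
    have hn : ∀ j, hp (P j) (lc P fun i => ((ω i).im : ℂ)) = (n j : ℂ) := by
      intro j
      -- imaginary part of `⟨P_j, lc ω⟩`
      have e1 : (hp (P j) (lc P ω)).im = -(hp (P j) (lc P fun i => ((ω i).im : ℂ))).re := by
        rw [hp_lc_right, hp_lc_right, im_sum, re_sum, ← Finset.sum_neg_distrib]
        refine Finset.sum_congr rfl fun i _ => ?_
        simp [hS.pp]
      have e2 : (hp (P j) (lc P ω)).im = -(n j : ℝ) := by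
        rw [hω, hp_lc_right, im_sum]
        have : ∀ i, (conj ((n i : ℤ) : ℂ) * hp (P j) (Q i)).im
            = (n i : ℝ) * (if j = i then -1 else 0) := by
          intro i
          rw [← hS.pq, ← im_ofReal_mul]
          simp
        simp only [this]
        simp
      have e3 : (hp (P j) (lc P fun i => ((ω i).im : ℂ))).im = 0 := by
        rw [hp_lc_right, im_sum]
        simp [hS.pp]
      apply Complex.ext
      · simp only [intCast_re]; linarith
      · simpa using e3
    have h3 := kf_add hS (ω := ω) (n := fun j => (n j : ℂ)) (h := h) hn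
      (fun u => by rw [← h1]; exact hg.shift _ h2 u)
    have h4 := integral_cube_eq hcont (fun σ j => hhol σ _) hper (fun j => (ω j).im)
    have h5 : ∫ t in cube J, tr (kf P h) 0 t = 0 := by
      rw [← h0]
      congr 1
      funext t
      simp [tr]
    rw [h5] at h4
    have hct : Continuous (tr (kf P h) fun j => (ω j).im) := by
      unfold tr; fun_prop
    have hpt : ∀ (t : J → ℝ) (m : J → ℤ), tr (kf P h) (fun j => (ω j).im)
        (t + fun i => (m i : ℝ)) = tr (kf P h) (fun j => (ω j).im) t := by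
      intro t m
      unfold tr
      rw [← hper (fun j => (t j : ℂ) + I * ((ω j).im : ℂ)) m]
      congr 1
      funext i; simp; ring
    have h6 := integral_cube_shift hct hpt (fun j => (ω j).re)
    rw [h4] at h6
    have h7 : ∀ t : J → ℝ, tr (kf P h) (fun j => (ω j).im) (t + fun j => (ω j).re)
        = cexp (-(π * I) * ∑ j, ω j * (n j : ℂ)) * (ch n t * kf P h fun j => (t j : ℂ)) := by
      intro t
      have e1 : tr (kf P h) (fun j => (ω j).im) (t + fun j => (ω j).re)
          = kf P h ((fun j => (t j : ℂ)) + ω) := by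
        unfold tr
        congr 1
        funext j
        have := Complex.re_add_im (ω j)
        simp only [Pi.add_apply, ofReal_add]
        linear_combination this
      rw [e1, h3, ← mul_assoc, ch, ← Complex.exp_add]
      congr 2
      have : ∑ j, (t j : ℂ) * (n j : ℂ) = ∑ j, (n j : ℂ) * (t j : ℂ) :=
        Finset.sum_congr rfl fun _ _ => mul_comm _ _
      rw [this]
      ring
    simp only [h7] at h6
    rw [integral_const_mul] at h6
    exact (mul_eq_zero.1 h6).resolve_left (Complex.exp_ne_zero _)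
  have hall := eq_zero_of_real hhol hreal
  obtain ⟨σ, rfl⟩ := hS.lc_surjective hc u
  have := hall σ
  unfold kf at this
  exact (mul_eq_zero.1 this).resolve_left (Complex.exp_ne_zero _)

/-- **one-dimensionality** -/
theorem Good.proportional (hS : Symp P Q) (hc : Fintype.card J = Fintype.card ι)
    {h h₁ : (ι → ℂ) → ℂ} (hg : Good P Q h) (hg₁ : Good P Q h₁) (u₀ : ι → ℂ) (u : ι → ℂ) :
    h₁ u₀ * h u = h u₀ * h₁ u := by
  set c : ((ι → ℂ) → ℂ) → ℂ := fun f => ∫ t in cube J, kf P f (fun j => (t j : ℂ)) with hcdef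
  have hint : ∀ f : (ι → ℂ) → ℂ, Continuous f →
      IntegrableOn (fun t : J → ℝ => kf P f (fun j => (t j : ℂ))) (cube J) := by
    intro f hf
    have h1 : Continuous fun t : J → ℝ => kf P f (fun j => (t j : ℂ)) := by
      have h2 : Continuous (kf P f) := by
        unfold kf
        exact (Complex.continuous_exp.comp (continuous_const.mul continuous_bl)).mul
          (hf.comp continuous_lc)
      exact h2.comp (by fun_prop)
    refine (h1.continuousOn.integrableOn_compact isCompact_ccube).mono_set ?_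
    intro t ht i
    have := ht i
    exact ⟨this.1.le, by simpa using this.2⟩
  -- the combination with mean zero
  have key : ∀ u, c h * h₁ u = c h₁ * h u := by
    have hgood : Good P Q (fun u => c h * h₁ u - c h₁ * h u) := by
      refine ⟨(continuous_const.mul hg₁.cont).sub (continuous_const.mul hg.cont),
        fun u d => ((hg₁.hol u d).const_mul _).sub ((hg.hol u d).const_mul _), fun p u => ?_⟩
      have e1 := hg₁.per p u
      have e2 := hg.per p u
      unfold hei at e1 e2 ⊢
      linear_combination (c h) * e1 - (c h₁) * e2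
    have h0 : c (fun u => c h * h₁ u - c h₁ * h u) = 0 := by
      have e1 : c (fun u => c h * h₁ u - c h₁ * h u)
          = ∫ t in cube J, (c h * kf P h₁ (fun j => (t j : ℂ))
            - c h₁ * kf P h (fun j => (t j : ℂ))) := by
        rw [hcdef]
        simp only
        congr 1
        funext t
        unfold kf
        ring
      rw [e1, integral_sub ((hint h₁ hg₁.cont).const_mul _) ((hint h hg.cont).const_mul _),
        integral_const_mul, integral_const_mul]
      rw [show (∫ t in cube J, kf P h₁ (fun j => (t j : ℂ))) = c h₁ from rfl,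
        show (∫ t in cube J, kf P h (fun j => (t j : ℂ))) = c h from rfl]
      ring
    intro u
    have := Good.eq_zero hS hc hgood h0 u
    linear_combination this
  by_cases h0 : c h = 0
  · have hz := Good.eq_zero hS hc hg h0
    rw [hz u, hz u₀]; ring
  · have e1 := key u
    have e0 := key u₀
    have : c h * (h₁ u₀ * h u) = c h * (h u₀ * h₁ u) := by
      linear_combination (h u) * e0 - (h u₀) * e1
    exact mul_left_cancel₀ h0 this

end

end Crest.Agent.R272.ETh445
end

-- ▼ part R272/ETh5_445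
section

/-!
# Row 272, division E (helper445): rank one identity for coherent states.
-/

set_option autoImplicit false
set_option linter.unusedSectionVars false

open Complex MeasureTheory Filter Topology Set
open scoped ComplexConjugate Real

namespace Crest.Agent.R272.ETh445

noncomputable section

variable {ι J : Type} [Fintype ι] [Fintype J] {P Q : J → ι → ℂ}

/-- the coherent state `u ↦ exp(π⟨u,B⟩)` -/
def eS (B : ι → ℂ) (u : ι → ℂ) : ℂ := cexp (π * hp u B)

lemma state_eS (B : ι → ℂ) : State (eS B) := by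
  refine ⟨?_, ?_, ?_⟩
  · unfold eS
    exact Complex.continuous_exp.comp (continuous_const.mul (continuous_hp_left B))
  · intro u d
    unfold eS
    refine Differentiable.cexp ((differentiable_const _).mul ?_)
    have : (fun s : ℂ => hp (u + s • d) B) = fun s => hp u B + s * hp d B := by
      funext s
      simp [hp, add_mul, Finset.sum_add_distrib, Finset.mul_sum, mul_assoc]
    rw [this]
    exact (differentiable_const _).add (differentiable_id.mul (differentiable_const _))
  · refine ⟨Real.exp (π * nsq B), 1 / 2, (Real.exp_pos _).le, by norm_num, fun u => ?_⟩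
    unfold eS
    rw [Complex.norm_exp, ← Real.exp_add]
    refine Real.exp_le_exp.2 ?_
    rw [Complex.re_ofReal_mul]
    have h1 : (hp u B).re ≤ ‖hp u B‖ := Complex.re_le_norm _
    have h2 := norm_hp_sq_le u B
    have h3 := nsq_nonneg u
    have h4 := nsq_nonneg B
    have h5 : ‖hp u B‖ ≤ nsq u / 4 + nsq B := by
      nlinarith [sq_nonneg (nsq u / 4 - nsq B), norm_nonneg (hp u B)]
    have hpi := Real.pi_pos
    nlinarith

variable [DecidableEq J]

lemma State.good_avg {f : (ι → ℂ) → ℂ} (hf : State f) (hS : Symp P Q) : Good P Q (avg P Q f) :=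
  ⟨hf.continuous_avg hS, hf.hol_avg hS, fun p u => hei_avg hS p f u⟩

/-- `P(A,B) = ∑ ε(l) ⟨π(l)e_A, e_B⟩` -/
def PP (P Q : J → ι → ℂ) (A B : ι → ℂ) : ℂ := avg P Q (eS B) A

lemma hasSum_PP (hS : Symp P Q) (A B : ι → ℂ) :
    HasSum (fun p => sg p * hei (lv P Q p) (eS B) A) (PP P Q A B) :=
  ((state_eS B).summable hS A).hasSum

/-- the rank one identity -/
theorem PP_rank (hS : Symp P Q) (hc : Fintype.card J = Fintype.card ι) (A B C D : ι → ℂ) :
    PP P Q A B * PP P Q C D = PP P Q A D * PP P Q C B := by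
  have := Good.proportional hS hc ((state_eS B).good_avg hS) ((state_eS D).good_avg hS) C A
  unfold PP
  linear_combination this

lemma hei_eS (v A B : ι → ℂ) :
    hei v (eS B) A = cexp (π * (-(nsq v : ℂ) / 2 + hp A B - hp A v + hp v B)) := by
  unfold hei eS
  rw [← Complex.exp_add, hp_add_left]
  congr 1
  ring

lemma sg_neg (p : (J → ℤ) × (J → ℤ)) : sg (-p) = sg p := by
  simp [sg]

lemma conj_sg (p : (J → ℤ) × (J → ℤ)) : conj (sg p) = sg p := by
  have h1 : sg p * conj (sg p) = 1 := by
    rw [Complex.mul_conj, Complex.normSq_eq_norm_sq, norm_sg]; simp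
  have h2 := sg_sq p
  have h3 : sg p ≠ 0 := by
    intro h; rw [h] at h2; simp at h2
  exact mul_left_cancel₀ h3 (h1.trans h2.symm)

lemma lv_neg (p : (J → ℤ) × (J → ℤ)) : lv P Q (-p) = -lv P Q p := by
  funext k
  simp only [lv, lc, Prod.fst_neg, Prod.snd_neg, Pi.neg_apply, Int.cast_neg, neg_mul,
    Finset.sum_neg_distrib, Pi.add_apply]
  ring

theorem PP_conj (hS : Symp P Q) (A B : ι → ℂ) : conj (PP P Q A B) = PP P Q B A := by
  have h1 := (hasSum_PP hS A B).map (starRingEnd ℂ).toAddMonoidHom Complex.continuous_conj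
  have h2 := (Equiv.neg ((J → ℤ) × (J → ℤ))).hasSum_iff.2 (hasSum_PP hS B A)
  refine h1.unique ?_
  convert h2 using 1
  funext p
  simp only [Function.comp_apply, Equiv.neg_apply, RingHom.toAddMonoidHom_eq_coe,
    AddMonoidHom.coe_coe, map_mul, conj_sg, sg_neg, lv_neg, hei_eS, ← Complex.exp_conj, nsq_neg,
    hp_neg_left, hp_neg_right]
  congr 2
  simp only [map_add, map_sub, map_neg, map_div₀, hp_conj, conj_ofReal]
  have e2 : conj (2 : ℂ) = 2 := map_ofNat (starRingEnd ℂ) 2
  rw [e2]
  ring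

/-- the sign `(-1)^k` as an exponential -/
lemma exp_neg_pi_int (k : ℤ) : cexp (-(π * I) * (k : ℂ)) = if Even k then 1 else -1 := by
  split_ifs with h
  · obtain ⟨r, rfl⟩ := h
    rw [show (-(π * I) * ((r + r : ℤ) : ℂ)) = ((-r : ℤ) : ℂ) * (2 * π * I) by push_cast; ring]
    exact Complex.exp_int_mul_two_pi_mul_I _
  · obtain ⟨r, rfl⟩ := Int.not_even_iff_odd.1 h
    rw [show (-(π * I) * ((2 * r + 1 : ℤ) : ℂ)) = ((-r - 1 : ℤ) : ℂ) * (2 * π * I) + π * I by
      push_cast; ring]
    rw [Complex.exp_add, Complex.exp_int_mul_two_pi_mul_I, Complex.exp_pi_mul_I, one_mul]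

lemma exp_pi_int (k : ℤ) : cexp (π * I * (k : ℂ)) = if Even k then 1 else -1 := by
  have := exp_neg_pi_int (-k)
  simp only [even_neg] at this
  rw [← this]
  congr 1; push_cast; ring

/-- the half lattice point -/
def hc (Q : J → ι → ℂ) (t : Finset J) : ι → ℂ :=
  lc Q fun j => (((if j ∈ t then 1 / 2 else 0 : ℝ)) : ℂ)

lemma term_eq (hS : Symp P Q) (t : Finset J) (p : (J → ℤ) × (J → ℤ)) :
    cexp (-(π * (nsq (hc Q t) : ℂ))) * (sg p * hei (lv P Q p) (eS (hc Q t)) (hc Q t))
      = sg p * cexp (-(π / 2) * (nsq (lv P Q p) : ℂ))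
        * ∏ j ∈ t, cexp (-(π * I) * (p.1 j : ℂ)) := by
  rw [hei_eS, ← nsq_eq_hp]
  have h1 : hp (lv P Q p) (hc Q t) - hp (hc Q t) (lv P Q p)
      = 2 * I * ((hp (lv P Q p) (hc Q t)).im : ℂ) := by
    rw [← hp_conj (lv P Q p)]
    apply Complex.ext <;> simp
    ring
  have h2 : (hp (lv P Q p) (hc Q t)).im = ∑ j ∈ t, -((p.1 j : ℝ) / 2) := by
    have h3 := hS.im_lc (fun j => (p.1 j : ℝ)) (fun j => (p.2 j : ℝ)) (fun _ => 0)
      (fun j => if j ∈ t then 1 / 2 else 0)
    have h4 : (lc P fun _ : J => ((0 : ℝ) : ℂ)) = 0 := by funext k; simp [lc]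
    rw [h4, zero_add] at h3
    simp only [ofReal_intCast] at h3
    unfold lv hc
    rw [h3]
    simp only [mul_zero, zero_sub, mul_ite, mul_one_div]
    rw [← Finset.sum_filter_add_sum_filter_not Finset.univ (fun j => j ∈ t)]
    simp only [Finset.filter_mem_eq_inter, Finset.univ_inter]
    rw [Finset.sum_congr rfl (fun j (hj : j ∈ t) => by rw [if_pos hj])]
    rw [Finset.sum_eq_zero (s := Finset.univ.filter fun j => j ∉ t), add_zero]
    intro j hj
    rw [if_neg (Finset.mem_filter.1 hj).2, neg_zero]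
  rw [← Complex.exp_sum, mul_left_comm, mul_assoc, ← Complex.exp_add, ← Complex.exp_add]
  congr 2
  have h5 : (((hp (lv P Q p) (hc Q t)).im : ℝ) : ℂ) = ∑ j ∈ t, -((p.1 j : ℂ) / 2) := by
    rw [h2]; push_cast; rfl
  rw [h5] at h1
  have h6 : ∑ j ∈ t, -(π * I) * (p.1 j : ℂ) = π * (2 * I * ∑ j ∈ t, -((p.1 j : ℂ) / 2)) := by
    rw [Finset.mul_sum, Finset.mul_sum]
    refine Finset.sum_congr rfl fun j _ => ?_
    ring
  rw [h6, ← h1]
  ring

theorem exists_PP_pos (hS : Symp P Q) : ∃ C : ι → ℂ, 0 < (PP P Q C C).re := by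
  by_contra hcon
  push Not at hcon
  -- the sum over the half lattice points
  have h1 : HasSum (fun p : (J → ℤ) × (J → ℤ) => ∑ t ∈ (Finset.univ : Finset J).powerset,
      cexp (-(π * (nsq (hc Q t) : ℂ))) * (sg p * hei (lv P Q p) (eS (hc Q t)) (hc Q t)))
      (∑ t ∈ (Finset.univ : Finset J).powerset,
        cexp (-(π * (nsq (hc Q t) : ℂ))) * PP P Q (hc Q t) (hc Q t)) :=
    hasSum_sum fun t _ => (hasSum_PP hS _ _).mul_left _
  have h2 : ∀ p : (J → ℤ) × (J → ℤ), ∑ t ∈ (Finset.univ : Finset J).powerset,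
      cexp (-(π * (nsq (hc Q t) : ℂ))) * (sg p * hei (lv P Q p) (eS (hc Q t)) (hc Q t))
      = sg p * cexp (-(π / 2) * (nsq (lv P Q p) : ℂ))
        * ∏ j, (1 + cexp (-(π * I) * (p.1 j : ℂ))) := by
    intro p
    rw [Finset.prod_one_add, Finset.mul_sum]
    exact Finset.sum_congr rfl fun t _ => term_eq hS t p
  have h3 : ∀ p : (J → ℤ) × (J → ℤ), ((sg p * cexp (-(π / 2) * (nsq (lv P Q p) : ℂ))
        * ∏ j, (1 + cexp (-(π * I) * (p.1 j : ℂ)))).re)
      = if (∀ j, Even (p.1 j)) then Real.exp (-(π / 2) * nsq (lv P Q p)) * 2 ^ Fintype.card J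
        else 0 := by
    intro p
    split_ifs with he
    · have e1 : sg p = 1 := by
        rw [sg, exp_pi_int, if_pos]
        exact Finset.even_sum _ fun j _ => (he j).mul_right _
      have e2 : ∏ j, (1 + cexp (-(π * I) * (p.1 j : ℂ))) = 2 ^ Fintype.card J := by
        rw [Finset.prod_congr rfl (fun j _ => by rw [exp_neg_pi_int, if_pos (he j)]),
          Finset.prod_const]
        norm_num
      rw [e1, e2, one_mul]
      rw [show (-(π / 2) * (nsq (lv P Q p) : ℂ) : ℂ) = ((-(π / 2) * nsq (lv P Q p) : ℝ) : ℂ) by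
        push_cast; ring, ← Complex.ofReal_exp]
      rw [show ((2 : ℂ) ^ Fintype.card J) = (((2 : ℝ) ^ Fintype.card J : ℝ) : ℂ) by push_cast; rfl,
        ← Complex.ofReal_mul, Complex.ofReal_re]
    · push Not at he
      obtain ⟨j, hj⟩ := he
      rw [Finset.prod_eq_zero (Finset.mem_univ j)]
      · simp
      · rw [exp_neg_pi_int, if_neg hj]; ring
  have h4 := Complex.hasSum_re h1
  simp only [h2, h3] at h4
  have h5 := le_hasSum h4 0 (fun p _ => by split_ifs <;> positivity)
  have h6 : (∑ t ∈ (Finset.univ : Finset J).powerset,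
        cexp (-(π * (nsq (hc Q t) : ℂ))) * PP P Q (hc Q t) (hc Q t)).re ≤ 0 := by
    rw [re_sum]
    refine Finset.sum_nonpos fun t _ => ?_
    rw [show (-(π * (nsq (hc Q t) : ℂ)) : ℂ) = ((-(π * nsq (hc Q t)) : ℝ) : ℂ) by push_cast; ring,
      ← Complex.ofReal_exp, Complex.re_ofReal_mul]
    exact mul_nonpos_of_nonneg_of_nonpos (Real.exp_pos _).le (hcon _)
  have h7 : (0 : ℝ) < if (∀ j, Even ((0 : (J → ℤ) × (J → ℤ)).1 j)) then
      Real.exp (-(π / 2) * nsq (lv P Q (0 : (J → ℤ) × (J → ℤ)))) * 2 ^ Fintype.card J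
        else 0 := by
    rw [if_pos]
    · positivity
    · intro j; simp
  linarith

/-- **the core**: `P(A,B) = T(A) conj T(B)` -/
theorem exists_T (hS : Symp P Q) (hc : Fintype.card J = Fintype.card ι) :
    ∃ T : (ι → ℂ) → ℂ, (∃ A, T A ≠ 0) ∧
      ∀ A B, HasSum (fun p => sg p * hei (lv P Q p) (eS B) A) (T A * conj (T B)) := by
  obtain ⟨C, hC⟩ := exists_PP_pos hS
  set r := (PP P Q C C).re with hr
  have hreal : PP P Q C C = (r : ℂ) := by
    have h1 := PP_conj hS C C
    rw [Complex.conj_eq_iff_re] at h1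
    rw [hr, h1]
  have hr0 : ((Real.sqrt r : ℝ) : ℂ) ≠ 0 := by
    have : Real.sqrt r ≠ 0 := (Real.sqrt_pos.2 hC).ne'
    exact_mod_cast this
  have hrr : ((Real.sqrt r : ℝ) : ℂ) * ((Real.sqrt r : ℝ) : ℂ) = (r : ℂ) := by
    rw [← Complex.ofReal_mul, Real.mul_self_sqrt hC.le]
  refine ⟨fun A => PP P Q A C / ((Real.sqrt r : ℝ) : ℂ), ⟨C, ?_⟩, fun A B => ?_⟩
  · simp only
    rw [hreal, ← hrr]
    field_simp
    exact hr0
  · have h1 := hasSum_PP hS A B
    convert h1 using 1
    simp only [map_div₀, conj_ofReal, PP_conj hS]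
    rw [div_mul_div_comm, hrr, div_eq_iff (by rw [← hreal]; rw [hreal]; exact_mod_cast hC.ne')]
    rw [← hreal]
    have := PP_rank hS hc A B C C
    linear_combination -this

end

end Crest.Agent.R272.ETh445
end

-- ▼ part R272/SympZ_771
section

/-!
Row 272, division E, leaf ET2B-SYMPZ (helper771).

* `exists_sympl` : a unimodular alternating form on a free `ℤ`-module of finite rank has a
  symplectic basis (expansion form), `exists_basis` the same as a `Basis`.
* `exists_lag` : the same for a lattice `L` of a real vector space `W`, self-dual for a real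
  alternating form `B`: `W = span P ⊕ span Q`, coordinates given by `B`.
-/

set_option autoImplicit false
set_option linter.unusedSectionVars false

open Module

namespace Crest.Agent.R272.SympZ_771

section abstract

variable {L : Type*} [AddCommGroup L]

/-- `p, q` is a symplectic family for `e` which spans (expansion formula). -/
structure Sympl (e : L →ₗ[ℤ] L →ₗ[ℤ] ℤ) {N : ℕ} (p q : Fin N → L) : Prop where
  pp : ∀ i j, e (p i) (p j) = 0
  qq : ∀ i j, e (q i) (q j) = 0
  pq : ∀ i j, e (p i) (q j) = if i = j then 1 else 0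
  expand : ∀ x, x = ∑ i, (e x (q i) • p i - e x (p i) • q i)

theorem skew {e : L →ₗ[ℤ] L →ₗ[ℤ] ℤ} (halt : ∀ x, e x x = 0) (x y : L) : e x y = - e y x := by
  have h := halt (x + y)
  simp only [map_add, LinearMap.add_apply, halt] at h
  linarith

theorem exists_sympl [Module.Free ℤ L] [Module.Finite ℤ L] (e : L →ₗ[ℤ] L →ₗ[ℤ] ℤ)
    (halt : ∀ x, e x x = 0) (hsurj : Function.Surjective e) :
    ∃ (N : ℕ) (p q : Fin N → L), Sympl e p q := by
  induction h : Module.finrank ℤ L using Nat.strong_induction_on generalizing L with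
  | _ r ih =>
    rcases Nat.eq_zero_or_pos r with h0 | hpos
    · -- rank zero
      have hs : Subsingleton L := by
        rw [← h] at h0
        exact Module.finrank_zero_iff.1 h0
      refine ⟨0, Fin.elim0, Fin.elim0, ⟨fun i => i.elim0, fun i => i.elim0, fun i => i.elim0, ?_⟩⟩
      intro x
      exact Subsingleton.elim _ _
    · -- choose a basis vector
      let b := Module.Free.chooseBasis ℤ L
      have hne : Nonempty (Module.Free.ChooseBasisIndex ℤ L) := by
        rw [← Fintype.card_pos_iff, ← Module.finrank_eq_card_chooseBasisIndex, h]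
        exact hpos
      obtain ⟨i0⟩ := hne
      obtain ⟨q, hq⟩ := hsurj (-(b.coord i0))
      set p : L := b i0 with hp
      have hpq : e p q = 1 := by
        rw [skew halt, hq]
        simp [hp]
      have hqp : e q p = -1 := by rw [skew halt, hpq]
      -- the projection to the orthogonal complement
      let K : Submodule ℤ L := LinearMap.ker (e p) ⊓ LinearMap.ker (e q)
      have hK : ∀ x : L, x ∈ K ↔ e p x = 0 ∧ e q x = 0 := by
        intro x
        simp [K]
      have hmem : ∀ x : L, x - e x q • p + e x p • q ∈ K := by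
        intro x
        rw [hK]
        constructor
        · simp only [map_add, map_sub, map_smul, halt, hpq, smul_eq_mul]
          rw [skew halt p x]; ring
        · simp only [map_add, map_sub, map_smul, halt, hqp, smul_eq_mul]
          rw [skew halt q x]; ring
      let pr : L →ₗ[ℤ] K :=
        { toFun := fun x => ⟨x - e x q • p + e x p • q, hmem x⟩
          map_add' := by
            intro x y
            ext
            simp only [map_add, LinearMap.add_apply, add_smul, Submodule.coe_add]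
            abel
          map_smul' := by
            intro c x
            ext
            simp only [map_smul, LinearMap.smul_apply, smul_eq_mul, mul_smul, RingHom.id_apply,
              Submodule.coe_smul, smul_add, smul_sub] }
      have hprK : ∀ x : K, pr x = x := by
        intro x
        have hx := (hK x).1 x.2
        ext
        show (x : L) - e x q • p + e x p • q = x
        rw [skew halt x q, skew halt x p, hx.1, hx.2]
        simp
      have hprp : pr p = 0 := by
        ext
        show p - e p q • p + e p p • q = 0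
        rw [hpq, halt]; simp
      have hprq : pr q = 0 := by
        ext
        show q - e q q • p + e q p • q = 0
        rw [hqp, halt]; simp
      let e' : K →ₗ[ℤ] K →ₗ[ℤ] ℤ := e.domRestrict₁₂ K K
      have he' : ∀ x y : K, e' x y = e x y := fun x y => rfl
      have hK_free : Module.Free ℤ K := inferInstance
      have hK_fin : Module.Finite ℤ K := inferInstance
      have hlt : Module.finrank ℤ K < r := by
        rw [← h]
        -- K ⊕ ℤ p injects into L
        let φ : (K × ℤ) →ₗ[ℤ] L := (K.subtype).coprod (LinearMap.toSpanSingleton ℤ L p)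
        have hφ : Function.Injective φ := by
          rw [← LinearMap.ker_eq_bot, LinearMap.ker_eq_bot']
          rintro ⟨x, c⟩ hx
          have hx' : (x : L) + c • p = 0 := by simpa [φ] using hx
          have h1 : e q ((x : L) + c • p) = 0 := by rw [hx', map_zero]
          have h2 := (hK x).1 x.2
          rw [map_add, map_smul, h2.2, hqp] at h1
          have hc : c = 0 := by simpa using h1
          subst hc
          have : (x : L) = 0 := by simpa using hx'
          ext
          · simpa using this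
          · rfl
        have h3 := LinearMap.finrank_le_finrank_of_injective hφ
        rw [Module.finrank_prod] at h3
        simp at h3
        omega
      have halt' : ∀ x, e' x x = 0 := fun x => halt x
      have hsurj' : Function.Surjective e' := by
        intro f
        obtain ⟨y, hy⟩ := hsurj (f ∘ₗ pr)
        have hyK : y ∈ K := by
          rw [hK, skew halt p, skew halt q, hy]
          simp [hprp, hprq]
        refine ⟨⟨y, hyK⟩, ?_⟩
        ext x
        rw [he']
        show e y x = f x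
        rw [hy, LinearMap.comp_apply, hprK]
      obtain ⟨N, p', q', hS⟩ := ih _ hlt e' halt' hsurj' rfl
      refine ⟨N + 1, Fin.cons p (fun i => (p' i : L)), Fin.cons q (fun i => (q' i : L)), ?_⟩
      have hp1 : ∀ x : K, e p x = 0 := fun x => ((hK x).1 x.2).1
      have hq1 : ∀ x : K, e q x = 0 := fun x => ((hK x).1 x.2).2
      have hp2 : ∀ x : K, e x p = 0 := fun x => by rw [skew halt, hp1, neg_zero]
      have hq2 : ∀ x : K, e x q = 0 := fun x => by rw [skew halt, hq1, neg_zero]
      refine ⟨?_, ?_, ?_, ?_⟩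
      · intro i j
        refine Fin.cases ?_ (fun i => ?_) i <;> refine Fin.cases ?_ (fun j => ?_) j
        · simpa using halt p
        · simpa using hp1 (p' j)
        · simpa using hp2 (p' i)
        · simpa using (he' _ _).symm.trans (hS.pp i j)
      · intro i j
        refine Fin.cases ?_ (fun i => ?_) i <;> refine Fin.cases ?_ (fun j => ?_) j
        · simpa using halt q
        · simpa using hq1 (q' j)
        · simpa using hq2 (q' i)
        · simpa using (he' _ _).symm.trans (hS.qq i j)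
      · intro i j
        refine Fin.cases ?_ (fun i => ?_) i <;> refine Fin.cases ?_ (fun j => ?_) j
        · simpa using hpq
        · have := hp1 (q' j)
          simpa [(Fin.succ_ne_zero j).symm] using this
        · have := hq2 (p' i)
          simpa [Fin.succ_ne_zero i] using this
        · have := (he' _ _).symm.trans (hS.pq i j)
          simpa [Fin.succ_inj] using this
      · intro x
        rw [Fin.sum_univ_succ]
        simp only [Fin.cons_zero, Fin.cons_succ]
        have h1 := congrArg (Subtype.val : K → L) (hS.expand (pr x))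
        have h2 : ∀ k : K, e x k = e (pr x) k := by
          intro k
          show e x k = e (x - e x q • p + e x p • q) k
          simp [hp1, hq1]
        have h3 : ((pr x : K) : L) = x - e x q • p + e x p • q := rfl
        have h4 : ((∑ i, (e' (pr x) (q' i) • p' i - e' (pr x) (p' i) • q' i) : K) : L)
            = ∑ i, (e x (q' i) • (p' i : L) - e x (p' i) • (q' i : L)) := by
          rw [Submodule.coe_sum]
          refine Finset.sum_congr rfl fun i _ => ?_
          rw [h2, h2, he', he']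
          simp
        rw [h3, h4] at h1
        rw [← h1]
        abel



end abstract

section lattice

variable {W : Type*} [NormedAddCommGroup W] [NormedSpace ℝ W] [FiniteDimensional ℝ W]

/-- `L` is a lattice of `W`, self-dual for the real alternating form `B`. -/
structure SelfDual (B : W →ₗ[ℝ] W →ₗ[ℝ] ℝ) (L : AddSubgroup W) : Prop where
  alt : ∀ x, B x x = 0
  disc : ∀ r : ℝ, {v : W | v ∈ L ∧ ‖v‖ ≤ r}.Finite
  span : Submodule.span ℝ (L : Set W) = ⊤
  int : ∀ v ∈ L, ∀ w ∈ L, ∃ k : ℤ, B v w = k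
  dual : ∀ v, (∀ w ∈ L, ∃ k : ℤ, B v w = k) → v ∈ L

/-- Lagrangian splitting of a self-dual lattice: `P = span p`, `Q = span q`. -/
structure Lag (B : W →ₗ[ℝ] W →ₗ[ℝ] ℝ) (L : AddSubgroup W) {N : ℕ} (p q : Fin N → W) : Prop where
  memp : ∀ i, p i ∈ L
  memq : ∀ i, q i ∈ L
  pp : ∀ i j, B (p i) (p j) = 0
  qq : ∀ i j, B (q i) (q j) = 0
  pq : ∀ i j, B (p i) (q j) = if i = j then 1 else 0
  expand : ∀ x, x = ∑ i, (B x (q i) • p i - B x (p i) • q i)

theorem SelfDual.discrete {B : W →ₗ[ℝ] W →ₗ[ℝ] ℝ} {L : AddSubgroup W} (h : SelfDual B L) :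
    DiscreteTopology L := by
  have hfin : {x : L | ‖(x : W)‖ ≤ 1}.Finite := by
    have h1 := (h.disc 1).preimage (f := ((↑) : L → W)) Subtype.val_injective.injOn
    refine h1.subset ?_
    intro x hx
    exact ⟨x.2, hx⟩
  refine discreteTopology_of_isOpen_singleton_zero ?_
  have h2 : ({0} : Set L) = Metric.ball (0 : L) 1 ∩ ({x : L | ‖(x : W)‖ ≤ 1} \ {0})ᶜ := by
    ext x
    simp only [Set.mem_singleton_iff, Set.mem_inter_iff, Set.mem_compl_iff, Set.mem_sdiff,
      Set.mem_ofPred_eq, mem_ball_zero_iff]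
    constructor
    · rintro rfl
      simp
    · rintro ⟨h3, h4⟩
      by_contra hx
      exact h4 ⟨le_of_lt h3, hx⟩
  rw [h2]
  exact Metric.isOpen_ball.inter (hfin.subset Set.sdiff_subset).isClosed.isOpen_compl

theorem SelfDual.nondeg {B : W →ₗ[ℝ] W →ₗ[ℝ] ℝ} {L : AddSubgroup W} (h : SelfDual B L)
    {v : W} (hv : ∀ w, B v w = 0) : v = 0 := by
  by_contra hne
  have hmem : ∀ n : ℕ, ((1 : ℝ) / (n + 1)) • v ∈ L := by
    intro n
    apply h.dual
    intro w _
    exact ⟨0, by simp [hv]⟩
  have hinj : Function.Injective (fun n : ℕ => ((1 : ℝ) / (n + 1)) • v) := by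
    intro a b hab
    have h1 := smul_left_injective ℝ hne hab
    have ha : (0 : ℝ) < a + 1 := by positivity
    have hb : (0 : ℝ) < b + 1 := by positivity
    simp only [one_div, inv_inj] at h1
    exact_mod_cast (add_right_cancel h1)
  have hfin := h.disc ‖v‖
  have hsub : Set.range (fun n : ℕ => ((1 : ℝ) / (n + 1)) • v) ⊆ {w : W | w ∈ L ∧ ‖w‖ ≤ ‖v‖} := by
    rintro _ ⟨n, rfl⟩
    refine ⟨hmem n, ?_⟩
    have : (0:ℝ) < n + 1 := by positivity
    rw [norm_smul, Real.norm_of_nonneg (by positivity)]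
    have h2 : (1 : ℝ) / (n + 1) ≤ 1 := by
      rw [div_le_one this]; linarith [(Nat.cast_nonneg n : (0:ℝ) ≤ n)]
    nlinarith [norm_nonneg v]
  exact (Set.infinite_range_of_injective hinj) (hfin.subset hsub)

/-- existence of a Lagrangian splitting -/
theorem exists_lag {B : W →ₗ[ℝ] W →ₗ[ℝ] ℝ} {L : AddSubgroup W} (h : SelfDual B L) :
    ∃ (N : ℕ) (p q : Fin N → W), Lag B L p q := by
  have hdisc := h.discrete
  let M : Submodule ℤ W := AddSubgroup.toIntSubmodule L
  have hdM : DiscreteTopology M := hdisc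
  have hZ : IsZLattice ℝ M := ⟨h.span⟩
  have hfree : Module.Free ℤ M := ZLattice.module_free ℝ M
  have hfinM : Module.Finite ℤ M := ZLattice.module_finite ℝ M
  have hint : ∀ x y : M, ((⌊B x y⌋ : ℤ) : ℝ) = B x y := by
    intro x y
    obtain ⟨k, hk⟩ := h.int x x.2 y y.2
    rw [hk, Int.floor_intCast]
  let e : M →ₗ[ℤ] M →ₗ[ℤ] ℤ := LinearMap.mk₂ ℤ (fun x y : M => ⌊B x y⌋)
    (by
      intro x x' y
      have : ((⌊B ((x + x' : M) : W) y⌋ : ℤ) : ℝ) = ((⌊B x y⌋ + ⌊B x' y⌋ : ℤ) : ℝ) := by
        rw [Int.cast_add, hint, hint, hint]; simp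
      exact_mod_cast this)
    (by
      intro c x y
      have : ((⌊B ((c • x : M) : W) y⌋ : ℤ) : ℝ) = ((c • ⌊B x y⌋ : ℤ) : ℝ) := by
        rw [smul_eq_mul, Int.cast_mul, hint, hint]; simp
      exact_mod_cast this)
    (by
      intro x y y'
      have : ((⌊B (x : W) ((y + y' : M) : W)⌋ : ℤ) : ℝ) = ((⌊B x y⌋ + ⌊B x y'⌋ : ℤ) : ℝ) := by
        rw [Int.cast_add, hint, hint, hint]; simp
      exact_mod_cast this)
    (by
      intro c x y
      have : ((⌊B (x : W) ((c • y : M) : W)⌋ : ℤ) : ℝ) = ((c • ⌊B x y⌋ : ℤ) : ℝ) := by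
        rw [smul_eq_mul, Int.cast_mul, hint, hint]; simp
      exact_mod_cast this)
  have he : ∀ x y : M, ((e x y : ℤ) : ℝ) = B x y := fun x y => hint x y
  have halt : ∀ x, e x x = 0 := by
    intro x
    have := he x x
    rw [h.alt] at this
    exact_mod_cast this
  have hBinj : Function.Injective B := by
    rw [← LinearMap.ker_eq_bot, LinearMap.ker_eq_bot']
    intro v hv
    exact h.nondeg (fun w => by rw [hv]; rfl)
  have hBsurj : Function.Surjective B := by
    have := LinearMap.injective_iff_surjective_of_finrank_eq_finrank (f := B)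
      (Subspace.dual_finrank_eq (K := ℝ) (V := W)).symm
    exact this.1 hBinj
  have hsurj : Function.Surjective e := by
    intro f
    let b := Module.Free.chooseBasis ℤ M
    let bR := b.ofZLatticeBasis ℝ M
    let F : W →ₗ[ℝ] ℝ := bR.constr ℝ (fun i => ((f (b i) : ℤ) : ℝ))
    have hF : ∀ x : M, F x = ((f x : ℤ) : ℝ) := by
      intro x
      have h1 : (F.restrictScalars ℤ) ∘ₗ M.subtype =
          (Algebra.linearMap ℤ ℝ) ∘ₗ f := by
        refine b.ext fun i => ?_
        simp only [LinearMap.comp_apply, LinearMap.restrictScalars_apply, Submodule.subtype_apply,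
          Algebra.linearMap_apply, algebraMap_int_eq, eq_intCast]
        rw [← b.ofZLatticeBasis_apply ℝ M i]
        exact bR.constr_basis ℝ _ i
      have h2 := LinearMap.congr_fun h1 x
      simpa using h2
    obtain ⟨v, hv⟩ := hBsurj F
    have hvL : v ∈ L := by
      apply h.dual
      intro w hw
      exact ⟨f ⟨w, hw⟩, by rw [hv]; exact hF ⟨w, hw⟩⟩
    refine ⟨⟨v, hvL⟩, ?_⟩
    ext x
    have h1 := he ⟨v, hvL⟩ x
    have h2 := hF x
    have h3 : B v x = F x := by rw [hv]
    have h4 : ((e ⟨v, hvL⟩ x : ℤ) : ℝ) = ((f x : ℤ) : ℝ) := by rw [h1, ← h2, ← h3]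
    exact_mod_cast h4
  obtain ⟨N, p, q, hS⟩ := exists_sympl e halt hsurj
  refine ⟨N, fun i => (p i : W), fun i => (q i : W), fun i => (p i).2, fun i => (q i).2,
    ?_, ?_, ?_, ?_⟩
  · intro i j
    rw [← he, hS.pp, Int.cast_zero]
  · intro i j
    rw [← he, hS.qq, Int.cast_zero]
  · intro i j
    rw [← he, hS.pq]
    split_ifs <;> simp
  · let T : W →ₗ[ℝ] W := ∑ i, ((B.flip (q i : W)).smulRight (p i : W)
      - (B.flip (p i : W)).smulRight (q i : W))
    have hT : ∀ x, T x = ∑ i, (B x (q i) • (p i : W) - B x (p i) • (q i : W)) := by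
      intro x
      simp [T, LinearMap.sum_apply]
    have hTid : T = LinearMap.id := by
      refine LinearMap.ext_on h.span ?_
      intro x hx
      have h1 := congrArg (Subtype.val : M → W) (hS.expand ⟨x, hx⟩)
      rw [hT, LinearMap.id_apply]
      refine Eq.trans ?_ h1.symm
      rw [Submodule.coe_sum]
      refine Finset.sum_congr rfl fun i _ => ?_
      rw [← he ⟨x, hx⟩ (q i), ← he ⟨x, hx⟩ (p i), Int.cast_smul_eq_zsmul,
        Int.cast_smul_eq_zsmul]
      rfl
    intro x
    rw [← hT, hTid, LinearMap.id_apply]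

namespace Lag

variable {B : W →ₗ[ℝ] W →ₗ[ℝ] ℝ} {L : AddSubgroup W} {N : ℕ} {p q : Fin N → W}

theorem skewB (halt : ∀ x, B x x = 0) (x y : W) : B x y = - B y x := by
  have h := halt (x + y)
  simp only [map_add, LinearMap.add_apply, halt] at h
  linarith

theorem qp (h : Lag B L p q) (halt : ∀ x, B x x = 0) (i j : Fin N) :
    B (q i) (p j) = if i = j then -1 else 0 := by
  rw [skewB halt, h.pq]
  by_cases hij : i = j
  · simp [hij]
  · simp [hij, Ne.symm hij]

/-- the point with coordinates `(s,t)` -/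
def pt (p q : Fin N → W) (s t : Fin N → ℝ) : W := ∑ i, (s i • p i + t i • q i)

theorem pt_p (h : Lag B L p q) (halt : ∀ x, B x x = 0) (s t : Fin N → ℝ) (j : Fin N) :
    B (pt p q s t) (p j) = - t j := by
  simp only [pt, map_sum, LinearMap.sum_apply, map_add, map_smul, LinearMap.add_apply,
    LinearMap.smul_apply, h.pp, h.qp halt, smul_eq_mul, mul_zero, zero_add]
  simp

theorem pt_q (h : Lag B L p q) (s t : Fin N → ℝ) (j : Fin N) :
    B (pt p q s t) (q j) = s j := by
  simp only [pt, map_sum, LinearMap.sum_apply, map_add, map_smul, LinearMap.add_apply,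
    LinearMap.smul_apply, h.qq, h.pq, smul_eq_mul, mul_zero, add_zero]
  simp

/-- Darboux coordinates: `W ≃ ℝ^N × ℝ^N`. -/
noncomputable def equiv (h : Lag B L p q) (halt : ∀ x, B x x = 0) :
    W ≃ₗ[ℝ] (Fin N → ℝ) × (Fin N → ℝ) where
  toFun x := (fun i => B x (q i), fun i => - B x (p i))
  map_add' x y := by
    ext i
    · simp
    · simp; ring
  map_smul' c x := by
    ext i
    · simp
    · simp
  invFun c := pt p q c.1 c.2
  left_inv x := by
    conv_rhs => rw [h.expand x]
    refine Finset.sum_congr rfl fun i _ => ?_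
    simp [sub_eq_add_neg]
  right_inv c := by
    ext i
    · exact h.pt_q c.1 c.2 i
    · show - B (pt p q c.1 c.2) (p i) = c.2 i
      rw [h.pt_p halt]; simp


theorem equiv_symm_apply (h : Lag B L p q) (halt : ∀ x, B x x = 0)
    (c : (Fin N → ℝ) × (Fin N → ℝ)) :
    (h.equiv halt).symm c = ∑ i, (c.1 i • p i + c.2 i • q i) := rfl

/-- the form in Darboux coordinates -/
theorem form (h : Lag B L p q) (halt : ∀ x, B x x = 0) (c d : (Fin N → ℝ) × (Fin N → ℝ)) :
    B ((h.equiv halt).symm c) ((h.equiv halt).symm d) = ∑ i, (c.1 i * d.2 i - c.2 i * d.1 i) := by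
  rw [equiv_symm_apply h halt d]
  simp only [map_sum, map_add, map_smul, smul_eq_mul]
  refine Finset.sum_congr rfl fun i _ => ?_
  have h1 := h.pt_p halt c.1 c.2 i
  have h2 := h.pt_q c.1 c.2 i
  simp only [pt] at h1 h2
  rw [equiv_symm_apply, h1, h2]
  ring


/-- rank: `dim W = 2 N` -/
theorem finrank_eq (h : Lag B L p q) (halt : ∀ x, B x x = 0) : Module.finrank ℝ W = 2 * N := by
  rw [(h.equiv halt).finrank_eq, Module.finrank_prod]
  simp
  ring





end Lag

end lattice

end Crest.Agent.R272.SympZ_771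
end

-- ▼ part R272/SympE_771
section

/-!
Row 272, division E, leaf ET2B-SYMPZ (helper771): the instance for `EBase_641.EDat`.
`exists_lag D` : Lagrangian splitting `(p, q : Fin (n+1+m) → V1 n × W m)` of `D.L` for `ee`.
-/

set_option autoImplicit false

open Module
open scoped ComplexConjugate

namespace Crest.Agent.R272.SympE_771

open EBase_641 SympZ_771

noncomputable section

variable {n m : ℕ}

/-- `ee` as a real bilinear map -/
def eeB (n m : ℕ) : (V1 n × W m) →ₗ[ℝ] (V1 n × W m) →ₗ[ℝ] ℝ :=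
  LinearMap.mk₂ ℝ (fun v w => ee v w)
    (by
      intro a b c
      simp only [ee, Prod.fst_add, Prod.snd_add, hh_add_left, inner_add_right, Complex.add_im]
      ring)
    (by
      intro c a b
      have h1 : ((c • a).1 : V1 n) = ((c : ℂ)) • a.1 := by
        rw [Prod.smul_fst]; rfl
      have h2 : ((c • a).2 : W m) = ((c : ℂ)) • a.2 := by
        rw [Prod.smul_snd]; rfl
      simp only [ee, h1, h2, hh_smul_left, inner_smul_right, smul_eq_mul, Complex.re_ofReal_mul,
        Complex.im_ofReal_mul]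
      ring)
    (by
      intro a b c
      simp only [ee, Prod.fst_add, Prod.snd_add, hh_add_right, inner_add_left, Complex.add_im]
      ring)
    (by
      intro c a b
      have h1 : ((c • b).1 : V1 n) = ((c : ℂ)) • b.1 := by
        rw [Prod.smul_fst]; rfl
      have h2 : ((c • b).2 : W m) = ((c : ℂ)) • b.2 := by
        rw [Prod.smul_snd]; rfl
      simp only [ee, h1, h2, hh_smul_right, inner_smul_left, smul_eq_mul, Complex.conj_ofReal,
        Complex.im_ofReal_mul]
      ring)

@[simp] theorem eeB_apply (v w : V1 n × W m) : eeB n m v w = ee v w := rfl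

theorem ee_self (v : V1 n × W m) : ee v v = 0 := by
  have h1 : (hh v.1 v.1).im = 0 := by rw [hh_self, Complex.ofReal_im]
  have h2 : (inner ℂ v.2 v.2 : ℂ).im = 0 := by
    rw [inner_self_eq_norm_sq_to_K]
    simp [← Complex.ofReal_pow]
  rw [ee, h1, h2, add_zero]


theorem selfDual (D : EDat) : SelfDual (eeB D.n D.m) D.L where
  alt := fun x => ee_self x
  disc := D.disc
  span := D.span
  int := D.int
  dual := D.dual

theorem finrank_VW : Module.finrank ℝ (V1 n × W m) = 2 * (n + 1 + m) := by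
  rw [Module.finrank_prod, Module.finrank_prod]
  have h1 : Module.finrank ℝ (E n) = 2 * n := by
    rw [← Module.finrank_mul_finrank ℝ ℂ (E n)]
    simp [Complex.finrank_real_complex]
  have h2 : Module.finrank ℝ (W m) = 2 * m := by
    rw [← Module.finrank_mul_finrank ℝ ℂ (W m)]
    simp [Complex.finrank_real_complex]
  rw [h1, h2, Complex.finrank_real_complex]
  ring

/-- **Lagrangian splitting of the lattice of an `EDat`.** -/
theorem exists_lag (D : EDat) :
    ∃ p q : Fin (D.n + 1 + D.m) → V1 D.n × W D.m, Lag (eeB D.n D.m) D.L p q := by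
  obtain ⟨N, p, q, h⟩ := SympZ_771.exists_lag (selfDual D)
  have h1 := h.finrank_eq (selfDual D).alt
  rw [finrank_VW] at h1
  have hN : N = D.n + 1 + D.m := by omega
  subst hN
  exact ⟨p, q, h⟩

end

end Crest.Agent.R272.SympE_771
end

-- ▼ part R272/Core_445
section

/-!
# Row 272, division E (helper445): the core of leaf T2 in the language of `SupDefs_528`.
-/

set_option autoImplicit false
set_option linter.unusedSectionVars false

open Complex
open scoped ComplexConjugate Real

namespace Crest.Agent.R272.Core_445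

open Crest.Agent.R272.EBase_641 Crest.Agent.R272.EBase2_641 Crest.Agent.R272.EThDefs_445
  Crest.Agent.R272.Sup_528 Crest.Agent.R272.SympZ_771 Crest.Agent.R272.SympE_771

noncomputable section

variable {n m : ℕ}

/-- the index set of the coordinates -/
abbrev II (n m : ℕ) := Option (Fin n ⊕ Fin m)

/-- coordinates -/
def toI (A : Co n m) : II n m → ℂ
  | none => A.1
  | some (Sum.inl j) => A.2.1 j
  | some (Sum.inr k) => A.2.2 k

lemma toI_surjective : Function.Surjective (toI (n := n) (m := m)) := by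
  intro f
  refine ⟨(f none, WithLp.toLp 2 (fun j => f (some (Sum.inl j))),
    WithLp.toLp 2 (fun k => f (some (Sum.inr k)))), ?_⟩
  funext i
  rcases i with _ | (j | k) <;> rfl

lemma hp_toI (A B : Co n m) : ETh445.hp (toI A) (toI B) = her A B := by
  simp only [ETh445.hp, Fintype.sum_option, Fintype.sum_sum_type, her, toI, PiLp.inner_apply,
    RCLike.inner_apply]
  ring

lemma nsq_toI (A : Co n m) : ETh445.nsq (toI A) = Sup_528.nsq A := by
  simp only [ETh445.nsq, Fintype.sum_option, Fintype.sum_sum_type, Sup_528.nsq, toI,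
    EuclideanSpace.norm_sq_eq]
  ring

lemma G_eq (v : V1 n × W m) (A B : Co n m) :
    G v A B = ETh445.hei (toI (uu v)) (ETh445.eS (toI B)) (toI A) := by
  rw [ETh445.hei_eS, hp_toI, hp_toI, hp_toI, nsq_toI]
  rfl

lemma im_her_uu (v w : V1 n × W m) : (her (uu v) (uu w)).im = ee v w := by
  simp only [her, uu, ee, hh, add_im, sub_im, Complex.conj_conj]
  have : (conj v.1.2 * w.1.2).im = -(v.1.2 * conj w.1.2).im := by
    rw [← Complex.conj_im]
    congr 1
    simp
  rw [this]
  ring

lemma toI_uu_add (v w : V1 n × W m) : toI (uu (v + w)) = toI (uu v) + toI (uu w) := by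
  funext i
  rcases i with _ | (j | k) <;> simp [toI, uu]

lemma toI_uu_zero : toI (uu (0 : V1 n × W m)) = 0 := by
  funext i
  rcases i with _ | (j | k) <;> simp [toI, uu]


lemma toI_uu_smul (c : ℝ) (v : V1 n × W m) : toI (uu (c • v)) = (c : ℂ) • toI (uu v) := by
  funext i
  rcases i with _ | (j | k) <;> simp [toI, uu]

lemma toI_uu_sum {α : Type} (s : Finset α) (f : α → V1 n × W m) :
    toI (uu (∑ i ∈ s, f i)) = ∑ i ∈ s, toI (uu (f i)) := by
  classical
  induction s using Finset.induction_on with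
  | empty => simp [toI_uu_zero]
  | insert a s ha ih => rw [Finset.sum_insert ha, Finset.sum_insert ha, toI_uu_add, ih]

lemma ee_eq_hp (v w : V1 n × W m) : ee v w = (ETh445.hp (toI (uu v)) (toI (uu w))).im := by
  rw [hp_toI, im_her_uu]

variable {L : AddSubgroup (V1 n × W m)} {N : ℕ} {p q : Fin N → V1 n × W m}

/-- the symplectic families in coordinates -/
lemma symp (h : Lag (eeB n m) L p q) :
    ETh445.Symp (fun i => toI (uu (q i))) (fun i => toI (uu (p i))) where
  pp i j := by rw [← ee_eq_hp]; exact h.qq i j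
  qq i j := by rw [← ee_eq_hp]; exact h.pp i j
  qp i j := by rw [← ee_eq_hp]; exact h.pq i j

/-- the lattice point with integral coordinates -/
def pnt (p q : Fin N → V1 n × W m) (x : (Fin N → ℤ) × (Fin N → ℤ)) : V1 n × W m :=
  ∑ i, ((x.1 i : ℝ) • q i + (x.2 i : ℝ) • p i)

lemma toI_pnt (x : (Fin N → ℤ) × (Fin N → ℤ)) :
    toI (uu (pnt p q x))
      = ETh445.lv (fun i => toI (uu (q i))) (fun i => toI (uu (p i))) x := by
  unfold pnt
  rw [toI_uu_sum]
  funext k
  simp only [ETh445.lv, ETh445.lc, Pi.add_apply, Finset.sum_apply, toI_uu_add, toI_uu_smul,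
    Pi.smul_apply, smul_eq_mul, Finset.sum_add_distrib, ofReal_intCast]

lemma pnt_add (x y : (Fin N → ℤ) × (Fin N → ℤ)) : pnt p q (x + y) = pnt p q x + pnt p q y := by
  simp only [pnt, ← Finset.sum_add_distrib]
  refine Finset.sum_congr rfl fun i _ => ?_
  simp only [Prod.fst_add, Prod.snd_add, Pi.add_apply, Int.cast_add, add_smul]
  abel

lemma ee_pnt_p (h : Lag (eeB n m) L p q) (x : (Fin N → ℤ) × (Fin N → ℤ)) (j : Fin N) :
    ee (pnt p q x) (p j) = -(x.1 j : ℝ) := by
  have h1 := h.pt_p (fun v => ee_self v) (fun i => (x.2 i : ℝ)) (fun i => (x.1 i : ℝ)) j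
  rw [← eeB_apply, ← h1]
  congr 2
  simp only [pnt, Lag.pt]
  exact Finset.sum_congr rfl fun i _ => add_comm _ _

lemma ee_pnt_q (h : Lag (eeB n m) L p q) (x : (Fin N → ℤ) × (Fin N → ℤ)) (j : Fin N) :
    ee (pnt p q x) (q j) = (x.2 j : ℝ) := by
  have h1 := h.pt_q (fun i => (x.2 i : ℝ)) (fun i => (x.1 i : ℝ)) j
  rw [← eeB_apply, ← h1]
  congr 2
  simp only [pnt, Lag.pt]
  exact Finset.sum_congr rfl fun i _ => add_comm _ _

lemma pnt_mem (h : Lag (eeB n m) L p q) (x : (Fin N → ℤ) × (Fin N → ℤ)) : pnt p q x ∈ L := by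
  refine L.sum_mem fun i _ => L.add_mem ?_ ?_
  · rw [Int.cast_smul_eq_zsmul]; exact L.zsmul_mem (h.memq i) _
  · rw [Int.cast_smul_eq_zsmul]; exact L.zsmul_mem (h.memp i) _

/-- `ℤ^N × ℤ^N ≃ L` -/
def eqv (h : Lag (eeB n m) L p q) (hint : ∀ v ∈ L, ∀ w ∈ L, ∃ k : ℤ, ee v w = k) :
    ((Fin N → ℤ) × (Fin N → ℤ)) ≃ L :=
  Equiv.ofBijective (fun x => ⟨pnt p q x, pnt_mem h x⟩) (by
    constructor
    · intro x y hxy
      have h1 : pnt p q x = pnt p q y := congrArg Subtype.val hxy
      ext j
      · have h2 := ee_pnt_p h x j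
        rw [h1, ee_pnt_p h y j] at h2
        have : (y.1 j : ℝ) = (x.1 j : ℝ) := by linarith
        exact_mod_cast this.symm
      · have h2 := ee_pnt_q h x j
        rw [h1, ee_pnt_q h y j] at h2
        exact_mod_cast h2.symm
    · intro l
      choose a ha using fun i => hint l.1 l.2 (q i) (h.memq i)
      choose b hb using fun i => hint l.1 l.2 (p i) (h.memp i)
      refine ⟨(fun i => -b i, a), ?_⟩
      apply Subtype.ext
      simp only
      conv_rhs => rw [h.expand l.1]
      refine Finset.sum_congr rfl fun i _ => ?_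
      rw [eeB_apply, eeB_apply, ha, hb]
      push_cast
      rw [neg_smul]
      abel)

lemma eqv_apply (h : Lag (eeB n m) L p q) (hint : ∀ v ∈ L, ∀ w ∈ L, ∃ k : ℤ, ee v w = k)
    (x : (Fin N → ℤ) × (Fin N → ℤ)) : ((eqv h hint x : L) : V1 n × W m) = pnt p q x := rfl

/-- the quadratic character -/
def eps (p q : Fin N → V1 n × W m) (v : V1 n × W m) : ℂ :=
  cexp (π * I * ((∑ i, -(ee v (p i)) * ee v (q i) : ℝ) : ℂ))

lemma eps_pnt (h : Lag (eeB n m) L p q) (x : (Fin N → ℤ) × (Fin N → ℤ)) :
    eps p q (pnt p q x) = ETh445.sg x := by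
  unfold eps ETh445.sg
  congr 2
  simp only [ee_pnt_p h, ee_pnt_q h, neg_neg]
  push_cast
  rfl

/-- **Core of leaf T2.** -/
theorem nonempty_core (L : AddSubgroup (V1 n × W m))
    (disc : ∀ r : ℝ, {v : V1 n × W m | v ∈ L ∧ ‖v‖ ≤ r}.Finite)
    (span : Submodule.span ℝ (L : Set (V1 n × W m)) = ⊤)
    (int : ∀ v ∈ L, ∀ w ∈ L, ∃ k : ℤ, ee v w = k)
    (dual : ∀ v, (∀ w ∈ L, ∃ k : ℤ, ee v w = k) → v ∈ L) : Nonempty (Core L) := by
  have hSD : SelfDual (eeB n m) L := ⟨fun x => ee_self x, disc, span, int, dual⟩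
  obtain ⟨N, p, q, h⟩ := SympZ_771.exists_lag hSD
  have h1 := h.finrank_eq hSD.alt
  rw [finrank_VW] at h1
  have hc : Fintype.card (Fin N) = Fintype.card (II n m) := by
    simp only [Fintype.card_fin, Fintype.card_option, Fintype.card_sum]
    omega
  obtain ⟨T, ⟨A0, hA0⟩, hT⟩ := ETh445.exists_T (symp h) hc
  refine ⟨⟨eps p q, ?_, ?_, fun A => T (toI A), ?_, ?_⟩⟩
  · intro l hl
    obtain ⟨x, hx⟩ := (eqv h int).surjective ⟨l, hl⟩
    have hx' : pnt p q x = l := congrArg Subtype.val hx
    rw [← hx', eps_pnt h, ETh445.sg, ETh445.exp_pi_int]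
    split_ifs <;> simp
  · intro l hl l' hl'
    obtain ⟨x, hx⟩ := (eqv h int).surjective ⟨l, hl⟩
    obtain ⟨y, hy⟩ := (eqv h int).surjective ⟨l', hl'⟩
    have hx' : pnt p q x = l := congrArg Subtype.val hx
    have hy' : pnt p q y = l' := congrArg Subtype.val hy
    rw [← hx', ← hy', ← pnt_add, eps_pnt h, eps_pnt h, eps_pnt h, ee_eq_hp, toI_pnt, toI_pnt]
    have h2 := ETh445.sg_add (symp h) x y
    have h3 := ETh445.sg_sq y
    have h4 : ph ((ETh445.hp (ETh445.lv (fun i => toI (uu (q i))) (fun i => toI (uu (p i))) x)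
        (ETh445.lv (fun i => toI (uu (q i))) (fun i => toI (uu (p i))) y)).im)
        = cexp (-(π * I) * ((ETh445.hp (ETh445.lv (fun i => toI (uu (q i)))
          (fun i => toI (uu (p i))) y) (ETh445.lv (fun i => toI (uu (q i)))
          (fun i => toI (uu (p i))) x)).im : ℂ)) := by
      rw [ph, ETh445.hp_im_symm]
      congr 1
      push_cast
      ring
    rw [h4]
    linear_combination (-(ETh445.sg y)) * h2 - ETh445.sg (x + y) * h3
  · obtain ⟨A, hA⟩ := toI_surjective A0
    exact ⟨A, by rw [hA]; exact hA0⟩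
  · intro A B
    have h2 := hT (toI A) (toI B)
    rw [← (eqv h int).hasSum_iff]
    convert h2 using 1
    funext x
    simp only [Function.comp_apply, eqv_apply, eps_pnt h, G_eq, toI_pnt]

end

end Crest.Agent.R272.Core_445
private theorem rz_009c0f2f6f : type_of% @_root_.Crest.Agent.R272.Core_445.toI.eq_1 := @_root_.Crest.Agent.R272.Core_445.toI.eq_1 -- L28
end

-- ▼ part R272/T2_528

/-!
R272, division E (helper528): leaf T2 = theta data of an `ee`-self-dual lattice.
-/

set_option autoImplicit false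

namespace Crest.Agent.R272.T2_528

open Crest.Agent.R272.EBase_641

/-- **T2 of `EThDefs_445`.** -/
theorem t2 : EThDefs_445.T2 :=
  Sup_528.t2_of_core fun _ _ L h1 h2 h3 h4 => Core_445.nonempty_core L h1 h2 h3 h4

theorem nonempty_TData (D : EDat) : Nonempty (EThDefs_445.TData D.L) :=
  t2 D.n D.m D.L D.disc D.span D.int D.dual

end Crest.Agent.R272.T2_528
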