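import Crest.Agent.R272.EBase_641
import Crest.Agent.R272.EXD2_429_Mg
import Crest.Agent.R272.Pol4_898
import Crest.Agent.R272.Wei4_392
import Crest.Agent.R272.EMain_528
import Crest.Agent.R272.ETh4_295
import Crest.Agent.R272.EChi10_307
import Crest.Agent.R272.T2_528
import Crest.Agent.R272.AROut_641
import Crest.Agent.R272.O5a_74
import Crest.Agent.R272.Cls9_620
import Crest.Agent.R272.I2b_939

-- ▼ part R272/Z2_939
section

/-!
# EZ2-TAIL (row 272, division E): lattice sums, limits of the approximating functions, geometry of a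
class of special vectors.  On the structures `EDat`, `ECls` of `EBase_641`.
-/

set_option autoImplicit false
set_option linter.unusedSectionVars false

open scoped ComplexConjugate Topology
open Filter Set

namespace Crest.Agent.R272.Z2_939

open Crest.Agent.R272.EBase_641

noncomputable section

/-- the type of vectors -/
abbrev VV (D : EDat) := V1 D.n × W D.m

variable {n m : ℕ}

/-- Euclidean square norm of a vector (all places). -/
def nrm2 (v : V1 n × W m) : ℝ := ‖v.1.1‖ ^ 2 + ‖v.1.2‖ ^ 2 + ‖v.2‖ ^ 2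

theorem nrm2_nonneg (v : V1 n × W m) : 0 ≤ nrm2 v := by unfold nrm2; positivity

theorem sq_norm_le_nrm2 (v : V1 n × W m) : ‖v‖ ^ 2 ≤ nrm2 v := by
  unfold nrm2
  rw [Prod.norm_def, Prod.norm_def]
  have h1 := norm_nonneg v.1.1
  have h2 := norm_nonneg v.1.2
  have h3 := norm_nonneg v.2
  rcases max_choice (max ‖v.1.1‖ ‖v.1.2‖) ‖v.2‖ with h | h
  · rw [h]
    rcases max_choice ‖v.1.1‖ ‖v.1.2‖ with h' | h' <;> rw [h'] <;> nlinarith
  · rw [h]; nlinarith

theorem nrm2_le (v : V1 n × W m) : nrm2 v ≤ 3 * ‖v‖ ^ 2 := by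
  unfold nrm2
  have h1 : ‖v.1.1‖ ≤ ‖v‖ := (norm_fst_le v.1).trans (norm_fst_le v)
  have h2 : ‖v.1.2‖ ≤ ‖v‖ := (norm_snd_le v.1).trans (norm_fst_le v)
  have h3 : ‖v.2‖ ≤ ‖v‖ := norm_snd_le v
  have h1' := norm_nonneg v.1.1
  have h2' := norm_nonneg v.1.2
  have h3' := norm_nonneg v.2
  nlinarith [pow_le_pow_left₀ h1' h1 2, pow_le_pow_left₀ h2' h2 2, pow_le_pow_left₀ h3' h3 2]

/-- elementary: polynomial times Gaussian is bounded by an inverse power. -/
theorem gauss_bound (k N : ℕ) {c : ℝ} (hc : 0 < c) :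
    ∃ A : ℝ, 0 ≤ A ∧ ∀ t : ℝ, 0 ≤ t → (1 + 3 * t ^ 2) ^ k * Real.exp (-c * t ^ 2) * t ^ N ≤ A := by
  -- a continuous function tending to zero at infinity is bounded
  have h1 : Tendsto (fun t : ℝ => (1 + 3 * t ^ 2) ^ k * Real.exp (-c * t ^ 2) * t ^ N) atTop
      (𝓝 0) := by
    have h2 : Tendsto (fun t : ℝ => (t ^ (2 * k + N)) * Real.exp (-c * t ^ 2)) atTop (𝓝 0) := by
      have h3 := (tendsto_rpow_mul_exp_neg_mul_atTop_nhds_zero ((2 * k + N : ℕ) : ℝ) c hc)
      -- compare `exp (-c t^2)` with `exp (-c t)` for `t ≥ 1`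
      refine squeeze_zero' (g := fun t : ℝ => t ^ (((2 * k + N : ℕ) : ℝ)) * Real.exp (-c * t)) ?_ ?_ h3
      · filter_upwards [eventually_ge_atTop (0 : ℝ)] with t ht
        positivity
      · filter_upwards [eventually_ge_atTop (1 : ℝ)] with t ht
        rw [Real.rpow_natCast]
        have : Real.exp (-c * t ^ 2) ≤ Real.exp (-c * t) := by
          apply Real.exp_le_exp.mpr
          have h5 : t ≤ t ^ 2 := by nlinarith
          have h6 := mul_le_mul_of_nonneg_left h5 hc.le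
          linarith
        gcongr
    have h4 : Tendsto (fun t : ℝ => (4 : ℝ) ^ k * ((t ^ (2 * k + N)) * Real.exp (-c * t ^ 2))) atTop
        (𝓝 0) := by
      simpa using h2.const_mul ((4 : ℝ) ^ k)
    refine squeeze_zero' ?_ ?_ h4
    · filter_upwards [eventually_ge_atTop (0 : ℝ)] with t ht
      positivity
    · filter_upwards [eventually_ge_atTop (1 : ℝ)] with t ht
      have h5 : (1 + 3 * t ^ 2) ^ k ≤ (4 * t ^ 2) ^ k := by
        apply pow_le_pow_left₀ (by positivity)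
        nlinarith
      have h6 : (1 + 3 * t ^ 2) ^ k * Real.exp (-c * t ^ 2) * t ^ N
          ≤ (4 * t ^ 2) ^ k * Real.exp (-c * t ^ 2) * t ^ N := by
        gcongr
      refine h6.trans (le_of_eq ?_)
      rw [mul_pow, ← pow_mul, pow_add]
      ring
  have hcont : Continuous (fun t : ℝ => (1 + 3 * t ^ 2) ^ k * Real.exp (-c * t ^ 2) * t ^ N) := by
    fun_prop
  obtain ⟨T, hT⟩ := (h1.eventually (gt_mem_nhds (zero_lt_one : (0 : ℝ) < 1))).exists_forall_of_atTop
  obtain ⟨B, hB⟩ := (isCompact_Icc (a := (0 : ℝ)) (b := T)).exists_bound_of_continuousOn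
    hcont.continuousOn
  refine ⟨max 1 B, by positivity, fun t ht => ?_⟩
  rcases le_total t T with h | h
  · have := hB t ⟨ht, h⟩
    rw [Real.norm_eq_abs] at this
    exact (le_abs_self _).trans (this.trans (le_max_right _ _))
  · exact (hT t h).le.trans (le_max_left _ _)

section Lattice

variable {V : Type*} [NormedAddCommGroup V] [NormedSpace ℝ V] [FiniteDimensional ℝ V]

theorem discrete_of_finite (L : AddSubgroup V) (h : ∀ r : ℝ, {v : V | v ∈ L ∧ ‖v‖ ≤ r}.Finite) :
    DiscreteTopology L := by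
  apply discreteTopology_of_isOpen_singleton_zero
  have hfin : {v : V | v ∈ L ∧ ‖v‖ ≤ 1 ∧ v ≠ 0}.Finite := (h 1).subset (by
    rintro v ⟨h1, h2, -⟩; exact ⟨h1, h2⟩)
  have hclosed : IsClosed {v : V | v ∈ L ∧ ‖v‖ ≤ 1 ∧ v ≠ 0} := hfin.isClosed
  have hopen : IsOpen ({v : V | v ∈ L ∧ ‖v‖ ≤ 1 ∧ v ≠ 0}ᶜ ∩ Metric.ball 0 1) :=
    hclosed.isOpen_compl.inter Metric.isOpen_ball
  have : ({0} : Set L) = Subtype.val ⁻¹' ({v : V | v ∈ L ∧ ‖v‖ ≤ 1 ∧ v ≠ 0}ᶜ ∩ Metric.ball 0 1) := by
    ext x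
    simp only [mem_singleton_iff, mem_preimage, mem_inter_iff, mem_compl_iff, mem_ofPred_eq,
      Metric.mem_ball, dist_zero_right]
    constructor
    · rintro rfl
      simp
    · rintro ⟨h1, h2⟩
      by_contra h3
      apply h1
      exact ⟨x.2, h2.le, fun h4 => h3 (Subtype.ext h4)⟩
  rw [this]
  exact hopen.preimage continuous_subtype_val

/-- Gaussian sums over a discrete subgroup converge. -/
theorem summable_gauss (L : AddSubgroup V) (h : ∀ r : ℝ, {v : V | v ∈ L ∧ ‖v‖ ≤ r}.Finite)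
    (k : ℕ) {c : ℝ} (hc : 0 < c) :
    Summable fun v : L => (1 + 3 * ‖(v : V)‖ ^ 2) ^ k * Real.exp (-c * ‖(v : V)‖ ^ 2) := by
  let L' : Submodule ℤ V := AddSubgroup.toIntSubmodule L
  have : DiscreteTopology L' := discrete_of_finite L h
  have h1 := ZLattice.summable_norm_pow_inv (L := L') (Module.finrank ℤ L' + 1) (Nat.lt_succ_self _)
  obtain ⟨A, hA, hb⟩ := gauss_bound k (Module.finrank ℤ L' + 1) hc
  have h2 : Summable fun v : L => A * (‖(v : V)‖ ^ (Module.finrank ℤ L' + 1))⁻¹ :=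
    (show Summable fun v : L => (‖(v : V)‖ ^ (Module.finrank ℤ L' + 1))⁻¹ by
      simp only [inv_pow] at h1
      exact h1).mul_left A
  refine Summable.of_norm_bounded_eventually h2 ?_
  have h3 : {v : L | ¬ (‖(1 + 3 * ‖(v : V)‖ ^ 2) ^ k * Real.exp (-c * ‖(v : V)‖ ^ 2)‖ ≤
      A * (‖(v : V)‖ ^ (Module.finrank ℤ L' + 1))⁻¹)} ⊆ {0} := by
    intro v hv
    by_contra h0
    apply hv
    have hv0 : (v : V) ≠ 0 := fun h4 => h0 (Subtype.ext h4)
    have hpos : 0 < ‖(v : V)‖ ^ (Module.finrank ℤ L' + 1) := pow_pos (norm_pos_iff.mpr hv0) _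
    rw [Real.norm_of_nonneg (by positivity), ← div_eq_mul_inv, le_div_iff₀ hpos]
    exact hb _ (norm_nonneg _)
  exact (Set.finite_singleton (0 : L)).subset h3

end Lattice

/-! ### the datum -/

variable (D : EDat)

/-- the vectors with bounded denominator `M`. -/
def LM (M : ℕ) : Set (VV D) := {v | M • v ∈ D.L}

/-- the Gaussian majorant -/
def gm (k : ℕ) (c : ℝ) (v : VV D) : ℝ := (1 + nrm2 v) ^ k * Real.exp (-c * nrm2 v)

variable {D}

theorem gm_nonneg (k : ℕ) (c : ℝ) (v : VV D) : 0 ≤ gm D k c v := by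
  unfold gm
  have := nrm2_nonneg v
  positivity

theorem summable_LM {M : ℕ} (hM : 0 < M) (k : ℕ) {c : ℝ} (hc : 0 < c) :
    Summable fun v : LM D M => gm D k c v := by
  have hMr : (0 : ℝ) < M := by exact_mod_cast hM
  have hc' : 0 < c / (M : ℝ) ^ 2 := by positivity
  have h1 := summable_gauss D.L D.disc k hc'
  -- the injection `v ↦ M • v`
  let e : LM D M → D.L := fun v => ⟨M • (v : VV D), v.2⟩
  have he : Function.Injective e := by
    intro v w hvw
    have h2 : M • (v : VV D) = M • (w : VV D) := congrArg Subtype.val hvw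
    apply Subtype.ext
    have h3 : (M : ℝ) • (v : VV D) = (M : ℝ) • (w : VV D) := by
      rw [Nat.cast_smul_eq_nsmul, Nat.cast_smul_eq_nsmul]; exact h2
    exact smul_right_injective _ hMr.ne' h3
  have h4 := h1.comp_injective he
  refine Summable.of_nonneg_of_le (fun v => gm_nonneg _ _ _) (fun v => ?_) h4
  have h5 : ‖((e v : D.L) : VV D)‖ = M * ‖(v : VV D)‖ := by
    show ‖M • (v : VV D)‖ = _
    rw [← Nat.cast_smul_eq_nsmul ℝ, norm_smul, Real.norm_of_nonneg hMr.le]
  simp only [Function.comp_apply]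
  rw [h5]
  unfold gm
  have h6 := nrm2_le (v : VV D)
  have h7 := sq_norm_le_nrm2 (v : VV D)
  have h8 := nrm2_nonneg (v : VV D)
  have hM1 : (1 : ℝ) ≤ M := by exact_mod_cast hM
  have h9 : nrm2 (v : VV D) ≤ 3 * (M * ‖(v : VV D)‖) ^ 2 := by
    have : ‖(v : VV D)‖ ^ 2 ≤ (M * ‖(v : VV D)‖) ^ 2 := by
      apply pow_le_pow_left₀ (norm_nonneg _)
      nlinarith [norm_nonneg (v : VV D)]
    linarith
  have h10 : -c * nrm2 (v : VV D) ≤ -(c / (M : ℝ) ^ 2) * (M * ‖(v : VV D)‖) ^ 2 := by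
    have : (c / (M : ℝ) ^ 2) * (M * ‖(v : VV D)‖) ^ 2 = c * ‖(v : VV D)‖ ^ 2 := by
      field_simp
    nlinarith
  have h11 : (0 : ℝ) ≤ 1 + nrm2 (v : VV D) := by linarith
  gcongr

theorem summable_indicator_LM {M : ℕ} (hM : 0 < M) (k : ℕ) {c : ℝ} (hc : 0 < c) :
    Summable (Set.indicator (LM D M) (gm D k c)) :=
  summable_subtype_iff_indicator.mp (summable_LM hM k hc)

theorem finite_LM {M : ℕ} (hM : 0 < M) (T : ℝ) : {v : VV D | v ∈ LM D M ∧ nrm2 v ≤ T}.Finite := by
  have hMr : (0 : ℝ) < M := by exact_mod_cast hM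
  have h1 : (fun v : VV D => M • v) '' {v : VV D | v ∈ LM D M ∧ nrm2 v ≤ T} ⊆
      {v : VV D | v ∈ D.L ∧ ‖v‖ ≤ M * Real.sqrt T} := by
    rintro _ ⟨v, ⟨hv, hT⟩, rfl⟩
    refine ⟨hv, ?_⟩
    show ‖M • v‖ ≤ _
    rw [← Nat.cast_smul_eq_nsmul ℝ, norm_smul, Real.norm_of_nonneg hMr.le]
    have : ‖v‖ ≤ Real.sqrt T := Real.le_sqrt_of_sq_le ((sq_norm_le_nrm2 v).trans hT)
    gcongr
  refine Set.Finite.of_finite_image ((D.disc _).subset h1) ?_
  intro v _ w _ hvw
  have h3 : (M : ℝ) • v = (M : ℝ) • w := by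
    rw [Nat.cast_smul_eq_nsmul, Nat.cast_smul_eq_nsmul]; exact hvw
  exact smul_right_injective _ hMr.ne' h3

theorem countable_LM {M : ℕ} (hM : 0 < M) : (LM D M).Countable := by
  have : LM D M = ⋃ k : ℕ, {v : VV D | v ∈ LM D M ∧ nrm2 v ≤ k} := by
    ext v
    simp only [mem_iUnion, mem_ofPred_eq]
    constructor
    · intro hv
      obtain ⟨k, hk⟩ := exists_nat_ge (nrm2 v)
      exact ⟨k, hv, hk⟩
    · rintro ⟨k, hv, -⟩; exact hv
  rw [this]
  exact Set.countable_iUnion fun k => (finite_LM hM _).countable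

/-! ### a class -/

variable (C : ECls D)

/-- a common denominator of the class -/
def den : ℕ := C.φ_unif.choose

theorem den_pos : 0 < den C := C.φ_unif.choose_spec.1

theorem φ_mem (N : ℕ) (v : VV D) (h : C.φ N v ≠ 0) : v ∈ LM D (den C) :=
  C.φ_unif.choose_spec.2 N v h

theorem S_sub : C.S ⊆ LM D (den C) := by
  intro v hv
  apply φ_mem C 0
  rw [C.φ_one 0 v hv]
  exact one_ne_zero

theorem S_countable : C.S.Countable := (countable_LM (den_pos C)).mono (S_sub C)

theorem summable_S (k : ℕ) {c : ℝ} (hc : 0 < c) :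
    Summable fun v : C.S => gm D k c v := by
  have h1 := summable_LM (D := D) (den_pos C) k hc
  exact h1.comp_injective (i := fun v : C.S => (⟨v, S_sub C v.2⟩ : LM D (den C)))
    (fun v w h => Subtype.ext (congrArg (fun x : LM D (den C) => (x : VV D)) h))

theorem summable_φ (N : ℕ) (k : ℕ) {c : ℝ} (hc : 0 < c) :
    Summable fun v : {v : VV D // C.φ N v ≠ 0} => gm D k c v := by
  have h1 := summable_LM (D := D) (den_pos C) k hc
  exact h1.comp_injective (i := fun v : {v : VV D // C.φ N v ≠ 0} =>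
    (⟨v, φ_mem C N v v.2⟩ : LM D (den C)))
    (fun v w h => Subtype.ext (congrArg (fun x : LM D (den C) => (x : VV D)) h))

/-- `φ_N → 1_S` pointwise. -/
theorem φ_tendsto (v : VV D) : Tendsto (fun N => C.φ N v) atTop (𝓝 (C.S.indicator 1 v)) := by
  by_cases hv : v ∈ C.S
  · rw [Set.indicator_of_mem hv, Pi.one_apply]
    have : (fun N => C.φ N v) = fun _ => (1 : ℝ) := by
      funext N; exact C.φ_one N v hv
    rw [this]
    exact tendsto_const_nhds
  · rw [Set.indicator_of_notMem hv]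
    obtain ⟨N0, hN0⟩ := C.φ_far (|‖v.1.1‖ ^ 2 - ‖v.1.2‖ ^ 2| + ‖v.2‖ ^ 2 + 1)
    refine tendsto_const_nhds.congr' ?_
    filter_upwards [eventually_ge_atTop N0] with N hN
    by_contra h
    have := hN0 N hN v (fun h' => h h'.symm) hv
    linarith

section Limit

variable {F : Type*} [NormedAddCommGroup F] [NormedSpace ℝ F] [CompleteSpace F]

theorem norm_φ_smul_le {κ : VV D → F} {A c : ℝ} {k : ℕ} (hA : 0 ≤ A)
    (hκ : ∀ v, v ∈ LM D (den C) → ‖κ v‖ ≤ A * gm D k c v) (N : ℕ) (v : VV D) :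
    ‖C.φ N v • κ v‖ ≤ A * Set.indicator (LM D (den C)) (gm D k c) v := by
  by_cases h : C.φ N v = 0
  · rw [h, zero_smul, norm_zero]
    exact mul_nonneg hA (Set.indicator_nonneg (fun v _ => gm_nonneg _ _ _) _)
  · have h1 := φ_mem C N v h
    rw [Set.indicator_of_mem h1, norm_smul, Real.norm_eq_abs]
    calc |C.φ N v| * ‖κ v‖ ≤ 1 * ‖κ v‖ := by gcongr; exact C.φ_bdd N v
      _ ≤ A * gm D k c v := by rw [one_mul]; exact hκ v h1

/-- **(Z2)** summability. -/
theorem summable_φ_smul {κ : VV D → F} {A c : ℝ} {k : ℕ} (hA : 0 ≤ A) (hc : 0 < c)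
    (hκ : ∀ v, v ∈ LM D (den C) → ‖κ v‖ ≤ A * gm D k c v) (N : ℕ) :
    Summable fun v : VV D => C.φ N v • κ v :=
  Summable.of_norm_bounded ((summable_indicator_LM (den_pos C) k hc).mul_left A)
    (norm_φ_smul_le C hA hκ N)

theorem summable_S_smul {κ : VV D → F} {A c : ℝ} {k : ℕ} (hc : 0 < c)
    (hκ : ∀ v, v ∈ LM D (den C) → ‖κ v‖ ≤ A * gm D k c v) :
    Summable fun v : C.S => κ v :=
  Summable.of_norm_bounded ((summable_S C k hc).mul_left A) fun v => hκ _ (S_sub C v.2)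

/-- **(Z2)** the limit. -/
theorem tendsto_φ {κ : VV D → F} {A c : ℝ} {k : ℕ} (hA : 0 ≤ A) (hc : 0 < c)
    (hκ : ∀ v, v ∈ LM D (den C) → ‖κ v‖ ≤ A * gm D k c v) :
    Tendsto (fun N => ∑' v : VV D, C.φ N v • κ v) atTop (𝓝 (∑' v : C.S, κ v)) := by
  rw [tsum_subtype C.S κ]
  refine tendsto_tsum_of_dominated_convergence
    ((summable_indicator_LM (den_pos C) k hc).mul_left A) (fun v => ?_)
    (Eventually.of_forall fun N v => norm_φ_smul_le C hA hκ N v)
  have h1 := (φ_tendsto C v).smul_const (κ v)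
  have h2 : C.S.indicator (1 : VV D → ℝ) v • κ v = C.S.indicator κ v := by
    by_cases hv : v ∈ C.S
    · simp [Set.indicator_of_mem hv]
    · simp [Set.indicator_of_notMem hv]
  rwa [h2] at h1

/-- the sum over the support as a sum over everything. -/
theorem tsum_supp (κ : VV D → F) (N : ℕ) :
    ∑' v : {v : VV D // C.φ N v ≠ 0}, C.φ N v • κ v = ∑' v : VV D, C.φ N v • κ v := by
  apply tsum_subtype_eq_of_support_subset (f := fun v : VV D => C.φ N v • κ v)
  intro v hv h0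
  apply hv
  simp only [h0, zero_smul]

theorem tendsto_φ' {κ : VV D → F} {A c : ℝ} {k : ℕ} (hA : 0 ≤ A) (hc : 0 < c)
    (hκ : ∀ v, v ∈ LM D (den C) → ‖κ v‖ ≤ A * gm D k c v) :
    Tendsto (fun N => ∑' v : {v : VV D // C.φ N v ≠ 0}, C.φ N v • κ v) atTop
      (𝓝 (∑' v : C.S, κ v)) := by
  simp_rw [tsum_supp C κ]
  exact tendsto_φ C hA hc hκ



end Limit

end

end Crest.Agent.R272.Z2_939
end

-- ▼ part R272/Z3_939
section

/-!
# EZ2-TAIL part 2: geometry of a class of special vectors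
-/

set_option autoImplicit false
set_option linter.unusedSectionVars false

open scoped ComplexConjugate Topology
open Filter Set

namespace Crest.Agent.R272.Z2_939

open Crest.Agent.R272.EBase_641

noncomputable section

variable {n m : ℕ}





variable {D : EDat} (C : ECls D)





theorem fst_injOn : Set.InjOn (Prod.fst : VV D → V1 D.n) C.S := by
  intro v hv v' hv' h
  exact (C.simple v hv v' hv' 1 (by rw [one_smul]; exact h.symm)).symm

theorem space_ne_zero {v : VV D} (hv : v ∈ C.S) : v.1.1 ≠ 0 := by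
  intro h
  have h1 := C.norm1 v hv
  rw [h, norm_zero] at h1
  have h2 := C.m1_pos
  nlinarith [sq_nonneg ‖v.1.2‖]

theorem isClosed_lin_zero (v : V1 n) : IsClosed {z : E n | lin v z = 0} :=
  isClosed_eq (differentiable_lin v).continuous continuous_const

theorem dense_lin_ne {v : V1 n} (hv : v.1 ≠ 0) : Dense {z : E n | lin v z ≠ 0} := by
  intro z
  by_cases h : lin v z = 0
  · rw [mem_closure_iff_seq_limit]
    refine ⟨fun k : ℕ => z + ((1 : ℂ) / ((k : ℂ) + 1)) • v.1, fun k => ?_, ?_⟩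
    · have h1 : lin v (z + ((1 : ℂ) / ((k : ℂ) + 1)) • v.1)
          = ((1 : ℂ) / ((k : ℂ) + 1)) * inner ℂ v.1 v.1 := by
        have h2 : lin v z = inner ℂ v.1 z - conj v.2 := rfl
        rw [h2] at h
        simp only [lin, inner_add_right, inner_smul_right]
        linear_combination h
      show lin v _ ≠ 0
      rw [h1]
      have h3 : ((k : ℂ) + 1) ≠ 0 := by exact_mod_cast Nat.succ_ne_zero k
      have h4 : (inner ℂ v.1 v.1 : ℂ) ≠ 0 := inner_self_ne_zero.mpr hv
      exact mul_ne_zero (one_div_ne_zero h3) h4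
    · have h5 : Tendsto (fun k : ℕ => (1 : ℂ) / ((k : ℂ) + 1)) atTop (𝓝 0) :=
        tendsto_one_div_add_atTop_nhds_zero_nat (𝕜 := ℂ)
      have h6 := (h5.smul_const v.1).const_add z
      simpa using h6
  · exact subset_closure h

/-- **base point**: for countably many classes there is a point of the ball off all hyperplanes
(even dense many). -/
theorem dense_base {ι : Type*} [Countable ι] (C : ι → ECls D) :
    Dense {z : E D.n | ∀ i, ∀ v ∈ (C i).S, lin v.1 z ≠ 0} := by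
  have hc : ∀ i, Countable (C i).S := fun i => (S_countable (C i)).to_subtype
  have h1 : {z : E D.n | ∀ i, ∀ v ∈ (C i).S, lin v.1 z ≠ 0}
      = ⋂ x : (Σ i, (C i).S), {z : E D.n | lin (x.2 : VV D).1 z ≠ 0} := by
    ext z
    simp only [mem_ofPred_eq, mem_iInter]
    constructor
    · rintro h ⟨i, v, hv⟩; exact h i v hv
    · intro h i v hv; exact h ⟨i, v, hv⟩
  rw [h1]
  refine dense_iInter_of_isOpen (fun x => ?_) (fun x => ?_)
  · exact (isClosed_lin_zero (x.2 : VV D).1).isOpen_compl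
  · exact dense_lin_ne (space_ne_zero (C x.1) x.2.2)

theorem exists_base {ι : Type*} [Countable ι] (C : ι → ECls D) {U : Set (E D.n)} (hU : IsOpen U)
    (hne : U.Nonempty) : ∃ p ∈ U, ∀ i, ∀ v ∈ (C i).S, lin v.1 p ≠ 0 := by
  obtain ⟨p, hp1, hp2⟩ := (dense_base C).inter_open_nonempty U hU hne
  exact ⟨p, hp1, hp2⟩

theorem exists_base_ball {ι : Type*} [Countable ι] (C : ι → ECls D) :
    ∃ p ∈ Ball D.n, ∀ i, ∀ v ∈ (C i).S, lin v.1 p ≠ 0 :=
  exists_base C Metric.isOpen_ball ⟨0, Metric.mem_ball_self one_pos⟩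









/-- the weight in terms of the square norm: `wt v = exp(-(π/2)(m1 + m2))` on the class. -/
theorem wt_S {v : VV D} (hv : v ∈ C.S) :
    wt v = Real.exp (-(Real.pi / 2) * (C.m1 + C.m2)) := by
  unfold wt
  rw [C.norm1 v hv, C.norm2 v hv]

end

end Crest.Agent.R272.Z2_939
end

-- ▼ part R272/EXD3_429
section

/-!
Row 272, division E (helper429): convergence of `K = Σ_{v∈S} Psi_v`, holomorphy, approximation by the
theta kernels.
-/

set_option autoImplicit false

open Complex Set Filter Topology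
open scoped ComplexConjugate Real

namespace Crest.Agent.R272.EXD_429

open Crest.Agent.R272.EBase_641
open Crest.Agent.R272.Pol_898 (qq RR QQ Psi EinLike cr N1)
open Crest.Agent.R272.Z2_939 (VV nrm2 gm LM den)

noncomputable section

variable {D : EDat} {Ein : ℂ → ℂ}

/-- the constant of the bound -/
def Acst (r : ℝ) : ℝ := 32 * π / (1 - r ^ 2) ^ 3

theorem Acst_nonneg {r : ℝ} (hr0 : 0 ≤ r) (hr1 : r < 1) : 0 ≤ Acst r := by
  have : 0 < 1 - r ^ 2 := by nlinarith
  unfold Acst; positivity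

theorem norm_wt_Psi_le' (h : EinLike Ein) {r : ℝ} (hr0 : 0 ≤ r) (hr1 : r < 1) (v : VV D)
    {p z w : E D.n} (hp : ‖p‖ ≤ r) (hz : ‖z‖ ≤ r) (hw : ‖w‖ ≤ r) :
    ‖(wt v : ℂ) * Psi Ein p v.1 z w‖ ≤ Acst r * gm D 1 (cr r) v := by
  refine (Pol_898.norm_wt_Psi_le h hr0 hr1 v hp hz hw).trans ?_
  have h1 : nrm2 v = N1 v.1 + ‖v.2‖ ^ 2 := rfl
  have hN := Pol_898.N1_nonneg v.1
  have hd : 0 < 1 - r ^ 2 := by nlinarith
  have e : Acst r * gm D 1 (cr r) v = 32 * π / (1 - r ^ 2) ^ 3 * (1 + (N1 v.1 + ‖v.2‖ ^ 2)) *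
      Real.exp (-cr r * (N1 v.1 + ‖v.2‖ ^ 2)) := by
    simp only [Acst, gm, pow_one, h1]; ring
  rw [e]
  have h2 : 0 ≤ 32 * π / (1 - r ^ 2) ^ 3 := by positivity
  refine mul_le_mul_of_nonneg_right (mul_le_mul_of_nonneg_left ?_ h2) (Real.exp_nonneg _)
  nlinarith [sq_nonneg ‖v.2‖]

/-- a common radius -/
theorem exists_r {n : ℕ} {p z w : E n} (hp : p ∈ Ball n) (hz : z ∈ Ball n) (hw : w ∈ Ball n) :
    ∃ r : ℝ, 0 ≤ r ∧ r < 1 ∧ ‖p‖ ≤ r ∧ ‖z‖ ≤ r ∧ ‖w‖ ≤ r := by
  rw [mem_Ball] at *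
  refine ⟨max ‖p‖ (max ‖z‖ ‖w‖), (norm_nonneg p).trans (le_max_left _ _),
    max_lt hp (max_lt hz hw), le_max_left _ _,
    (le_max_left _ _).trans (le_max_right _ _), (le_max_right _ _).trans (le_max_right _ _)⟩

variable (C : ECls D)

/-- `wt` on the class -/
def w0 (C : ECls D) : ℝ := Real.exp (-(Real.pi / 2) * (C.m1 + C.m2))

theorem w0_pos : 0 < w0 C := Real.exp_pos _

theorem summable_wt_Psi_S (h : EinLike Ein) {p z w : E D.n} (hp : p ∈ Ball D.n)
    (hz : z ∈ Ball D.n) (hw : w ∈ Ball D.n) :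
    Summable fun v : C.S => (wt v.1 : ℂ) * Psi Ein p v.1.1 z w := by
  obtain ⟨r, hr0, hr1, h1, h2, h3⟩ := exists_r hp hz hw
  exact Z2_939.summable_S_smul C (Pol_898.cr_pos hr0 hr1)
    (κ := fun v : VV D => (wt v : ℂ) * Psi Ein p v.1 z w)
    fun v _ => norm_wt_Psi_le' h hr0 hr1 v h1 h2 h3

theorem Psi_eq_S (p z w : E D.n) (v : C.S) :
    Psi Ein p v.1.1 z w = ((w0 C)⁻¹ : ℂ) * ((wt v.1 : ℂ) * Psi Ein p v.1.1 z w) := by
  have h1 : wt v.1 = w0 C := Z2_939.wt_S C v.2
  have h2 : (w0 C : ℂ) ≠ 0 := by exact_mod_cast (w0_pos C).ne'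
  rw [h1]
  field_simp

theorem summable_Psi_S (h : EinLike Ein) {p z w : E D.n} (hp : p ∈ Ball D.n)
    (hz : z ∈ Ball D.n) (hw : w ∈ Ball D.n) :
    Summable fun v : C.S => Psi Ein p v.1.1 z w := by
  have := (summable_wt_Psi_S C h hp hz hw).mul_left ((w0 C)⁻¹ : ℂ)
  exact this.congr fun v => (Psi_eq_S C p z w v).symm

theorem summable_wt_Psi_φ (h : EinLike Ein) (N : ℕ) {p z w : E D.n} (hp : p ∈ Ball D.n)
    (hz : z ∈ Ball D.n) (hw : w ∈ Ball D.n) :
    Summable fun v : {v : VV D // C.φ N v ≠ 0} =>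
      ((C.φ N v.1 * wt v.1 : ℝ) : ℂ) * Psi Ein p v.1.1 z w := by
  obtain ⟨r, hr0, hr1, h1, h2, h3⟩ := exists_r hp hz hw
  have := Z2_939.summable_φ_smul C (Acst_nonneg hr0 hr1) (Pol_898.cr_pos hr0 hr1)
    (κ := fun v : VV D => (wt v : ℂ) * Psi Ein p v.1 z w)
    (fun v _ => norm_wt_Psi_le' h hr0 hr1 v h1 h2 h3) N
  refine (this.comp_injective (Subtype.val_injective (p := fun v : VV D => C.φ N v ≠ 0))).congr
    fun v => ?_
  simp only [Function.comp_apply, Complex.real_smul, Complex.ofReal_mul]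
  ring

/-- holomorphy of a single potential -/
theorem differentiableOn_Psi (h : EinLike Ein) (v : V1 D.n) {p w : E D.n} (hp : p ∈ Ball D.n)
    (hw : w ∈ Ball D.n) : DifferentiableOn ℂ (fun z => Psi Ein p v z w) (Ball D.n) := by
  have hq : ∀ w' ∈ Ball D.n, DifferentiableOn ℂ (fun z => QQ Ein v z w') (Ball D.n) := by
    intro w' hw'
    have h1 : Differentiable ℂ fun z : E D.n => qq z w' := by
      have : (fun z : E D.n => qq z w') = fun z => 1 - (innerSL ℂ w') z := by
        funext z; simp [qq]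
      rw [this]
      exact ((innerSL ℂ w').differentiable).const_sub _
    have h2 : DifferentiableOn ℂ (fun z : E D.n => log (qq z w')) (Ball D.n) :=
      h1.differentiableOn.clog fun z hz => Pol_898.qq_slit hz hw'
    have h3 : DifferentiableOn ℂ (fun z : E D.n => (π : ℂ) * RR v z w') (Ball D.n) := by
      simp only [Pol_898.RR, div_eq_mul_inv]
      exact ((((differentiable_lin v).differentiableOn).mul_const _).mul
        (h1.differentiableOn.inv fun z hz => Pol_898.qq_ne hz hw')).const_mul _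
    exact ((h.diff.comp_differentiableOn h3).neg).sub h2
  unfold Pol_898.Psi Pol_898.dd
  exact (((hq w hw).sub (hq p hp)).sub_const _).add_const _

/-- the kernel of the class -/
def KK (Ein : ℂ → ℂ) (C : ECls D) (p z w : E D.n) : ℂ := KS Ein D C.S (fun _ => 1) p z w

theorem KK_eq (p z w : E D.n) :
    KK Ein C p z w = ∑' v : C.S, Psi Ein p v.1.1 z w := by
  unfold KK KS; simp

theorem KK_hol (h : EinLike Ein) {p w : E D.n} (hp : p ∈ Ball D.n) (hw : w ∈ Ball D.n) :
    DifferentiableOn ℂ (fun z => KK Ein C p z w) (Ball D.n) := by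
  simp_rw [KK_eq]
  refine differentiableOn_tsum Metric.isOpen_ball
    (fun v => differentiableOn_Psi h v.1.1 hp hw) fun z hz => ?_
  have hz' := mem_Ball.1 hz
  have hp' := mem_Ball.1 hp
  have hw' := mem_Ball.1 hw
  set r : ℝ := max ‖p‖ (max ((1 + ‖z‖) / 2) ‖w‖) with hr
  have hr0 : 0 ≤ r := (norm_nonneg p).trans (le_max_left _ _)
  have hr1 : r < 1 := max_lt hp' (max_lt (by linarith) hw')
  refine ⟨(1 - ‖z‖) / 2, by linarith, fun v => (w0 C)⁻¹ * (Acst r * gm D 1 (cr r) v.1), ?_,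
    fun v w' hw' _ => ?_⟩
  · exact ((Z2_939.summable_S C 1 (Pol_898.cr_pos hr0 hr1)).mul_left (Acst r)).mul_left _
  · have h1 : ‖w'‖ ≤ r := by
      have : ‖w'‖ ≤ ‖z‖ + ‖w' - z‖ := by
        calc ‖w'‖ = ‖z + (w' - z)‖ := by congr 1; abel
          _ ≤ _ := norm_add_le _ _
      have h3 := mem_ball_iff_norm.1 hw'
      refine le_trans ?_ ((le_max_left ((1 + ‖z‖) / 2) ‖w‖).trans (le_max_right _ _))
      linarith
    rw [Psi_eq_S C, norm_mul, norm_inv, Complex.norm_real, Real.norm_of_nonneg (w0_pos C).le]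
    refine mul_le_mul_of_nonneg_left ?_ (by have := w0_pos C; positivity)
    exact norm_wt_Psi_le' h hr0 hr1 v.1 (le_max_left _ _) h1
      ((le_max_right ((1 + ‖z‖) / 2) ‖w‖).trans (le_max_right _ _))

theorem KK_left (p w : E D.n) : KK Ein C p p w = 0 := KS_left p w
theorem KK_right (p z : E D.n) : KK Ein C p z p = 0 := KS_right p z

theorem KK_inv (h : EinLike Ein) {p : E D.n} (hp : p ∈ Ball D.n) (g : D.G) {z w : E D.n}
    (hz : z ∈ Ball D.n) (hw : w ∈ Ball D.n) :
    Pol_898.dd (KK Ein C p) (act (D.ρ g) p) (act (D.ρ g) z) (act (D.ρ g) w) = KK Ein C p z w :=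
  KS_inv' (fun g v hv => C.inv g v hv) (fun _ _ => rfl) hp
    (fun z hz w hw => by simpa using summable_Psi_S C h hp hz hw) g hz hw

/-- the approximating kernels (normalised) -/
def KN (Ein : ℂ → ℂ) (C : ECls D) (p : E D.n) (N : ℕ) (z w : E D.n) : ℂ :=
  KS Ein D {v | C.φ N v ≠ 0} (fun v => ((w0 C)⁻¹ : ℂ) * ((C.φ N v * wt v : ℝ) : ℂ)) p z w

theorem KN_eq (p : E D.n) (N : ℕ) (z w : E D.n) :
    KN Ein C p N z w = ((w0 C)⁻¹ : ℂ) * ∑' v : {v : VV D // C.φ N v ≠ 0},
      ((C.φ N v.1 * wt v.1 : ℝ) : ℂ) * Psi Ein p v.1.1 z w := by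
  unfold KN KS
  rw [← tsum_mul_left]
  refine tsum_congr fun v => ?_
  rw [mul_assoc]

theorem KN_left (p : E D.n) (N : ℕ) (w : E D.n) : KN Ein C p N p w = 0 := KS_left p w
theorem KN_right (p : E D.n) (N : ℕ) (z : E D.n) : KN Ein C p N z p = 0 := KS_right p z

theorem KN_inv (h : EinLike Ein) {p : E D.n} (hp : p ∈ Ball D.n) (N : ℕ) (g : D.G) {z w : E D.n}
    (hz : z ∈ Ball D.n) (hw : w ∈ Ball D.n) :
    Pol_898.dd (KN Ein C p N) (act (D.ρ g) p) (act (D.ρ g) z) (act (D.ρ g) w)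
      = KN Ein C p N z w := by
  have hφ : ∀ g v, C.φ N (gv D g v) = C.φ N v := fun g v => C.φ_inv N g v
  refine KS_inv' (fun g v hv => ?_) (fun g v => ?_) hp (fun z hz w hw => ?_) g hz hw
  · show C.φ N (gv D g v) ≠ 0
    rw [hφ]; exact hv
  · show ((w0 C)⁻¹ : ℂ) * ((C.φ N (gv D g v) * wt (gv D g v) : ℝ) : ℂ) = _
    rw [hφ, wt_gv]
  · refine ((summable_wt_Psi_φ C h N hp hz hw).mul_left ((w0 C)⁻¹ : ℂ)).congr fun v => ?_
    rw [mul_assoc]

theorem KN_lim (h : EinLike Ein) {p : E D.n} (hp : p ∈ Ball D.n) {z w : E D.n}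
    (hz : z ∈ Ball D.n) (hw : w ∈ Ball D.n) :
    Tendsto (fun N => KN Ein C p N z w) atTop (𝓝 (KK Ein C p z w)) := by
  obtain ⟨r, hr0, hr1, h1, h2, h3⟩ := exists_r hp hz hw
  have := Z2_939.tendsto_φ' C (Acst_nonneg hr0 hr1) (Pol_898.cr_pos hr0 hr1)
    (κ := fun v : VV D => (wt v : ℂ) * Psi Ein p v.1 z w)
    (fun v _ => norm_wt_Psi_le' h hr0 hr1 v h1 h2 h3)
  have h4 := this.const_mul ((w0 C)⁻¹ : ℂ)
  have e1 : KK Ein C p z w = ((w0 C)⁻¹ : ℂ) * ∑' v : C.S, (wt v.1 : ℂ) * Psi Ein p v.1.1 z w := by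
    rw [KK_eq, ← tsum_mul_left]
    exact tsum_congr fun v => Psi_eq_S C p z w v
  rw [e1]
  refine h4.congr fun N => ?_
  rw [KN_eq]
  congr 1
  refine tsum_congr fun v => ?_
  rw [Complex.real_smul, Complex.ofReal_mul]
  ring

end

end Crest.Agent.R272.EXD_429
end

-- ▼ part R272/Pol5_898
section

/-!
Row 272, (E): BRIDGE. From the polarized kernel identity (theta leaf, `EThetaK`) to the
identity for the potentials `Psi`.
-/
set_option autoImplicit false

namespace Crest.Agent.R272.Pol_898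

open Complex Set Filter Topology MeasureTheory
open scoped ComplexConjugate Real
open Crest.Agent.R272.EBase_641
open Crest.Agent.R272.EPol_429 (sp R2 om2 K2)

noncomputable section

variable {n : ℕ} {Ein : ℂ → ℂ}

/-- the inner integral in closed form -/
theorem inner_integral (h : EinLike Ein) (v : V1 n) {p z w : E n} (hp : p ∈ Ball n)
    (hz : z ∈ Ball n) (hw : w ∈ Ball n) {s : ℝ} (hs : s ∈ Icc (0:ℝ) 1) :
    ∫ t in (0:ℝ)..1, K2 v (seg p z s) (seg p w t) (z - p) (w - p)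
      = - D1 Ein v (seg p z s) w (z - p) - - D1 Ein v (seg p z s) p (z - p) := by
  have hIcc : uIcc (0:ℝ) 1 = Icc 0 1 := uIcc_of_le zero_le_one
  have hzs := seg_mem hp hz hs
  have h1 := intervalIntegral.integral_eq_sub_of_hasDerivAt
    (f := fun t : ℝ => - D1 Ein v (seg p z s) (seg p w t) (z - p))
    (f' := fun t : ℝ => K2 v (seg p z s) (seg p w t) (z - p) (w - p)) (a := 0) (b := 1)
    (fun t ht => ?_) ?_
  · rw [h1, seg_zero, seg_one]
  · exact (hasDerivAt_D1_seg h v (z - p) hp hzs hw (by rwa [hIcc] at ht)).fun_neg.congr_deriv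
      (neg_neg _)
  · refine ContinuousOn.intervalIntegrable ?_
    rw [hIcc]
    refine (continuousOn_K2 v (z - p) (w - p)).comp
      (f := fun t : ℝ => (seg p z s, seg p w t)) ?_ fun t ht => ⟨hzs, seg_mem hp hw ht⟩
    exact (continuous_const.prodMk (continuous_seg p w)).continuousOn

theorem continuousOn_inner_integral (h : EinLike Ein) (v : V1 n) {p z w : E n} (hp : p ∈ Ball n)
    (hz : z ∈ Ball n) (hw : w ∈ Ball n) :
    ContinuousOn (fun s : ℝ => ∫ t in (0:ℝ)..1, K2 v (seg p z s) (seg p w t) (z - p) (w - p))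
      (Icc 0 1) := by
  have hc : ∀ w' ∈ Ball n, ContinuousOn (fun s : ℝ => D1 Ein v (seg p z s) w' (z - p))
      (Icc 0 1) := fun w' hw' =>
    (continuousOn_D1 h v (z - p) w' hw').comp (continuous_seg p z).continuousOn
        fun s hs => seg_mem hp hz hs
  exact (((hc w hw).neg).sub (hc p hp).neg).congr fun s hs => inner_integral h v hp hz hw hs

/-! ### primitives along segments -/

theorem isOpen_cseg (p z : E n) : IsOpen {ζ : ℂ | p + ζ • (z - p) ∈ Ball n} := by
  have : Continuous fun ζ : ℂ => p + ζ • (z - p) :=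
    continuous_const.add (continuous_id.smul continuous_const)
  exact Metric.isOpen_ball.preimage this

theorem hasDerivAt_cseg {A : E n → ℂ} (hA : DifferentiableOn ℂ A (Ball n)) (p z : E n) {ζ : ℂ}
    (hζ : p + ζ • (z - p) ∈ Ball n) :
    HasDerivAt (fun ζ : ℂ => A (p + ζ • (z - p))) (fderiv ℂ A (p + ζ • (z - p)) (z - p)) ζ := by
  have h1 : HasFDerivAt A (fderiv ℂ A (p + ζ • (z - p))) (p + ζ • (z - p)) :=
    (hA.differentiableAt (Metric.isOpen_ball.mem_nhds hζ)).hasFDerivAt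
  have h2 : HasDerivAt (fun ζ : ℂ => p + ζ • (z - p)) (z - p) ζ := by
    have := ((hasDerivAt_id ζ).smul_const (z - p)).const_add p
    simpa using this
  exact h1.comp_hasDerivAt ζ h2

theorem continuousOn_fderiv_seg {A : E n → ℂ} (hA : DifferentiableOn ℂ A (Ball n)) {p z : E n}
    (hp : p ∈ Ball n) (hz : z ∈ Ball n) :
    ContinuousOn (fun s : ℝ => fderiv ℂ A (seg p z s) (z - p)) (Icc 0 1) := by
  have hU := isOpen_cseg p z
  have hg : DifferentiableOn ℂ (fun ζ : ℂ => A (p + ζ • (z - p))) {ζ : ℂ | p + ζ • (z - p) ∈ Ball n} :=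
    fun ζ hζ => (hasDerivAt_cseg hA p z hζ).differentiableAt.differentiableWithinAt
  have h1 := (hg.deriv hU).continuousOn
  have h2 : ContinuousOn (fun s : ℝ => deriv (fun ζ : ℂ => A (p + ζ • (z - p))) (s : ℂ))
      (Icc 0 1) :=
    h1.comp continuous_ofReal.continuousOn fun s hs => seg_mem hp hz hs
  refine h2.congr fun s hs => ?_
  exact (hasDerivAt_cseg hA p z (ζ := (s : ℂ)) (seg_mem hp hz hs)).deriv.symm

theorem integral_fderiv_seg {A : E n → ℂ} (hA : DifferentiableOn ℂ A (Ball n)) {p z : E n}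
    (hp : p ∈ Ball n) (hz : z ∈ Ball n) :
    ∫ s in (0:ℝ)..1, fderiv ℂ A (seg p z s) (z - p) = A z - A p := by
  have hIcc : uIcc (0:ℝ) 1 = Icc 0 1 := uIcc_of_le zero_le_one
  have h1 := intervalIntegral.integral_eq_sub_of_hasDerivAt
    (f := fun s : ℝ => A (seg p z s))
    (f' := fun s : ℝ => fderiv ℂ A (seg p z s) (z - p)) (a := 0) (b := 1)
    (fun s hs => ?_) ?_
  · rw [h1, seg_zero, seg_one]
  · exact (hasDerivAt_cseg hA p z (ζ := (s : ℂ))
      (seg_mem hp hz (by rwa [hIcc] at hs))).comp_ofReal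
  · refine ContinuousOn.intervalIntegrable ?_
    rw [hIcc]
    exact continuousOn_fderiv_seg hA hp hz

/-- conjugation and interval integrals -/
theorem integral_conj' (f : ℝ → ℂ) :
    ∫ t in (0:ℝ)..1, conj (f t) = conj (∫ t in (0:ℝ)..1, f t) := by
  rw [intervalIntegral.integral_of_le zero_le_one, intervalIntegral.integral_of_le zero_le_one]
  exact integral_conj

/-- interchange of a sum and an interval integral, constant bound -/
theorem hasSum_interval {ι : Type*} [Countable ι] {F : ι → ℝ → ℂ} {f : ℝ → ℂ} {b : ι → ℝ}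
    (hb : Summable b) (hF : ∀ i, ContinuousOn (F i) (Icc 0 1))
    (hFb : ∀ i, ∀ s ∈ Icc (0:ℝ) 1, ‖F i s‖ ≤ b i)
    (hs : ∀ s ∈ Icc (0:ℝ) 1, HasSum (fun i => F i s) (f s)) :
    HasSum (fun i => ∫ s in (0:ℝ)..1, F i s) (∫ s in (0:ℝ)..1, f s) := by
  have hI : ∀ s : ℝ, s ∈ uIoc (0:ℝ) 1 → s ∈ Icc (0:ℝ) 1 := by
    intro s hs
    rw [uIoc_of_le zero_le_one] at hs
    exact ⟨hs.1.le, hs.2⟩
  refine intervalIntegral.hasSum_integral_of_dominated_convergence (fun i _ => b i) ?_ ?_ ?_ ?_ ?_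
  · intro i
    exact ((hF i).mono hI).aestronglyMeasurable measurableSet_uIoc
  · exact fun i => ae_of_all _ fun s hs' => hFb i s (hI s hs')
  · exact ae_of_all _ fun s _ => hb
  · exact intervalIntegrable_const
  · exact ae_of_all _ fun s hs' => hs s (hI s hs')

/-- the majorant -/
def maj0 {m : ℕ} (c : ℝ) (v : V1 n × W m) : ℝ :=
  (1 + N1 v.1) * Real.exp (-c * (N1 v.1 + ‖v.2‖ ^ 2))

theorem maj0_pos {m : ℕ} (c : ℝ) (v : V1 n × W m) : 0 < maj0 c v := by
  have := N1_nonneg v.1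
  unfold maj0; positivity

theorem countable_of_summable {ι : Type*} {b : ι → ℝ} (hb : Summable b) (h : ∀ i, 0 < b i) :
    Countable ι := by
  have h1 := hb.countable_support
  have h2 : Function.support b = univ := by
    ext i; simp [(h i).ne']
  rw [h2] at h1
  exact countable_univ_iff.1 h1

/-- **BRIDGE**: the kernel identity integrated twice. -/
theorem hasSum_Psi (h : EinLike Ein) {m r : ℕ} {ι : Type*} (v : ι → V1 n × W m) (a : ι → ℂ)
    {C₀ : ℝ} (ha : ∀ i, ‖a i‖ ≤ C₀)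
    (hsum : ∀ c : ℝ, 0 < c → Summable fun i => maj0 c (v i))
    (c : Fin r → ℂ) (A B : Fin r → E n → ℂ)
    (hA : ∀ j, DifferentiableOn ℂ (A j) (Ball n)) (hB : ∀ j, DifferentiableOn ℂ (B j) (Ball n))
    (hK : ∀ z ∈ Ball n, ∀ w ∈ Ball n, ∀ X Y : E n,
      HasSum (fun i => a i * ((wt (v i) : ℂ) * K2 (v i).1 z w X Y))
        (∑ j, c j * (fderiv ℂ (A j) z X * conj (fderiv ℂ (B j) w Y))))
    {p z w : E n} (hp : p ∈ Ball n) (hz : z ∈ Ball n) (hw : w ∈ Ball n) :
    HasSum (fun i => a i * ((wt (v i) : ℂ) * Psi Ein p (v i).1 z w))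
      (∑ j, c j * ((A j z - A j p) * conj (B j w - B j p))) := by
  -- a radius
  set ρ : ℝ := max ‖p‖ (max ‖z‖ ‖w‖) with hρ
  have hρ0 : 0 ≤ ρ := (norm_nonneg p).trans (le_max_left _ _)
  have hρ1 : ρ < 1 := max_lt (mem_Ball.1 hp) (max_lt (mem_Ball.1 hz) (mem_Ball.1 hw))
  have hpr : ‖p‖ ≤ ρ := le_max_left _ _
  have hzr : ‖z‖ ≤ ρ := (le_max_left _ _).trans (le_max_right _ _)
  have hwr : ‖w‖ ≤ ρ := (le_max_right _ _).trans (le_max_right _ _)
  have hd0 : 0 < 1 - ρ ^ 2 := by nlinarith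
  set b : ι → ℝ := fun i => (|C₀| * (8 * π / (1 - ρ ^ 2) ^ 3) * (‖z - p‖ * ‖w - p‖)) *
    maj0 (cr ρ) (v i) with hb
  have hbs : Summable b := (hsum _ (cr_pos hρ0 hρ1)).mul_left _
  haveI : Countable ι := countable_of_summable (hsum _ (cr_pos hρ0 hρ1)) fun i => maj0_pos _ _
  have hbound : ∀ i, ∀ s ∈ Icc (0:ℝ) 1, ∀ t ∈ Icc (0:ℝ) 1,
      ‖a i * ((wt (v i) : ℂ) * K2 (v i).1 (seg p z s) (seg p w t) (z - p) (w - p))‖ ≤ b i := by
    intro i s hs t ht
    rw [norm_mul]
    have h1 := norm_wt_K2_le hρ0 hρ1 (v i) (z - p) (w - p) (norm_seg_le hpr hzr hs)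
      (norm_seg_le hpr hwr ht)
    have h2 : ‖a i‖ ≤ |C₀| := (ha i).trans (le_abs_self _)
    have h3 := mul_le_mul h2 h1 (norm_nonneg _) (abs_nonneg _)
    refine h3.trans (le_of_eq ?_)
    simp only [hb, maj0]; ring
  -- inner sum
  have hin : ∀ s ∈ Icc (0:ℝ) 1, HasSum (fun i => a i * ((wt (v i) : ℂ) *
      ∫ t in (0:ℝ)..1, K2 (v i).1 (seg p z s) (seg p w t) (z - p) (w - p)))
      (∑ j, c j * (fderiv ℂ (A j) (seg p z s) (z - p) * conj (B j w - B j p))) := by
    intro s hs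
    have hzs := seg_mem hp hz hs
    have h1 := hasSum_interval (F := fun i t => a i * ((wt (v i) : ℂ) *
        K2 (v i).1 (seg p z s) (seg p w t) (z - p) (w - p)))
      (f := fun t => ∑ j, c j * (fderiv ℂ (A j) (seg p z s) (z - p) *
        conj (fderiv ℂ (B j) (seg p w t) (w - p)))) hbs ?_ (fun i t ht => hbound i s hs t ht)
      (fun t ht => hK _ hzs _ (seg_mem hp hw ht) _ _)
    · have e1 : ∀ i, ∫ t in (0:ℝ)..1, a i * ((wt (v i) : ℂ) *
          K2 (v i).1 (seg p z s) (seg p w t) (z - p) (w - p)) = a i * ((wt (v i) : ℂ) *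
          ∫ t in (0:ℝ)..1, K2 (v i).1 (seg p z s) (seg p w t) (z - p) (w - p)) := by
        intro i
        rw [intervalIntegral.integral_const_mul, intervalIntegral.integral_const_mul]
      have e2 : ∫ t in (0:ℝ)..1, (∑ j, c j * (fderiv ℂ (A j) (seg p z s) (z - p) *
          conj (fderiv ℂ (B j) (seg p w t) (w - p))))
          = ∑ j, c j * (fderiv ℂ (A j) (seg p z s) (z - p) * conj (B j w - B j p)) := by
        rw [intervalIntegral.integral_finset_sum]
        · refine Finset.sum_congr rfl fun j _ => ?_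
          rw [intervalIntegral.integral_const_mul, intervalIntegral.integral_const_mul,
            integral_conj', integral_fderiv_seg (hB j) hp hw]
        · intro j _
          refine ContinuousOn.intervalIntegrable ?_
          rw [uIcc_of_le zero_le_one]
          exact continuousOn_const.mul (continuousOn_const.mul
            (continuous_conj.comp_continuousOn (continuousOn_fderiv_seg (hB j) hp hw)))
      rw [e2] at h1
      simpa only [e1] using h1
    · intro i
      refine continuousOn_const.mul (continuousOn_const.mul ?_)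
      refine (continuousOn_K2 (v i).1 (z - p) (w - p)).comp
        (f := fun t : ℝ => (seg p z s, seg p w t)) ?_ fun t ht => ⟨hzs, seg_mem hp hw ht⟩
      exact (continuous_const.prodMk (continuous_seg p w)).continuousOn
  -- outer sum
  have hout := hasSum_interval (F := fun i s => a i * ((wt (v i) : ℂ) *
      ∫ t in (0:ℝ)..1, K2 (v i).1 (seg p z s) (seg p w t) (z - p) (w - p)))
    (f := fun s => ∑ j, c j * (fderiv ℂ (A j) (seg p z s) (z - p) * conj (B j w - B j p)))
    hbs ?_ ?_ hin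
  · have e1 : ∀ i, ∫ s in (0:ℝ)..1, a i * ((wt (v i) : ℂ) *
        ∫ t in (0:ℝ)..1, K2 (v i).1 (seg p z s) (seg p w t) (z - p) (w - p))
        = a i * ((wt (v i) : ℂ) * Psi Ein p (v i).1 z w) := by
      intro i
      rw [intervalIntegral.integral_const_mul, intervalIntegral.integral_const_mul,
        Psi_eq_integral h (v i).1 hp hz hw]
    have e2 : ∫ s in (0:ℝ)..1, (∑ j, c j * (fderiv ℂ (A j) (seg p z s) (z - p) *
        conj (B j w - B j p))) = ∑ j, c j * ((A j z - A j p) * conj (B j w - B j p)) := by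
      rw [intervalIntegral.integral_finset_sum]
      · refine Finset.sum_congr rfl fun j _ => ?_
        rw [intervalIntegral.integral_const_mul, intervalIntegral.integral_mul_const,
          integral_fderiv_seg (hA j) hp hz]
      · intro j _
        refine ContinuousOn.intervalIntegrable ?_
        rw [uIcc_of_le zero_le_one]
        exact continuousOn_const.mul ((continuousOn_fderiv_seg (hA j) hp hz).mul
          continuousOn_const)
    rw [e2] at hout
    simpa only [e1] using hout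
  · intro i
    exact continuousOn_const.mul (continuousOn_const.mul
      (continuousOn_inner_integral h (v i).1 hp hz hw))
  · intro i s hs
    rw [← intervalIntegral.integral_const_mul, ← intervalIntegral.integral_const_mul]
    have h2 := intervalIntegral.norm_integral_le_of_norm_le_const (a := (0:ℝ)) (b := 1)
      (f := fun t => a i * ((wt (v i) : ℂ) *
        K2 (v i).1 (seg p z s) (seg p w t) (z - p) (w - p))) (C := b i) (fun t ht => ?_)
    · simpa using h2
    · rw [uIoc_of_le zero_le_one] at ht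
      exact hbound i s hs t ⟨ht.1.le, ht.2⟩

end

end Crest.Agent.R272.Pol_898
end

-- ▼ part R272/Pol6_898
section

/-!
Row 272, (E): the bounds of `Pol4_898` in the form consumed by `Z2_939` (`gm`), and the bridge
for an approximating function `C.φ N`.
-/
set_option autoImplicit false

namespace Crest.Agent.R272.Pol_898

open Complex Set Filter Topology MeasureTheory
open scoped ComplexConjugate Real
open Crest.Agent.R272.EBase_641
open Crest.Agent.R272.Z2_939 (nrm2 nrm2_nonneg gm VV LM)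
open Crest.Agent.R272.EPol_429 (sp R2 om2 K2)

noncomputable section

theorem N1_add {n m : ℕ} (v : V1 n × W m) : N1 v.1 + ‖v.2‖ ^ 2 = nrm2 v := by
  simp only [N1, nrm2]

theorem maj0_le {n m : ℕ} (c : ℝ) (v : V1 n × W m) :
    maj0 c v ≤ (1 + nrm2 v) * Real.exp (-c * nrm2 v) := by
  unfold maj0
  rw [N1_add]
  refine mul_le_mul_of_nonneg_right ?_ (Real.exp_nonneg _)
  have : N1 v.1 ≤ nrm2 v := by rw [← N1_add]; nlinarith [sq_nonneg ‖v.2‖]
  linarith




theorem summable_maj0 {D : EDat} (C : ECls D) (N : ℕ) {c : ℝ} (hc : 0 < c) :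
    Summable fun v : {v : VV D // C.φ N v ≠ 0} => maj0 c v.1 := by
  refine Summable.of_nonneg_of_le (fun v => (maj0_pos _ _).le) (fun v => ?_)
    (Z2_939.summable_φ C N 1 hc)
  have := maj0_le c v.1
  simpa [gm] using this

/-- **the rank condition** `KN_rk` of `EMain_528.XD` from the theta leaf -/
theorem rk_of_EThetaK (hT : EPol_429.EThetaK) {Ein : ℂ → ℂ} (h : EinLike Ein) (D : EDat)
    (C : ECls D) (N : ℕ) {p : E D.n} (hp : p ∈ Ball D.n) :
    ∃ (r : ℕ) (c : Fin r → ℂ) (A B : Fin r → E D.n → ℂ) (H : Subgroup D.G),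
      H.FiniteIndex ∧
      (∀ i, ∀ g ∈ H, ∃ a : ℂ, ∀ z ∈ Ball D.n, A i (act (D.ρ g) z) = A i z + a) ∧
      (∀ i, ∀ g ∈ H, ∃ b : ℂ, ∀ z ∈ Ball D.n, B i (act (D.ρ g) z) = B i z + b) ∧
      ∀ z ∈ Ball D.n, ∀ w ∈ Ball D.n,
        HasSum (fun v : {v : VV D // C.φ N v ≠ 0} =>
          (C.φ N v.1 : ℂ) * ((wt v.1 : ℂ) * Psi Ein p v.1.1 z w))
          (∑ i, c i * ((A i z - A i p) * conj (B i w - B i p))) := by
  obtain ⟨r, c, A, B, H, hH, hA, hB, hAg, hBg, hK⟩ := hT D (C.φ N) (C.φ_supp N) (C.φ_per N)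
  refine ⟨r, c, A, B, H, hH, hAg, hBg, fun z hz w hw => ?_⟩
  refine hasSum_Psi h (fun v : {v : VV D // C.φ N v ≠ 0} => v.1)
    (fun v => (C.φ N v.1 : ℂ)) (C₀ := 1) ?_ (fun c hc => summable_maj0 C N hc) c A B hA hB ?_
    hp hz hw
  · intro v
    rw [norm_real, Real.norm_eq_abs]; exact C.φ_bdd N v.1
  · intro z hz w hw X Y
    refine (hK z hz w hw X Y).congr_fun ?_ |> fun h => h
    intro v
    push_cast; ring


end

end Crest.Agent.R272.Pol_898
end

-- ▼ part R272/EXD4_429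
section

/-!
Row 272, division E (helper429): `EThetaK → EMain`.
-/

set_option autoImplicit false

open Complex Set Filter Topology
open scoped ComplexConjugate Real

namespace Crest.Agent.R272.EXD_429

open Crest.Agent.R272.EBase_641
open Crest.Agent.R272.Pol_898 (qq RR QQ Psi EinLike cr N1 InvKer)
open Crest.Agent.R272.Z2_939 (VV nrm2 gm LM den)
open Crest.Agent.R272.Wei_392 (CEin EE EMaj Div)
open Crest.Agent.R272.EMain_528 (XD da)

noncomputable section

variable {D : EDat}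

theorem einLike_CEin : EinLike CEin where
  diff := Wei_392.differentiable_CEin
  der x := by
    rw [(Wei_392.hasDerivAt_CEin x).deriv]
    exact Wei_392.mul_cphi x

theorem EE_eq_EEc : EE = Ex_429.EEc CEin (-(EPr_368.Ec : ℂ)) := by
  funext x
  simp only [Wei_392.EE, Ex_429.EEc]
  congr 2; ring

variable (C : ECls D)

/-- the exponents -/
def xv (C : ECls D) (w : E D.n) (v : C.S) (z : E D.n) : ℂ := π * RR v.1.1 z w

theorem emaj_xv {w : E D.n} (hw : w ∈ Ball D.n) : EMaj (xv C w) (Ball D.n) where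
  isOpen := Metric.isOpen_ball
  diff v := by
    have h1 : Differentiable ℂ fun z : E D.n => qq z w := by
      have : (fun z : E D.n => qq z w) = fun z => 1 - (innerSL ℂ w) z := by
        funext z; simp [qq]
      rw [this]
      exact ((innerSL ℂ w).differentiable).const_sub _
    show DifferentiableOn ℂ (fun z : E D.n => (π : ℂ) * RR v.1.1 z w) (Ball D.n)
    simp only [Pol_898.RR, div_eq_mul_inv]
    exact ((((differentiable_lin v.1.1).differentiableOn).mul_const _).mul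
      (h1.differentiableOn.inv fun z hz => Pol_898.qq_ne hz hw)).const_mul _
  bd K hK hKc := by
    have hw' := mem_Ball.1 hw
    -- a radius containing K
    obtain ⟨r, hr0, hr1, hrw, hrK⟩ : ∃ r : ℝ, 0 ≤ r ∧ r < 1 ∧ ‖w‖ ≤ r ∧ ∀ z ∈ K, ‖z‖ ≤ r := by
      rcases K.eq_empty_or_nonempty with rfl | hne
      · exact ⟨‖w‖, norm_nonneg _, hw', le_rfl, by simp⟩
      · obtain ⟨z0, hz0, hmax⟩ := hKc.exists_isMaxOn hne continuous_norm.continuousOn
        have hz0' := mem_Ball.1 (hK hz0)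
        refine ⟨max ‖w‖ ‖z0‖, (norm_nonneg w).trans (le_max_left _ _), max_lt hw' hz0',
          le_max_left _ _, fun z hz => (hmax hz).trans (le_max_right _ _)⟩
    have hc := Pol_898.cr_pos hr0 hr1
    refine ⟨fun v => cr r * nrm2 v.1 - (cr r * C.m2 + π / 2 * C.m1), ?_, ?_⟩
    · have h1 := (Z2_939.summable_S C 0 hc).mul_left (Real.exp (cr r * C.m2 + π / 2 * C.m1))
      refine h1.congr fun v => ?_
      simp only [gm, pow_zero, one_mul]
      rw [← Real.exp_add]
      congr 1; ring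
    · refine Eventually.of_forall fun v z hz => ?_
      have h1 := Pol_898.gb_RR hr0 hr1 v.1.1 (hrK z hz) hrw
      have h2 : nrm2 v.1 = N1 v.1.1 + C.m2 := by
        have : ‖v.1.2‖ ^ 2 = C.m2 := C.norm2 _ v.2
        simp only [nrm2, Pol_898.N1, this]
      rw [C.norm1 _ v.2] at h1
      show cr r * nrm2 v.1 - (cr r * C.m2 + π / 2 * C.m1) ≤ ((π : ℂ) * RR v.1.1 z w).re
      rw [Complex.re_ofReal_mul, h2]
      linarith

theorem fst_inj : Function.Injective fun v : C.S => v.1.1 := by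
  intro a b hab
  exact Subtype.ext (Z2_939.fst_injOn C a.2 b.2 hab)

theorem range_fst : Set.range (fun v : C.S => v.1.1) = Prod.fst '' C.S := by
  ext v
  constructor
  · rintro ⟨a, rfl⟩; exact ⟨a.1, a.2, rfl⟩
  · rintro ⟨a, ha, rfl⟩; exact ⟨⟨a, ha⟩, rfl⟩

/-- the function of the class -/
def ff (C : ECls D) (p z : E D.n) : ℂ := FP EE D C.S p z

theorem div_ff {p : E D.n} (hp : p ∈ Ball D.n) (hp0 : ∀ v ∈ C.S, lin v.1 p ≠ 0) :
    Div D.n (Prod.fst '' C.S) (ff C p) := by
  rw [← range_fst]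
  refine Wei_392.div_FP (fun v : C.S => v.1.1) (fst_inj C) (xv C p)
    (fun v z => π * conj (lin v.1.1 p) / qq z p) (emaj_xv C hp) ?_ ?_ ?_
  · intro v
    have h1 : Differentiable ℂ fun z : E D.n => qq z p := by
      have : (fun z : E D.n => qq z p) = fun z => 1 - (innerSL ℂ p) z := by
        funext z; simp [qq]
      rw [this]
      exact ((innerSL ℂ p).differentiable).const_sub _
    simp only [div_eq_mul_inv]
    exact (h1.differentiableOn.inv fun z hz => Pol_898.qq_ne hz hp).const_mul _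
  · intro v z hz
    refine div_ne_zero (mul_ne_zero (by exact_mod_cast Real.pi_ne_zero) ?_) (Pol_898.qq_ne hz hp)
    simpa using hp0 _ v.2
  · intro v z hz
    simp only [xv, Pol_898.RR]; ring

theorem ff_ne {p : E D.n} (hp : p ∈ Ball D.n) (hp0 : ∀ v ∈ C.S, lin v.1 p ≠ 0) :
    ff C p p ≠ 0 := by
  have h : ff C p p = 0 ↔ ∃ i, xv C p i p = 0 := (emaj_xv C hp).eq_zero_iff hp
  rw [Ne, h]
  rintro ⟨v, hv⟩
  have h1 := hp0 _ v.2
  simp only [xv, Pol_898.RR, mul_eq_zero, div_eq_zero_iff] at hv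
  rcases hv with hv | (hv | hv) | hv
  · exact Real.pi_ne_zero (by exact_mod_cast hv)
  · exact h1 hv
  · exact h1 (by simpa using hv)
  · exact Pol_898.qq_ne hp hp hv

/-- **production of `XD`** -/
theorem nonempty_XD (hT : EPol_429.EThetaK) (D : EDat) (C : ECls D) :
    Nonempty (XD D (Prod.fst '' C.S)) := by
  have hE := einLike_CEin
  obtain ⟨p, hp, hp0'⟩ := Z2_939.exists_base_ball (fun _ : Unit => C)
  have hp0 : ∀ v ∈ C.S, lin v.1 p ≠ 0 := hp0' ()
  have hdiv := div_ff C hp hp0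
  refine ⟨{
    p := p
    hp := hp
    f := ff C p
    f_hol := hdiv.hol
    fin := hdiv.fin
    f_div := hdiv.div
    f_p := ff_ne C hp hp0
    K := KK CEin C p
    K_hol := fun w hw => KK_hol C hE hp hw
    K_inv := ⟨fun w _ => KK_left C p w, fun z _ => KK_right C p z,
      fun g z hz w hw => KK_inv C hE hp g hz hw⟩
    Cg := fun g => ff C p (da D g p) / ff C p p
    f_act := fun g z hz => ?_
    KN := KN CEin C p
    KN_inv := fun N => ⟨fun w _ => KN_left C p N w, fun z _ => KN_right C p N z,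
      fun g z hz w hw => KN_inv C hE hp N g hz hw⟩
    KN_lim := fun z hz w hw => KN_lim C hE hp hz hw
    KN_rk := fun N => ?_ }⟩
  · have h := FP_automorphy (D := D) (S := C.S) (Ein := CEin) (-(EPr_368.Ec : ℂ))
      (fun g v hv => C.inv g v hv) g hp hz
      (fun z hz w hw => by
        rw [← EE_eq_EEc]
        exact (emaj_xv C hw).multipliable hz)
      (fun z hz w hw => summable_Psi_S C hE hp hz hw)
      (by rw [← EE_eq_EEc]; exact ff_ne C hp hp0)
    rw [← EE_eq_EEc] at h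
    have e : da D g⁻¹ p = act (D.ρ g)⁻¹ p := by simp only [da, map_inv]
    rw [e]
    exact h
  · obtain ⟨r, c, A, B, H, hH, hA, hB, hK⟩ :=
      Pol_898.rk_of_EThetaK hT hE D C N hp
    refine ⟨r, fun i => ((w0 C)⁻¹ : ℂ) * c i, A, B, H, hH, hA, hB, fun z hz w hw => ?_⟩
    rw [KN_eq]
    have h1 := (hK z hz w hw).tsum_eq
    have h2 : ∑' v : {v : VV D // C.φ N v ≠ 0},
        ((C.φ N v.1 * wt v.1 : ℝ) : ℂ) * Psi CEin p v.1.1 z w
        = ∑ i, c i * ((A i z - A i p) * conj (B i w - B i p)) := by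
      rw [← h1]
      refine tsum_congr fun v => ?_
      push_cast; ring
    rw [h2, Finset.mul_sum]
    exact Finset.sum_congr rfl fun i _ => by ring

/-- **Division E, analytic half**: the theta leaf implies the main theorem. -/
theorem emain_of_EThetaK (hT : EPol_429.EThetaK) : EMain :=
  EMain_528.emain_of_XD fun D C => nonempty_XD hT D C

end

end Crest.Agent.R272.EXD_429
end

-- ▼ part R272/EMain_295
section

set_option autoImplicit false

namespace Crest.Agent.R272.EMain_295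

open Crest.Agent.R272.EBase_641 Crest.Agent.R272.EBase2_641 Crest.Agent.R272.ETh4Defs_295

/-- input of T4 for every `D` -/
theorem nonempty_TIn (D : EDat) : Nonempty (TIn D) := by
  obtain ⟨T⟩ := Crest.Agent.R272.T2_528.nonempty_TData D
  exact ⟨Crest.Agent.R272.EChi10_307.mkTIn D T⟩

/-- the theta leaf, form of 429 -/
theorem ethetaK : Crest.Agent.R272.EPol_429.EThetaK :=
  Crest.Agent.R272.ETh4_295.ethetaK nonempty_TIn


/-- **MAIN THEOREM of division E.** -/
theorem emain : EMain := Crest.Agent.R272.EXD_429.emain_of_EThetaK ethetaK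

end Crest.Agent.R272.EMain_295
end

-- ▼ part R272/AROutF_641
section

set_option autoImplicit false

namespace Crest.Agent.R272.AROut_641

open Crest.Agent.R272.EBase_641
open Crest.Agent.R272.In_68
open Crest.Agent.R272.Cls_620 (Lb VV)
open Crest.Agent.R272.Ball7_916 (GCU)

variable {O : Subring (Fin 2 → ℂ)} {z : Fin 2 → ℂ}

/-- **AR-OUT**, no hypothesis. -/
theorem arOut (h : Z5r O z) {μ : Fin 2 → ℂ} (hμ : I2_939.Lvl O z μ) (k : ℕ)
    (hk : 0 < k) (K0 : Subgroup (GU O z)) (hK0 : K0.FiniteIndex) :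
    ∃ K : Subgroup (GU O z), K.Normal ∧ K.FiniteIndex ∧ K ≤ K0 ∧
      K ≤ GCU O z (Cls_620.pz z * μ) ∧
      ∀ a : Lb, Nonempty (Root 3 k ((rho h).comp K.subtype) (SV h μ a)) :=
  arOut_of EMain_295.emain h hμ k hk K0 hK0

/-- the concrete ring satisfies `Z5r`. -/
theorem z5r : Z5r O5_74.O5 O5_74.z5v where
  toZ5 := O5_74.Z5_O5
  rep := fun _ hx => O5_74.rep5 hx
  im0 := O5_74.im0
  im1 := O5_74.im1

end Crest.Agent.R272.AROut_641
end

-- ▼ part R272/I2d_939

/-!
helper939, row 272, (I2), part 4: every natural number `n ≥ 7` is a level; `n ≥ 7` times a level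
of modulus `≥ 1` also.
-/

set_option autoImplicit false

namespace Crest.Agent.R272.I2_939

open Crest.Agent.R272.Cls_620

variable {O : Subring (Fin 2 → ℂ)} {z : Fin 2 → ℂ}

/-- the conditions `Lvl` from the size -/
theorem lvl_of (h : Z5 O z) {μ ε : Fin 2 → ℂ} (hm : μ ∈ O) (hε : ε ∈ O) (hμ : star μ = μ * ε)
    (hk : ∃ k : ℕ, 0 < k ∧ ∃ u ∈ O, (k : Fin 2 → ℂ) = μ * u) (hK : 36 < ∏ t, ‖μ t‖) :
    Lvl O z μ := ⟨hm, hk, deep_of h hε hμ (by rw [show (6 : ℝ) * (2 + 4) = 36 by norm_num]; exact hK)⟩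

/-- natural numbers -/
theorem lvl_nat (h : Z5 O z) {n : ℕ} (hn : 7 ≤ n) : Lvl O z (n : Fin 2 → ℂ) := by
  refine lvl_of h (natCast_mem O n) O.one_mem (by rw [star_natCast, mul_one])
    ⟨n, by omega, 1, O.one_mem, by rw [mul_one]⟩ ?_
  rw [Fin.prod_univ_two]
  simp only [Pi.natCast_apply, Complex.norm_natCast]
  have : (7 : ℝ) ≤ n := by exact_mod_cast hn
  nlinarith

end Crest.Agent.R272.I2_939
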