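import Mathlib

-- ▼ part R272/Per1_370
section

/-!
# LB-PER (row 272), part 1: periodisation and coverings between quotients

* `per` : the sum over the translates of a function supported in a set whose translates are
  locally finite and disjoint (`Sep`); continuity, invariance, values.
* `sep_of_close` : the metric (or any invariant "closeness" relation) form of the hypothesis.
* `isCoveringMap_of_normal`, `isCoveringMap_of_stab` : `Γ` acts on `E`, `N` normal and contains
  all `γ` with `γ U ∩ U ≠ ∅` for a small neighbourhood `U` (e.g. contains all point stabilisers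
  and the action is properly discontinuous): `E / N → E / Γ` is a covering map.
-/

set_option autoImplicit false
set_option linter.unusedSectionVars false
set_option linter.style.haveILetI false

namespace Crest.Agent.R272.Per1_370

open Topology Set

/-! ## Periodisation -/

section Periodise

variable {G Y A : Type*} [Group G] [MulAction G Y]

/-- The translates of `O` are disjoint, locally uniformly: every point has a neighbourhood that
meets at most one translate of `O`. -/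
def Sep (G : Type*) {Y : Type*} [Group G] [MulAction G Y] [TopologicalSpace Y] (O : Set Y) :
    Prop :=
  ∀ y : Y, ∃ W ∈ 𝓝 y, ∀ g h : G, (∃ w ∈ W, g • w ∈ O) → (∃ w ∈ W, h • w ∈ O) → g = h

/-- the periodisation of `t` -/
noncomputable def per (G : Type*) {Y A : Type*} [Group G] [MulAction G Y] [AddCommMonoid A]
    (t : Y → A) (y : Y) : A := ∑ᶠ g : G, t (g • y)

theorem per_smul [AddCommMonoid A] (t : Y → A) (h : G) (y : Y) :
    per G t (h • y) = per G t y := by
  unfold per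
  refine Eq.trans (finsum_congr fun g => ?_)
    (finsum_comp_equiv (Equiv.mulRight h) (f := fun g : G => t (g • y)))
  show t (g • h • y) = t ((g * h) • y)
  rw [mul_smul]

variable [TopologicalSpace Y]

theorem Sep.mono {O O' : Set Y} (h : Sep G O') (hO : O ⊆ O') : Sep G O := fun y => by
  obtain ⟨W, hW, h1⟩ := h y
  exact ⟨W, hW, fun g k ⟨w, hw, hg⟩ ⟨v, hv, hk⟩ => h1 g k ⟨w, hw, hO hg⟩ ⟨v, hv, hO hk⟩⟩

theorem Sep.eq {O : Set Y} (h : Sep G O) {y : Y} {g k : G} (hg : g • y ∈ O) (hk : k • y ∈ O) :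
    g = k := by
  obtain ⟨W, hW, h1⟩ := h y
  exact h1 g k ⟨y, mem_of_mem_nhds hW, hg⟩ ⟨y, mem_of_mem_nhds hW, hk⟩

theorem per_eq [AddCommMonoid A] {O : Set Y} (hO : Sep G O) {t : Y → A}
    (ht : ∀ y ∉ O, t y = 0) {g : G} {y : Y} (hy : g • y ∈ O) : per G t y = t (g • y) := by
  unfold per
  refine finsum_eq_single _ g fun k hk => ht _ fun hk' => hk (hO.eq hk' hy)

theorem per_eq_self [AddCommMonoid A] {O : Set Y} (hO : Sep G O) {t : Y → A}
    (ht : ∀ y ∉ O, t y = 0) {y : Y} (hy : y ∈ O) : per G t y = t y := by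
  have := per_eq (g := (1 : G)) hO ht (y := y) (by rwa [one_smul])
  rwa [one_smul] at this

theorem per_eq_zero [AddCommMonoid A] {O : Set Y} {t : Y → A}
    (ht : ∀ y ∉ O, t y = 0) {y : Y} (hy : ∀ g : G, g • y ∉ O) : per G t y = 0 := by
  unfold per
  exact (finsum_congr fun g => ht _ (hy g)).trans finsum_zero

theorem continuous_per [AddCommMonoid A] [TopologicalSpace A] [ContinuousConstSMul G Y]
    {O : Set Y} (hO : Sep G O) {t : Y → A} (htc : Continuous t) (ht : ∀ y ∉ O, t y = 0) :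
    Continuous (per G t) := by
  rw [continuous_iff_continuousAt]
  intro y
  obtain ⟨W, hW, h1⟩ := hO y
  by_cases hg : ∃ g : G, ∃ w ∈ W, g • w ∈ O
  · obtain ⟨g, hg⟩ := hg
    have key : per G t =ᶠ[𝓝 y] fun w => t (g • w) := by
      filter_upwards [hW] with w hw
      unfold per
      refine finsum_eq_single _ g fun k hk => ht _ fun hk' => hk (h1 k g ⟨w, hw, hk'⟩ hg)
    exact ((htc.comp (continuous_const_smul g)).continuousAt).congr key.symm
  · have key : per G t =ᶠ[𝓝 y] fun _ => 0 := by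
      filter_upwards [hW] with w hw
      exact per_eq_zero ht fun g hgw => hg ⟨g, w, hw, hgw⟩
    exact continuousAt_const.congr key.symm



end Periodise

/-! ## Coverings between quotients -/

section Covering

variable {Γ E W Z : Type*} [Group Γ] [MulAction Γ E] [TopologicalSpace E] [TopologicalSpace W]
  [TopologicalSpace Z] [ContinuousConstSMul Γ E]

/-- the quotient map of an action is open, for any model of the quotient -/
theorem isOpenMap_of_orbit {h : E → W} (hh : IsQuotientMap h)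
    (hhG : ∀ {e₁ e₂}, h e₁ = h e₂ ↔ e₁ ∈ MulAction.orbit Γ e₂) : IsOpenMap h := by
  intro U hU
  rw [← hh.isOpen_preimage]
  have h1 : h ⁻¹' (h '' U) = ⋃ g : Γ, (g • ·) ⁻¹' U := by
    ext e
    simp only [mem_preimage, mem_image, mem_iUnion]
    constructor
    · rintro ⟨u, hu, hue⟩
      obtain ⟨g, hg⟩ := hhG.1 hue
      exact ⟨g, by simpa [hg] using hu⟩
    · rintro ⟨g, hg⟩
      exact ⟨g • e, hg, hhG.2 ⟨g, rfl⟩⟩
  rw [h1]
  exact isOpen_iUnion fun g => hU.preimage (continuous_const_smul g)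

variable (N : Subgroup Γ) [N.Normal] {h : E → W} {f : E → Z} {p : W → Z}

/-- the action of `Γ ⧸ N` on a model `W` of the quotient `E / N` -/
noncomputable def qsmul (hs : Function.Surjective h) (q : Γ ⧸ N) (w : W) : W :=
  h (q.out • Function.surjInv hs w)

theorem qsmul_mk (hs : Function.Surjective h)
    (hhN : ∀ {e₁ e₂}, h e₁ = h e₂ ↔ e₁ ∈ MulAction.orbit N e₂) (g : Γ) (e : E) :
    qsmul N hs (QuotientGroup.mk g) (h e) = h (g • e) := by
  unfold qsmul
  rw [hhN]
  obtain ⟨n, hn⟩ := QuotientGroup.mk_out_eq_mul N g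
  obtain ⟨m, hm⟩ := hhN.1 (Function.surjInv_eq hs (h e))
  rw [hn, ← hm]
  have key : (g * (n : Γ) * (m : Γ) * g⁻¹) ∈ N := by
    have h1 := (inferInstance : N.Normal).conj_mem _ (N.mul_mem n.2 m.2) g
    simpa [mul_assoc] using h1
  refine ⟨⟨_, key⟩, ?_⟩
  show (g * (n : Γ) * (m : Γ) * g⁻¹) • (g • e) = (g * (n : Γ)) • ((m : Γ) • e)
  simp only [smul_smul, inv_mul_cancel_right]

/-- the action of `Γ ⧸ N` on a model `W` of the quotient `E / N` -/
@[implicit_reducible] noncomputable def qaction (hs : Function.Surjective h)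
    (hhN : ∀ {e₁ e₂}, h e₁ = h e₂ ↔ e₁ ∈ MulAction.orbit N e₂) : MulAction (Γ ⧸ N) W where
  smul := qsmul N hs
  one_smul w := by
    obtain ⟨e, rfl⟩ := hs w
    have := qsmul_mk N hs hhN 1 e
    rw [one_smul] at this
    exact this
  mul_smul q r w := by
    obtain ⟨e, rfl⟩ := hs w
    induction q using QuotientGroup.induction_on with | _ q => ?_
    induction r using QuotientGroup.induction_on with | _ r => ?_
    show qsmul N hs (QuotientGroup.mk q * QuotientGroup.mk r) (h e) =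
      qsmul N hs (QuotientGroup.mk q) (qsmul N hs (QuotientGroup.mk r) (h e))
    rw [← QuotientGroup.mk_mul, qsmul_mk N hs hhN, qsmul_mk N hs hhN, qsmul_mk N hs hhN, mul_smul]

/-- **Intermediate quotients.**  `Γ` acts on `E`, `N` is normal, every point of `E` has a
neighbourhood `U` with `γ U ∩ U ≠ ∅ → γ ∈ N`; then `E / N → E / Γ` is the quotient covering map
for the free action of `Γ ⧸ N`. -/
theorem isQuotientCoveringMap_of_normal (hh : IsQuotientMap h) (hf : IsQuotientMap f)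
    (hp : ∀ e, p (h e) = f e)
    (hhN : ∀ {e₁ e₂}, h e₁ = h e₂ ↔ e₁ ∈ MulAction.orbit N e₂)
    (hfG : ∀ {e₁ e₂}, f e₁ = f e₂ ↔ e₁ ∈ MulAction.orbit Γ e₂)
    (disj : ∀ e : E, ∃ U ∈ 𝓝 e, ∀ g : Γ, ((g • ·) '' U ∩ U).Nonempty → g ∈ N) :
    letI := qaction N hh.surjective hhN
    IsQuotientCoveringMap p (Γ ⧸ N) := by
  letI := qaction N hh.surjective hhN
  have hmk : ∀ (g : Γ) (e : E), (QuotientGroup.mk g : Γ ⧸ N) • h e = h (g • e) := fun g e =>
    qsmul_mk N hh.surjective hhN g e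
  have hpf : p ∘ h = f := funext hp
  have hpc : Continuous p := hh.continuous_iff.2 (by rw [hpf]; exact hf.continuous)
  have hpq : IsQuotientMap p := IsQuotientMap.of_comp hh.continuous hpc (by rw [hpf]; exact hf)
  have : ContinuousConstSMul N E := ⟨fun n => continuous_const_smul (n : Γ)⟩
  have hopen : IsOpenMap h := isOpenMap_of_orbit (Γ := N) hh hhN
  refine
    { toIsQuotientMap := hpq
      toContinuousConstSMul := ⟨fun q => ?_⟩
      apply_eq_iff_mem_orbit := fun {w₁ w₂} => ?_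
      disjoint := fun w => ?_ }
  · induction q using QuotientGroup.induction_on with | _ q => ?_
    rw [hh.continuous_iff]
    have : ((fun w : W => (QuotientGroup.mk q : Γ ⧸ N) • w) ∘ h) = h ∘ (q • ·) :=
      funext fun e => hmk q e
    rw [this]
    exact hh.continuous.comp (continuous_const_smul q)
  · obtain ⟨e₁, rfl⟩ := hh.surjective w₁
    obtain ⟨e₂, rfl⟩ := hh.surjective w₂
    rw [hp, hp, hfG]
    constructor
    · rintro ⟨g, hg⟩
      refine ⟨QuotientGroup.mk g, ?_⟩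
      show (QuotientGroup.mk g : Γ ⧸ N) • h e₂ = h e₁
      rw [hmk]
      exact congrArg h hg
    · rintro ⟨q, hq⟩
      induction q using QuotientGroup.induction_on with | _ q => ?_
      have h1 : (QuotientGroup.mk q : Γ ⧸ N) • h e₂ = h e₁ := hq
      rw [hmk] at h1
      obtain ⟨n, hn⟩ := hhN.1 h1.symm
      refine ⟨(n : Γ) * q, ?_⟩
      show ((n : Γ) * q) • e₂ = e₁
      rw [mul_smul]
      exact hn
  · obtain ⟨e, rfl⟩ := hh.surjective w
    obtain ⟨U, hU, hUN⟩ := disj e
    refine ⟨h '' U, hopen.image_mem_nhds hU, fun q => ?_⟩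
    induction q using QuotientGroup.induction_on with | _ q => ?_
    rintro ⟨_, ⟨_, ⟨u, hu, rfl⟩, rfl⟩, v, hv, huv⟩
    have h1 : h v = h (q • u) := huv.trans (hmk q u)
    obtain ⟨n, hn⟩ := hhN.1 h1
    have h2 : ((n : Γ) * q) • u = v := by rw [mul_smul]; exact hn
    have h3 : ((n : Γ) * q) ∈ N := hUN _ ⟨v, ⟨u, hu, h2⟩, hv⟩
    have h4 : q ∈ N := (N.mul_mem_cancel_left n.2).1 h3
    exact (QuotientGroup.eq_one_iff q).2 h4

/-- **Intermediate quotients are coverings** (local form). -/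
theorem isCoveringMap_of_normal (hh : IsQuotientMap h) (hf : IsQuotientMap f)
    (hp : ∀ e, p (h e) = f e)
    (hhN : ∀ {e₁ e₂}, h e₁ = h e₂ ↔ e₁ ∈ MulAction.orbit N e₂)
    (hfG : ∀ {e₁ e₂}, f e₁ = f e₂ ↔ e₁ ∈ MulAction.orbit Γ e₂)
    (disj : ∀ e : E, ∃ U ∈ 𝓝 e, ∀ g : Γ, ((g • ·) '' U ∩ U).Nonempty → g ∈ N) :
    IsCoveringMap p :=
  letI := qaction N hh.surjective hhN
  (isQuotientCoveringMap_of_normal N hh hf hp hhN hfG disj).isCoveringMap


end Covering

section Literal

variable {Γ E : Type*} [Group Γ] [MulAction Γ E] [TopologicalSpace E] [ContinuousConstSMul Γ E]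

/-- the literal map `E / N → E / Γ` -/
def proj (N : Subgroup Γ) :
    MulAction.orbitRel.Quotient N E → MulAction.orbitRel.Quotient Γ E :=
  Quotient.map' id fun _ _ ⟨n, hn⟩ => ⟨(n : Γ), hn⟩

@[simp] theorem proj_mk (N : Subgroup Γ) (e : E) :
    proj N (Quotient.mk'' e) = (Quotient.mk'' e : MulAction.orbitRel.Quotient Γ E) := rfl



end Literal

end Crest.Agent.R272.Per1_370
end

-- ▼ part R272/LbExt1_259

/-!
# LB-EXT (row 272), part 1: pulled back coverings and quotients

* `PB q π` : the pull back of `q : N' → N` along `π : Y → N`;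
  `isCoveringMap_fst` : it is a covering of `Y` if `q` is a covering and `π` is continuous.
* `PB.map`, `PB.mapHomeo` : functoriality.
* `quotHomeo` : `E → B` equivariant, `R` contains the stabilisers (in `B`) and is normal:
  `E / R ≃ₜ (E / G) ×_{B/G} (B / R)`.
* `exists_onPB` : hence an `R`-invariant continuous function on `E` is a continuous function on the
  pulled back covering of `E / G`.
-/

set_option autoImplicit false
set_option linter.unusedSectionVars false

namespace Crest.Agent.R272.LbExt_259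

open Topology Set

section PullBack

variable {Y Z N N' : Type*}

/-- the pull back of `q : N' → N` along `π : Y → N` -/
abbrev PB (q : N' → N) (π : Y → N) := {p : Y × N' // π p.1 = q p.2}

/-- the projection to `Y` -/
def pbFst (q : N' → N) (π : Y → N) (p : PB q π) : Y := p.1.1

/-- the projection to `N'` -/
def pbSnd (q : N' → N) (π : Y → N) (p : PB q π) : N' := p.1.2


variable [TopologicalSpace Y] [TopologicalSpace Z] [TopologicalSpace N] [TopologicalSpace N']
variable {q : N' → N} {π : Y → N} {π' : Z → N}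

theorem continuous_pbFst : Continuous (pbFst q π) := continuous_fst.comp continuous_subtype_val

theorem continuous_pbSnd : Continuous (pbSnd q π) := continuous_snd.comp continuous_subtype_val


/-- **(P1)** the pull back of a covering is a covering -/
theorem isCoveringMap_fst (hq : IsCoveringMap q) (hπ : Continuous π) :
    IsCoveringMap (pbFst q π) := by
  intro y
  refine IsEvenlyCovered.to_isEvenlyCovered_preimage (I := q ⁻¹' {π y}) ?_
  obtain ⟨hd, U, hxU, hU, hqU, H, hH⟩ := hq (π y)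
  refine ⟨hd, π ⁻¹' U, hxU, hU.preimage hπ, (hU.preimage hπ).preimage continuous_pbFst, ?_⟩
  have hmem : ∀ p : pbFst q π ⁻¹' (π ⁻¹' U), p.1.1.2 ∈ q ⁻¹' U := fun p => by
    show q p.1.1.2 ∈ U
    rw [← p.1.2]; exact p.2
  have hmem2 : ∀ a : (π ⁻¹' U : Set Y) × (q ⁻¹' {π y} : Set N'),
      π a.1.1 = q (H.symm (⟨π a.1.1, a.1.2⟩, a.2)).1 := fun a => by
    rw [← hH, H.apply_symm_apply]
  refine ⟨{
    toFun := fun p => (⟨p.1.1.1, p.2⟩, (H ⟨p.1.1.2, hmem p⟩).2)
    invFun := fun a => ⟨⟨(a.1.1, (H.symm (⟨π a.1.1, a.1.2⟩, a.2)).1), hmem2 a⟩, a.1.2⟩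
    left_inv := ?_
    right_inv := ?_
    continuous_toFun := ?_
    continuous_invFun := ?_ }, fun p => rfl⟩
  · intro p
    have h1 : H.symm (⟨π p.1.1.1, p.2⟩, (H ⟨p.1.1.2, hmem p⟩).2) = ⟨p.1.1.2, hmem p⟩ := by
      rw [H.symm_apply_eq]
      refine Prod.ext (Subtype.ext ?_) rfl
      show π p.1.1.1 = (H ⟨p.1.1.2, hmem p⟩).1.1
      rw [hH]; exact p.1.2
    refine Subtype.ext (Subtype.ext (Prod.ext rfl ?_))
    show (H.symm (⟨π p.1.1.1, p.2⟩, (H ⟨p.1.1.2, hmem p⟩).2)).1 = p.1.1.2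
    rw [h1]
  · rintro ⟨⟨a, ha⟩, i⟩
    refine Prod.ext (Subtype.ext rfl) ?_
    show (H ⟨(H.symm (⟨π a, ha⟩, i)).1, _⟩).2 = i
    have h2 : (⟨(H.symm (⟨π a, ha⟩, i)).1, (H.symm (⟨π a, ha⟩, i)).2⟩ : q ⁻¹' U) =
        H.symm (⟨π a, ha⟩, i) := rfl
    rw [h2, H.apply_symm_apply]
  · refine Continuous.prodMk ?_ ?_
    · exact (continuous_pbFst.comp continuous_subtype_val).subtype_mk _
    · exact continuous_snd.comp (H.continuous.comp
        ((continuous_pbSnd.comp continuous_subtype_val).subtype_mk _))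
  · refine Continuous.subtype_mk (Continuous.subtype_mk (Continuous.prodMk ?_ ?_) _) _
    · exact continuous_subtype_val.comp continuous_fst
    · refine continuous_subtype_val.comp (H.symm.continuous.comp (Continuous.prodMk ?_
        continuous_snd))
      exact (hπ.comp (continuous_subtype_val.comp continuous_fst)).subtype_mk _



end PullBack

section Quot

variable {G E B X Z W A : Type*} [Group G] [TopologicalSpace E] [TopologicalSpace B]
  [TopologicalSpace X] [TopologicalSpace Z] [TopologicalSpace W] [TopologicalSpace A]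
  [MulAction G E] [MulAction G B]

/-- the data of **(P2)**: `G` acts on `E` and `B`, `β : E → B` is equivariant, `f : E → X` is (a
model of) the quotient by `G`, `k : B → Z` is (a model of) the quotient by `G` and `h : B → W` is
(a model of) the quotient by the subgroup `R`; `p : W → Z` and `π : X → Z` are the induced maps;
`R` contains all elements which nearly stabilise a point of `B`. -/
structure QData (R : Subgroup G) (β : E → B) (f : E → X) (k : B → Z) (h : B → W) (p : W → Z)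
    (π : X → Z) : Prop where
  βc : Continuous β
  βG : ∀ (g : G) (e : E), β (g • e) = g • β e
  fq : IsQuotientMap f
  fo : IsOpenMap f
  fG : ∀ e₁ e₂, f e₁ = f e₂ ↔ ∃ g : G, g • e₂ = e₁
  kG : ∀ b₁ b₂, k b₁ = k b₂ ↔ ∃ g : G, g • b₂ = b₁
  hs : Function.Surjective h
  hc : Continuous h
  ho : IsOpenMap h
  hR : ∀ b₁ b₂, h b₁ = h b₂ ↔ ∃ g ∈ R, g • b₂ = b₁
  pc : IsCoveringMap p
  ph : ∀ b, p (h b) = k b
  πc : Continuous π
  πf : ∀ e, π (f e) = k (β e)
  disj : ∀ b : B, ∃ U ∈ 𝓝 b, ∀ g : G, ∀ u ∈ U, g • u ∈ U → g ∈ R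

variable {R : Subgroup G} {β : E → B} {f : E → X} {k : B → Z} {h : B → W} {p : W → Z} {π : X → Z}

namespace QData

variable (D : QData R β f k h p π)


/-- the map from `E` to the pulled back covering -/
def psi (e : E) : PB p π := ⟨(f e, h (β e)), by
  show π (f e) = p (h (β e))
  rw [D.πf, D.ph]⟩



theorem continuous_psi : Continuous D.psi :=
  (D.fq.continuous.prodMk (D.hc.comp D.βc)).subtype_mk _

theorem surjective_psi : Function.Surjective D.psi := by
  rintro ⟨⟨x, w⟩, hxw⟩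
  obtain ⟨e, rfl⟩ := D.fq.surjective x
  obtain ⟨b, rfl⟩ := D.hs w
  have h1 : k b = k (β e) := by
    rw [← D.πf, ← D.ph]; exact hxw.symm
  obtain ⟨g, hg⟩ := (D.kG _ _).1 h1
  refine ⟨g • e, Subtype.ext (Prod.ext ?_ ?_)⟩
  · exact (D.fG _ _).2 ⟨g, rfl⟩
  · show h (β (g • e)) = h b
    rw [D.βG, hg]

theorem isOpenMap_psi : IsOpenMap D.psi := by
  intro U hU
  rw [isOpen_iff_mem_nhds]
  rintro _ ⟨e, he, rfl⟩
  obtain ⟨V, hV, hVR⟩ := D.disj (β e)
  obtain ⟨V', hV'V, hV'o, hV'e⟩ := mem_nhds_iff.1 hV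
  have hO : IsOpen (pbFst p π ⁻¹' (f '' (U ∩ β ⁻¹' V')) ∩ pbSnd p π ⁻¹' (h '' V')) :=
    ((D.fo _ (hU.inter (hV'o.preimage D.βc))).preimage continuous_pbFst).inter
      ((D.ho _ hV'o).preimage continuous_pbSnd)
  refine Filter.mem_of_superset (hO.mem_nhds ⟨⟨e, ⟨he, hV'e⟩, rfl⟩, ⟨β e, hV'e, rfl⟩⟩) ?_
  rintro ⟨⟨x, w⟩, hxw⟩ ⟨⟨u, ⟨huU, huV⟩, hux⟩, ⟨v, hv, hvw⟩⟩
  have hux' : f u = x := hux
  have hvw' : h v = w := hvw
  subst hux' hvw'
  have h1 : k v = k (β u) := by
    rw [← D.πf, ← D.ph]; exact hxw.symm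
  obtain ⟨g, hg⟩ := (D.kG _ _).1 h1
  have h2 : g ∈ R := hVR g (β u) (hV'V huV) (by rw [hg]; exact hV'V hv)
  refine ⟨u, huU, Subtype.ext (Prod.ext rfl ?_)⟩
  exact ((D.hR _ _).2 ⟨g, h2, hg⟩).symm

theorem isQuotientMap_psi : IsQuotientMap D.psi :=
  D.isOpenMap_psi.isQuotientMap D.continuous_psi D.surjective_psi

/-- **the pulled back covering is `E / R`** -/
theorem psi_eq_iff (e₁ e₂ : E) : D.psi e₁ = D.psi e₂ ↔ ∃ g ∈ R, g • e₂ = e₁ := by
  constructor
  · intro hh
    have h1 : f e₁ = f e₂ := congrArg (pbFst p π) hh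
    have h2 : h (β e₁) = h (β e₂) := congrArg (pbSnd p π) hh
    obtain ⟨g, hg⟩ := (D.fG _ _).1 h1
    obtain ⟨r, hr, hre⟩ := (D.hR _ _).1 h2
    rw [← hg, D.βG] at hre
    obtain ⟨V, hV, hVR⟩ := D.disj (β e₂)
    have h3 : (r⁻¹ * g) • β e₂ = β e₂ := by
      rw [mul_smul, ← hre, inv_smul_smul]
    have h4 : r⁻¹ * g ∈ R := hVR _ (β e₂) (mem_of_mem_nhds hV) (by
      rw [h3]; exact mem_of_mem_nhds hV)
    exact ⟨g, (R.mul_mem_cancel_left (R.inv_mem hr)).1 h4, hg⟩
  · rintro ⟨g, hg, rfl⟩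
    refine Subtype.ext (Prod.ext ((D.fG _ _).2 ⟨g, rfl⟩) ?_)
    show h (β (g • e₂)) = h (β e₂)
    rw [D.βG]
    exact (D.hR _ _).2 ⟨g, hg, rfl⟩

/-- **(P2)** an `R`-invariant continuous function on `E` is a continuous function on the covering -/
theorem exists_fun {θ : E → A} (hθ : Continuous θ) (hθR : ∀ g ∈ R, ∀ e, θ (g • e) = θ e) :
    ∃ Θ : PB p π → A, Continuous Θ ∧ ∀ e, Θ (D.psi e) = θ e := by
  obtain ⟨s, hs⟩ : ∃ s : PB p π → E, ∀ q, D.psi (s q) = q := D.surjective_psi.hasRightInverse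
  have key : ∀ e, θ (s (D.psi e)) = θ e := by
    intro e
    obtain ⟨g, hg, he⟩ := (D.psi_eq_iff _ _).1 (hs (D.psi e))
    rw [← he, hθR g hg]
  refine ⟨θ ∘ s, ?_, key⟩
  rw [D.isQuotientMap_psi.continuous_iff]
  convert hθ using 1
  funext e
  exact key e

end QData

open Per1_370 in
/-- the data of **(P2)** from the hypotheses of `Per1_370.isCoveringMap_of_normal` -/
theorem QData.of_normal [ContinuousConstSMul G E] [ContinuousConstSMul G B] [R.Normal]
    (βc : Continuous β) (βG : ∀ (g : G) (e : E), β (g • e) = g • β e)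
    (hf : IsQuotientMap f) (hk : IsQuotientMap k) (hh : IsQuotientMap h)
    (ph : ∀ b, p (h b) = k b) (πf : ∀ e, π (f e) = k (β e))
    (fG : ∀ {e₁ e₂}, f e₁ = f e₂ ↔ e₁ ∈ MulAction.orbit G e₂)
    (kG : ∀ {b₁ b₂}, k b₁ = k b₂ ↔ b₁ ∈ MulAction.orbit G b₂)
    (hR : ∀ {b₁ b₂}, h b₁ = h b₂ ↔ b₁ ∈ MulAction.orbit R b₂)
    (disj : ∀ b : B, ∃ U ∈ 𝓝 b, ∀ g : G, ((g • ·) '' U ∩ U).Nonempty → g ∈ R) :
    QData R β f k h p π := by
  have hRc : ContinuousConstSMul R B := ⟨fun n => continuous_const_smul (n : G)⟩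
  refine ⟨βc, βG, hf, isOpenMap_of_orbit (Γ := G) hf fG, fun e₁ e₂ => fG, fun b₁ b₂ => kG,
    hh.surjective, hh.continuous, isOpenMap_of_orbit (Γ := R) hh hR, fun b₁ b₂ => ?_,
    isCoveringMap_of_normal R hh hk ph hR kG disj, ph, ?_, πf, fun b => ?_⟩
  · rw [hR]
    constructor
    · rintro ⟨r, hr⟩; exact ⟨r, r.2, hr⟩
    · rintro ⟨g, hg, hr⟩; exact ⟨⟨g, hg⟩, hr⟩
  · rw [hf.continuous_iff]
    exact (hk.continuous.comp βc).congr fun e => (πf e).symm
  · obtain ⟨U, hU, h1⟩ := disj b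
    exact ⟨U, hU, fun g u hu hgu => h1 g ⟨g • u, ⟨u, hu, rfl⟩, hgu⟩⟩

open Per1_370 in
/-- the data of **(P2)** for a properly discontinuous action on `B`, `R` normal containing all
stabilisers of points of `B` -/
theorem QData.of_stab [ContinuousConstSMul G E] [ContinuousConstSMul G B] [R.Normal]
    [ProperlyDiscontinuousSMul G B] [LocallyCompactSpace B] [T2Space B]
    (βc : Continuous β) (βG : ∀ (g : G) (e : E), β (g • e) = g • β e)
    (hf : IsQuotientMap f) (hk : IsQuotientMap k) (hh : IsQuotientMap h)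
    (ph : ∀ b, p (h b) = k b) (πf : ∀ e, π (f e) = k (β e))
    (fG : ∀ {e₁ e₂}, f e₁ = f e₂ ↔ e₁ ∈ MulAction.orbit G e₂)
    (kG : ∀ {b₁ b₂}, k b₁ = k b₂ ↔ b₁ ∈ MulAction.orbit G b₂)
    (hR : ∀ {b₁ b₂}, h b₁ = h b₂ ↔ b₁ ∈ MulAction.orbit R b₂)
    (hstab : ∀ (b : B) (g : G), g • b = b → g ∈ R) : QData R β f k h p π :=
  QData.of_normal βc βG hf hk hh ph πf fG kG hR fun b => by
    obtain ⟨U, hU, h1⟩ := ProperlyDiscontinuousSMul.exists_nhds_image_smul_eq_self G b
    exact ⟨U, hU, fun g hg => hstab b g (h1 g hg)⟩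

end Quot

end Crest.Agent.R272.LbExt_259
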