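import Crest.Agent.R272.Gi1_295
import Crest.Agent.R272.I2d_939_Mg
import Crest.Agent.R272.GInG2_502
import Crest.Agent.R272.Act1_302
import Crest.Agent.R272.GLoc5_620
import Crest.Agent.R272.AROut_641
import Crest.Agent.R272.Gr5_559
import Crest.Agent.R272.P0a_939
import Crest.Agent.R272.Ref1_246
import Crest.Agent.R272.MQ5_783

-- ▼ part R272/Gi2_295
section

set_option autoImplicit false
set_option linter.unusedSectionVars false
set_option linter.unusedVariables false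

open scoped ComplexConjugate
open Matrix

namespace Crest.Agent.R272.Gi_295

open Crest.Agent.R272.EBase_641 Crest.Agent.R272.In_68 Crest.Agent.R272.GInG_502
open Crest.Agent.R272.O5_74

noncomputable section

variable {O : Subring (Fin 2 → ℂ)} {z : Fin 2 → ℂ}

theorem natCast_mem' (O : Subring (Fin 2 → ℂ)) (n : ℕ) : ((n : ℕ) : Fin 2 → ℂ) ∈ O := by
  simp

/-- all gap hypotheses for a natural number -/
theorem deep_nat (h : Cls_620.Z5 O z) {n : ℕ} {K : ℝ} (hn : 6 * (K + 4) < (n : ℝ) ^ 2) :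
    Cls_620.Deep O z (n : Fin 2 → ℂ) K := by
  refine Cls_620.deep_of h O.one_mem (by rw [star_natCast, mul_one]) ?_
  rw [Fin.prod_univ_two]
  simp only [Pi.natCast_apply, Complex.norm_natCast]
  nlinarith

theorem big_nat (h : Cls_620.Z5 O z) {n : ℕ} (hn : 9 ≤ n) :
    (64 : ℝ) < ∏ t, ‖(Cls_620.pz z * (n : Fin 2 → ℂ)) t‖ := by
  have h1 : (1 : ℝ) ≤ ∏ t, ‖Cls_620.pz z t‖ :=
    h.ord.norm_ge _ h.pz_mem (fun h0 => h.pz_ne 0 (by rw [h0]; rfl))
  have h2 : ∏ t, ‖(Cls_620.pz z * (n : Fin 2 → ℂ)) t‖ = (∏ t, ‖Cls_620.pz z t‖) * (n : ℝ) ^ 2 := by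
    rw [Fin.prod_univ_two, Fin.prod_univ_two]
    simp only [Pi.mul_apply, norm_mul, Pi.natCast_apply, Complex.norm_natCast]
    ring
  rw [h2]
  have h3 : (9 : ℝ) ≤ n := by exact_mod_cast hn
  nlinarith

/-- **the level**: for every even `n ≥ 9` there is a group `K` with all the root functions. -/
theorem exists_kd (h : Z5r O z) {n : ℕ} (hn : 9 ≤ n) (h2 : 2 ∣ n) (k : ℕ) (hk : 0 < k)
    (K0 : Subgroup (GU O z)) (hK0 : K0.FiniteIndex) :
    ∃ K : Subgroup (GU O z), KD h (n : Fin 2 → ℂ) K ∧ K ≤ K0 ∧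
      ∀ a : Cls_620.Lb, Nonempty (Root 3 k ((rho h).comp K.subtype)
        (Cls_620.SS h (n : Fin 2 → ℂ) a)) := by
  obtain ⟨K, k1, k2, k3, k4, k5⟩ := AROut_641.arOut h
    (I2_939.lvl_nat h.toZ5 (by omega : 7 ≤ n)) k hk K0 hK0
  refine ⟨K, ⟨natCast_mem' O n, big_nat h.toZ5 hn, ?_, k1, k2, fun g hg => k4 hg⟩, k3, k5⟩
  obtain ⟨c, rfl⟩ := h2
  exact ⟨(c : Fin 2 → ℂ), natCast_mem' O c, by push_cast; rfl⟩

end

end Crest.Agent.R272.Gi_295
end

-- ▼ part R272/GInG3_502
section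

/-!
Row 272, GINST (helper502), part 3: the literal `GAct` (302) of `Gh` on 620's `gdata`, and
`RA (ballFam ρ̂) Gh` (783), for roots `R0 a` over a normal subgroup `K` of `GU O z`.
-/

set_option autoImplicit false
set_option linter.unusedSectionVars false
set_option linter.unusedVariables false

open scoped ComplexConjugate Topology
open Filter Matrix Set

namespace Crest.Agent.R272.GInG_502

open Crest.Agent.R272.EBase_641 Crest.Agent.R272.In_68 Crest.Agent.R272.O5_74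
open Crest.Agent.R272.Quot_783 Crest.Agent.R272.MQ_783 Crest.Agent.R272.GI_620
open Crest.Agent.R272.Act_302
open Crest.Agent.R272.Gi_295 (rhG KD)
open Crest.Agent.R272.Cls_620 (Lb SS VV sw Mir rf HH pz Deep)
open Crest.Agent.R272.Gr_559 (GData)

noncomputable section

/-! ### the permutation of the colours -/

section perm

variable {Γ : Type} [Group Γ] {K : Subgroup Γ} {s : Γ} (D : SwD K s)

open Classical in
/-- permutation of the two colours -/
def sgF (K : Subgroup Γ) (g : Γ) : Equiv.Perm (Fin 2) := if g ∈ K then 1 else Equiv.swap 0 1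

theorem col_inj {i j : Fin 2} (h : col i = col j) : i = j := by
  revert i j; decide

theorem col_sgF (g : Γ) (i : Fin 2) : col (sgF K g i) = sgn K g (col i) := by
  by_cases h : g ∈ K
  · rw [sgn_of_mem h, sgF, if_pos h]; rfl
  · rw [sgn_of_not h, sgF, if_neg h]
    revert i; decide

/-- the permutation of the colours, as a homomorphism -/
def sgH : D.Gh →* Equiv.Perm (Fin 2) where
  toFun g := sgF K g.1
  map_one' := by
    rw [sgF, if_pos]
    exact K.one_mem
  map_mul' g h := by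
    refine Equiv.ext fun i => col_inj ?_
    rw [Equiv.Perm.mul_apply, col_sgF, col_sgF, col_sgF]
    exact D.sgn_mul g.2 h.2 _

theorem col_sgH (g : D.Gh) (i : Fin 2) : col (sgH D g i) = sgn K g.1 (col i) := col_sgF g.1 i

theorem sgH_of_mem {g : D.Gh} (h : g.1 ∈ K) : sgH D g = 1 := if_pos h

theorem sgH_of_not {g : D.Gh} (h : g.1 ∉ K) : sgH D g = Equiv.swap 0 1 := if_neg h

end perm

/-! ### the roots -/

/-- a root structure with another name of the class -/
def rootCast {n k : ℕ} {G : Type} [Group G] {ρ : G →* UG n} {S S' : Set (V1 n)} (e : S = S')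
    (R : Root n k ρ S) : Root n k ρ S' where
  f := R.f
  j := R.j
  f_hol := R.f_hol
  fin := by subst e; exact R.fin
  f_div := by subst e; exact R.f_div
  j_hol := R.j_hol
  j_ne := R.j_ne
  j_mul := R.j_mul
  f_act := R.f_act

theorem rootCast_f {n k : ℕ} {G : Type} [Group G] {ρ : G →* UG n} {S S' : Set (V1 n)} (e : S = S')
    (R : Root n k ρ S) : (rootCast e R).f = R.f := rfl

variable {O : Subring (Fin 2 → ℂ)} {z μ : Fin 2 → ℂ} (h : Z5r O z) {K : Subgroup (GU O z)}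
  (D : SwD K (swG h)) (R0 : ∀ a : Lb, Root 3 2 ((rho h).comp K.subtype) (SS h μ a))

theorem SSn (μ : Fin 2 → ℂ) : {v | (rho h (swG h)).1 v ∈ SS h μ (.n false)} = SS h μ (.n true) :=
  SS_sw_eq h (.n false)

theorem SSv (μ : Fin 2 → ℂ) (j : Fin 5) :
    {v | (rho h (swG h)).1 v ∈ SS h μ (.v false j)} = SS h μ (.v true j) :=
  SS_sw_eq h (.v false j)

theorem SSb (μ : Fin 2 → ℂ) (j : Fin 5) :
    {v | (rho h (swG h)).1 v ∈ SS h μ (.b false j)} = SS h μ (.b true j) :=
  SS_sw_eq h (.b false j)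

/-- **the roots**: colour `true` is the conjugate of colour `false` -/
def RR : ∀ a : Lb, Root 3 2 ((rho h).comp K.subtype) (SS h μ a)
  | .o => R0 .o
  | .n false => R0 (.n false)
  | .n true => rootCast (SSn h μ) (rootConj D (R0 (.n false)))
  | .v false j => R0 (.v false j)
  | .v true j => rootCast (SSv h μ j) (rootConj D (R0 (.v false j)))
  | .b false j => R0 (.b false j)
  | .b true j => rootCast (SSb h μ j) (rootConj D (R0 (.b false j)))

theorem RR_n (b : Bool) {q : E 3} (hq : q ∈ Ball 3) :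
    (RR h D R0 (.n b)).f q = FF D (R0 (.n false)) b q := by
  cases b
  · exact (FF_false D (R0 (.n false))).symm
  · exact congrFun (rootCast_f (SSn h μ) (rootConj D (R0 (.n false)))) q

theorem RR_v (j : Fin 5) (b : Bool) {q : E 3} (hq : q ∈ Ball 3) :
    (RR h D R0 (.v b j)).f q = FF D (R0 (.v false j)) b q := by
  cases b
  · exact (FF_false D (R0 (.v false j))).symm
  · exact congrFun (rootCast_f (SSv h μ j) (rootConj D (R0 (.v false j)))) q

theorem RR_b (j : Fin 5) (b : Bool) {q : E 3} (hq : q ∈ Ball 3) :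
    (RR h D R0 (.b b j)).f q = FF D (R0 (.b false j)) b q := by
  cases b
  · exact (FF_false D (R0 (.b false j))).symm
  · exact congrFun (rootCast_f (SSb h μ j) (rootConj D (R0 (.b false j)))) q


variable (hK : ∀ g ∈ K, (g : Mtˣ) ∈ GC O z (pz z * μ))

/-- `holF` of a function on the ball -/
theorem holF_ball {Γ : Type} [Group Γ] (ρ' : Γ →* UG 3) {u : E 3 → ℂ}
    (hu : DifferentiableOn ℂ u (Ball 3)) : HolF (ballFam ρ') univ (fun x : BX ρ' => u x.val) :=
  holF_of ρ' fun x _ => (hu _ x.mem).differentiableAt (ball_nhds x.mem)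

theorem alg5 (a b c d e A B C D' E' : ℂ) :
    (a ^ 2 * A) * (b ^ 2 * B) * (c ^ 2 * C) * ((d ^ 2 * D') * (e ^ 2 * E')) =
      (a * b * c * (d * e)) ^ 2 * (A * B * C * (D' * E')) := by ring

theorem alg4 (a b c d A B C D' : ℂ) :
    (a ^ 2 * A) * (b ^ 2 * B) * (c ^ 2 * C) * (d ^ 2 * D') =
      (a * b * c * d) ^ 2 * (A * B * C * D') := by ring

theorem alg5' (a b c d e A B C D' E' : ℂ) :
    (a * A) * (b * B) * (c * C) * ((d * D') * (e * E')) =
      (a * b * c * (d * e)) * (A * B * C * (D' * E')) := by ring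

theorem alg4' (a b c d A B C D' : ℂ) :
    (a * A) * (b * B) * (c * C) * (d * D') = (a * b * c * d) * (A * B * C * D') := by ring

theorem alg2 (a A : ℂ) : (a * A) ^ 2 = a ^ 2 * A ^ 2 := by ring

/-- the factors of the four functions -/
def fx (g : D.Gh) (b : Bool) (q : E 3) : ℂ := JJ D (R0 (.v false 0)) g b q ^ 2

def fp (g : D.Gh) (b : Bool) (q : E 3) : ℂ :=
  JJ D (R0 (.v false 1)) g b q * JJ D (R0 (.v false 2)) g b q * JJ D (R0 (.n false)) g b q *
    (JJ D (R0 (.b false 1)) g b q * JJ D (R0 (.b false 2)) g b q)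

def fq (g : D.Gh) (b : Bool) (q : E 3) : ℂ :=
  JJ D (R0 (.v false 3)) g b q * JJ D (R0 (.v false 4)) g b q * JJ D (R0 (.v false 0)) g b q *
    JJ D (R0 (.b false 4)) g b q

theorem sv_act (j : Fin 5) (g : D.Gh) (b : Bool) {q : E 3} (hq : q ∈ Ball 3) :
    (RR h D R0 (.v (sgn K g.1 b) j)).f (act (rho h g.1) q) =
      JJ D (R0 (.v false j)) g b q ^ 2 * (RR h D R0 (.v b j)).f q := by
  rw [RR_v h D R0 j _ (act_mem _ hq), RR_v h D R0 j _ hq]
  exact FF_act D (R0 (.v false j)) g b hq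

theorem sn_act (g : D.Gh) (b : Bool) {q : E 3} (hq : q ∈ Ball 3) :
    (RR h D R0 (.n (sgn K g.1 b))).f (act (rho h g.1) q) =
      JJ D (R0 (.n false)) g b q ^ 2 * (RR h D R0 (.n b)).f q := by
  rw [RR_n h D R0 _ (act_mem _ hq), RR_n h D R0 _ hq]
  exact FF_act D (R0 (.n false)) g b hq

theorem sb_act (j : Fin 5) (g : D.Gh) (b : Bool) {q : E 3} (hq : q ∈ Ball 3) :
    (RR h D R0 (.b (sgn K g.1 b) j)).f (act (rho h g.1) q) =
      JJ D (R0 (.b false j)) g b q ^ 2 * (RR h D R0 (.b b j)).f q := by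
  rw [RR_b h D R0 j _ (act_mem _ hq), RR_b h D R0 j _ hq]
  exact FF_act D (R0 (.b false j)) g b hq

theorem FP_act (g : D.Gh) (b : Bool) {q : E 3} (hq : q ∈ Ball 3) :
    FP h (RR h D R0) (sgn K g.1 b) (act (rho h g.1) q) =
      fp h D R0 g b q ^ 2 * FP h (RR h D R0) b q := by
  unfold FP fp
  rw [sv_act h D R0 1 g b hq, sv_act h D R0 2 g b hq, sn_act h D R0 g b hq,
    sb_act h D R0 1 g b hq, sb_act h D R0 2 g b hq]
  exact alg5 _ _ _ _ _ _ _ _ _ _

theorem FQ_act (g : D.Gh) (b : Bool) {q : E 3} (hq : q ∈ Ball 3) :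
    FQ h (RR h D R0) (sgn K g.1 b) (act (rho h g.1) q) =
      fq h D R0 g b q ^ 2 * FQ h (RR h D R0) b q := by
  unfold FQ fq
  rw [sv_act h D R0 3 g b hq, sv_act h D R0 4 g b hq, sv_act h D R0 0 g b hq,
    sb_act h D R0 4 g b hq]
  exact alg4 _ _ _ _ _ _ _ _

theorem fx_mul (g g' : D.Gh) (b : Bool) {q : E 3} (hq : q ∈ Ball 3) :
    fx h D R0 (g * g') b q =
      fx h D R0 g (sgn K g'.1 b) (act (rho h g'.1) q) * fx h D R0 g' b q := by
  unfold fx
  rw [JJ_mul D _ g g' _ hq]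
  exact alg2 _ _

theorem fp_mul (g g' : D.Gh) (b : Bool) {q : E 3} (hq : q ∈ Ball 3) :
    fp h D R0 (g * g') b q =
      fp h D R0 g (sgn K g'.1 b) (act (rho h g'.1) q) * fp h D R0 g' b q := by
  unfold fp
  rw [JJ_mul D (R0 (.v false 1)) g g' _ hq, JJ_mul D (R0 (.v false 2)) g g' _ hq,
    JJ_mul D (R0 (.n false)) g g' _ hq, JJ_mul D (R0 (.b false 1)) g g' _ hq,
    JJ_mul D (R0 (.b false 2)) g g' _ hq]
  exact alg5' _ _ _ _ _ _ _ _ _ _

theorem fq_mul (g g' : D.Gh) (b : Bool) {q : E 3} (hq : q ∈ Ball 3) :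
    fq h D R0 (g * g') b q =
      fq h D R0 g (sgn K g'.1 b) (act (rho h g'.1) q) * fq h D R0 g' b q := by
  unfold fq
  rw [JJ_mul D (R0 (.v false 3)) g g' _ hq, JJ_mul D (R0 (.v false 4)) g g' _ hq,
    JJ_mul D (R0 (.v false 0)) g g' _ hq, JJ_mul D (R0 (.b false 4)) g g' _ hq]
  exact alg4' _ _ _ _ _ _ _ _

theorem SSo_ne : ∀ v ∈ SS h μ .o, v.1 ≠ 0 := fun _ hv => SS_ne h hv

/-- **the action data** of `Gh` on 620's `gdata` -/
def gact (hμ : μ ∈ O) (hD : Deep O z μ 2) :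
    GAct (gdata h (RR h D R0) (rhG h D) hμ hD) D.Gh where
  σ := sgH D
  j0 g x := J0 D (R0 .o) (SSo_ne h) (Gh_SS h D hK) g x.val
  j g i x := fx h D R0 g (col i) x.val
  p g i x := fp h D R0 g (col i) x.val
  q g i x := fq h D R0 g (col i) x.val
  hol g := holC_smul _ g
  j0_hol g := holF_ball _ (J0_hol D (R0 .o) (SSo_ne h) (Gh_SS h D hK) g)
  j_hol g i := holF_ball _ ((JJ_hol D _ g _).pow 2)
  p_hol g i := holF_ball _ ((((JJ_hol D _ g _).mul (JJ_hol D _ g _)).mul (JJ_hol D _ g _)).mul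
    ((JJ_hol D _ g _).mul (JJ_hol D _ g _)))
  q_hol g i := holF_ball _ ((((JJ_hol D _ g _).mul (JJ_hol D _ g _)).mul (JJ_hol D _ g _)).mul
    (JJ_hol D _ g _))
  j0_ne g x := J0_ne D (R0 .o) (SSo_ne h) (Gh_SS h D hK) g x.mem
  j_ne g i x := pow_ne_zero _ (JJ_ne D _ g _ x.mem)
  p_ne g i x := mul_ne_zero (mul_ne_zero (mul_ne_zero (JJ_ne D _ g _ x.mem) (JJ_ne D _ g _ x.mem))
    (JJ_ne D _ g _ x.mem)) (mul_ne_zero (JJ_ne D _ g _ x.mem) (JJ_ne D _ g _ x.mem))
  q_ne g i x := mul_ne_zero (mul_ne_zero (mul_ne_zero (JJ_ne D _ g _ x.mem) (JJ_ne D _ g _ x.mem))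
    (JJ_ne D _ g _ x.mem)) (JJ_ne D _ g _ x.mem)
  f0_smul g x := J0_act D (R0 .o) (SSo_ne h) (Gh_SS h D hK) g x.mem
  x_smul g i x := by
    have e := sv_act h D R0 0 g (col i) x.mem
    rw [← col_sgH D g i] at e
    exact e
  P_smul g i x := by
    have e := FP_act h D R0 g (col i) x.mem
    rw [← col_sgH D g i] at e
    exact e
  Q_smul g i x := by
    have e := FQ_act h D R0 g (col i) x.mem
    rw [← col_sgH D g i] at e
    exact e
  j0_mul g g' x := J0_mul D (R0 .o) (SSo_ne h) (Gh_SS h D hK) g g' x.mem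
  j_mul g g' i x := by
    have e := fx_mul h D R0 g g' (col i) x.mem
    rw [← col_sgH D g' i] at e
    exact e
  p_mul g g' i x := by
    have e := fp_mul h D R0 g g' (col i) x.mem
    rw [← col_sgH D g' i] at e
    exact e
  q_mul g g' i x := by
    have e := fq_mul h D R0 g g' (col i) x.mem
    rw [← col_sgH D g' i] at e
    exact e




end

end Crest.Agent.R272.GInG_502
end

-- ▼ part R272/Ins1_939

/-!
# R272 (S0415), the base block of M15 (helper939)

`Ar` : the arithmetic data (the level `n`, the group `K`, the roots); `exists_ar`.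
Everything else is a definition over `M : Ar`:
`M.h, M.μ, M.D, M.G, M.ρ, M.N, M.F, M.R, M.DX, M.A, M.X, M.CX, M.p0, M.s`.
-/

set_option autoImplicit false
set_option linter.unusedSectionVars false
set_option linter.unusedVariables false

open Set Filter Topology
open scoped ComplexConjugate

namespace Crest.Agent.R272.M15_939

open Crest.Agent.R275.Geo Crest.Agent.R273.Fam_835
open Crest.Agent.R272 Crest.Agent.R272.EBase_641 Crest.Agent.R272.In_68
open Crest.Agent.R272.Quot_783 Crest.Agent.R272.MQ_783 Crest.Agent.R272.Refl_246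
open Crest.Agent.R272.Gi_295 (KD rhG)
open Crest.Agent.R272.Cls_620 (Lb SS Deep)

noncomputable section

/-- `h : Z5r O5 z5v` -/
abbrev hz : Z5r O5_74.O5 O5_74.z5v := AROut_641.z5r

/-- the arithmetic data of the model -/
structure Ar where
  /-- the level -/
  n : ℕ
  big : 10 ^ 100 ≤ n
  even : 2 ∣ n
  /-- the group -/
  K : Subgroup (GU O5_74.O5 O5_74.z5v)
  kd : KD hz (n : Fin 2 → ℂ) K
  /-- the roots -/
  R0 : ∀ a : Lb, Root 3 2 ((rho hz).comp K.subtype) (SS hz (n : Fin 2 → ℂ) a)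

/-- **existence of the arithmetic data** -/
theorem exists_ar (K0 : Subgroup (GU O5_74.O5 O5_74.z5v)) (hK0 : K0.FiniteIndex) (m : ℕ) :
    ∃ M : Ar, M.K ≤ K0 ∧ m ≤ M.n := by
  have h1 : 10 ^ 100 ≤ 2 * (10 ^ 100 + m) := by omega
  obtain ⟨K, h2, h3, h4⟩ := Gi_295.exists_kd hz (n := 2 * (10 ^ 100 + m))
    (le_trans (by norm_num) h1) (dvd_mul_right _ _) 2 (by norm_num) K0 hK0
  exact ⟨⟨2 * (10 ^ 100 + m), h1, dvd_mul_right _ _, K, h2, fun a => (h4 a).some⟩, h3, by
    show m ≤ 2 * (10 ^ 100 + m)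
    omega⟩

instance : Nonempty Ar :=
  ⟨(exists_ar ⊤ inferInstance 0).choose⟩

namespace Ar

variable (M : Ar)

/-- the level -/
abbrev μ : Fin 2 → ℂ := (M.n : Fin 2 → ℂ)


/-- the level, as a real number -/
theorem bigR : (10 : ℝ) ^ 100 ≤ (M.n : ℝ) := by exact_mod_cast M.big

/-- **all gap hypotheses** -/
theorem deep {k : ℝ} (hk : k ≤ 10 ^ 199) : Deep O5_74.O5 O5_74.z5v M.μ k := by
  refine Gi_295.deep_nat hz.toZ5 ?_
  have h1 := M.bigR
  have h2 : (10 : ℝ) ^ 200 ≤ (M.n : ℝ) ^ 2 := by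
    calc (10 : ℝ) ^ 200 = ((10 : ℝ) ^ 100) ^ 2 := by rw [← pow_mul]
      _ ≤ _ := pow_le_pow_left₀ (by positivity) h1 2
  have h3 : 6 * (k + 4) < (10 : ℝ) ^ 200 := by
    have : (10 : ℝ) ^ 200 = 10 * 10 ^ 199 := by norm_num
    nlinarith [show (10 : ℝ) ^ 199 ≥ 100 by norm_num]
  linarith

theorem deep2 : Deep O5_74.O5 O5_74.z5v M.μ 2 := M.deep (by norm_num)

/-- the norm of the level -/
theorem level_big : (10 : ℝ) ^ 200 ≤ ∏ t, ‖(Cls_620.pz O5_74.z5v * M.μ) t‖ := by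
  have h1 : (1 : ℝ) ≤ ∏ t, ‖Cls_620.pz O5_74.z5v t‖ :=
    hz.toZ5.ord.norm_ge _ hz.toZ5.pz_mem (fun h0 => hz.toZ5.pz_ne 0 (by rw [h0]; rfl))
  have h2 : ∏ t, ‖(Cls_620.pz O5_74.z5v * M.μ) t‖ =
      (∏ t, ‖Cls_620.pz O5_74.z5v t‖) * (M.n : ℝ) ^ 2 := by
    rw [Fin.prod_univ_two, Fin.prod_univ_two]
    simp only [Pi.mul_apply, norm_mul, μ, Pi.natCast_apply, Complex.norm_natCast]
    ring
  rw [h2]
  have h3 : (10 : ℝ) ^ 200 ≤ (M.n : ℝ) ^ 2 := by
    calc (10 : ℝ) ^ 200 = ((10 : ℝ) ^ 100) ^ 2 := by rw [← pow_mul]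
      _ ≤ _ := pow_le_pow_left₀ (by positivity) M.bigR 2
  nlinarith

/-- the swap datum -/
theorem D : GInG_502.SwD M.K (GInG_502.swG hz) := M.kd.swD

/-- the group `Gh = K ∪ K s` -/
abbrev G : Type := M.D.Gh

/-- its representation -/
abbrev ρ : M.G →* UG 3 := rhG hz M.D

/-- the base: the ball -/
abbrev N : Type := BX M.ρ

/-- the complex structure of the base -/
abbrev F : Fam 3 M.N := ballFam M.ρ

/-- the roots, colour `true` conjugate to colour `false` -/
abbrev R : ∀ a : Lb, Root 3 2 ((rho hz).comp M.K.subtype) (SS hz M.μ a) :=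
  GInG_502.RR hz M.D M.R0

/-- the data of the graph model -/
def DX : Gr_559.GData M.F := GI_620.gdata hz M.R M.ρ M.kd.mem M.deep2

/-- the group action data -/
def A : Act_302.GAct M.DX M.G := GInG_502.gact hz M.D M.R0 M.kd.lev M.kd.mem M.deep2

/-- **the smooth model** -/
abbrev X : Type := M.A.X

/-- its complex structure -/
abbrev CX : Fam 3 M.X := M.A.fam (Gr_559.isSl_X1 M.DX)

/-- the base cluster point -/
abbrev p0 : M.N := P0_939.o3 M.ρ

/-- the swap -/
abbrev s : M.G := P0_939.sG hz M.D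

/-- `K` inside `G` -/
abbrev KG : Subgroup M.G := Gi_295.KG M.D

/-! ### the base -/

instance pds : ProperlyDiscontinuousSMul M.G M.N := Gi_295.pds (h := hz) M.D

instance ccs : ContinuousConstSMul M.G M.N := Gi_295.ccs (h := hz) M.D

theorem ra : RA M.F M.G := Gi_295.ra M.kd M.D

instance KG_normal : M.KG.Normal := Gi_295.KG_normal M.kd M.D



theorem s_sq : M.s * M.s = 1 := P0_939.sG_sq hz M.D

/-- stabilisers of the points of the base, literal input of 302's ACTION (B) -/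
theorem base_st (x : M.N) : (∀ g : M.G, g • x = x → g = 1) ∨
    ∃ s : M.G, s * s = 1 ∧ s • x = x ∧ (∀ g : M.G, g • x = x → g = 1 ∨ g = s) ∧
      M.A.σ s = Equiv.swap 0 1 ∧ ReflAt M.F (fun y => s • y) x := by
  rcases Gi_295.base_st M.kd M.D x with h1 | ⟨s, h1, h2, h3, h4, h5⟩
  · exact Or.inl h1
  · exact Or.inr ⟨s, h1, h2, h3, GInG_502.sgH_of_not M.D h4, h5⟩

instance compact_orb : CompactSpace (Orb M.G M.N) := Gi_295.compactSpace_orb M.kd M.D

/-- the base cluster point -/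
theorem exists_bpt : ∃ B : P0_939.BPt M.DX Cur_297.Pz M.G M.p0 M.s,
    B.p.s0 = (fun y => P0_939.cc O5_74.z5v * y.val 0) ∧
    B.p.s1 = (fun y => P0_939.cc O5_74.z5v * y.val 1) ∧
    B.p'.s1 = (fun y => P0_939.cc O5_74.z5v * y.val 2) := by
  have h1 : (64 : ℝ) < ∏ t, ‖(Cls_620.pz O5_74.z5v * M.μ) t‖ := M.kd.big
  have h2 := P0_939.exists_bpt hz M.R M.D M.kd.mem M.deep2 h1 M.kd.lev
  rwa [Ref_246.par_eq hz] at h2

/-- the base cluster point -/
def bpt : P0_939.BPt M.DX Cur_297.Pz M.G M.p0 M.s := M.exists_bpt.choose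

theorem bpt_s0 : M.bpt.p.s0 = (fun y => P0_939.cc O5_74.z5v * y.val 0) :=
  M.exists_bpt.choose_spec.1

theorem bpt_s1 : M.bpt.p.s1 = (fun y => P0_939.cc O5_74.z5v * y.val 1) :=
  M.exists_bpt.choose_spec.2.1

theorem bpt_s1' : M.bpt.p'.s1 = (fun y => P0_939.cc O5_74.z5v * y.val 2) :=
  M.exists_bpt.choose_spec.2.2

/-! ### the smooth model -/

instance : Nonempty M.X := inferInstance

instance : T2Space M.X := inferInstance

instance : ContinuousConstSMul M.G M.X := inferInstance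

instance pdsX : ProperlyDiscontinuousSMul M.G M.X := M.A.properlyDiscontinuous


end Ar

end

end Crest.Agent.R272.M15_939
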