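import Crest.Agent.R272.Gr5_559
import Crest.Agent.R272.Lc11_220

-- ▼ part R272/Gr6_559
section

/-!
# R272 (S0415), MOD-GRAPH (helper559), file 7: density

* `P1.sq k = k ^ 2`, an open map; `P1.sq_iff`;
* `exists_appr` : every point of `X1` is a limit of points of the graph over regular points;
* **`dense_pz_preimage : Dense S → Dense (D.pz ⁻¹' S)`**, `frequently_ne`.
-/

set_option autoImplicit false
set_option linter.unusedSectionVars false

open Set Filter Topology Complex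

namespace Crest.Agent.R272.Gr_559

open Crest.Agent.R275.Geo Crest.Agent.R273.Fam_835 Crest.Agent.R272.Quot_783
open Crest.Agent.R272

noncomputable section

/-! ### the squaring map of `P1` -/

namespace P1

theorem mk_smul {l : ℂ} (hl : l ≠ 0) (a b : ℂ) : mk (l * a) (l * b) = mk a b := by
  by_cases hb : b = 0
  · simp [hb]
  · rw [mk_of_ne hb, mk_of_ne (mul_ne_zero hl hb), mul_div_mul_left _ _ hl]


/-- the squaring map -/
def sq (k : P1) : P1 := mk (n k ^ 2) (d k ^ 2)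

@[simp] theorem sq_infty : sq (OnePoint.infty : P1) = OnePoint.infty := by simp [sq]

@[simp] theorem sq_coe (c : ℂ) : sq (c : P1) = ((c ^ 2 : ℂ) : P1) := by simp [sq, mk]

theorem sq_iff {p q : ℂ} (h : ¬ (p = 0 ∧ q = 0)) (k : P1) :
    k.n ^ 2 * q = k.d ^ 2 * p ↔ sq k = mk p q := by
  rw [← rel_iff h]
  induction k using OnePoint.rec with
  | infty =>
    simp only [n_infty, d_infty, sq_infty]
    constructor
    · intro h; linear_combination -h
    · intro h; linear_combination -h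
  | coe c =>
    simp only [n_coe, d_coe, sq_coe]
    constructor
    · intro h; linear_combination -h
    · intro h; linear_combination -h

theorem exists_sq (p : P1) : ∃ k, sq k = p := by
  induction p using OnePoint.rec with
  | infty => exact ⟨OnePoint.infty, sq_infty⟩
  | coe c =>
    obtain ⟨e, he⟩ := IsAlgClosed.exists_pow_nat_eq c (n := 2) (by norm_num)
    exact ⟨(e : P1), by rw [sq_coe, he]⟩

theorem sq_inv (k : P1) : sq (inv k) = inv (sq k) := by
  induction k using OnePoint.rec with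
  | infty => simp
  | coe c =>
    by_cases hc : c = 0
    · simp [hc]
    · rw [inv_coe hc, sq_coe, sq_coe, inv_coe (pow_ne_zero 2 hc), inv_pow]

theorem nhds_sq_le (k : P1) : 𝓝 (sq k) ≤ map sq (𝓝 k) := by
  have hfin : ∀ c : ℂ, 𝓝 (sq (c : P1)) ≤ map sq (𝓝 (c : P1)) := by
    intro c
    have h1 : AnalyticAt ℂ (fun z : ℂ => z ^ 2) c := by fun_prop
    have h2 : 𝓝 (c ^ 2) ≤ map (fun z : ℂ => z ^ 2) (𝓝 c) := by
      refine h1.eventually_constant_or_nhds_le_map_nhds.resolve_left ?_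
      intro h3
      have h4 : Tendsto (fun e : ℂ => c + e) (𝓝 0) (𝓝 c) := by
        have : Tendsto (fun e : ℂ => c + e) (𝓝 0) (𝓝 (c + 0)) :=
          (continuous_const.add continuous_id).tendsto 0
        rwa [add_zero] at this
      have h5 := h4.eventually h3
      have h6 : ∀ᶠ e : ℂ in 𝓝[≠] 0, e ≠ 0 ∧ e * (2 * c + e) = 0 := by
        filter_upwards [h5.filter_mono nhdsWithin_le_nhds, self_mem_nhdsWithin] with e he he0
        exact ⟨he0, by linear_combination he⟩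
      have h7 : ∀ᶠ e : ℂ in 𝓝[≠] 0, e = -(2 * c) := by
        filter_upwards [h6] with e he
        have := (mul_eq_zero.1 he.2).resolve_left he.1
        linear_combination this
      by_cases hc : c = 0
      · obtain ⟨e, he1, he2⟩ := (h6.and h7).exists
        rw [hc] at he2
        exact he1.1 (by rw [he2]; ring)
      · have h8 : Tendsto (fun e : ℂ => e) (𝓝[≠] 0) (𝓝 0) := nhdsWithin_le_nhds
        have h9 : ∀ᶠ e : ℂ in 𝓝[≠] 0, e ≠ -(2 * c) :=
          h8.eventually (isOpen_ne.mem_nhds (by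
            intro h; exact hc (by linear_combination (1/2 : ℂ) * h)))
        obtain ⟨e, he1, he2⟩ := (h7.and h9).exists
        exact he2 he1
    rw [sq_coe, OnePoint.nhds_coe_eq, OnePoint.nhds_coe_eq]
    refine (map_mono h2).trans ?_
    rw [Filter.map_map, Filter.map_map]
    have h10 : ((fun c : ℂ => (c : P1)) ∘ fun z : ℂ => z ^ 2) = sq ∘ (fun c : ℂ => (c : P1)) := by
      funext z
      simp only [Function.comp, sq_coe]
    exact le_of_eq (by rw [← h10])
  induction k using OnePoint.rec with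
  | infty =>
    have h1 := hfin 0
    have h2 : map inv (𝓝 ((0 : ℂ) : P1)) = 𝓝 (OnePoint.infty : P1) := by
      have := invH.map_nhds_eq ((0 : ℂ) : P1)
      rw [show (invH : P1 → P1) = inv from rfl] at this
      rw [this, inv_zero]
    rw [sq_infty, ← h2]
    have h3 : sq ((0 : ℂ) : P1) = ((0 : ℂ) : P1) := by simp
    rw [h3] at h1
    refine (map_mono h1).trans ?_
    rw [Filter.map_map, Filter.map_map]
    have h4 : inv ∘ sq = sq ∘ inv := by
      funext z
      exact (sq_inv z).symm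
    rw [h4]
  | coe c => exact hfin c

theorem isOpenMap_sq : IsOpenMap sq := IsOpenMap.of_nhds_le nhds_sq_le

theorem continuousAt_mk2 {a b : ℂ} (h : ¬ (a = 0 ∧ b = 0)) :
    ContinuousAt (fun p : ℂ × ℂ => mk p.1 p.2) (a, b) :=
  P1A_54.continuousAt_mk continuous_fst.continuousAt continuous_snd.continuousAt h

theorem tendsto_mk {Z : Type*} {l : Filter Z} {f g : Z → ℂ} {a b : ℂ} (hf : Tendsto f l (𝓝 a))
    (hg : Tendsto g l (𝓝 b)) (h : ¬ (a = 0 ∧ b = 0)) :
    Tendsto (fun z => mk (f z) (g z)) l (𝓝 (mk a b)) := by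
  have h1 : Tendsto (fun z => (f z, g z)) l (𝓝 (a, b)) := hf.prodMk_nhds hg
  exact (continuousAt_mk2 h).tendsto.comp h1

end P1

variable {N : Type} [TopologicalSpace N] {F : Fam 3 N} {D : GData F}

/-! ### openness -/

theorem open_tuple {m r : ℕ} {F : Fam m N} {U : Set N} (hU : IsOpen U) {h : Fin r → N → ℂ}
    (hh : ∀ a, HolF F U (h a)) {q : N} (hq : q ∈ U) {i : F.ι} (hi : q ∈ (F.e i).source)
    (hs : ∀ w : Fin r → ℂ, ∃ v, ∀ a, dd F i (h a) q v = w a) :
    𝓝 (fun a => h a q) ≤ map (fun y a => h a y) (𝓝 q) := by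
  let W : Set (Cn m) := (F.e i).target ∩ (F.e i).symm ⁻¹' U
  have hW : IsOpen W := (F.e i).isOpen_inter_preimage_symm hU
  have hqW : F.e i q ∈ W := ⟨(F.e i).map_source hi, by
    rw [mem_preimage, (F.e i).left_inv hi]; exact hq⟩
  let Φ : Cn m → Fin r → ℂ := fun z a => h a ((F.e i).symm z)
  have hΦ : DifferentiableOn ℂ Φ W := differentiableOn_pi.2 fun a => hh a i
  have hAn : AnalyticAt ℂ Φ (F.e i q) :=
    Crest.Agent.R266.SCV.analyticOnNhd_of_differentiableOn hW hΦ _ hqW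
  have hd : ∀ v a, fderiv ℂ Φ (F.e i q) v a = dd F i (h a) q v := by
    intro v a
    have h1 : HasFDerivAt Φ (ContinuousLinearMap.pi fun a => dd F i (h a) q) (F.e i q) :=
      hasFDerivAt_pi.2 fun a => hasFDerivAt_dd hU (hh a) hi hq
    rw [h1.fderiv]
    rfl
  have hr : (fderiv ℂ Φ (F.e i q)).range = ⊤ := by
    rw [LinearMap.range_eq_top]
    intro w
    obtain ⟨v, hv⟩ := hs w
    exact ⟨v, funext fun a => (hd v a).trans (hv a)⟩
  have h2 := hAn.hasStrictFDerivAt.map_nhds_eq_of_surj hr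
  have h3 := (F.e i).map_nhds_eq hi
  have h4 : 𝓝 (Φ (F.e i q)) = map (Φ ∘ F.e i) (𝓝 q) := by
    rw [← Filter.map_map, h3, h2]
  have h5 : ∀ᶠ y in 𝓝 q, (Φ ∘ F.e i) y = fun a => h a y := by
    filter_upwards [(F.e i).open_source.mem_nhds hi] with y hy
    show (fun a => h a ((F.e i).symm (F.e i y))) = _
    rw [(F.e i).left_inv hy]
  have h6 : Φ (F.e i q) = fun a => h a q := by
    show (fun a => h a ((F.e i).symm (F.e i q))) = _
    rw [(F.e i).left_inv hi]
  rw [← h6, h4]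
  exact le_of_eq (Filter.map_congr h5)

theorem exists_curve {V : Type*} [TopologicalSpace V] {Ψ : N → V} {z : N}
    (hΨ : 𝓝 (Ψ z) ≤ map Ψ (𝓝 z)) {w : ℂ → V} (hw : Tendsto w (𝓝[≠] 0) (𝓝 (Ψ z))) :
    ∃ l : Filter N, l.NeBot ∧ l ≤ 𝓝 z ∧ Tendsto Ψ l (map w (𝓝[≠] 0)) := by
  refine ⟨𝓝 z ⊓ comap Ψ (map w (𝓝[≠] 0)), ?_, inf_le_left, ?_⟩
  · have h1 : (map Ψ (𝓝 z ⊓ comap Ψ (map w (𝓝[≠] 0)))).NeBot := by
      rw [Filter.push_pull]
      have h2 : map Ψ (𝓝 z) ⊓ map w (𝓝[≠] 0) = map w (𝓝[≠] 0) :=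
        inf_eq_right.2 (hw.trans hΨ)
      rw [h2]
      infer_instance
    exact (Filter.map_neBot_iff Ψ).1 h1
  · exact tendsto_comap.mono_left inf_le_right

/-! ### convergence of `[P : Q]` -/

theorem mk_PQ_tendsto {a : Fin 2} {z : N} (C : Loc D a z) {t k : P1} (hY : (z, t, k) ∈ D.Y a)
    (hne : ¬ (C.f z t.n t.d = 0 ∧ C.g z t.n t.d = 0)) {l : Filter N} (hl : l ≤ 𝓝 z)
    (hreg : ∀ᶠ y in l, ¬ (D.f0 y = 0 ∧ D.x a y = 0))
    (ht : Tendsto (fun y => P1.mk (D.x a y) (D.f0 y)) l (𝓝 t)) :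
    (∀ᶠ y in l, ¬ (D.P a y = 0 ∧ D.Q a y = 0)) ∧
      Tendsto (fun y => P1.mk (D.P a y) (D.Q a y)) l (𝓝 (P1.sq k)) := by
  obtain ⟨i, hi⟩ := F.cover z
  set b := ib t with hb
  have hts : t ∈ (famP.e b).source := mem_source_ib t
  set τ0 : ℂ := famP.e b t with hτ0
  obtain ⟨m, hm, hm1, hm2⟩ := hnd hts
  -- chart values
  have hτ : Tendsto (fun y => famP.e b (P1.mk (D.x a y) (D.f0 y))) l (𝓝 τ0) :=
    ((famP.e b).continuousAt hts).tendsto.comp ht
  have hez : Tendsto (fun y => F.e i y) l (𝓝 (F.e i z)) := ((F.e i).continuousAt hi).tendsto.mono_left hl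
  have hpr : Tendsto (fun y => (F.e i y, famP.e b (P1.mk (D.x a y) (D.f0 y)))) l
      (𝓝 (F.e i z, τ0)) := hez.prodMk_nhds hτ
  have hf1 : Tendsto (fun y => C.fc i b (F.e i y, famP.e b (P1.mk (D.x a y) (D.f0 y)))) l
      (𝓝 (C.fc i b (F.e i z, τ0))) := (C.fc_diff hi b τ0).continuousAt.tendsto.comp hpr
  have hg1 : Tendsto (fun y => C.gc i b (F.e i y, famP.e b (P1.mk (D.x a y) (D.f0 y)))) l
      (𝓝 (C.gc i b (F.e i z, τ0))) := (C.gc_diff hi b τ0).continuousAt.tendsto.comp hpr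
  have ef0 : C.f z t.n t.d = m ^ C.e * C.fc i b (F.e i z, τ0) := by
    rw [hm1, hm2, C.f_hom]
    simp only [Loc.fc, (F.e i).left_inv hi]
    rfl
  have eg0 : C.g z t.n t.d = m ^ C.e * C.gc i b (F.e i z, τ0) := by
    rw [hm1, hm2, C.g_hom]
    simp only [Loc.gc, (F.e i).left_inv hi]
    rfl
  have hme : m ^ C.e ≠ 0 := pow_ne_zero _ hm
  have hne' : ¬ (C.fc i b (F.e i z, τ0) = 0 ∧ C.gc i b (F.e i z, τ0) = 0) := by
    rintro ⟨h1, h2⟩
    exact hne ⟨by rw [ef0, h1, mul_zero], by rw [eg0, h2, mul_zero]⟩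
  have hsq : P1.sq k = P1.mk (C.fc i b (F.e i z, τ0)) (C.gc i b (F.e i z, τ0)) := by
    have h1 := ((C.iff z C.mem t k).1 hY).2
    rw [ef0, eg0] at h1
    refine (P1.sq_iff hne' k).1 (mul_left_cancel₀ hme ?_)
    linear_combination h1
  have hmk := P1.tendsto_mk hf1 hg1 hne'
  rw [← hsq] at hmk
  have hev : ∀ᶠ y in l, ¬ (D.P a y = 0 ∧ D.Q a y = 0) ∧
      P1.mk (C.fc i b (F.e i y, famP.e b (P1.mk (D.x a y) (D.f0 y))))
        (C.gc i b (F.e i y, famP.e b (P1.mk (D.x a y) (D.f0 y)))) =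
      P1.mk (D.P a y) (D.Q a y) := by
    have g1 : ∀ᶠ y in l, y ∈ C.U := hl (C.U_open.mem_nhds C.mem)
    have g2 : ∀ᶠ y in l, P1.mk (D.x a y) (D.f0 y) ∈ (famP.e b).source :=
      ht.eventually ((famP.e b).open_source.mem_nhds hts)
    have g3 : ∀ᶠ y in l, y ∈ (F.e i).source := hl ((F.e i).open_source.mem_nhds hi)
    have g4 : ∀ᶠ y in l, ¬ (C.fc i b (F.e i y, famP.e b (P1.mk (D.x a y) (D.f0 y))) = 0 ∧
        C.gc i b (F.e i y, famP.e b (P1.mk (D.x a y) (D.f0 y))) = 0) := by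
      by_cases h0 : C.fc i b (F.e i z, τ0) = 0
      · have h1 : C.gc i b (F.e i z, τ0) ≠ 0 := fun h => hne' ⟨h0, h⟩
        filter_upwards [hg1.eventually_ne h1] with y hy h2 using hy h2.2
      · filter_upwards [hf1.eventually_ne h0] with y hy h2 using hy h2.1
    filter_upwards [g1, g2, g3, g4, hreg] with y hyU hyt hyi hyn hyr
    set ty : P1 := P1.mk (D.x a y) (D.f0 y) with hty
    set fy := C.fc i b (F.e i y, famP.e b ty) with hfy
    set gy := C.gc i b (F.e i y, famP.e b ty) with hgy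
    have hrel : D.x a y * ty.d = D.f0 y * ty.n :=
      (P1.rel_iff (fun h => hyr ⟨h.2, h.1⟩) ty).2 rfl
    obtain ⟨r, hr, hr1, hr2⟩ := hnd hyt
    have ef : C.f y ty.n ty.d = r ^ C.e * fy := by
      rw [hr1, hr2, C.f_hom, hfy]
      simp only [Loc.fc, (F.e i).left_inv hyi]
    have eg : C.g y ty.n ty.d = r ^ C.e * gy := by
      rw [hr1, hr2, C.g_hom, hgy]
      simp only [Loc.gc, (F.e i).left_inv hyi]
    have hre : r ^ C.e ≠ 0 := pow_ne_zero _ hr
    have hall : ∀ k' : P1, k'.n ^ 2 * D.Q a y = k'.d ^ 2 * D.P a y ↔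
        k'.n ^ 2 * gy = k'.d ^ 2 * fy := by
      intro k'
      have h1 := C.iff y hyU ty k'
      rw [D.mem_Y_reg hyr ty k'] at h1
      have h2 : k'.n ^ 2 * D.Q a y = k'.d ^ 2 * D.P a y ↔
          k'.n ^ 2 * C.g y ty.n ty.d = k'.d ^ 2 * C.f y ty.n ty.d :=
        ⟨fun h => (h1.1 ⟨hrel, h⟩).2, fun h => (h1.2 ⟨hrel, h⟩).2⟩
      rw [h2, ef, eg]
      constructor
      · intro h
        apply mul_left_cancel₀ hre
        linear_combination h
      · intro h
        linear_combination r ^ C.e * h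
    have hPQ : ¬ (D.P a y = 0 ∧ D.Q a y = 0) := by
      rintro ⟨h1, h2⟩
      have h3 := (hall OnePoint.infty).1 (by rw [h1, h2]; ring)
      have h4 := (hall ((0 : ℂ) : P1)).1 (by rw [h1, h2]; ring)
      simp only [P1.n_infty, P1.d_infty] at h3
      simp only [P1.n_coe, P1.d_coe] at h4
      exact hyn ⟨by linear_combination -h4, by linear_combination h3⟩
    refine ⟨hPQ, ?_⟩
    obtain ⟨k', hk'⟩ := P1.exists_sq (P1.mk fy gy)
    rw [← hk']
    exact (P1.sq_iff hPQ k').1 ((hall k').2 ((P1.sq_iff hyn k').2 hk'))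
  exact ⟨hev.mono fun y hy => hy.1, hmk.congr' (hev.mono fun y hy => hy.2)⟩

/-- convergence of `[P : Q]` where `(P, Q) ≠ (0, 0)` -/
theorem mk_PQ_tendsto_reg {a : Fin 2} {z : N} {t k : P1} (hY : (z, t, k) ∈ D.Y a)
    (hr : ¬ (D.f0 z = 0 ∧ D.x a z = 0)) (hne : ¬ (D.P a z = 0 ∧ D.Q a z = 0)) {l : Filter N}
    (hl : l ≤ 𝓝 z) : (∀ᶠ y in l, ¬ (D.P a y = 0 ∧ D.Q a y = 0)) ∧
      Tendsto (fun y => P1.mk (D.P a y) (D.Q a y)) l (𝓝 (P1.sq k)) := by
  have h1 := ((D.mem_Y_reg hr t k).1 hY).2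
  rw [(P1.sq_iff hne k).1 h1]
  have hP : Tendsto (D.P a) l (𝓝 (D.P a z)) := (D.continuous_P a).continuousAt.tendsto.mono_left hl
  have hQ : Tendsto (D.Q a) l (𝓝 (D.Q a z)) := (D.continuous_Q a).continuousAt.tendsto.mono_left hl
  refine ⟨?_, P1.tendsto_mk hP hQ hne⟩
  by_cases h0 : D.P a z = 0
  · have h1 : D.Q a z ≠ 0 := fun h => hne ⟨h0, h⟩
    filter_upwards [hQ.eventually_ne h1] with y hy h2 using hy h2.2
  · filter_upwards [hP.eventually_ne h0] with y hy h2 using hy h2.1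

/-- the local equation of a flat colour is never `0 = 0` -/
theorem Loc.OK.ne_flat {a : Fin 2} {z : N} {C : Loc D a z} (h : C.OK) (h0 : D.f0 z = 0)
    (hx : D.x a z = 0) (t : P1) : ¬ (C.f z t.n t.d = 0 ∧ C.g z t.n t.d = 0) := by
  induction t using OnePoint.rec with
  | infty => exact fun h1 => (h.flat_inf h0 hx).1 h1.1
  | coe c => exact fun h1 => (h.flat_f h0 hx c h1.1).1 h1.2

/-! ### approximation by the graph -/

/-- approximation data -/
def Appr (D : GData F) (z : N) (t : Fin 2 → P1) (v : P1) (k : Fin 2 → P1) : Prop :=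
  ∃ l : Filter N, l.NeBot ∧ l ≤ 𝓝 z ∧ (∀ᶠ y in l, ∀ a, ¬ (D.f0 y = 0 ∧ D.x a y = 0)) ∧
    (∀ a, Tendsto (fun y => P1.mk (D.x a y) (D.f0 y)) l (𝓝 (t a))) ∧
    Tendsto (fun y => P1.mk (D.x 0 y * D.x 1 y) (D.f0 y)) l (𝓝 v) ∧
    ∀ a, (∀ᶠ y in l, ¬ (D.P a y = 0 ∧ D.Q a y = 0)) ∧
      Tendsto (fun y => P1.mk (D.P a y) (D.Q a y)) l (𝓝 (P1.sq (k a)))

theorem relE_mk (D : GData F) {y : N} (hr : ∀ a, ¬ (D.f0 y = 0 ∧ D.x a y = 0)) (t : Fin 2 → P1)
    (v : P1) : RelE D y (fun a => (t a).n) (fun a => (t a).d) v.n v.d ↔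
      (∀ a, t a = P1.mk (D.x a y) (D.f0 y)) ∧ v = P1.mk (D.x 0 y * D.x 1 y) (D.f0 y) := by
  have hr' : ∀ a, ¬ (D.x a y = 0 ∧ D.f0 y = 0) := fun a h => hr a ⟨h.2, h.1⟩
  have hv' : ¬ (D.x 0 y * D.x 1 y = 0 ∧ D.f0 y = 0) := by
    rintro ⟨h1, h2⟩
    rcases mul_eq_zero.1 h1 with h3 | h3
    · exact hr 0 ⟨h2, h3⟩
    · exact hr 1 ⟨h2, h3⟩
  unfold RelE
  rw [← P1.rel_iff hv' v]
  beta_reduce
  constructor
  · rintro ⟨h1, h2, h3⟩
    refine ⟨fun a => (P1.rel_iff (hr' a) (t a)).1 (h1 a), ?_⟩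
    obtain ⟨l, hl, e1, e2⟩ := nd302.prop (t := t 0) (f := D.f0 y) (x := D.x 0 y)
      (by have := hr' 0; tauto) (h1 0)
    rw [e1, e2] at h2
    apply mul_left_cancel₀ hl
    linear_combination -h2
  · rintro ⟨h1, h2⟩
    have h3 : ∀ a, D.x a y * (t a).d = D.f0 y * (t a).n :=
      fun a => (P1.rel_iff (hr' a) (t a)).2 (h1 a)
    refine ⟨h3, ?_, ?_⟩
    · obtain ⟨l, hl, e1, e2⟩ := nd302.prop (t := t 0) (f := D.f0 y) (x := D.x 0 y)
        (by have := hr' 0; tauto) (h3 0)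
      rw [e1, e2]
      linear_combination -l * h2
    · obtain ⟨l, hl, e1, e2⟩ := nd302.prop (t := t 1) (f := D.f0 y) (x := D.x 1 y)
        (by have := hr' 1; tauto) (h3 1)
      rw [e1, e2]
      linear_combination -l * h2

/-- over regular points of the base with `(P, Q) ≠ (0, 0)` -/
theorem mem_X1_reg (D : GData F) {y : N} (hr : ∀ a, ¬ (D.f0 y = 0 ∧ D.x a y = 0))
    (hP : ∀ a, ¬ (D.P a y = 0 ∧ D.Q a y = 0)) (t : Fin 2 → P1) (v : P1) (k : Fin 2 → P1) :
    ((y, t, v, k) : GData.Amb N) ∈ D.X1 ↔ (∀ a, t a = P1.mk (D.x a y) (D.f0 y)) ∧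
      v = P1.mk (D.x 0 y * D.x 1 y) (D.f0 y) ∧ ∀ a, P1.sq (k a) = P1.mk (D.P a y) (D.Q a y) := by
  have h1 := mem_X1_loc D (q := y) (fun a => Loc.reg D a y (hr a)) (y := (y, t, v, k))
    (fun a => (Loc.reg D a y (hr a)).mem)
  rw [h1]
  have h2 := relE_mk D hr t v
  rw [← and_assoc, ← h2]
  refine and_congr Iff.rfl (forall_congr' fun a => ?_)
  exact P1.sq_iff (hP a) (k a)

/-- limits at `0` of the curves used below -/
theorem tendsto_inv_eps : Tendsto (fun ε : ℂ => P1.mk 1 ε) (𝓝[≠] 0) (𝓝 OnePoint.infty) := by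
  have h1 : Tendsto (fun ε : ℂ => P1.mk 1 ε) (𝓝 0) (𝓝 (P1.mk 1 0)) :=
    P1.tendsto_mk tendsto_const_nhds tendsto_id (by simp)
  rw [P1.mk_zero] at h1
  exact h1.mono_left nhdsWithin_le_nhds

theorem tendsto_coe_poly {f : ℂ → ℂ} (hf : Continuous f) {c : ℂ} (h0 : f 0 = c) :
    Tendsto (fun ε : ℂ => P1.mk (f ε) 1) (𝓝[≠] 0) (𝓝 (c : P1)) := by
  have h1 : Tendsto (fun ε : ℂ => P1.mk (f ε) 1) (𝓝 0) (𝓝 (P1.mk (f 0) 1)) :=
    P1.tendsto_mk (hf.tendsto 0) tendsto_const_nhds (by simp)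
  rw [h0, P1.mk_of_ne one_ne_zero, div_one] at h1
  exact h1.mono_left nhdsWithin_le_nhds

/-- curves in `ℂ³` for cluster points -/
theorem exists_curve3 (t0 t1 v : P1) (h1 : v.n * t0.d = 0) (h2 : v.n * t1.d = 0) :
    ∃ w : ℂ → Fin 3 → ℂ, Tendsto w (𝓝[≠] 0) (𝓝 0) ∧
      (∀ᶠ ε in 𝓝[≠] (0 : ℂ), w ε 0 ≠ 0) ∧
      Tendsto (fun ε => P1.mk (w ε 1) (w ε 0)) (𝓝[≠] 0) (𝓝 t0) ∧
      Tendsto (fun ε => P1.mk (w ε 2) (w ε 0)) (𝓝[≠] 0) (𝓝 t1) ∧
      Tendsto (fun ε => P1.mk (w ε 1 * w ε 2) (w ε 0)) (𝓝[≠] 0) (𝓝 v) := by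
  have hne : ∀ᶠ ε in 𝓝[≠] (0 : ℂ), ε ≠ 0 := self_mem_nhdsWithin
  have h0 : ∀ {f g h : ℂ → ℂ}, Continuous f → Continuous g → Continuous h → f 0 = 0 → g 0 = 0 →
      h 0 = 0 → Tendsto (fun ε => (![f ε, g ε, h ε] : Fin 3 → ℂ)) (𝓝[≠] 0) (𝓝 0) := by
    intro f g h hf hg hh e1 e2 e3
    rw [tendsto_pi_nhds]
    intro j
    have := (hf.tendsto 0).mono_left (nhdsWithin_le_nhds (s := {0}ᶜ))
    have := (hg.tendsto 0).mono_left (nhdsWithin_le_nhds (s := {0}ᶜ))
    have := (hh.tendsto 0).mono_left (nhdsWithin_le_nhds (s := {0}ᶜ))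
    fin_cases j
    · simpa [e1] using (hf.tendsto 0).mono_left (nhdsWithin_le_nhds (s := {0}ᶜ))
    · simpa [e2] using (hg.tendsto 0).mono_left (nhdsWithin_le_nhds (s := {0}ᶜ))
    · simpa [e3] using (hh.tendsto 0).mono_left (nhdsWithin_le_nhds (s := {0}ᶜ))
  induction t0 using OnePoint.rec with
  | coe c0 =>
    have hv : v = ((0 : ℂ) : P1) := by
      simp only [P1.d_coe, mul_one] at h1
      induction v using OnePoint.rec with
      | infty => simp at h1
      | coe c => simp only [P1.n_coe] at h1; rw [h1]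
    subst hv
    induction t1 using OnePoint.rec with
    | coe c1 =>
      refine ⟨fun ε => ![ε, c0 * ε, c1 * ε], h0 (by fun_prop) (by fun_prop) (by fun_prop) rfl
        (by simp) (by simp), ?_, ?_, ?_, ?_⟩
      · filter_upwards [hne] with ε hε using hε
      · refine (tendsto_coe_poly (f := fun _ => c0) continuous_const rfl).congr' ?_
        filter_upwards [hne] with ε hε
        show P1.mk c0 1 = P1.mk (c0 * ε) ε
        rw [← P1.mk_smul hε c0 1, mul_one, mul_comm]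
      · refine (tendsto_coe_poly (f := fun _ => c1) continuous_const rfl).congr' ?_
        filter_upwards [hne] with ε hε
        show P1.mk c1 1 = P1.mk (c1 * ε) ε
        rw [← P1.mk_smul hε c1 1, mul_one, mul_comm]
      · refine (tendsto_coe_poly (f := fun ε => c0 * c1 * ε) (by fun_prop) (by simp)).congr' ?_
        filter_upwards [hne] with ε hε
        show P1.mk (c0 * c1 * ε) 1 = P1.mk (c0 * ε * (c1 * ε)) ε
        rw [← P1.mk_smul hε (c0 * c1 * ε) 1, mul_one]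
        congr 1
        ring
    | infty =>
      refine ⟨fun ε => ![ε ^ 2, c0 * ε ^ 2, ε], h0 (by fun_prop) (by fun_prop) (by fun_prop)
        (by simp) (by simp) rfl, ?_, ?_, ?_, ?_⟩
      · filter_upwards [hne] with ε hε using pow_ne_zero 2 hε
      · refine (tendsto_coe_poly (f := fun _ => c0) continuous_const rfl).congr' ?_
        filter_upwards [hne] with ε hε
        show P1.mk c0 1 = P1.mk (c0 * ε ^ 2) (ε ^ 2)
        rw [← P1.mk_smul (pow_ne_zero 2 hε) c0 1, mul_one, mul_comm]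
      · refine tendsto_inv_eps.congr' ?_
        filter_upwards [hne] with ε hε
        show P1.mk 1 ε = P1.mk ε (ε ^ 2)
        rw [← P1.mk_smul hε 1 ε, mul_one, sq]
      · refine (tendsto_coe_poly (f := fun ε => c0 * ε) (by fun_prop) (by simp)).congr' ?_
        filter_upwards [hne] with ε hε
        show P1.mk (c0 * ε) 1 = P1.mk (c0 * ε ^ 2 * ε) (ε ^ 2)
        rw [← P1.mk_smul (pow_ne_zero 2 hε) (c0 * ε) 1, mul_one]
        congr 1
        ring
  | infty =>
    induction t1 using OnePoint.rec with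
    | coe c1 =>
      have hv : v = ((0 : ℂ) : P1) := by
        simp only [P1.d_coe, mul_one] at h2
        induction v using OnePoint.rec with
        | infty => simp at h2
        | coe c => simp only [P1.n_coe] at h2; rw [h2]
      subst hv
      refine ⟨fun ε => ![ε ^ 2, ε, c1 * ε ^ 2], h0 (by fun_prop) (by fun_prop) (by fun_prop)
        (by simp) rfl (by simp), ?_, ?_, ?_, ?_⟩
      · filter_upwards [hne] with ε hε using pow_ne_zero 2 hε
      · refine tendsto_inv_eps.congr' ?_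
        filter_upwards [hne] with ε hε
        show P1.mk 1 ε = P1.mk ε (ε ^ 2)
        rw [← P1.mk_smul hε 1 ε, mul_one, sq]
      · refine (tendsto_coe_poly (f := fun _ => c1) continuous_const rfl).congr' ?_
        filter_upwards [hne] with ε hε
        show P1.mk c1 1 = P1.mk (c1 * ε ^ 2) (ε ^ 2)
        rw [← P1.mk_smul (pow_ne_zero 2 hε) c1 1, mul_one, mul_comm]
      · refine (tendsto_coe_poly (f := fun ε => c1 * ε) (by fun_prop) (by simp)).congr' ?_
        filter_upwards [hne] with ε hε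
        show P1.mk (c1 * ε) 1 = P1.mk (ε * (c1 * ε ^ 2)) (ε ^ 2)
        rw [← P1.mk_smul (pow_ne_zero 2 hε) (c1 * ε) 1, mul_one]
        congr 1
        ring
    | infty =>
      induction v using OnePoint.rec with
      | coe c =>
        have hc : ∀ᶠ ε in 𝓝[≠] (0 : ℂ), c + ε ≠ 0 := by
          by_cases h : c = 0
          · filter_upwards [hne] with ε hε
            rw [h, zero_add]; exact hε
          · have h3 : Tendsto (fun ε : ℂ => c + ε) (𝓝[≠] 0) (𝓝 c) := by
              have : Tendsto (fun e : ℂ => c + e) (𝓝 0) (𝓝 (c + 0)) :=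
                (continuous_const.add continuous_id).tendsto 0
              rw [add_zero] at this
              exact this.mono_left nhdsWithin_le_nhds
            exact h3.eventually_ne h
        refine ⟨fun ε => ![(c + ε) * ε ^ 2, (c + ε) * ε, (c + ε) * ε],
          h0 (by fun_prop) (by fun_prop) (by fun_prop) (by simp) (by simp) (by simp),
          ?_, ?_, ?_, ?_⟩
        · filter_upwards [hne, hc] with ε hε hcε using mul_ne_zero hcε (pow_ne_zero 2 hε)
        · refine tendsto_inv_eps.congr' ?_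
          filter_upwards [hne, hc] with ε hε hcε
          show P1.mk 1 ε = P1.mk ((c + ε) * ε) ((c + ε) * ε ^ 2)
          rw [← P1.mk_smul (mul_ne_zero hcε hε) 1 ε]
          congr 1 <;> ring
        · refine tendsto_inv_eps.congr' ?_
          filter_upwards [hne, hc] with ε hε hcε
          show P1.mk 1 ε = P1.mk ((c + ε) * ε) ((c + ε) * ε ^ 2)
          rw [← P1.mk_smul (mul_ne_zero hcε hε) 1 ε]
          congr 1 <;> ring
        · refine (tendsto_coe_poly (f := fun ε => c + ε) (by fun_prop) (by simp)).congr' ?_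
          filter_upwards [hne, hc] with ε hε hcε
          show P1.mk (c + ε) 1 = P1.mk ((c + ε) * ε * ((c + ε) * ε)) ((c + ε) * ε ^ 2)
          rw [← P1.mk_smul (mul_ne_zero hcε (pow_ne_zero 2 hε)) (c + ε) 1]
          congr 1 <;> ring
      | infty =>
        have hinf2 : Tendsto (fun ε : ℂ => P1.mk 1 (ε ^ 2)) (𝓝[≠] 0) (𝓝 OnePoint.infty) := by
          have h3 : Tendsto (fun ε : ℂ => P1.mk 1 (ε ^ 2)) (𝓝 0) (𝓝 (P1.mk 1 0)) := by
            have h4 : Tendsto (fun ε : ℂ => ε ^ 2) (𝓝 0) (𝓝 0) := by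
              have := (continuous_pow 2 : Continuous fun ε : ℂ => ε ^ 2).tendsto 0
              simpa using this
            exact P1.tendsto_mk tendsto_const_nhds h4 (by simp)
          rw [P1.mk_zero] at h3
          exact h3.mono_left nhdsWithin_le_nhds
        refine ⟨fun ε => ![ε ^ 3, ε, ε], h0 (by fun_prop) (by fun_prop) (by fun_prop)
          (by simp) rfl rfl, ?_, ?_, ?_, ?_⟩
        · filter_upwards [hne] with ε hε using pow_ne_zero 3 hε
        · refine hinf2.congr' ?_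
          filter_upwards [hne] with ε hε
          show P1.mk 1 (ε ^ 2) = P1.mk ε (ε ^ 3)
          rw [← P1.mk_smul hε 1 (ε ^ 2)]
          congr 1 <;> ring
        · refine hinf2.congr' ?_
          filter_upwards [hne] with ε hε
          show P1.mk 1 (ε ^ 2) = P1.mk ε (ε ^ 3)
          rw [← P1.mk_smul hε 1 (ε ^ 2)]
          congr 1 <;> ring
        · refine tendsto_inv_eps.congr' ?_
          filter_upwards [hne] with ε hε
          show P1.mk 1 ε = P1.mk (ε * ε) (ε ^ 3)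
          rw [← P1.mk_smul (pow_ne_zero 2 hε) 1 ε]
          congr 1 <;> ring

end

end Crest.Agent.R272.Gr_559
end

-- ▼ part R272/Gr7_559
section

/-!
# R272 (S0415), MOD-GRAPH (helper559), file 8: density of the graph

* `exists_appr` : every point of `X1` is a limit of the graph over regular points of the base;
* **`dense_pz_preimage : Dense S → Dense (D.pz ⁻¹' S)`**;
* `frequently_ne` : `(∀ z, ∃ᶠ y in 𝓝 z, h y ≠ 0) → ∀ s : X1, ∃ᶠ y in 𝓝 s, h (D.pz y) ≠ 0`.
-/

set_option autoImplicit false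
set_option linter.unusedSectionVars false

open Set Filter Topology Complex

namespace Crest.Agent.R272.Gr_559

open Crest.Agent.R275.Geo Crest.Agent.R273.Fam_835 Crest.Agent.R272.Quot_783
open Crest.Agent.R272

noncomputable section

variable {N : Type} [TopologicalSpace N] {F : Fam 3 N} {D : GData F}

theorem tendsto_eps_mul (u : ℂ) {c : ℂ} (hc : c = 0) :
    Tendsto (fun ε : ℂ => ε * u) (𝓝[≠] 0) (𝓝 c) := by
  have : Tendsto (fun ε : ℂ => ε * u) (𝓝 0) (𝓝 (0 * u)) :=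
    (continuous_id.mul continuous_const).tendsto 0
  rw [zero_mul] at this
  rw [hc]
  exact this.mono_left nhdsWithin_le_nhds

theorem eq_infty_of_d {t : P1} (h : t.d = 0) : t = OnePoint.infty := by
  induction t using OnePoint.rec with
  | infty => rfl
  | coe c => exact absurd h one_ne_zero

theorem appr_rr {z : N} {t : Fin 2 → P1} {v : P1} {k : Fin 2 → P1}
    (hs : ((z, t, v, k) : GData.Amb N) ∈ D.X1) (hr : ∀ a, ¬ (D.f0 z = 0 ∧ D.x a z = 0)) :
    Appr D z t v k := by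
  obtain ⟨i, hi⟩ := F.cover z
  have h1 := (mem_X1_loc D (q := z) (fun a => Loc.reg D a z (hr a)) (y := (z, t, v, k))
    (fun a => (Loc.reg D a z (hr a)).mem)).1 hs
  have h2 := (relE_mk D hr t v).1 h1.1
  have hY : ∀ a, (z, t a, k a) ∈ D.Y a := hs.1
  have hv' : ¬ (D.x 0 z * D.x 1 z = 0 ∧ D.f0 z = 0) := by
    rintro ⟨h1, h2⟩
    rcases mul_eq_zero.1 h1 with h3 | h3
    · exact hr 0 ⟨h2, h3⟩
    · exact hr 1 ⟨h2, h3⟩
  -- common part
  have common : ∀ l : Filter N, l.NeBot → l ≤ 𝓝 z →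
      (∀ a, (∀ᶠ y in l, ¬ (D.P a y = 0 ∧ D.Q a y = 0)) ∧
        Tendsto (fun y => P1.mk (D.P a y) (D.Q a y)) l (𝓝 (P1.sq (k a)))) → Appr D z t v k := by
    intro l hlb hl hk
    have hx : ∀ a, Tendsto (D.x a) l (𝓝 (D.x a z)) := fun a =>
      (D.continuous_x a).continuousAt.tendsto.mono_left hl
    have hf : Tendsto D.f0 l (𝓝 (D.f0 z)) := D.continuous_f0.continuousAt.tendsto.mono_left hl
    refine ⟨l, hlb, hl, ?_, fun a => ?_, ?_, hk⟩
    · rw [Filter.eventually_all]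
      intro a
      exact hl ((Loc.reg D a z (hr a)).U_open.mem_nhds (Loc.reg D a z (hr a)).mem)
    · rw [h2.1 a]
      exact P1.tendsto_mk (hx a) hf (fun h => hr a ⟨h.2, h.1⟩)
    · rw [h2.2]
      exact P1.tendsto_mk ((hx 0).mul (hx 1)) hf hv'
  by_cases hbad : ∃ a, D.P a z = 0 ∧ D.Q a z = 0
  · obtain ⟨a, ha⟩ := hbad
    -- the other colour is good
    have hgood : ∀ b, b ≠ a → ¬ (D.P b z = 0 ∧ D.Q b z = 0) := by
      intro b hba hb
      have hall : ∀ c, D.P c z = 0 ∧ D.Q c z = 0 := by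
        intro c
        have hc : c = a ∨ c = b := by
          revert hba
          fin_cases a <;> fin_cases b <;> fin_cases c <;> simp
        rcases hc with rfl | rfl
        · exact ha
        · exact hb
      -- a surjection `ℂ³ → ℂ⁴`
      let L : Cn 3 →ₗ[ℂ] (Fin 2 → ℂ) × (Fin 2 → ℂ) :=
        (LinearMap.pi fun c => (dd F i (D.P c) z).toLinearMap).prod
          (LinearMap.pi fun c => (dd F i (D.Q c) z).toLinearMap)
      have hL : Function.Surjective L := by
        rintro ⟨φ, γ⟩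
        obtain ⟨V, hV⟩ := D.rr' hr hi φ γ
        exact ⟨V, Prod.ext (funext fun c => (hV c).1 (hall c).1)
          (funext fun c => (hV c).2 (hall c).2)⟩
      have h3 := LinearMap.finrank_le_finrank_of_surjective hL
      rw [Module.finrank_prod, Module.finrank_fintype_fun_eq_card, Fintype.card_fin,
        finrank_euclideanSpace, Fintype.card_fin] at h3
      omega
    -- the pair `(P a, Q a)` is open at `z`
    have hop := open_tuple (r := 2) isOpen_univ (h := ![D.P a, D.Q a]) (fun c => by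
      fin_cases c
      · exact D.P_hol a
      · exact D.Q_hol a) (mem_univ z) hi (fun w => by
      obtain ⟨V, hV⟩ := D.rr' hr hi (fun _ => w 0) (fun _ => w 1)
      refine ⟨V, fun c => ?_⟩
      fin_cases c
      · exact (hV a).1 ha.1
      · exact (hV a).2 ha.2)
    obtain ⟨l, hlb, hl, hlw⟩ := exists_curve
      (Ψ := fun y (c : Fin 2) => (![D.P a, D.Q a] : Fin 2 → N → ℂ) c y) (z := z) hop
      (w := fun ε => ![ε * (k a).n ^ 2, ε * (k a).d ^ 2]) (by
        rw [tendsto_pi_nhds]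
        intro c
        fin_cases c
        · exact tendsto_eps_mul ((k a).n ^ 2) ha.1
        · exact tendsto_eps_mul ((k a).d ^ 2) ha.2)
    have hev : ∀ᶠ y in l, ∃ ε : ℂ, ε ≠ 0 ∧ D.P a y = ε * (k a).n ^ 2 ∧
        D.Q a y = ε * (k a).d ^ 2 := by
      have h4 : ∀ᶠ w in map (fun ε : ℂ => (![ε * (k a).n ^ 2, ε * (k a).d ^ 2] : Fin 2 → ℂ))
          (𝓝[≠] 0), ∃ ε : ℂ, ε ≠ 0 ∧ w 0 = ε * (k a).n ^ 2 ∧ w 1 = ε * (k a).d ^ 2 := by
        rw [Filter.eventually_map]
        filter_upwards [self_mem_nhdsWithin] with ε hε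
        exact ⟨ε, hε, rfl, rfl⟩
      exact hlw.eventually h4
    refine common l hlb hl fun b => ?_
    by_cases hba : b = a
    · subst hba
      have hnd := P1.nd_ne (k b)
      refine ⟨?_, ?_⟩
      · filter_upwards [hev] with y ⟨ε, hε, e1, e2⟩ h5
        rw [e1, e2] at h5
        exact hnd ⟨pow_eq_zero_iff (two_ne_zero) |>.1 ((mul_eq_zero.1 h5.1).resolve_left hε),
          pow_eq_zero_iff (two_ne_zero) |>.1 ((mul_eq_zero.1 h5.2).resolve_left hε)⟩
      · refine tendsto_const_nhds.congr' ?_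
        filter_upwards [hev] with y ⟨ε, hε, e1, e2⟩
        rw [e1, e2, P1.mk_smul hε]
        rfl
    · exact mk_PQ_tendsto_reg (hY b) (hr b) (hgood b hba) hl
  · push Not at hbad
    refine common (𝓝 z) inferInstance le_rfl fun b => ?_
    exact mk_PQ_tendsto_reg (hY b) (hr b) (fun h => hbad b h.1 h.2) le_rfl

theorem appr_fr {z : N} {t : Fin 2 → P1} {v : P1} {k : Fin 2 → P1}
    (hs : ((z, t, v, k) : GData.Amb N) ∈ D.X1) {a b : Fin 2} (hab : a ≠ b) (hf0 : D.f0 z = 0)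
    (hxa : D.x a z = 0) (hxb : D.x b z ≠ 0) : Appr D z t v k := by
  obtain ⟨i, hi⟩ := F.cover z
  choose C hC using fun a => D.exists_loc a z
  have hY : ∀ a, (z, t a, k a) ∈ D.Y a := hs.1
  have hR := (relE_iff D hab _ _ _ _ _).1 ((mem_X1_loc D C (y := (z, t, v, k))
    fun a => (C a).mem).1 hs).1
  obtain ⟨hR1, hR2, hR3, hR4⟩ := hR
  beta_reduce at hR1 hR2 hR3 hR4
  simp only at hR1 hR2 hR3 hR4
  have htb : t b = OnePoint.infty := by
    have h1 : D.x b z * (t b).d = 0 := by rw [hR2, hf0, zero_mul]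
    exact eq_infty_of_d ((mul_eq_zero.1 h1).resolve_left hxb)
  have hop := open_tuple (r := 2) isOpen_univ (h := ![D.x a, D.f0]) (fun c => by
    fin_cases c
    · exact D.x_hol a
    · exact D.f0_hol) (mem_univ z) hi (fun w => by
    obtain ⟨V, e1, e2, -, -⟩ := D.fr' hab hf0 hxa hxb hi (w 1) (w 0) 0 0
    refine ⟨V, fun c => ?_⟩
    fin_cases c
    · exact e2
    · exact e1)
  obtain ⟨l, hlb, hl, hlw⟩ := exists_curve
    (Ψ := fun y (c : Fin 2) => (![D.x a, D.f0] : Fin 2 → N → ℂ) c y) (z := z) hop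
    (w := fun ε => ![ε * (t a).n, ε * (t a).d]) (by
      rw [tendsto_pi_nhds]
      intro c
      fin_cases c
      · exact tendsto_eps_mul (t a).n hxa
      · exact tendsto_eps_mul (t a).d hf0)
  have hev : ∀ᶠ y in l, ∃ ε : ℂ, ε ≠ 0 ∧ D.x a y = ε * (t a).n ∧ D.f0 y = ε * (t a).d := by
    have h4 : ∀ᶠ w in map (fun ε : ℂ => (![ε * (t a).n, ε * (t a).d] : Fin 2 → ℂ))
        (𝓝[≠] 0), ∃ ε : ℂ, ε ≠ 0 ∧ w 0 = ε * (t a).n ∧ w 1 = ε * (t a).d := by
      rw [Filter.eventually_map]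
      filter_upwards [self_mem_nhdsWithin] with ε hε
      exact ⟨ε, hε, rfl, rfl⟩
    exact hlw.eventually h4
  have hxl : ∀ c, Tendsto (D.x c) l (𝓝 (D.x c z)) := fun c =>
    (D.continuous_x c).continuousAt.tendsto.mono_left hl
  have hfl : Tendsto D.f0 l (𝓝 (D.f0 z)) := D.continuous_f0.continuousAt.tendsto.mono_left hl
  have hxbl : ∀ᶠ y in l, D.x b y ≠ 0 := (hxl b).eventually_ne hxb
  have hc : ∀ c, c = a ∨ c = b := by
    intro c
    revert hab
    fin_cases a <;> fin_cases b <;> fin_cases c <;> simp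
  have hregs : ∀ᶠ y in l, ∀ c, ¬ (D.f0 y = 0 ∧ D.x c y = 0) := by
    filter_upwards [hev, hxbl] with y ⟨ε, hε, e1, e2⟩ h5 c h6
    rcases hc c with rfl | rfl
    · rw [e1, e2] at h6
      exact P1.nd_ne (t c) ⟨(mul_eq_zero.1 h6.2).resolve_left hε,
        (mul_eq_zero.1 h6.1).resolve_left hε⟩
    · exact h5 h6.2
  have hta : Tendsto (fun y => P1.mk (D.x a y) (D.f0 y)) l (𝓝 (t a)) := by
    refine tendsto_const_nhds.congr' ?_
    filter_upwards [hev] with y ⟨ε, hε, e1, e2⟩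
    rw [e1, e2, P1.mk_smul hε, P1.mk_nd]
  have ht : ∀ c, Tendsto (fun y => P1.mk (D.x c y) (D.f0 y)) l (𝓝 (t c)) := by
    intro c
    rcases hc c with rfl | rfl
    · exact hta
    · have h7 := P1.tendsto_mk (hxl c) hfl (fun h => hxb h.1)
      rw [hf0, P1.mk_zero] at h7
      rw [htb]
      exact h7
  have hPb : ¬ (D.P b z = 0 ∧ D.Q b z = 0) := by
    rintro ⟨h8, h9⟩
    let L : Cn 3 →ₗ[ℂ] (Fin 4 → ℂ) := LinearMap.pi
      ![(dd F i D.f0 z).toLinearMap, (dd F i (D.x a) z).toLinearMap,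
        (dd F i (D.P b) z).toLinearMap, (dd F i (D.Q b) z).toLinearMap]
    have hL : Function.Surjective L := by
      intro w
      obtain ⟨V, e1, e2, e3, e4⟩ := D.fr' hab hf0 hxa hxb hi (w 0) (w 1) (w 2) (w 3)
      refine ⟨V, funext fun c => ?_⟩
      fin_cases c
      · exact e1
      · exact e2
      · exact e3 h8
      · exact e4 h9
    have h3 := LinearMap.finrank_le_finrank_of_surjective hL
    rw [Module.finrank_fintype_fun_eq_card, Fintype.card_fin, finrank_euclideanSpace,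
      Fintype.card_fin] at h3
    omega
  refine ⟨l, hlb, hl, hregs, ht, ?_, fun c => ?_⟩
  · -- the coordinate `v`
    have hnev : ¬ ((t a).n * D.x b z = 0 ∧ (t a).d = 0) := by
      rintro ⟨h1, h2⟩
      exact P1.nd_ne (t a) ⟨(mul_eq_zero.1 h1).resolve_right hxb, h2⟩
    have hv : v = P1.mk ((t a).n * D.x b z) (t a).d := by
      refine (P1.rel_iff hnev v).1 ?_
      linear_combination -hR3
    rw [hv]
    have h7 : Tendsto (fun y => P1.mk ((t a).n * D.x b y) (t a).d) l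
        (𝓝 (P1.mk ((t a).n * D.x b z) (t a).d)) :=
      P1.tendsto_mk ((tendsto_const_nhds).mul (hxl b)) tendsto_const_nhds hnev
    refine h7.congr' ?_
    filter_upwards [hev] with y ⟨ε, hε, e1, e2⟩
    have h8 : D.x 0 y * D.x 1 y = D.x a y * D.x b y := by
      revert hab
      fin_cases a <;> fin_cases b <;> simp [mul_comm]
    rw [h8, e1, e2, mul_assoc, P1.mk_smul hε]
  · rcases hc c with rfl | rfl
    · exact mk_PQ_tendsto (C c) (hY c) ((hC c).ne_flat hf0 hxa _) hl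
        (hregs.mono fun y hy => hy c) hta
    · exact mk_PQ_tendsto_reg (hY c) (fun h => hxb h.2) hPb hl

theorem appr_ff {z : N} {t : Fin 2 → P1} {v : P1} {k : Fin 2 → P1}
    (hs : ((z, t, v, k) : GData.Amb N) ∈ D.X1) (hf0 : D.f0 z = 0)
    (hx0 : D.x 0 z = 0) (hx1 : D.x 1 z = 0) : Appr D z t v k := by
  obtain ⟨i, hi⟩ := F.cover z
  choose C hC using fun a => D.exists_loc a z
  have hY : ∀ a, (z, t a, k a) ∈ D.Y a := hs.1
  obtain ⟨-, hR3, hR4⟩ := ((mem_X1_loc D C (y := (z, t, v, k)) fun a => (C a).mem).1 hs).1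
  beta_reduce at hR3 hR4
  simp only at hR3 hR4
  rw [hx1, mul_zero] at hR3
  rw [hx0, mul_zero] at hR4
  obtain ⟨w, hw1, hw2, hw3, hw4, hw5⟩ := exists_curve3 (t 0) (t 1) v hR3 hR4
  have hop := open_tuple (r := 3) isOpen_univ (h := ![D.f0, D.x 0, D.x 1]) (fun c => by
    fin_cases c
    · exact D.f0_hol
    · exact D.x_hol 0
    · exact D.x_hol 1) (mem_univ z) hi (fun w => by
    obtain ⟨V, e1, e2, e3⟩ := D.ff' hf0 hx0 hx1 hi (w 0) (w 1) (w 2)
    refine ⟨V, fun c => ?_⟩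
    fin_cases c
    · exact e1
    · exact e2
    · exact e3)
  have hz0 : (fun c : Fin 3 => (![D.f0, D.x 0, D.x 1] : Fin 3 → N → ℂ) c z) = 0 := by
    funext c
    fin_cases c
    · exact hf0
    · exact hx0
    · exact hx1
  obtain ⟨l, hlb, hl, hlw⟩ := exists_curve
    (Ψ := fun y (c : Fin 3) => (![D.f0, D.x 0, D.x 1] : Fin 3 → N → ℂ) c y) (z := z) hop
    (w := w) (by rw [hz0]; exact hw1)
  have hev : ∀ᶠ y in l, D.f0 y ≠ 0 := by
    have h4 : ∀ᶠ u in map w (𝓝[≠] 0), u 0 ≠ 0 := by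
      rw [Filter.eventually_map]; exact hw2
    exact hlw.eventually h4
  have ht0 : Tendsto (fun y => P1.mk (D.x 0 y) (D.f0 y)) l (𝓝 (t 0)) :=
    (tendsto_map'_iff.2 hw3 : Tendsto (fun u : Fin 3 → ℂ => P1.mk (u 1) (u 0)) _ _).comp hlw
  have ht1 : Tendsto (fun y => P1.mk (D.x 1 y) (D.f0 y)) l (𝓝 (t 1)) :=
    (tendsto_map'_iff.2 hw4 : Tendsto (fun u : Fin 3 → ℂ => P1.mk (u 2) (u 0)) _ _).comp hlw
  have hv : Tendsto (fun y => P1.mk (D.x 0 y * D.x 1 y) (D.f0 y)) l (𝓝 v) :=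
    (tendsto_map'_iff.2 hw5 :
      Tendsto (fun u : Fin 3 → ℂ => P1.mk (u 1 * u 2) (u 0)) _ _).comp hlw
  have ht : ∀ c, Tendsto (fun y => P1.mk (D.x c y) (D.f0 y)) l (𝓝 (t c)) := by
    intro c
    fin_cases c
    · exact ht0
    · exact ht1
  have hx : ∀ c, D.x c z = 0 := fun c => by fin_cases c; exacts [hx0, hx1]
  refine ⟨l, hlb, hl, hev.mono fun y hy c h => hy h.1, ht, hv, fun c => ?_⟩
  exact mk_PQ_tendsto (C c) (hY c) ((hC c).ne_flat hf0 (hx c) _) hl
    (hev.mono fun y hy h => hy h.1) (ht c)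

/-- every point of `X1` is a limit of the graph -/
theorem exists_appr {z : N} {t : Fin 2 → P1} {v : P1} {k : Fin 2 → P1}
    (hs : ((z, t, v, k) : GData.Amb N) ∈ D.X1) : Appr D z t v k := by
  by_cases hf0 : D.f0 z = 0
  · by_cases h0 : D.x 0 z = 0
    · by_cases h1 : D.x 1 z = 0
      · exact appr_ff hs hf0 h0 h1
      · exact appr_fr hs (a := 0) (b := 1) (by decide) hf0 h0 h1
    · by_cases h1 : D.x 1 z = 0
      · exact appr_fr hs (a := 1) (b := 0) (by decide) hf0 h1 h0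
      · exact appr_rr hs fun a h => by
          fin_cases a
          exacts [h0 h.2, h1 h.2]
  · exact appr_rr hs fun a h => hf0 h.1

/-- **the preimage of a dense subset of the base is dense in `X1`** -/
theorem dense_pz_preimage (D : GData F) {S : Set N} (hS : Dense S) : Dense (D.pz ⁻¹' S) := by
  rintro ⟨⟨z, t, v, k⟩, hs⟩
  rw [mem_closure_iff_nhds]
  intro W hW
  rw [nhds_subtype_eq_comap] at hW
  obtain ⟨W', hW', hWW⟩ := hW
  obtain ⟨W0, hW0, hWo, hsW⟩ := mem_nhds_iff.1 hW'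
  -- squaring the last coordinates
  let Sq : GData.Amb N → GData.Amb N :=
    Prod.map _root_.id (Prod.map _root_.id (Prod.map _root_.id (Pi.map fun _ : Fin 2 => P1.sq)))
  have hSq : IsOpenMap Sq := IsOpenMap.id.prodMap (IsOpenMap.id.prodMap (IsOpenMap.id.prodMap
    (IsOpenMap.piMap (fun _ => P1.isOpenMap_sq) (Filter.Eventually.of_forall fun _ => P1.exists_sq))))
  have hA : IsOpen (Sq '' W0) := hSq _ hWo
  obtain ⟨l, hlb, hl, hreg, ht, hv, hk⟩ := exists_appr hs
  let R : N → GData.Amb N := fun y => (y, (fun a => P1.mk (D.x a y) (D.f0 y)),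
    P1.mk (D.x 0 y * D.x 1 y) (D.f0 y), fun a => P1.mk (D.P a y) (D.Q a y))
  have hR : Tendsto R l (𝓝 (Sq (z, t, v, k))) := by
    have h1 : Tendsto (fun y : N => y) l (𝓝 z) := hl
    have h2 : Tendsto (fun y => fun a => P1.mk (D.x a y) (D.f0 y)) l (𝓝 t) :=
      tendsto_pi_nhds.2 ht
    have h3 : Tendsto (fun y => fun a => P1.mk (D.P a y) (D.Q a y)) l
        (𝓝 (fun a => P1.sq (k a))) := tendsto_pi_nhds.2 fun a => (hk a).2
    exact h1.prodMk_nhds (h2.prodMk_nhds (hv.prodMk_nhds h3))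
  have hPQ : ∀ᶠ y in l, ∀ a, ¬ (D.P a y = 0 ∧ D.Q a y = 0) := by
    rw [Filter.eventually_all]
    exact fun a => (hk a).1
  have hev : ∀ᶠ y in l, R y ∈ Sq '' W0 := hR.eventually (hA.mem_nhds ⟨_, hsW, rfl⟩)
  obtain ⟨y, hyr, hyP, hyA⟩ := (hreg.and (hPQ.and hev)).exists
  -- an open set of good points near `y`
  have hcx : ∀ a, ContinuousAt (D.x a) y := fun a => (D.continuous_x a).continuousAt
  have hcf : ContinuousAt D.f0 y := D.continuous_f0.continuousAt
  have hcR : ContinuousAt R y := by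
    refine continuousAt_id.prodMk ((continuousAt_pi.2 fun a => ?_).prodMk
      (ContinuousAt.prodMk ?_ (continuousAt_pi.2 fun a => ?_)))
    · exact P1A_54.continuousAt_mk (hcx a) hcf fun h => hyr a ⟨h.2, h.1⟩
    · refine P1A_54.continuousAt_mk ((hcx 0).mul (hcx 1)) hcf fun h => ?_
      rcases mul_eq_zero.1 h.1 with h3 | h3
      · exact hyr 0 ⟨h.2, h3⟩
      · exact hyr 1 ⟨h.2, h3⟩
    · exact P1A_54.continuousAt_mk (D.continuous_P a).continuousAt (D.continuous_Q a).continuousAt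
        (hyP a)
  have hopen : ∀ a, IsOpen {y | ¬ (D.P a y = 0 ∧ D.Q a y = 0)} := by
    intro a
    have h1 : {y | ¬ (D.P a y = 0 ∧ D.Q a y = 0)} = ({y | D.P a y = 0} ∩ {y | D.Q a y = 0})ᶜ := rfl
    rw [h1]
    exact ((isClosed_eq (D.continuous_P a) continuous_const).inter
      (isClosed_eq (D.continuous_Q a) continuous_const)).isOpen_compl
  have hgood : ∀ᶠ y' in 𝓝 y, (∀ a, ¬ (D.f0 y' = 0 ∧ D.x a y' = 0)) ∧
      (∀ a, ¬ (D.P a y' = 0 ∧ D.Q a y' = 0)) ∧ R y' ∈ Sq '' W0 := by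
    refine Filter.Eventually.and ?_ (Filter.Eventually.and ?_ (hcR.eventually (hA.mem_nhds hyA)))
    · rw [Filter.eventually_all]
      exact fun a => (Loc.reg D a y (hyr a)).U_open.mem_nhds (Loc.reg D a y (hyr a)).mem
    · rw [Filter.eventually_all]
      exact fun a => (hopen a).mem_nhds (hyP a)
  obtain ⟨y', hy'⟩ := mem_closure_iff_nhds.1 (hS y) _ hgood
  obtain ⟨⟨hr', hP', p, hp, hpR⟩, hyS⟩ := hy'
  have e1 : p.1 = y' := congrArg Prod.fst hpR
  have e2 : p.2.1 = fun a => P1.mk (D.x a y') (D.f0 y') := congrArg (fun q => q.2.1) hpR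
  have e3 : p.2.2.1 = P1.mk (D.x 0 y' * D.x 1 y') (D.f0 y') := congrArg (fun q => q.2.2.1) hpR
  have e4 : (fun a => P1.sq (p.2.2.2 a)) = fun a => P1.mk (D.P a y') (D.Q a y') :=
    congrArg (fun q => q.2.2.2) hpR
  have hmem : p ∈ D.X1 := by
    have h1 := mem_X1_reg D hr' hP' p.2.1 p.2.2.1 p.2.2.2
    have h2 : p = (y', p.2.1, p.2.2.1, p.2.2.2) := Prod.ext e1 rfl
    rw [h2, h1]
    exact ⟨fun a => congrFun e2 a, e3, fun a => congrFun e4 a⟩
  refine ⟨⟨p, hmem⟩, hWW (hW0 hp), ?_⟩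
  show p.1 ∈ S
  rw [e1]
  exact hyS

/-- a function which is nowhere locally zero on the base is nowhere locally zero on `X1` -/
theorem frequently_ne (D : GData F) {h : N → ℂ} (hN : ∀ z, ∃ᶠ y in 𝓝 z, h y ≠ 0) (s : D.X1) :
    ∃ᶠ y in 𝓝 s, h (D.pz y) ≠ 0 := by
  have hS : Dense {y | h y ≠ 0} := fun z => mem_closure_iff_frequently.2 (hN z)
  exact mem_closure_iff_frequently.1 (dense_pz_preimage D hS s)

end

end Crest.Agent.R272.Gr_559
end

-- ▼ part R272/Lc12_220

/-!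
# R272, LC-MINUS (helper220), part 12: `NzX` for the instance, and the final form of `pos15`

* `nzX_of`  : `NzX A` from the non vanishing on the base (559's `frequently_ne`);
* `nzX_ins M : NzX M.A`;
* `Pos15_220.JM hX`, `RM hX`, `pos15'` : `pos15` without the hypothesis `hz`.
-/

set_option autoImplicit false
set_option linter.unusedSectionVars false
set_option linter.unusedVariables false

open Set Filter Topology

namespace Crest.Agent.R272.Lc_220

open Crest.Agent.R275.Geo Crest.Agent.R273.Fam_835 Crest.Agent.R272.Quot_783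
  Crest.Agent.R272.Gr_559 Crest.Agent.R272.Act_302

variable {N : Type} [TopologicalSpace N] {F : Fam 3 N} {D : GData F}

theorem nz_iff {X : Type} [TopologicalSpace X] {x : X} {f : X → ℂ} :
    NZ x f ↔ ∃ᶠ y in 𝓝 x, f y ≠ 0 := by
  unfold NZ
  rw [Filter.not_eventually]

/-- non vanishing lifts to `X1` -/
theorem nz_pz (D : GData F) {h : N → ℂ} (hN : ∀ z, NZ z h) (s : D.X1) :
    NZ s fun y => h (D.pz y) :=
  nz_iff.2 (frequently_ne D (fun z => nz_iff.1 (hN z)) s)

variable {G : Type} [Group G] [MulAction G N] (A : GAct D G)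

theorem nzX_of (h1 : ∀ z, NZ z D.f0) (h4 : ∀ i z, NZ z (D.Q i)) : NzX A := by
  intro k y
  rcases k with i | _ | i
  · exact Or.inr (nz_pz D h1 y)
  · exact Or.inr (nz_pz D h1 y)
  · exact Or.inr (nz_pz D (h4 i) y)

/-- **the instance** -/
theorem nzX_ins (M : M15_939.Ar) : NzX M.A :=
  nzX_of M.A (nz_ins M).1 (nz_ins M).2.2.2

end Crest.Agent.R272.Lc_220

namespace Crest.Agent.R272.Pos15_220

open Crest.Agent.R275.Geo Crest.Agent.R275.Core144 Crest.Agent.R275.GC293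
open Crest.Agent.R273 Crest.Agent.R273.Defs_333 Crest.Agent.R273.Map_835
open Crest.Agent.R273.Fam_835
open Crest.Agent.R272.Quot_783 Crest.Agent.R272.Gr_559 Crest.Agent.R272.Refl_246
open Crest.Agent.R272.MQ_783 Crest.Agent.R272.Act_302 Crest.Agent.R272.CB_232
open Crest.Agent.R272.Sur_342 Crest.Agent.R272.PEnd_732 Crest.Agent.R272.Lc_220
open Crest.Agent.R272.M15_939

noncomputable section

variable {M : Ar} (hX : RA M.CX M.G)

/-- equations of `L_1²` on `X⁻` (instance) -/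
abbrev JM : Eqs hX.fam univ := J hX (nzX_ins M)


end

end Crest.Agent.R272.Pos15_220
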