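import Crest.Agent.R272.Lc1_220
import Crest.Agent.R272.Kum1_977
import Mathlib
import Crest.Agent.R272.PhiDefs_92
import Crest.Agent.R272.FinCB3_876
import Crest.Agent.R272.Lc3_220
import Crest.Agent.R272.Tq1_916
import Crest.Agent.R272.Cur5_297
import Crest.Agent.R272.IdnDefs_834
import Crest.Agent.R272.LcR2_783

-- ▼ part R272/Kum2_977
section

set_option autoImplicit false
set_option linter.unusedVariables false

open Filter Topology Set

noncomputable section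

namespace Crest.Agent.R272.Kum_977

open Crest.Agent.R273.Fam_835 Crest.Agent.R272.Lc_220

variable {n : ℕ} {X : Type} [TopologicalSpace X] {C : Fam n X} {x : X} {a : Fin 7 → ℂ}
  {s r η s' r' η' : X → ℂ}

/-- a holomorphic frame -/
structure Fr (C : Fam n X) (a : Fin 7 → ℂ) (x : X) (s r η : X → ℂ) : Prop where
  hs : HolN C x s
  hr : HolN C x r
  he : HolN C x η
  eq : ∀ᶠ y in 𝓝 x, η y ^ 2 = fh a (s y) (r y)
  ne : s x ≠ 0 ∨ r x ≠ 0

theorem Fr.eventually (h : Fr C a x s r η) : ∀ᶠ y in 𝓝 x, Fr C a y s r η := by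
  have h1 : ∀ᶠ y in 𝓝 x, s y ≠ 0 ∨ r y ≠ 0 := by
    rcases h.ne with h2 | h2
    · exact (h.hs.continuousAt.eventually_ne h2).mono fun y hy => Or.inl hy
    · exact (h.hr.continuousAt.eventually_ne h2).mono fun y hy => Or.inr hy
  filter_upwards [h.hs.eventually, h.hr.eventually, h.he.eventually, h.eq.eventually_nhds, h1]
    with y h2 h3 h4 h5 h6
  exact ⟨h2, h3, h4, h5, h6⟩

theorem Fr.self (h : Fr C a x s r η) : η x ^ 2 = fh a (s x) (r x) := h.eq.self_of_nhds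

/-- change of frame -/
theorem Fr.smul (h : Fr C a x s r η) {l : X → ℂ} (hl : HolN C x l) (h0 : l x ≠ 0) :
    Fr C a x (fun y => l y * s y) (fun y => l y * r y) (fun y => l y ^ 3 * η y) where
  hs := hl.mul h.hs
  hr := hl.mul h.hr
  he := (hl.pow 3).mul h.he
  eq := by
    filter_upwards [h.eq] with y hy
    rw [fh_smul, ← hy]; ring
  ne := by
    rcases h.ne with h1 | h1
    · exact Or.inl (mul_ne_zero h0 h1)
    · exact Or.inr (mul_ne_zero h0 h1)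

section hol

/-- closes goals `HolN C x (polynomial in holomorphic functions)` -/
macro "holn" : tactic => `(tactic| repeat' (first
  | assumption
  | exact holN_const _
  | refine HolN.add ?_ ?_
  | refine HolN.sub ?_ ?_
  | refine HolN.mul ?_ ?_
  | refine HolN.pow ?_ _
  | refine HolN.neg ?_))


theorem holN_del (hs : HolN C x s) (hr : HolN C x r) (hs' : HolN C x s') (hr' : HolN C x r') :
    HolN C x fun y => del (s y) (r y) (s' y) (r' y) :=
  (hr.mul hs').sub (hs.mul hr')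

theorem holN_Fh (hs : HolN C x s) (hr : HolN C x r) (hs' : HolN C x s') (hr' : HolN C x r') :
    HolN C x fun y => Fh a (s y) (r y) (s' y) (r' y) := by
  unfold Fh
  holn

theorem holN_K0 (hs : HolN C x s) (hr : HolN C x r) (hs' : HolN C x s') (hr' : HolN C x r') :
    HolN C x fun y => K0 a (s y) (r y) (s' y) (r' y) := by
  unfold K0 Kq
  holn

theorem Fr.holN_rho (h : Fr C a x s r η) (h' : Fr C a x s' r' η') :
    HolN C x fun y => rho a (s y) (r y) (η y) (s' y) (r' y) (η' y) :=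
  (holN_Fh h.hs h.hr h'.hs h'.hr).sub (((holN_const 2).mul h.he).mul h'.he)

theorem Fr.holN_rhob (h : Fr C a x s r η) (h' : Fr C a x s' r' η') :
    HolN C x fun y => rhob a (s y) (r y) (η y) (s' y) (r' y) (η' y) :=
  (holN_Fh h.hs h.hr h'.hs h'.hr).add (((holN_const 2).mul h.he).mul h'.he)

end hol

/-- `x` is not on `Γ` -/
def Off (a : Fin 7 → ℂ) (x : X) (s r η s' r' η' : X → ℂ) : Prop :=
  del (s x) (r x) (s' x) (r' x) ≠ 0 ∨ rhob a (s x) (r x) (η x) (s' x) (r' x) (η' x) ≠ 0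

theorem Fr.off_eventually (h : Fr C a x s r η) (h' : Fr C a x s' r' η')
    (h0 : Off a x s r η s' r' η') : ∀ᶠ y in 𝓝 x, Off a y s r η s' r' η' := by
  rcases h0 with h0 | h0
  · exact ((holN_del h.hs h.hr h'.hs h'.hr).continuousAt.eventually_ne h0).mono
      fun y hy => Or.inl hy
  · exact ((h.holN_rhob h').continuousAt.eventually_ne h0).mono fun y hy => Or.inr hy

/-- **the fourth Kummer coordinate is holomorphic off `Γ`** -/
theorem Fr.holN_GG (h : Fr C a x s r η) (h' : Fr C a x s' r' η')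
    (h0 : Off a x s r η s' r' η') :
    HolN C x fun y => GG a (s y) (r y) (η y) (s' y) (r' y) (η' y) := by
  have hd := holN_del h.hs h.hr h'.hs h'.hr
  rcases h0 with h0 | h0
  · refine holN_congr ((h.holN_rho h').div (hd.pow 2) (pow_ne_zero 2 h0)) ?_
    filter_upwards [hd.continuousAt.eventually_ne h0] with y hy
    exact GG_of_del a hy
  · refine holN_congr ((holN_K0 (a := a) h.hs h.hr h'.hs h'.hr).div (h.holN_rhob h') h0) ?_
    filter_upwards [(h.holN_rhob h').continuousAt.eventually_ne h0, h.eq, h'.eq] with y hy h1 h2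
    exact GG_of_rhob a h1 h2 hy

theorem Fr.GG_mul (h : Fr C a x s r η) (h' : Fr C a x s' r' η')
    (h0 : Off a x s r η s' r' η') :
    ∀ᶠ y in 𝓝 x, GG a (s y) (r y) (η y) (s' y) (r' y) (η' y) * del (s y) (r y) (s' y) (r' y) ^ 2
      = rho a (s y) (r y) (η y) (s' y) (r' y) (η' y) := by
  filter_upwards [h.off_eventually h' h0, h.eq, h'.eq] with y hy h1 h2
  exact Kum_977.GG_mul a h1 h2 hy

/-! ### near `Γ` -/

/-- the inverse of the fourth Kummer coordinate -/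
def GI (a : Fin 7 → ℂ) (s r η s' r' η' : ℂ) : ℂ :=
  open Classical in
  if rho a s r η s' r' η' = 0 then rhob a s r η s' r' η' / K0 a s r s' r'
  else del s r s' r' ^ 2 / rho a s r η s' r' η'

theorem GI_of_rho {s r η s' r' η' : ℂ} (h : rho a s r η s' r' η' ≠ 0) :
    GI a s r η s' r' η' = del s r s' r' ^ 2 / rho a s r η s' r' η' := if_neg h

theorem GI_of_K0 {s r η s' r' η' : ℂ} (h : η ^ 2 = fh a s r) (h' : η' ^ 2 = fh a s' r')
    (h0 : K0 a s r s' r' ≠ 0) :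
    GI a s r η s' r' η' = rhob a s r η s' r' η' / K0 a s r s' r' := by
  by_cases hd : rho a s r η s' r' η' = 0
  · exact if_pos hd
  · rw [GI_of_rho hd, div_eq_div_iff hd h0, ← rho_mul_rhob a h h']
    ring

theorem GI_mul_rho {s r η s' r' η' : ℂ} (h : η ^ 2 = fh a s r) (h' : η' ^ 2 = fh a s' r')
    (h0 : rho a s r η s' r' η' ≠ 0 ∨ K0 a s r s' r' ≠ 0) :
    GI a s r η s' r' η' * rho a s r η s' r' η' = del s r s' r' ^ 2 := by
  rcases h0 with h0 | h0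
  · rw [GI_of_rho h0, div_mul_cancel₀ _ h0]
  · rw [GI_of_K0 h h' h0, div_mul_eq_mul_div, div_eq_iff h0, ← rho_mul_rhob a h h']
    ring



/-- condition near `Γ` -/
def Near (a : Fin 7 → ℂ) (x : X) (s r η s' r' η' : X → ℂ) : Prop :=
  rho a (s x) (r x) (η x) (s' x) (r' x) (η' x) ≠ 0 ∨ K0 a (s x) (r x) (s' x) (r' x) ≠ 0

theorem Fr.near_eventually (h : Fr C a x s r η) (h' : Fr C a x s' r' η')
    (h0 : Near a x s r η s' r' η') : ∀ᶠ y in 𝓝 x, Near a y s r η s' r' η' := by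
  rcases h0 with h0 | h0
  · exact ((h.holN_rho h').continuousAt.eventually_ne h0).mono fun y hy => Or.inl hy
  · exact ((holN_K0 h.hs h.hr h'.hs h'.hr).continuousAt.eventually_ne h0).mono
      fun y hy => Or.inr hy

/-- **the inverse of the fourth Kummer coordinate is holomorphic near `Γ`** -/
theorem Fr.holN_GI (h : Fr C a x s r η) (h' : Fr C a x s' r' η')
    (h0 : Near a x s r η s' r' η') :
    HolN C x fun y => GI a (s y) (r y) (η y) (s' y) (r' y) (η' y) := by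
  rcases h0 with h0 | h0
  · refine holN_congr (((holN_del h.hs h.hr h'.hs h'.hr).pow 2).div (h.holN_rho h') h0) ?_
    filter_upwards [(h.holN_rho h').continuousAt.eventually_ne h0] with y hy
    exact GI_of_rho hy
  · have hk := holN_K0 (a := a) h.hs h.hr h'.hs h'.hr
    refine holN_congr ((h.holN_rhob h').div hk h0) ?_
    filter_upwards [hk.continuousAt.eventually_ne h0, h.eq, h'.eq] with y hy h1 h2
    exact GI_of_K0 h1 h2 hy

theorem Fr.GI_mul (h : Fr C a x s r η) (h' : Fr C a x s' r' η')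
    (h0 : Near a x s r η s' r' η') :
    ∀ᶠ y in 𝓝 x, GI a (s y) (r y) (η y) (s' y) (r' y) (η' y)
      * rho a (s y) (r y) (η y) (s' y) (r' y) (η' y) = del (s y) (r y) (s' y) (r' y) ^ 2 := by
  filter_upwards [h.near_eventually h' h0, h.eq, h'.eq] with y hy h1 h2
  exact GI_mul_rho h1 h2 hy

/-- the sextic has simple roots (`K0 = (f')²` at a root) -/
def Simple (a : Fin 7 → ℂ) : Prop :=
  ∀ s r : ℂ, (s ≠ 0 ∨ r ≠ 0) → fh a s r = 0 → K0 a s r s r ≠ 0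

/-- `∂ fh / ∂ r` -/
def fhr (a : Fin 7 → ℂ) (s r : ℂ) : ℂ :=
  a 1 * s ^ 5 + 2 * a 2 * r * s ^ 4 + 3 * a 3 * r ^ 2 * s ^ 3 + 4 * a 4 * r ^ 3 * s ^ 2
    + 5 * a 5 * r ^ 4 * s + 6 * a 6 * r ^ 5

theorem fhr_sq (s r : ℂ) : fhr a s r ^ 2 = s ^ 2 * K0 a s r s r
    + 4 * fh a s r * (a 2 * s ^ 4 + 2 * a 3 * r * s ^ 3 + 4 * a 4 * r ^ 2 * s ^ 2
      + 6 * a 5 * r ^ 3 * s + 9 * a 6 * r ^ 4) := by
  unfold fhr K0 Kq fh; ring

theorem hasDerivAt_fh (s r : ℂ) : HasDerivAt (fun t => fh a s t) (fhr a s r) r := by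
  have hid := hasDerivAt_id r
  have h1 := ((((((((hasDerivAt_const r (a 0 * s ^ 6)).add
    ((hid.const_mul (a 1)).mul_const (s ^ 5))).add
    (((hid.pow 2).const_mul (a 2)).mul_const (s ^ 4))).add
    (((hid.pow 3).const_mul (a 3)).mul_const (s ^ 3))).add
    (((hid.pow 4).const_mul (a 4)).mul_const (s ^ 2))).add
    (((hid.pow 5).const_mul (a 5)).mul_const s)).add
    ((hid.pow 6).const_mul (a 6))))
  refine (h1.congr_deriv ?_).congr_of_eventuallyEq (Eventually.of_forall fun t => ?_)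
  · unfold fhr
    simp
    ring
  · unfold fh
    simp

theorem simple_of (h6 : a 6 ≠ 0) (h : ∀ t, fh a 1 t = 0 → deriv (fun t => fh a 1 t) t ≠ 0) :
    Simple a := by
  intro s r hsr h0 hK
  have hs : s ≠ 0 := by
    rintro rfl
    have hr : r ≠ 0 := by simpa using hsr
    have : fh a 0 r = a 6 * r ^ 6 := by unfold fh; ring
    rw [this] at h0
    exact mul_ne_zero h6 (pow_ne_zero 6 hr) h0
  have e1 : fh a s r = s ^ 6 * fh a 1 (r / s) := by
    rw [← fh_smul, mul_one, mul_div_cancel₀ _ hs]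
  have h1 : fh a 1 (r / s) = 0 := by
    rw [e1] at h0
    exact (mul_eq_zero.1 h0).resolve_left (pow_ne_zero 6 hs)
  have h2 := h _ h1
  rw [(hasDerivAt_fh 1 (r / s)).deriv] at h2
  apply h2
  have e2 : fhr a s r = s ^ 5 * fhr a 1 (r / s) := by
    unfold fhr
    field_simp
  have h3 := fhr_sq (a := a) s r
  rw [hK, h0, e2] at h3
  have h4 : (s ^ 5 * fhr a 1 (r / s)) ^ 2 = 0 := by rw [h3]; ring
  have h5 := pow_eq_zero_iff (two_ne_zero) |>.1 h4
  exact (mul_eq_zero.1 h5).resolve_left (pow_ne_zero 5 hs)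

/-- at a point of `Γ` -/
theorem near_of_gam (hS : Simple a) {s r η s' r' η' : ℂ} (hs : s ≠ 0 ∨ r ≠ 0)
    (h : η ^ 2 = fh a s r) {l : ℂ} (hl : l ≠ 0) (e1 : s' = l * s) (e2 : r' = l * r)
    (e3 : η' = - (l ^ 3 * η)) :
    rho a s r η s' r' η' ≠ 0 ∨ K0 a s r s' r' ≠ 0 := by
  subst e1 e2 e3
  by_cases h0 : η = 0
  · right
    have h1 : fh a s r = 0 := by rw [← h, h0]; ring
    have h2 : K0 a s r (l * s) (l * r) = l ^ 4 * K0 a s r s r := by
      unfold K0 Kq; ring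
    rw [h2]
    exact mul_ne_zero (pow_ne_zero 4 hl) (hS s r hs h1)
  · left
    have h2 := Fh_smul a 1 l s r s r
    rw [one_mul, one_mul, Fh_diag, ← h] at h2
    unfold rho
    rw [h2]
    have : 1 ^ 3 * l ^ 3 * (2 * η ^ 2) - 2 * η * -(l ^ 3 * η) = 4 * l ^ 3 * η ^ 2 := by ring
    rw [this]
    exact mul_ne_zero (mul_ne_zero (by norm_num) (pow_ne_zero 3 hl)) (pow_ne_zero 2 h0)

/-- every point is `Off` or `Near` -/
theorem Fr.off_or_near (hS : Simple a) (h : Fr C a x s r η) (h' : Fr C a x s' r' η') :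
    Off a x s r η s' r' η' ∨ Near a x s r η s' r' η' := by
  by_cases h0 : Off a x s r η s' r' η'
  · exact Or.inl h0
  · right
    unfold Off at h0
    push Not at h0
    obtain ⟨l, hl, e1, e2, e3⟩ := (gam_iff a h.self h'.self h.ne h'.ne).1 h0
    exact near_of_gam hS h.ne h.self hl e1 e2 e3

end Crest.Agent.R272.Kum_977
end
end

-- ▼ part R272/PosP1_848
section

/-!
# R272 (S0415), POS at `p0` (helper848), part 1: the sixteen functions `Φ` and their factorisations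

`x0, E1 = x1 + x2, E2 = x1 x2` are the normalised base coordinates near the cluster point `p0`,
`D = E1² - 4 E2 = (x1 - x2)²`, `N = x0³ W D = 2 E2³ - x0⁵ E1 - 2 y1 y2` (`W = x0 G(c,c')`, `G` the
Kummer function), `v = E2 / x0`, and `b = β + 15`.  With `ℓ = (x0, E1, v)`

  `Φ = D⁴ x0^b · {ℓ_i, W, W², W³ ℓ_i, W⁴ ℓ_i ℓ_j}, D⁴ (x1 x2)^b, D⁴ (x1 x2)^(b-12) (x0³ W)⁴`.

All are polynomials in `x0, E1, E2, N`.  Near every point of `K = π⁻¹(p0) ⊆ X⁺` (and near every point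
of `X⁻ \ S` close to `K`) `Φ i = γ * ψ i` with `ψ` holomorphic and without common zero; the pointwise
identities are proved here for the following four local forms:

* `facS`  : `x0 = ξ s0, E1 = ξ s1, E2 = ξ² s0 s2, N = ξ⁶ s0³ (s1² - 4 s0 s2) G` (charts `E`, off `Γ`;
            chart `W4` at `o`);
* `facV`  : `x0 = μ s0, E1 = μ s1, E2 = μ² s0 s2, s1² - 4 s0 s2 = A n, N = μ⁴ s0³ n`
            (`W1, W2` : `A = α²`; `W3` : `A = 1`, `μ = r`; charts `E` near `Γ`, `ξ ≠ 0` : `A = 1/(G ξ²)`);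
* `facM1` : `x0 = m E2, N = E2³ (E1² - 4 E2) h` (m-lines, equal sheets);
* `facM2` : `x0 = m E2, N = E2³ h` (m-line through `e`, opposite sheets; `h ≠ 0`).
-/

set_option autoImplicit false

namespace Crest.Agent.R272.PosP_848

noncomputable section

/-- the sixteen functions -/
def Phi (β : ℕ) (x0 E1 E2 N : ℂ) : Fin 16 → ℂ :=
  ![(E1 ^ 2 - 4 * E2) ^ 4 * x0 ^ (β + 16),
    (E1 ^ 2 - 4 * E2) ^ 4 * x0 ^ (β + 15) * E1,
    (E1 ^ 2 - 4 * E2) ^ 4 * x0 ^ (β + 14) * E2,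
    (E1 ^ 2 - 4 * E2) ^ 3 * x0 ^ (β + 12) * N,
    (E1 ^ 2 - 4 * E2) ^ 2 * x0 ^ (β + 9) * N ^ 2,
    (E1 ^ 2 - 4 * E2) * x0 ^ (β + 7) * N ^ 3,
    (E1 ^ 2 - 4 * E2) * x0 ^ (β + 6) * E1 * N ^ 3,
    (E1 ^ 2 - 4 * E2) * x0 ^ (β + 5) * E2 * N ^ 3,
    x0 ^ (β + 5) * N ^ 4,
    x0 ^ (β + 4) * E1 * N ^ 4,
    x0 ^ (β + 3) * E2 * N ^ 4,
    x0 ^ (β + 3) * E1 ^ 2 * N ^ 4,
    x0 ^ (β + 2) * E1 * E2 * N ^ 4,
    x0 ^ (β + 1) * E2 ^ 2 * N ^ 4,
    (E1 ^ 2 - 4 * E2) ^ 4 * E2 ^ (β + 15),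
    E2 ^ (β + 3) * N ^ 4]


/-- common factor, form `S` -/
def gamS (β : ℕ) (ξ s0 s1 s2 : ℂ) : ℂ :=
  ξ ^ (β + 24) * (s1 ^ 2 - 4 * s0 * s2) ^ 4 * s0 ^ (β + 15)











end

end Crest.Agent.R272.PosP_848
end

-- ▼ part R272/Kum3_977
section

set_option autoImplicit false
set_option linter.unusedVariables false
set_option linter.unusedSectionVars false

open Filter Topology Set

noncomputable section

namespace Crest.Agent.R272.Kum_977

open Crest.Agent.R273.Fam_835 Crest.Agent.R272.Lc_220 Crest.Agent.R272.PosP_848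

variable {n : ℕ} {X : Type} [TopologicalSpace X] {C : Fam n X} {x : X} {a : Fin 7 → ℂ}
  {x0 E1 E2 N ξ s r η s' r' η' : X → ℂ} {β : ℕ}

/-- an `E`-chart -/
structure ECh (C : Fam n X) (a : Fin 7 → ℂ) (x : X) (x0 E1 E2 N ξ s r η s' r' η' : X → ℂ) :
    Prop where
  F : Fr C a x s r η
  F' : Fr C a x s' r' η'
  hξ : HolN C x ξ
  e0 : ∀ᶠ y in 𝓝 x, x0 y = ξ y * (s y * s' y)
  e1 : ∀ᶠ y in 𝓝 x, E1 y = ξ y * (r y * s' y + s y * r' y)
  e2 : ∀ᶠ y in 𝓝 x, E2 y = ξ y ^ 2 * ((s y * s' y) * (r y * r' y))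
  eN : ∀ᶠ y in 𝓝 x, N y
    = ξ y ^ 6 * (s y * s' y) ^ 3 * rho a (s y) (r y) (η y) (s' y) (r' y) (η' y)

/-- the usual way to get an `E`-chart -/
theorem ECh.mk' {x1 x2 Y1 Y2 : X → ℂ} (F : Fr C a x s r η) (F' : Fr C a x s' r' η')
    (hξ : HolN C x ξ) (h0 : ∀ᶠ y in 𝓝 x, x0 y = ξ y * (s y * s' y))
    (h1 : ∀ᶠ y in 𝓝 x, x1 y = ξ y * (r y * s' y))
    (h2 : ∀ᶠ y in 𝓝 x, x2 y = ξ y * (s y * r' y))
    (hY1 : ∀ᶠ y in 𝓝 x, Y1 y = (ξ y * s' y) ^ 3 * η y)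
    (hY2 : ∀ᶠ y in 𝓝 x, Y2 y = (ξ y * s y) ^ 3 * η' y)
    (hE1 : ∀ᶠ y in 𝓝 x, E1 y = x1 y + x2 y) (hE2 : ∀ᶠ y in 𝓝 x, E2 y = x1 y * x2 y)
    (hN : ∀ᶠ y in 𝓝 x, N y = Fh a (x0 y) (x1 y) (x0 y) (x2 y) - 2 * Y1 y * Y2 y) :
    ECh C a x x0 E1 E2 N ξ s r η s' r' η' where
  F := F
  F' := F'
  hξ := hξ
  e0 := h0
  e1 := by
    filter_upwards [h1, h2, hE1] with y k1 k2 k3
    rw [k3, k1, k2]; ring
  e2 := by
    filter_upwards [h1, h2, hE2] with y k1 k2 k3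
    rw [k3, k1, k2]; ring
  eN := by
    filter_upwards [h0, h1, h2, hY1, hY2, hN] with y k0 k1 k2 k3 k4 k5
    have e : Fh a (x0 y) (x1 y) (x0 y) (x2 y)
        = (ξ y * s' y) ^ 3 * (ξ y * s y) ^ 3 * Fh a (s y) (r y) (s' y) (r' y) := by
      rw [← Fh_smul, k0, k1, k2]
      congr 1 <;> ring
    rw [k5, e, k3, k4]
    unfold rho
    ring

theorem ECh.eventually (h : ECh C a x x0 E1 E2 N ξ s r η s' r' η') :
    ∀ᶠ y in 𝓝 x, ECh C a y x0 E1 E2 N ξ s r η s' r' η' := by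
  filter_upwards [h.F.eventually, h.F'.eventually, h.hξ.eventually, h.e0.eventually_nhds,
    h.e1.eventually_nhds, h.e2.eventually_nhds, h.eN.eventually_nhds] with y k1 k2 k3 k4 k5 k6 k7
  exact ⟨k1, k2, k3, k4, k5, k6, k7⟩


/-! ### form `S` -/


/-- the common factor -/
def eS (β : ℕ) (ξ s r s' r' : X → ℂ) (y : X) : ℂ :=
  gamS β (ξ y) (s y * s' y) (r y * s' y + s y * r' y) (r y * r' y)






/-! ### form `V` -/







end Crest.Agent.R272.Kum_977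
end
end

-- ▼ part R272/Kum4_977
section

set_option autoImplicit false
set_option linter.unusedVariables false
set_option linter.unusedSectionVars false

open Filter Topology Set

noncomputable section

namespace Crest.Agent.R272.Kum_977

open Crest.Agent.R273.Fam_835 Crest.Agent.R272.Lc_220 Crest.Agent.R272.PW_92
open Crest.Agent.R272.FinCB3_876 Crest.Agent.R272.Quot_783

variable {n : ℕ} {X : Type} [TopologicalSpace X] {C : Fam n X} {x : X} {a : Fin 7 → ℂ}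
  {x0 E1 E2 N ξ s r η s' r' η' : X → ℂ} {b : ℕ}

/-! ### germs -/

theorem holF_of_ev {κ : Type*} [Finite κ] {u : κ → X → ℂ} (hu : ∀ j, HolN C x (u j))
    {P : X → Prop} (hP : ∀ᶠ y in 𝓝 x, P y) :
    ∃ W, IsOpen W ∧ x ∈ W ∧ (∀ j, HolF C W (u j)) ∧ ∀ y ∈ W, P y := by
  have h1 : ∀ᶠ y in 𝓝 x, (∀ j, HolN C y (u j)) ∧ P y :=
    (eventually_all.2 fun j => (hu j).eventually).and hP
  obtain ⟨W, hW, hWo, hxW⟩ := mem_nhds_iff.1 h1
  exact ⟨W, hWo, hxW, fun j => (holF_iff hWo).2 fun y hy => (hW hy).1 j, fun y hy => (hW hy).2⟩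

theorem genAt_of_ev {κ : Type} [Finite κ] {f u : κ → X → ℂ} {e : X → ℂ}
    (hu : ∀ j, HolN C x (u j)) (he : ∀ᶠ y in 𝓝 x, ∀ j, f j y = u j y * e y)
    (h0 : ∃ j, u j x ≠ 0) : GenAt C f e x := by
  obtain ⟨W, hW, hx, h1, h2⟩ := holF_of_ev hu he
  exact ⟨W, hW, hx, u, h1, h2, h0⟩

theorem valC_of_ev {κ : Type} [Finite κ] {f u : κ → X → ℂ} {e : X → ℂ}
    (hu : ∀ j, HolN C x (u j)) (he : ∀ᶠ y in 𝓝 x, ∀ j, f j y = u j y * e y)
    (h0 : ∃ j, u j x ≠ 0) (heh : HolN C x e) (hnz : NZ x e) : ValC C f x fun j => u j x := by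
  have h3 : ∀ᶠ y in 𝓝 x, y ∈ closure {y | e y ≠ 0} := by
    filter_upwards [NZ.eventually heh hnz] with y hy using hy.mem_closure
  obtain ⟨W, hW, hx, h1, h2⟩ := holF_of_ev hu (he.and h3)
  exact ⟨Function.ne_iff.2 h0, W, hW, hx, e, fun y hy => (h2 y hy).2, u, h1,
    fun y hy => (h2 y hy).1, fun _ => rfl⟩

/-! ### the list as functions -/

/-- the list `Φ` -/
def Pf (b : ℕ) (x0 E1 E2 N : X → ℂ) (i : IPhi) (y : X) : ℂ :=
  Phi b (x0 y) (E1 y) (E2 y) (N y) i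

/-- the symmetric product of two frames -/
def sym3 (s r s' r' : ℂ) : Fin 3 → ℂ := ![s * s', r * s' + s * r', r * r']

theorem disc_sym3 (ξ s r s' r' : ℂ) :
    disc (fun j => ξ * sym3 s r s' r' j) = ξ ^ 2 * del s r s' r' ^ 2 := by
  unfold disc sym3 del
  simp
  ring

/-- reduced vector, form `xi` -/
def uX (b : ℕ) (a : Fin 7 → ℂ) (ξ s r η s' r' η' : X → ℂ) (i : IPhi) (y : X) : ℂ :=
  Yxi b (ξ y) (GG a (s y) (r y) (η y) (s' y) (r' y) (η' y)) (sym3 (s y) (r y) (s' y) (r' y)) i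

/-- generator, form `xi` -/
def gX (b : ℕ) (ξ s r s' r' : X → ℂ) (y : X) : ℂ :=
  gxi b (ξ y) (del (s y) (r y) (s' y) (r' y) ^ 2) (s y * s' y)


theorem ECh.xi (hb : 15 ≤ b) (h : ECh C a x x0 E1 E2 N ξ s r η s' r' η')
    (h0 : Off a x s r η s' r' η') :
    ∀ᶠ y in 𝓝 x, ∀ i, Pf b x0 E1 E2 N i y
      = uX b a ξ s r η s' r' η' i y * gX b ξ s r s' r' y := by
  filter_upwards [h.e0, h.e1, h.e2, h.eN, h.F.GG_mul h.F' h0] with y k0 k1 k2 k3 k4 i
  unfold Pf uX gX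
  rw [phi_eq hb (x := fun j => ξ y * sym3 (s y) (r y) (s' y) (r' y) j)
    (R := ξ y ^ 3 * rho a (s y) (r y) (η y) (s' y) (r' y) (η' y)),
    phi_xi hb (s := sym3 (s y) (r y) (s' y) (r' y)) (δ := del (s y) (r y) (s' y) (r' y) ^ 2)
      (G := GG a (s y) (r y) (η y) (s' y) (r' y) (η' y)) (fun j => rfl) (by rw [← k4]; ring)
      (disc_sym3 _ _ _ _ _)]
  · rw [mul_comm]; rfl
  · rw [k0]; rfl
  · rw [k1]; rfl
  · rw [k2]; simp [sym3]; ring
  · rw [k3]; simp [sym3]; ring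

theorem holN_sym3 (hs : HolN C x s) (hr : HolN C x r) (hs' : HolN C x s') (hr' : HolN C x r')
    (j : Fin 3) : HolN C x fun y => sym3 (s y) (r y) (s' y) (r' y) j := by
  unfold sym3
  fin_cases j
  · exact hs.mul hs'
  · exact (hr.mul hs').add (hs.mul hr')
  · exact hr.mul hr'

theorem ECh.holN_uX (h : ECh C a x x0 E1 E2 N ξ s r η s' r' η')
    (h0 : Off a x s r η s' r' η') (i : IPhi) : HolN C x (uX b a ξ s r η s' r' η' i) := by
  have hξ := h.hξ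
  have hG := h.F.holN_GG h.F' h0
  have hk := holN_sym3 h.F.hs h.F.hr h.F'.hs h.F'.hr
  unfold uX
  cases i with
  | l j => exact hk j
  | W => exact hG
  | W2 => exact hξ.mul (hG.pow 2)
  | W3 j => exact ((hξ.pow 3).mul (hG.pow 3)).mul (hk j)
  | W4 j k => exact (((hξ.pow 5).mul (hG.pow 4)).mul (hk j)).mul (hk k)
  | v => exact (hξ.pow _).mul ((hk 2).pow _)
  | last => exact ((hξ.pow _).mul (hG.pow 4)).mul ((hk 2).pow _)

theorem ECh.sym3_ne (h : ECh C a x x0 E1 E2 N ξ s r η s' r' η') :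
    ∃ j, sym3 (s x) (r x) (s' x) (r' x) j ≠ 0 := by
  rcases kap_ne h.F.ne h.F'.ne with k | k | k
  · exact ⟨0, k⟩
  · exact ⟨1, k⟩
  · exact ⟨2, k⟩

theorem ECh.uX_ne (h : ECh C a x x0 E1 E2 N ξ s r η s' r' η') :
    ∃ i, uX b a ξ s r η s' r' η' i x ≠ 0 := by
  obtain ⟨j, hj⟩ := h.sym3_ne
  exact ⟨.l j, hj⟩

/-- **generator off `Γ`** -/
theorem ECh.genX (hb : 15 ≤ b) (h : ECh C a x x0 E1 E2 N ξ s r η s' r' η')
    (h0 : Off a x s r η s' r' η') : GenAt C (Pf b x0 E1 E2 N) (gX b ξ s r s' r') x :=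
  genAt_of_ev (fun i => h.holN_uX h0 i) (h.xi hb h0) h.uX_ne

theorem ECh.holN_gX (h : ECh C a x x0 E1 E2 N ξ s r η s' r' η') :
    HolN C x (gX b ξ s r s' r') :=
  ((h.hξ.pow _).mul (((holN_del h.F.hs h.F.hr h.F'.hs h.F'.hr).pow 2).pow 4)).mul
    ((h.F.hs.mul h.F'.hs).pow b)

theorem ECh.nz_gX (h : ECh C a x x0 E1 E2 N ξ s r η s' r' η') (n1 : NZ x ξ) (n2 : NZ x s)
    (n3 : NZ x s') (n4 : NZ x fun y => del (s y) (r y) (s' y) (r' y)) :
    NZ x (gX b ξ s r s' r') := by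
  have hd := holN_del h.F.hs h.F.hr h.F'.hs h.F'.hr
  refine NZ.mul ((h.hξ.pow _).mul ((hd.pow 2).pow 4)) ((h.F.hs.mul h.F'.hs).pow b) ?_ ?_
  · exact NZ.mul (h.hξ.pow _) ((hd.pow 2).pow 4) (n1.pow h.hξ _) ((n4.pow hd 2).pow (hd.pow 2) 4)
  · exact (NZ.mul h.F.hs h.F'.hs n2 n3).pow (h.F.hs.mul h.F'.hs) b

/-- **values off `Γ`** -/
theorem ECh.valX (hb : 15 ≤ b) (h : ECh C a x x0 E1 E2 N ξ s r η s' r' η')
    (h0 : Off a x s r η s' r' η') (n1 : NZ x ξ) (n2 : NZ x s)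
    (n3 : NZ x s') (n4 : NZ x fun y => del (s y) (r y) (s' y) (r' y)) :
    ValC C (Pf b x0 E1 E2 N) x fun i => Yxi b (ξ x)
      (GG a (s x) (r x) (η x) (s' x) (r' x) (η' x)) (sym3 (s x) (r x) (s' x) (r' x)) i :=
  valC_of_ev (fun i => h.holN_uX h0 i) (h.xi hb h0) h.uX_ne h.holN_gX (h.nz_gX n1 n2 n3 n4)

/-- the values on the zero section: the Kummer map -/
def Kv (g : ℂ) (k : Fin 3 → ℂ) : IPhi → ℂ
  | .l j => k j
  | .W => g
  | _ => 0

theorem Yxi_zero (hb : 15 ≤ b) (g : ℂ) (k : Fin 3 → ℂ) (i : IPhi) : Yxi b 0 g k i = Kv g k i := by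
  have h1 : b - 1 ≠ 0 := by omega
  have h9 : b - 9 ≠ 0 := by omega
  cases i <;> simp [Yxi, Kv, h1, h9]

/-! ### near `Γ`, `ξ ≠ 0` -/

/-- the reduced vector of `phi_mu`, with `A = α²` -/
def YA (b : ℕ) (A μ : ℂ) (y : Fin 3 → ℂ) : IPhi → ℂ
  | .l j => A ^ 4 * μ ^ 3 * y j
  | .W => A ^ 3 * μ
  | .W2 => A ^ 2
  | .W3 j => A * y j
  | .W4 j k => y j * y k
  | .v => A ^ 4 * μ ^ (b + 2) * y 2 ^ b
  | .last => μ ^ (b - 14) * y 2 ^ (b - 12)

theorem YA_sq (b : ℕ) (α μ : ℂ) (y : Fin 3 → ℂ) (i : IPhi) : YA b (α ^ 2) μ y i = Ymu b α μ y i := by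
  cases i <;> simp only [YA, Ymu] <;> ring

theorem phi_A {b : ℕ} (hb : 15 ≤ b) {x y : Fin 3 → ℂ} {R A μ β : ℂ} (hx : ∀ j, x j = μ * y j)
    (hR : R = μ ^ 3 * β) (hD : disc x = A * μ ^ 4 * β) (i : IPhi) :
    PhiC b x R i = gmu b μ β (y 0) * YA b A μ y i := by
  obtain ⟨α, hα⟩ : ∃ α : ℂ, α ^ 2 = A := ⟨A ^ (1 / 2 : ℂ), by
    rw [← Complex.cpow_nat_mul]; simp⟩
  subst hα
  rw [YA_sq]
  exact phi_mu hb hx hR hD i

/-- reduced vector, form `mu` -/
def uM (b : ℕ) (a : Fin 7 → ℂ) (ξ s r η s' r' η' : X → ℂ) (i : IPhi) (y : X) : ℂ :=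
  YA b (GI a (s y) (r y) (η y) (s' y) (r' y) (η' y) / ξ y ^ 2) (ξ y)
    (sym3 (s y) (r y) (s' y) (r' y)) i

/-- generator, form `mu` -/
def gM (b : ℕ) (a : Fin 7 → ℂ) (ξ s r η s' r' η' : X → ℂ) (y : X) : ℂ :=
  gmu b (ξ y) (rho a (s y) (r y) (η y) (s' y) (r' y) (η' y)) (s y * s' y)


theorem ECh.mu (hb : 15 ≤ b) (h : ECh C a x x0 E1 E2 N ξ s r η s' r' η')
    (h0 : Near a x s r η s' r' η') (hx : ξ x ≠ 0) :
    ∀ᶠ y in 𝓝 x, ∀ i, Pf b x0 E1 E2 N i y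
      = uM b a ξ s r η s' r' η' i y * gM b a ξ s r η s' r' η' y := by
  filter_upwards [h.e0, h.e1, h.e2, h.eN, h.F.GI_mul h.F' h0,
    h.hξ.continuousAt.eventually_ne hx] with y k0 k1 k2 k3 k4 k5 i
  unfold Pf uM gM
  rw [phi_eq hb (x := fun j => ξ y * sym3 (s y) (r y) (s' y) (r' y) j)
    (R := ξ y ^ 3 * rho a (s y) (r y) (η y) (s' y) (r' y) (η' y)),
    phi_A hb (y := sym3 (s y) (r y) (s' y) (r' y))
      (A := GI a (s y) (r y) (η y) (s' y) (r' y) (η' y) / ξ y ^ 2) (fun j => rfl) rfl]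
  · rw [mul_comm]; rfl
  · rw [disc_sym3, ← k4]
    field_simp
  · rw [k0]; rfl
  · rw [k1]; rfl
  · rw [k2]; simp [sym3]; ring
  · rw [k3]; simp [sym3]; ring

theorem ECh.holN_uM (h : ECh C a x x0 E1 E2 N ξ s r η s' r' η')
    (h0 : Near a x s r η s' r' η') (hx : ξ x ≠ 0) (i : IPhi) :
    HolN C x (uM b a ξ s r η s' r' η' i) := by
  have hξ := h.hξ
  have hA := (h.F.holN_GI h.F' h0).div (hξ.pow 2) (pow_ne_zero 2 hx)
  have hk := holN_sym3 h.F.hs h.F.hr h.F'.hs h.F'.hr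
  unfold uM
  cases i with
  | l j => exact ((hA.pow 4).mul (hξ.pow 3)).mul (hk j)
  | W => exact (hA.pow 3).mul hξ
  | W2 => exact hA.pow 2
  | W3 j => exact hA.mul (hk j)
  | W4 j k => exact (hk j).mul (hk k)
  | v => exact ((hA.pow 4).mul (hξ.pow _)).mul ((hk 2).pow _)
  | last => exact (hξ.pow _).mul ((hk 2).pow _)

/-- **generator near `Γ`** -/
theorem ECh.genM (hb : 15 ≤ b) (h : ECh C a x x0 E1 E2 N ξ s r η s' r' η')
    (h0 : Near a x s r η s' r' η') (hx : ξ x ≠ 0) :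
    GenAt C (Pf b x0 E1 E2 N) (gM b a ξ s r η s' r' η') x := by
  refine genAt_of_ev (fun i => h.holN_uM h0 hx i) (h.mu hb h0 hx) ?_
  obtain ⟨j, hj⟩ := h.sym3_ne
  exact ⟨.W4 j j, mul_ne_zero hj hj⟩

end Crest.Agent.R272.Kum_977
end
private theorem rz_a33b4a08d1 : type_of% @_root_.Crest.Agent.R272.Kum_977.Kv.eq_1 := @_root_.Crest.Agent.R272.Kum_977.Kv.eq_1 -- L165
private theorem rz_1d11a20dd6 : type_of% @_root_.Crest.Agent.R272.Kum_977.YA.eq_1 := @_root_.Crest.Agent.R272.Kum_977.YA.eq_1 -- L178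
end

-- ▼ part R272/Kum5_977
section

set_option autoImplicit false
set_option linter.unusedVariables false
set_option linter.unusedSectionVars false

open Filter Topology Set OnePoint

noncomputable section

namespace Crest.Agent.R272.Kum_977

open Crest.Agent.R272.Cur_297 Crest.Agent.R272.Tq1_916

variable {P : Par}

/-- the coefficients of the sextic `∏ (r - c_j s)` -/
def cfc (c : Fin 6 → ℂ) : Fin 7 → ℂ :=
  let p1 := c 0 + c 1 + c 2
  let p2 := c 0 * c 1 + c 0 * c 2 + c 1 * c 2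
  let p3 := c 0 * c 1 * c 2
  let q1 := c 3 + c 4 + c 5
  let q2 := c 3 * c 4 + c 3 * c 5 + c 4 * c 5
  let q3 := c 3 * c 4 * c 5
  ![p3 * q3, -(p2 * q3 + p3 * q2), p1 * q3 + p3 * q1 + p2 * q2, -(p3 + q3 + p1 * q2 + p2 * q1),
    p2 + q2 + p1 * q1, -(p1 + q1), 1]

/-- the coefficients of the sextic of the curve -/
def cf (P : Par) : Fin 7 → ℂ := cfc P.c

theorem fh_cfc (c : Fin 6 → ℂ) (s r : ℂ) : fh (cfc c) s r =
    (r - c 0 * s) * (r - c 1 * s) * (r - c 2 * s) * ((r - c 3 * s) * (r - c 4 * s) * (r - c 5 * s)) := by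
  unfold fh cfc
  simp only [Matrix.cons_val]
  ring

theorem fh_cf_one (t : ℂ) : fh (cf P) 1 t = P.p0 t := by
  unfold cf
  rw [fh_cfc]
  unfold Par.p0 Par.AA Par.BB
  ring

theorem fh_cf_inf (s : ℂ) : fh (cf P) s 1 = P.p1 s := by
  unfold cf
  rw [fh_cfc]
  unfold Par.p1 Par.At Par.Bt
  ring

theorem simple_cf (P : Par) : Simple (cf P) := by
  refine simple_of (by simp [cf, cfc]) fun t ht => ?_
  have h1 : (fun t => fh (cf P) 1 t) = P.p0 := funext fun t => fh_cf_one t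
  rw [h1]
  exact P.simple_p0 (by rw [← fh_cf_one]; exact ht)

/-- third coordinate of the frames -/
def eta (i : Fin 2) (c : Cv P) : ℂ := if i = 0 then yv c else vv c

@[simp] theorem eta_zero (c : Cv P) : eta 0 c = yv c := rfl
@[simp] theorem eta_one (c : Cv P) : eta 1 c = vv c := rfl

theorem iv_tt (c : Cv P) : Tp1_60.iv (tt c) = sv c := by
  unfold sv
  induction tt c using OnePoint.rec with
  | infty => simp
  | coe z => simp

theorem nn_tt {c : Cv P} (h : tt c ≠ ∞) : Tp1_60.nn (tt c) = tv c := by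
  rw [tt_eq h, Tp1_60.nn_coe]

theorem eta_sq {i : Fin 2} {c : Cv P} (h : tt c ≠ pole i) :
    eta i c ^ 2 = fh (cf P) (dl i (tt c)) (nu i (tt c)) := by
  fin_cases i
  · have h' : tt c ≠ ∞ := h
    show yv c ^ 2 = fh (cf P) 1 (Tp1_60.nn (tt c))
    rw [nn_tt h', fh_cf_one, yv_sq h']
  · have h' : tt c ≠ ((0 : ℂ) : P1) := h
    show vv c ^ 2 = fh (cf P) (Tp1_60.iv (tt c)) 1
    rw [iv_tt, fh_cf_inf, vv_sq h']

/-- the frames are not zero -/
theorem frame_ne (i : Fin 2) (c : Cv P) : dl i (tt c) ≠ 0 ∨ nu i (tt c) ≠ 0 := by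
  fin_cases i
  · exact Or.inl one_ne_zero
  · exact Or.inr one_ne_zero

/-- change of frame -/
theorem eta_change {c : Cv P} (h0 : tt c ≠ pole 0) (h1 : tt c ≠ pole 1) :
    dl 1 (tt c) = sv c * dl 0 (tt c) ∧ nu 1 (tt c) = sv c * nu 0 (tt c) ∧
      eta 1 c = sv c ^ 3 * eta 0 c ∧ sv c ≠ 0 := by
  have h0' : tt c ≠ ∞ := h0
  have h1' : tt c ≠ ((0 : ℂ) : P1) := h1
  have ht := tv_ne h0' h1'
  have hs : sv c = (tv c)⁻¹ := sv_eq h0'
  refine ⟨?_, ?_, ?_, ?_⟩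
  · show Tp1_60.iv (tt c) = sv c * 1
    rw [iv_tt, mul_one]
  · show (1 : ℂ) = sv c * Tp1_60.nn (tt c)
    rw [nn_tt h0', hs, inv_mul_cancel₀ ht]
  · show vv c = sv c ^ 3 * yv c
    rw [vv_eq h0' h1', hs]
    field_simp
  · rw [hs]; exact inv_ne_zero ht

/-- the frame is a multiple of `(dd t, nn t)` -/
theorem frame_rep {i : Fin 2} {t : P1} (h : t ≠ pole i) :
    ∃ g : ℂ, g ≠ 0 ∧ dl i t = g * Tp1_60.dd t ∧ nu i t = g * Tp1_60.nn t := by
  fin_cases i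
  · have h' : t ≠ ∞ := h
    exact ⟨1, one_ne_zero, by simp [Tp1_60.dd_of_ne h'], by simp⟩
  · have h' : t ≠ ((0 : ℂ) : P1) := h
    have hn := Tp1_60.nn_ne h'
    refine ⟨(Tp1_60.nn t)⁻¹, inv_ne_zero hn, ?_, ?_⟩
    · show Tp1_60.iv t = _
      unfold Tp1_60.iv
      rw [div_eq_inv_mul]
    · show (1 : ℂ) = _
      rw [inv_mul_cancel₀ hn]

theorem del_nn {t t' : P1} (h : Tp1_60.nn t * Tp1_60.dd t' - Tp1_60.dd t * Tp1_60.nn t' = 0) :
    t = t' := by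
  have h1 := Tp1_60.rat_nn_dd t
  have h2 := Tp1_60.rat_nn_dd t'
  rw [← h1, ← h2]
  exact Tp1_60.rat_eq_rat (Tp1_60.nn_dd t) (Tp1_60.nn_dd t') (by linear_combination h)

theorem del_frame {i j : Fin 2} {t t' : P1} (h : t ≠ pole i) (h' : t' ≠ pole j) :
    del (dl i t) (nu i t) (dl j t') (nu j t') = 0 ↔ t = t' := by
  obtain ⟨g, hg, e1, e2⟩ := frame_rep h
  obtain ⟨g', hg', e1', e2'⟩ := frame_rep h'
  rw [e1, e2, e1', e2']
  have : del (g * Tp1_60.dd t) (g * Tp1_60.nn t) (g' * Tp1_60.dd t') (g' * Tp1_60.nn t')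
      = g * g' * (Tp1_60.nn t * Tp1_60.dd t' - Tp1_60.dd t * Tp1_60.nn t') := by
    unfold del; ring
  rw [this]
  constructor
  · intro h2
    exact del_nn ((mul_eq_zero.1 h2).resolve_left (mul_ne_zero hg hg'))
  · rintro rfl
    ring

/-- scalar between two frames of the same point -/
theorem frame_two {i j : Fin 2} {c : Cv P} (hi : tt c ≠ pole i) (hj : tt c ≠ pole j) :
    ∃ l : ℂ, l ≠ 0 ∧ dl j (tt c) = l * dl i (tt c) ∧ nu j (tt c) = l * nu i (tt c) ∧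
      eta j c = l ^ 3 * eta i c := by
  by_cases hij : i = j
  · subst hij
    exact ⟨1, one_ne_zero, by ring, by ring, by ring⟩
  · have h01 : (i = 0 ∧ j = 1) ∨ (i = 1 ∧ j = 0) := by
      fin_cases i <;> fin_cases j <;> simp_all
    rcases h01 with ⟨rfl, rfl⟩ | ⟨rfl, rfl⟩
    · obtain ⟨a1, a2, a3, a4⟩ := eta_change hi hj
      exact ⟨sv c, a4, a1, a2, a3⟩
    · obtain ⟨a1, a2, a3, a4⟩ := eta_change hj hi
      refine ⟨(sv c)⁻¹, inv_ne_zero a4, ?_, ?_, ?_⟩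
      · rw [a1]; field_simp
      · rw [a2]; field_simp
      · rw [a3]; field_simp

theorem eta_iv (i : Fin 2) (c : Cv P) : eta i (iv c) = - eta i c := by
  fin_cases i
  · exact yv_iv c
  · exact vv_iv c

/-- a point with `eta = 0` is a Weierstrass point -/
theorem iv_of_eta {i : Fin 2} {c : Cv P} (h : tt c ≠ pole i) (h0 : eta i c = 0) : iv c = c := by
  fin_cases i
  · exact (iv_eq_iff0 h).2 h0
  · exact ext1 h rfl (by rw [vv_iv]; change vv c = 0 at h0; rw [h0, neg_zero])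

/-- **the frames see `Γ`** -/
theorem gam_frame {i j : Fin 2} {c c' : Cv P} (h : tt c ≠ pole i) (h' : tt c' ≠ pole j) :
    (del (dl i (tt c)) (nu i (tt c)) (dl j (tt c')) (nu j (tt c')) = 0 ∧
      rhob (cf P) (dl i (tt c)) (nu i (tt c)) (eta i c) (dl j (tt c')) (nu j (tt c')) (eta j c') = 0)
      ↔ c' = iv c := by
  rw [gam_iff (cf P) (eta_sq h) (eta_sq h') (frame_ne i c) (frame_ne j c')]
  constructor
  · rintro ⟨l, hl, e1, e2, e3⟩
    have ht : tt c = tt c' := by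
      rw [← del_frame h h', e1, e2]
      unfold del; ring
    rcases eq_or_eq_iv ht with h1 | h1
    · subst h1
      obtain ⟨m, hm, f1, f2, f3⟩ := frame_two h h'
      -- `l = m`
      have hlm : l = m := by
        rcases frame_ne i c' with h2 | h2
        · rw [e1] at f1
          exact mul_right_cancel₀ h2 f1
        · rw [e2] at f2
          exact mul_right_cancel₀ h2 f2
      rw [f3, hlm] at e3
      have h4 : eta i c' = 0 := by
        have : 2 * (m ^ 3 * eta i c') = 0 := by linear_combination e3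
        have h5 := (mul_eq_zero.1 this).resolve_left two_ne_zero
        exact (mul_eq_zero.1 h5).resolve_left (pow_ne_zero 3 hm)
      exact (iv_of_eta h h4).symm
    · exact h1
  · rintro rfl
    have h'' : tt c ≠ pole j := by rw [← tt_iv c]; exact h'
    obtain ⟨m, hm, f1, f2, f3⟩ := frame_two h h''
    refine ⟨m, hm, ?_, ?_, ?_⟩
    · rw [tt_iv]; exact f1
    · rw [tt_iv]; exact f2
    · rw [eta_iv, f3]

/-- `Off` in frames -/
theorem off_frame {i j : Fin 2} {c c' : Cv P} (h : tt c ≠ pole i) (h' : tt c' ≠ pole j)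
    (hc : c' ≠ iv c) :
    del (dl i (tt c)) (nu i (tt c)) (dl j (tt c')) (nu j (tt c')) ≠ 0 ∨
      rhob (cf P) (dl i (tt c)) (nu i (tt c)) (eta i c) (dl j (tt c')) (nu j (tt c')) (eta j c')
        ≠ 0 := by
  by_contra hcon
  push Not at hcon
  exact hc ((gam_frame h h').1 hcon)

/-! ### finite fibres -/

/-- homogeneous coordinates of the slope -/
def hs (c : Cv P) : ℂ := Tp1_60.dd (tt c)
def hr (c : Cv P) : ℂ := Tp1_60.nn (tt c)

theorem hsr_ne (c : Cv P) : hs c ≠ 0 ∨ hr c ≠ 0 := (Tp1_60.nn_dd (tt c)).symm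

theorem del_hsr {c c' : Cv P} (h : del (hs c) (hr c) (hs c') (hr c') = 0) : tt c = tt c' :=
  del_nn h

/-- the Kummer map modulo `± 1` and the choice of the points on the fibres, homogeneous form -/
def q3 (x : Cv P × Cv P) : Fin 3 → ℂ :=
  ![hs x.1 * hs x.2, hr x.1 * hs x.2 + hs x.1 * hr x.2, hr x.1 * hr x.2]

/-- **finite fibres** -/
theorem q3_fin (y : Cv P × Cv P) :
    {x : Cv P × Cv P | ∀ i j, q3 x i * q3 y j = q3 x j * q3 y i}.Finite := by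
  have hF : ({y.1, iv y.1, y.2, iv y.2} : Set (Cv P)).Finite := by simp
  refine (hF.prod hF).subset ?_
  intro x hx
  have e1 := hx 0 1
  have e2 := hx 0 2
  have e3 := hx 1 2
  simp only [q3, Matrix.cons_val_zero, Matrix.cons_val_one, Matrix.cons_val] at e1 e2 e3
  have h := kap_fib (hsr_ne y.1) (hsr_ne y.2) (hsr_ne x.1) (hsr_ne x.2)
    (by linear_combination - e1) (by linear_combination - e2) (by linear_combination - e3)
  have key : ∀ {c d : Cv P}, del (hs c) (hr c) (hs d) (hr d) = 0 → d = c ∨ d = iv c :=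
    fun h => eq_or_eq_iv (del_hsr h)
  rcases h with ⟨h1, h2⟩ | ⟨h1, h2⟩
  · rcases key h1 with h3 | h3 <;> rcases key h2 with h4 | h4 <;> simp [mem_prod, h3, h4]
  · rcases key h1 with h3 | h3 <;> rcases key h2 with h4 | h4 <;> simp [mem_prod, h3, h4]

/-- the frames give multiples of `q3` -/
theorem q3_frame {i j : Fin 2} {x : Cv P × Cv P} (h : tt x.1 ≠ pole i) (h' : tt x.2 ≠ pole j) :
    ∃ g : ℂ, g ≠ 0 ∧ ∀ k, (![dl i (tt x.1) * dl j (tt x.2),
      nu i (tt x.1) * dl j (tt x.2) + dl i (tt x.1) * nu j (tt x.2),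
      nu i (tt x.1) * nu j (tt x.2)] : Fin 3 → ℂ) k = g * q3 x k := by
  obtain ⟨g, hg, e1, e2⟩ := frame_rep h
  obtain ⟨g', hg', e1', e2'⟩ := frame_rep h'
  refine ⟨g * g', mul_ne_zero hg hg', fun k => ?_⟩
  rw [e1, e2, e1', e2']
  fin_cases k <;> simp [q3, hs, hr] <;> ring

end Crest.Agent.R272.Kum_977
end
end

-- ▼ part R272/Kum6_977

set_option autoImplicit false
set_option linter.unusedVariables false
set_option linter.unusedSectionVars false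

open Filter Topology Set OnePoint

noncomputable section

namespace Crest.Agent.R272.Kum_977

open Crest.Agent.R275.Geo Crest.Agent.R273.Fam_835 Crest.Agent.R272.Lc_220
open Crest.Agent.R272.Idn_834 Crest.Agent.R272.AJ_956 Crest.Agent.R272.LcR_783

section chart

variable {K : Type} [TopologicalSpace K] {𝒞 : Cur K} {Y : Type} [TopologicalSpace Y]
  {CY : Fam 3 Y} {E : OpenPartialHomeomorph ((K × K) × ℂ) Y}

/-- all product charts are compatible -/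
def ECpt (𝒞 : Cur K) (CY : Fam 3 Y) (E : OpenPartialHomeomorph ((K × K) × ℂ) Y) : Prop :=
  ∀ c c', Refl_246.Cpt CY (E.symm.trans (pc 𝒞 c c'))

theorem mem_pc {c c' : K} {p : (K × K) × ℂ} (h : p.1.1 ∈ (𝒞.k c).source)
    (h' : p.1.2 ∈ (𝒞.k c').source) : p ∈ (pc 𝒞 c c').source := by
  unfold pc
  simp [h, h']

/-- holomorphy of a function of `(c, c', ξ)` -/
theorem holN_E (hE : ECpt 𝒞 CY E) {p : (K × K) × ℂ} (hp : p ∈ E.source)
    {f : (K × K) × ℂ → ℂ}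
    (hf : AnalyticAt ℂ (fun w : Cn 3 => f (((𝒞.k p.1.1).symm (w 0), (𝒞.k p.1.2).symm (w 1)), w 2))
      (h3 ((0, 0), p.2))) : HolN CY (E p) fun y => f (E.symm y) := by
  have hmem : E p ∈ (E.symm.trans (pc 𝒞 p.1.1 p.1.2)).source := by
    rw [OpenPartialHomeomorph.trans_source]
    refine ⟨E.map_source hp, ?_⟩
    rw [mem_preimage, E.left_inv hp]
    exact mem_pc (𝒞.k_mem _) (𝒞.k_mem _)
  rw [holN_iff_cpt (hE p.1.1 p.1.2) hmem]
  have hval : (E.symm.trans (pc 𝒞 p.1.1 p.1.2)) (E p) = h3 ((0, 0), p.2) := by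
    show pc 𝒞 p.1.1 p.1.2 (E.symm (E p)) = _
    rw [E.left_inv hp]
    show h3 ((𝒞.k p.1.1 p.1.1, 𝒞.k p.1.2 p.1.2), p.2) = _
    rw [𝒞.k_zero, 𝒞.k_zero]
  rw [hval]
  refine hf.congr ?_
  have hcont := (E.symm.trans (pc 𝒞 p.1.1 p.1.2)).continuousAt_symm
    ((E.symm.trans (pc 𝒞 p.1.1 p.1.2)).map_source hmem)
  rw [hval] at hcont
  have h0 : (E.symm.trans (pc 𝒞 p.1.1 p.1.2)).symm (h3 ((0, 0), p.2)) = E p := by
    rw [← hval, OpenPartialHomeomorph.left_inv _ hmem]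
  have hev : ∀ᶠ w in 𝓝 (h3 ((0, 0), p.2)),
      w ∈ (E.symm.trans (pc 𝒞 p.1.1 p.1.2)).target :=
    (E.symm.trans (pc 𝒞 p.1.1 p.1.2)).open_target.mem_nhds
      (by rw [← hval]; exact OpenPartialHomeomorph.map_source _ hmem)
  filter_upwards [hev] with w hw
  have h1 : (pc 𝒞 p.1.1 p.1.2).symm w ∈ E.source := by
    rw [OpenPartialHomeomorph.trans_target] at hw
    exact hw.2
  have h2 : (E.symm.trans (pc 𝒞 p.1.1 p.1.2)).symm w = E ((pc 𝒞 p.1.1 p.1.2).symm w) := rfl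
  rw [h2, E.left_inv h1]
  rfl

theorem analyticAt_coord (i : Fin 3) (w : Cn 3) : AnalyticAt ℂ (fun w : Cn 3 => w i) w := by
  have h3 : Differentiable ℂ fun w : Cn 3 => w i := by fun_prop
  exact Crest.Agent.R266.SCV.analyticOnNhd_of_differentiableOn isOpen_univ
    h3.differentiableOn _ (mem_univ _)

/-- `f` is holomorphic at the point `c` of the curve -/
def HolK (𝒞 : Cur K) (c : K) (f : K → ℂ) : Prop :=
  AnalyticAt ℂ (fun z => f ((𝒞.k c).symm z)) 0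

theorem holN_c1 (hE : ECpt 𝒞 CY E) {p : (K × K) × ℂ} (hp : p ∈ E.source) {f : K → ℂ}
    (hf : HolK 𝒞 p.1.1 f) : HolN CY (E p) fun y => f (E.symm y).1.1 := by
  refine holN_E hE hp (f := fun q => f q.1.1) ?_
  exact AnalyticAt.fun_comp (g := fun z => f ((𝒞.k p.1.1).symm z)) (f := fun w : Cn 3 => w 0)
    hf (analyticAt_coord 0 _)

theorem holN_c2 (hE : ECpt 𝒞 CY E) {p : (K × K) × ℂ} (hp : p ∈ E.source) {f : K → ℂ}
    (hf : HolK 𝒞 p.1.2 f) : HolN CY (E p) fun y => f (E.symm y).1.2 := by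
  refine holN_E hE hp (f := fun q => f q.1.2) ?_
  exact AnalyticAt.fun_comp (g := fun z => f ((𝒞.k p.1.2).symm z)) (f := fun w : Cn 3 => w 1)
    hf (analyticAt_coord 1 _)

theorem holN_x (hE : ECpt 𝒞 CY E) {p : (K × K) × ℂ} (hp : p ∈ E.source) :
    HolN CY (E p) fun y => (E.symm y).2 :=
  holN_E hE hp (f := fun q => q.2) (analyticAt_coord 2 _)

/-- non vanishing germs -/
theorem nz_E {p : (K × K) × ℂ} (hp : p ∈ E.source) {f : (K × K) × ℂ → ℂ}
    (hf : ∃ᶠ q in 𝓝 p, f q ≠ 0) : NZ (E p) fun y => f (E.symm y) := by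
  intro h
  have h1 : ∀ᶠ q in 𝓝 p, f (E.symm (E q)) = 0 :=
    (E.continuousAt hp).eventually h
  have h2 : ∀ᶠ q in 𝓝 p, f q = 0 := by
    filter_upwards [h1, E.open_source.mem_nhds hp] with q h3 h4
    rwa [E.left_inv h4] at h3
  exact hf (h2.mono fun q hq hq2 => hq2 hq)

theorem freq_ne (z₀ : ℂ) : ∃ᶠ z in 𝓝 z₀, z ≠ (0 : ℂ) := by
  by_cases h : z₀ = 0
  · subst h
    have h1 : ∀ᶠ z in 𝓝[≠] (0 : ℂ), z ≠ 0 := eventually_mem_nhdsWithin
    exact h1.frequently.filter_mono nhdsWithin_le_nhds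
  · have h1 : ∀ᶠ z in 𝓝 z₀, z ≠ 0 := isOpen_ne.mem_nhds h
    exact h1.frequently

theorem freq_x (p : (K × K) × ℂ) : ∃ᶠ q in 𝓝 p, q.2 ≠ 0 := by
  have h2 : Tendsto (fun z : ℂ => (p.1, z)) (𝓝 p.2) (𝓝 p) :=
    (continuous_const.prodMk continuous_id).tendsto' _ _ rfl
  exact h2.frequently (freq_ne p.2)

/-- a finite set of points of the curve is avoided near every point -/
theorem freq_K (𝒞 : Cur K) (c : K) {F : Set K} (hF : F.Finite) : ∃ᶠ c' in 𝓝 c, c' ∉ F := by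
  have h0 : (0 : ℂ) ∈ (𝒞.k c).target := by
    rw [← 𝒞.k_zero c]; exact (𝒞.k c).map_source (𝒞.k_mem c)
  have hsy : (𝒞.k c).symm 0 = c := by
    rw [← 𝒞.k_zero c, (𝒞.k c).left_inv (𝒞.k_mem c)]
  have h1 : Tendsto (𝒞.k c).symm (𝓝 0) (𝓝 c) := by
    have := (𝒞.k c).continuousAt_symm h0
    rwa [ContinuousAt, hsy] at this
  have h2 : ((𝒞.k c) '' F).Finite := hF.image _
  have h3 : ∀ᶠ z in 𝓝[≠] (0 : ℂ), z ∉ (𝒞.k c) '' F := by
    have h4 : ((𝒞.k c) '' F \ {0}).Finite := h2.subset sdiff_subset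
    have h5 : ∀ᶠ z in 𝓝 (0 : ℂ), z ∉ (𝒞.k c) '' F \ {0} :=
      h4.isClosed.isOpen_compl.mem_nhds (by simp)
    filter_upwards [h5.filter_mono nhdsWithin_le_nhds, self_mem_nhdsWithin] with z h6 h7 h8
    exact h6 ⟨h8, h7⟩
  have h4' : ∀ᶠ z in 𝓝 (0 : ℂ), z ∈ (𝒞.k c).target := (𝒞.k c).open_target.mem_nhds h0
  have h4 : ∀ᶠ z in 𝓝[≠] (0 : ℂ), z ∈ (𝒞.k c).target := h4'.filter_mono nhdsWithin_le_nhds
  refine h1.frequently ((h3.and h4).frequently.filter_mono nhdsWithin_le_nhds |>.mono ?_)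
  rintro z ⟨h5, h6⟩ h7
  exact h5 ⟨_, h7, (𝒞.k c).right_inv h6⟩

theorem freq_c1 (p : (K × K) × ℂ) {Q : K → K → Prop} (h : ∃ᶠ c in 𝓝 p.1.1, Q c p.1.2) :
    ∃ᶠ q : (K × K) × ℂ in 𝓝 p, Q q.1.1 q.1.2 := by
  have h2 : Tendsto (fun c : K => ((c, p.1.2), p.2)) (𝓝 p.1.1) (𝓝 p) :=
    ((continuous_id.prodMk continuous_const).prodMk continuous_const).tendsto' _ _ rfl
  exact h2.frequently h

theorem freq_c2 (p : (K × K) × ℂ) {Q : K → K → Prop} (h : ∃ᶠ c in 𝓝 p.1.2, Q p.1.1 c) :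
    ∃ᶠ q : (K × K) × ℂ in 𝓝 p, Q q.1.1 q.1.2 := by
  have h2 : Tendsto (fun c : K => ((p.1.1, c), p.2)) (𝓝 p.1.2) (𝓝 p) :=
    ((continuous_const.prodMk continuous_id).prodMk continuous_const).tendsto' _ _ rfl
  exact h2.frequently h

end chart

/-! ### the curve `Cv P` -/

section curve

open Crest.Agent.R272.Cur_297 Crest.Agent.R272.Tq1_916

variable {P : Par} {Y : Type} [TopologicalSpace Y] {CY : Fam 3 Y}
  {E : OpenPartialHomeomorph ((Cv P × Cv P) × ℂ) Y}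

theorem zero_mem_k (c : Cv P) : (0 : ℂ) ∈ (k c).target := by
  rw [← k_zero c]; exact (k c).map_source (k_mem c)

theorem symm_zero_k (c : Cv P) : (k c).symm 0 = c := by
  rw [← k_zero c, (k c).left_inv (k_mem c)]

theorem ev_k {c : Cv P} {O : Set (Cv P)} (hO : IsOpen O) (h : c ∈ O) :
    ∀ᶠ z in 𝓝 (0 : ℂ), (k c).symm z ∈ O := by
  have h1 := (k c).continuousAt_symm (zero_mem_k c)
  rw [ContinuousAt, symm_zero_k] at h1
  exact h1.eventually (hO.mem_nhds h)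

theorem holK_dl {i : Fin 2} {c : Cv P} (h : tt c ≠ pole i) :
    HolK (cur P) c fun c => dl i (tt c) := by
  fin_cases i
  · exact analyticAt_const
  · have h' : tt c ≠ ((0 : ℂ) : P1) := h
    have h1 := (R1 c (zero_mem_k c) (by rw [symm_zero_k]; exact h')).f_an
    refine h1.congr (Eventually.of_forall fun z => ?_)
    show sv ((k c).symm z) = Tp1_60.iv (tt ((k c).symm z))
    rw [iv_tt]

theorem holK_nu {i : Fin 2} {c : Cv P} (h : tt c ≠ pole i) :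
    HolK (cur P) c fun c => nu i (tt c) := by
  fin_cases i
  · have h' : tt c ≠ ∞ := h
    have h1 := (R0 c (zero_mem_k c) (by rw [symm_zero_k]; exact h')).f_an
    refine h1.congr ?_
    filter_upwards [ev_k isOpen_ne_inf h'] with z hz
    show tv ((k c).symm z) = Tp1_60.nn (tt ((k c).symm z))
    rw [nn_tt hz]
  · exact analyticAt_const

theorem holK_eta {i : Fin 2} {c : Cv P} (h : tt c ≠ pole i) :
    HolK (cur P) c fun c => eta i c := by
  fin_cases i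
  · have h' : tt c ≠ ∞ := h
    exact (R0 c (zero_mem_k c) (by rw [symm_zero_k]; exact h')).g_an
  · have h' : tt c ≠ ((0 : ℂ) : P1) := h
    exact (R1 c (zero_mem_k c) (by rw [symm_zero_k]; exact h')).g_an

theorem isOpen_ne_pole (i : Fin 2) : IsOpen {c : Cv P | tt c ≠ pole i} := by
  fin_cases i
  · exact isOpen_ne_inf
  · exact isOpen_ne_zero

/-- the points with a given slope -/
theorem fin_slope (t : P1) : {c : Cv P | tt c = t}.Finite := by
  by_cases h : ∃ c : Cv P, tt c = t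
  · obtain ⟨c, hc⟩ := h
    refine ((finite_singleton (iv c)).insert c).subset ?_
    intro c' hc'
    exact eq_or_eq_iv (hc.trans hc'.symm)
  · convert finite_empty (α := Cv P)
    ext c
    simp only [mem_ofPred_eq, mem_empty_iff_false, iff_false]
    exact fun hc => h ⟨c, hc⟩

/-- functions of the first point on `Y` -/
def sY (E : OpenPartialHomeomorph ((Cv P × Cv P) × ℂ) Y) (i : Fin 2) (y : Y) : ℂ :=
  dl i (tt (E.symm y).1.1)
def rY (E : OpenPartialHomeomorph ((Cv P × Cv P) × ℂ) Y) (i : Fin 2) (y : Y) : ℂ :=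
  nu i (tt (E.symm y).1.1)
def eY (E : OpenPartialHomeomorph ((Cv P × Cv P) × ℂ) Y) (i : Fin 2) (y : Y) : ℂ :=
  eta i (E.symm y).1.1
/-- functions of the second point on `Y` -/
def sY' (E : OpenPartialHomeomorph ((Cv P × Cv P) × ℂ) Y) (j : Fin 2) (y : Y) : ℂ :=
  dl j (tt (E.symm y).1.2)
def rY' (E : OpenPartialHomeomorph ((Cv P × Cv P) × ℂ) Y) (j : Fin 2) (y : Y) : ℂ :=
  nu j (tt (E.symm y).1.2)
def eY' (E : OpenPartialHomeomorph ((Cv P × Cv P) × ℂ) Y) (j : Fin 2) (y : Y) : ℂ :=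
  eta j (E.symm y).1.2
/-- the fibre coordinate on `Y` -/
def xY (E : OpenPartialHomeomorph ((Cv P × Cv P) × ℂ) Y) (y : Y) : ℂ := (E.symm y).2

theorem ev_Y {p : (Cv P × Cv P) × ℂ} (hp : p ∈ E.source) {Q : (Cv P × Cv P) × ℂ → Prop}
    (h : ∀ᶠ q in 𝓝 p, Q q) : ∀ᶠ y in 𝓝 (E p), Q (E.symm y) := by
  have h1 := E.continuousAt_symm (E.map_source hp)
  rw [ContinuousAt, E.left_inv hp] at h1
  exact h1.eventually h

theorem ev_Y_source {p : (Cv P × Cv P) × ℂ} (hp : p ∈ E.source) :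
    ∀ᶠ y in 𝓝 (E p), y ∈ E.target ∧ E (E.symm y) = y := by
  filter_upwards [E.open_target.mem_nhds (E.map_source hp)] with y hy
  exact ⟨hy, E.right_inv hy⟩

theorem fr_1 (hE : ECpt (cur P) CY E) {p : (Cv P × Cv P) × ℂ} (hp : p ∈ E.source) {i : Fin 2}
    (h : tt p.1.1 ≠ pole i) : Fr CY (cf P) (E p) (sY E i) (rY E i) (eY E i) where
  hs := holN_c1 hE hp (f := fun c => dl i (tt c)) (holK_dl h)
  hr := holN_c1 hE hp (f := fun c => nu i (tt c)) (holK_nu h)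
  he := holN_c1 hE hp (f := fun c => eta i c) (holK_eta h)
  eq := by
    have h1 : ∀ᶠ q : (Cv P × Cv P) × ℂ in 𝓝 p, tt q.1.1 ≠ pole i :=
      (continuous_fst.comp continuous_fst).continuousAt.eventually
        ((isOpen_ne_pole i).mem_nhds h)
    filter_upwards [ev_Y hp h1] with y hy
    exact eta_sq hy
  ne := by
    show dl i (tt (E.symm (E p)).1.1) ≠ 0 ∨ nu i (tt (E.symm (E p)).1.1) ≠ 0
    rw [E.left_inv hp]
    exact frame_ne i _

theorem fr_2 (hE : ECpt (cur P) CY E) {p : (Cv P × Cv P) × ℂ} (hp : p ∈ E.source) {j : Fin 2}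
    (h : tt p.1.2 ≠ pole j) : Fr CY (cf P) (E p) (sY' E j) (rY' E j) (eY' E j) where
  hs := holN_c2 hE hp (f := fun c => dl j (tt c)) (holK_dl h)
  hr := holN_c2 hE hp (f := fun c => nu j (tt c)) (holK_nu h)
  he := holN_c2 hE hp (f := fun c => eta j c) (holK_eta h)
  eq := by
    have h1 : ∀ᶠ q : (Cv P × Cv P) × ℂ in 𝓝 p, tt q.1.2 ≠ pole j :=
      (continuous_snd.comp continuous_fst).continuousAt.eventually
        ((isOpen_ne_pole j).mem_nhds h)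
    filter_upwards [ev_Y hp h1] with y hy
    exact eta_sq hy
  ne := by
    show dl j (tt (E.symm (E p)).1.2) ≠ 0 ∨ nu j (tt (E.symm (E p)).1.2) ≠ 0
    rw [E.left_inv hp]
    exact frame_ne j _

theorem dl_ne {i : Fin 2} {t : P1} (h : t ≠ pole i) (h0 : t ≠ ∞) : dl i t ≠ 0 := by
  obtain ⟨g, hg, e1, e2⟩ := frame_rep h
  rw [e1, Tp1_60.dd_of_ne h0, mul_one]
  exact hg

theorem nz_xY {p : (Cv P × Cv P) × ℂ} (hp : p ∈ E.source) : NZ (E p) (xY E) :=
  nz_E hp (f := fun q => q.2) (freq_x p)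

theorem nz_sY {p : (Cv P × Cv P) × ℂ} (hp : p ∈ E.source) {i : Fin 2} (h : tt p.1.1 ≠ pole i) :
    NZ (E p) (sY E i) := by
  refine nz_E hp (f := fun q => dl i (tt q.1.1)) ?_
  refine freq_c1 p (Q := fun c _ => dl i (tt c) ≠ 0) ?_
  have h1 := (freq_K (cur P) p.1.1 (fin_slope ∞)).and_eventually ((isOpen_ne_pole i).mem_nhds h)
  exact h1.mono fun c hc => dl_ne hc.2 hc.1

theorem nz_sY' {p : (Cv P × Cv P) × ℂ} (hp : p ∈ E.source) {j : Fin 2} (h : tt p.1.2 ≠ pole j) :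
    NZ (E p) (sY' E j) := by
  refine nz_E hp (f := fun q => dl j (tt q.1.2)) ?_
  refine freq_c2 p (Q := fun _ c => dl j (tt c) ≠ 0) ?_
  have h1 := (freq_K (cur P) p.1.2 (fin_slope ∞)).and_eventually ((isOpen_ne_pole j).mem_nhds h)
  exact h1.mono fun c hc => dl_ne hc.2 hc.1

theorem nz_delY {p : (Cv P × Cv P) × ℂ} (hp : p ∈ E.source) {i j : Fin 2}
    (h : tt p.1.1 ≠ pole i) (h' : tt p.1.2 ≠ pole j) :
    NZ (E p) fun y => del (sY E i y) (rY E i y) (sY' E j y) (rY' E j y) := by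
  refine nz_E hp (f := fun q => del (dl i (tt q.1.1)) (nu i (tt q.1.1)) (dl j (tt q.1.2))
    (nu j (tt q.1.2))) ?_
  refine freq_c1 p (Q := fun c c' => del (dl i (tt c)) (nu i (tt c)) (dl j (tt c'))
    (nu j (tt c')) ≠ 0) ?_
  have h1 := (freq_K (cur P) p.1.1 (fin_slope (tt p.1.2))).and_eventually
    ((isOpen_ne_pole i).mem_nhds h)
  exact h1.mono fun c hc h0 => hc.1 ((del_frame hc.2 h').1 h0)

/-- the `E`-chart -/
theorem ech_E (hE : ECpt (cur P) CY E) {p : (Cv P × Cv P) × ℂ} (hp : p ∈ E.source) {i j : Fin 2}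
    (h : tt p.1.1 ≠ pole i) (h' : tt p.1.2 ≠ pole j) {x0 x1 x2 Y1 Y2 E1 E2 N : Y → ℂ}
    (h0 : ∀ᶠ q in 𝓝 p, x0 (E q) = q.2 * (dl i (tt q.1.1) * dl j (tt q.1.2)))
    (h1 : ∀ᶠ q in 𝓝 p, x1 (E q) = q.2 * (nu i (tt q.1.1) * dl j (tt q.1.2)))
    (h2 : ∀ᶠ q in 𝓝 p, x2 (E q) = q.2 * (dl i (tt q.1.1) * nu j (tt q.1.2)))
    (hY1 : ∀ᶠ q in 𝓝 p, Y1 (E q) = (q.2 * dl j (tt q.1.2)) ^ 3 * eta i q.1.1)
    (hY2 : ∀ᶠ q in 𝓝 p, Y2 (E q) = (q.2 * dl i (tt q.1.1)) ^ 3 * eta j q.1.2)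
    (hE1 : ∀ᶠ y in 𝓝 (E p), E1 y = x1 y + x2 y) (hE2 : ∀ᶠ y in 𝓝 (E p), E2 y = x1 y * x2 y)
    (hN : ∀ᶠ y in 𝓝 (E p), N y = Fh (cf P) (x0 y) (x1 y) (x0 y) (x2 y) - 2 * Y1 y * Y2 y) :
    ECh CY (cf P) (E p) x0 E1 E2 N (xY E) (sY E i) (rY E i) (eY E i)
      (sY' E j) (rY' E j) (eY' E j) := by
  have hev : ∀ {f : Y → ℂ} {g : (Cv P × Cv P) × ℂ → ℂ}, (∀ᶠ q in 𝓝 p, f (E q) = g q) →
      ∀ᶠ y in 𝓝 (E p), f y = g (E.symm y) := by
    intro f g hfg
    filter_upwards [ev_Y hp hfg, ev_Y_source hp] with y k1 k2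
    rw [k2.2] at k1
    exact k1
  exact ECh.mk' (fr_1 hE hp h) (fr_2 hE hp h') (holN_x hE hp) (hev h0) (hev h1) (hev h2)
    (hev hY1) (hev hY2) hE1 hE2 hN

variable {x0 E1 E2 N : Y → ℂ} {b : ℕ} {i j : Fin 2} {p : (Cv P × Cv P) × ℂ}

/-- abbreviation -/
def EC (CY : Fam 3 Y) (E : OpenPartialHomeomorph ((Cv P × Cv P) × ℂ) Y) (i j : Fin 2)
    (p : (Cv P × Cv P) × ℂ) (x0 E1 E2 N : Y → ℂ) : Prop :=
  ECh CY (cf P) (E p) x0 E1 E2 N (xY E) (sY E i) (rY E i) (eY E i) (sY' E j) (rY' E j) (eY' E j)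

/-- the generator off `Γ` -/
def gXY (b : ℕ) (E : OpenPartialHomeomorph ((Cv P × Cv P) × ℂ) Y) (i j : Fin 2) : Y → ℂ :=
  gX b (xY E) (sY E i) (rY E i) (sY' E j) (rY' E j)

/-- the generator near `Γ`, `ξ ≠ 0` -/
def gMY (b : ℕ) (E : OpenPartialHomeomorph ((Cv P × Cv P) × ℂ) Y) (i j : Fin 2) : Y → ℂ :=
  gM b (cf P) (xY E) (sY E i) (rY E i) (eY E i) (sY' E j) (rY' E j) (eY' E j)


theorem off_Y (hp : p ∈ E.source) (h : tt p.1.1 ≠ pole i) (h' : tt p.1.2 ≠ pole j)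
    (hc : p.1.2 ≠ iv p.1.1) :
    Off (cf P) (E p) (sY E i) (rY E i) (eY E i) (sY' E j) (rY' E j) (eY' E j) := by
  unfold Off sY rY eY sY' rY' eY'
  rw [E.left_inv hp]
  exact off_frame h h' hc

/-- **(5A) generator at the points `(c, c', ξ)`, `c' ≠ iv c`** -/
theorem kum_gen (hb : 15 ≤ b) (hp : p ∈ E.source) (h : tt p.1.1 ≠ pole i)
    (h' : tt p.1.2 ≠ pole j) (hc : p.1.2 ≠ iv p.1.1) (hC : EC CY E i j p x0 E1 E2 N) :
    FinCB3_876.GenAt CY (Pf b x0 E1 E2 N) (gXY b E i j) (E p) :=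
  ECh.genX hb hC (off_Y hp h h' hc)

/-- the fourth Kummer coordinate in the frames `i, j` -/
def GK (i j : Fin 2) (x : Cv P × Cv P) : ℂ :=
  GG (cf P) (dl i (tt x.1)) (nu i (tt x.1)) (eta i x.1) (dl j (tt x.2)) (nu j (tt x.2))
    (eta j x.2)

/-- the first three Kummer coordinates in the frames `i, j` -/
def SK (i j : Fin 2) (x : Cv P × Cv P) : Fin 3 → ℂ :=
  sym3 (dl i (tt x.1)) (nu i (tt x.1)) (dl j (tt x.2)) (nu j (tt x.2))

/-- **(5A) values at the points `(c, c', ξ)`, `c' ≠ iv c`** -/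
theorem kum_val (hb : 15 ≤ b) (hp : p ∈ E.source) (h : tt p.1.1 ≠ pole i)
    (h' : tt p.1.2 ≠ pole j) (hc : p.1.2 ≠ iv p.1.1) (hC : EC CY E i j p x0 E1 E2 N) :
    FinCB3_876.ValC CY (Pf b x0 E1 E2 N) (E p)
      fun k => PW_92.Yxi b p.2 (GK i j p.1) (SK i j p.1) k := by
  have h1 := ECh.valX hb hC (off_Y hp h h' hc) (nz_xY hp) (nz_sY hp h) (nz_sY' hp h')
    (nz_delY hp h h')
  unfold xY sY rY eY sY' rY' eY' at h1
  rw [E.left_inv hp] at h1
  exact h1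

/-- **(5A) on the zero section: the Kummer map** -/
theorem kum_val0 (hb : 15 ≤ b) {x : Cv P × Cv P} (hp : (x, (0 : ℂ)) ∈ E.source)
    (h : tt x.1 ≠ pole i) (h' : tt x.2 ≠ pole j) (hc : x.2 ≠ iv x.1)
    (hC : EC CY E i j (x, 0) x0 E1 E2 N) :
    FinCB3_876.ValC CY (Pf b x0 E1 E2 N) (E (x, 0)) (Kv (GK i j x) (SK i j x)) := by
  have h1 := kum_val hb hp h h' hc hC
  have h2 : (fun k => PW_92.Yxi b ((x, (0 : ℂ)) : (Cv P × Cv P) × ℂ).2 (GK i j x) (SK i j x) k)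
      = Kv (GK i j x) (SK i j x) := funext fun k => Yxi_zero hb _ _ k
  rw [← h2]
  exact h1

/-- **(5A) generator near `Γ`, `ξ ≠ 0`** (in fact at every point with `ξ ≠ 0` where `rho ≠ 0` or
`K0 ≠ 0`) -/
theorem kum_genM (hb : 15 ≤ b) (hp : p ∈ E.source) (h : tt p.1.1 ≠ pole i)
    (h' : tt p.1.2 ≠ pole j) (hc : p.1.2 = iv p.1.1) (hx : p.2 ≠ 0)
    (hC : EC CY E i j p x0 E1 E2 N) :
    FinCB3_876.GenAt CY (Pf b x0 E1 E2 N) (gMY b E i j) (E p) := by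
  have hn : Near (cf P) (E p) (sY E i) (rY E i) (eY E i) (sY' E j) (rY' E j) (eY' E j) := by
    rcases ECh.F hC |>.off_or_near (simple_cf P) (ECh.F' hC) with h1 | h1
    · exfalso
      unfold Off sY rY eY sY' rY' eY' at h1
      rw [E.left_inv hp] at h1
      obtain ⟨h2, h3⟩ := (gam_frame h h').2 hc
      rcases h1 with h1 | h1
      · exact h1 h2
      · exact h1 h3
    · exact h1
  refine ECh.genM hb hC hn ?_
  show (E.symm (E p)).2 ≠ 0
  rw [E.left_inv hp]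
  exact hx

/-! ### finite fibres on the zero section -/




theorem SK_q3 {i j : Fin 2} {x : Cv P × Cv P} (h : tt x.1 ≠ pole i) (h' : tt x.2 ≠ pole j) :
    ∃ g : ℂ, g ≠ 0 ∧ ∀ k, SK i j x k = g * q3 x k :=
  q3_frame h h'



end curve

end Crest.Agent.R272.Kum_977
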