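import Crest.Agent.R266.SCV
import Crest.Agent.R272.Cur1_297
import Crest.Agent.R272.Cur2_297
import Crest.Agent.R272.AJDefs_956

-- ▼ part R272/Cur3_297
section

/-!
Row 272 (helper297): CUR-INST, part 3: centred charts of a smooth affine curve `y² = p x`.
-/

set_option autoImplicit false
set_option linter.unusedSectionVars false

open Set Filter Topology Metric Complex

noncomputable section

namespace Crest.Agent.R272.Cur_297

/-- a chart of the curve `y² = p x` centred at `q`: the coordinate is `x - x(q)` if `y(q) ≠ 0` and `y`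
otherwise; `m = (dx/ds)/y` is the coefficient of the form `dx / y`. -/
structure Ch (p : ℂ → ℂ) (q : Aff p) where
  φ : OpenPartialHomeomorph (Aff p) ℂ
  r : ℝ
  r_pos : 0 < r
  target : φ.target = ball 0 r
  mem : q ∈ φ.source
  zero : φ q = 0
  X : ℂ → ℂ
  Y : ℂ → ℂ
  m : ℂ → ℂ
  X_an : AnalyticOnNhd ℂ X (ball 0 r)
  Y_an : AnalyticOnNhd ℂ Y (ball 0 r)
  m_an : AnalyticOnNhd ℂ m (ball 0 r)
  symm_eq : ∀ s ∈ ball (0 : ℂ) r, (φ.symm s).1 = (X s, Y s)
  m_eq : ∀ s ∈ ball (0 : ℂ) r, m s * Y s = deriv X s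
  m_ne : ∀ s ∈ ball (0 : ℂ) r, m s ≠ 0
  Y_ne : ∀ s ∈ ball (0 : ℂ) r, s ≠ 0 → Y s ≠ 0
  co0 : q.1.2 ≠ 0 → ∀ q', φ q' = q'.1.1 - q.1.1
  co1 : q.1.2 = 0 → ∀ q', φ q' = q'.1.2

section

variable {p : ℂ → ℂ}

/-- chart at an unramified point -/
theorem exists_chU (hp : Differentiable ℂ p) (q : Aff p) (hq : q.1.2 ≠ 0) :
    Nonempty (Ch p q) := by
  set x0 := q.1.1 with hx0
  set y0 := q.1.2 with hy0
  have hq2 : y0 ^ 2 = p x0 := q.2
  have hp0 : p x0 ≠ 0 := by rw [← hq2]; exact pow_ne_zero 2 hq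
  set g : ℂ → ℂ := fun x => p x / p x0 with hg
  have hgd : Differentiable ℂ g := hp.div_const _
  set h : ℂ → ℂ := fun x => y0 * (g x) ^ (((2 : ℕ) : ℂ)⁻¹) with hh
  have hsq : ∀ x, h x ^ 2 = p x := by
    intro x
    simp only [hh]
    rw [mul_pow, Complex.cpow_nat_inv_pow _ two_ne_zero, hq2]
    simp only [hg]
    field_simp
  set O : Set ℂ := g ⁻¹' slitPlane with hO
  have hOo : IsOpen O := Complex.isOpen_slitPlane.preimage hgd.continuous
  have hx0O : x0 ∈ O := by
    show p x0 / p x0 ∈ slitPlane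
    rw [div_self hp0]
    exact Complex.one_mem_slitPlane
  have hhd : DifferentiableOn ℂ h O := by
    intro x hx
    have : DifferentiableAt ℂ (fun x => (g x) ^ (((2 : ℕ) : ℂ)⁻¹)) x :=
      (hgd x).cpow_const hx
    exact (this.const_mul y0).differentiableWithinAt
  have hha : AnalyticOnNhd ℂ h O := hhd.analyticOnNhd hOo
  have hne : ∀ x ∈ O, h x ≠ 0 := by
    intro x hx h0
    have h1 := hsq x
    rw [h0] at h1
    have h2 : g x = 0 := by
      simp only [hg]
      rw [← h1]; norm_num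
    have : (0 : ℂ) ∈ slitPlane := by rw [← h2]; exact hx
    simp at this
  have hx0h : h x0 = y0 := by
    simp only [hh, hg]
    rw [div_self hp0, Complex.one_cpow, mul_one]
  obtain ⟨r, hr, hrO⟩ := Metric.isOpen_iff.1 hOo x0 hx0O
  have hadd : ∀ s ∈ ball (0 : ℂ) r, x0 + s ∈ ball x0 r := by
    intro s hs
    rw [mem_ball, dist_eq_norm, add_sub_cancel_left]
    simpa using hs
  set inv : ℂ → Aff p := fun s => ⟨(x0 + s, h (x0 + s)), hsq (x0 + s)⟩ with hinv
  set rr : Aff p → ℝ := fun q' => (q'.1.2 / h q'.1.1).re with hrr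
  have hopen : IsOpen ({q' : Aff p | q'.1.1 ∈ ball x0 r} ∩ rr ⁻¹' Ioi 0) := by
    refine ContinuousOn.isOpen_inter_preimage ?_
      (isOpen_ball.preimage (continuous_fst.comp continuous_subtype_val)) isOpen_Ioi
    intro q' hq'
    have hx : q'.1.1 ∈ O := hrO hq'
    have h1 : ContinuousAt (fun q' : Aff p => h q'.1.1) q' :=
      ContinuousAt.comp (f := fun q' : Aff p => q'.1.1) (g := h) (x := q')
        (hha _ hx).continuousAt (continuous_fst.comp continuous_subtype_val).continuousAt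
    have h2 : ContinuousAt (fun q' : Aff p => q'.1.2 / h q'.1.1) q' :=
      (continuous_snd.comp continuous_subtype_val).continuousAt.div h1 (hne _ hx)
    exact (Complex.continuous_re.continuousAt.comp h2).continuousWithinAt
  have hkey : ∀ q' : Aff p, q'.1.1 ∈ ball x0 r → 0 < rr q' → q'.1.2 = h q'.1.1 := by
    intro q' hq' hre
    have h1 : q'.1.2 ^ 2 = h q'.1.1 ^ 2 := by rw [hsq]; exact q'.2
    rcases sq_eq_sq_iff_eq_or_eq_neg.1 h1 with e | e
    · exact e
    · exfalso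
      simp only [hrr] at hre
      rw [e, neg_div, div_self (hne _ (hrO hq'))] at hre
      norm_num at hre
  set φ : OpenPartialHomeomorph (Aff p) ℂ :=
    { toFun := fun q' => q'.1.1 - x0
      invFun := inv
      source := {q' : Aff p | q'.1.1 ∈ ball x0 r} ∩ rr ⁻¹' Ioi 0
      target := ball 0 r
      map_source' := by
        rintro q' ⟨h1, -⟩
        rw [mem_ball_zero_iff, ← dist_eq_norm]
        exact h1
      map_target' := by
        intro s hs
        refine ⟨hadd s hs, ?_⟩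
        show (0 : ℝ) < (h (x0 + s) / h (x0 + s)).re
        rw [div_self (hne _ (hrO (hadd s hs)))]
        norm_num
      left_inv' := by
        rintro q' ⟨h1, h2⟩
        refine Subtype.ext (Prod.ext ?_ ?_)
        · show x0 + (q'.1.1 - x0) = q'.1.1
          ring
        · show h (x0 + (q'.1.1 - x0)) = q'.1.2
          rw [add_sub_cancel, hkey q' h1 h2]
      right_inv' := by
        intro s hs
        show x0 + s - x0 = s
        ring
      open_source := hopen
      open_target := isOpen_ball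
      continuousOn_toFun :=
        ((continuous_fst.comp continuous_subtype_val).sub continuous_const).continuousOn
      continuousOn_invFun := by
        rw [Topology.IsInducing.subtypeVal.continuousOn_iff]
        intro s hs
        have h1 : ContinuousAt (fun s => h (x0 + s)) s :=
          ContinuousAt.comp (f := fun s => x0 + s) (g := h) (x := s)
            (hha _ (hrO (hadd s hs))).continuousAt (by fun_prop)
        have h2 : ContinuousAt (fun s : ℂ => (x0 + s, h (x0 + s))) s :=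
          ContinuousAt.prodMk (by fun_prop) h1
        exact h2.continuousWithinAt } with hφ
  have hYan : AnalyticOnNhd ℂ (fun s => h (x0 + s)) (ball 0 r) := by
    intro s hs
    exact AnalyticAt.comp (f := fun s => x0 + s) (g := h) (x := s) (hha _ (hrO (hadd s hs)))
      (analyticAt_const.add analyticAt_id)
  refine ⟨{
    φ := φ
    r := r
    r_pos := hr
    target := rfl
    mem := ?_
    zero := sub_self _
    X := fun s => x0 + s
    Y := fun s => h (x0 + s)
    m := fun s => (h (x0 + s))⁻¹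
    X_an := fun s _ => analyticAt_const.add analyticAt_id
    Y_an := hYan
    m_an := fun s hs => (hYan s hs).inv (hne _ (hrO (hadd s hs)))
    symm_eq := fun s _ => rfl
    m_eq := ?_
    m_ne := fun s hs => inv_ne_zero (hne _ (hrO (hadd s hs)))
    Y_ne := fun s hs _ => hne _ (hrO (hadd s hs))
    co0 := fun _ q' => rfl
    co1 := fun h => absurd h hq }⟩
  · refine ⟨mem_ball_self hr, ?_⟩
    show (0 : ℝ) < (y0 / h x0).re
    rw [hx0h, div_self hq]
    norm_num
  · intro s hs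
    have h1 : deriv (fun s : ℂ => x0 + s) s = 1 := by
      rw [deriv_const_add, deriv_id'']
    rw [h1, inv_mul_cancel₀ (hne _ (hrO (hadd s hs)))]

/-- chart at a ramification point -/
theorem exists_chW (hp : Differentiable ℂ p) (q : Aff p) (hq : q.1.2 = 0)
    (hd : deriv p q.1.1 ≠ 0) : Nonempty (Ch p q) := by
  classical
  set x0 := q.1.1 with hx0
  have hp0 : p x0 = 0 := by
    have h : q.1.2 ^ 2 = p x0 := q.2
    rw [← h, hq]; norm_num
  have hpa : AnalyticAt ℂ p x0 := (hp.analyticAt x0)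
  have hU : {x | deriv p x ≠ 0} ∈ 𝓝 x0 :=
    hpa.deriv.continuousAt.eventually_ne hd
  obtain ⟨e, he1, he2, he3, he4, he5⟩ :=
    Crest.Agent.R266.SCV.exists_analytic_openPartialHomeomorph (E := ℂ) (F := ℂ) hpa
      (ContinuousLinearEquiv.unitsEquivAut ℂ (Units.mk0 _ hd))
      (by
        have h1 := (hp x0).hasDerivAt.hasFDerivAt
        refine h1.congr_fderiv ?_
        ext
        simp) hU
  have hex0 : e x0 = 0 := by rw [he3, hp0]
  have h0t : (0 : ℂ) ∈ e.target := by rw [← hex0]; exact e.map_source he1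
  have hop : IsOpen ((fun s : ℂ => s ^ 2) ⁻¹' e.target) := e.open_target.preimage (by fun_prop)
  obtain ⟨r, hr, hrO⟩ := Metric.isOpen_iff.1 hop 0 (by
    show (0 : ℂ) ^ 2 ∈ e.target
    rw [zero_pow two_ne_zero]; exact h0t)
  have hpe : ∀ z ∈ e.target, p (e.symm z) = z := fun z hz => by
    rw [← he3, e.right_inv hz]
  set inv : ℂ → Aff p := fun s => if hs : s ^ 2 ∈ e.target then ⟨(e.symm (s ^ 2), s), by
    show s ^ 2 = p (e.symm (s ^ 2))
    rw [hpe _ hs]⟩ else q with hinv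
  have hinv' : ∀ s ∈ ball (0 : ℂ) r, (inv s).1 = (e.symm (s ^ 2), s) := by
    intro s hs
    have : s ^ 2 ∈ e.target := hrO hs
    simp only [hinv, dif_pos this]
  set φ : OpenPartialHomeomorph (Aff p) ℂ :=
    { toFun := fun q' => q'.1.2
      invFun := inv
      source := {q' : Aff p | q'.1.1 ∈ e.source} ∩ {q' : Aff p | q'.1.2 ∈ ball 0 r}
      target := ball 0 r
      map_source' := fun q' h => h.2
      map_target' := by
        intro s hs
        refine ⟨?_, ?_⟩
        · show (inv s).1.1 ∈ e.source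
          rw [hinv' s hs]
          exact e.map_target (hrO hs)
        · show (inv s).1.2 ∈ ball 0 r
          rw [hinv' s hs]
          exact hs
      left_inv' := by
        rintro q' ⟨h1, h2⟩
        refine Subtype.ext ?_
        rw [hinv' _ h2]
        refine Prod.ext ?_ rfl
        show e.symm (q'.1.2 ^ 2) = q'.1.1
        have h3 : q'.1.2 ^ 2 = p q'.1.1 := q'.2
        rw [h3, ← he3, e.left_inv h1]
      right_inv' := by
        intro s hs
        show (inv s).1.2 = s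
        rw [hinv' s hs]
      open_source := (e.open_source.preimage (continuous_fst.comp continuous_subtype_val)).inter
        (isOpen_ball.preimage (continuous_snd.comp continuous_subtype_val))
      open_target := isOpen_ball
      continuousOn_toFun := (continuous_snd.comp continuous_subtype_val).continuousOn
      continuousOn_invFun := by
        rw [Topology.IsInducing.subtypeVal.continuousOn_iff]
        have h1 : ContinuousOn (fun s : ℂ => (e.symm (s ^ 2), s)) (ball 0 r) := by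
          refine ContinuousOn.prodMk ?_ continuousOn_id
          exact e.symm.continuousOn.comp (by fun_prop) (fun s hs => hrO hs)
        exact h1.congr fun s hs => hinv' s hs } with hφ
  have hXan : AnalyticOnNhd ℂ (fun s => e.symm (s ^ 2)) (ball 0 r) := by
    intro s hs
    exact AnalyticAt.comp (f := fun s => s ^ 2) (g := e.symm) (x := s) (he5 _ (hrO hs))
      (analyticAt_id.pow 2)
  have hX0 : ∀ s ∈ ball (0 : ℂ) r, deriv p (e.symm (s ^ 2)) ≠ 0 := fun s hs =>
    he2 (e.map_target (hrO hs))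
  refine ⟨{
    φ := φ
    r := r
    r_pos := hr
    target := rfl
    mem := ?_
    zero := hq
    X := fun s => e.symm (s ^ 2)
    Y := fun s => s
    m := fun s => 2 / deriv p (e.symm (s ^ 2))
    X_an := hXan
    Y_an := fun s _ => analyticAt_id
    m_an := ?_
    symm_eq := hinv'
    m_eq := ?_
    m_ne := fun s hs => div_ne_zero two_ne_zero (hX0 s hs)
    Y_ne := fun s _ h => h
    co0 := fun h => absurd hq h
    co1 := fun _ q' => rfl }⟩
  · refine ⟨he1, ?_⟩
    show q.1.2 ∈ ball 0 r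
    rw [hq]; exact mem_ball_self hr
  · intro s hs
    have h1 : AnalyticAt ℂ (deriv p) (e.symm (s ^ 2)) := (hp.analyticAt _).deriv
    exact analyticAt_const.div (AnalyticAt.comp (f := fun s => e.symm (s ^ 2)) (x := s) h1
      (hXan s hs)) (hX0 s hs)
  · intro s hs
    have h1 : ∀ᶠ z in 𝓝 s, p (e.symm (z ^ 2)) = z ^ 2 := by
      filter_upwards [isOpen_ball.mem_nhds hs] with z hz
      exact hpe _ (hrO hz)
    have hXd : HasDerivAt (fun s => e.symm (s ^ 2)) (deriv (fun s => e.symm (s ^ 2)) s) s :=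
      (hXan s hs).differentiableAt.hasDerivAt
    have h2 : HasDerivAt (fun z => p (e.symm (z ^ 2)))
        (deriv p (e.symm (s ^ 2)) * deriv (fun s => e.symm (s ^ 2)) s) s :=
      HasDerivAt.comp s (h₂ := p) (hp _).hasDerivAt hXd
    have h3 : HasDerivAt (fun z : ℂ => z ^ 2) (2 * s) s := by
      simpa using hasDerivAt_pow 2 s
    have h4 := (h2.congr_of_eventuallyEq (h1.mono fun z hz => hz.symm)).unique h3
    have h5 := hX0 s hs
    field_simp
    rw [← h4]

theorem exists_ch (hp : Differentiable ℂ p) (hs : ∀ x, p x = 0 → deriv p x ≠ 0) (q : Aff p) :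
    Nonempty (Ch p q) := by
  by_cases h : q.1.2 = 0
  · refine exists_chW hp q h (hs _ ?_)
    have h1 : q.1.2 ^ 2 = p q.1.1 := q.2
    rw [← h1, h]; norm_num
  · exact exists_chU hp q h

end

end Crest.Agent.R272.Cur_297
end
end

-- ▼ part R272/Cur4_297

/-!
Row 272 (helper297): CUR-INST, part 4: the charts `k c`, the form `om c`, the local primitives `G c`,
and the instance of `AJ_956.Cur`.
-/

set_option autoImplicit false
set_option linter.unusedSectionVars false

open Set Filter Topology Metric Complex OnePoint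

noncomputable section

namespace Crest.Agent.R272.Cur_297

open Crest.Agent.R272.AJ_956 (E2 det2)

variable {P : Par}

def aq (c : Cv P) (h : tt c ≠ ∞) : Aff P.p0 := ⟨(tv c, yv c), yv_sq h⟩
def bq (c : Cv P) (h : tt c ≠ ((0 : ℂ) : P1)) : Aff P.p1 := ⟨(sv c, vv c), vv_sq h⟩

def ch0 (q : Aff P.p0) : Ch P.p0 q :=
  Classical.choice (exists_ch P.differentiable_p0 (fun _ h => P.simple_p0 h) q)
def ch1 (q : Aff P.p1) : Ch P.p1 q :=
  Classical.choice (exists_ch P.differentiable_p1 (fun _ h => P.simple_p1 h) q)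

theorem nz {c : Cv P} (h : ¬ tt c ≠ ∞) : tt c ≠ ((0 : ℂ) : P1) := ne_zero_of_inf (not_not.1 h)

/-- `(1, t)` -/
def la (t : ℂ) : E2 := ![1, t]
/-- `-(s, 1)` -/
def lb (s : ℂ) : E2 := ![-s, -1]

open Classical in
/-- the charts -/
def k (c : Cv P) : OpenPartialHomeomorph (Cv P) ℂ :=
  if h : tt c ≠ ∞ then (E0 P).trans (ch0 (aq c h)).φ else (E1 P).trans (ch1 (bq c (nz h))).φ

open Classical in
def rad (c : Cv P) : ℝ := if h : tt c ≠ ∞ then (ch0 (aq c h)).r else (ch1 (bq c (nz h))).r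

open Classical in
/-- the form `(1, t) dt / y` in the chart `k c` -/
def om (c : Cv P) : ℂ → E2 :=
  if h : tt c ≠ ∞ then fun s => (ch0 (aq c h)).m s • la ((ch0 (aq c h)).X s)
  else fun s => (ch1 (bq c (nz h))).m s • lb ((ch1 (bq c (nz h))).X s)

theorem k_eq0 {c : Cv P} (h : tt c ≠ ∞) : k c = (E0 P).trans (ch0 (aq c h)).φ := dif_pos h
theorem k_eq1 {c : Cv P} (h : ¬ tt c ≠ ∞) : k c = (E1 P).trans (ch1 (bq c (nz h))).φ := dif_neg h
theorem rad_eq0 {c : Cv P} (h : tt c ≠ ∞) : rad c = (ch0 (aq c h)).r := dif_pos h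
theorem rad_eq1 {c : Cv P} (h : ¬ tt c ≠ ∞) : rad c = (ch1 (bq c (nz h))).r := dif_neg h
theorem om_eq0 {c : Cv P} (h : tt c ≠ ∞) :
    om c = fun s => (ch0 (aq c h)).m s • la ((ch0 (aq c h)).X s) := dif_pos h
theorem om_eq1 {c : Cv P} (h : ¬ tt c ≠ ∞) :
    om c = fun s => (ch1 (bq c (nz h))).m s • lb ((ch1 (bq c (nz h))).X s) := dif_neg h

theorem rad_pos (c : Cv P) : 0 < rad c := by
  by_cases h : tt c ≠ ∞
  · rw [rad_eq0 h]; exact (ch0 (aq c h)).r_pos
  · rw [rad_eq1 h]; exact (ch1 (bq c (nz h))).r_pos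

theorem k_target (c : Cv P) : (k c).target = ball 0 (rad c) := by
  by_cases h : tt c ≠ ∞
  · rw [k_eq0 h, rad_eq0 h, OpenPartialHomeomorph.trans_target, E0_target, preimage_univ,
      inter_univ, (ch0 (aq c h)).target]
  · rw [k_eq1 h, rad_eq1 h, OpenPartialHomeomorph.trans_target, E1_target, preimage_univ,
      inter_univ, (ch1 (bq c (nz h))).target]

theorem k_mem (c : Cv P) : c ∈ (k c).source := by
  by_cases h : tt c ≠ ∞
  · rw [k_eq0 h, OpenPartialHomeomorph.trans_source]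
    refine ⟨h, ?_⟩
    rw [mem_preimage, E0_apply h]
    exact (ch0 (aq c h)).mem
  · rw [k_eq1 h, OpenPartialHomeomorph.trans_source]
    refine ⟨nz h, ?_⟩
    rw [mem_preimage, E1_apply (nz h)]
    exact (ch1 (bq c (nz h))).mem

theorem k_source0 {c : Cv P} (h : tt c ≠ ∞) {y : Cv P} (hy : y ∈ (k c).source) : tt y ≠ ∞ := by
  rw [k_eq0 h, OpenPartialHomeomorph.trans_source] at hy
  exact hy.1

theorem k_source1 {c : Cv P} (h : ¬ tt c ≠ ∞) {y : Cv P} (hy : y ∈ (k c).source) :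
    tt y ≠ ((0 : ℂ) : P1) := by
  rw [k_eq1 h, OpenPartialHomeomorph.trans_source] at hy
  exact hy.1

/-- the coordinate at an unramified finite point -/
theorem k_apply_t {c : Cv P} (h : tt c ≠ ∞) (h0 : yv c ≠ 0) {y : Cv P} (hy : tt y ≠ ∞) :
    k c y = tv y - tv c := by
  rw [k_eq0 h, OpenPartialHomeomorph.trans_apply, E0_apply hy]
  exact (ch0 (aq c h)).co0 h0 _

/-- the coordinate at a Weierstrass point -/
theorem k_apply_y {c : Cv P} (h : tt c ≠ ∞) (h0 : yv c = 0) {y : Cv P} (hy : tt y ≠ ∞) :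
    k c y = yv y := by
  rw [k_eq0 h, OpenPartialHomeomorph.trans_apply, E0_apply hy]
  exact (ch0 (aq c h)).co1 h0 _

theorem sv_inf {c : Cv P} (h : ¬ tt c ≠ ∞) : sv c = 0 := by
  unfold sv; rw [not_not.1 h]; rfl

theorem vv_inf {c : Cv P} (h : ¬ tt c ≠ ∞) : vv c ≠ 0 := by
  intro h0
  have := vv_sq (nz h)
  rw [h0, sv_inf h, P.p1_zero] at this
  norm_num at this

/-- the coordinate at infinity -/
theorem k_apply_s {c : Cv P} (h : ¬ tt c ≠ ∞) {y : Cv P} (hy : tt y ≠ ((0 : ℂ) : P1)) :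
    k c y = sv y := by
  rw [k_eq1 h, OpenPartialHomeomorph.trans_apply, E1_apply hy]
  refine ((ch1 (bq c (nz h))).co0 (vv_inf h) _).trans ?_
  show sv y - sv c = sv y
  rw [sv_inf h, sub_zero]

theorem k_zero (c : Cv P) : k c c = 0 := by
  by_cases h : tt c ≠ ∞
  · by_cases h0 : yv c = 0
    · rw [k_apply_y h h0 h, h0]
    · rw [k_apply_t h h0 h, sub_self]
  · rw [k_apply_s h (nz h), sv_inf h]

theorem symm0 {c : Cv P} (h : tt c ≠ ∞) {s : ℂ} (hs : s ∈ ball (0 : ℂ) (rad c)) :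
    tt ((k c).symm s) ≠ ∞ ∧ tv ((k c).symm s) = (ch0 (aq c h)).X s ∧
      yv ((k c).symm s) = (ch0 (aq c h)).Y s := by
  rw [rad_eq0 h] at hs
  have h1 := (ch0 (aq c h)).symm_eq s hs
  have h2 : (k c).symm s = mk0 ((ch0 (aq c h)).φ.symm s) := by
    rw [k_eq0 h]; rfl
  rw [h2]
  refine ⟨OnePoint.coe_ne_infty _, ?_, ?_⟩
  · rw [tv_mk0, h1]
  · rw [yv_mk0, h1]

theorem symm1 {c : Cv P} (h : ¬ tt c ≠ ∞) {s : ℂ} (hs : s ∈ ball (0 : ℂ) (rad c)) :
    tt ((k c).symm s) ≠ ((0 : ℂ) : P1) ∧ sv ((k c).symm s) = (ch1 (bq c (nz h))).X s ∧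
      vv ((k c).symm s) = (ch1 (bq c (nz h))).Y s := by
  rw [rad_eq1 h] at hs
  have h1 := (ch1 (bq c (nz h))).symm_eq s hs
  have h2 : (k c).symm s = mk1 ((ch1 (bq c (nz h))).φ.symm s) := by
    rw [k_eq1 h]; rfl
  rw [h2]
  refine ⟨(E1 P).map_target (mem_univ _), ?_, ?_⟩
  · rw [sv_mk1, h1]
  · rw [vv_mk1, h1]

theorem tv_eq {c : Cv P} : tv c = (sv c)⁻¹ := by
  by_cases h : tt c = ∞
  · unfold tv sv; rw [h]; simp
  · rw [sv_eq h, inv_inv]

theorem yv_eq {c : Cv P} (h : tt c ≠ ∞) (h0 : tt c ≠ ((0 : ℂ) : P1)) :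
    yv c = vv c / sv c ^ 3 := by
  have ht := tv_ne h h0
  rw [vv_eq h h0, sv_eq h]
  field_simp

theorem sv_ne {c : Cv P} (h : tt c ≠ ∞) (h0 : tt c ≠ ((0 : ℂ) : P1)) : sv c ≠ 0 := by
  rw [sv_eq h]; exact inv_ne_zero (tv_ne h h0)

theorem ev_open {c : Cv P} {s : ℂ} (hs : s ∈ (k c).target) {O : Set (Cv P)} (hO : IsOpen O)
    (h : (k c).symm s ∈ O) : ∀ᶠ z in 𝓝 s, z ∈ (k c).target ∧ (k c).symm z ∈ O := by
  filter_upwards [(k c).open_target.mem_nhds hs,
    ((k c).continuousAt_symm hs).preimage_mem_nhds (hO.mem_nhds h)] with z h1 h2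
  exact ⟨h1, h2⟩

theorem analyticAt_la {f : ℂ → ℂ} {s : ℂ} (hf : AnalyticAt ℂ f s) :
    AnalyticAt ℂ (fun z => la (f z)) s := by
  unfold la
  rw [analyticAt_pi_iff]
  intro i
  fin_cases i
  · exact analyticAt_const
  · exact hf

theorem analyticAt_lb {f : ℂ → ℂ} {s : ℂ} (hf : AnalyticAt ℂ f s) :
    AnalyticAt ℂ (fun z => lb (f z)) s := by
  unfold lb
  rw [analyticAt_pi_iff]
  intro i
  fin_cases i
  · exact hf.neg
  · exact analyticAt_const

theorem om_an (c : Cv P) : AnalyticOnNhd ℂ (om c) (k c).target := by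
  rw [k_target]
  by_cases h : tt c ≠ ∞
  · rw [rad_eq0 h, om_eq0 h]
    exact fun s hs => ((ch0 (aq c h)).m_an s hs).smul (analyticAt_la ((ch0 (aq c h)).X_an s hs))
  · rw [rad_eq1 h, om_eq1 h]
    exact fun s hs => ((ch1 (bq c (nz h))).m_an s hs).smul
      (analyticAt_lb ((ch1 (bq c (nz h))).X_an s hs))

/-- data of a chart in the affine coordinates -/
structure Rep (f g : ℂ → ℂ) (w : ℂ → E2) (l : ℂ → E2) (s : ℂ) : Prop where
  f_an : AnalyticAt ℂ f s
  g_an : AnalyticAt ℂ g s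
  g_ne : ∀ᶠ z in 𝓝[≠] s, g z ≠ 0
  eq : ∀ᶠ z in 𝓝 s, g z • w z = deriv f z • l (f z)

theorem Rep.congr {f g f' g' : ℂ → ℂ} {w l : ℂ → E2} {s : ℂ} (h : Rep f g w l s)
    (hf : f' =ᶠ[𝓝 s] f) (hg : g' =ᶠ[𝓝 s] g) : Rep f' g' w l s where
  f_an := h.f_an.congr hf.symm
  g_an := h.g_an.congr hg.symm
  g_ne := by
    filter_upwards [h.g_ne, hg.filter_mono nhdsWithin_le_nhds] with z h1 h2
    rw [h2]; exact h1
  eq := by
    filter_upwards [h.eq, hf.deriv, hf, hg] with z h1 h2 h3 h4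
    rw [h2, h3, h4]; exact h1

theorem rep_base {p : ℂ → ℂ} {q : Aff p} (C : Ch p q) {l : ℂ → E2} {s : ℂ}
    (hs : s ∈ ball (0 : ℂ) C.r) : Rep C.X C.Y (fun z => C.m z • l (C.X z)) l s where
  f_an := C.X_an s hs
  g_an := C.Y_an s hs
  g_ne := by
    have h1 : ∀ᶠ z in 𝓝[≠] s, z ∈ ball (0 : ℂ) C.r :=
      mem_nhdsWithin_of_mem_nhds (isOpen_ball.mem_nhds hs)
    have h2 : ∀ᶠ z in 𝓝[≠] s, z ≠ 0 := by
      by_cases h : s = 0
      · rw [h]; exact self_mem_nhdsWithin
      · exact mem_nhdsWithin_of_mem_nhds (isOpen_ne.mem_nhds h)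
    filter_upwards [h1, h2] with z h3 h4
    exact C.Y_ne z h3 h4
  eq := by
    filter_upwards [isOpen_ball.mem_nhds hs] with z hz
    rw [smul_smul, mul_comm, C.m_eq z hz]

/-- passing from one piece to the other -/
theorem rep_inv {f g : ℂ → ℂ} {w l l' : ℂ → E2} {s : ℂ} (h : Rep f g w l s) (hf : f s ≠ 0)
    (hl : ∀ x, x ≠ 0 → l x = -(x ^ 1) • l' x⁻¹) : Rep (fun z => (f z)⁻¹) (fun z => g z / f z ^ 3) w l' s where
  f_an := h.f_an.inv hf
  g_an := h.g_an.div (h.f_an.pow 3) (pow_ne_zero 3 hf)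
  g_ne := by
    have h1 : ∀ᶠ z in 𝓝[≠] s, f z ≠ 0 :=
      mem_nhdsWithin_of_mem_nhds (h.f_an.continuousAt.eventually_ne hf)
    filter_upwards [h1, h.g_ne] with z h1 h2
    exact div_ne_zero h2 (pow_ne_zero 3 h1)
  eq := by
    filter_upwards [h.eq, h.f_an.continuousAt.eventually_ne hf, h.f_an.eventually_analyticAt]
      with z h1 h2 h3
    have h4 : deriv (fun z => (f z)⁻¹) z = -deriv f z / f z ^ 2 := by
      rw [deriv_fun_inv'' h3.differentiableAt h2]
    rw [h4, div_eq_inv_mul, mul_smul, h1, hl _ h2, smul_smul, smul_smul]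
    congr 1
    field_simp

theorem R0 (c : Cv P) {s : ℂ} (hs : s ∈ (k c).target) (h0 : tt ((k c).symm s) ≠ ∞) :
    Rep (fun z => tv ((k c).symm z)) (fun z => yv ((k c).symm z)) (om c) la s := by
  by_cases h : tt c ≠ ∞
  · have hs' : s ∈ ball (0 : ℂ) (ch0 (aq c h)).r := by rw [← rad_eq0 h, ← k_target]; exact hs
    have h1 := rep_base (ch0 (aq c h)) (l := la) hs'
    rw [om_eq0 h]
    have hev : ∀ᶠ z in 𝓝 s, z ∈ ball (0 : ℂ) (rad c) := by
      rw [k_target] at hs; exact isOpen_ball.mem_nhds hs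
    exact h1.congr (hev.mono fun z hz => (symm0 h hz).2.1) (hev.mono fun z hz => (symm0 h hz).2.2)
  · have hs' : s ∈ ball (0 : ℂ) (ch1 (bq c (nz h))).r := by
      rw [← rad_eq1 h, ← k_target]; exact hs
    have h1 := rep_base (ch1 (bq c (nz h))) (l := lb) hs'
    rw [om_eq1 h]
    have hsb : s ∈ ball (0 : ℂ) (rad c) := by rw [← k_target]; exact hs
    have hX : (ch1 (bq c (nz h))).X s ≠ 0 := by
      rw [← (symm1 h hsb).2.1]
      exact sv_ne h0 (symm1 h hsb).1
    have h2 := rep_inv h1 hX (l' := la) (by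
      intro x hx
      ext i
      fin_cases i
      · simp [lb, la]
      · simp [lb, la, hx])
    have hev : ∀ᶠ z in 𝓝 s, z ∈ (k c).target ∧ (k c).symm z ∈ {c : Cv P | tt c ≠ ∞} :=
      ev_open hs isOpen_ne_inf h0
    refine h2.congr (hev.mono fun z hz => ?_) (hev.mono fun z hz => ?_)
    · have hzb : z ∈ ball (0 : ℂ) (rad c) := by rw [← k_target]; exact hz.1
      show tv ((k c).symm z) = ((ch1 (bq c (nz h))).X z)⁻¹
      rw [← (symm1 h hzb).2.1, tv_eq]
    · have hzb : z ∈ ball (0 : ℂ) (rad c) := by rw [← k_target]; exact hz.1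
      show yv ((k c).symm z) = (ch1 (bq c (nz h))).Y z / (ch1 (bq c (nz h))).X z ^ 3
      rw [← (symm1 h hzb).2.1, ← (symm1 h hzb).2.2, yv_eq hz.2 (symm1 h hzb).1]

theorem R1 (c : Cv P) {s : ℂ} (hs : s ∈ (k c).target) (h0 : tt ((k c).symm s) ≠ ((0 : ℂ) : P1)) :
    Rep (fun z => sv ((k c).symm z)) (fun z => vv ((k c).symm z)) (om c) lb s := by
  by_cases h : tt c ≠ ∞
  · have hs' : s ∈ ball (0 : ℂ) (ch0 (aq c h)).r := by rw [← rad_eq0 h, ← k_target]; exact hs
    have h1 := rep_base (ch0 (aq c h)) (l := la) hs'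
    rw [om_eq0 h]
    have hsb : s ∈ ball (0 : ℂ) (rad c) := by rw [← k_target]; exact hs
    have hX : (ch0 (aq c h)).X s ≠ 0 := by
      rw [← (symm0 h hsb).2.1]
      exact tv_ne (symm0 h hsb).1 h0
    have h2 := rep_inv h1 hX (l' := lb) (by
      intro x hx
      ext i
      fin_cases i
      · simp [lb, la, hx]
      · simp [lb, la])
    have hev : ∀ᶠ z in 𝓝 s, z ∈ (k c).target ∧ (k c).symm z ∈ {c : Cv P | tt c ≠ ((0 : ℂ) : P1)} :=
      ev_open hs isOpen_ne_zero h0
    refine h2.congr (hev.mono fun z hz => ?_) (hev.mono fun z hz => ?_)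
    · have hzb : z ∈ ball (0 : ℂ) (rad c) := by rw [← k_target]; exact hz.1
      show sv ((k c).symm z) = ((ch0 (aq c h)).X z)⁻¹
      rw [← (symm0 h hzb).2.1, sv_eq (symm0 h hzb).1]
    · have hzb : z ∈ ball (0 : ℂ) (rad c) := by rw [← k_target]; exact hz.1
      show vv ((k c).symm z) = (ch0 (aq c h)).Y z / (ch0 (aq c h)).X z ^ 3
      rw [← (symm0 h hzb).2.1, ← (symm0 h hzb).2.2, vv_eq (symm0 h hzb).1 hz.2]
  · have hs' : s ∈ ball (0 : ℂ) (ch1 (bq c (nz h))).r := by
      rw [← rad_eq1 h, ← k_target]; exact hs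
    have h1 := rep_base (ch1 (bq c (nz h))) (l := lb) hs'
    rw [om_eq1 h]
    have hev : ∀ᶠ z in 𝓝 s, z ∈ ball (0 : ℂ) (rad c) := by
      rw [k_target] at hs; exact isOpen_ball.mem_nhds hs
    exact h1.congr (hev.mono fun z hz => (symm1 h hz).2.1) (hev.mono fun z hz => (symm1 h hz).2.2)

/-- transfer of the form under a holomorphic map -/
theorem transfer {f1 g1 f2 g2 : ℂ → ℂ} {w1 w2 l : ℂ → E2} {τ : ℂ → ℂ} {s ε : ℂ}
    (hτ : AnalyticAt ℂ τ s) (h1 : Rep f1 g1 w1 l s) (h2 : Rep f2 g2 w2 l (τ s))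
    (hf : ∀ᶠ z in 𝓝 s, f2 (τ z) = f1 z) (hg : ∀ᶠ z in 𝓝 s, g2 (τ z) = ε * g1 z)
    (hw1 : AnalyticAt ℂ w1 s) (hw2 : AnalyticAt ℂ w2 (τ s)) :
    ∀ᶠ z in 𝓝 s, w1 z - (ε * deriv τ z) • w2 (τ z) = 0 := by
  have ha : AnalyticAt ℂ (fun z => w1 z - (ε * deriv τ z) • w2 (τ z)) s :=
    hw1.sub ((analyticAt_const.mul hτ.deriv).smul
      (AnalyticAt.comp (f := τ) (g := w2) (x := s) hw2 hτ))
  have hp : ∀ᶠ z in 𝓝[≠] s, w1 z - (ε * deriv τ z) • w2 (τ z) = 0 := by
    have hlift : ∀ {Q : ℂ → Prop}, (∀ᶠ z in 𝓝 s, Q z) → ∀ᶠ z in 𝓝[≠] s, Q z :=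
      fun h => mem_nhdsWithin_of_mem_nhds h
    have hderiv : ∀ᶠ z in 𝓝 s, deriv f1 z = deriv f2 (τ z) * deriv τ z := by
      filter_upwards [hf.eventually_nhds, hτ.eventually_analyticAt,
        hτ.continuousAt.eventually h2.f_an.eventually_analyticAt] with z h3 h4 h5
      have h6 : HasDerivAt (fun z => f2 (τ z)) (deriv f2 (τ z) * deriv τ z) z :=
        HasDerivAt.comp z (h₂ := f2) h5.differentiableAt.hasDerivAt h4.differentiableAt.hasDerivAt
      exact (h6.congr_of_eventuallyEq (h3.mono fun z hz => hz.symm)).deriv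
    filter_upwards [hlift h1.eq, hlift (hτ.continuousAt.eventually h2.eq), hlift hf, hlift hg,
      hlift hderiv, h1.g_ne] with z e1 e2 e3 e4 e5 e6
    have e7 : g1 z • (w1 z - (ε * deriv τ z) • w2 (τ z)) = 0 := by
      have e8 : (g1 z * (ε * deriv τ z)) • w2 (τ z) =
          deriv τ z • (deriv f2 (τ z) • l (f1 z)) := by
        have : g1 z * (ε * deriv τ z) = deriv τ z * g2 (τ z) := by rw [e4]; ring
        rw [this, mul_smul, e2, e3]
      rw [smul_sub, e1, e5, smul_smul (g1 z), e8, smul_smul, mul_comm (deriv τ z), sub_self]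
    exact (smul_eq_zero.1 e7).resolve_left e6
  rcases ha.eventually_eq_zero_or_eventually_ne_zero with h | h
  · exact h
  · exact absurd (hp.and h) (fun hcon => by
      obtain ⟨z, hz⟩ := hcon.exists
      exact hz.2 hz.1)

/-! ### primitives -/

theorem exists_G (c : Cv P) : ∃ G : ℂ → E2, G 0 = 0 ∧ ∀ z ∈ (k c).target, HasDerivAt G (om c z) z := by
  have h1 : DifferentiableOn ℂ (om c) (ball 0 (rad c)) := by
    rw [← k_target]; exact (om_an c).differentiableOn
  obtain ⟨g, hg⟩ := h1.isExactOn_ball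
  refine ⟨fun z => g z - g 0, sub_self _, fun z hz => ?_⟩
  rw [k_target] at hz
  exact (hg z hz).sub_const _

def G (c : Cv P) : ℂ → E2 := Classical.choose (exists_G c)

theorem G_zero (c : Cv P) : G c 0 = 0 := (Classical.choose_spec (exists_G c)).1
theorem hasDerivAt_G (c : Cv P) {z : ℂ} (hz : z ∈ (k c).target) : HasDerivAt (G c) (om c z) z :=
  (Classical.choose_spec (exists_G c)).2 z hz

theorem G_an (c : Cv P) : AnalyticOnNhd ℂ (G c) (k c).target :=
  DifferentiableOn.analyticOnNhd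
    (fun _ hz => (hasDerivAt_G c hz).differentiableAt.differentiableWithinAt) (k c).open_target

theorem deriv_G (c : Cv P) {z : ℂ} (hz : z ∈ (k c).target) : deriv (G c) z = om c z :=
  (hasDerivAt_G c hz).deriv

theorem zero_mem (c : Cv P) : (0 : ℂ) ∈ (k c).target := by
  rw [k_target]; exact mem_ball_self (rad_pos c)

theorem symm_zero (c : Cv P) : (k c).symm 0 = c := by
  rw [← k_zero c]; exact (k c).left_inv (k_mem c)

/-- a function with derivative zero near a point is constant near it -/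
theorem const_of_deriv {H : ℂ → E2} {s : ℂ} (h : ∀ᶠ z in 𝓝 s, HasDerivAt H 0 z) :
    ∀ᶠ z in 𝓝 s, H z = H s := by
  obtain ⟨r, hr, hb⟩ := Metric.eventually_nhds_iff_ball.1 h
  filter_upwards [isOpen_ball.mem_nhds (mem_ball_self hr)] with z hz
  exact isOpen_ball.is_const_of_deriv_eq_zero (convex_ball s r).isPreconnected
    (fun z hz => (hb z hz).differentiableAt.differentiableWithinAt)
    (fun z hz => (hb z hz).deriv) hz (mem_ball_self hr)

end Crest.Agent.R272.Cur_297
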