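import Crest.Agent.R273.Fam_835

-- ▼ part R272/Flop1_66
section

/-!
# R272, FLOP-SURG (helper66), part 1: projective spaces as spaces of rank one projections

`PP n` : matrices `x xᴴ / |x|²`, `x ≠ 0` (compact, Hausdorff, second countable).
`PP.mk x hx`, `PP.continuous_mk`, `PP.rat Π i k = Π i k / Π k k` (`= x i / x k`),
`PP.Par Π v` : `v` lies in the line (closed condition), `PP.eq_mk_of_par`.
-/

set_option autoImplicit false
set_option linter.unusedSectionVars false
set_option linter.style.haveILetI false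

open Set Filter Topology Complex
open scoped ComplexConjugate

namespace Crest.Agent.R272.Flop_66

noncomputable section

/-- the squared norm -/
def nsq {n : ℕ} (x : Fin n → ℂ) : ℝ := ∑ k, ‖x k‖ ^ 2

theorem nsq_nonneg {n : ℕ} (x : Fin n → ℂ) : 0 ≤ nsq x :=
  Finset.sum_nonneg fun _ _ => sq_nonneg _

theorem nsq_eq_zero {n : ℕ} {x : Fin n → ℂ} : nsq x = 0 ↔ x = 0 := by
  unfold nsq
  rw [Finset.sum_eq_zero_iff_of_nonneg fun _ _ => sq_nonneg _]
  constructor
  · intro h
    funext i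
    have := h i (Finset.mem_univ i)
    simpa using this
  · rintro rfl i _
    simp

theorem nsq_pos {n : ℕ} {x : Fin n → ℂ} (h : x ≠ 0) : 0 < nsq x :=
  lt_of_le_of_ne (nsq_nonneg x) fun e => h (nsq_eq_zero.1 e.symm)

@[fun_prop] theorem continuous_nsq {n : ℕ} : Continuous (nsq : (Fin n → ℂ) → ℝ) := by
  unfold nsq; fun_prop

theorem norm_le_of_nsq {n : ℕ} {x : Fin n → ℂ} {r : ℝ} (h : nsq x ≤ r) : ‖x‖ ≤ max 1 r := by
  rw [pi_norm_le_iff_of_nonneg (le_trans zero_le_one (le_max_left _ _))]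
  intro i
  have h1 : ‖x i‖ ^ 2 ≤ nsq x :=
    Finset.single_le_sum (f := fun k => ‖x k‖ ^ 2) (fun _ _ => sq_nonneg _) (Finset.mem_univ i)
  rcases le_or_gt ‖x i‖ 1 with h2 | h2
  · exact h2.trans (le_max_left _ _)
  · refine le_trans ?_ (le_max_right _ _)
    nlinarith

/-- the projection matrix of the line of `x` -/
def pj {n : ℕ} (x : Fin n → ℂ) : Fin n → Fin n → ℂ := fun i j =>
  x i * conj (x j) / (nsq x : ℂ)

/-- the space of lines -/
def PP (n : ℕ) : Type := {Q : Fin n → Fin n → ℂ // ∃ x, x ≠ 0 ∧ Q = pj x}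

namespace PP

variable {n : ℕ}

instance : TopologicalSpace (PP n) := instTopologicalSpaceSubtype

instance : T2Space (PP n) := inferInstanceAs (T2Space {Q : Fin n → Fin n → ℂ // ∃ x, x ≠ 0 ∧ Q = pj x})

instance : SecondCountableTopology (PP n) :=
  inferInstanceAs (SecondCountableTopology {Q : Fin n → Fin n → ℂ // ∃ x, x ≠ 0 ∧ Q = pj x})

/-- the line of `x` -/
def mk (x : Fin n → ℂ) (hx : x ≠ 0) : PP n := ⟨pj x, x, hx, rfl⟩

/-- entries -/
def en (Q : PP n) (i j : Fin n) : ℂ := Q.1 i j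

@[fun_prop] theorem continuous_en (i j : Fin n) : Continuous (fun Q : PP n => Q.en i j) :=
  (continuous_apply j).comp ((continuous_apply i).comp continuous_subtype_val)

theorem ext {Q Q' : PP n} (h : ∀ i j, Q.en i j = Q'.en i j) : Q = Q' :=
  Subtype.ext (funext fun i => funext fun j => h i j)

theorem en_mk {x : Fin n → ℂ} (hx : x ≠ 0) (i j : Fin n) :
    (mk x hx).en i j = x i * conj (x j) / (nsq x : ℂ) := rfl

theorem exists_rep (Q : PP n) : ∃ (x : Fin n → ℂ) (hx : x ≠ 0), Q = mk x hx := by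
  obtain ⟨x, hx, h⟩ := Q.2
  exact ⟨x, hx, Subtype.ext h⟩

theorem continuous_iff {Y : Type*} [TopologicalSpace Y] {f : Y → PP n} :
    Continuous f ↔ ∀ i j, Continuous (fun y => (f y).en i j) := by
  constructor
  · intro h i j
    exact (continuous_en i j).comp h
  · intro h
    refine continuous_induced_rng.2 ?_
    exact continuous_pi fun i => continuous_pi fun j => h i j

theorem continuous_mk {Y : Type*} [TopologicalSpace Y] {f : Y → Fin n → ℂ} (hf : Continuous f)
    (h0 : ∀ y, f y ≠ 0) : Continuous (fun y => mk (f y) (h0 y)) := by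
  rw [continuous_iff]
  intro i j
  simp only [en_mk]
  have h1 : ∀ k, Continuous (fun y => f y k) := fun k => (continuous_apply k).comp hf
  refine Continuous.div ?_ ?_ ?_
  · exact (h1 i).mul (continuous_star.comp (h1 j))
  · exact continuous_ofReal.comp (continuous_nsq.comp hf)
  · intro y
    exact_mod_cast (nsq_pos (h0 y)).ne'

instance : CompactSpace (PP n) := by
  refine ⟨?_⟩
  have h1 : IsCompact {x : Fin n → ℂ | nsq x = 1} := by
    refine Metric.isCompact_of_isClosed_isBounded (isClosed_eq continuous_nsq continuous_const) ?_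
    rw [Metric.isBounded_iff_subset_closedBall 0]
    refine ⟨1, fun x hx => ?_⟩
    rw [mem_closedBall_zero_iff]
    have h : nsq x ≤ 1 := le_of_eq hx
    simpa using norm_le_of_nsq h
  have h2 : ∀ x : {x : Fin n → ℂ | nsq x = 1}, x.1 ≠ 0 := by
    rintro ⟨x, hx⟩ rfl
    have : nsq (0 : Fin n → ℂ) = 1 := hx
    rw [nsq_eq_zero.2 rfl] at this
    exact zero_ne_one this
  haveI : CompactSpace {x : Fin n → ℂ | nsq x = 1} := isCompact_iff_compactSpace.1 h1
  have h3 : Continuous (fun x : {x : Fin n → ℂ | nsq x = 1} => mk x.1 (h2 x)) :=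
    continuous_mk continuous_subtype_val h2
  have h4 : Function.Surjective (fun x : {x : Fin n → ℂ | nsq x = 1} => mk x.1 (h2 x)) := by
    intro Q
    obtain ⟨x, hx, rfl⟩ := Q.exists_rep
    have hp := nsq_pos hx
    set r : ℝ := Real.sqrt (nsq x) with hr
    have hr0 : 0 < r := Real.sqrt_pos.2 hp
    have hr2 : r ^ 2 = nsq x := Real.sq_sqrt hp.le
    have e1 : nsq (fun i => x i / (r : ℂ)) = 1 := by
      unfold nsq
      simp only [norm_div, Complex.norm_real, Real.norm_eq_abs, div_pow, sq_abs]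
      rw [← Finset.sum_div, hr2]
      exact div_self hp.ne'
    refine ⟨⟨fun i => x i / (r : ℂ), e1⟩, ext fun i j => ?_⟩
    rw [en_mk, en_mk, e1]
    have hrc : (r : ℂ) ≠ 0 := by exact_mod_cast hr0.ne'
    rw [map_div₀, Complex.conj_ofReal, ← hr2]
    push_cast
    field_simp
  have h5 := isCompact_range h3
  rwa [h4.range_eq] at h5

theorem en_self_ne {x : Fin n → ℂ} (hx : x ≠ 0) (k : Fin n) : (mk x hx).en k k ≠ 0 ↔ x k ≠ 0 := by
  rw [en_mk]
  have h : (nsq x : ℂ) ≠ 0 := by exact_mod_cast (nsq_pos hx).ne'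
  constructor
  · rintro h1 h2
    exact h1 (by rw [h2]; simp)
  · intro h1
    refine div_ne_zero (mul_ne_zero h1 ?_) h
    simpa using h1

theorem exists_ne (Q : PP n) : ∃ k, Q.en k k ≠ 0 := by
  obtain ⟨x, hx, rfl⟩ := Q.exists_rep
  by_contra h
  push Not at h
  refine hx (funext fun k => ?_)
  by_contra h2
  exact (en_self_ne hx k).2 h2 (h k)

/-- the ratio `x i / x k` -/
def rat (Q : PP n) (i k : Fin n) : ℂ := Q.en i k / Q.en k k

@[simp] theorem rat_mk {x : Fin n → ℂ} (hx : x ≠ 0) (i k : Fin n) :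
    (mk x hx).rat i k = x i / x k := by
  unfold rat
  rw [en_mk, en_mk]
  have h : (nsq x : ℂ) ≠ 0 := by exact_mod_cast (nsq_pos hx).ne'
  by_cases hk : x k = 0
  · simp [hk]
  · have hk' : conj (x k) ≠ 0 := by simpa using hk
    field_simp

theorem continuousOn_rat (i k : Fin n) :
    ContinuousOn (fun Q : PP n => Q.rat i k) {Q | Q.en k k ≠ 0} :=
  (continuous_en i k).continuousOn.div (continuous_en k k).continuousOn fun _ h => h

theorem isOpen_ne (k : Fin n) : IsOpen {Q : PP n | Q.en k k ≠ 0} :=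
  isOpen_ne_fun (continuous_en k k) continuous_const

theorem mk_eq_iff {x y : Fin n → ℂ} (hx : x ≠ 0) (hy : y ≠ 0) :
    mk x hx = mk y hy ↔ ∀ i j, x i * y j = x j * y i := by
  constructor
  · intro h i j
    obtain ⟨k, hk⟩ : ∃ k, x k ≠ 0 := by
      by_contra hc
      push Not at hc
      exact hx (funext hc)
    have hk2 : y k ≠ 0 := by
      rw [← en_self_ne hy, ← h, en_self_ne hx]
      exact hk
    have h1 : ∀ i, x i / x k = y i / y k := fun i => by
      rw [← rat_mk hx i k, ← rat_mk hy i k, h]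
    have h2 := h1 i
    have h3 := h1 j
    rw [div_eq_div_iff hk hk2] at h2 h3
    have h4 : x k * y k * (x i * y j) = x k * y k * (x j * y i) := by
      linear_combination (x k * y j) * h2 - (x k * y i) * h3
    exact mul_left_cancel₀ (mul_ne_zero hk hk2) h4
  · intro h
    obtain ⟨k, hk⟩ : ∃ k, x k ≠ 0 := by
      by_contra hc
      push Not at hc
      exact hx (funext hc)
    set c := y k / x k with hc
    have h1 : ∀ i, y i = c * x i := fun i => by
      rw [hc]
      field_simp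
      linear_combination h k i
    have hc0 : c ≠ 0 := by
      intro h0
      exact hy (funext fun i => by rw [h1 i, h0, zero_mul]; rfl)
    have h2 : nsq y = ‖c‖ ^ 2 * nsq x := by
      unfold nsq
      rw [Finset.mul_sum]
      exact Finset.sum_congr rfl fun i _ => by rw [h1 i, norm_mul, mul_pow]
    refine ext fun i j => ?_
    rw [en_mk, en_mk, h1 i, h1 j, h2, map_mul]
    have h3 : (nsq x : ℂ) ≠ 0 := by exact_mod_cast (nsq_pos hx).ne'
    have h4 : c * conj c = ((‖c‖ ^ 2 : ℝ) : ℂ) := by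
      rw [Complex.mul_conj, Complex.normSq_eq_norm_sq]
    have h5 : ((‖c‖ ^ 2 : ℝ) : ℂ) ≠ 0 := by
      rw [← h4]
      exact mul_ne_zero hc0 (by simpa using hc0)
    rw [Complex.ofReal_mul, div_eq_div_iff h3 (mul_ne_zero h5 h3)]
    linear_combination (-(x i * conj (x j) * (nsq x : ℂ))) * h4

/-- `v` lies in the line -/
def Par (Q : PP n) (v : Fin n → ℂ) : Prop := ∀ i j k, Q.en i k * v j = Q.en j k * v i

theorem par_mk {x : Fin n → ℂ} (hx : x ≠ 0) (v : Fin n → ℂ) :
    (mk x hx).Par v ↔ ∀ i j, x i * v j = x j * v i := by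
  have h3 : (nsq x : ℂ) ≠ 0 := by exact_mod_cast (nsq_pos hx).ne'
  constructor
  · intro h i j
    obtain ⟨k, hk⟩ : ∃ k, x k ≠ 0 := by
      by_contra hc
      push Not at hc
      exact hx (funext hc)
    have h1 := h i j k
    rw [en_mk, en_mk] at h1
    have hk' : conj (x k) ≠ 0 := by simpa using hk
    field_simp at h1
    exact h1
  · intro h i j k
    rw [en_mk, en_mk]
    linear_combination (conj (x k) / (nsq x : ℂ)) * h i j

theorem Par.eq_mk {Q : PP n} {v : Fin n → ℂ} (h : Q.Par v) (hv : v ≠ 0) : Q = mk v hv := by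
  obtain ⟨x, hx, rfl⟩ := Q.exists_rep
  rw [mk_eq_iff]
  exact (par_mk hx v).1 h

theorem Par.eq_rat {Q : PP n} {v : Fin n → ℂ} (h : Q.Par v) {k : Fin n} (hk : Q.en k k ≠ 0)
    (i : Fin n) : v i = Q.rat i k * v k := by
  unfold rat
  field_simp
  linear_combination h k i k

theorem eq_mk_rat (Q : PP n) {k : Fin n} (hk : Q.en k k ≠ 0)
    (h0 : (fun i => Q.rat i k) ≠ 0) : mk (fun i => Q.rat i k) h0 = Q := by
  obtain ⟨x, hx, rfl⟩ := Q.exists_rep
  rw [mk_eq_iff]
  intro i j
  rw [rat_mk, rat_mk]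
  ring

theorem rat_self (Q : PP n) {k : Fin n} (hk : Q.en k k ≠ 0) : Q.rat k k = 1 := div_self hk

theorem rat_ne_zero (Q : PP n) {k : Fin n} (hk : Q.en k k ≠ 0) : (fun i => Q.rat i k) ≠ 0 := by
  intro h
  have := congrFun h k
  rw [rat_self Q hk] at this
  exact one_ne_zero this

theorem isClosed_par {Y : Type*} [TopologicalSpace Y] {f : Y → PP n} {g : Y → Fin n → ℂ}
    (hf : Continuous f) (hg : Continuous g) : IsClosed {y | (f y).Par (g y)} := by
  simp only [Par, ofPred_forall]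
  refine isClosed_iInter fun i => isClosed_iInter fun j => isClosed_iInter fun k => ?_
  have h1 : ∀ k, Continuous (fun y => g y k) := fun k => (continuous_apply k).comp hg
  exact isClosed_eq (((continuous_en i k).comp hf).mul (h1 j))
    (((continuous_en j k).comp hf).mul (h1 i))

end PP

end

end Crest.Agent.R272.Flop_66
end

-- ▼ part R272/Flop2_66
section

/-!
# R272, FLOP-SURG (helper66), part 2: the local models of the (even) antiflip

`Um` = total space of `O(-1) ⊕ O(-2)` over `ℙ¹` = `{(w; η, ξ), w ≠ 0}/ℂ^*(1,1,-1,-2)`: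
  `z = η w`, `m = ξ (w₀², w₀ w₁, w₁²)`, `L` = line of `w`.
  charts `(T, a, μ)`, `T = w₁/w₀`, `z = (a, aT)`, `m = (μ, μT, μT²)` and `(T', b, ν)`.
`Up` = the other side with its `1/2(1,1,1)` point resolved: charts
  `W1 (t, α, μ)`, `W2 (t', α', ν)`, `W3 (g₀, g₁, r)` (together `Tot O_{ℙ²}(-2)`) and `W4 (z₀, z₁, w)`.
-/

set_option autoImplicit false
set_option linter.unusedSectionVars false
set_option linter.style.haveILetI false

open Set Filter Topology Complex
open scoped ComplexConjugate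

namespace Crest.Agent.R272.Flop_66

open Crest.Agent.R275.Geo Crest.Agent.R273.Fam_835

noncomputable section

/-- three differentiable components -/
theorem diffOn3 {E : Type*} [NormedAddCommGroup E] [NormedSpace ℂ E] {f0 f1 f2 : E → ℂ} {s : Set E}
    (h0 : DifferentiableOn ℂ f0 s) (h1 : DifferentiableOn ℂ f1 s) (h2 : DifferentiableOn ℂ f2 s) :
    DifferentiableOn ℂ (fun z => (!₂[f0 z, f1 z, f2 z] : Cn 3)) s := by
  rw [differentiableOn_euclidean]
  intro k
  fin_cases k
  · exact h0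
  · exact h1
  · exact h2

theorem cont3 {E : Type*} [TopologicalSpace E] {f0 f1 f2 : E → ℂ} {s : Set E}
    (h0 : ContinuousOn f0 s) (h1 : ContinuousOn f1 s) (h2 : ContinuousOn f2 s) :
    ContinuousOn (fun z => (!₂[f0 z, f1 z, f2 z] : Cn 3)) s := by
  refine (PiLp.continuous_toLp 2 _).comp_continuousOn ?_
  refine continuousOn_pi.2 fun k => ?_
  fin_cases k
  · exact h0
  · exact h1
  · exact h2

theorem v2_ne {x y : ℂ} (h : x ≠ 0 ∨ y ≠ 0) : (![x, y] : Fin 2 → ℂ) ≠ 0 := by
  rintro h0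
  have h1 := congrFun h0 0
  have h2 := congrFun h0 1
  simp at h1 h2
  tauto

theorem v3_ne {x y z : ℂ} (h : x ≠ 0 ∨ y ≠ 0 ∨ z ≠ 0) : (![x, y, z] : Fin 3 → ℂ) ≠ 0 := by
  rintro h0
  have h1 := congrFun h0 0
  have h2 := congrFun h0 1
  have h3 := congrFun h0 2
  simp at h1 h2 h3
  tauto

/-! ### the negative side -/

/-- total space of `O(-1) ⊕ O(-2)` over the projective line -/
@[ext] structure Um where
  z : Fin 2 → ℂ
  m : Fin 3 → ℂ
  L : PP 2
  hz : L.Par z
  h1 : L.Par ![m 0, m 1]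
  h2 : L.Par ![m 1, m 2]

namespace Um

/-- the coordinates -/
def co (x : Um) : (Fin 2 → ℂ) × (Fin 3 → ℂ) × PP 2 := (x.z, x.m, x.L)

instance : TopologicalSpace Um := TopologicalSpace.induced co inferInstance

theorem co_inj : Function.Injective co := by
  intro x y h
  simp only [co, Prod.mk.injEq] at h
  exact Um.ext h.1 h.2.1 h.2.2

theorem isEmbedding_co : IsEmbedding co := ⟨⟨rfl⟩, co_inj⟩

theorem c_co : Continuous co := isEmbedding_co.continuous

@[fun_prop] theorem c_z : Continuous (fun x : Um => x.z) := continuous_fst.comp c_co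
@[fun_prop] theorem c_m : Continuous (fun x : Um => x.m) :=
  (continuous_fst.comp continuous_snd).comp c_co
@[fun_prop] theorem c_L : Continuous (fun x : Um => x.L) :=
  (continuous_snd.comp continuous_snd).comp c_co

@[fun_prop] theorem c_zi (i : Fin 2) : Continuous (fun x : Um => x.z i) :=
  (continuous_apply i).comp c_z
@[fun_prop] theorem c_mi (i : Fin 3) : Continuous (fun x : Um => x.m i) :=
  (continuous_apply i).comp c_m

instance : T2Space Um := isEmbedding_co.t2Space

instance : SecondCountableTopology Um := isEmbedding_co.secondCountableTopology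

theorem continuous_iff {Y : Type*} [TopologicalSpace Y] {f : Y → Um} :
    Continuous f ↔ Continuous (fun y => (f y).z) ∧ Continuous (fun y => (f y).m) ∧
      Continuous (fun y => (f y).L) := by
  constructor
  · intro h
    exact ⟨c_z.comp h, c_m.comp h, c_L.comp h⟩
  · rintro ⟨h1, h2, h3⟩
    rw [isEmbedding_co.continuous_iff]
    exact h1.prodMk (h2.prodMk h3)

theorem isClosed_range_co : IsClosed (range co) := by
  have : range co = {y : (Fin 2 → ℂ) × (Fin 3 → ℂ) × PP 2 | y.2.2.Par y.1} ∩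
      ({y | y.2.2.Par ![y.2.1 0, y.2.1 1]} ∩ {y | y.2.2.Par ![y.2.1 1, y.2.1 2]}) := by
    ext y
    constructor
    · rintro ⟨x, rfl⟩
      exact ⟨x.hz, x.h1, x.h2⟩
    · rintro ⟨h, h1, h2⟩
      exact ⟨⟨_, _, _, h, h1, h2⟩, rfl⟩
  rw [this]
  refine (PP.isClosed_par (by fun_prop) (by fun_prop)).inter
    ((PP.isClosed_par (by fun_prop) ?_).inter (PP.isClosed_par (by fun_prop) ?_))
  · refine continuous_pi fun k => ?_
    fin_cases k
    · exact (continuous_apply 0).comp (by fun_prop)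
    · exact (continuous_apply 1).comp (by fun_prop)
  · refine continuous_pi fun k => ?_
    fin_cases k
    · exact (continuous_apply 1).comp (by fun_prop)
    · exact (continuous_apply 2).comp (by fun_prop)

theorem isClosedEmbedding_co : IsClosedEmbedding co := ⟨isEmbedding_co, isClosed_range_co⟩

instance : LocallyCompactSpace Um := isClosedEmbedding_co.locallyCompactSpace

/-- the squared norm -/
def N (x : Um) : ℝ := nsq x.z + nsq x.m

@[fun_prop] theorem c_N : Continuous N := by unfold N; fun_prop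

theorem N_nonneg (x : Um) : 0 ≤ x.N := add_nonneg (nsq_nonneg _) (nsq_nonneg _)

theorem N_eq_zero {x : Um} : x.N = 0 ↔ x.z = 0 ∧ x.m = 0 := by
  unfold N
  rw [add_eq_zero_iff_of_nonneg (nsq_nonneg _) (nsq_nonneg _), nsq_eq_zero, nsq_eq_zero]

theorem isCompact_le (r : ℝ) : IsCompact {x : Um | x.N ≤ r} := by
  have h1 : IsClosed {x : Um | x.N ≤ r} := isClosed_le c_N continuous_const
  rw [isClosedEmbedding_co.isCompact_iff]
  refine IsCompact.of_isClosed_subset ?_ (isClosedEmbedding_co.isClosedMap _ h1)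
    (s := Metric.closedBall 0 (max 1 r) ×ˢ (Metric.closedBall 0 (max 1 r) ×ˢ (univ : Set (PP 2)))) ?_
  · exact (isCompact_closedBall _ _).prod ((isCompact_closedBall _ _).prod isCompact_univ)
  · rintro _ ⟨x, hx, rfl⟩
    have hx' : nsq x.z + nsq x.m ≤ r := hx
    have h3 := nsq_nonneg x.z
    have h4 := nsq_nonneg x.m
    refine ⟨?_, ?_, mem_univ _⟩
    · rw [mem_closedBall_zero_iff]
      exact norm_le_of_nsq (show nsq x.z ≤ r by linarith)
    · rw [mem_closedBall_zero_iff]
      exact norm_le_of_nsq (show nsq x.m ≤ r by linarith)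

/-- the point with coordinates `(T, a, μ)` -/
def mk0 (T a μ : ℂ) : Um where
  z := ![a, a * T]
  m := ![μ, μ * T, μ * T ^ 2]
  L := PP.mk ![1, T] (v2_ne (Or.inl one_ne_zero))
  hz := by
    rw [PP.par_mk]
    intro i j
    fin_cases i <;> fin_cases j <;> simp <;> ring
  h1 := by
    rw [PP.par_mk]
    intro i j
    fin_cases i <;> fin_cases j <;> simp <;> ring
  h2 := by
    rw [PP.par_mk]
    intro i j
    fin_cases i <;> fin_cases j <;> simp <;> ring

/-- the point with coordinates `(T', b, ν)` -/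
def mk1 (T b ν : ℂ) : Um where
  z := ![b * T, b]
  m := ![ν * T ^ 2, ν * T, ν]
  L := PP.mk ![T, 1] (v2_ne (Or.inr one_ne_zero))
  hz := by
    rw [PP.par_mk]
    intro i j
    fin_cases i <;> fin_cases j <;> simp <;> ring
  h1 := by
    rw [PP.par_mk]
    intro i j
    fin_cases i <;> fin_cases j <;> simp <;> ring
  h2 := by
    rw [PP.par_mk]
    intro i j
    fin_cases i <;> fin_cases j <;> simp <;> ring

theorem eq_mk0 {x : Um} (h : x.L.en 0 0 ≠ 0) : mk0 (x.L.rat 1 0) (x.z 0) (x.m 0) = x := by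
  have hz := x.hz.eq_rat h
  have h1 := x.h1.eq_rat h
  have h2 := x.h2.eq_rat h
  have e1 := h1 1
  have e2 := h2 1
  have e3 := hz 1
  simp only [Matrix.cons_val_zero, Matrix.cons_val_one] at e1 e2 e3
  refine Um.ext ?_ ?_ ?_
  · funext k
    fin_cases k
    · rfl
    · simp only [mk0]
      simp
      rw [e3]; ring
  · funext k
    fin_cases k
    · rfl
    · simp only [mk0]
      simp
      rw [e1]; ring
    · simp only [mk0]
      simp
      rw [e2, e1]; ring
  · have h4 : ((fun i => x.L.rat i 0) : Fin 2 → ℂ) = ![1, x.L.rat 1 0] := by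
      funext i
      fin_cases i
      · exact x.L.rat_self h
      · rfl
    have h5 := PP.eq_mk_rat x.L h (PP.rat_ne_zero x.L h)
    simp only [mk0]
    rw [← h5]
    congr 1
    rw [h5]
    exact h4.symm

theorem eq_mk1 {x : Um} (h : x.L.en 1 1 ≠ 0) : mk1 (x.L.rat 0 1) (x.z 1) (x.m 2) = x := by
  have hz := x.hz.eq_rat h
  have h1 := x.h1.eq_rat h
  have h2 := x.h2.eq_rat h
  have e1 := h1 0
  have e2 := h2 0
  have e3 := hz 0
  simp only [Matrix.cons_val_zero, Matrix.cons_val_one] at e1 e2 e3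
  refine Um.ext ?_ ?_ ?_
  · funext k
    fin_cases k
    · simp only [mk1]
      simp
      rw [e3]; ring
    · rfl
  · funext k
    fin_cases k
    · simp only [mk1]
      simp
      rw [e1, e2]; ring
    · simp only [mk1]
      simp
      rw [e2]; ring
    · rfl
  · have h4 : ((fun i => x.L.rat i 1) : Fin 2 → ℂ) = ![x.L.rat 0 1, 1] := by
      funext i
      fin_cases i
      · rfl
      · exact x.L.rat_self h
    have h5 := PP.eq_mk_rat x.L h (PP.rat_ne_zero x.L h)
    simp only [mk1]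
    rw [← h5]
    congr 1
    rw [h5]
    exact h4.symm

theorem c_mk0 : Continuous (fun u : Cn 3 => mk0 (u 0) (u 1) (u 2)) := by
  rw [continuous_iff]
  refine ⟨?_, ?_, ?_⟩
  · refine continuous_pi fun k => ?_
    fin_cases k <;> simp only [mk0] <;> simp <;> fun_prop
  · refine continuous_pi fun k => ?_
    fin_cases k <;> simp only [mk0] <;> simp <;> fun_prop
  · refine PP.continuous_mk (f := fun u : Cn 3 => ![1, u 0]) ?_ fun u => v2_ne (Or.inl one_ne_zero)
    refine continuous_pi fun k => ?_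
    fin_cases k <;> simp <;> fun_prop

theorem c_mk1 : Continuous (fun u : Cn 3 => mk1 (u 0) (u 1) (u 2)) := by
  rw [continuous_iff]
  refine ⟨?_, ?_, ?_⟩
  · refine continuous_pi fun k => ?_
    fin_cases k <;> simp only [mk1] <;> simp <;> fun_prop
  · refine continuous_pi fun k => ?_
    fin_cases k <;> simp only [mk1] <;> simp <;> fun_prop
  · refine PP.continuous_mk (f := fun u : Cn 3 => ![u 0, 1]) ?_ fun u => v2_ne (Or.inr one_ne_zero)
    refine continuous_pi fun k => ?_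
    fin_cases k <;> simp <;> fun_prop

/-- the chart `(T, a, μ)` -/
def ch0 : OpenPartialHomeomorph Um (Cn 3) where
  toFun x := !₂[x.L.rat 1 0, x.z 0, x.m 0]
  invFun u := mk0 (u 0) (u 1) (u 2)
  source := {x | x.L.en 0 0 ≠ 0}
  target := univ
  map_source' _ _ := mem_univ _
  map_target' u _ := (PP.en_self_ne (v2_ne (Or.inl one_ne_zero)) 0).2 (by simp)
  left_inv' x hx := eq_mk0 hx
  right_inv' u _ := by
    ext k
    fin_cases k
    · simp [mk0]
    · rfl
    · rfl
  open_source := (PP.isOpen_ne 0).preimage c_L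
  open_target := isOpen_univ
  continuousOn_toFun := cont3 ((PP.continuousOn_rat 1 0).comp c_L.continuousOn fun x hx => hx)
    (c_zi 0).continuousOn (c_mi 0).continuousOn
  continuousOn_invFun := c_mk0.continuousOn

/-- the chart `(T', b, ν)` -/
def ch1 : OpenPartialHomeomorph Um (Cn 3) where
  toFun x := !₂[x.L.rat 0 1, x.z 1, x.m 2]
  invFun u := mk1 (u 0) (u 1) (u 2)
  source := {x | x.L.en 1 1 ≠ 0}
  target := univ
  map_source' _ _ := mem_univ _
  map_target' u _ := (PP.en_self_ne (v2_ne (Or.inr one_ne_zero)) 1).2 (by simp)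
  left_inv' x hx := eq_mk1 hx
  right_inv' u _ := by
    ext k
    fin_cases k
    · simp [mk1]
    · rfl
    · rfl
  open_source := (PP.isOpen_ne 1).preimage c_L
  open_target := isOpen_univ
  continuousOn_toFun := cont3 ((PP.continuousOn_rat 0 1).comp c_L.continuousOn fun x hx => hx)
    (c_zi 1).continuousOn (c_mi 2).continuousOn
  continuousOn_invFun := c_mk1.continuousOn

theorem ch0_apply (x : Um) : ch0 x = !₂[x.L.rat 1 0, x.z 0, x.m 0] := rfl
theorem ch1_apply (x : Um) : ch1 x = !₂[x.L.rat 0 1, x.z 1, x.m 2] := rfl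
theorem ch0_symm (u : Cn 3) : ch0.symm u = mk0 (u 0) (u 1) (u 2) := rfl
theorem ch1_symm (u : Cn 3) : ch1.symm u = mk1 (u 0) (u 1) (u 2) := rfl
@[simp] theorem ch0_target : ch0.target = univ := rfl
@[simp] theorem ch1_target : ch1.target = univ := rfl
theorem mem_ch0 {x : Um} : x ∈ ch0.source ↔ x.L.en 0 0 ≠ 0 := Iff.rfl
theorem mem_ch1 {x : Um} : x ∈ ch1.source ↔ x.L.en 1 1 ≠ 0 := Iff.rfl

theorem cover (x : Um) : x ∈ ch0.source ∨ x ∈ ch1.source := by
  obtain ⟨k, hk⟩ := x.L.exists_ne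
  fin_cases k
  · exact Or.inl hk
  · exact Or.inr hk

theorem mk0_mem1 {T a μ : ℂ} : mk0 T a μ ∈ ch1.source ↔ T ≠ 0 := by
  rw [mem_ch1]
  simp only [mk0]
  rw [PP.en_self_ne]
  simp

theorem mk1_mem0 {T a μ : ℂ} : mk1 T a μ ∈ ch0.source ↔ T ≠ 0 := by
  rw [mem_ch0]
  simp only [mk1]
  rw [PP.en_self_ne]
  simp

/-- the family of charts -/
def fam : Fam 3 Um where
  ι := Bool
  e := fun b => if b then ch1 else ch0
  cover x := by
    rcases cover x with h | h
    · exact ⟨false, h⟩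
    · exact ⟨true, h⟩
  holo := by
    rintro (_ | _) (_ | _)
    · simp only [Bool.false_eq_true, if_false]
      refine DifferentiableOn.congr (f := id) differentiableOn_id ?_
      rintro u ⟨hu, -⟩
      exact ch0.right_inv hu
    · simp only [Bool.false_eq_true, if_false, if_true]
      refine DifferentiableOn.congr (f := fun u : Cn 3 => !₂[(u 0)⁻¹, u 1 * u 0, u 2 * u 0 ^ 2]) ?_ ?_
      · refine diffOn3 ?_ (by fun_prop) (by fun_prop)
        rintro u ⟨-, hu⟩
        rw [ch0_symm, mk0_mem1] at hu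
        refine DifferentiableAt.differentiableWithinAt ?_
        fun_prop (disch := assumption)
      · rintro u ⟨-, hu⟩
        rw [ch0_symm, ch1_apply]
        simp [mk0]
    · simp only [Bool.false_eq_true, if_false, if_true]
      refine DifferentiableOn.congr (f := fun u : Cn 3 => !₂[(u 0)⁻¹, u 1 * u 0, u 2 * u 0 ^ 2]) ?_ ?_
      · refine diffOn3 ?_ (by fun_prop) (by fun_prop)
        rintro u ⟨-, hu⟩
        rw [ch1_symm, mk1_mem0] at hu
        refine DifferentiableAt.differentiableWithinAt ?_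
        fun_prop (disch := assumption)
      · rintro u ⟨-, hu⟩
        rw [ch1_symm, ch0_apply]
        simp [mk1]
    · simp only [if_true]
      refine DifferentiableOn.congr (f := id) differentiableOn_id ?_
      rintro u ⟨hu, -⟩
      exact ch1.right_inv hu

end Um

end

end Crest.Agent.R272.Flop_66
end

-- ▼ part R272/Flop3_66
section

/-!
# R272, FLOP-SURG (helper66), part 3: the positive side of the (even) antiflip

`Up` : `z : Fin 2 → ℂ`, `m : Fin 3 → ℂ` (same coordinates as `Um`), `X : PP 3`, `R : PP 2 = [r₀ : r₁]`;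
the rows of `(m₀ m₁ z₀ ; m₁ m₂ z₁ ; r₁z₀ r₁z₁ r₀)` lie in the line `X`.
charts `W1 (t, α, μ)`, `W2 (t', α', ν)`, `W3 (g₀, g₁, r)`, `W4 (z₀, z₁, w)`.
-/

set_option autoImplicit false
set_option linter.unusedSectionVars false
set_option linter.style.haveILetI false

open Set Filter Topology Complex
open scoped ComplexConjugate

namespace Crest.Agent.R272.Flop_66

open Crest.Agent.R275.Geo Crest.Agent.R273.Fam_835

noncomputable section

/-- a criterion for `PP.Par` in dimension three -/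
theorem PP.par3 {x y z : ℂ} (h : (![x, y, z] : Fin 3 → ℂ) ≠ 0) {v : Fin 3 → ℂ}
    (h1 : x * v 1 = y * v 0) (h2 : x * v 2 = z * v 0) (h3 : y * v 2 = z * v 1) :
    (PP.mk ![x, y, z] h).Par v := by
  rw [PP.par_mk]
  intro i j
  fin_cases i <;> fin_cases j <;> simp
  · exact h1
  · exact h2
  · exact h1.symm
  · exact h3
  · exact h2.symm
  · exact h3.symm

/-- the positive side -/
@[ext] structure Up where
  z : Fin 2 → ℂ
  m : Fin 3 → ℂ
  X : PP 3
  R : PP 2
  h1 : X.Par ![m 0, m 1, z 0]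
  h2 : X.Par ![m 1, m 2, z 1]
  h3 : ∀ k, X.Par ![R.en 1 k * z 0, R.en 1 k * z 1, R.en 0 k]

namespace Up

/-- the coordinates -/
def co (x : Up) : (Fin 2 → ℂ) × (Fin 3 → ℂ) × PP 3 × PP 2 := (x.z, x.m, x.X, x.R)

instance : TopologicalSpace Up := TopologicalSpace.induced co inferInstance

theorem co_inj : Function.Injective co := by
  intro x y h
  simp only [co, Prod.mk.injEq] at h
  exact Up.ext h.1 h.2.1 h.2.2.1 h.2.2.2

theorem isEmbedding_co : IsEmbedding co := ⟨⟨rfl⟩, co_inj⟩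

theorem c_co : Continuous co := isEmbedding_co.continuous

@[fun_prop] theorem c_z : Continuous (fun x : Up => x.z) := continuous_fst.comp c_co
@[fun_prop] theorem c_m : Continuous (fun x : Up => x.m) :=
  (continuous_fst.comp continuous_snd).comp c_co
@[fun_prop] theorem c_X : Continuous (fun x : Up => x.X) :=
  (continuous_fst.comp (continuous_snd.comp continuous_snd)).comp c_co
@[fun_prop] theorem c_R : Continuous (fun x : Up => x.R) :=
  (continuous_snd.comp (continuous_snd.comp continuous_snd)).comp c_co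

@[fun_prop] theorem c_zi (i : Fin 2) : Continuous (fun x : Up => x.z i) :=
  (continuous_apply i).comp c_z
@[fun_prop] theorem c_mi (i : Fin 3) : Continuous (fun x : Up => x.m i) :=
  (continuous_apply i).comp c_m

instance : T2Space Up := isEmbedding_co.t2Space

instance : SecondCountableTopology Up := isEmbedding_co.secondCountableTopology

theorem continuous_iff {Y : Type*} [TopologicalSpace Y] {f : Y → Up} :
    Continuous f ↔ Continuous (fun y => (f y).z) ∧ Continuous (fun y => (f y).m) ∧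
      Continuous (fun y => (f y).X) ∧ Continuous (fun y => (f y).R) := by
  constructor
  · intro h
    exact ⟨c_z.comp h, c_m.comp h, c_X.comp h, c_R.comp h⟩
  · rintro ⟨h1, h2, h3, h4⟩
    rw [isEmbedding_co.continuous_iff]
    exact h1.prodMk (h2.prodMk (h3.prodMk h4))

theorem isClosed_range_co : IsClosed (range co) := by
  have : range co = {y : (Fin 2 → ℂ) × (Fin 3 → ℂ) × PP 3 × PP 2 |
      y.2.2.1.Par ![y.2.1 0, y.2.1 1, y.1 0]} ∩
      ({y | y.2.2.1.Par ![y.2.1 1, y.2.1 2, y.1 1]} ∩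
      ⋂ k, {y | y.2.2.1.Par ![y.2.2.2.en 1 k * y.1 0, y.2.2.2.en 1 k * y.1 1, y.2.2.2.en 0 k]}) := by
    ext y
    constructor
    · rintro ⟨x, rfl⟩
      exact ⟨x.h1, x.h2, mem_iInter.2 x.h3⟩
    · rintro ⟨h1, h2, h3⟩
      exact ⟨⟨_, _, _, _, h1, h2, mem_iInter.1 h3⟩, rfl⟩
  rw [this]
  have z0 : Continuous (fun y : (Fin 2 → ℂ) × (Fin 3 → ℂ) × PP 3 × PP 2 => y.1 0) :=
    (continuous_apply 0).comp (by fun_prop)
  have z1 : Continuous (fun y : (Fin 2 → ℂ) × (Fin 3 → ℂ) × PP 3 × PP 2 => y.1 1) :=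
    (continuous_apply 1).comp (by fun_prop)
  have m0 : Continuous (fun y : (Fin 2 → ℂ) × (Fin 3 → ℂ) × PP 3 × PP 2 => y.2.1 0) :=
    (continuous_apply 0).comp (by fun_prop)
  have m1 : Continuous (fun y : (Fin 2 → ℂ) × (Fin 3 → ℂ) × PP 3 × PP 2 => y.2.1 1) :=
    (continuous_apply 1).comp (by fun_prop)
  have m2 : Continuous (fun y : (Fin 2 → ℂ) × (Fin 3 → ℂ) × PP 3 × PP 2 => y.2.1 2) :=
    (continuous_apply 2).comp (by fun_prop)
  refine (PP.isClosed_par (by fun_prop) ?_).inter ((PP.isClosed_par (by fun_prop) ?_).inter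
    (isClosed_iInter fun l => PP.isClosed_par (by fun_prop) ?_))
  · refine continuous_pi fun k => ?_
    fin_cases k
    · exact m0
    · exact m1
    · exact z0
  · refine continuous_pi fun k => ?_
    fin_cases k
    · exact m1
    · exact m2
    · exact z1
  · have e1 : Continuous (fun y : (Fin 2 → ℂ) × (Fin 3 → ℂ) × PP 3 × PP 2 => y.2.2.2.en 1 l) :=
      (PP.continuous_en 1 l).comp (by fun_prop)
    have e0 : Continuous (fun y : (Fin 2 → ℂ) × (Fin 3 → ℂ) × PP 3 × PP 2 => y.2.2.2.en 0 l) :=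
      (PP.continuous_en 0 l).comp (by fun_prop)
    refine continuous_pi fun k => ?_
    fin_cases k
    · exact e1.mul z0
    · exact e1.mul z1
    · exact e0

theorem isClosedEmbedding_co : IsClosedEmbedding co := ⟨isEmbedding_co, isClosed_range_co⟩

instance : LocallyCompactSpace Up := isClosedEmbedding_co.locallyCompactSpace

/-- the squared norm -/
def N (x : Up) : ℝ := nsq x.z + nsq x.m

@[fun_prop] theorem c_N : Continuous N := by unfold N; fun_prop

theorem N_nonneg (x : Up) : 0 ≤ x.N := add_nonneg (nsq_nonneg _) (nsq_nonneg _)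

theorem N_eq_zero {x : Up} : x.N = 0 ↔ x.z = 0 ∧ x.m = 0 := by
  unfold N
  rw [add_eq_zero_iff_of_nonneg (nsq_nonneg _) (nsq_nonneg _), nsq_eq_zero, nsq_eq_zero]

theorem isCompact_le (r : ℝ) : IsCompact {x : Up | x.N ≤ r} := by
  have h1 : IsClosed {x : Up | x.N ≤ r} := isClosed_le c_N continuous_const
  rw [isClosedEmbedding_co.isCompact_iff]
  refine IsCompact.of_isClosed_subset ?_ (isClosedEmbedding_co.isClosedMap _ h1)
    (s := Metric.closedBall 0 (max 1 r) ×ˢ (Metric.closedBall 0 (max 1 r) ×ˢ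
      ((univ : Set (PP 3)) ×ˢ (univ : Set (PP 2))))) ?_
  · exact (isCompact_closedBall _ _).prod ((isCompact_closedBall _ _).prod
      (isCompact_univ.prod isCompact_univ))
  · rintro _ ⟨x, hx, rfl⟩
    have hx' : nsq x.z + nsq x.m ≤ r := hx
    have h3 := nsq_nonneg x.z
    have h4 := nsq_nonneg x.m
    refine ⟨?_, ?_, mem_univ _, mem_univ _⟩
    · rw [mem_closedBall_zero_iff]
      exact norm_le_of_nsq (show nsq x.z ≤ r by linarith)
    · rw [mem_closedBall_zero_iff]
      exact norm_le_of_nsq (show nsq x.m ≤ r by linarith)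

/-- the point with `W1` coordinates `(t, α, μ)` -/
def mk1 (t α μ : ℂ) : Up where
  z := ![α * μ, α * μ * t]
  m := ![μ, μ * t, μ * t ^ 2]
  X := PP.mk ![1, t, α] (v3_ne (Or.inl one_ne_zero))
  R := PP.mk ![α ^ 2 * μ, 1] (v2_ne (Or.inr one_ne_zero))
  h1 := by apply PP.par3 <;> simp <;> ring
  h2 := by apply PP.par3 <;> simp <;> ring
  h3 := by
    intro k
    have h : (PP.mk ![α ^ 2 * μ, 1] (v2_ne (Or.inr one_ne_zero))).en 0 k =
        α ^ 2 * μ * (PP.mk ![α ^ 2 * μ, 1] (v2_ne (Or.inr one_ne_zero))).en 1 k := by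
      rw [PP.en_mk, PP.en_mk]
      simp
      ring
    rw [h]
    apply PP.par3 <;> simp <;> ring

/-- the point with `W2` coordinates `(t', α', ν)` -/
def mk2 (t α μ : ℂ) : Up where
  z := ![α * μ * t, α * μ]
  m := ![μ * t ^ 2, μ * t, μ]
  X := PP.mk ![t, 1, α] (v3_ne (Or.inr (Or.inl one_ne_zero)))
  R := PP.mk ![α ^ 2 * μ, 1] (v2_ne (Or.inr one_ne_zero))
  h1 := by apply PP.par3 <;> simp <;> ring
  h2 := by apply PP.par3 <;> simp <;> ring
  h3 := by
    intro k
    have h : (PP.mk ![α ^ 2 * μ, 1] (v2_ne (Or.inr one_ne_zero))).en 0 k =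
        α ^ 2 * μ * (PP.mk ![α ^ 2 * μ, 1] (v2_ne (Or.inr one_ne_zero))).en 1 k := by
      rw [PP.en_mk, PP.en_mk]
      simp
      ring
    rw [h]
    apply PP.par3 <;> simp <;> ring

/-- the point with `W3` coordinates `(g₀, g₁, r)` -/
def mk3 (g0 g1 r : ℂ) : Up where
  z := ![r * g0, r * g1]
  m := ![r * g0 ^ 2, r * g0 * g1, r * g1 ^ 2]
  X := PP.mk ![g0, g1, 1] (v3_ne (Or.inr (Or.inr one_ne_zero)))
  R := PP.mk ![r, 1] (v2_ne (Or.inr one_ne_zero))
  h1 := by apply PP.par3 <;> simp <;> ring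
  h2 := by apply PP.par3 <;> simp <;> ring
  h3 := by
    intro k
    have h : (PP.mk ![r, 1] (v2_ne (Or.inr one_ne_zero))).en 0 k =
        r * (PP.mk ![r, 1] (v2_ne (Or.inr one_ne_zero))).en 1 k := by
      rw [PP.en_mk, PP.en_mk]
      simp
      ring
    rw [h]
    apply PP.par3 <;> simp <;> ring

/-- the point with `W4` coordinates `(z₀, z₁, w)` -/
def mk4 (z0 z1 w : ℂ) : Up where
  z := ![z0, z1]
  m := ![w * z0 ^ 2, w * z0 * z1, w * z1 ^ 2]
  X := PP.mk ![w * z0, w * z1, 1] (v3_ne (Or.inr (Or.inr one_ne_zero)))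
  R := PP.mk ![1, w] (v2_ne (Or.inl one_ne_zero))
  h1 := by apply PP.par3 <;> simp <;> ring
  h2 := by apply PP.par3 <;> simp <;> ring
  h3 := by
    intro k
    have h : (PP.mk ![1, w] (v2_ne (Or.inl one_ne_zero))).en 1 k =
        w * (PP.mk ![1, w] (v2_ne (Or.inl one_ne_zero))).en 0 k := by
      rw [PP.en_mk, PP.en_mk]
      simp
      ring
    rw [h]
    apply PP.par3 <;> simp <;> ring

/-- recover the line from ratios -/
theorem _root_.Crest.Agent.R272.Flop_66.PP.eq_mk_of {n : ℕ} (Q : PP n) {k : Fin n}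
    (hk : Q.en k k ≠ 0) {v : Fin n → ℂ} (hv : v ≠ 0) (h : ∀ i, v i = Q.rat i k) :
    PP.mk v hv = Q := by
  have h4 : (fun i => Q.rat i k) = v := funext fun i => (h i).symm
  subst h4
  exact PP.eq_mk_rat Q hk _

theorem eq_mk1 {x : Up} (h : x.X.en 0 0 ≠ 0) :
    mk1 (x.X.rat 1 0) (x.X.rat 2 0) (x.m 0) = x := by
  have e1 := x.h1.eq_rat h
  have e2 := x.h2.eq_rat h
  have a1 := e1 1
  have a2 := e1 2
  have b1 := e2 1
  have b2 := e2 2
  simp only [Matrix.cons_val_zero, Matrix.cons_val_one, Matrix.cons_val] at a1 a2 b1 b2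
  refine Up.ext ?_ ?_ ?_ ?_
  · funext k
    fin_cases k
    · simp only [mk1]; simp
      rw [a2]
    · simp only [mk1]; simp
      rw [b2, a1]; ring
  · funext k
    fin_cases k
    · rfl
    · simp only [mk1]; simp
      rw [a1]; ring
    · simp only [mk1]; simp
      rw [b1, a1]; ring
  · refine PP.eq_mk_of x.X h (v3_ne (Or.inl one_ne_zero)) fun i => ?_
    fin_cases i
    · exact (x.X.rat_self h).symm
    · rfl
    · rfl
  · symm
    refine PP.Par.eq_mk ?_ (v2_ne (Or.inr one_ne_zero))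
    intro i j k
    have c := (x.h3 k).eq_rat h 2
    simp only [Matrix.cons_val_zero, Matrix.cons_val] at c
    have c' : x.R.en 0 k = x.X.rat 2 0 ^ 2 * x.m 0 * x.R.en 1 k := by
      rw [c, a2]; ring
    fin_cases i <;> fin_cases j <;> simp <;> rw [c'] <;> ring

theorem eq_mk2 {x : Up} (h : x.X.en 1 1 ≠ 0) :
    mk2 (x.X.rat 0 1) (x.X.rat 2 1) (x.m 2) = x := by
  have e1 := x.h1.eq_rat h
  have e2 := x.h2.eq_rat h
  have a1 := e1 0
  have a2 := e1 2
  have b1 := e2 0
  have b2 := e2 2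
  simp only [Matrix.cons_val_zero, Matrix.cons_val_one, Matrix.cons_val] at a1 a2 b1 b2
  refine Up.ext ?_ ?_ ?_ ?_
  · funext k
    fin_cases k
    · simp only [mk2]; simp
      rw [a2, b1]; ring
    · simp only [mk2]; simp
      rw [b2]
  · funext k
    fin_cases k
    · simp only [mk2]; simp
      rw [a1, b1]; ring
    · simp only [mk2]; simp
      rw [b1]; ring
    · rfl
  · refine PP.eq_mk_of x.X h (v3_ne (Or.inr (Or.inl one_ne_zero))) fun i => ?_
    fin_cases i
    · rfl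
    · exact (x.X.rat_self h).symm
    · rfl
  · symm
    refine PP.Par.eq_mk ?_ (v2_ne (Or.inr one_ne_zero))
    intro i j k
    have c := (x.h3 k).eq_rat h 2
    simp only [Matrix.cons_val_one, Matrix.cons_val] at c
    have c' : x.R.en 0 k = x.X.rat 2 1 ^ 2 * x.m 2 * x.R.en 1 k := by
      rw [c, b2]; ring
    fin_cases i <;> fin_cases j <;> simp <;> rw [c'] <;> ring

theorem eq_mk3 {x : Up} (h : x.X.en 2 2 ≠ 0) (hR : x.R.en 1 1 ≠ 0) :
    mk3 (x.X.rat 0 2) (x.X.rat 1 2) (x.R.rat 0 1) = x := by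
  have e1 := x.h1.eq_rat h
  have e2 := x.h2.eq_rat h
  have e3 := (x.h3 1).eq_rat h
  have a0 := e1 0
  have a1 := e1 1
  have b0 := e2 0
  have b1 := e2 1
  have c0 := e3 0
  have c1 := e3 1
  simp only [Matrix.cons_val_zero, Matrix.cons_val_one, Matrix.cons_val] at a0 a1 b0 b1 c0 c1
  have z0 : x.z 0 = x.R.rat 0 1 * x.X.rat 0 2 := by
    unfold PP.rat at c0 ⊢
    field_simp at c0 ⊢
    linear_combination c0
  have z1 : x.z 1 = x.R.rat 0 1 * x.X.rat 1 2 := by
    unfold PP.rat at c1 ⊢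
    field_simp at c1 ⊢
    linear_combination c1
  refine Up.ext ?_ ?_ ?_ ?_
  · funext k
    fin_cases k
    · exact z0.symm
    · exact z1.symm
  · funext k
    fin_cases k
    · simp only [mk3]; simp
      rw [a0, z0]; ring
    · simp only [mk3]; simp
      rw [a1, z0]; ring
    · simp only [mk3]; simp
      rw [b1, z1]; ring
  · refine PP.eq_mk_of x.X h (v3_ne (Or.inr (Or.inr one_ne_zero))) fun i => ?_
    fin_cases i
    · rfl
    · rfl
    · exact (x.X.rat_self h).symm
  · refine PP.eq_mk_of x.R hR (v2_ne (Or.inr one_ne_zero)) fun i => ?_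
    fin_cases i
    · rfl
    · exact (x.R.rat_self hR).symm

theorem X2_ne {x : Up} (hR : x.R.en 0 0 ≠ 0) : x.X.en 2 2 ≠ 0 := by
  have h := x.h3 0
  have hv : (![x.R.en 1 0 * x.z 0, x.R.en 1 0 * x.z 1, x.R.en 0 0] : Fin 3 → ℂ) ≠ 0 :=
    v3_ne (Or.inr (Or.inr hR))
  rw [h.eq_mk hv, PP.en_self_ne]
  exact hR

theorem eq_mk4 {x : Up} (hR : x.R.en 0 0 ≠ 0) :
    mk4 (x.z 0) (x.z 1) (x.R.rat 1 0) = x := by
  have h := X2_ne hR
  have e1 := x.h1.eq_rat h
  have e2 := x.h2.eq_rat h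
  have e3 := (x.h3 0).eq_rat h
  have a0 := e1 0
  have a1 := e1 1
  have b0 := e2 0
  have b1 := e2 1
  have c0 := e3 0
  have c1 := e3 1
  simp only [Matrix.cons_val_zero, Matrix.cons_val_one, Matrix.cons_val] at a0 a1 b0 b1 c0 c1
  have z0 : x.X.rat 0 2 = x.R.rat 1 0 * x.z 0 := by
    unfold PP.rat at c0 ⊢
    field_simp at c0 ⊢
    linear_combination -c0
  have z1 : x.X.rat 1 2 = x.R.rat 1 0 * x.z 1 := by
    unfold PP.rat at c1 ⊢
    field_simp at c1 ⊢
    linear_combination -c1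
  refine Up.ext ?_ ?_ ?_ ?_
  · funext k
    fin_cases k
    · rfl
    · rfl
  · funext k
    fin_cases k
    · simp only [mk4]; simp
      rw [a0, z0]; ring
    · simp only [mk4]; simp
      rw [a1, z1]; ring
    · simp only [mk4]; simp
      rw [b1, z1]; ring
  · refine PP.eq_mk_of x.X h (v3_ne (Or.inr (Or.inr one_ne_zero))) fun i => ?_
    fin_cases i
    · exact z0.symm
    · exact z1.symm
    · exact (x.X.rat_self h).symm
  · refine PP.eq_mk_of x.R hR (v2_ne (Or.inl one_ne_zero)) fun i => ?_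
    fin_cases i
    · exact (x.R.rat_self hR).symm
    · rfl

end Up

end

end Crest.Agent.R272.Flop_66
end

-- ▼ part R272/Flop4_66
section

/-!
# R272, FLOP-SURG (helper66), part 4: charts of `Up`, uniqueness over the cone

`Up.fam : Fam 3 Up` (index `Fin 4`), `Up.eq_of_N`, `Um.eq_of_N` : a point with `N ≠ 0` is determined
by `(z, m)`.
-/

set_option autoImplicit false
set_option linter.unusedSectionVars false
set_option linter.style.haveILetI false

open Set Filter Topology Complex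
open scoped ComplexConjugate

namespace Crest.Agent.R272.Flop_66

open Crest.Agent.R275.Geo Crest.Agent.R273.Fam_835

noncomputable section

theorem cont_vec2 {E : Type*} [TopologicalSpace E] {f0 f1 : E → ℂ} (h0 : Continuous f0)
    (h1 : Continuous f1) : Continuous (fun z => (![f0 z, f1 z] : Fin 2 → ℂ)) := by
  refine continuous_pi fun k => ?_
  fin_cases k
  · exact h0
  · exact h1

theorem cont_vec3 {E : Type*} [TopologicalSpace E] {f0 f1 f2 : E → ℂ} (h0 : Continuous f0)
    (h1 : Continuous f1) (h2 : Continuous f2) :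
    Continuous (fun z => (![f0 z, f1 z, f2 z] : Fin 3 → ℂ)) := by
  refine continuous_pi fun k => ?_
  fin_cases k
  · exact h0
  · exact h1
  · exact h2

namespace Up

theorem c_mk1 : Continuous (fun u : Cn 3 => mk1 (u 0) (u 1) (u 2)) := by
  rw [continuous_iff]
  refine ⟨?_, ?_, ?_, ?_⟩
  · exact cont_vec2 (by fun_prop) (by fun_prop)
  · exact cont_vec3 (by fun_prop) (by fun_prop) (by fun_prop)
  · exact PP.continuous_mk (f := fun u : Cn 3 => ![1, u 0, u 1])
      (cont_vec3 (by fun_prop) (by fun_prop) (by fun_prop)) fun u => v3_ne (Or.inl one_ne_zero)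
  · exact PP.continuous_mk (f := fun u : Cn 3 => ![u 1 ^ 2 * u 2, 1])
      (cont_vec2 (by fun_prop) (by fun_prop)) fun u => v2_ne (Or.inr one_ne_zero)

theorem c_mk2 : Continuous (fun u : Cn 3 => mk2 (u 0) (u 1) (u 2)) := by
  rw [continuous_iff]
  refine ⟨?_, ?_, ?_, ?_⟩
  · exact cont_vec2 (by fun_prop) (by fun_prop)
  · exact cont_vec3 (by fun_prop) (by fun_prop) (by fun_prop)
  · exact PP.continuous_mk (f := fun u : Cn 3 => ![u 0, 1, u 1])
      (cont_vec3 (by fun_prop) (by fun_prop) (by fun_prop))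
      fun u => v3_ne (Or.inr (Or.inl one_ne_zero))
  · exact PP.continuous_mk (f := fun u : Cn 3 => ![u 1 ^ 2 * u 2, 1])
      (cont_vec2 (by fun_prop) (by fun_prop)) fun u => v2_ne (Or.inr one_ne_zero)

theorem c_mk3 : Continuous (fun u : Cn 3 => mk3 (u 0) (u 1) (u 2)) := by
  rw [continuous_iff]
  refine ⟨?_, ?_, ?_, ?_⟩
  · exact cont_vec2 (by fun_prop) (by fun_prop)
  · exact cont_vec3 (by fun_prop) (by fun_prop) (by fun_prop)
  · exact PP.continuous_mk (f := fun u : Cn 3 => ![u 0, u 1, 1])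
      (cont_vec3 (by fun_prop) (by fun_prop) (by fun_prop))
      fun u => v3_ne (Or.inr (Or.inr one_ne_zero))
  · exact PP.continuous_mk (f := fun u : Cn 3 => ![u 2, 1])
      (cont_vec2 (by fun_prop) (by fun_prop)) fun u => v2_ne (Or.inr one_ne_zero)

theorem c_mk4 : Continuous (fun u : Cn 3 => mk4 (u 0) (u 1) (u 2)) := by
  rw [continuous_iff]
  refine ⟨?_, ?_, ?_, ?_⟩
  · exact cont_vec2 (by fun_prop) (by fun_prop)
  · exact cont_vec3 (by fun_prop) (by fun_prop) (by fun_prop)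
  · exact PP.continuous_mk (f := fun u : Cn 3 => ![u 2 * u 0, u 2 * u 1, 1])
      (cont_vec3 (by fun_prop) (by fun_prop) (by fun_prop))
      fun u => v3_ne (Or.inr (Or.inr one_ne_zero))
  · exact PP.continuous_mk (f := fun u : Cn 3 => ![1, u 2])
      (cont_vec2 (by fun_prop) (by fun_prop)) fun u => v2_ne (Or.inl one_ne_zero)

/-- the chart `W1` -/
def ch1 : OpenPartialHomeomorph Up (Cn 3) where
  toFun x := !₂[x.X.rat 1 0, x.X.rat 2 0, x.m 0]
  invFun u := mk1 (u 0) (u 1) (u 2)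
  source := {x | x.X.en 0 0 ≠ 0}
  target := univ
  map_source' _ _ := mem_univ _
  map_target' u _ := (PP.en_self_ne (v3_ne (Or.inl one_ne_zero)) 0).2 (by simp)
  left_inv' x hx := eq_mk1 hx
  right_inv' u _ := by
    ext k
    fin_cases k
    · simp [mk1]
    · simp [mk1]
    · rfl
  open_source := (PP.isOpen_ne 0).preimage c_X
  open_target := isOpen_univ
  continuousOn_toFun := cont3 ((PP.continuousOn_rat 1 0).comp c_X.continuousOn fun x hx => hx)
    ((PP.continuousOn_rat 2 0).comp c_X.continuousOn fun x hx => hx) (c_mi 0).continuousOn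
  continuousOn_invFun := c_mk1.continuousOn

/-- the chart `W2` -/
def ch2 : OpenPartialHomeomorph Up (Cn 3) where
  toFun x := !₂[x.X.rat 0 1, x.X.rat 2 1, x.m 2]
  invFun u := mk2 (u 0) (u 1) (u 2)
  source := {x | x.X.en 1 1 ≠ 0}
  target := univ
  map_source' _ _ := mem_univ _
  map_target' u _ := (PP.en_self_ne (v3_ne (Or.inr (Or.inl one_ne_zero))) 1).2 (by simp)
  left_inv' x hx := eq_mk2 hx
  right_inv' u _ := by
    ext k
    fin_cases k
    · simp [mk2]
    · simp [mk2]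
    · rfl
  open_source := (PP.isOpen_ne 1).preimage c_X
  open_target := isOpen_univ
  continuousOn_toFun := cont3 ((PP.continuousOn_rat 0 1).comp c_X.continuousOn fun x hx => hx)
    ((PP.continuousOn_rat 2 1).comp c_X.continuousOn fun x hx => hx) (c_mi 2).continuousOn
  continuousOn_invFun := c_mk2.continuousOn

/-- the chart `W3` -/
def ch3 : OpenPartialHomeomorph Up (Cn 3) where
  toFun x := !₂[x.X.rat 0 2, x.X.rat 1 2, x.R.rat 0 1]
  invFun u := mk3 (u 0) (u 1) (u 2)
  source := {x | x.X.en 2 2 ≠ 0 ∧ x.R.en 1 1 ≠ 0}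
  target := univ
  map_source' _ _ := mem_univ _
  map_target' u _ := ⟨(PP.en_self_ne (v3_ne (Or.inr (Or.inr one_ne_zero))) 2).2 (by simp),
    (PP.en_self_ne (v2_ne (Or.inr one_ne_zero)) 1).2 (by simp)⟩
  left_inv' x hx := eq_mk3 hx.1 hx.2
  right_inv' u _ := by
    ext k
    fin_cases k
    · simp [mk3]
    · simp [mk3]
    · simp [mk3]
  open_source := ((PP.isOpen_ne 2).preimage c_X).inter ((PP.isOpen_ne 1).preimage c_R)
  open_target := isOpen_univ
  continuousOn_toFun := cont3 ((PP.continuousOn_rat 0 2).comp c_X.continuousOn fun x hx => hx.1)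
    ((PP.continuousOn_rat 1 2).comp c_X.continuousOn fun x hx => hx.1)
    ((PP.continuousOn_rat 0 1).comp c_R.continuousOn fun x hx => hx.2)
  continuousOn_invFun := c_mk3.continuousOn

/-- the chart `W4` -/
def ch4 : OpenPartialHomeomorph Up (Cn 3) where
  toFun x := !₂[x.z 0, x.z 1, x.R.rat 1 0]
  invFun u := mk4 (u 0) (u 1) (u 2)
  source := {x | x.R.en 0 0 ≠ 0}
  target := univ
  map_source' _ _ := mem_univ _
  map_target' u _ := (PP.en_self_ne (v2_ne (Or.inl one_ne_zero)) 0).2 (by simp)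
  left_inv' x hx := eq_mk4 hx
  right_inv' u _ := by
    ext k
    fin_cases k
    · rfl
    · rfl
    · simp [mk4]
  open_source := (PP.isOpen_ne 0).preimage c_R
  open_target := isOpen_univ
  continuousOn_toFun := cont3 (c_zi 0).continuousOn (c_zi 1).continuousOn
    ((PP.continuousOn_rat 1 0).comp c_R.continuousOn fun x hx => hx)
  continuousOn_invFun := c_mk4.continuousOn

theorem ch1_apply (x : Up) : ch1 x = !₂[x.X.rat 1 0, x.X.rat 2 0, x.m 0] := rfl
theorem ch2_apply (x : Up) : ch2 x = !₂[x.X.rat 0 1, x.X.rat 2 1, x.m 2] := rfl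
theorem ch3_apply (x : Up) : ch3 x = !₂[x.X.rat 0 2, x.X.rat 1 2, x.R.rat 0 1] := rfl
theorem ch4_apply (x : Up) : ch4 x = !₂[x.z 0, x.z 1, x.R.rat 1 0] := rfl
theorem ch1_symm (u : Cn 3) : ch1.symm u = mk1 (u 0) (u 1) (u 2) := rfl
theorem ch2_symm (u : Cn 3) : ch2.symm u = mk2 (u 0) (u 1) (u 2) := rfl
theorem ch3_symm (u : Cn 3) : ch3.symm u = mk3 (u 0) (u 1) (u 2) := rfl
theorem ch4_symm (u : Cn 3) : ch4.symm u = mk4 (u 0) (u 1) (u 2) := rfl
@[simp] theorem ch1_target : ch1.target = univ := rfl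
@[simp] theorem ch2_target : ch2.target = univ := rfl
@[simp] theorem ch3_target : ch3.target = univ := rfl
@[simp] theorem ch4_target : ch4.target = univ := rfl
theorem mem_ch1 {x : Up} : x ∈ ch1.source ↔ x.X.en 0 0 ≠ 0 := Iff.rfl
theorem mem_ch2 {x : Up} : x ∈ ch2.source ↔ x.X.en 1 1 ≠ 0 := Iff.rfl
theorem mem_ch3 {x : Up} : x ∈ ch3.source ↔ x.X.en 2 2 ≠ 0 ∧ x.R.en 1 1 ≠ 0 := Iff.rfl
theorem mem_ch4 {x : Up} : x ∈ ch4.source ↔ x.R.en 0 0 ≠ 0 := Iff.rfl

/-- the charts -/
def ch (i : Fin 4) : OpenPartialHomeomorph Up (Cn 3) := ![ch1, ch2, ch3, ch4] i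

theorem cover (x : Up) : ∃ i, x ∈ (ch i).source := by
  obtain ⟨k, hk⟩ := x.X.exists_ne
  fin_cases k
  · exact ⟨0, hk⟩
  · exact ⟨1, hk⟩
  · obtain ⟨l, hl⟩ := x.R.exists_ne
    fin_cases l
    · exact ⟨3, hl⟩
    · exact ⟨2, hk, hl⟩

theorem mk1_mem2 {t α μ : ℂ} : mk1 t α μ ∈ ch2.source ↔ t ≠ 0 := by
  rw [mem_ch2]; simp only [mk1]; rw [PP.en_self_ne]; simp
theorem mk1_mem3 {t α μ : ℂ} : mk1 t α μ ∈ ch3.source ↔ α ≠ 0 := by
  rw [mem_ch3]; simp only [mk1]; rw [PP.en_self_ne, PP.en_self_ne]; simp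
theorem mk1_mem4 {t α μ : ℂ} : mk1 t α μ ∈ ch4.source ↔ α ≠ 0 ∧ μ ≠ 0 := by
  rw [mem_ch4]; simp only [mk1]; rw [PP.en_self_ne]; simp
theorem mk2_mem1 {t α μ : ℂ} : mk2 t α μ ∈ ch1.source ↔ t ≠ 0 := by
  rw [mem_ch1]; simp only [mk2]; rw [PP.en_self_ne]; simp
theorem mk2_mem3 {t α μ : ℂ} : mk2 t α μ ∈ ch3.source ↔ α ≠ 0 := by
  rw [mem_ch3]; simp only [mk2]; rw [PP.en_self_ne, PP.en_self_ne]; simp
theorem mk2_mem4 {t α μ : ℂ} : mk2 t α μ ∈ ch4.source ↔ α ≠ 0 ∧ μ ≠ 0 := by
  rw [mem_ch4]; simp only [mk2]; rw [PP.en_self_ne]; simp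
theorem mk3_mem1 {g0 g1 r : ℂ} : mk3 g0 g1 r ∈ ch1.source ↔ g0 ≠ 0 := by
  rw [mem_ch1]; simp only [mk3]; rw [PP.en_self_ne]; simp
theorem mk3_mem2 {g0 g1 r : ℂ} : mk3 g0 g1 r ∈ ch2.source ↔ g1 ≠ 0 := by
  rw [mem_ch2]; simp only [mk3]; rw [PP.en_self_ne]; simp
theorem mk3_mem4 {g0 g1 r : ℂ} : mk3 g0 g1 r ∈ ch4.source ↔ r ≠ 0 := by
  rw [mem_ch4]; simp only [mk3]; rw [PP.en_self_ne]; simp
theorem mk4_mem1 {z0 z1 w : ℂ} : mk4 z0 z1 w ∈ ch1.source ↔ w ≠ 0 ∧ z0 ≠ 0 := by
  rw [mem_ch1]; simp only [mk4]; rw [PP.en_self_ne]; simp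
theorem mk4_mem2 {z0 z1 w : ℂ} : mk4 z0 z1 w ∈ ch2.source ↔ w ≠ 0 ∧ z1 ≠ 0 := by
  rw [mem_ch2]; simp only [mk4]; rw [PP.en_self_ne]; simp
theorem mk4_mem3 {z0 z1 w : ℂ} : mk4 z0 z1 w ∈ ch3.source ↔ w ≠ 0 := by
  rw [mem_ch3]; simp only [mk4]; rw [PP.en_self_ne, PP.en_self_ne]; simp

/-- from a formula for the transition map -/
theorem tr_of {f0 f1 f2 : Cn 3 → ℂ} {e e' : OpenPartialHomeomorph Up (Cn 3)}
    (P : Cn 3 → Prop) (hP : ∀ u, e.symm u ∈ e'.source → P u)
    (h : ∀ u, P u → e' (e.symm u) = !₂[f0 u, f1 u, f2 u])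
    (h0 : ∀ u, P u → DifferentiableAt ℂ f0 u) (h1 : ∀ u, P u → DifferentiableAt ℂ f1 u)
    (h2 : ∀ u, P u → DifferentiableAt ℂ f2 u) :
    DifferentiableOn ℂ (fun z => e' (e.symm z)) {z | z ∈ e.target ∧ e.symm z ∈ e'.source} := by
  refine DifferentiableOn.congr (f := fun u : Cn 3 => !₂[f0 u, f1 u, f2 u]) ?_ ?_
  · exact diffOn3 (fun u hu => (h0 u (hP u hu.2)).differentiableWithinAt)
      (fun u hu => (h1 u (hP u hu.2)).differentiableWithinAt)
      (fun u hu => (h2 u (hP u hu.2)).differentiableWithinAt)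
  · rintro u ⟨-, hu⟩
    exact h u (hP u hu)

theorem holo_ch : ∀ i j, DifferentiableOn ℂ (fun z => ch j ((ch i).symm z))
    {z | z ∈ (ch i).target ∧ (ch i).symm z ∈ (ch j).source} := by
  have hself : ∀ e : OpenPartialHomeomorph Up (Cn 3), DifferentiableOn ℂ
      (fun z => e (e.symm z)) {z | z ∈ e.target ∧ e.symm z ∈ e.source} := fun e => by
    refine DifferentiableOn.congr (f := id) differentiableOn_id ?_
    rintro u ⟨hu, -⟩
    exact e.right_inv hu
  intro i j
  fin_cases i <;> fin_cases j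
  · exact hself ch1
  · refine tr_of (e := ch1) (e' := ch2) (f0 := fun u => (u 0)⁻¹) (f1 := fun u => u 1 * (u 0)⁻¹)
      (f2 := fun u => u 2 * u 0 ^ 2) (fun u => u 0 ≠ 0) (fun u hu => mk1_mem2.1 hu) ?_ ?_ ?_ ?_
    · intro u hu
      rw [ch1_symm, ch2_apply]
      simp [mk1, div_eq_mul_inv]
    all_goals intro u hu; fun_prop (disch := assumption)
  · refine tr_of (e := ch1) (e' := ch3) (f0 := fun u => (u 1)⁻¹) (f1 := fun u => u 0 * (u 1)⁻¹)
      (f2 := fun u => u 1 ^ 2 * u 2) (fun u => u 1 ≠ 0) (fun u hu => mk1_mem3.1 hu) ?_ ?_ ?_ ?_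
    · intro u hu
      rw [ch1_symm, ch3_apply]
      simp [mk1, div_eq_mul_inv]
    all_goals intro u hu; fun_prop (disch := assumption)
  · refine tr_of (e := ch1) (e' := ch4) (f0 := fun u => u 1 * u 2) (f1 := fun u => u 1 * u 2 * u 0)
      (f2 := fun u => (u 1 ^ 2 * u 2)⁻¹) (fun u => u 1 ^ 2 * u 2 ≠ 0)
      (fun u hu => by
        have := mk1_mem4.1 hu
        exact mul_ne_zero (pow_ne_zero 2 this.1) this.2) ?_ ?_ ?_ ?_
    · intro u hu
      rw [ch1_symm, ch4_apply]
      simp [mk1]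
    all_goals intro u hu; fun_prop (disch := assumption)
  · refine tr_of (e := ch2) (e' := ch1) (f0 := fun u => (u 0)⁻¹) (f1 := fun u => u 1 * (u 0)⁻¹)
      (f2 := fun u => u 2 * u 0 ^ 2) (fun u => u 0 ≠ 0) (fun u hu => mk2_mem1.1 hu) ?_ ?_ ?_ ?_
    · intro u hu
      rw [ch2_symm, ch1_apply]
      simp [mk2, div_eq_mul_inv]
    all_goals intro u hu; fun_prop (disch := assumption)
  · exact hself ch2
  · refine tr_of (e := ch2) (e' := ch3) (f0 := fun u => u 0 * (u 1)⁻¹) (f1 := fun u => (u 1)⁻¹)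
      (f2 := fun u => u 1 ^ 2 * u 2) (fun u => u 1 ≠ 0) (fun u hu => mk2_mem3.1 hu) ?_ ?_ ?_ ?_
    · intro u hu
      rw [ch2_symm, ch3_apply]
      simp [mk2, div_eq_mul_inv]
    all_goals intro u hu; fun_prop (disch := assumption)
  · refine tr_of (e := ch2) (e' := ch4) (f0 := fun u => u 1 * u 2 * u 0) (f1 := fun u => u 1 * u 2)
      (f2 := fun u => (u 1 ^ 2 * u 2)⁻¹) (fun u => u 1 ^ 2 * u 2 ≠ 0)
      (fun u hu => by
        have := mk2_mem4.1 hu
        exact mul_ne_zero (pow_ne_zero 2 this.1) this.2) ?_ ?_ ?_ ?_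
    · intro u hu
      rw [ch2_symm, ch4_apply]
      simp [mk2]
    all_goals intro u hu; fun_prop (disch := assumption)
  · refine tr_of (e := ch3) (e' := ch1) (f0 := fun u => u 1 * (u 0)⁻¹) (f1 := fun u => (u 0)⁻¹)
      (f2 := fun u => u 2 * u 0 ^ 2) (fun u => u 0 ≠ 0) (fun u hu => mk3_mem1.1 hu) ?_ ?_ ?_ ?_
    · intro u hu
      rw [ch3_symm, ch1_apply]
      simp [mk3, div_eq_mul_inv]
    all_goals intro u hu; fun_prop (disch := assumption)
  · refine tr_of (e := ch3) (e' := ch2) (f0 := fun u => u 0 * (u 1)⁻¹) (f1 := fun u => (u 1)⁻¹)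
      (f2 := fun u => u 2 * u 1 ^ 2) (fun u => u 1 ≠ 0) (fun u hu => mk3_mem2.1 hu) ?_ ?_ ?_ ?_
    · intro u hu
      rw [ch3_symm, ch2_apply]
      simp [mk3, div_eq_mul_inv]
    all_goals intro u hu; fun_prop (disch := assumption)
  · exact hself ch3
  · refine tr_of (e := ch3) (e' := ch4) (f0 := fun u => u 2 * u 0) (f1 := fun u => u 2 * u 1)
      (f2 := fun u => (u 2)⁻¹) (fun u => u 2 ≠ 0) (fun u hu => mk3_mem4.1 hu) ?_ ?_ ?_ ?_
    · intro u hu
      rw [ch3_symm, ch4_apply]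
      simp [mk3]
    all_goals intro u hu; fun_prop (disch := assumption)
  · refine tr_of (e := ch4) (e' := ch1) (f0 := fun u => u 1 * (u 0)⁻¹)
      (f1 := fun u => (u 2 * u 0)⁻¹)
      (f2 := fun u => u 2 * u 0 ^ 2) (fun u => u 0 ≠ 0 ∧ u 2 * u 0 ≠ 0)
      (fun u hu => ⟨(mk4_mem1.1 hu).2, mul_ne_zero (mk4_mem1.1 hu).1 (mk4_mem1.1 hu).2⟩)
      ?_ ?_ ?_ ?_
    · intro u hu
      have h2 : u 2 ≠ 0 := left_ne_zero_of_mul hu.2
      rw [ch4_symm, ch1_apply]
      simp only [mk4, PP.rat_mk, Matrix.cons_val_zero, Matrix.cons_val_one, Matrix.cons_val]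
      have e0 : u 2 * u 1 / (u 2 * u 0) = u 1 * (u 0)⁻¹ := by
        field_simp
      rw [e0, one_div]
    · intro u hu
      have := hu.1
      fun_prop (disch := assumption)
    · intro u hu
      have := hu.2
      fun_prop (disch := assumption)
    · intro u hu
      fun_prop
  · refine tr_of (e := ch4) (e' := ch2) (f0 := fun u => u 0 * (u 1)⁻¹)
      (f1 := fun u => (u 2 * u 1)⁻¹)
      (f2 := fun u => u 2 * u 1 ^ 2) (fun u => u 1 ≠ 0 ∧ u 2 * u 1 ≠ 0)
      (fun u hu => ⟨(mk4_mem2.1 hu).2, mul_ne_zero (mk4_mem2.1 hu).1 (mk4_mem2.1 hu).2⟩)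
      ?_ ?_ ?_ ?_
    · intro u hu
      have h2 : u 2 ≠ 0 := left_ne_zero_of_mul hu.2
      rw [ch4_symm, ch2_apply]
      simp only [mk4, PP.rat_mk, Matrix.cons_val_zero, Matrix.cons_val_one, Matrix.cons_val]
      have e0 : u 2 * u 0 / (u 2 * u 1) = u 0 * (u 1)⁻¹ := by
        field_simp
      rw [e0, one_div]
    · intro u hu
      have := hu.1
      fun_prop (disch := assumption)
    · intro u hu
      have := hu.2
      fun_prop (disch := assumption)
    · intro u hu
      fun_prop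
  · refine tr_of (e := ch4) (e' := ch3) (f0 := fun u => u 2 * u 0) (f1 := fun u => u 2 * u 1)
      (f2 := fun u => (u 2)⁻¹) (fun u => u 2 ≠ 0) (fun u hu => mk4_mem3.1 hu) ?_ ?_ ?_ ?_
    · intro u hu
      rw [ch4_symm, ch3_apply]
      simp [mk4]
    all_goals intro u hu; fun_prop (disch := assumption)
  · exact hself ch4

/-- the family of charts -/
def fam : Fam 3 Up where
  ι := Fin 4
  e := ch
  cover := cover
  holo := holo_ch

end Up

end

end Crest.Agent.R272.Flop_66
end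

-- ▼ part R272/Flop5_66

/-!
# R272, FLOP-SURG (helper66), part 5: the antiflip `phi : Um ⇀ Up`

`phi : OpenPartialHomeomorph Um Up`, source `{N ≠ 0}`, target `{N ≠ 0}`, `(z, m)` preserved,
holomorphic in all charts (`phi_hol`, `phi_symm_hol`); `diff_any` : holomorphy at a point can be
checked in one pair of charts.
-/

set_option autoImplicit false
set_option linter.unusedSectionVars false
set_option linter.style.haveILetI false

open Set Filter Topology Complex
open scoped ComplexConjugate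

namespace Crest.Agent.R272.Flop_66

open Crest.Agent.R275.Geo Crest.Agent.R273.Fam_835

noncomputable section

section General

variable {n m : ℕ} {M M' : Type} [TopologicalSpace M] [TopologicalSpace M']


end General

/-! ### the cone -/

/-- the equations of the cone -/
def Cone (z : Fin 2 → ℂ) (m : Fin 3 → ℂ) : Prop :=
  z 0 * m 1 = z 1 * m 0 ∧ z 0 * m 2 = z 1 * m 1 ∧ m 0 * m 2 = m 1 ^ 2

theorem Um.cone (x : Um) : Cone x.z x.m := by
  rcases Um.cover x with h | h
  · rw [← Um.eq_mk0 h]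
    refine ⟨?_, ?_, ?_⟩ <;> simp [Um.mk0] <;> ring
  · rw [← Um.eq_mk1 h]
    refine ⟨?_, ?_, ?_⟩ <;> simp [Um.mk1] <;> ring

theorem Up.cone (x : Up) : Cone x.z x.m := by
  obtain ⟨i, hi⟩ := Up.cover x
  fin_cases i
  · rw [← Up.eq_mk1 hi]
    refine ⟨?_, ?_, ?_⟩ <;> simp [Up.mk1] <;> ring
  · rw [← Up.eq_mk2 hi]
    refine ⟨?_, ?_, ?_⟩ <;> simp [Up.mk2] <;> ring
  · rw [← Up.eq_mk3 hi.1 hi.2]
    refine ⟨?_, ?_, ?_⟩ <;> simp [Up.mk3] <;> ring
  · rw [← Up.eq_mk4 hi]
    refine ⟨?_, ?_, ?_⟩ <;> simp [Up.mk4] <;> ring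

/-- the four cases of a non-zero point of the cone -/
theorem Cone.cases {z : Fin 2 → ℂ} {m : Fin 3 → ℂ} (h : Cone z m) (h0 : nsq z + nsq m ≠ 0) :
    z 0 ≠ 0 ∨ z 1 ≠ 0 ∨ m 0 ≠ 0 ∨ m 2 ≠ 0 := by
  by_contra hc
  push Not at hc
  obtain ⟨h1, h2, h3, h4⟩ := hc
  have h5 : m 1 = 0 := by
    have := h.2.2
    rw [h3, h4, zero_mul] at this
    exact pow_eq_zero_iff (two_ne_zero) |>.1 this.symm
  apply h0
  have e1 : z = 0 := funext fun k => by fin_cases k <;> assumption
  have e2 : m = 0 := funext fun k => by fin_cases k <;> assumption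
  rw [e1, e2, nsq_eq_zero.2 rfl, nsq_eq_zero.2 rfl, add_zero]

/-! ### uniqueness -/

theorem Um.eq_of {x y : Um} (h1 : x.z = y.z) (h2 : x.m = y.m) (h : x.N ≠ 0) : x = y := by
  refine Um.ext h1 h2 ?_
  rcases x.cone.cases h with h0 | h0 | h0 | h0
  · have hv : x.z ≠ 0 := fun e => h0 (congrFun e 0)
    rw [x.hz.eq_mk hv, y.hz.eq_mk (h1 ▸ hv)]
    congr 1
  · have hv : x.z ≠ 0 := fun e => h0 (congrFun e 1)
    rw [x.hz.eq_mk hv, y.hz.eq_mk (h1 ▸ hv)]
    congr 1
  · have hv : (![x.m 0, x.m 1] : Fin 2 → ℂ) ≠ 0 := v2_ne (Or.inl h0)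
    rw [x.h1.eq_mk hv, y.h1.eq_mk (h2 ▸ hv)]
    congr 1
    rw [h2]
  · have hv : (![x.m 1, x.m 2] : Fin 2 → ℂ) ≠ 0 := v2_ne (Or.inr h0)
    rw [x.h2.eq_mk hv, y.h2.eq_mk (h2 ▸ hv)]
    congr 1
    rw [h2]

theorem PP.eq_of_en0 {Q : PP 2} (h : Q.en 0 0 = 0) : Q = PP.mk ![0, 1] (v2_ne (Or.inr one_ne_zero)) := by
  obtain ⟨x, hx, rfl⟩ := Q.exists_rep
  have h0 : x 0 = 0 := by
    by_contra hc
    exact (PP.en_self_ne hx 0).2 hc h
  rw [PP.mk_eq_iff]
  intro i j
  fin_cases i <;> fin_cases j <;> simp [h0]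

theorem Up.eq_of {x y : Up} (h1 : x.z = y.z) (h2 : x.m = y.m) (h : x.N ≠ 0) : x = y := by
  have hX : x.X = y.X := by
    by_cases hr : (![x.m 0, x.m 1, x.z 0] : Fin 3 → ℂ) = 0
    · have hr2 : (![x.m 1, x.m 2, x.z 1] : Fin 3 → ℂ) ≠ 0 := by
        intro hr3
        have a0 := congrFun hr 0
        have a2 := congrFun hr 2
        have b0 := congrFun hr3 0
        have b1 := congrFun hr3 1
        have b2 := congrFun hr3 2
        simp at a0 a2 b0 b1 b2
        rcases x.cone.cases h with h0 | h0 | h0 | h0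
        · exact h0 a2
        · exact h0 b2
        · exact h0 a0
        · exact h0 b1
      rw [x.h2.eq_mk hr2, y.h2.eq_mk (by rw [← h1, ← h2]; exact hr2)]
      congr 1
      rw [h1, h2]
    · rw [x.h1.eq_mk hr, y.h1.eq_mk (by rw [← h1, ← h2]; exact hr)]
      congr 1
      rw [h1, h2]
  refine Up.ext h1 h2 hX ?_
  by_cases h22 : x.X.en 2 2 = 0
  · have hx : x.R.en 0 0 = 0 := by
      by_contra hc
      exact Up.X2_ne hc h22
    have hy : y.R.en 0 0 = 0 := by
      by_contra hc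
      exact Up.X2_ne hc (hX ▸ h22)
    rw [PP.eq_of_en0 hx, PP.eq_of_en0 hy]
  · -- `z ≠ 0`
    have hz : ∃ i, x.z i ≠ 0 := by
      by_contra hc
      push Not at hc
      have a := fun i => x.h1.eq_rat h22 i
      have b := fun i => x.h2.eq_rat h22 i
      have a0 := a 0
      have a1 := a 1
      have b1 := b 1
      simp only [Matrix.cons_val_zero, Matrix.cons_val_one, Matrix.cons_val] at a0 a1 b1
      rw [hc 0, mul_zero] at a0 a1
      rw [hc 1, mul_zero] at b1
      rcases x.cone.cases h with h0 | h0 | h0 | h0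
      · exact h0 (hc 0)
      · exact h0 (hc 1)
      · exact h0 a0
      · exact h0 b1
    have key : ∀ (u : Up) (hu : u.X.en 2 2 ≠ 0) (i : Fin 2),
        u.R.Par ![u.z i, u.X.rat i.castSucc 2] := by
      intro u hu i a b k
      have c := (u.h3 k).eq_rat hu i.castSucc
      have c' : u.R.en 1 k * u.z i = u.X.rat i.castSucc 2 * u.R.en 0 k := by
        fin_cases i
        · simpa using c
        · simpa using c
      fin_cases a <;> fin_cases b <;> simp
      · linear_combination -c'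
      · linear_combination c'
    obtain ⟨i, hi⟩ := hz
    have k1 := key x h22 i
    have k2 := key y (hX ▸ h22) i
    rw [← hX, ← h1] at k2
    have hv : (![x.z i, x.X.rat i.castSucc 2] : Fin 2 → ℂ) ≠ 0 := v2_ne (Or.inl hi)
    rw [k1.eq_mk hv, k2.eq_mk hv]

end

end Crest.Agent.R272.Flop_66
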