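import Crest.Agent.R272.PW2_92
import Crest.Agent.R272.Flop5_66
import Crest.Agent.R272.Lc1_220
import Crest.Agent.R272.FinCB3_876

-- ▼ part R272/PW3_92
section

/-!
# R272, (5W) of #6650 (helper92), part 3: the list `Φ` on `Up`

`K.PhiU b x`  : the list `Φ` at `x : Up`, through `(z, m)`;
`sC, τC, ρC`  : `z = τ s`, `m = ρ (s₀², s₀ s₁, s₁²)` in the four charts;
`valC_mu`, `valC_xi` : values of `[Φ]` in the charts.
-/

set_option autoImplicit false
set_option linter.unusedSectionVars false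

open Filter Topology Asymptotics Set Metric

namespace Crest.Agent.R272.PW_92

open Crest.Agent.R275.Geo Crest.Agent.R273.Fam_835
open Crest.Agent.R272.Flop_66 Crest.Agent.R272.Lc_220 Crest.Agent.R272.FinCB3_876

noncomputable section

/-! ### generalities -/

section Gen

variable {n : ℕ} {X : Type} [TopologicalSpace X] {C : Fam n X} {x : X}

theorem holN_chart {i : C.ι} (hi : x ∈ (C.e i).source) {F : Cn n → ℂ}
    (hF : AnalyticAt ℂ F (C.e i x)) : HolN C x fun y => F (C.e i y) := by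
  refine holN_of hi (hF.congr ?_)
  filter_upwards [(C.e i).open_target.mem_nhds ((C.e i).map_source hi)] with z hz
  rw [(C.e i).right_inv hz]

theorem nz_chart {i : C.ι} (hi : x ∈ (C.e i).source) {F : Cn n → ℂ}
    (hF : ¬ ∀ᶠ z in 𝓝 (C.e i x), F z = 0) : NZ x fun y => F (C.e i y) := by
  intro h
  apply hF
  have h1 := (ev_chart hi (P := fun y => F (C.e i y) = 0)).2 h
  filter_upwards [h1, (C.e i).open_target.mem_nhds ((C.e i).map_source hi)] with z hz hz2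
  rwa [(C.e i).right_inv hz2] at hz

theorem mem_closure_of_nz {f : X → ℂ} (h : NZ x f) : x ∈ closure {y | f y ≠ 0} := by
  rw [mem_closure_iff_frequently]
  exact not_eventually.1 h

/-- points with all coordinates non-zero are dense -/
theorem freq_coord (c₀ : Cn n) : ∃ᶠ c in 𝓝 c₀, ∀ i, c i ≠ 0 := by
  have h1 : Tendsto (fun a : ℂ => c₀ + a • (WithLp.toLp 2 fun _ => (1 : ℂ) : Cn n)) (𝓝[≠] 0)
      (𝓝 c₀) := by
    have h2 : Continuous (fun a : ℂ => c₀ + a • (WithLp.toLp 2 fun _ => (1 : ℂ) : Cn n)) := by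
      fun_prop
    have h3 := h2.tendsto 0
    rw [zero_smul, add_zero] at h3
    exact h3.mono_left nhdsWithin_le_nhds
  refine h1.frequently (Eventually.frequently ?_)
  refine eventually_all.2 fun i => ?_
  have h4 : ∀ a : ℂ, (c₀ + a • (WithLp.toLp 2 fun _ => (1 : ℂ) : Cn n)) i = c₀ i + a := by
    intro a
    simp
  simp only [h4]
  by_cases h0 : c₀ i = 0
  · filter_upwards [self_mem_nhdsWithin] with a ha
    rw [h0, zero_add]
    exact ha
  · have h5 : ContinuousAt (fun a : ℂ => c₀ i + a) 0 := by fun_prop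
    have h6 : ∀ᶠ a in 𝓝 (0 : ℂ), c₀ i + a ≠ 0 := h5.eventually_ne (by rw [add_zero]; exact h0)
    exact nhdsWithin_le_nhds h6

theorem an_cn (i : Fin n) (c : Cn n) : AnalyticAt ℂ (fun c : Cn n => c i) c :=
  (EuclideanSpace.proj (𝕜 := ℂ) i).analyticAt c

end Gen

/-! ### the charts of `Up` -/

/-- `s` -/
def sC (k : Fin 4) (c : Cn 3) : Fin 2 → ℂ :=
  ![![1, c 0], ![c 0, 1], ![c 0, c 1], ![c 0, c 1]] k

/-- `τ` -/
def τC (k : Fin 4) (c : Cn 3) : ℂ := ![c 1 * c 2, c 1 * c 2, c 2, 1] k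

/-- `α`, `τ = α ρ` -/
def αC (k : Fin 4) (c : Cn 3) : ℂ := ![c 1, c 1, 1, 1] k

theorem an_sC (k : Fin 4) (i : Fin 2) (c : Cn 3) : AnalyticAt ℂ (fun c => sC k c i) c := by
  fin_cases k <;> fin_cases i <;>
    first
      | exact analyticAt_const
      | exact an_cn 0 c
      | exact an_cn 1 c

theorem an_τC (k : Fin 4) (c : Cn 3) : AnalyticAt ℂ (τC k) c := by
  fin_cases k
  · exact (an_cn 1 c).mul (an_cn 2 c)
  · exact (an_cn 1 c).mul (an_cn 2 c)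
  · exact an_cn 2 c
  · exact analyticAt_const

theorem an_αC (k : Fin 4) (c : Cn 3) : AnalyticAt ℂ (αC k) c := by
  fin_cases k
  · exact an_cn 1 c
  · exact an_cn 1 c
  · exact analyticAt_const
  · exact analyticAt_const

theorem mk_z (k : Fin 4) (c : Cn 3) : ((Up.ch k).symm c).z = τC k c • sC k c := by
  funext i
  fin_cases k <;> fin_cases i
  · show (Up.mk1 (c 0) (c 1) (c 2)).z 0 = _
    simp [Up.mk1, τC, sC]
  · show (Up.mk1 (c 0) (c 1) (c 2)).z 1 = _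
    simp [Up.mk1, τC, sC]
  · show (Up.mk2 (c 0) (c 1) (c 2)).z 0 = _
    simp [Up.mk2, τC, sC]
  · show (Up.mk2 (c 0) (c 1) (c 2)).z 1 = _
    simp [Up.mk2, τC, sC]
  · show (Up.mk3 (c 0) (c 1) (c 2)).z 0 = _
    simp [Up.mk3, τC, sC]
  · show (Up.mk3 (c 0) (c 1) (c 2)).z 1 = _
    simp [Up.mk3, τC, sC]
  · show (Up.mk4 (c 0) (c 1) (c 2)).z 0 = _
    simp [Up.mk4, τC, sC]
  · show (Up.mk4 (c 0) (c 1) (c 2)).z 1 = _
    simp [Up.mk4, τC, sC]

theorem mk_m (k : Fin 4) (c : Cn 3) : ((Up.ch k).symm c).m = KF.qu (c 2) (sC k c) := by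
  funext i
  fin_cases k <;> fin_cases i
  · show (Up.mk1 (c 0) (c 1) (c 2)).m 0 = _
    simp [Up.mk1, sC, KF.qu]
  · show (Up.mk1 (c 0) (c 1) (c 2)).m 1 = _
    simp [Up.mk1, sC, KF.qu]
  · show (Up.mk1 (c 0) (c 1) (c 2)).m 2 = _
    simp [Up.mk1, sC, KF.qu]
  · show (Up.mk2 (c 0) (c 1) (c 2)).m 0 = _
    simp [Up.mk2, sC, KF.qu]
  · show (Up.mk2 (c 0) (c 1) (c 2)).m 1 = _
    simp [Up.mk2, sC, KF.qu]
  · show (Up.mk2 (c 0) (c 1) (c 2)).m 2 = _
    simp [Up.mk2, sC, KF.qu]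
  · show (Up.mk3 (c 0) (c 1) (c 2)).m 0 = _
    simp [Up.mk3, sC, KF.qu]
  · show (Up.mk3 (c 0) (c 1) (c 2)).m 1 = _
    simp [Up.mk3, sC, KF.qu]; ring
  · show (Up.mk3 (c 0) (c 1) (c 2)).m 2 = _
    simp [Up.mk3, sC, KF.qu]
  · show (Up.mk4 (c 0) (c 1) (c 2)).m 0 = _
    simp [Up.mk4, sC, KF.qu]
  · show (Up.mk4 (c 0) (c 1) (c 2)).m 1 = _
    simp [Up.mk4, sC, KF.qu]; ring
  · show (Up.mk4 (c 0) (c 1) (c 2)).m 2 = _
    simp [Up.mk4, sC, KF.qu]

theorem z_eq {k : Fin 4} {x : Up} (hx : x ∈ (Up.ch k).source) :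
    x.z = τC k (Up.ch k x) • sC k (Up.ch k x) := by
  rw [← mk_z, (Up.ch k).left_inv hx]

theorem m_eq {k : Fin 4} {x : Up} (hx : x ∈ (Up.ch k).source) :
    x.m = KF.qu (Up.ch k x 2) (sC k (Up.ch k x)) := by
  rw [← mk_m, (Up.ch k).left_inv hx]

theorem ch_target (k : Fin 4) : (Up.ch k).target = univ := by
  fin_cases k <;> rfl

/-- the chart `W4` is dense -/
theorem freq_W4 (x : Up) : ∃ᶠ y in 𝓝 x, y ∈ (Up.ch 3).source := by
  obtain ⟨k, hk⟩ := Up.cover x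
  intro h
  have h1 := (ev_chart (C := Up.fam) (i := k) hk (P := fun y => ¬ y ∈ (Up.ch 3).source)).2 h
  refine freq_coord (Up.ch k x) (h1.mono fun c hc h0 => hc ?_)
  have h4 : (Up.ch k).symm c ∈ (Up.ch 3).source := by
    fin_cases k
    · exact Up.mk1_mem4.2 ⟨h0 1, h0 2⟩
    · exact Up.mk2_mem4.2 ⟨h0 1, h0 2⟩
    · exact Up.mk3_mem4.2 (h0 2)
    · exact (Up.ch 3).map_target (by rw [ch_target]; exact mem_univ _)
  exact h4

/-- functions of `z` which do not vanish identically -/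
theorem nz_of_z {F : (Fin 2 → ℂ) → ℂ} {U : Set (Fin 2 → ℂ)} (hU : IsOpen U)
    (hF : ∀ z ∈ U, ¬ ∀ᶠ w in 𝓝 z, F w = 0) {x : Up} (hx : x.z ∈ U) : NZ x fun y => F y.z := by
  intro h
  have hc : ContinuousAt (fun y : Up => y.z) x := Up.c_z.continuousAt
  obtain ⟨y, hy4, hy1, hy2⟩ := ((freq_W4 x).and_eventually
    (h.eventually_nhds.and (hc.eventually (hU.mem_nhds hx)))).exists
  refine hF _ hy2 ?_
  have h1 := (ev_chart (C := Up.fam) (i := (3 : Fin 4)) hy4 (P := fun y => F y.z = 0)).2 hy1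
  let j : (Fin 2 → ℂ) → Cn 3 := fun z => !₂[z 0, z 1, Up.ch 3 y 2]
  have hj : Continuous j := by
    refine (PiLp.continuous_toLp 2 _).comp (continuous_pi fun i => ?_)
    fin_cases i
    · exact continuous_apply 0
    · exact continuous_apply 1
    · exact continuous_const
  have hjy : j y.z = Up.ch 3 y := by
    have e := z_eq hy4
    ext i
    fin_cases i
    · show y.z 0 = _
      rw [e]; simp [τC, sC]
    · show y.z 1 = _
      rw [e]; simp [τC, sC]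
    · rfl
  have h2 : Tendsto j (𝓝 y.z) (𝓝 (Up.ch 3 y)) := by
    rw [← hjy]; exact hj.continuousAt
  filter_upwards [h2.eventually h1] with w hw
  have e : ((Up.ch 3).symm (j w)).z = w := by
    rw [mk_z]
    funext i
    fin_cases i
    · simp [τC, sC, j]
    · simp [τC, sC, j]
  have hw' : F ((Up.ch 3).symm (j w)).z = 0 := hw
  rwa [e] at hw'

namespace KF

variable {κ : ℂ} {q : Fin 3 → (Fin 2 → ℂ) → ℂ} (K : KF κ q)

/-- **the list `Φ` on `Up`** -/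
def PhiU (b : ℕ) (i : IPhi) (x : Up) : ℂ :=
  Phi b (K.X x.z x.m 0) (K.X x.z x.m 1) (K.X x.z x.m 0 * K.X x.z x.m 2)
    (K.X x.z x.m 0 ^ 3 * K.RR x.z x.m) i

/-- the region `|z| < ε` -/
def Reg : Set Up := {x | x.z ∈ ball (0 : Fin 2 → ℂ) K.ε}

theorem isOpen_Reg : IsOpen K.Reg := isOpen_ball.preimage Up.c_z

/-- the reduced coordinates in the chart `k` -/
def yC (k : Fin 4) (c : Cn 3) : Fin 3 → ℂ := K.yy (sC k c) (τC k c)

/-- `β` in the chart `k` -/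
def bC (k : Fin 4) (c : Cn 3) : ℂ := K.be (sC k c) (τC k c)

variable {K} {k : Fin 4} {x : Up}

theorem ball_of (hx : x ∈ (Up.ch k).source) (hR : x ∈ K.Reg) :
    τC k (Up.ch k x) • sC k (Up.ch k x) ∈ ball (0 : Fin 2 → ℂ) K.ε := by
  rw [← z_eq hx]; exact hR

theorem holN_yC (hx : x ∈ (Up.ch k).source) (hR : x ∈ K.Reg) (j : Fin 3) :
    HolN Up.fam x fun y => K.yC k (Up.ch k y) j :=
  holN_chart (C := Up.fam) (i := k) hx (F := fun c => K.yC k c j)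
    (K.an_yy (fun i => an_sC k i _) (an_τC k _) (ball_of hx hR) j)

theorem holN_bC (hx : x ∈ (Up.ch k).source) (hR : x ∈ K.Reg) :
    HolN Up.fam x fun y => K.bC k (Up.ch k y) :=
  holN_chart (C := Up.fam) (i := k) hx (F := K.bC k)
    (K.an_be (fun i => an_sC k i _) (an_τC k _) (ball_of hx hR))

theorem holN_ρ (hx : x ∈ (Up.ch k).source) (i : Fin 3) : HolN Up.fam x fun y => Up.ch k y i :=
  holN_chart (C := Up.fam) (i := k) hx (F := fun c => c i) (an_cn i _)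

theorem holN_α (hx : x ∈ (Up.ch k).source) : HolN Up.fam x fun y => αC k (Up.ch k y) :=
  holN_chart (C := Up.fam) (i := k) hx (F := αC k) (an_αC k _)

theorem nz_ρ (hx : x ∈ (Up.ch k).source) (i : Fin 3) : NZ x fun y => Up.ch k y i :=
  nz_chart (C := Up.fam) (i := k) hx (F := fun c => c i) fun h =>
    freq_coord (Up.ch k x) (h.mono fun _ hc h0 => h0 i hc)

theorem ev_src (hx : x ∈ (Up.ch k).source) : ∀ᶠ y in 𝓝 x, y ∈ (Up.ch k).source :=
  (Up.ch k).open_source.mem_nhds hx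

theorem ev_reg (hR : x ∈ K.Reg) : ∀ᶠ y in 𝓝 x, y ∈ K.Reg := K.isOpen_Reg.mem_nhds hR

theorem nz_bC (hx : x ∈ (Up.ch k).source) (hR : x ∈ K.Reg) :
    NZ x fun y => K.bC k (Up.ch k y) := by
  intro h
  refine nz_of_z isOpen_ball K.nzP hR ?_
  filter_upwards [h, ev_src hx, ev_reg hR] with y h1 h2 h3
  have h4 := K.P_be (ball_of h2 h3)
  rw [← z_eq h2] at h4
  rw [h4]
  have h5 : K.be (sC k (Up.ch k y)) (τC k (Up.ch k y)) = 0 := h1
  rw [h5, mul_zero]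

theorem nz_yC (hx : x ∈ (Up.ch k).source) (hR : x ∈ K.Reg) :
    NZ x fun y => K.yC k (Up.ch k y) 0 := by
  intro h
  refine nz_of_z isOpen_ball K.nzq hR ?_
  filter_upwards [h, ev_src hx, ev_reg hR] with y h1 h2 h3
  have h4 := K.q_yy (ball_of h2 h3) 0
  rw [← z_eq h2] at h4
  rw [h4]
  have h5 : K.yy (sC k (Up.ch k y)) (τC k (Up.ch k y)) 0 = 0 := h1
  rw [h5, mul_zero]

theorem X_eq (hx : x ∈ (Up.ch k).source) (j : Fin 3) :
    K.X x.z x.m j = Up.ch k x 2 * K.yC k (Up.ch k x) j := by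
  rw [m_eq hx, z_eq hx]
  exact K.X_qu _ _ _ _

theorem RR_eq (hx : x ∈ (Up.ch k).source) :
    K.RR x.z x.m = Up.ch k x 2 ^ 3 * K.bC k (Up.ch k x) := by
  rw [m_eq hx, z_eq hx]
  exact K.RR_qu _ _ _

theorem disc_eq (hx : x ∈ (Up.ch k).source) (hR : x ∈ K.Reg) :
    disc (K.X x.z x.m) = Up.ch k x 2 ^ 2 * (τC k (Up.ch k x) ^ 2 * K.bC k (Up.ch k x)) := by
  have h1 := K.disc_yy (ball_of hx hR)
  have h2 : disc (K.X x.z x.m) = Up.ch k x 2 ^ 2 * disc (K.yC k (Up.ch k x)) := by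
    simp only [disc, X_eq hx]
    ring
  rw [h2]
  congr 1

/-- first shape (`W1`, `W2`, `W3`) -/
theorem phi_mu' {b : ℕ} (hb : 15 ≤ b) (hτ : ∀ c : Cn 3, τC k c = αC k c * c 2)
    (hx : x ∈ (Up.ch k).source) (hR : x ∈ K.Reg) (i : IPhi) :
    K.PhiU b i x = Ymu b (αC k (Up.ch k x)) (Up.ch k x 2) (K.yC k (Up.ch k x)) i *
      gmu b (Up.ch k x 2) (K.bC k (Up.ch k x)) (K.yC k (Up.ch k x) 0) := by
  rw [PhiU, phi_eq hb (x := K.X x.z x.m) (R := K.RR x.z x.m) rfl rfl rfl rfl, mul_comm]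
  refine phi_mu hb (fun j => X_eq hx j) (RR_eq hx) ?_ i
  rw [disc_eq hx hR, hτ]
  ring

/-- second shape (`W4`) -/
theorem phi_xi' {b : ℕ} (hb : 15 ≤ b) (hx : x ∈ (Up.ch 3).source) (hR : x ∈ K.Reg) (i : IPhi) :
    K.PhiU b i x = Yxi b (Up.ch 3 x 2) 1 (K.yC 3 (Up.ch 3 x)) i *
      gxi b (Up.ch 3 x 2) (K.bC 3 (Up.ch 3 x)) (K.yC 3 (Up.ch 3 x) 0) := by
  rw [PhiU, phi_eq hb (x := K.X x.z x.m) (R := K.RR x.z x.m) rfl rfl rfl rfl, mul_comm]
  refine phi_xi hb (fun j => X_eq hx j) ?_ ?_ i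
  · rw [RR_eq hx, mul_one]
  · rw [disc_eq hx hR]
    have : τC 3 (Up.ch 3 x) = 1 := rfl
    rw [this]
    ring

theorem valC_mu {b : ℕ} (hb : 15 ≤ b) (hτ : ∀ c : Cn 3, τC k c = αC k c * c 2)
    (hx : x ∈ (Up.ch k).source) (hR : x ∈ K.Reg)
    (h0 : Ymu b (αC k (Up.ch k x)) (Up.ch k x 2) (K.yC k (Up.ch k x)) ≠ 0) :
    ValC Up.fam (K.PhiU b) x (Ymu b (αC k (Up.ch k x)) (Up.ch k x 2) (K.yC k (Up.ch k x))) := by
  have hW : IsOpen ((Up.ch k).source ∩ K.Reg) := (Up.ch k).open_source.inter K.isOpen_Reg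
  refine ⟨h0, (Up.ch k).source ∩ K.Reg, hW, ⟨hx, hR⟩,
    fun y => gmu b (Up.ch k y 2) (K.bC k (Up.ch k y)) (K.yC k (Up.ch k y) 0), ?_,
    fun i y => Ymu b (αC k (Up.ch k y)) (Up.ch k y 2) (K.yC k (Up.ch k y)) i, ?_, ?_, fun _ => rfl⟩
  · intro y hy
    refine mem_closure_of_nz (f := fun y => gmu b (Up.ch k y 2) (K.bC k (Up.ch k y))
      (K.yC k (Up.ch k y) 0)) ?_
    unfold gmu
    have h1 := holN_ρ hy.1 2
    have h2 := holN_bC hy.1 hy.2
    have h3 := holN_yC hy.1 hy.2 0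
    exact NZ.mul ((h1.pow _).mul (h2.pow _)) (h3.pow _)
      (NZ.mul (h1.pow _) (h2.pow _) ((nz_ρ hy.1 2).pow h1 _) ((nz_bC hy.1 hy.2).pow h2 _))
      ((nz_yC hy.1 hy.2).pow h3 _)
  · intro i
    rw [holF_iff hW]
    intro y hy
    have h1 := holN_ρ hy.1 2
    have h2 := holN_α hy.1
    have h3 := fun j => holN_yC hy.1 hy.2 j
    cases i with
    | l j => exact ((h2.pow 8).mul (h1.pow 3)).mul (h3 j)
    | W => exact (h2.pow 6).mul h1
    | W2 => exact h2.pow 4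
    | W3 j => exact (h2.pow 2).mul (h3 j)
    | W4 j l => exact (h3 j).mul (h3 l)
    | v => exact ((h2.pow 8).mul (h1.pow _)).mul ((h3 2).pow _)
    | last => exact (h1.pow _).mul ((h3 2).pow _)
  · intro y hy i
    exact phi_mu' hb hτ hy.1 hy.2 i

theorem valC_xi {b : ℕ} (hb : 15 ≤ b) (hx : x ∈ (Up.ch 3).source) (hR : x ∈ K.Reg) :
    ValC Up.fam (K.PhiU b) x (Yxi b (Up.ch 3 x 2) 1 (K.yC 3 (Up.ch 3 x))) := by
  have hW : IsOpen ((Up.ch 3).source ∩ K.Reg) := (Up.ch 3).open_source.inter K.isOpen_Reg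
  refine ⟨fun h => one_ne_zero (congrFun h IPhi.W), (Up.ch 3).source ∩ K.Reg, hW, ⟨hx, hR⟩,
    fun y => gxi b (Up.ch 3 y 2) (K.bC 3 (Up.ch 3 y)) (K.yC 3 (Up.ch 3 y) 0), ?_,
    fun i y => Yxi b (Up.ch 3 y 2) 1 (K.yC 3 (Up.ch 3 y)) i, ?_, ?_, fun _ => rfl⟩
  · intro y hy
    refine mem_closure_of_nz (f := fun y => gxi b (Up.ch 3 y 2) (K.bC 3 (Up.ch 3 y))
      (K.yC 3 (Up.ch 3 y) 0)) ?_
    unfold gxi
    have h1 := holN_ρ hy.1 2
    have h2 := holN_bC hy.1 hy.2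
    have h3 := holN_yC hy.1 hy.2 0
    exact NZ.mul ((h1.pow _).mul (h2.pow _)) (h3.pow _)
      (NZ.mul (h1.pow _) (h2.pow _) ((nz_ρ hy.1 2).pow h1 _) ((nz_bC hy.1 hy.2).pow h2 _))
      ((nz_yC hy.1 hy.2).pow h3 _)
  · intro i
    rw [holF_iff hW]
    intro y hy
    have h1 := holN_ρ hy.1 2
    have h2 : HolN Up.fam y fun _ => (1 : ℂ) := holN_const 1
    have h3 := fun j => holN_yC hy.1 hy.2 j
    cases i with
    | l j => exact h3 j
    | W => exact h2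
    | W2 => exact h1.mul (h2.pow 2)
    | W3 j => exact ((h1.pow 3).mul (h2.pow 3)).mul (h3 j)
    | W4 j l => exact (((h1.pow 5).mul (h2.pow 4)).mul (h3 j)).mul (h3 l)
    | v => exact (h1.pow _).mul ((h3 2).pow _)
    | last => exact ((h1.pow _).mul (h2.pow 4)).mul ((h3 2).pow _)
  · intro y hy i
    exact phi_xi' hb hy.1 hy.2 i

end KF

end

end Crest.Agent.R272.PW_92
end

-- ▼ part R272/PW4_92

/-!
# R272, (5W) of #6650 (helper92), part 4: values and finite fibres on `{N = 0} = Π ∪ R⁺`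

* `K.holN_X`, `K.holN_RR` : `X`, `RR` are holomorphic where `z`, `m` are;
* `K.X_cone`, `K.RR_cone` : `m = ω (z₀², z₀ z₁, z₁²)` ⟹ `X_j = ω q_j(z)`, `RR = ω³ disc q(z)`;
* `K.valC_N0`             : `[Φ]` has a value (no common zero) at every point with `N = 0`;
* `K.ff_N0`               : `[Φ]` has finite fibres on `{N = 0}`.
-/

set_option autoImplicit false
set_option linter.unusedSectionVars false

open Filter Topology Asymptotics Set Metric

namespace Crest.Agent.R272.PW_92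

open Crest.Agent.R275.Geo Crest.Agent.R273.Fam_835
open Crest.Agent.R272.Flop_66 Crest.Agent.R272.Lc_220 Crest.Agent.R272.FinCB3_876

noncomputable section

theorem fin_pow {n : ℕ} (hn : 0 < n) (a : ℂ) : {x : ℂ | x ^ n = a}.Finite := by
  refine (Polynomial.nthRoots n a).toFinset.finite_toSet.subset fun x hx => ?_
  simp only [Finset.mem_coe, Multiset.mem_toFinset]
  exact (Polynomial.mem_nthRoots hn).2 hx

theorem fin_box (S : Fin 3 → Set ℂ) (hS : ∀ i, (S i).Finite) : {c : Cn 3 | ∀ i, c i ∈ S i}.Finite := by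
  have h1 : (Set.univ.pi S).Finite := Set.Finite.pi' hS |>.subset fun f hf i => hf i trivial
  refine (h1.image (fun f : Fin 3 → ℂ => (WithLp.toLp 2 f : Cn 3))).subset ?_
  intro c hc
  exact ⟨fun i => c i, fun i _ => hc i, by ext i; rfl⟩

namespace KF

variable {κ : ℂ} {q : Fin 3 → (Fin 2 → ℂ) → ℂ} (K : KF κ q)




theorem X_cone {z : Fin 2 → ℂ} (h : z ∈ ball (0 : Fin 2 → ℂ) K.ε) (w : ℂ) (j : Fin 3) :
    K.X z (qu w z) j = w * q j z := by
  have h1 := K.X_qu z w 1 j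
  have h2 := K.q_yy (s := z) (τ := 1) (by rw [one_smul]; exact h) j
  rw [one_smul] at h1 h2
  rw [h1, h2]
  ring

theorem RR_cone {z : Fin 2 → ℂ} (h : z ∈ ball (0 : Fin 2 → ℂ) K.ε) (w : ℂ) :
    K.RR z (qu w z) = w ^ 3 * disc fun j => q j z := by
  have h1 := K.RR_qu z w 1
  have h2 := K.P_be (s := z) (τ := 1) (by rw [one_smul]; exact h)
  rw [one_smul] at h1 h2
  rw [h1, h2]
  ring






variable {K} {k : Fin 4} {x : Up}

theorem reg_of_N0 (h : x.N = 0) : x ∈ K.Reg := by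
  show x.z ∈ ball (0 : Fin 2 → ℂ) K.ε
  rw [(Up.N_eq_zero.1 h).1]
  exact mem_ball_self K.ε_pos

theorem ts_zero (hx : x ∈ (Up.ch k).source) (h : x.N = 0) :
    τC k (Up.ch k x) • sC k (Up.ch k x) = 0 := by
  rw [← z_eq hx]; exact (Up.N_eq_zero.1 h).1

theorem yC_zero (hx : x ∈ (Up.ch k).source) (h : x.N = 0) (j : Fin 3) :
    K.yC k (Up.ch k x) j = ![κ * sC k (Up.ch k x) 0 ^ 2,
      2 * κ * (sC k (Up.ch k x) 0 * sC k (Up.ch k x) 1), κ * sC k (Up.ch k x) 1 ^ 2] j :=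
  K.yy_zero (ts_zero hx h) j

theorem y1 (hx : x ∈ (Up.ch 0).source) (h : x.N = 0) :
    Up.ch 0 x 2 = 0 ∧ K.yC 0 (Up.ch 0 x) 0 = κ ∧ K.yC 0 (Up.ch 0 x) 1 = 2 * κ * Up.ch 0 x 0 := by
  refine ⟨?_, ?_, ?_⟩
  · have h1 := congrFun (m_eq hx) 0
    rw [(Up.N_eq_zero.1 h).2] at h1
    simp [qu, sC] at h1
    exact h1.symm
  · rw [yC_zero hx h]; simp [sC]
  · rw [yC_zero hx h]; simp [sC]

theorem y2 (hx : x ∈ (Up.ch 1).source) (h : x.N = 0) :
    Up.ch 1 x 2 = 0 ∧ K.yC 1 (Up.ch 1 x) 2 = κ ∧ K.yC 1 (Up.ch 1 x) 1 = 2 * κ * Up.ch 1 x 0 := by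
  refine ⟨?_, ?_, ?_⟩
  · have h1 := congrFun (m_eq hx) 2
    rw [(Up.N_eq_zero.1 h).2] at h1
    simp [qu, sC] at h1
    exact h1.symm
  · rw [yC_zero hx h]; simp [sC]
  · rw [yC_zero hx h]; simp [sC]

theorem y3 (hx : x ∈ (Up.ch 2).source) (h : x.N = 0) :
    K.yC 2 (Up.ch 2 x) 0 = κ * Up.ch 2 x 0 ^ 2 ∧ K.yC 2 (Up.ch 2 x) 2 = κ * Up.ch 2 x 1 ^ 2 := by
  refine ⟨?_, ?_⟩
  · rw [yC_zero hx h]; simp [sC]
  · rw [yC_zero hx h]; simp [sC]

theorem y4 (hx : x ∈ (Up.ch 3).source) (h : x.N = 0) : Up.ch 3 x 0 = 0 ∧ Up.ch 3 x 1 = 0 := by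
  have h1 := ts_zero hx h
  constructor
  · have := congrFun h1 0
    simpa [τC, sC] using this
  · have := congrFun h1 1
    simpa [τC, sC] using this

theorem hτ0 (c : Cn 3) : τC 0 c = αC 0 c * c 2 := rfl
theorem hτ1 (c : Cn 3) : τC 1 c = αC 1 c * c 2 := rfl
theorem hτ2 (c : Cn 3) : τC 2 c = αC 2 c * c 2 := (one_mul _).symm

/-- the explicit vector of values in the chart `k` -/
def Rv (K : KF κ q) (b : ℕ) (k : Fin 4) (c : Cn 3) : IPhi → ℂ :=
  ![Ymu b (αC 0 c) (c 2) (K.yC 0 c), Ymu b (αC 1 c) (c 2) (K.yC 1 c),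
    Ymu b (αC 2 c) (c 2) (K.yC 2 c), Yxi b (c 2) 1 (K.yC 3 c)] k

theorem valC_Rv {b : ℕ} (hb : 15 ≤ b) (hx : x ∈ (Up.ch k).source) (h : x.N = 0) :
    ValC Up.fam (K.PhiU b) x (K.Rv b k (Up.ch k x)) := by
  have hR : x ∈ K.Reg := reg_of_N0 h
  fin_cases k
  · refine valC_mu hb hτ0 hx hR fun h0 => ?_
    have h1 := congrFun h0 (IPhi.W4 0 0)
    simp only [Ymu, (y1 (K := K) hx h).2.1, Pi.zero_apply] at h1
    exact mul_ne_zero K.κ_ne K.κ_ne h1
  · refine valC_mu hb hτ1 hx hR fun h0 => ?_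
    have h1 := congrFun h0 (IPhi.W4 2 2)
    simp only [Ymu, (y2 (K := K) hx h).2.1, Pi.zero_apply] at h1
    exact mul_ne_zero K.κ_ne K.κ_ne h1
  · refine valC_mu hb hτ2 hx hR fun h0 => ?_
    have h1 := congrFun h0 IPhi.W2
    have h2 : αC 2 (Up.ch 2 x) = 1 := rfl
    simp only [Ymu, h2, Pi.zero_apply, one_pow] at h1
    exact one_ne_zero h1
  · exact valC_xi hb hx hR

/-- **no common zero on `{N = 0}`** -/
theorem valC_N0 {b : ℕ} (hb : 15 ≤ b) (h : x.N = 0) : ∃ c, ValC Up.fam (K.PhiU b) x c := by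
  obtain ⟨k, hk⟩ := Up.cover x
  exact ⟨_, valC_Rv hb hk h⟩

/-- finite fibres in one chart -/
theorem fin_chart {b : ℕ} (k : Fin 4) (c : Cn 3)
    (hc : (Up.ch k).symm c ∈ {x : Up | x.N = 0} ∩ (Up.ch k).source) :
    {c' | (Up.ch k).symm c' ∈ {x : Up | x.N = 0} ∩ (Up.ch k).source ∧
      ∀ i j, K.Rv b k c i * K.Rv b k c' j = K.Rv b k c j * K.Rv b k c' i}.Finite := by
  have hr : ∀ c : Cn 3, Up.ch k ((Up.ch k).symm c) = c := fun c =>
    (Up.ch k).right_inv (by rw [ch_target]; exact mem_univ _)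
  have hκ : κ * κ ≠ 0 := mul_ne_zero K.κ_ne K.κ_ne
  revert hc hr
  match k with
  | 0 =>
    intro hc hr
    obtain ⟨a1, a2, a3⟩ := y1 (K := K) hc.2 hc.1
    rw [hr] at a1 a2 a3
    refine (fin_box ![{c 0}, {a | a ^ 4 = c 1 ^ 4}, {0}] ?_).subset ?_
    · intro i
      fin_cases i
      · exact finite_singleton _
      · exact fin_pow (by norm_num) _
      · exact finite_singleton _
    · rintro c' ⟨h1, h2⟩
      obtain ⟨b1, b2, b3⟩ := y1 (K := K) h1.2 h1.1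
      rw [hr] at b1 b2 b3
      have e1 := h2 (IPhi.W4 0 0) (IPhi.W4 0 1)
      have e2 := h2 (IPhi.W4 0 0) IPhi.W2
      change K.yC 0 c 0 * K.yC 0 c 0 * (K.yC 0 c' 0 * K.yC 0 c' 1) =
        K.yC 0 c 0 * K.yC 0 c 1 * (K.yC 0 c' 0 * K.yC 0 c' 0) at e1
      change K.yC 0 c 0 * K.yC 0 c 0 * (c' 1) ^ 4 = (c 1) ^ 4 * (K.yC 0 c' 0 * K.yC 0 c' 0) at e2
      rw [a2, a3, b2, b3] at e1
      rw [a2, b2] at e2
      intro i
      fin_cases i
      · show c' 0 = c 0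
        have h3 : κ * κ * (κ * κ) * 2 ≠ 0 := mul_ne_zero (mul_ne_zero hκ hκ) two_ne_zero
        apply mul_left_cancel₀ h3
        linear_combination e1
      · show c' 1 ^ 4 = c 1 ^ 4
        apply mul_left_cancel₀ hκ
        linear_combination e2
      · exact b1
  | 1 =>
    intro hc hr
    obtain ⟨a1, a2, a3⟩ := y2 (K := K) hc.2 hc.1
    rw [hr] at a1 a2 a3
    refine (fin_box ![{c 0}, {a | a ^ 4 = c 1 ^ 4}, {0}] ?_).subset ?_
    · intro i
      fin_cases i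
      · exact finite_singleton _
      · exact fin_pow (by norm_num) _
      · exact finite_singleton _
    · rintro c' ⟨h1, h2⟩
      obtain ⟨b1, b2, b3⟩ := y2 (K := K) h1.2 h1.1
      rw [hr] at b1 b2 b3
      have e1 := h2 (IPhi.W4 2 2) (IPhi.W4 1 2)
      have e2 := h2 (IPhi.W4 2 2) IPhi.W2
      change K.yC 1 c 2 * K.yC 1 c 2 * (K.yC 1 c' 1 * K.yC 1 c' 2) =
        K.yC 1 c 1 * K.yC 1 c 2 * (K.yC 1 c' 2 * K.yC 1 c' 2) at e1
      change K.yC 1 c 2 * K.yC 1 c 2 * (c' 1) ^ 4 = (c 1) ^ 4 * (K.yC 1 c' 2 * K.yC 1 c' 2) at e2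
      rw [a2, a3, b2, b3] at e1
      rw [a2, b2] at e2
      intro i
      fin_cases i
      · show c' 0 = c 0
        have h3 : κ * κ * (κ * κ) * 2 ≠ 0 := mul_ne_zero (mul_ne_zero hκ hκ) two_ne_zero
        apply mul_left_cancel₀ h3
        linear_combination e1
      · show c' 1 ^ 4 = c 1 ^ 4
        apply mul_left_cancel₀ hκ
        linear_combination e2
      · exact b1
  | 2 =>
    intro hc hr
    obtain ⟨a1, a2⟩ := y3 (K := K) hc.2 hc.1
    rw [hr] at a1 a2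
    refine (fin_box ![{a | a ^ 2 = c 0 ^ 2}, {a | a ^ 2 = c 1 ^ 2}, {c 2}] ?_).subset ?_
    · intro i
      fin_cases i
      · exact fin_pow (by norm_num) _
      · exact fin_pow (by norm_num) _
      · exact finite_singleton _
    · rintro c' ⟨h1, h2⟩
      obtain ⟨b1, b2⟩ := y3 (K := K) h1.2 h1.1
      rw [hr] at b1 b2
      have e0 := h2 IPhi.W2 IPhi.W
      have e1 := h2 IPhi.W2 (IPhi.W3 0)
      have e2 := h2 IPhi.W2 (IPhi.W3 2)
      change (1 : ℂ) ^ 4 * (1 ^ 6 * c' 2) = 1 ^ 6 * c 2 * 1 ^ 4 at e0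
      change (1 : ℂ) ^ 4 * (1 ^ 2 * K.yC 2 c' 0) = 1 ^ 2 * K.yC 2 c 0 * 1 ^ 4 at e1
      change (1 : ℂ) ^ 4 * (1 ^ 2 * K.yC 2 c' 2) = 1 ^ 2 * K.yC 2 c 2 * 1 ^ 4 at e2
      rw [a1, b1] at e1
      rw [a2, b2] at e2
      intro i
      fin_cases i
      · show c' 0 ^ 2 = c 0 ^ 2
        apply mul_left_cancel₀ K.κ_ne
        linear_combination e1
      · show c' 1 ^ 2 = c 1 ^ 2
        apply mul_left_cancel₀ K.κ_ne
        linear_combination e2
      · show c' 2 = c 2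
        linear_combination e0
  | 3 =>
    intro hc hr
    refine (fin_box ![{0}, {0}, {c 2}] ?_).subset ?_
    · intro i
      fin_cases i <;> exact finite_singleton _
    · rintro c' ⟨h1, h2⟩
      obtain ⟨b1, b2⟩ := y4 h1.2 h1.1
      rw [hr] at b1 b2
      have e0 := h2 IPhi.W IPhi.W2
      change (1 : ℂ) * (c' 2 * 1 ^ 2) = c 2 * 1 ^ 2 * 1 at e0
      intro i
      fin_cases i
      · exact b1
      · exact b2
      · show c' 2 = c 2
        linear_combination e0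

/-- **finite fibres on `{N = 0}`** -/
theorem ff_N0 {b : ℕ} (hb : 15 ≤ b) (x₀ : Up) (h₀ : x₀.N = 0) :
    {x | x ∈ {x : Up | x.N = 0} ∧ ∃ c c', ValC Up.fam (K.PhiU b) x₀ c ∧
      ValC Up.fam (K.PhiU b) x c' ∧ ∀ i j, c i * c' j = c j * c' i}.Finite := by
  refine ff_of_pieces (C := Up.fam) (f := K.PhiU b) (K := {x : Up | x.N = 0})
    (fun k : Fin 4 => (Up.ch k).source) (fun x _ => mem_iUnion.2 (Up.cover x)) (fun k => ?_) x₀ h₀
  refine ff_of_param (C := Up.fam) (f := K.PhiU b) (P := {x : Up | x.N = 0} ∩ (Up.ch k).source)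
    (Up.ch k).symm (fun x hx => ⟨Up.ch k x, (Up.ch k).left_inv hx.2⟩) (K.Rv b k) ?_ ?_
  · intro c hc
    have h1 := valC_Rv (K := K) hb hc.2 hc.1
    rwa [(Up.ch k).right_inv (by rw [ch_target]; exact mem_univ _)] at h1
  · intro c hc
    exact fin_chart k c hc

end KF

end

end Crest.Agent.R272.PW_92
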