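import Crest.Agent.R272.PosP7_848
import Crest.Agent.R272.PW4_92

-- ▼ part R272/PosP8_848
section

/-!
# R272 (S0415), POS at `p0` (helper848), part 8: local statements on `YC`

* `lP_cf`, `cf_Pz`         : the coefficients;
* `YC.ec`                  : 977's `EC` in the chart `E i j`;
* `holN_M`, `YC.holN_*`    : holomorphy in the `m`-charts;
* `YC.hol`                 : all functions of the list are holomorphic on `O`.
-/

set_option autoImplicit false
set_option linter.unusedSectionVars false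
set_option linter.unusedVariables false

open Set Filter Topology Complex OnePoint

namespace Crest.Agent.R272.PosP7_848

open Crest.Agent.R275.Geo Crest.Agent.R273.Fam_835
open Crest.Agent.R272.Cur_297 (Par Cv cur tt kk fin tv yv sv vv Pz)
open Crest.Agent.R272.Tp2_60 (Amb Std)
open Crest.Agent.R272.Tq1_916 (pole dl nu fij fm Inf Dm swA)
open Crest.Agent.R272.Tq3_916 (FEij)
open Crest.Agent.R272.Tq4_916 (ib pinf)
open Crest.Agent.R272.PosP3_848
open Crest.Agent.R272.Kum_977 (cf ECpt EC ech_E ECh fh Fh rho)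
open Crest.Agent.R272.PW_92 (IPhi Phi XX)
open Crest.Agent.R272.K3E_227 (lP aP bP)
open Crest.Agent.R272.Lc_220
open Crest.Agent.R272.AJ_956 (Cur)

noncomputable section

/-! ### coefficients -/

theorem lP_cf (P : Par) : lP P = cf P := by
  funext k
  fin_cases k <;> simp [lP, aP, bP, cf, Kum_977.cfc] <;> ring

theorem Fh_coef (a : Fin 7 → ℂ) (h : ∀ t, fh a 1 t = t ^ 6 - t) (s r s' r' : ℂ) :
    Fh a s r s' r' = 2 * (r * r') ^ 3 - (s * s') ^ 2 * (r * s' + s * r') := by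
  have e0 : a 0 = 0 := by
    have := h 0
    unfold fh at this
    simpa using this
  -- values at 1, -1, 2, -2, 3, -3
  have h1 := h 1
  have h2 := h (-1)
  have h3 := h 2
  have h4 := h (-2)
  have h5 := h 3
  have h6 := h (-3)
  unfold fh at h1 h2 h3 h4 h5 h6
  rw [e0] at h1 h2 h3 h4 h5 h6
  have o1 : a 1 + a 3 + a 5 = -1 := by linear_combination (1 / 2) * h1 - (1 / 2) * h2
  have o2 : 2 * a 1 + 8 * a 3 + 32 * a 5 = -2 := by
    linear_combination (1 / 2) * h3 - (1 / 2) * h4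
  have o3 : 3 * a 1 + 27 * a 3 + 243 * a 5 = -3 := by
    linear_combination (1 / 2) * h5 - (1 / 2) * h6
  have p1 : a 2 + a 4 + a 6 = 1 := by linear_combination (1 / 2) * h1 + (1 / 2) * h2
  have p2 : 4 * a 2 + 16 * a 4 + 64 * a 6 = 64 := by
    linear_combination (1 / 2) * h3 + (1 / 2) * h4
  have p3 : 9 * a 2 + 81 * a 4 + 729 * a 6 = 729 := by
    linear_combination (1 / 2) * h5 + (1 / 2) * h6
  have e5 : a 5 = 0 := by linear_combination (1 / 120) * o3 - (1 / 30) * o2 + (1 / 24) * o1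
  have e3 : a 3 = 0 := by linear_combination (1 / 6) * o2 - (1 / 3) * o1 - 5 * e5
  have e1 : a 1 = -1 := by linear_combination o1 - e3 - e5
  have e6 : a 6 = 1 := by linear_combination (1 / 360) * p3 - (1 / 60) * p2 + (1 / 24) * p1
  have e4 : a 4 = 0 := by linear_combination (1 / 12) * p2 - (1 / 3) * p1 - 5 * e6
  have e2 : a 2 = 0 := by linear_combination p1 - e4 - e6
  unfold Fh
  rw [e0, e1, e2, e3, e4, e5, e6]
  ring

theorem Fh_Pz (s r s' r' : ℂ) :
    Fh (cf Pz) s r s' r' = 2 * (r * r') ^ 3 - (s * s') ^ 2 * (r * s' + s * r') :=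
  Fh_coef _ (fun t => by rw [Kum_977.fh_cf_one, Cur_297.Pz_p0]) s r s' r'

/-- the two definitions of the third frame coordinate -/
theorem eta_eq {P : Par} {i : Fin 2} {c : Cv P} (h : tt c ≠ pole i) :
    PosP3_848.eta i c = Kum_977.eta i c := by
  fin_cases i
  · exact PosP3_848.eta_zero h
  · exact PosP3_848.eta_one c

variable {Y N : Type} [TopologicalSpace Y]

/-! ### polynomials -/

theorem holN_XX {CY : Fam 3 Y} {y : Y} {x0 E p : Y → ℂ} (h0 : HolN CY y x0) (hE : HolN CY y E)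
    (hp : HolN CY y p) (j : Fin 3) : HolN CY y fun v => XX (x0 v) (E v) (p v) j := by
  fin_cases j
  · exact h0.pow 2
  · exact h0.mul hE
  · exact hp

theorem holN_Phi {CY : Fam 3 Y} {y : Y} {x0 E p S : Y → ℂ} (h0 : HolN CY y x0)
    (hE : HolN CY y E) (hp : HolN CY y p) (hS : HolN CY y S) (b : ℕ) (i : IPhi) :
    HolN CY y fun v => Phi b (x0 v) (E v) (p v) (S v) i := by
  have hD : HolN CY y fun v => E v ^ 2 - 4 * p v := (hE.pow 2).sub ((holN_const 4).mul hp)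
  have hX := holN_XX h0 hE hp
  cases i with
  | l j => exact ((hD.pow 4).mul (h0.pow _)).mul (hX j)
  | W => exact ((hD.pow 3).mul hS).mul (h0.pow _)
  | W2 => exact ((hD.pow 2).mul (hS.pow 2)).mul (h0.pow _)
  | W3 j => exact ((hD.mul (hS.pow 3)).mul (h0.pow _)).mul (hX j)
  | W4 j k => exact (((hS.pow 4).mul (h0.pow _)).mul (hX j)).mul (hX k)
  | v => exact (hD.pow 4).mul (hp.pow _)
  | last => exact (hS.pow 4).mul (hp.pow _)

/-! ### `m`-charts: functions -/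

section mchart

variable {CY : Fam 3 Y} {E : OpenPartialHomeomorph (ℂ × ℂ × ℂ) Y}

theorem holN_M (hE : MCpt CY E) {q : ℂ × ℂ × ℂ} (hq : q ∈ E.source) {f : ℂ × ℂ × ℂ → ℂ}
    (hf : AnalyticAt ℂ (fun w : Cn 3 => f (w 0, w 1, w 2)) (mc q)) :
    HolN CY (E q) fun y => f (E.symm y) := by
  have hmem : E q ∈ (E.symm.transHomeomorph mc.toHomeomorph).source := E.map_source hq
  rw [LcR_783.holN_iff_cpt hE hmem]
  have hval : (E.symm.transHomeomorph mc.toHomeomorph) (E q) = mc q := by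
    show mc (E.symm (E q)) = mc q
    rw [E.left_inv hq]
  rw [hval]
  refine hf.congr ?_
  have hcont : ContinuousAt (fun w : Cn 3 => mc.symm w) (mc q) := mc.symm.continuous.continuousAt
  have h0 : mc.symm (mc q) = q := mc.symm_apply_apply q
  have hev : ∀ᶠ w in 𝓝 (mc q), mc.symm w ∈ E.source := by
    refine hcont.preimage_mem_nhds (E.open_source.mem_nhds ?_)
    show mc.symm (mc q) ∈ E.source
    rw [h0]; exact hq
  filter_upwards [hev] with w hw
  show f (w 0, w 1, w 2) = f (E.symm (E (mc.symm w)))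
  rw [E.left_inv hw]
  rfl

theorem an0 (w : Cn 3) (i : Fin 3) : AnalyticAt ℂ (fun w : Cn 3 => w i) w :=
  Kum_977.analyticAt_coord i w

theorem holN_m0 (hE : MCpt CY E) {q : ℂ × ℂ × ℂ} (hq : q ∈ E.source) :
    HolN CY (E q) fun y => (E.symm y).1 := holN_M hE hq (f := fun q => q.1) (an0 _ 0)

theorem holN_m1 (hE : MCpt CY E) {q : ℂ × ℂ × ℂ} (hq : q ∈ E.source) :
    HolN CY (E q) fun y => (E.symm y).2.1 := holN_M hE hq (f := fun q => q.2.1) (an0 _ 1)

theorem holN_m2 (hE : MCpt CY E) {q : ℂ × ℂ × ℂ} (hq : q ∈ E.source) :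
    HolN CY (E q) fun y => (E.symm y).2.2 := holN_M hE hq (f := fun q => q.2.2) (an0 _ 2)

/-- a function of `m s'` resp. `m s` -/
theorem holN_ms' (hE : MCpt CY E) {q : ℂ × ℂ × ℂ} (hq : q ∈ E.source) {g : ℂ → ℂ}
    (hg : AnalyticAt ℂ g (q.1 * q.2.2)) :
    HolN CY (E q) fun y => g ((E.symm y).1 * (E.symm y).2.2) := by
  refine holN_M hE hq (f := fun q => g (q.1 * q.2.2)) ?_
  exact AnalyticAt.fun_comp (g := g) (f := fun w : Cn 3 => w 0 * w 2) hg
    ((an0 _ 0).mul (an0 _ 2))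

theorem holN_ms (hE : MCpt CY E) {q : ℂ × ℂ × ℂ} (hq : q ∈ E.source) {g : ℂ → ℂ}
    (hg : AnalyticAt ℂ g (q.1 * q.2.1)) :
    HolN CY (E q) fun y => g ((E.symm y).1 * (E.symm y).2.1) := by
  refine holN_M hE hq (f := fun q => g (q.1 * q.2.1)) ?_
  exact AnalyticAt.fun_comp (g := g) (f := fun w : Cn 3 => w 0 * w 1) hg
    ((an0 _ 0).mul (an0 _ 1))

theorem nz_M {q : ℂ × ℂ × ℂ} (hq : q ∈ E.source) {f : ℂ × ℂ × ℂ → ℂ}
    (hf : ∃ᶠ p in 𝓝 q, f p ≠ 0) : NZ (E q) fun y => f (E.symm y) := by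
  intro h
  have h1 : ∀ᶠ p in 𝓝 q, f (E.symm (E p)) = 0 := (E.continuousAt hq).eventually h
  have h2 : ∀ᶠ p in 𝓝 q, f p = 0 := by
    filter_upwards [h1, E.open_source.mem_nhds hq] with p h3 h4
    rwa [E.left_inv h4] at h3
  exact hf (h2.mono fun p hp hp2 => hp2 hp)

theorem freq_1 (q : ℂ × ℂ × ℂ) : ∃ᶠ p in 𝓝 q, p.2.1 ≠ (0 : ℂ) := by
  have h2 : Tendsto (fun z : ℂ => (q.1, z, q.2.2)) (𝓝 q.2.1) (𝓝 q) :=
    (continuous_const.prodMk (continuous_id.prodMk continuous_const)).tendsto' _ _ rfl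
  exact h2.frequently (Kum_977.freq_ne q.2.1)

theorem freq_2 (q : ℂ × ℂ × ℂ) : ∃ᶠ p in 𝓝 q, p.2.2 ≠ (0 : ℂ) := by
  have h2 : Tendsto (fun z : ℂ => (q.1, q.2.1, z)) (𝓝 q.2.2) (𝓝 q) :=
    (continuous_const.prodMk (continuous_const.prodMk continuous_id)).tendsto' _ _ rfl
  exact h2.frequently (Kum_977.freq_ne q.2.2)

theorem freq_12 (q : ℂ × ℂ × ℂ) : ∃ᶠ p in 𝓝 q, p.2.1 - p.2.2 ≠ (0 : ℂ) := by
  have h2 : Tendsto (fun z : ℂ => (q.1, q.2.2 + z, q.2.2)) (𝓝 (q.2.1 - q.2.2)) (𝓝 q) :=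
    (continuous_const.prodMk ((continuous_const.add continuous_id).prodMk
      continuous_const)).tendsto' _ _ (by simp)
  refine h2.frequently ((Kum_977.freq_ne (q.2.1 - q.2.2)).mono fun z hz => ?_)
  simpa using hz

end mchart

namespace YC

variable {P : Par} {CY : Fam 3 Y} {Pm : Y → N} {z₀ : N} {O : Set Y} (T : YC P CY Pm z₀ O)

/-! ### `E`-charts -/

section echart

variable {i j : Fin 2} {p : (Cv P × Cv P) × ℂ} (hp : p ∈ (T.E i j).source)

include hp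

theorem stE : (T.st (T.E i j p)).1.1 = p.2 * (dl i (tt p.1.1) * dl j (tt p.1.2)) ∧
    (T.st (T.E i j p)).1.2.1 = p.2 * (nu i (tt p.1.1) * dl j (tt p.1.2)) ∧
    (T.st (T.E i j p)).1.2.2 = p.2 * (dl i (tt p.1.1) * nu j (tt p.1.2)) ∧
    (T.st (T.E i j p)).2.1 = p.1.1 ∧ (T.st (T.E i j p)).2.2.1 = p.1.2 := by
  rw [T.sE i j p hp]
  refine ⟨?_, ?_, ?_, rfl, rfl⟩
  · show p.2 * dl i (tt p.1.1) * dl j (tt p.1.2) = _
    ring
  · show p.2 * nu i (tt p.1.1) * dl j (tt p.1.2) = _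
    ring
  · show p.2 * dl i (tt p.1.1) * nu j (tt p.1.2) = _
    ring

/-- **977's chart data** -/
theorem ec : EC CY (T.E i j) i j p T.x0 T.ee T.pp T.ss := by
  obtain ⟨h1, h2⟩ := T.hE i j p hp
  have hs : ∀ᶠ q in 𝓝 p, q ∈ (T.E i j).source := (T.E i j).open_source.mem_nhds hp
  refine ech_E (T.cE i j) hp h1 h2 (x1 := T.x1) (x2 := T.x2)
    (Y1 := fun y => YY (T.x0 y) (T.x1 y) (T.st y).2.1)
    (Y2 := fun y => YY (T.x0 y) (T.x2 y) (T.st y).2.2.1)
    (hs.mono fun q hq => (T.stE hq).1) (hs.mono fun q hq => (T.stE hq).2.1)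
    (hs.mono fun q hq => (T.stE hq).2.2.1) (hs.mono fun q hq => ?_) (hs.mono fun q hq => ?_)
    (Eventually.of_forall fun _ => rfl) (Eventually.of_forall fun _ => rfl)
    (Eventually.of_forall fun y => ?_)
  · obtain ⟨e0, e1, e2, e3, e4⟩ := T.stE hq
    show YY (T.st (T.E i j q)).1.1 (T.st (T.E i j q)).1.2.1 (T.st (T.E i j q)).2.1 = _
    rw [e0, e1, e3, ← eta_eq (T.hE i j q hq).1]
    have := YY_smul (q.2 * dl j (tt q.1.2)) (dl i (tt q.1.1)) (nu i (tt q.1.1)) q.1.1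
    unfold PosP3_848.eta
    rw [show fs i q.1.1 = dl i (tt q.1.1) from rfl, show fr i q.1.1 = nu i (tt q.1.1) from rfl,
      ← this]
    congr 1 <;> ring
  · obtain ⟨e0, e1, e2, e3, e4⟩ := T.stE hq
    show YY (T.st (T.E i j q)).1.1 (T.st (T.E i j q)).1.2.2 (T.st (T.E i j q)).2.2.1 = _
    rw [e0, e2, e4, ← eta_eq (T.hE i j q hq).2]
    have := YY_smul (q.2 * dl i (tt q.1.1)) (dl j (tt q.1.2)) (nu j (tt q.1.2)) q.1.2
    unfold PosP3_848.eta
    rw [show fs j q.1.2 = dl j (tt q.1.2) from rfl, show fr j q.1.2 = nu j (tt q.1.2) from rfl,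
      ← this]
    congr 1 <;> ring
  · show Sf (T.st y) = _
    unfold Sf
    rw [lP_cf]
    rfl

theorem holE : HolN CY (T.E i j p) T.x0 ∧ HolN CY (T.E i j p) T.ee ∧ HolN CY (T.E i j p) T.pp ∧
    HolN CY (T.E i j p) T.ss := by
  have h := T.ec hp
  have hF := ECh.F h
  have hF' := ECh.F' h
  have hx := ECh.hξ h
  refine ⟨?_, ?_, ?_, ?_⟩
  · exact holN_congr (hx.mul (hF.hs.mul hF'.hs)) (ECh.e0 h)
  · exact holN_congr (hx.mul ((hF.hr.mul hF'.hs).add (hF.hs.mul hF'.hr))) (ECh.e1 h)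
  · exact holN_congr ((hx.pow 2).mul ((hF.hs.mul hF'.hs).mul (hF.hr.mul hF'.hr))) (ECh.e2 h)
  · exact holN_congr (((hx.pow 6).mul ((hF.hs.mul hF'.hs).pow 3)).mul (hF.holN_rho hF'))
      (ECh.eN h)

end echart

/-! ### `m`-charts -/

section mch

variable {b b' : Bool} {q : ℂ × ℂ × ℂ} (hq : q ∈ (T.M b b').source)

/-- the third frame coordinate of the first point in the `m`-chart -/
def e1 (b b' : Bool) (y : Y) : ℂ :=
  vv ((ib P b).e.symm (((T.M b b').symm y).1 * ((T.M b b').symm y).2.2))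
def e2 (b b' : Bool) (y : Y) : ℂ :=
  vv ((ib P b').e.symm (((T.M b b').symm y).1 * ((T.M b b').symm y).2.1))

/-- `vv` in the chart at infinity -/
theorem an_vv (b : Bool) {s : ℂ} (hs : ‖s‖ < (ib P b).r) :
    AnalyticAt ℂ (fun z => vv ((ib P b).e.symm z)) s := by
  have h1 : s ∈ (Cur_297.k (pinf P b)).target := by
    have := (ib P b).tgt
    rw [show (ib P b).e = Cur_297.k (pinf P b) from rfl] at this
    rw [this]
    simpa using hs
  have h2 : tt ((Cur_297.k (pinf P b)).symm s) ≠ ((0 : ℂ) : Cur_297.P1) :=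
    (ib P b).ne _ ((ib P b).mem hs)
  exact (Cur_297.R1 (pinf P b) h1 h2).g_an

theorem vv_sq' (b : Bool) {s : ℂ} (hs : ‖s‖ < (ib P b).r) :
    vv ((ib P b).e.symm s) ^ 2 = fh (cf P) s 1 := by
  have h1 := (ib P b).ne _ ((ib P b).mem hs)
  have h2 : sv ((ib P b).e.symm s) = s := by
    rw [← PosP3_848.fs_one]; exact (ib P b).iv_symm hs
  have h3 := Cur_297.vv_sq h1
  rw [h3, h2, ← Kum_977.fh_cf_inf]

include hq

theorem holN_e1 : HolN CY (T.M b b' q) (T.e1 b b') :=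
  holN_ms' (T.cM b b') hq (g := fun z => vv ((ib P b).e.symm z)) (an_vv b (T.hM b b' q hq).1)

theorem holN_e2 : HolN CY (T.M b b' q) (T.e2 b b') :=
  holN_ms (T.cM b b') hq (g := fun z => vv ((ib P b').e.symm z)) (an_vv b' (T.hM b b' q hq).2)

theorem ev_M {Q : Y → (ℂ × ℂ × ℂ) → Prop}
    (h : ∀ p ∈ (T.M b b').source, Q (T.M b b' p) p) :
    ∀ᶠ y in 𝓝 (T.M b b' q), Q y ((T.M b b').symm y) := by
  filter_upwards [(T.M b b').open_target.mem_nhds ((T.M b b').map_source hq)] with y hy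
  have := h _ ((T.M b b').map_target hy)
  rwa [(T.M b b').right_inv hy] at this

theorem stM : T.x0 (T.M b b' q) = q.1 * (q.2.1 * q.2.2) ∧ T.x1 (T.M b b' q) = q.2.1 ∧
    T.x2 (T.M b b' q) = q.2.2 ∧
    T.ss (T.M b b' q) = (q.2.1 * q.2.2) ^ 3 * rho (cf P) (q.1 * q.2.2) 1
      (vv ((ib P b).e.symm (q.1 * q.2.2))) (q.1 * q.2.1) 1 (vv ((ib P b').e.symm (q.1 * q.2.1)))
      := by
  have hD := T.hM b b' q hq
  unfold x0 x1 x2 ss
  rw [T.sM b b' q hq]
  refine ⟨?_, rfl, rfl, ?_⟩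
  · show q.1 * q.2.1 * q.2.2 = _
    ring
  · have := Sf_fm (P := P) (ib P b) (ib P b') q.1 q.2.1 q.2.2
    rw [show ((q.1, q.2.1, q.2.2) : ℂ × ℂ × ℂ) = q from rfl] at this
    rw [this]
    unfold rm
    rw [lP_cf, YY_chart (ib P b) hD.1, YY_chart (ib P b') hD.2]

theorem holN_x1 : HolN CY (T.M b b' q) T.x1 :=
  holN_congr (holN_m1 (T.cM b b') hq)
    (T.ev_M hq (Q := fun y p => T.x1 y = p.2.1) fun p hp => (T.stM hp).2.1)

theorem holN_x2 : HolN CY (T.M b b' q) T.x2 :=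
  holN_congr (holN_m2 (T.cM b b') hq)
    (T.ev_M hq (Q := fun y p => T.x2 y = p.2.2) fun p hp => (T.stM hp).2.2.1)

theorem fr1 : Kum_977.Fr CY (cf P) (T.M b b' q)
    (fun y => ((T.M b b').symm y).1 * ((T.M b b').symm y).2.2) (fun _ => 1) (T.e1 b b') where
  hs := (holN_m0 (T.cM b b') hq).mul (holN_m2 (T.cM b b') hq)
  hr := holN_const 1
  he := T.holN_e1 hq
  eq := T.ev_M hq (Q := fun y p => vv ((ib P b).e.symm (((T.M b b').symm y).1 *
    ((T.M b b').symm y).2.2)) ^ 2 = fh (cf P) (((T.M b b').symm y).1 *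
    ((T.M b b').symm y).2.2) 1) fun p hp => by
      rw [(T.M b b').left_inv hp]
      exact vv_sq' b (T.hM b b' p hp).1
  ne := Or.inr one_ne_zero

theorem fr2 : Kum_977.Fr CY (cf P) (T.M b b' q)
    (fun y => ((T.M b b').symm y).1 * ((T.M b b').symm y).2.1) (fun _ => 1) (T.e2 b b') where
  hs := (holN_m0 (T.cM b b') hq).mul (holN_m1 (T.cM b b') hq)
  hr := holN_const 1
  he := T.holN_e2 hq
  eq := T.ev_M hq (Q := fun y p => vv ((ib P b').e.symm (((T.M b b').symm y).1 *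
    ((T.M b b').symm y).2.1)) ^ 2 = fh (cf P) (((T.M b b').symm y).1 *
    ((T.M b b').symm y).2.1) 1) fun p hp => by
      rw [(T.M b b').left_inv hp]
      exact vv_sq' b' (T.hM b b' p hp).2
  ne := Or.inr one_ne_zero

theorem holM : HolN CY (T.M b b' q) T.x0 ∧ HolN CY (T.M b b' q) T.ee ∧
    HolN CY (T.M b b' q) T.pp ∧ HolN CY (T.M b b' q) T.ss := by
  have h0 := holN_m0 (T.cM b b') hq
  have h1 := holN_m1 (T.cM b b') hq
  have h2 := holN_m2 (T.cM b b') hq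
  refine ⟨?_, (T.holN_x1 hq).add (T.holN_x2 hq), (T.holN_x1 hq).mul (T.holN_x2 hq), ?_⟩
  · exact holN_congr (h0.mul (h1.mul h2))
      (T.ev_M hq (Q := fun y p => T.x0 y = p.1 * (p.2.1 * p.2.2)) fun p hp => (T.stM hp).1)
  · refine holN_congr (((h1.mul h2).pow 3).mul ((T.fr1 hq).holN_rho (T.fr2 hq))) ?_
    refine T.ev_M hq (Q := fun y p => T.ss y = (p.2.1 * p.2.2) ^ 3 * rho (cf P) (p.1 * p.2.2) 1
      (vv ((ib P b).e.symm (p.1 * p.2.2))) (p.1 * p.2.1) 1
      (vv ((ib P b').e.symm (p.1 * p.2.1)))) fun p hp => (T.stM hp).2.2.2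

end mch

/-! ### holomorphy on `O` -/

theorem cov {y : Y} (hy : y ∈ O) : (∃ i j p, p ∈ (T.E i j).source ∧ T.E i j p = y) ∨
    ∃ b b' q, q ∈ (T.M b b').source ∧ T.M b b' q = y := by
  by_cases h : Pm y = z₀
  · rcases (T.fib y h).2 with ⟨i, j, x, h1, h2⟩ | ⟨b, b', m, h1, h2⟩
    · exact Or.inl ⟨i, j, _, h1, h2⟩
    · exact Or.inr ⟨b, b', _, h1, h2⟩
  · rcases T.off y hy h with ⟨i, j, p, h1, h2, -⟩ | ⟨b, b', q, h1, h2, -⟩
    · exact Or.inl ⟨i, j, p, h1, h2⟩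
    · exact Or.inr ⟨b, b', q, h1, h2⟩

/-- **all functions of the list are holomorphic on `O`** -/
theorem hol {y : Y} (hy : y ∈ O) (b : ℕ) (i : IPhi) : HolN CY y (T.ff b i) := by
  rcases T.cov hy with ⟨i', j, p, h1, rfl⟩ | ⟨b', b'', q, h1, rfl⟩
  · obtain ⟨a1, a2, a3, a4⟩ := T.holE h1
    exact holN_Phi a1 a2 a3 a4 b i
  · obtain ⟨a1, a2, a3, a4⟩ := T.holM h1
    exact holN_Phi a1 a2 a3 a4 b i

end YC

end

end Crest.Agent.R272.PosP7_848
end

-- ▼ part R272/PosP9_848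
section

/-!
# R272 (S0415), POS at `p0` (helper848), part 9: values and finite fibres on the bad fibre

* `YC.lineAt`   : 898's `LineAt` at the points of the lines;
* `YC.val`      : `ValC` at every point of the bad fibre off `Γ`;
* `YC.fin`      : the finite fibre condition.
-/

set_option autoImplicit false
set_option linter.unusedSectionVars false
set_option linter.unusedVariables false

open Set Filter Topology Complex OnePoint

namespace Crest.Agent.R272.PosP7_848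

open Crest.Agent.R275.Geo Crest.Agent.R273.Fam_835
open Crest.Agent.R272.Cur_297 (Par Cv cur tt kk fin tv yv sv vv Pz iv)
open Crest.Agent.R272.Tp2_60 (Amb Std)
open Crest.Agent.R272.Tq1_916 (pole dl nu fij fm Inf Dm swA)
open Crest.Agent.R272.Tq3_916 (FEij)
open Crest.Agent.R272.Tq4_916 (ib pinf)
open Crest.Agent.R272.PosP3_848
open Crest.Agent.R272.Kum_977 (cf ECpt EC ECh fh Fh rho Kv GK SK q3 kum_val0 SK_q3 q3_fin)
open Crest.Agent.R272.PW_92 (IPhi Phi XX)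
open Crest.Agent.R272.PosL_898 (LineAt R1 R2 R1_fin R2_fin)
open Crest.Agent.R272.Lc_220
open Crest.Agent.R272.FinCB3_876 (GenAt ValC ff_of_pieces ff_of_param)
open Crest.Agent.R272.AJ_956 (Cur)

noncomputable section

variable {Y N : Type} [TopologicalSpace Y]

theorem symm_ib (P : Par) (b : Bool) : (ib P b).e.symm 0 = pinf P b := Cur_297.symm_zero _

theorem vv_pinf_sq (b : Bool) : vv (pinf Pz b) ^ 2 = 1 := by
  have h := YC.vv_sq' (P := Pz) b (s := 0) (by simpa using (ib Pz b).r_pos)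
  rw [symm_ib, Kum_977.fh_cf_inf, Cur_297.Pz_p1] at h
  rw [h]
  norm_num

theorem vv_pinf {b b' : Bool} (h : b ≠ b') : vv (pinf Pz b) = - vv (pinf Pz b') := by
  have h1 := vv_pinf_sq b
  have h2 := vv_pinf_sq b'
  have h3 : (vv (pinf Pz b) - vv (pinf Pz b')) * (vv (pinf Pz b) + vv (pinf Pz b')) = 0 := by
    linear_combination h1 - h2
  rcases mul_eq_zero.1 h3 with h4 | h4
  · exfalso
    have h5 : pinf Pz b = pinf Pz b' := by
      refine Cur_297.ext1 ?_ rfl (sub_eq_zero.1 h4)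
      rw [Tq4_916.tt_pinf]
      exact OnePoint.infty_ne_coe _
    have h6 := Tq4_916.pinf_ne (P := Pz)
    cases b <;> cases b'
    · exact h rfl
    · exact h6 h5.symm
    · exact h6 h5
    · exact h rfl
  · linear_combination h4

namespace YC

variable {CY : Fam 3 Y} {Pm : Y → N} {z₀ : N} {O : Set Y}

section line

variable (T : YC Pz CY Pm z₀ O) {b b' : Bool} {q : ℂ × ℂ × ℂ} (hq : q ∈ (T.M b b').source)

include hq

theorem nz_x1 : NZ (T.M b b' q) T.x1 :=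
  (nz_M hq (f := fun q => q.2.1) (freq_1 q)).congr
    (T.ev_M hq (Q := fun y p => T.x1 y = p.2.1) fun p hp => (T.stM hp).2.1)

theorem nz_x2 : NZ (T.M b b' q) T.x2 :=
  (nz_M hq (f := fun q => q.2.2) (freq_2 q)).congr
    (T.ev_M hq (Q := fun y p => T.x2 y = p.2.2) fun p hp => (T.stM hp).2.2.1)

theorem nz_x12 : NZ (T.M b b' q) fun w => T.x1 w - T.x2 w :=
  (nz_M hq (f := fun q => q.2.1 - q.2.2) (freq_12 q)).congr
    (T.ev_M hq (Q := fun y p => T.x1 y - T.x2 y = p.2.1 - p.2.2) fun p hp => by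
      rw [(T.stM hp).2.1, (T.stM hp).2.2.1])

/-- 898's data at a point of a line -/
theorem lineAt (h1 : q.2.1 = 0) (h2 : q.2.2 = 0) :
    LineAt CY (T.M b b' q) T.x0 T.ee T.pp T.ss (fun y => ((T.M b b').symm y).1) T.x1 T.x2
      (T.e1 b b') (T.e2 b b') where
  hm := holN_m0 (T.cM b b') hq
  h1 := T.holN_x1 hq
  h2 := T.holN_x2 hq
  z1 := by rw [(T.stM hq).2.1, h1]
  z2 := by rw [(T.stM hq).2.2.1, h2]
  n1 := T.nz_x1 hq
  n2 := T.nz_x2 hq
  nd := T.nz_x12 hq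
  e0 := T.ev_M hq (Q := fun y p => T.x0 y = p.1 * (T.x1 y * T.x2 y)) fun p hp => by
    rw [(T.stM hp).1, (T.stM hp).2.1, (T.stM hp).2.2.1]
  eE := Eventually.of_forall fun _ => rfl
  ep := Eventually.of_forall fun _ => rfl
  eS := T.ev_M hq (Q := fun y p => T.ss y = 2 * T.pp y ^ 3 - T.x0 y ^ 5 * T.ee y -
      2 * ((T.x1 y ^ 3 * T.e1 b b' y) * (T.x2 y ^ 3 * T.e2 b b' y))) fun p hp => by
    obtain ⟨a0, a1, a2, a3⟩ := T.stM hp
    rw [a3]
    unfold ee pp e1 e2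
    rw [(T.M b b').left_inv hp, a0, a1, a2]
    unfold rho
    rw [Fh_Pz]
    ring
  c1 := (T.holN_e1 hq).continuousAt
  c2 := (T.holN_e2 hq).continuousAt
  q1 := T.ev_M hq (Q := fun y p => vv ((ib Pz b).e.symm (((T.M b b').symm y).1 *
      ((T.M b b').symm y).2.2)) ^ 2 = 1 - (((T.M b b').symm y).1 * T.x2 y) ^ 5) fun p hp => by
    rw [(T.M b b').left_inv hp, (T.stM hp).2.2.1, vv_sq' b (T.hM b b' p hp).1,
      Kum_977.fh_cf_inf, Cur_297.Pz_p1]
  q2 := T.ev_M hq (Q := fun y p => vv ((ib Pz b').e.symm (((T.M b b').symm y).1 *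
      ((T.M b b').symm y).2.1)) ^ 2 = 1 - (((T.M b b').symm y).1 * T.x1 y) ^ 5) fun p hp => by
    rw [(T.M b b').left_inv hp, (T.stM hp).2.1, vv_sq' b' (T.hM b b' p hp).2,
      Kum_977.fh_cf_inf, Cur_297.Pz_p1]

end line

/-- the value vector on a line -/
def RM (n : ℕ) (b b' : Bool) (m : ℂ) : IPhi → ℂ := if b = b' then R1 n m else R2 n m

theorem RM_fin {n : ℕ} (hn : 15 ≤ n) (b b' : Bool) (t : ℂ) :
    {s : ℂ | ∀ i j, RM n b b' t i * RM n b b' s j = RM n b b' t j * RM n b b' s i}.Finite := by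
  unfold RM
  by_cases h : b = b'
  · simp only [h, if_true]
    exact R1_fin hn t
  · simp only [h, if_false]
    exact R2_fin hn t

variable (T : YC Pz CY Pm z₀ O) {n : ℕ} (hn : 15 ≤ n)

include hn

/-- values on the lines -/
theorem valM {b b' : Bool} {m : ℂ} (hq : (m, (0 : ℂ), (0 : ℂ)) ∈ (T.M b b').source) :
    ValC CY (T.ff n) (T.M b b' (m, 0, 0)) (RM n b b' m) := by
  have L := T.lineAt hq rfl rfl
  have hm : ((T.M b b').symm (T.M b b' (m, 0, 0))).1 = m := by rw [(T.M b b').left_inv hq]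
  have e1 : T.e1 b b' (T.M b b' (m, 0, 0)) = vv (pinf Pz b) := by
    unfold e1
    rw [(T.M b b').left_inv hq]
    show vv ((ib Pz b).e.symm (m * 0)) = _
    rw [mul_zero, symm_ib]
  have e2 : T.e2 b b' (T.M b b' (m, 0, 0)) = vv (pinf Pz b') := by
    unfold e2
    rw [(T.M b b').left_inv hq]
    show vv ((ib Pz b').e.symm (m * 0)) = _
    rw [mul_zero, symm_ib]
  unfold RM
  by_cases h : b = b'
  · rw [if_pos h]
    have h1 := (LineAt.line_eq L hn (by rw [e1, e2, h])).2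
    simp only [hm] at h1
    exact h1
  · rw [if_neg h]
    have h1 := (LineAt.line_opp L hn (by rw [e1, e2]; exact vv_pinf h)).2
    simp only [hm] at h1
    exact h1

/-- values on the zero section, off `Γ` -/
theorem valE {i j : Fin 2} {x : Cv Pz × Cv Pz} (hp : (x, (0 : ℂ)) ∈ (T.E i j).source)
    (hx : x.2 ≠ iv x.1) : ValC CY (T.ff n) (T.E i j (x, 0)) (Kv (GK i j x) (SK i j x)) :=
  kum_val0 hn hp (T.hE i j _ hp).1 (T.hE i j _ hp).2 hx (T.ec hp)

variable {B : Set Y} (hB : ∀ y ∈ B, Pm y = z₀)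
  (hK : ∀ i j x, (x, (0 : ℂ)) ∈ (T.E i j).source → T.E i j (x, 0) ∈ B → x.2 ≠ iv x.1)

include hB hK

/-- **values on the bad fibre** -/
theorem val {y : Y} (hy : y ∈ B) : ∃ c, ValC CY (T.ff n) y c := by
  rcases (T.fib y (hB y hy)).2 with ⟨i, j, x, h1, rfl⟩ | ⟨b, b', m, h1, rfl⟩
  · exact ⟨_, T.valE hn h1 (hK i j x h1 hy)⟩
  · exact ⟨_, T.valM hn h1⟩

/-- **finite fibres on the bad fibre** -/
theorem fin : PosP4_848.FF CY (T.ff n) B := by
  intro q hq
  refine ff_of_pieces (K := B) (ι := (Fin 2 × Fin 2) ⊕ (Bool × Bool))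
    (Sum.elim (fun c => {y | ∃ x, (x, (0 : ℂ)) ∈ (T.E c.1 c.2).source ∧ T.E c.1 c.2 (x, 0) = y})
      (fun c => {y | ∃ m, (m, (0 : ℂ), (0 : ℂ)) ∈ (T.M c.1 c.2).source ∧
        T.M c.1 c.2 (m, 0, 0) = y})) (fun y hy => ?_) (fun c => ?_) q hq
  · rcases (T.fib y (hB y hy)).2 with ⟨i, j, x, h1, h2⟩ | ⟨b, b', m, h1, h2⟩
    · exact mem_iUnion.2 ⟨Sum.inl (i, j), x, h1, h2⟩
    · exact mem_iUnion.2 ⟨Sum.inr (b, b'), m, h1, h2⟩
  · rcases c with ⟨i, j⟩ | ⟨b, b'⟩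
    · refine ff_of_param (T := {x : Cv Pz × Cv Pz // (x, (0 : ℂ)) ∈ (T.E i j).source})
        (fun x => T.E i j (x.1, 0)) (fun y hy => ?_)
        (fun x => Kv (GK i j x.1) (SK i j x.1)) (fun x hx => ?_) (fun x hx => ?_)
      · obtain ⟨x, h1, h2⟩ := hy.2
        exact ⟨⟨x, h1⟩, h2⟩
      · exact T.valE hn x.2 (hK i j x.1 x.2 hx.1)
      · refine ((q3_fin x.1).preimage Subtype.val_injective.injOn).subset ?_
        rintro s ⟨hs, hss⟩
        obtain ⟨g, hg, e⟩ := SK_q3 (T.hE i j _ s.2).1 (T.hE i j _ s.2).2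
        obtain ⟨g', hg', e'⟩ := SK_q3 (T.hE i j _ x.2).1 (T.hE i j _ x.2).2
        intro k l
        have h1 := hss (.l k) (.l l)
        change SK i j x.1 k * SK i j s.1 l = SK i j x.1 l * SK i j s.1 k at h1
        rw [e, e, e', e'] at h1
        have h2 : (g * g') * (q3 s.1 k * q3 x.1 l) = (g * g') * (q3 s.1 l * q3 x.1 k) := by
          linear_combination -h1
        exact mul_left_cancel₀ (mul_ne_zero hg hg') h2
    · refine ff_of_param (T := {m : ℂ // (m, (0 : ℂ), (0 : ℂ)) ∈ (T.M b b').source})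
        (fun m => T.M b b' (m.1, 0, 0)) (fun y hy => ?_)
        (fun m => RM n b b' m.1) (fun m hm => ?_) (fun m hm => ?_)
      · obtain ⟨m, h1, h2⟩ := hy.2
        exact ⟨⟨m, h1⟩, h2⟩
      · exact T.valM hn m.2
      · refine ((RM_fin hn b b' m.1).preimage Subtype.val_injective.injOn).subset ?_
        rintro s ⟨-, hss⟩
        exact hss

end YC

end

end Crest.Agent.R272.PosP7_848
end

-- ▼ part R272/PosP10_848

/-!
# R272 (S0415), POS at `p0` (helper848), part 10: the forms consumed by `PEndZ_220.germ15`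

* `YC.hol'`, `YC.val'`, `YC.fin'` : the bad fibre off the section over `Γ`;
* `upDat`                         : 92's functions on `Up` as `PosP5_848.UpDat`.
-/

set_option autoImplicit false
set_option linter.unusedSectionVars false
set_option linter.unusedVariables false

open Set Filter Topology Complex OnePoint

namespace Crest.Agent.R272.PosP7_848

open Crest.Agent.R275.Geo Crest.Agent.R273.Fam_835
open Crest.Agent.R272.Cur_297 (Par Cv cur tt Pz iv)
open Crest.Agent.R272.Tq3_916 (FEij zst zst_eq)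
open Crest.Agent.R272.PW_92 (IPhi KF)
open Crest.Agent.R272.Lc_220
open Crest.Agent.R272.Flop_66 (Up)
open Crest.Agent.R272.PosP5_848 (UpDat)
open Crest.Agent.R272.FinCB3_876 (GenAt ValC)

noncomputable section

variable {Y N : Type} [TopologicalSpace Y]

namespace YC

variable {CY : Fam 3 Y} {Pm : Y → N} {z₀ : N} {O : Set Y} (T : YC Pz CY Pm z₀ O)

/-- the bad fibre off the section over `Γ` -/
def Bd : Set Y := {y | Pm y = z₀ ∧ ∀ c, T.st y ≠ zst (c, (cur Pz).iv c)}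

theorem Bd_K (i j : Fin 2) (x : Cv Pz × Cv Pz) (hp : (x, (0 : ℂ)) ∈ (T.E i j).source)
    (h : T.E i j (x, 0) ∈ T.Bd) : x.2 ≠ iv x.1 := by
  intro hx
  refine h.2 x.1 ?_
  rw [T.sE i j _ hp, zst_eq]
  show zst x = zst (x.1, iv x.1)
  rw [← hx]

/-- **holomorphy** (220's `hol`) -/
theorem hol' (b : ℕ) (y : Y) (hy : y ∈ O) (i : IPhi) : HolN CY y (T.ff b i) := T.hol hy b i

/-- **values** (220's `val`) -/
theorem val' (b : ℕ) (hb : 15 ≤ b) (y : Y) (hy : Pm y = z₀)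
    (h : ∀ c, T.st y ≠ zst (c, (cur Pz).iv c)) : ∃ c, ValC CY (T.ff b) y c :=
  T.val hb (B := T.Bd) (fun y hy => hy.1) (fun i j x h1 h2 => T.Bd_K i j x h1 h2) ⟨hy, h⟩

/-- **finite fibres** (220's `ff`) -/
theorem fin' (b : ℕ) (hb : 15 ≤ b) : PosP4_848.FF CY (T.ff b)
    {y | Pm y = z₀ ∧ ∀ c, T.st y ≠ zst (c, (cur Pz).iv c)} :=
  T.fin hb (B := T.Bd) (fun y hy => hy.1) (fun i j x h1 h2 => T.Bd_K i j x h1 h2)

end YC

/-- **the data on `Up`** (220's `up`) -/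
def upDat {κ : ℂ} {q : Fin 3 → (Fin 2 → ℂ) → ℂ} (K : KF κ q) (b : ℕ) (hb : 15 ≤ b) :
    UpDat Up.fam Up.N IPhi where
  FB := K.PhiU b
  valB := fun b h => KF.valC_N0 hb h
  ffB := fun x hx => KF.ff_N0 hb x hx

@[simp] theorem upDat_FB {κ : ℂ} {q : Fin 3 → (Fin 2 → ℂ) → ℂ} (K : KF κ q) (b : ℕ)
    (hb : 15 ≤ b) : (upDat K b hb).FB = K.PhiU b := rfl

end

end Crest.Agent.R272.PosP7_848
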