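import Crest.Agent.R272.K3E1_227
import Crest.Agent.R272.IdnDefs_834

-- ▼ part R272/K3E2_227
section

/-!
# R272, K3-EVEN (helper227), part 2: the local function `m = U₁ (y - y') / (t - t')`

In a chart `x` of the curve: `t = θ x`, `y = Y x`, `P` a primitive of `dt/y`.  The second point is
written as `iv` of the point with coordinate `w`, so `y' = - Y w`, `t' = θ w`, `U₁ = P x - P w`.
`even_factor` : an even analytic germ is an analytic function of `x²`.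
`m_reg` (`Y 0 ≠ 0`) and `m_weier` (`θ` even, `Y`, `P` odd): `m` is analytic at `(0,0)`, `m = 2` on
the diagonal `x = w` (= the graph of `iv`).
-/

set_option autoImplicit false

open Set Filter Topology

namespace Crest.Agent.R272.K3E_227

noncomputable section

/-- an even analytic germ is a function of `x ^ 2` -/
theorem even_factor {f : ℂ → ℂ} (hf : AnalyticAt ℂ f 0) (he : ∀ᶠ x in 𝓝 (0 : ℂ), f (-x) = f x) :
    ∃ h : ℂ → ℂ, AnalyticAt ℂ h 0 ∧ ∀ᶠ x in 𝓝 (0 : ℂ), f x = h (x ^ 2) := by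
  obtain ⟨r, hr, hb⟩ := Metric.eventually_nhds_iff_ball.1 (hf.eventually_analyticAt.and he)
  -- `h z = f (√z)`
  set h : ℂ → ℂ := fun z => f (z ^ (1 / 2 : ℂ)) with hh
  have hsq : ∀ z : ℂ, (z ^ (1 / 2 : ℂ)) ^ 2 = z := by
    intro z
    rw [← Complex.cpow_nat_mul]; norm_num
  have hfx : ∀ x ∈ Metric.ball (0 : ℂ) r, f x = h (x ^ 2) := by
    intro x hx
    have h1 : ((x ^ 2) ^ (1 / 2 : ℂ)) ^ 2 = x ^ 2 := hsq _
    rcases sq_eq_sq_iff_eq_or_eq_neg.1 h1 with h2 | h2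
    · simp only [hh, h2]
    · simp only [hh, h2]; exact ((hb x hx).2).symm
  have hroot : ∀ {z : ℂ}, ‖z‖ < r ^ 2 → ‖z ^ (1 / 2 : ℂ)‖ < r := by
    intro z hz
    have h1 : ‖z ^ (1 / 2 : ℂ)‖ ^ 2 = ‖z‖ := by rw [← norm_pow, hsq]
    exact lt_of_pow_lt_pow_left₀ 2 hr.le (by rw [h1]; exact hz)
  refine ⟨h, ?_, ?_⟩
  · -- analytic: punctured neighbourhood + continuity at 0
    have hcont : ContinuousAt h 0 := by
      have h0 : ContinuousAt (fun z : ℂ => z ^ (1 / 2 : ℂ)) 0 := by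
        rw [Metric.continuousAt_iff]
        intro ε hε
        refine ⟨ε ^ 2, by positivity, fun {z} hz => ?_⟩
        have h2 : ‖z‖ < ε ^ 2 := by simpa using hz
        have h1 : ‖z ^ (1 / 2 : ℂ)‖ ^ 2 = ‖z‖ := by rw [← norm_pow, hsq]
        have h3 : (0 : ℂ) ^ (1 / 2 : ℂ) = 0 := by simp
        rw [h3, dist_zero_right]
        exact lt_of_pow_lt_pow_left₀ 2 hε.le (by rw [h1]; exact h2)
      have h3 : (0 : ℂ) ^ (1 / 2 : ℂ) = 0 := by simp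
      refine ContinuousAt.comp (g := f) ?_ h0
      rw [h3]; exact hf.continuousAt
    refine Complex.analyticAt_of_differentiable_on_punctured_nhds_of_continuousAt ?_ hcont
    have hm : Metric.ball (0 : ℂ) (r ^ 2) ∈ 𝓝 (0 : ℂ) := Metric.ball_mem_nhds _ (by positivity)
    filter_upwards [mem_nhdsWithin_of_mem_nhds hm, self_mem_nhdsWithin] with z hz hz0
    have hz0' : z ≠ 0 := hz0
    have hzn : ‖z‖ < r ^ 2 := by simpa using hz
    -- a local square root at z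
    set x0 : ℂ := z ^ (1 / 2 : ℂ) with hx0
    have hx0sq : x0 ^ 2 = z := hsq z
    have hx0ne : x0 ≠ 0 := by
      intro h0; rw [h0] at hx0sq; exact hz0' (by rw [← hx0sq]; ring)
    have hx0r : x0 ∈ Metric.ball (0 : ℂ) r := by rw [mem_ball_zero_iff]; exact hroot hzn
    -- local inverse of the square
    have hd : HasStrictDerivAt (fun x : ℂ => x ^ 2) (2 * x0) x0 := by
      simpa using (hasStrictDerivAt_pow 2 x0)
    have hne : (2 * x0 : ℂ) ≠ 0 := mul_ne_zero two_ne_zero hx0ne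
    set R := hd.localInverse _ _ _ hne with hR
    have hRd : HasStrictDerivAt R (2 * x0)⁻¹ (x0 ^ 2) := hd.to_localInverse hne
    have hRx : ∀ᶠ u in 𝓝 (x0 ^ 2), (R u) ^ 2 = u := hd.eventually_right_inverse hne
    have hR0 : R (x0 ^ 2) = x0 := by
      have := hd.eventually_left_inverse hne
      exact this.self_of_nhds
    rw [hx0sq] at hRd hRx hR0
    have hRr : ∀ᶠ u in 𝓝 z, R u ∈ Metric.ball (0 : ℂ) r :=
      hRd.hasDerivAt.continuousAt.eventually_mem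
        (by rw [hR0]; exact Metric.isOpen_ball.mem_nhds hx0r)
    have heq : h =ᶠ[𝓝 z] fun u => f (R u) := by
      filter_upwards [hRx, hRr] with u hu hur
      rw [hfx _ hur, hu]
    refine DifferentiableAt.congr_of_eventuallyEq ?_ heq
    have h1 : DifferentiableAt ℂ f (R z) := by
      rw [hR0]; exact (hb x0 hx0r).1.differentiableAt
    exact DifferentiableAt.comp z h1 hRd.hasDerivAt.differentiableAt
  · filter_upwards [Metric.ball_mem_nhds (0 : ℂ) hr] with x hx using hfx x hx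

/-- regular points of the curve: `Y 0 ≠ 0` -/
theorem m_reg {θ Y P : ℂ → ℂ} (hθ : AnalyticAt ℂ θ 0) (hY : AnalyticAt ℂ Y 0)
    (hP : AnalyticAt ℂ P 0) (heq : ∀ᶠ x in 𝓝 (0 : ℂ), deriv θ x = Y x * deriv P x)
    (hY0 : Y 0 ≠ 0) (hP0 : deriv P 0 ≠ 0) :
    ∃ m : ℂ × ℂ → ℂ, AnalyticAt ℂ m (0, 0) ∧
      (∀ᶠ p in 𝓝 ((0, 0) : ℂ × ℂ), m p * (θ p.1 - θ p.2) = (P p.1 - P p.2) * (Y p.1 + Y p.2)) ∧
      (∀ᶠ x in 𝓝 (0 : ℂ), m (x, x) = 2) := by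
  have hθ0 : deriv θ 0 ≠ 0 := by
    rw [heq.self_of_nhds]; exact mul_ne_zero hY0 hP0
  have hdP := dd_analyticAt hP hP
  have hdθ := dd_analyticAt hθ hθ
  have hY1 : AnalyticAt ℂ (fun p : ℂ × ℂ => Y p.1) (0, 0) :=
    AnalyticAt.comp (g := Y) (by simpa using hY) analyticAt_fst
  have hY2 : AnalyticAt ℂ (fun p : ℂ × ℂ => Y p.2) (0, 0) :=
    AnalyticAt.comp (g := Y) (by simpa using hY) analyticAt_snd
  have hθn : dd θ (0, 0) ≠ 0 := by rw [dd_self]; exact hθ0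
  refine ⟨fun p => dd P p * (Y p.1 + Y p.2) / dd θ p, ?_, ?_, ?_⟩
  · exact (hdP.fun_mul (hY1.fun_add hY2)).fun_div hdθ hθn
  · filter_upwards [hdθ.continuousAt.eventually_ne hθn] with p hp
    obtain ⟨x, w⟩ := p
    have h1 := dd_mul P x w
    have h2 := dd_mul θ x w
    simp only at hp ⊢
    rw [← h1, ← h2]
    field_simp
  · have hθe : ∀ᶠ x in 𝓝 (0 : ℂ), deriv θ x ≠ 0 := hθ.deriv.continuousAt.eventually_ne hθ0
    filter_upwards [hθe, heq] with x hx he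
    simp only [dd_self]
    rw [he] at hx ⊢
    have h3 : Y x ≠ 0 := left_ne_zero_of_mul hx
    have h4 : deriv P x ≠ 0 := right_ne_zero_of_mul hx
    field_simp
    norm_num

/-- branch points of the curve -/
theorem m_weier {θ Y P : ℂ → ℂ} (hθ : AnalyticAt ℂ θ 0) (hY : AnalyticAt ℂ Y 0)
    (hP : AnalyticAt ℂ P 0) (heq : ∀ᶠ x in 𝓝 (0 : ℂ), deriv θ x = Y x * deriv P x)
    (hθe : ∀ᶠ x in 𝓝 (0 : ℂ), θ (-x) = θ x) (hYo : ∀ᶠ x in 𝓝 (0 : ℂ), Y (-x) = - Y x)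
    (hY0 : deriv Y 0 ≠ 0) (hP0 : deriv P 0 ≠ 0) :
    ∃ m : ℂ × ℂ → ℂ, AnalyticAt ℂ m (0, 0) ∧
      (∀ᶠ p in 𝓝 ((0, 0) : ℂ × ℂ), m p * (θ p.1 - θ p.2) = (P p.1 - P p.2) * (Y p.1 + Y p.2)) ∧
      (∀ᶠ x in 𝓝 (0 : ℂ), m (x, x) = 2) := by
  obtain ⟨h, ha, hh⟩ := even_factor hθ hθe
  have hY00 : Y 0 = 0 := by
    have := hYo.self_of_nhds
    simp only [neg_zero] at this
    exact self_eq_neg.1 this
  -- derivative of θ
  have hder : ∀ᶠ x in 𝓝 (0 : ℂ), deriv θ x = 2 * x * deriv h (x ^ 2) := by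
    have hc : Tendsto (fun x : ℂ => x ^ 2) (𝓝 0) (𝓝 0) := by
      have : Continuous (fun x : ℂ => x ^ 2) := by fun_prop
      simpa using this.tendsto 0
    filter_upwards [hh.eventually_nhds, hc.eventually ha.eventually_analyticAt] with x hx hax
    have h1 : θ =ᶠ[𝓝 x] fun u => h (u ^ 2) := hx
    rw [h1.deriv_eq]
    have h2 : HasDerivAt (fun u : ℂ => u ^ 2) (2 * x) x := by
      simpa using hasDerivAt_pow 2 x
    have h3 := HasDerivAt.comp x hax.differentiableAt.hasDerivAt h2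
    rw [show (fun u => h (u ^ 2)) = h ∘ fun u => u ^ 2 from rfl, h3.deriv]
    ring
  -- `Y x = x * Y1 x`
  set Y1 : ℂ → ℂ := dslope Y 0 with hY1
  have hY1a : AnalyticAt ℂ Y1 0 := by
    obtain ⟨p, hp⟩ := hY
    exact ⟨_, hp.has_fpower_series_dslope_fslope⟩
  have hY1e : ∀ x, Y x = x * Y1 x := by
    intro x
    have : (x - 0) • dslope Y 0 x = Y x - Y 0 := sub_smul_dslope Y 0 x
    simpa [hY00] using this.symm
  have hY10 : Y1 0 = deriv Y 0 := by simp [hY1]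
  have hkey : ∀ᶠ x in 𝓝 (0 : ℂ), 2 * deriv h (x ^ 2) = Y1 x * deriv P x := by
    have hpun : ∀ᶠ x in 𝓝[≠] (0 : ℂ), 2 * deriv h (x ^ 2) = Y1 x * deriv P x := by
      filter_upwards [mem_nhdsWithin_of_mem_nhds hder, mem_nhdsWithin_of_mem_nhds heq,
        self_mem_nhdsWithin] with x h1 h2 h3
      have h3' : x ≠ 0 := h3
      have h4 : deriv θ x = 2 * x * deriv h (x ^ 2) := h1
      have h5 : deriv θ x = Y x * deriv P x := h2
      have h6 : x * (2 * deriv h (x ^ 2)) = x * (Y1 x * deriv P x) := by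
        rw [h4, hY1e x] at h5; linear_combination h5
      exact mul_left_cancel₀ h3' h6
    have hL : ContinuousAt (fun x : ℂ => 2 * deriv h (x ^ 2)) 0 := by
      have h1 : ContinuousAt (fun x : ℂ => deriv h (x ^ 2)) 0 := by
        refine ContinuousAt.comp (g := deriv h) (f := fun x : ℂ => x ^ 2) ?_ (by fun_prop)
        simpa using ha.deriv.continuousAt
      exact continuousAt_const.mul h1
    have hR : ContinuousAt (fun x : ℂ => Y1 x * deriv P x) 0 :=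
      hY1a.continuousAt.mul hP.deriv.continuousAt
    have h0 : 2 * deriv h ((0 : ℂ) ^ 2) = Y1 0 * deriv P 0 := by
      have l1 : Tendsto (fun x : ℂ => 2 * deriv h (x ^ 2)) (𝓝[≠] 0)
          (𝓝 (2 * deriv h ((0 : ℂ) ^ 2))) := hL.tendsto.mono_left nhdsWithin_le_nhds
      have l2 : Tendsto (fun x : ℂ => Y1 x * deriv P x) (𝓝[≠] 0) (𝓝 (Y1 0 * deriv P 0)) :=
        hR.tendsto.mono_left nhdsWithin_le_nhds
      exact tendsto_nhds_unique (l1.congr' hpun) l2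
    rw [eventually_nhdsWithin_iff] at hpun
    filter_upwards [hpun] with x hx
    rcases eq_or_ne x 0 with rfl | hne
    · exact h0
    · exact hx hne
  have hh0 : deriv h 0 ≠ 0 := by
    intro h0
    have := hkey.self_of_nhds
    simp only [ne_eq, OfNat.ofNat_ne_zero, not_false_eq_true, zero_pow, h0, mul_zero, hY10] at this
    exact (mul_ne_zero hY0 hP0) this.symm
  have hdh := dd_analyticAt ha ha
  have hdh0 : dd h (0, 0) ≠ 0 := by rw [dd_self]; exact hh0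
  have hsq : AnalyticAt ℂ (fun p : ℂ × ℂ => dd h (p.1 ^ 2, p.2 ^ 2)) (0, 0) := by
    refine AnalyticAt.comp (g := dd h) (f := fun p : ℂ × ℂ => (p.1 ^ 2, p.2 ^ 2)) ?_ ?_
    · simpa using hdh
    · exact (analyticAt_fst.pow 2).prod (analyticAt_snd.pow 2)
  have hneg : AnalyticAt ℂ (fun p : ℂ × ℂ => dd Y (p.1, -p.2)) (0, 0) := by
    refine AnalyticAt.comp (g := dd Y) (f := fun p : ℂ × ℂ => (p.1, -p.2)) ?_ ?_
    · simpa using dd_analyticAt hY hY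
    · exact analyticAt_fst.prod analyticAt_snd.neg
  refine ⟨fun p => dd P p * dd Y (p.1, -p.2) / dd h (p.1 ^ 2, p.2 ^ 2), ?_, ?_, ?_⟩
  · exact ((dd_analyticAt hP hP).fun_mul hneg).fun_div hsq (by simpa using hdh0)
  · have e1 : ∀ᶠ p in 𝓝 ((0, 0) : ℂ × ℂ), dd h (p.1 ^ 2, p.2 ^ 2) ≠ 0 :=
      hsq.continuousAt.eventually_ne (by simpa using hdh0)
    have e2 : ∀ᶠ p in 𝓝 ((0, 0) : ℂ × ℂ), Y (-p.2) = - Y p.2 :=
      (continuous_snd.tendsto' ((0, 0) : ℂ × ℂ) 0 rfl).eventually hYo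
    have e3 : ∀ᶠ p in 𝓝 ((0, 0) : ℂ × ℂ), θ p.1 = h (p.1 ^ 2) :=
      (continuous_fst.tendsto' ((0, 0) : ℂ × ℂ) 0 rfl).eventually hh
    have e4 : ∀ᶠ p in 𝓝 ((0, 0) : ℂ × ℂ), θ p.2 = h (p.2 ^ 2) :=
      (continuous_snd.tendsto' ((0, 0) : ℂ × ℂ) 0 rfl).eventually hh
    filter_upwards [e1, e2, e3, e4] with p h1 h2 h3 h4
    obtain ⟨x, w⟩ := p
    simp only at h1 h2 h3 h4 ⊢
    have k1 := dd_mul P x w
    have k2 := dd_mul Y x (-w)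
    have k3 := dd_mul h (x ^ 2) (w ^ 2)
    rw [h2] at k2
    rw [h3, h4, ← k1, ← k3]
    have k2' : Y x + Y w = (x + w) * dd Y (x, -w) := by rw [show x + w = x - -w by ring, k2]; ring
    rw [k2']
    field_simp
    ring
  · have e5 : ∀ᶠ x in 𝓝 (0 : ℂ), deriv h (x ^ 2) ≠ 0 := by
      have h1 : ContinuousAt (fun x : ℂ => deriv h (x ^ 2)) 0 := by
        refine ContinuousAt.comp (g := deriv h) (f := fun x : ℂ => x ^ 2) ?_ (by fun_prop)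
        simpa using ha.deriv.continuousAt
      exact h1.eventually_ne (by simpa using hh0)
    filter_upwards [e5, hkey, hYo] with x h1 h2 h3
    simp only [dd_self]
    have h4 : dd Y (x, -x) = Y1 x := by
      rcases eq_or_ne x 0 with rfl | hne
      · rw [neg_zero, dd_self, hY10]
      · have hne' : x ≠ -x := fun h => hne (self_eq_neg.1 h)
        rw [dd_ne Y hne', h3, hY1e x]
        field_simp
    rw [h4, div_eq_iff h1]
    linear_combination -h2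

end

end Crest.Agent.R272.K3E_227
end

-- ▼ part R272/K3E3_227
section

/-!
# R272, K3-EVEN (helper227), part 3: slopes of `ω` in charts

Consequences of the structure `Cur` (956): `w` of nearby points, `w (iv c)`, the slope function
`tv i` in the chart `k c`, `y ≠ 0` off / `dy ≠ 0` at Weierstrass points.
-/

set_option autoImplicit false
set_option linter.unusedSectionVars false

open Set Filter Topology

namespace Crest.Agent.R272.K3E_227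

open Crest.Agent.R272.AJ_956 Crest.Agent.R272.Idn_834

noncomputable section

variable {C : Type} [TopologicalSpace C] (𝒞 : Cur C)

theorem zero_mem (c : C) : (0 : ℂ) ∈ (𝒞.k c).target := by
  rw [← 𝒞.k_zero c]; exact (𝒞.k c).map_source (𝒞.k_mem c)

theorem symm_zero (c : C) : (𝒞.k c).symm 0 = c := by
  have := (𝒞.k c).left_inv (𝒞.k_mem c)
  rwa [𝒞.k_zero] at this

theorem G_an0 (c : C) : AnalyticAt ℂ (𝒞.G c) 0 := 𝒞.G_an c 0 (zero_mem 𝒞 c)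

theorem an_comp {F : ℂ → E2} {z : ℂ} (hF : AnalyticAt ℂ F z) (i : Fin 2) :
    AnalyticAt ℂ (fun z => F z i) z :=
  AnalyticAt.comp (g := fun v : E2 => v i)
    ((ContinuousLinearMap.proj (R := ℂ) (φ := fun _ : Fin 2 => ℂ) i).analyticAt _) hF

theorem deriv_i {F : ℂ → E2} {z : ℂ} (hF : DifferentiableAt ℂ F z) (i : Fin 2) :
    deriv F z i = deriv (fun z => F z i) z :=
  ((hasDerivAt_pi.1 hF.hasDerivAt) i).deriv.symm

/-- `ω` at a nearby point, read in the chart `k c` -/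
theorem w_near (c : C) : ∀ z ∈ (𝒞.k c).target, ∃ a : ℂ, a ≠ 0 ∧
    𝒞.w ((𝒞.k c).symm z) = a • deriv (𝒞.G c) z := by
  intro z hz
  set y : C := (𝒞.k c).symm z with hy
  have hys : y ∈ (𝒞.k c).source := (𝒞.k c).map_target hz
  have hyk : 𝒞.k c y = z := (𝒞.k c).right_inv hz
  set φ : ℂ → ℂ := fun v => 𝒞.k c ((𝒞.k y).symm v) with hφ
  have hφa : AnalyticAt ℂ φ 0 := by
    have := 𝒞.k_an y c y (𝒞.k_mem y) hys
    rwa [𝒞.k_zero] at this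
  set ψ : ℂ → ℂ := fun v => 𝒞.k y ((𝒞.k c).symm v) with hψ
  have hψa : AnalyticAt ℂ ψ z := by
    have := 𝒞.k_an c y y hys (𝒞.k_mem y)
    rwa [hyk] at this
  have hφ0 : φ 0 = z := by simp only [hφ]; rw [symm_zero, hyk]
  have hsy : Tendsto (fun v => (𝒞.k y).symm v) (𝓝 0) (𝓝 y) := by
    have := (𝒞.k y).continuousAt_symm (zero_mem 𝒞 y)
    simpa [ContinuousAt, symm_zero] using this
  -- ψ ∘ φ = id
  have hinv : ∀ᶠ v in 𝓝 (0 : ℂ), ψ (φ v) = v := by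
    filter_upwards [(𝒞.k y).open_target.mem_nhds (zero_mem 𝒞 y),
      hsy.eventually ((𝒞.k c).open_source.mem_nhds hys)] with v hv hv2
    simp only [hψ, hφ]
    rw [(𝒞.k c).left_inv hv2, (𝒞.k y).right_inv hv]
  have hd : deriv φ 0 ≠ 0 := by
    have h1 : HasDerivAt (fun v => ψ (φ v)) (deriv ψ z * deriv φ 0) 0 := by
      have h2 : HasDerivAt ψ (deriv ψ z) (φ 0) := by rw [hφ0]; exact hψa.differentiableAt.hasDerivAt
      exact h2.comp 0 hφa.differentiableAt.hasDerivAt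
    have h3 : HasDerivAt (fun v => ψ (φ v)) 1 0 :=
      (hasDerivAt_id (0 : ℂ)).congr_of_eventuallyEq hinv
    have h4 := h1.unique h3
    exact right_ne_zero_of_mul (by rw [h4]; exact one_ne_zero)
  refine ⟨deriv φ 0, hd, ?_⟩
  -- G y v = G c (φ v) - const
  have hc := 𝒞.compat y c y (𝒞.k_mem y) hys
  have h5 : ∀ᶠ v in 𝓝 (0 : ℂ), 𝒞.G y v = 𝒞.G c (φ v) - 𝒞.G c z := by
    filter_upwards [hsy.eventually hc, (𝒞.k y).open_target.mem_nhds (zero_mem 𝒞 y)] with v hv hv2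
    rw [(𝒞.k y).right_inv hv2, 𝒞.k_zero, 𝒞.G_zero, hyk, sub_zero] at hv
    rw [← hv]; simp [hφ]
  have h6 : HasDerivAt (fun v => 𝒞.G c (φ v) - 𝒞.G c z) (deriv φ 0 • deriv (𝒞.G c) z) 0 := by
    have h7 : HasDerivAt (𝒞.G c) (deriv (𝒞.G c) z) (φ 0) := by
      rw [hφ0]; exact (𝒞.G_an c z hz).differentiableAt.hasDerivAt
    exact (h7.scomp 0 hφa.differentiableAt.hasDerivAt).sub_const _
  have h8 : HasDerivAt (𝒞.G y) (deriv φ 0 • deriv (𝒞.G c) z) 0 := h6.congr_of_eventuallyEq h5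
  exact h8.deriv

/-- `ω` at `iv c` -/
theorem w_iv (c : C) : ∃ a : ℂ, a ≠ 0 ∧ 𝒞.w (𝒞.iv c) = a • 𝒞.w c := by
  set κ : ℂ → ℂ := fun z => 𝒞.k (𝒞.iv c) (𝒞.iv ((𝒞.k c).symm z)) with hκ
  have hκa : AnalyticAt ℂ κ 0 := 𝒞.iv_an c
  set κ' : ℂ → ℂ := fun z => 𝒞.k c (𝒞.iv ((𝒞.k (𝒞.iv c)).symm z)) with hκ'
  have hκa' : AnalyticAt ℂ κ' 0 := by
    have := 𝒞.iv_an (𝒞.iv c)
    rwa [𝒞.iv_iv] at this
  have hκ0 : κ 0 = 0 := by simp only [hκ]; rw [symm_zero, 𝒞.k_zero]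
  have hsy : Tendsto (fun v => (𝒞.k c).symm v) (𝓝 0) (𝓝 c) := by
    have := (𝒞.k c).continuousAt_symm (zero_mem 𝒞 c)
    simpa [ContinuousAt, symm_zero] using this
  have hivc : Tendsto 𝒞.iv (𝓝 c) (𝓝 (𝒞.iv c)) := 𝒞.iv_cont.tendsto c
  have hinv : ∀ᶠ v in 𝓝 (0 : ℂ), κ' (κ v) = v := by
    filter_upwards [(𝒞.k c).open_target.mem_nhds (zero_mem 𝒞 c),
      (hivc.comp hsy).eventually ((𝒞.k (𝒞.iv c)).open_source.mem_nhds (𝒞.k_mem _))] with v hv hv2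
    have hv2' : 𝒞.iv ((𝒞.k c).symm v) ∈ (𝒞.k (𝒞.iv c)).source := hv2
    simp only [hκ, hκ']
    rw [(𝒞.k (𝒞.iv c)).left_inv hv2', 𝒞.iv_iv, (𝒞.k c).right_inv hv]
  have hd : deriv κ 0 ≠ 0 := by
    have h1 : HasDerivAt (fun v => κ' (κ v)) (deriv κ' 0 * deriv κ 0) 0 := by
      have h2 : HasDerivAt κ' (deriv κ' 0) (κ 0) := by
        rw [hκ0]; exact hκa'.differentiableAt.hasDerivAt
      exact h2.comp 0 hκa.differentiableAt.hasDerivAt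
    have h3 : HasDerivAt (fun v => κ' (κ v)) 1 0 :=
      (hasDerivAt_id (0 : ℂ)).congr_of_eventuallyEq hinv
    have h4 := h1.unique h3
    exact right_ne_zero_of_mul (by rw [h4]; exact one_ne_zero)
  have h5 : ∀ᶠ v in 𝓝 (0 : ℂ), 𝒞.G (𝒞.iv c) (κ v) = - 𝒞.G c v := by
    filter_upwards [hsy.eventually (𝒞.anti c),
      (𝒞.k c).open_target.mem_nhds (zero_mem 𝒞 c)] with v hv hv2
    rw [(𝒞.k c).right_inv hv2] at hv
    exact hv
  have h6 : HasDerivAt (fun v => 𝒞.G (𝒞.iv c) (κ v)) (deriv κ 0 • 𝒞.w (𝒞.iv c)) 0 := by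
    have h7 : HasDerivAt (𝒞.G (𝒞.iv c)) (𝒞.w (𝒞.iv c)) (κ 0) := by
      rw [hκ0]; exact (G_an0 𝒞 _).differentiableAt.hasDerivAt
    exact h7.scomp 0 hκa.differentiableAt.hasDerivAt
  have h8 : HasDerivAt (fun v => 𝒞.G (𝒞.iv c) (κ v)) (- 𝒞.w c) 0 :=
    ((G_an0 𝒞 c).differentiableAt.hasDerivAt.neg).congr_of_eventuallyEq h5
  have h9 := h6.unique h8
  refine ⟨-(deriv κ 0)⁻¹, neg_ne_zero.2 (inv_ne_zero hd), ?_⟩
  rw [neg_smul, ← smul_neg, ← h9, smul_smul, inv_mul_cancel₀ hd, one_smul]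

theorem tv_iv (i : Fin 2) (c : C) : tv 𝒞 i (𝒞.iv c) = tv 𝒞 i c := by
  obtain ⟨a, ha, h⟩ := w_iv 𝒞 c
  simp only [tv, h, Pi.smul_apply, smul_eq_mul]
  exact mul_div_mul_left _ _ ha

theorem Ci_iv {i : Fin 2} {c : C} : 𝒞.iv c ∈ Ci 𝒞 i ↔ c ∈ Ci 𝒞 i := by
  obtain ⟨a, ha, h⟩ := w_iv 𝒞 c
  simp only [Ci, mem_ofPred_eq, h, Pi.smul_apply, smul_eq_mul]
  exact mul_ne_zero_iff_left ha

theorem tv_chart (c : C) (i : Fin 2) : ∀ z ∈ (𝒞.k c).target,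
    tv 𝒞 i ((𝒞.k c).symm z) = deriv (fun z => 𝒞.G c z (1 - i)) z / deriv (fun z => 𝒞.G c z i) z := by
  intro z hz
  obtain ⟨a, ha, h⟩ := w_near 𝒞 c z hz
  have hd := (𝒞.G_an c z hz).differentiableAt
  simp only [tv, h, Pi.smul_apply, smul_eq_mul]
  rw [mul_div_mul_left _ _ ha, deriv_i hd, deriv_i hd]

theorem Ci_chart (c : C) (i : Fin 2) : ∀ z ∈ (𝒞.k c).target,
    ((𝒞.k c).symm z ∈ Ci 𝒞 i ↔ deriv (fun z => 𝒞.G c z i) z ≠ 0) := by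
  intro z hz
  obtain ⟨a, ha, h⟩ := w_near 𝒞 c z hz
  have hd := (𝒞.G_an c z hz).differentiableAt
  simp only [Ci, mem_ofPred_eq, h, Pi.smul_apply, smul_eq_mul, deriv_i hd]
  exact mul_ne_zero_iff_left ha

theorem w_eq (c : C) (i : Fin 2) : deriv (fun z => 𝒞.G c z i) 0 = 𝒞.w c i :=
  (deriv_i (G_an0 𝒞 c).differentiableAt i).symm

theorem isOpen_Ci (i : Fin 2) : IsOpen (Ci 𝒞 i) := by
  rw [isOpen_iff_mem_nhds]
  intro c hc
  have h0 : deriv (fun z => 𝒞.G c z i) 0 ≠ 0 := by rw [w_eq]; exact hc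
  have h1 : ∀ᶠ z in 𝓝 (0 : ℂ), deriv (fun z => 𝒞.G c z i) z ≠ 0 :=
    (an_comp (G_an0 𝒞 c) i).deriv.continuousAt.eventually_ne h0
  have h2 : Tendsto (𝒞.k c) (𝓝 c) (𝓝 0) := by
    have := (𝒞.k c).continuousAt (𝒞.k_mem c)
    simpa [ContinuousAt, 𝒞.k_zero] using this
  filter_upwards [h2.eventually h1, (𝒞.k c).open_source.mem_nhds (𝒞.k_mem c)] with y hy hys
  have := (Ci_chart 𝒞 c i (𝒞.k c y) ((𝒞.k c).map_source hys)).2 hy
  rwa [(𝒞.k c).left_inv hys] at this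

/-- slope function in the chart -/
theorem tv_an (c : C) (i : Fin 2) (hc : c ∈ Ci 𝒞 i) :
    AnalyticAt ℂ (fun z => tv 𝒞 i ((𝒞.k c).symm z)) 0 := by
  have h0 : deriv (fun z => 𝒞.G c z i) 0 ≠ 0 := by rw [w_eq]; exact hc
  have h1 : AnalyticAt ℂ (fun z => deriv (fun z => 𝒞.G c z (1 - i)) z /
      deriv (fun z => 𝒞.G c z i) z) 0 :=
    (an_comp (G_an0 𝒞 c) (1 - i)).deriv.fun_div (an_comp (G_an0 𝒞 c) i).deriv h0
  refine h1.congr ?_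
  filter_upwards [(𝒞.k c).open_target.mem_nhds (zero_mem 𝒞 c)] with z hz
  exact (tv_chart 𝒞 c i z hz).symm

theorem slope_eq (c : C) (i : Fin 2) (hc : c ∈ Ci 𝒞 i) : ∀ᶠ z in 𝓝 (0 : ℂ),
    deriv (fun z => 𝒞.G c z (1 - i)) z =
      tv 𝒞 i ((𝒞.k c).symm z) * deriv (fun z => 𝒞.G c z i) z := by
  have h0 : deriv (fun z => 𝒞.G c z i) 0 ≠ 0 := by rw [w_eq]; exact hc
  have h1 : ∀ᶠ z in 𝓝 (0 : ℂ), deriv (fun z => 𝒞.G c z i) z ≠ 0 :=
    (an_comp (G_an0 𝒞 c) i).deriv.continuousAt.eventually_ne h0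
  filter_upwards [h1, (𝒞.k c).open_target.mem_nhds (zero_mem 𝒞 c)] with z hz hz2
  rw [tv_chart 𝒞 c i z hz2, div_mul_cancel₀ _ hz]

/-- derivatives of a product relation `q' = θ p'` -/
theorem det_aux {θ p q : ℂ → ℂ} (hθ : AnalyticAt ℂ θ 0) (hp : AnalyticAt ℂ p 0)
    (h : ∀ᶠ z in 𝓝 (0 : ℂ), deriv q z = θ z * deriv p z) :
    deriv (deriv q) 0 = deriv θ 0 * deriv p 0 + θ 0 * deriv (deriv p) 0 ∧
    deriv (deriv (deriv q)) 0 = deriv (deriv θ) 0 * deriv p 0 +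
      2 * deriv θ 0 * deriv (deriv p) 0 + θ 0 * deriv (deriv (deriv p)) 0 := by
  have e2 : ∀ᶠ z in 𝓝 (0 : ℂ), deriv (deriv q) z =
      deriv θ z * deriv p z + θ z * deriv (deriv p) z := by
    filter_upwards [h.eventually_nhds, hθ.eventually_analyticAt,
      hp.deriv.eventually_analyticAt] with z hz h1 h2
    have h3 : deriv q =ᶠ[𝓝 z] fun u => θ u * deriv p u := hz
    rw [h3.deriv_eq]
    exact deriv_fun_mul h1.differentiableAt h2.differentiableAt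
  refine ⟨e2.self_of_nhds, ?_⟩
  have h3 : deriv (deriv q) =ᶠ[𝓝 0] fun z => deriv θ z * deriv p z + θ z * deriv (deriv p) z := e2
  rw [h3.deriv_eq]
  have a1 := hθ.deriv.differentiableAt
  have a2 := hp.deriv.differentiableAt
  have a3 := hθ.differentiableAt
  have a4 := hp.deriv.deriv.differentiableAt
  rw [deriv_fun_add (a1.fun_mul a2) (a3.fun_mul a4), deriv_fun_mul a1 a2, deriv_fun_mul a3 a4]
  ring

theorem comp2 (c : C) (j : Fin 2) :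
    deriv (deriv (𝒞.G c)) 0 j = deriv (deriv (fun z => 𝒞.G c z j)) 0 := by
  rw [deriv_i (G_an0 𝒞 c).deriv.differentiableAt j]
  refine Filter.EventuallyEq.deriv_eq ?_
  filter_upwards [(G_an0 𝒞 c).eventually_analyticAt] with z hz using deriv_i hz.differentiableAt j

theorem comp3 (c : C) (j : Fin 2) :
    deriv (deriv (deriv (𝒞.G c))) 0 j = deriv (deriv (deriv (fun z => 𝒞.G c z j))) 0 := by
  rw [deriv_i (G_an0 𝒞 c).deriv.deriv.differentiableAt j]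
  refine Filter.EventuallyEq.deriv_eq ?_
  filter_upwards [(G_an0 𝒞 c).eventually_analyticAt.eventually_nhds] with z hz
  rw [deriv_i hz.self_of_nhds.deriv.differentiableAt j]
  refine Filter.EventuallyEq.deriv_eq ?_
  filter_upwards [hz] with u hu using deriv_i hu.differentiableAt j

/-- the slope is a coordinate off the Weierstrass points -/
theorem dtv_ne (c : C) (i : Fin 2) (hc : c ∈ Ci 𝒞 i) (hiv : 𝒞.iv c ≠ c) :
    deriv (fun z => tv 𝒞 i ((𝒞.k c).symm z)) 0 ≠ 0 := by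
  intro h0
  refine 𝒞.nd c hiv ?_
  have hd := (det_aux (tv_an 𝒞 c i hc) (an_comp (G_an0 𝒞 c) i) (slope_eq 𝒞 c i hc)).1
  have hs := (slope_eq 𝒞 c i hc).self_of_nhds
  rw [h0] at hd
  unfold det2
  have k0 := deriv_i (G_an0 𝒞 c).differentiableAt 0
  have k1 := deriv_i (G_an0 𝒞 c).differentiableAt 1
  rw [comp2, comp2, k0, k1]
  fin_cases i
  · simp only [Fin.zero_eta, Fin.isValue, sub_zero] at hd hs
    rw [hd, hs]; ring
  · simp only [Fin.mk_one, Fin.isValue, sub_self] at hd hs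
    rw [hd, hs]; ring

theorem ddtv_ne (c : C) (i : Fin 2) (hc : c ∈ Ci 𝒞 i) (hiv : 𝒞.iv c = c)
    (h1 : deriv (fun z => tv 𝒞 i ((𝒞.k c).symm z)) 0 = 0) :
    deriv (deriv (fun z => tv 𝒞 i ((𝒞.k c).symm z))) 0 ≠ 0 := by
  intro h0
  refine 𝒞.nd3 c hiv ?_
  have hd := (det_aux (tv_an 𝒞 c i hc) (an_comp (G_an0 𝒞 c) i) (slope_eq 𝒞 c i hc)).2
  have hs := (slope_eq 𝒞 c i hc).self_of_nhds
  rw [h0, h1] at hd
  unfold det2
  have k0 := deriv_i (G_an0 𝒞 c).differentiableAt 0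
  have k1 := deriv_i (G_an0 𝒞 c).differentiableAt 1
  rw [comp3, comp3, k0, k1]
  fin_cases i
  · simp only [Fin.zero_eta, Fin.isValue, sub_zero] at hd hs
    rw [hd, hs]; ring
  · simp only [Fin.mk_one, Fin.isValue, sub_self] at hd hs
    rw [hd, hs]; ring

end

end Crest.Agent.R272.K3E_227
end

-- ▼ part R272/K3E4_227
section

/-!
# R272, K3-EVEN (helper227), part 4: the structure `Idn_834.K3`

`Sext 𝒞 l` : the curve `𝒞` is `y² = ∑ l_j t^j` (`t` = slope of `ω`), `ω = (dt/y, t dt/y)`.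
`k3`       : `Sext 𝒞 l → 𝒞.NearE N U → K3 𝒞 U`, `g i = U_i² (F(t,t') - 2 y y')/(t - t')²`.
-/

set_option autoImplicit false
set_option linter.unusedSectionVars false

open Set Filter Topology

namespace Crest.Agent.R272.K3E_227

open Crest.Agent.R272.AJ_956 Crest.Agent.R272.Idn_834

noncomputable section

/-- sextic -/
def fp (l : Fin 7 → ℂ) (t : ℂ) : ℂ :=
  l 0 + l 1 * t + l 2 * t ^ 2 + l 3 * t ^ 3 + l 4 * t ^ 4 + l 5 * t ^ 5 + l 6 * t ^ 6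

/-- its polar form -/
def Fp (l : Fin 7 → ℂ) (t u : ℂ) : ℂ :=
  2 * l 0 + l 1 * (t + u) + (t * u) * (2 * l 2 + l 3 * (t + u)) +
    (t * u) ^ 2 * (2 * l 4 + l 5 * (t + u)) + (t * u) ^ 3 * (2 * l 6)

def Rp (l : Fin 7 → ℂ) (t u : ℂ) : ℂ :=
  l 2 + l 3 * (t + u) + l 4 * (t + u) ^ 2 + l 5 * (t ^ 2 + t * u + u ^ 2) * (t + u) +
    l 6 * (t ^ 2 + t * u + u ^ 2) ^ 2

theorem Rp_an {l : Fin 7 → ℂ} {a b : ℂ × ℂ → ℂ} {q : ℂ × ℂ} (ha : AnalyticAt ℂ a q)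
    (hb : AnalyticAt ℂ b q) : AnalyticAt ℂ (fun p => Rp l (a p) (b p)) q := by
  unfold Rp; fun_prop

/-- reversed coefficients -/
def rv (l : Fin 7 → ℂ) : Fin 7 → ℂ := ![l 6, l 5, l 4, l 3, l 2, l 1, l 0]

/-- coefficients in the chart `i` -/
def lr (l : Fin 7 → ℂ) (i : Fin 2) : Fin 7 → ℂ := if i = 0 then l else rv l

theorem Fp_eq (l : Fin 7 → ℂ) (t u : ℂ) :
    Fp l t u = fp l t + fp l u - (t - u) ^ 2 * Rp l t u := by
  unfold Fp fp Rp; ring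

theorem Fp_symm (l : Fin 7 → ℂ) (t u : ℂ) : Fp l u t = Fp l t u := by
  unfold Fp; ring

theorem Fp_rev (l : Fin 7 → ℂ) {t u : ℂ} (ht : t ≠ 0) (hu : u ≠ 0) :
    Fp l t u = (t * u) ^ 3 * Fp (rv l) t⁻¹ u⁻¹ := by
  have e0 : rv l 0 = l 6 := rfl
  have e1 : rv l 1 = l 5 := rfl
  have e2 : rv l 2 = l 4 := rfl
  have e3 : rv l 3 = l 3 := rfl
  have e4 : rv l 4 = l 2 := rfl
  have e5 : rv l 5 = l 1 := rfl
  have e6 : rv l 6 = l 0 := rfl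
  unfold Fp
  rw [e0, e1, e2, e3, e4, e5, e6]
  field_simp
  ring

variable {C : Type} [TopologicalSpace C] (𝒞 : Cur C)

/-- the curve `y² = ∑ l_j t^j`, `ω = (dt/y, t dt/y)`; `y 0 = y`, `y 1 = - y/t³` -/
structure Sext (l : Fin 7 → ℂ) where
  y : Fin 2 → C → ℂ
  an : ∀ i, ∀ c ∈ Ci 𝒞 i, AnalyticAt ℂ (fun z => y i ((𝒞.k c).symm z)) 0
  sq : ∀ i, ∀ c ∈ Ci 𝒞 i, y i c ^ 2 = fp (lr l i) (tv 𝒞 i c)
  iv : ∀ i, ∀ c ∈ Ci 𝒞 i, y i (𝒞.iv c) = - y i c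
  der : ∀ i, ∀ c ∈ Ci 𝒞 i, ∀ᶠ z in 𝓝 (0 : ℂ),
    deriv (fun z => tv 𝒞 i ((𝒞.k c).symm z)) z =
      y i ((𝒞.k c).symm z) * deriv (fun z => 𝒞.G c z i) z
  rel : ∀ c, c ∈ Ci 𝒞 0 → c ∈ Ci 𝒞 1 → y 1 c = - y 0 c * tv 𝒞 1 c ^ 3

variable {𝒞}

theorem tendsto_k (c : C) : Tendsto (𝒞.k c) (𝓝 c) (𝓝 0) := by
  have := (𝒞.k c).continuousAt (𝒞.k_mem c)
  simpa [ContinuousAt, 𝒞.k_zero] using this

theorem tendsto_ks (c : C) : Tendsto (𝒞.k c).symm (𝓝 0) (𝓝 c) := by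
  have := (𝒞.k c).continuousAt_symm (zero_mem 𝒞 c)
  simpa [ContinuousAt, symm_zero] using this

/-- near a Weierstrass point the chart is odd -/
theorem symm_neg {c : C} (hc : 𝒞.iv c = c) :
    ∀ᶠ z in 𝓝 (0 : ℂ), (𝒞.k c).symm (-z) = 𝒞.iv ((𝒞.k c).symm z) := by
  have h2 : Tendsto (fun z => 𝒞.iv ((𝒞.k c).symm z)) (𝓝 0) (𝓝 c) := by
    have := (𝒞.iv_cont.tendsto c).comp (tendsto_ks (𝒞 := 𝒞) c)
    rwa [hc] at this
  filter_upwards [(tendsto_ks (𝒞 := 𝒞) c).eventually (𝒞.odd c hc),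
    (𝒞.k c).open_target.mem_nhds (zero_mem 𝒞 c),
    h2.eventually ((𝒞.k c).open_source.mem_nhds (𝒞.k_mem c))] with z h3 h4 h5
  rw [(𝒞.k c).right_inv h4] at h3
  rw [← h3]
  exact (𝒞.k c).left_inv h5

/-- the germ of `m` at a point of `Γ` -/
theorem germ {l : Fin 7 → ℂ} (S : Sext 𝒞 l) (i : Fin 2) (c : C) (hc : c ∈ Ci 𝒞 i) :
    ∃ m : ℂ × ℂ → ℂ, AnalyticAt ℂ m (0, 0) ∧ m (0, 0) = 2 ∧
      (∀ᶠ p in 𝓝 ((0, 0) : ℂ × ℂ),
        m p * (tv 𝒞 i ((𝒞.k c).symm p.1) - tv 𝒞 i ((𝒞.k c).symm p.2)) =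
          (𝒞.G c p.1 i - 𝒞.G c p.2 i) *
            (S.y i ((𝒞.k c).symm p.1) + S.y i ((𝒞.k c).symm p.2))) := by
  have hθ := tv_an 𝒞 c i hc
  have hP := an_comp (G_an0 𝒞 c) i
  have hY := S.an i c hc
  have hP0 : deriv (fun z => 𝒞.G c z i) 0 ≠ 0 := by rw [w_eq]; exact hc
  by_cases hiv : 𝒞.iv c = c
  · have hne : ∀ᶠ z in 𝓝 (0 : ℂ), (𝒞.k c).symm z ∈ Ci 𝒞 i :=
      (tendsto_ks (𝒞 := 𝒞) c).eventually ((isOpen_Ci 𝒞 i).mem_nhds hc)
    have hθe : ∀ᶠ x in 𝓝 (0 : ℂ), tv 𝒞 i ((𝒞.k c).symm (-x)) = tv 𝒞 i ((𝒞.k c).symm x) := by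
      filter_upwards [symm_neg hiv] with x hx
      rw [hx, tv_iv]
    have hYo : ∀ᶠ x in 𝓝 (0 : ℂ), S.y i ((𝒞.k c).symm (-x)) = - S.y i ((𝒞.k c).symm x) := by
      filter_upwards [symm_neg hiv, hne] with x hx hx2
      rw [hx, S.iv i _ hx2]
    have hY00 : S.y i ((𝒞.k c).symm 0) = 0 := by
      have := hYo.self_of_nhds
      simp only [neg_zero] at this
      exact self_eq_neg.1 this
    have hd0 := (S.der i c hc).self_of_nhds
    rw [hY00, zero_mul] at hd0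
    have hY0 : deriv (fun z => S.y i ((𝒞.k c).symm z)) 0 ≠ 0 := by
      intro h0
      refine ddtv_ne 𝒞 c i hc hiv hd0 ?_
      have h1 : deriv (fun z => tv 𝒞 i ((𝒞.k c).symm z)) =ᶠ[𝓝 0]
          fun z => S.y i ((𝒞.k c).symm z) * deriv (fun z => 𝒞.G c z i) z := S.der i c hc
      rw [h1.deriv_eq, deriv_fun_mul hY.differentiableAt hP.deriv.differentiableAt, h0, hY00]
      simp
    obtain ⟨m, h1, h2, h3⟩ := m_weier hθ hY hP (S.der i c hc) hθe hYo hY0 hP0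
    exact ⟨m, h1, h3.self_of_nhds, h2⟩
  · have hY0 : S.y i ((𝒞.k c).symm 0) ≠ 0 := by
      intro h0
      refine dtv_ne 𝒞 c i hc hiv ?_
      have := (S.der i c hc).self_of_nhds
      rwa [h0, zero_mul] at this
    obtain ⟨m, h1, h2, h3⟩ := m_reg hθ hY hP (S.der i c hc) hY0 hP0
    exact ⟨m, h1, h3.self_of_nhds, h2⟩

/-- formula off `t = t'` -/
def frm {l : Fin 7 → ℂ} (S : Sext 𝒞 l) (U : C × C → E2) (i : Fin 2) (x : C × C) : ℂ :=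
  U x i ^ 2 * (Fp (lr l i) (tv 𝒞 i x.1) (tv 𝒞 i x.2) - 2 * S.y i x.1 * S.y i x.2) /
    (tv 𝒞 i x.1 - tv 𝒞 i x.2) ^ 2

def As (𝒞 : Cur C) (i : Fin 2) : Set (C × C) := {x | tv 𝒞 i x.1 ≠ tv 𝒞 i x.2}

/-- the functions `g₀`, `g_∞` -/
def gg {l : Fin 7 → ℂ} (S : Sext 𝒞 l) (U : C × C → E2) (i : Fin 2) : C × C → ℂ :=
  extendFrom (As 𝒞 i) (frm S U i)

/-- the coordinates `(k c x₁, k c (iv x₂))` near `(c, iv c)` -/
def pp (𝒞 : Cur C) (c : C) (x : C × C) : ℂ × ℂ := (𝒞.k c x.1, 𝒞.k c (𝒞.iv x.2))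

theorem tendsto_iv2 (c : C) :
    Tendsto (fun x : C × C => 𝒞.iv x.2) (𝓝 (c, 𝒞.iv c)) (𝓝 c) := by
  have h1 : Continuous (fun x : C × C => 𝒞.iv x.2) := 𝒞.iv_cont.comp continuous_snd
  have := h1.tendsto (c, 𝒞.iv c)
  rwa [show 𝒞.iv ((c, 𝒞.iv c) : C × C).2 = c from 𝒞.iv_iv c] at this

theorem tendsto_fst' (c : C) :
    Tendsto (fun x : C × C => x.1) (𝓝 (c, 𝒞.iv c)) (𝓝 c) :=
  continuous_fst.tendsto' _ _ rfl

theorem tendsto_snd' (c : C) :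
    Tendsto (fun x : C × C => x.2) (𝓝 (c, 𝒞.iv c)) (𝓝 (𝒞.iv c)) :=
  continuous_snd.tendsto' _ _ rfl

theorem tendsto_pp (c : C) : Tendsto (pp 𝒞 c) (𝓝 (c, 𝒞.iv c)) (𝓝 ((0, 0) : ℂ × ℂ)) :=
  ((tendsto_k (𝒞 := 𝒞) c).comp (tendsto_fst' c)).prodMk_nhds
    ((tendsto_k (𝒞 := 𝒞) c).comp (tendsto_iv2 c))

/-- charts near `(c, iv c)` -/
theorem near_src (c : C) : ∀ᶠ x in 𝓝 ((c, 𝒞.iv c) : C × C),
    x.1 ∈ (𝒞.k c).source ∧ 𝒞.iv x.2 ∈ (𝒞.k c).source ∧ x.2 ∈ (𝒞.k (𝒞.iv c)).source := by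
  filter_upwards [(tendsto_fst' (𝒞 := 𝒞) c).eventually ((𝒞.k c).open_source.mem_nhds (𝒞.k_mem c)),
    (tendsto_iv2 (𝒞 := 𝒞) c).eventually ((𝒞.k c).open_source.mem_nhds (𝒞.k_mem c)),
    (tendsto_snd' (𝒞 := 𝒞) c).eventually
      ((𝒞.k (𝒞.iv c)).open_source.mem_nhds (𝒞.k_mem (𝒞.iv c)))] with x h1 h2 h3
  exact ⟨h1, h2, h3⟩

theorem near_Ci {i : Fin 2} {c : C} (hc : c ∈ Ci 𝒞 i) : ∀ᶠ x in 𝓝 ((c, 𝒞.iv c) : C × C),
    x.1 ∈ Ci 𝒞 i ∧ x.2 ∈ Ci 𝒞 i := by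
  filter_upwards [(tendsto_fst' (𝒞 := 𝒞) c).eventually ((isOpen_Ci 𝒞 i).mem_nhds hc),
    (tendsto_snd' (𝒞 := 𝒞) c).eventually
      ((isOpen_Ci 𝒞 i).mem_nhds ((Ci_iv 𝒞).2 hc))] with x h1 h2
  exact ⟨h1, h2⟩

/-- local form of the functions near `(c, iv c)` -/
theorem loc {l : Fin 7 → ℂ} (S : Sext 𝒞 l) {N : Set (C × C)} {U : C × C → E2}
    (h : 𝒞.NearE N U) (i : Fin 2) (c : C) (hc : c ∈ Ci 𝒞 i) :
    ∃ γ : ℂ × ℂ → ℂ, AnalyticAt ℂ γ 0 ∧ γ 0 = 4 ∧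
      ∀ᶠ x in 𝓝 ((c, 𝒞.iv c) : C × C), x ∈ As 𝒞 i →
        frm S U i x = γ (𝒞.k c x.1, 𝒞.k (𝒞.iv c) x.2) := by
  obtain ⟨m, hm, hm0, hme⟩ := germ S i c hc
  set θ : ℂ → ℂ := fun z => tv 𝒞 i ((𝒞.k c).symm z) with hθd
  set P : ℂ → ℂ := fun z => 𝒞.G c z i with hPd
  have hθ : AnalyticAt ℂ θ 0 := tv_an 𝒞 c i hc
  have hP : AnalyticAt ℂ P 0 := an_comp (G_an0 𝒞 c) i
  set κ : ℂ → ℂ := fun v => 𝒞.k c (𝒞.iv ((𝒞.k (𝒞.iv c)).symm v)) with hκd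
  have hκ : AnalyticAt ℂ κ 0 := by
    have := 𝒞.iv_an (𝒞.iv c)
    rwa [𝒞.iv_iv] at this
  have hκ0 : κ 0 = 0 := by
    simp only [hκd]; rw [symm_zero, 𝒞.iv_iv, 𝒞.k_zero]
  -- the function of `(z, w)`
  have h1 : AnalyticAt ℂ (fun p : ℂ × ℂ => P p.1 - P p.2) (0, 0) :=
    (AnalyticAt.comp (g := P) (by simpa using hP) analyticAt_fst).fun_sub
      (AnalyticAt.comp (g := P) (by simpa using hP) analyticAt_snd)
  have h2 : AnalyticAt ℂ (fun p : ℂ × ℂ => θ p.1) (0, 0) :=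
    AnalyticAt.comp (g := θ) (by simpa using hθ) analyticAt_fst
  have h3 : AnalyticAt ℂ (fun p : ℂ × ℂ => θ p.2) (0, 0) :=
    AnalyticAt.comp (g := θ) (by simpa using hθ) analyticAt_snd
  have h4 : AnalyticAt ℂ (fun p : ℂ × ℂ => Rp (lr l i) (θ p.1) (θ p.2)) (0, 0) := Rp_an h2 h3
  set γ0 : ℂ × ℂ → ℂ := fun p => m p ^ 2 - (P p.1 - P p.2) ^ 2 * Rp (lr l i) (θ p.1) (θ p.2)
    with hγ0
  have hγ0a : AnalyticAt ℂ γ0 (0, 0) := (hm.pow 2).fun_sub ((h1.fun_pow 2).fun_mul h4)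
  have hκ2 : AnalyticAt ℂ (fun p : ℂ × ℂ => (p.1, κ p.2)) ((0, 0) : ℂ × ℂ) :=
    analyticAt_fst.prod (AnalyticAt.comp (g := κ) (by simpa using hκ) analyticAt_snd)
  refine ⟨fun p => γ0 (p.1, κ p.2), ?_, ?_, ?_⟩
  · have h5 : AnalyticAt ℂ γ0 ((fun p : ℂ × ℂ => (p.1, κ p.2)) ((0, 0) : ℂ × ℂ)) := by
      simp only [hκ0]; exact hγ0a
    exact AnalyticAt.comp (g := γ0) (f := fun p : ℂ × ℂ => (p.1, κ p.2)) h5 hκ2
  · simp only [Prod.fst_zero, Prod.snd_zero, hκ0, hγ0, sub_self, hm0]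
    norm_num
  · have e1 : ∀ᶠ x in 𝓝 ((c, 𝒞.iv c) : C × C), m (pp 𝒞 c x) * (θ (pp 𝒞 c x).1 - θ (pp 𝒞 c x).2) =
        (P (pp 𝒞 c x).1 - P (pp 𝒞 c x).2) * (S.y i ((𝒞.k c).symm (pp 𝒞 c x).1) +
          S.y i ((𝒞.k c).symm (pp 𝒞 c x).2)) := (tendsto_pp c).eventually hme
    filter_upwards [e1, near_src c, near_Ci hc, h.near c] with x hx hs hC hU hA
    obtain ⟨hs1, hs2, hs3⟩ := hs
    have a1 : (𝒞.k c).symm (pp 𝒞 c x).1 = x.1 := (𝒞.k c).left_inv hs1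
    have a2 : (𝒞.k c).symm (pp 𝒞 c x).2 = 𝒞.iv x.2 := (𝒞.k c).left_inv hs2
    have a3 : θ (pp 𝒞 c x).1 = tv 𝒞 i x.1 := by simp only [hθd, a1]
    have a4 : θ (pp 𝒞 c x).2 = tv 𝒞 i x.2 := by simp only [hθd, a2, tv_iv]
    have a5 : P (pp 𝒞 c x).1 - P (pp 𝒞 c x).2 = U x i := by
      rw [hU]; simp [hPd, pp, Cur.P]
    have a6 : S.y i x.2 = - S.y i (𝒞.iv x.2) := by
      have := S.iv i (𝒞.iv x.2) ((Ci_iv 𝒞).2 hC.2)
      rwa [𝒞.iv_iv] at this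
    have a7 : κ (𝒞.k (𝒞.iv c) x.2) = (pp 𝒞 c x).2 := by
      simp only [hκd, pp]; rw [(𝒞.k (𝒞.iv c)).left_inv hs3]
    have a8 : (𝒞.k c x.1, κ (𝒞.k (𝒞.iv c) x.2)) = pp 𝒞 c x := by rw [a7]; rfl
    simp only [a8]
    rw [a1, a2, a3, a4, a5] at hx
    have hA' : tv 𝒞 i x.1 - tv 𝒞 i x.2 ≠ 0 := sub_ne_zero.2 hA
    have q1 := S.sq i x.1 hC.1
    have q2 := S.sq i x.2 hC.2
    simp only [frm, hγ0, a3, a4, a5]
    rw [div_eq_iff (pow_ne_zero 2 hA'), Fp_eq, ← q1, ← q2]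
    have a6' : S.y i (𝒞.iv x.2) = - S.y i x.2 := by rw [a6]; ring
    rw [a6'] at hx
    have hx2 := congrArg (fun u => u ^ 2) hx
    simp only [mul_pow] at hx2
    linear_combination (-1 : ℂ) * hx2

/-- the slope is not locally constant -/
theorem freq (i : Fin 2) (c : C) (hc : c ∈ Ci 𝒞 i) (v : ℂ → ℂ) :
    ∀ᶠ z in 𝓝 (0 : ℂ), ∃ᶠ z' in 𝓝 z, tv 𝒞 i ((𝒞.k c).symm z') ≠ v z := by
  set θ : ℂ → ℂ := fun z => tv 𝒞 i ((𝒞.k c).symm z) with hθd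
  have hθ : AnalyticAt ℂ θ 0 := tv_an 𝒞 c i hc
  have hnz : ¬ ∀ᶠ z in 𝓝 (0 : ℂ), deriv θ z = 0 := by
    intro h0
    by_cases hiv : 𝒞.iv c = c
    · refine ddtv_ne 𝒞 c i hc hiv h0.self_of_nhds ?_
      have : deriv θ =ᶠ[𝓝 0] fun _ => 0 := h0
      rw [this.deriv_eq]; simp
    · exact dtv_ne 𝒞 c i hc hiv h0.self_of_nhds
  have hpun : ∀ᶠ z in 𝓝[≠] (0 : ℂ), deriv θ z ≠ 0 :=
    (hθ.deriv.eventually_eq_zero_or_eventually_ne_zero).resolve_left hnz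
  rw [eventually_nhdsWithin_iff] at hpun
  filter_upwards [hpun] with z hz hcon
  have hcon' : ∀ᶠ z' in 𝓝 z, θ z' = v z := by
    filter_upwards [hcon] with z' hz' using not_not.1 hz'
  have hd : ∀ᶠ z' in 𝓝 z, deriv θ z' = 0 := by
    filter_upwards [hcon'.eventually_nhds] with z' hz'
    have : θ =ᶠ[𝓝 z'] fun _ => v z := hz'
    rw [this.deriv_eq]; simp
  rcases eq_or_ne z 0 with rfl | hne
  · exact hnz hd
  · exact hz hne hd.self_of_nhds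

theorem near_closure (i : Fin 2) (c : C) (hc : c ∈ Ci 𝒞 i) :
    ∀ᶠ x in 𝓝 ((c, 𝒞.iv c) : C × C), x ∈ closure (As 𝒞 i) := by
  by_contra hcon
  -- choose the values through a function of `z`; argue pointwise instead
  have hall : ∀ᶠ z in 𝓝 (0 : ℂ), ∀ v : ℂ, ∃ᶠ z' in 𝓝 z, tv 𝒞 i ((𝒞.k c).symm z') ≠ v := by
    have hex : ∀ z : ℂ, ∃ v : ℂ, (∃ v' : ℂ, ¬ ∃ᶠ z' in 𝓝 z, tv 𝒞 i ((𝒞.k c).symm z') ≠ v') →
        ¬ ∃ᶠ z' in 𝓝 z, tv 𝒞 i ((𝒞.k c).symm z') ≠ v := by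
      intro z
      by_cases h : ∃ v' : ℂ, ¬ ∃ᶠ z' in 𝓝 z, tv 𝒞 i ((𝒞.k c).symm z') ≠ v'
      · exact ⟨h.choose, fun _ => h.choose_spec⟩
      · exact ⟨0, fun h' => absurd h' h⟩
    choose v hv using hex
    filter_upwards [freq i c hc v] with z hz v'
    by_contra h
    exact hv z ⟨v', h⟩ hz
  apply hcon
  filter_upwards [(tendsto_pp (𝒞 := 𝒞) c).eventually
    ((continuous_fst.tendsto' ((0, 0) : ℂ × ℂ) 0 rfl).eventually hall), near_src c] with x hx hs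
  have h1 := hx (tv 𝒞 i x.2)
  have hz : (𝒞.k c).symm (𝒞.k c x.1) = x.1 := (𝒞.k c).left_inv hs.1
  have ht : Tendsto (fun z' => ((𝒞.k c).symm z', x.2)) (𝓝 (pp 𝒞 c x).1) (𝓝 x) := by
    have h2 : Tendsto (𝒞.k c).symm (𝓝 (𝒞.k c x.1)) (𝓝 x.1) := by
      have := (𝒞.k c).continuousAt_symm ((𝒞.k c).map_source hs.1)
      rwa [ContinuousAt, hz] at this
    have h3 : Tendsto (fun z' => ((𝒞.k c).symm z', x.2)) (𝓝 (𝒞.k c x.1)) (𝓝 (x.1, x.2)) :=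
      h2.prodMk_nhds tendsto_const_nhds
    exact h3
  rw [mem_closure_iff_frequently]
  exact ht.frequently h1

end

end Crest.Agent.R272.K3E_227
end

-- ▼ part R272/K3E5_227

/-!
# R272, K3-EVEN (helper227), part 5: assembly of `Idn_834.K3`
-/

set_option autoImplicit false
set_option linter.unusedSectionVars false

open Set Filter Topology

namespace Crest.Agent.R272.K3E_227

open Crest.Agent.R272.AJ_956 Crest.Agent.R272.Idn_834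

noncomputable section

variable {C : Type} [TopologicalSpace C] {𝒞 : Cur C}

theorem tendsto_cc (c : C) : Tendsto (fun x : C × C => (𝒞.k c x.1, 𝒞.k (𝒞.iv c) x.2))
    (𝓝 (c, 𝒞.iv c)) (𝓝 (0 : ℂ × ℂ)) :=
  ((tendsto_k (𝒞 := 𝒞) c).comp (tendsto_fst' c)).prodMk_nhds
    ((tendsto_k (𝒞 := 𝒞) (𝒞.iv c)).comp (tendsto_snd' c))

/-- the extended functions are analytic near `Γ` -/
theorem gg_loc {l : Fin 7 → ℂ} (S : Sext 𝒞 l) {N : Set (C × C)} {U : C × C → E2}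
    (h : 𝒞.NearE N U) (i : Fin 2) (c : C) (hc : c ∈ Ci 𝒞 i) :
    ∃ γ : ℂ × ℂ → ℂ, AnalyticAt ℂ γ 0 ∧ γ 0 = 4 ∧
      (∀ᶠ x in 𝓝 ((c, 𝒞.iv c) : C × C), gg S U i x = γ (𝒞.k c x.1, 𝒞.k (𝒞.iv c) x.2)) ∧
      (∀ᶠ x in 𝓝 ((c, 𝒞.iv c) : C × C), ContinuousAt (gg S U i) x) ∧
      (∀ᶠ x in 𝓝 ((c, 𝒞.iv c) : C × C), x ∈ As 𝒞 i → gg S U i x = frm S U i x) := by
  obtain ⟨γ, hγ, hγ4, hloc⟩ := loc S h i c hc
  have hcont : ∀ᶠ x in 𝓝 ((c, 𝒞.iv c) : C × C),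
      ContinuousAt (fun x : C × C => γ (𝒞.k c x.1, 𝒞.k (𝒞.iv c) x.2)) x := by
    filter_upwards [(tendsto_cc (𝒞 := 𝒞) c).eventually hγ.eventually_analyticAt, near_src c]
      with x hx hs
    have h1 : ContinuousAt (fun x : C × C => (𝒞.k c x.1, 𝒞.k (𝒞.iv c) x.2)) x :=
      (((𝒞.k c).continuousAt hs.1).comp (f := Prod.fst) continuousAt_fst).prodMk
        (((𝒞.k (𝒞.iv c)).continuousAt hs.2.2).comp (f := Prod.snd) continuousAt_snd)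
    exact ContinuousAt.comp (g := γ) (f := fun x : C × C => (𝒞.k c x.1, 𝒞.k (𝒞.iv c) x.2))
      hx.continuousAt h1
  have hval : ∀ᶠ x in 𝓝 ((c, 𝒞.iv c) : C × C),
      gg S U i x = γ (𝒞.k c x.1, 𝒞.k (𝒞.iv c) x.2) := by
    filter_upwards [hloc.eventually_nhds, hcont, near_closure i c hc] with x h1 h2 h3
    refine extendFrom_eq h3 ?_
    refine Tendsto.congr' ?_ (h2.tendsto.mono_left nhdsWithin_le_nhds)
    filter_upwards [mem_nhdsWithin_of_mem_nhds h1, self_mem_nhdsWithin] with y hy hyA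
    exact (hy hyA).symm
  refine ⟨γ, hγ, hγ4, hval, ?_, ?_⟩
  · filter_upwards [hval.eventually_nhds, hcont] with x h1 h2
    exact h2.congr (by filter_upwards [h1] with y hy using hy.symm)
  · filter_upwards [hval, hloc] with x h1 h2 hA
    rw [h1, h2 hA]

theorem gg_Gam {l : Fin 7 → ℂ} (S : Sext 𝒞 l) {N : Set (C × C)} {U : C × C → E2}
    (h : 𝒞.NearE N U) (i : Fin 2) (c : C) (hc : c ∈ Ci 𝒞 i) : gg S U i (c, 𝒞.iv c) = 4 := by
  obtain ⟨γ, -, hγ4, hval, -, -⟩ := gg_loc S h i c hc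
  have := hval.self_of_nhds
  simp only [𝒞.k_zero] at this
  rw [this]; exact hγ4

theorem near_dom {N : Set (C × C)} {U : C × C → E2} (h : 𝒞.NearE N U) (i : Fin 2) (c : C)
    (hc : c ∈ Ci 𝒞 i) : ∀ᶠ x in 𝓝 ((c, 𝒞.iv c) : C × C), x ∈ 𝒞.Gam ∨ U x i ≠ 0 := by
  have hP := an_comp (G_an0 𝒞 c) i
  have h0 : dd (fun z => 𝒞.G c z i) (0, 0) ≠ 0 := by rw [dd_self, w_eq]; exact hc
  have h1 := (tendsto_pp (𝒞 := 𝒞) c).eventually
    ((dd_analyticAt hP hP).continuousAt.eventually_ne h0)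
  filter_upwards [h1, near_src c, h.near c] with x hx hs hU
  by_contra hcon
  rw [not_or, not_not] at hcon
  obtain ⟨hG, hUi⟩ := hcon
  have h2 := dd_mul (fun z => 𝒞.G c z i) (𝒞.k c x.1) (𝒞.k c (𝒞.iv x.2))
  have h3 : 𝒞.G c (𝒞.k c x.1) i - 𝒞.G c (𝒞.k c (𝒞.iv x.2)) i = 0 := by
    rw [← hUi, hU]; simp [Cur.P]
  simp only [h3] at h2
  have h4 : 𝒞.k c x.1 - 𝒞.k c (𝒞.iv x.2) = 0 := (mul_eq_zero.1 h2).resolve_right hx
  have h5 : x.1 = 𝒞.iv x.2 := (𝒞.k c).injOn hs.1 hs.2.1 (sub_eq_zero.1 h4)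
  apply hG
  change x.2 = 𝒞.iv x.1
  rw [h5, 𝒞.iv_iv]

theorem gg_swap {l : Fin 7 → ℂ} (S : Sext 𝒞 l) {N : Set (C × C)} {U : C × C → E2}
    (h : 𝒞.NearE N U) (i : Fin 2) (x : C × C) (hx : x ∈ N) :
    gg S U i x.swap = gg S U i x := by
  have himg : Prod.swap '' As 𝒞 i = As 𝒞 i := by
    ext y
    constructor
    · rintro ⟨z, hz, rfl⟩
      exact fun hh => hz hh.symm
    · intro hy
      exact ⟨y.swap, fun hh => hy hh.symm, Prod.swap_swap y⟩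
  have hmap : 𝓝[As 𝒞 i] x.swap = map Prod.swap (𝓝[As 𝒞 i] x) := by
    have := (Homeomorph.prodComm C C).isEmbedding.map_nhdsWithin_eq (As 𝒞 i) x
    have h2 : (⇑(Homeomorph.prodComm C C) : C × C → C × C) = Prod.swap := rfl
    rw [h2, himg] at this
    exact this.symm
  have hfr : ∀ᶠ y in 𝓝[As 𝒞 i] x, frm S U i y.swap = frm S U i y := by
    refine mem_nhdsWithin_of_mem_nhds ?_
    filter_upwards [h.open_N.mem_nhds hx] with y hy
    have hU := h.swap y hy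
    simp only [frm, hU, Prod.fst_swap, Prod.snd_swap]
    rw [Fp_symm]
    have e1 : (tv 𝒞 i y.2 - tv 𝒞 i y.1) ^ 2 = (tv 𝒞 i y.1 - tv 𝒞 i y.2) ^ 2 := by ring
    have e2 : 2 * S.y i y.2 * S.y i y.1 = 2 * S.y i y.1 * S.y i y.2 := by ring
    rw [e1, e2]
  have hm : map (frm S U i) (𝓝[As 𝒞 i] x.swap) = map (frm S U i) (𝓝[As 𝒞 i] x) := by
    rw [hmap, Filter.map_map]
    exact Filter.map_congr hfr
  unfold gg extendFrom limUnder
  rw [hm]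

/-- the set where everything is fine -/
def Tset {l : Fin 7 → ℂ} (S : Sext 𝒞 l) (N : Set (C × C)) (U : C × C → E2) (i : Fin 2) :
    Set (C × C) :=
  {x | (x.1 ∈ Ci 𝒞 i ∧ x.2 ∈ Ci 𝒞 i) ∧ (x ∈ 𝒞.Gam ∨ U x i ≠ 0) ∧ gg S U i x ≠ 0 ∧ x ∈ N ∧
    ContinuousAt (gg S U i) x ∧ x ∈ closure (As 𝒞 i) ∧
    (x ∈ As 𝒞 i → gg S U i x = frm S U i x)}

theorem mem_T {l : Fin 7 → ℂ} (S : Sext 𝒞 l) {N : Set (C × C)} {U : C × C → E2}
    (h : 𝒞.NearE N U) (i : Fin 2) (c : C) (hc : c ∈ Ci 𝒞 i) :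
    ((c, 𝒞.iv c) : C × C) ∈ interior (Tset S N U i) := by
  rw [mem_interior_iff_mem_nhds]
  obtain ⟨γ, hγ, hγ4, hval, hco, hfr⟩ := gg_loc S h i c hc
  have hN : ∀ᶠ x in 𝓝 ((c, 𝒞.iv c) : C × C), x ∈ N := h.open_N.mem_nhds (h.sub rfl)
  have hne : ∀ᶠ x in 𝓝 ((c, 𝒞.iv c) : C × C), gg S U i x ≠ 0 :=
    hco.self_of_nhds.eventually_ne (by rw [gg_Gam S h i c hc]; norm_num)
  filter_upwards [hco, hfr, hN, hne, near_closure i c hc, near_dom h i c hc, near_Ci hc]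
    with x h1 h2 h3 h4 h5 h6 h7
  exact ⟨h7, h6, h4, h3, h1, h5, h2⟩

theorem tv_cont (i : Fin 2) (c : C) (hc : c ∈ Ci 𝒞 i) : ContinuousAt (tv 𝒞 i) c := by
  have h1 : ContinuousAt (fun z => tv 𝒞 i ((𝒞.k c).symm z)) (𝒞.k c c) := by
    rw [𝒞.k_zero]; exact (tv_an 𝒞 c i hc).continuousAt
  have h2 := h1.comp ((𝒞.k c).continuousAt (𝒞.k_mem c))
  refine h2.congr ?_
  filter_upwards [(𝒞.k c).open_source.mem_nhds (𝒞.k_mem c)] with y hy
  simp only [Function.comp_apply]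
  rw [(𝒞.k c).left_inv hy]

theorem U_cont {N : Set (C × C)} {U : C × C → E2} (h : 𝒞.NearE N U) (x : C × C) (hx : x ∈ N) :
    ContinuousAt U x := by
  have hP : ∀ c : C, ContinuousAt (𝒞.P c) c := by
    intro c
    have h1 : ContinuousAt (𝒞.G c) (𝒞.k c c) := by
      rw [𝒞.k_zero]; exact (G_an0 𝒞 c).continuousAt
    exact h1.comp ((𝒞.k c).continuousAt (𝒞.k_mem c))
  have h1 : ContinuousAt (fun y : C × C => U x + (𝒞.P x.1 y.1 + 𝒞.P x.2 y.2)) x :=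
    continuousAt_const.add (((hP x.1).comp (f := Prod.fst) continuousAt_fst).add
      ((hP x.2).comp (f := Prod.snd) continuousAt_snd))
  refine h1.congr ?_
  filter_upwards [h.lp x hx] with y hy using hy.symm

theorem tv_ne {c : C} (h0 : c ∈ Ci 𝒞 0) (h1 : c ∈ Ci 𝒞 1) : tv 𝒞 0 c ≠ 0 :=
  div_ne_zero h1 h0

theorem tv_one (c : C) : tv 𝒞 1 c = (tv 𝒞 0 c)⁻¹ := by
  simp [tv]

/-- the relation off `t = t'` -/
theorem rel_A {l : Fin 7 → ℂ} (S : Sext 𝒞 l) (U : C × C → E2) {x : C × C}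
    (h10 : x.1 ∈ Ci 𝒞 0) (h11 : x.1 ∈ Ci 𝒞 1) (h20 : x.2 ∈ Ci 𝒞 0) (h21 : x.2 ∈ Ci 𝒞 1)
    (hA : tv 𝒞 0 x.1 ≠ tv 𝒞 0 x.2) :
    frm S U 1 x * (tv 𝒞 0 x.1 * tv 𝒞 0 x.2) * U x 0 ^ 2 = frm S U 0 x * U x 1 ^ 2 := by
  have ht := tv_ne h10 h11
  have hu := tv_ne h20 h21
  have y1 := S.rel x.1 h10 h11
  have y2 := S.rel x.2 h20 h21
  have hF := Fp_rev l ht hu
  simp only [frm, tv_one] at *
  rw [y1, y2]
  have hlr0 : lr l 0 = l := by simp [lr]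
  have hlr1 : lr l 1 = rv l := by simp [lr]
  rw [hlr0, hlr1, hF]
  set t := tv 𝒞 0 x.1
  set u := tv 𝒞 0 x.2
  have htu : t - u ≠ 0 := sub_ne_zero.2 hA
  have hut : u - t ≠ 0 := sub_ne_zero.2 (Ne.symm hA)
  have hinv : t⁻¹ - u⁻¹ = (u - t) / (t * u) := by field_simp
  rw [hinv]
  field_simp
  ring

theorem rel_main {l : Fin 7 → ℂ} (S : Sext 𝒞 l) {N : Set (C × C)} {U : C × C → E2}
    (h : 𝒞.NearE N U) (x : C × C) (h0 : x ∈ interior (Tset S N U 0))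
    (h1 : x ∈ interior (Tset S N U 1)) :
    gg S U 1 x * (tv 𝒞 0 x.1 * tv 𝒞 0 x.2) = gg S U 0 x * 𝒞.TT U 0 x ^ 2 := by
  have m0 := interior_subset h0
  have m1 := interior_subset h1
  by_cases hG : x ∈ 𝒞.Gam
  · have hx2 : x.2 = 𝒞.iv x.1 := hG
    have hx : x = (x.1, 𝒞.iv x.1) := by rw [← hx2]
    have hTT : 𝒞.TT U 0 x = tv 𝒞 0 x.1 := by
      unfold Cur.TT; rw [if_pos hG]; rfl
    have g1 : gg S U 1 x = 4 := by rw [hx]; exact gg_Gam S h 1 x.1 m1.1.1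
    have g0 : gg S U 0 x = 4 := by rw [hx]; exact gg_Gam S h 0 x.1 m0.1.1
    rw [g1, g0, hTT, hx2, tv_iv]; ring
  · have hU0 : U x 0 ≠ 0 := m0.2.1.resolve_left hG
    have hTT : 𝒞.TT U 0 x = U x 1 / U x 0 := by
      unfold Cur.TT; rw [if_neg hG]; simp
    suffices hs : gg S U 1 x * (tv 𝒞 0 x.1 * tv 𝒞 0 x.2) * U x 0 ^ 2 =
        gg S U 0 x * U x 1 ^ 2 by
      rw [hTT, div_pow, ← mul_div_assoc, eq_div_iff (pow_ne_zero 2 hU0)]; exact hs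
    -- both sides are continuous and agree on `As`
    have cU : ContinuousAt U x := U_cont h x m0.2.2.2.1
    have cUi : ∀ j : Fin 2, ContinuousAt (fun y => U y j) x := fun j =>
      (continuous_apply j).continuousAt.comp cU
    have ct1 : ContinuousAt (fun y : C × C => tv 𝒞 0 y.1) x :=
      (tv_cont 0 x.1 m0.1.1).comp (f := Prod.fst) continuousAt_fst
    have ct2 : ContinuousAt (fun y : C × C => tv 𝒞 0 y.2) x :=
      (tv_cont 0 x.2 m0.1.2).comp (f := Prod.snd) continuousAt_snd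
    have cL : ContinuousAt (fun y : C × C => gg S U 1 y * (tv 𝒞 0 y.1 * tv 𝒞 0 y.2) * U y 0 ^ 2) x :=
      (m1.2.2.2.2.1.mul (ct1.mul ct2)).mul ((cUi 0).pow 2)
    have cR : ContinuousAt (fun y : C × C => gg S U 0 y * U y 1 ^ 2) x :=
      m0.2.2.2.2.1.mul ((cUi 1).pow 2)
    have hcl : x ∈ closure (As 𝒞 0) := m0.2.2.2.2.2.1
    have : NeBot (𝓝[As 𝒞 0] x) := mem_closure_iff_nhdsWithin_neBot.1 hcl
    have hag : ∀ᶠ y in 𝓝[As 𝒞 0] x, gg S U 1 y * (tv 𝒞 0 y.1 * tv 𝒞 0 y.2) * U y 0 ^ 2 =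
        gg S U 0 y * U y 1 ^ 2 := by
      filter_upwards [mem_nhdsWithin_of_mem_nhds (isOpen_interior.mem_nhds h0),
        mem_nhdsWithin_of_mem_nhds (isOpen_interior.mem_nhds h1), self_mem_nhdsWithin]
        with y hy0 hy1 hyA
      have n0 := interior_subset hy0
      have n1 := interior_subset hy1
      have hyA' : tv 𝒞 0 y.1 ≠ tv 𝒞 0 y.2 := hyA
      have hyA1 : y ∈ As 𝒞 1 := by
        intro hh
        rw [tv_one, tv_one] at hh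
        exact hyA' (inv_injective hh)
      rw [n0.2.2.2.2.2.2 hyA, n1.2.2.2.2.2.2 hyA1]
      exact rel_A S U n0.1.1 n1.1.1 n0.1.2 n1.1.2 hyA'
    have l1 := cL.tendsto.mono_left (nhdsWithin_le_nhds (s := As 𝒞 0))
    have l2 := cR.tendsto.mono_left (nhdsWithin_le_nhds (s := As 𝒞 0))
    exact tendsto_nhds_unique (l1.congr' hag) l2

/-- **K3** for the even curve -/
def k3 {l : Fin 7 → ℂ} (S : Sext 𝒞 l) {N : Set (C × C)} {U : C × C → E2}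
    (h : 𝒞.NearE N U) : K3 𝒞 U where
  g := gg S U
  N := fun i => interior (Tset S N U i) ∩ Prod.swap ⁻¹' interior (Tset S N U i)
  open_N := fun i => isOpen_interior.inter (isOpen_interior.preimage continuous_swap)
  sub := by
    intro i c hc
    refine ⟨mem_T S h i c hc, ?_⟩
    have := mem_T S h i (𝒞.iv c) ((Ci_iv 𝒞).2 hc)
    rw [𝒞.iv_iv] at this
    exact this
  dom := by
    intro i x hx
    have := interior_subset hx.1
    exact ⟨this.1.1, this.1.2, this.2.1⟩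
  an := by
    intro i c hc
    obtain ⟨γ, hγ, -, hval, -, -⟩ := gg_loc S h i c hc
    exact ⟨γ, hγ, hval⟩
  ne := fun i x hx => (interior_subset hx.1).2.2.1
  swap_mem := by
    intro i x hx
    refine ⟨hx.2, ?_⟩
    change x.swap.swap ∈ interior (Tset S N U i)
    rw [Prod.swap_swap]; exact hx.1
  symm := fun i x hx => gg_swap S h i x (interior_subset hx.1).2.2.2.1
  rel := fun x hx0 hx1 => rel_main S h x hx0.1 hx1.1

/-- `g i = 4` on `Γ` -/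
theorem k3_Gam {l : Fin 7 → ℂ} (S : Sext 𝒞 l) {N : Set (C × C)} {U : C × C → E2}
    (h : 𝒞.NearE N U) (i : Fin 2) (c : C) (hc : c ∈ Ci 𝒞 i) : (k3 S h).g i (c, 𝒞.iv c) = 4 :=
  gg_Gam S h i c hc

end

end Crest.Agent.R272.K3E_227
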