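import Crest.Agent.R275.Loc2A_879
import Crest.Agent.R272.PhiDefs_92

-- ▼ part R272/PW1_92
section

/-!
# R272, (5W) of #6650 (helper92), part 1: analytic functions of two variables of order `≥ k`

`decomp` : `f` analytic at `0 ∈ ℂ²`, `f = O(|z|^k)` ⟹ `f z = ∑_{i ≤ k} z₀^(k-i) z₁^i A_i(z)` near `0`
with `A_i` analytic.
-/

set_option autoImplicit false
set_option linter.unusedSectionVars false

open Filter Topology Asymptotics Set Metric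

namespace Crest.Agent.R272.PW_92

noncomputable section

/-- one variable -/
theorem div_one' {c : ℂ → ℂ} (hc : AnalyticAt ℂ c 0) {k : ℕ}
    (ho : c =O[𝓝 0] fun z : ℂ => ‖z‖ ^ k) :
    ∃ h : ℂ → ℂ, AnalyticAt ℂ h 0 ∧ ∀ᶠ z in 𝓝 (0 : ℂ), c z = z ^ k * h z := by
  have key : (k : ℕ∞) ≤ analyticOrderAt c 0 := by
    by_contra hlt
    rw [not_le] at hlt
    obtain ⟨m, hm⟩ := ENat.ne_top_iff_exists.1 (ne_top_of_lt hlt)
    rw [← hm] at hlt
    have hmk : m < k := by exact_mod_cast hlt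
    obtain ⟨u, hu, hu0, he⟩ := (hc.analyticOrderAt_eq_natCast).1 hm.symm
    obtain ⟨C, hC⟩ := ho.bound
    have h1 : ∀ᶠ z in 𝓝[≠] (0 : ℂ), ‖u z‖ ≤ C * ‖z‖ ^ (k - m) := by
      filter_upwards [nhdsWithin_le_nhds hC, nhdsWithin_le_nhds he, self_mem_nhdsWithin]
        with z h2 h3 h4
      have hz : 0 < ‖z‖ := norm_pos_iff.2 h4
      rw [sub_zero, smul_eq_mul] at h3
      rw [h3, norm_mul, norm_pow, norm_pow, norm_norm] at h2
      have h5 : ‖z‖ ^ k = ‖z‖ ^ m * ‖z‖ ^ (k - m) := by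
        rw [← pow_add]; congr 1; omega
      rw [h5] at h2
      have h6 : ‖z‖ ^ m * ‖u z‖ ≤ ‖z‖ ^ m * (C * ‖z‖ ^ (k - m)) := by
        linarith [h2, mul_left_comm C (‖z‖ ^ m) (‖z‖ ^ (k - m))]
      exact le_of_mul_le_mul_left h6 (pow_pos hz m)
    have h2 : Tendsto (fun z : ℂ => C * ‖z‖ ^ (k - m)) (𝓝[≠] 0) (𝓝 0) := by
      have : Tendsto (fun z : ℂ => C * ‖z‖ ^ (k - m)) (𝓝 0) (𝓝 (C * ‖(0 : ℂ)‖ ^ (k - m))) := by
        apply Continuous.tendsto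
        fun_prop
      rw [norm_zero, zero_pow (by omega), mul_zero] at this
      exact this.mono_left nhdsWithin_le_nhds
    have h3 : Tendsto (fun z : ℂ => ‖u z‖) (𝓝[≠] 0) (𝓝 ‖u 0‖) :=
      (hu.continuousAt.norm).tendsto.mono_left nhdsWithin_le_nhds
    have h4 : ‖u 0‖ ≤ 0 := le_of_tendsto_of_tendsto h3 h2 h1
    exact hu0 (norm_le_zero_iff.1 h4)
  obtain ⟨h, hh, he⟩ := (natCast_le_analyticOrderAt hc).1 key
  refine ⟨h, hh, he.mono fun z hz => ?_⟩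
  rw [hz, sub_zero, smul_eq_mul]

/-- the coordinate change -/
def ee : (ℂ × ℂ) →L[ℂ] (Fin 2 → ℂ) :=
  ContinuousLinearMap.pi ![ContinuousLinearMap.snd ℂ ℂ ℂ, ContinuousLinearMap.fst ℂ ℂ ℂ]

theorem ee_apply (p : ℂ × ℂ) : ee p = ![p.2, p.1] := by
  funext i
  fin_cases i <;> simp [ee]

theorem norm_vec2 (a c : ℂ) : ‖(![a, c] : Fin 2 → ℂ)‖ = max ‖a‖ ‖c‖ := by
  refine le_antisymm ?_ ?_
  · rw [pi_norm_le_iff_of_nonneg (le_max_of_le_left (norm_nonneg a))]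
    intro i
    fin_cases i
    · exact le_max_left _ _
    · exact le_max_right _ _
  · exact max_le (by simpa using norm_le_pi_norm (![a, c] : Fin 2 → ℂ) 0)
      (by simpa using norm_le_pi_norm (![a, c] : Fin 2 → ℂ) 1)

theorem vec2_eta (z : Fin 2 → ℂ) : ![z 0, z 1] = z := by
  funext i
  fin_cases i <;> rfl

/-- the step -/
theorem div_step {f : (Fin 2 → ℂ) → ℂ} (hf : AnalyticAt ℂ f 0) {k : ℕ}
    (ho : f =O[𝓝 0] fun z : Fin 2 → ℂ => ‖z‖ ^ (k + 1)) :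
    ∃ (g : (Fin 2 → ℂ) → ℂ) (h : ℂ → ℂ), AnalyticAt ℂ g 0 ∧ AnalyticAt ℂ h 0 ∧
      (g =O[𝓝 0] fun z : Fin 2 → ℂ => ‖z‖ ^ k) ∧
      ∀ᶠ z in 𝓝 (0 : Fin 2 → ℂ), f z = z 0 * g z + z 1 ^ (k + 1) * h (z 1) := by
  have he0 : ee (0, 0) = 0 := by rw [ee_apply]; funext i; fin_cases i <;> rfl
  have hF : AnalyticAt ℂ (fun p : ℂ × ℂ => f (ee p)) (0, 0) := by
    refine AnalyticAt.comp (g := f) ?_ (ee.analyticAt _)
    rw [he0]; exact hf
  have hsnd : AnalyticAt ℂ (fun p : ℂ × ℂ => p.2) ((0 : ℂ), (0 : ℂ)) := analyticAt_snd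
  have hord : analyticOrderAt (fun w : ℂ => ((0 : ℂ), w).2) 0 = (1 : ℕ) := by
    rw [AnalyticAt.analyticOrderAt_eq_natCast (by exact analyticAt_id)]
    refine ⟨fun _ => 1, analyticAt_const, one_ne_zero, Eventually.of_forall fun w => ?_⟩
    simp
  obtain ⟨q, c, hq, hc, hqc⟩ := Crest.Agent.R275.Loc2879.wdiv hsnd hord hF
  simp only [Finset.univ_unique, Fin.default_eq_zero, Fin.isValue, Fin.val_eq_zero, pow_zero,
    mul_one, Finset.sum_singleton] at hqc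
  -- back to `Fin 2 → ℂ`
  let dd : (Fin 2 → ℂ) →L[ℂ] (ℂ × ℂ) :=
    (ContinuousLinearMap.proj 1).prod (ContinuousLinearMap.proj 0)
  have hdd : ∀ z, dd z = (z 1, z 0) := fun z => rfl
  have hed : ∀ z, ee (dd z) = z := fun z => by rw [hdd, ee_apply]; exact vec2_eta z
  have hd0 : dd 0 = (0, 0) := rfl
  have hg : AnalyticAt ℂ (fun z => q (dd z)) 0 := by
    refine AnalyticAt.comp (g := q) ?_ (dd.analyticAt _)
    rw [hd0]; exact hq
  have hdt : Tendsto dd (𝓝 0) (𝓝 ((0 : ℂ), (0 : ℂ))) := by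
    rw [← hd0]; exact dd.continuous.continuousAt
  have hid : ∀ᶠ z in 𝓝 (0 : Fin 2 → ℂ), f z = q (dd z) * z 0 + c 0 (z 1) := by
    filter_upwards [hdt.eventually hqc] with z hz
    rw [hed] at hz
    exact hz
  -- the bound for `c`
  have ht : Tendsto (fun w : ℂ => (![0, w] : Fin 2 → ℂ)) (𝓝 0) (𝓝 0) := by
    have h1 : Continuous (fun w : ℂ => (![0, w] : Fin 2 → ℂ)) := by
      refine continuous_pi fun i => ?_
      fin_cases i
      · exact continuous_const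
      · exact continuous_id
    have h2 := h1.tendsto 0
    have h3 : (![0, 0] : Fin 2 → ℂ) = 0 := by funext i; fin_cases i <;> rfl
    rw [h3] at h2
    exact h2
  have hco : c 0 =O[𝓝 0] fun w : ℂ => ‖w‖ ^ (k + 1) := by
    have h1 := ho.comp_tendsto ht
    refine (h1.congr' ?_ ?_)
    · filter_upwards [ht.eventually hid] with w hw
      simp only [Function.comp]
      rw [hw]
      simp
    · refine Eventually.of_forall fun w => ?_
      simp only [Function.comp]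
      rw [norm_vec2, norm_zero, max_eq_right (norm_nonneg w)]
  obtain ⟨h, hh, hh2⟩ := div_one' (hc 0) hco
  refine ⟨fun z => q (dd z), h, hg, hh, ?_, ?_⟩
  · -- bound for `g`
    obtain ⟨C1, hC1⟩ := ho.bound
    obtain ⟨C2, hC2⟩ := hco.bound
    have hp1 : Tendsto (fun z : Fin 2 → ℂ => z 1) (𝓝 0) (𝓝 0) :=
      (continuous_apply (1 : Fin 2)).tendsto' _ _ rfl
    have hall := ((hid.and (hC1.and (hp1.eventually hC2))).and hg.eventually_analyticAt)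
    obtain ⟨ρ, hρ, hρ2⟩ := Metric.eventually_nhds_iff_ball.1 hall
    have hC1' : 0 ≤ |C1| + |C2| := by positivity
    have key : ∀ z ∈ ball (0 : Fin 2 → ℂ) ρ, z 0 ≠ 0 →
        ‖z 0‖ * ‖q (dd z)‖ ≤ (|C1| + |C2|) * ‖z‖ ^ (k + 1) := by
      intro z hz _
      obtain ⟨⟨h1, h2, h3⟩, -⟩ := hρ2 z hz
      have h4 : z 0 * q (dd z) = f z - c 0 (z 1) := by rw [h1]; ring
      have h5 : ‖z 1‖ ≤ ‖z‖ := norm_le_pi_norm z 1
      rw [norm_pow, norm_norm] at h2 h3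
      rw [← norm_mul, h4]
      calc ‖f z - c 0 (z 1)‖ ≤ ‖f z‖ + ‖c 0 (z 1)‖ := norm_sub_le _ _
        _ ≤ |C1| * ‖z‖ ^ (k + 1) + |C2| * ‖z‖ ^ (k + 1) := by
            refine add_le_add (h2.trans ?_) (h3.trans ?_)
            · exact mul_le_mul_of_nonneg_right (le_abs_self _) (by positivity)
            · refine mul_le_mul (le_abs_self _) (pow_le_pow_left₀ (norm_nonneg _) h5 _)
                (by positivity) (abs_nonneg _)
        _ = _ := by ring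
    have key2 : ∀ z ∈ ball (0 : Fin 2 → ℂ) ρ, z ≠ 0 →
        ‖q (dd z)‖ ≤ (|C1| + |C2|) * ‖z‖ ^ k := by
      intro z hz hz0
      have hr : 0 < ‖z‖ := norm_pos_iff.2 hz0
      have hzρ : ‖z‖ < ρ := mem_ball_zero_iff.1 hz
      have hmem : ∀ ζ : ℂ, ‖ζ‖ ≤ ‖z‖ → (![ζ, z 1] : Fin 2 → ℂ) ∈ ball 0 ρ := by
        intro ζ hζ
        rw [mem_ball_zero_iff, norm_vec2]
        exact (max_le hζ (norm_le_pi_norm z 1)).trans_lt hzρ
      have hdiff : DiffContOnCl ℂ (fun ζ : ℂ => q (dd ![ζ, z 1])) (ball 0 ‖z‖) := by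
        refine DifferentiableOn.diffContOnCl ?_
        rw [closure_ball _ hr.ne']
        intro ζ hζ
        have h1 := (hρ2 _ (hmem ζ (mem_closedBall_zero_iff.1 hζ))).2.differentiableAt
        have h2 : DifferentiableAt ℂ (fun ζ : ℂ => (![ζ, z 1] : Fin 2 → ℂ)) ζ := by
          rw [differentiableAt_pi]
          intro i
          fin_cases i
          · exact differentiableAt_id
          · exact differentiableAt_const _
        exact (DifferentiableAt.comp ζ (g := fun z => q (dd z)) h1 h2).differentiableWithinAt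
      have hfr : ∀ ζ ∈ frontier (ball (0 : ℂ) ‖z‖), ‖q (dd ![ζ, z 1])‖ ≤
          (|C1| + |C2|) * ‖z‖ ^ k := by
        intro ζ hζ
        rw [frontier_ball _ hr.ne', mem_sphere_zero_iff_norm] at hζ
        have hζ0 : ζ ≠ 0 := norm_pos_iff.1 (by rw [hζ]; exact hr)
        have h1 := key _ (hmem ζ hζ.le) (by simpa using hζ0)
        have h2 : ‖(![ζ, z 1] : Fin 2 → ℂ)‖ = ‖z‖ := by
          rw [norm_vec2, hζ]
          exact max_eq_left (norm_le_pi_norm z 1)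
        rw [h2] at h1
        simp only [Matrix.cons_val_zero] at h1
        rw [hζ] at h1
        have h3 : ‖z‖ * ‖q (dd ![ζ, z 1])‖ ≤ ‖z‖ * ((|C1| + |C2|) * ‖z‖ ^ k) := by
          calc _ ≤ (|C1| + |C2|) * ‖z‖ ^ (k + 1) := h1
            _ = _ := by ring
        exact le_of_mul_le_mul_left h3 hr
      have h1 := Complex.norm_le_of_forall_mem_frontier_norm_le isBounded_ball hdiff hfr
        (z := z 0) (by
          rw [closure_ball _ hr.ne', mem_closedBall_zero_iff]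
          exact norm_le_pi_norm z 0)
      rwa [vec2_eta] at h1
    refine IsBigO.of_bound (|C1| + |C2|) ?_
    filter_upwards [ball_mem_nhds (0 : Fin 2 → ℂ) hρ] with z hz
    rw [norm_pow, norm_norm]
    by_cases hz0 : z = 0
    · subst hz0
      have : NeBot (𝓝[≠] (0 : Fin 2 → ℂ)) := Module.punctured_nhds_neBot ℂ (Fin 2 → ℂ) 0
      have t1 : Tendsto (fun z => ‖q (dd z)‖) (𝓝[≠] (0 : Fin 2 → ℂ)) (𝓝 ‖q (dd 0)‖) :=
        (hg.continuousAt.norm).tendsto.mono_left nhdsWithin_le_nhds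
      have t2 : Tendsto (fun z : Fin 2 → ℂ => (|C1| + |C2|) * ‖z‖ ^ k) (𝓝[≠] 0)
          (𝓝 ((|C1| + |C2|) * ‖(0 : Fin 2 → ℂ)‖ ^ k)) := by
        refine Tendsto.mono_left ?_ nhdsWithin_le_nhds
        apply Continuous.tendsto
        fun_prop
      refine le_of_tendsto_of_tendsto t1 t2 ?_
      filter_upwards [nhdsWithin_le_nhds (ball_mem_nhds (0 : Fin 2 → ℂ) hρ),
        self_mem_nhdsWithin] with z h1 h2
      exact key2 z h1 h2
    · exact key2 z hz hz0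
  · have hp1 : Tendsto (fun z : Fin 2 → ℂ => z 1) (𝓝 0) (𝓝 0) :=
      (continuous_apply (1 : Fin 2)).tendsto' _ _ rfl
    filter_upwards [hid, hp1.eventually hh2] with z h1 h2
    rw [h1, h2]
    ring

/-- **division** -/
theorem decomp (k : ℕ) : ∀ {f : (Fin 2 → ℂ) → ℂ}, AnalyticAt ℂ f 0 →
    (f =O[𝓝 0] fun z : Fin 2 → ℂ => ‖z‖ ^ k) →
    ∃ A : ℕ → (Fin 2 → ℂ) → ℂ, (∀ i, AnalyticAt ℂ (A i) 0) ∧
      ∀ᶠ z in 𝓝 (0 : Fin 2 → ℂ), f z = ∑ i ∈ Finset.range (k + 1), z 0 ^ (k - i) * z 1 ^ i * A i z := by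
  induction k with
  | zero =>
    intro f hf _
    exact ⟨fun _ => f, fun _ => hf, Eventually.of_forall fun z => by simp⟩
  | succ k ih =>
    intro f hf ho
    obtain ⟨g, h, hg, hh, hgo, hfe⟩ := div_step hf ho
    obtain ⟨A, hA, hAe⟩ := ih hg hgo
    refine ⟨fun i => if i ≤ k then A i else fun z => h (z 1), fun i => ?_, ?_⟩
    · by_cases hi : i ≤ k
      · simp only [hi, if_true]; exact hA i
      · simp only [hi, if_false]
        have h1 : AnalyticAt ℂ (fun z : Fin 2 → ℂ => z 1) 0 :=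
          (ContinuousLinearMap.proj (R := ℂ) (φ := fun _ : Fin 2 => ℂ) (1 : Fin 2)).analyticAt _
        exact AnalyticAt.comp (g := h) (f := fun z : Fin 2 → ℂ => z 1) hh h1
    · filter_upwards [hfe, hAe] with z h1 h2
      rw [Finset.sum_range_succ, h1, h2, Finset.mul_sum]
      congr 1
      · refine Finset.sum_congr rfl fun i hi => ?_
        have hi' : i ≤ k := Nat.lt_succ_iff.1 (Finset.mem_range.1 hi)
        simp only [hi', if_true]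
        have e : k + 1 - i = (k - i) + 1 := by omega
        rw [e, pow_succ]
        ring
      · have e : ¬ (k + 1 ≤ k) := by omega
        simp only [e, if_false, Nat.sub_self, pow_zero, one_mul]

end

end Crest.Agent.R272.PW_92
end

-- ▼ part R272/PW2_92

/-!
# R272, (5W) of #6650 (helper92), part 2: the functions `x = (x₀, E, v)` and `R` on the cone

`KD κ q`    : input; `q j` = `x_j / ω` as a function of `z ∈ ℂ²` near `0`;
`KF κ q`    : coefficients `A j i`, `B i` on a ball `|z| < ε`;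
`K.X z m j` = `∑ m_i A j i z`, `K.RR z m = ∑ M_i(m) B_i z`;
`K.yy s τ j`, `K.be s τ` : `z = τ s`, `m = ρ (s₀², s₀ s₁, s₁²)` ⟹ `X = ρ yy`, `RR = ρ³ be`,
                `disc (yy s τ) = τ² be s τ`.
-/

set_option autoImplicit false
set_option linter.unusedSectionVars false

open Filter Topology Asymptotics Set Metric

namespace Crest.Agent.R272.PW_92

noncomputable section

/-- `(κ, 2 κ, κ)` -/
def kc (κ : ℂ) : Fin 3 → ℂ := ![κ, 2 * κ, κ]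

/-- **input**: `q 0 = 1 / G`, `q 1 = (t + t') / G`, `q 2 = t t' / G` as functions of `z` -/
structure KD (κ : ℂ) (q : Fin 3 → (Fin 2 → ℂ) → ℂ) : Prop where
  κ_ne : κ ≠ 0
  an : ∀ j, AnalyticAt ℂ (q j) 0
  j0 : (fun z : Fin 2 → ℂ => q 0 z - κ * z 0 ^ 2) =O[𝓝 0] fun z : Fin 2 → ℂ => ‖z‖ ^ 3
  j1 : (fun z : Fin 2 → ℂ => q 1 z - 2 * κ * (z 0 * z 1)) =O[𝓝 0] fun z : Fin 2 → ℂ => ‖z‖ ^ 3
  j2 : (fun z : Fin 2 → ℂ => q 2 z - κ * z 1 ^ 2) =O[𝓝 0] fun z : Fin 2 → ℂ => ‖z‖ ^ 3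
  disc6 : (fun z : Fin 2 → ℂ => disc fun j => q j z) =O[𝓝 0] fun z : Fin 2 → ℂ => ‖z‖ ^ 6
  nz : ¬ ∀ᶠ z in 𝓝 (0 : Fin 2 → ℂ), disc (fun j => q j z) = 0

/-- coefficients on a ball -/
structure KF (κ : ℂ) (q : Fin 3 → (Fin 2 → ℂ) → ℂ) where
  ε : ℝ
  ε_pos : 0 < ε
  A : Fin 3 → Fin 3 → (Fin 2 → ℂ) → ℂ
  B : Fin 7 → (Fin 2 → ℂ) → ℂ
  κ_ne : κ ≠ 0
  q_an : ∀ j, AnalyticOnNhd ℂ (q j) (ball 0 ε)
  A_an : ∀ j i, AnalyticOnNhd ℂ (A j i) (ball 0 ε)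
  B_an : ∀ i, AnalyticOnNhd ℂ (B i) (ball 0 ε)
  A_eq : ∀ j, ∀ z ∈ ball (0 : Fin 2 → ℂ) ε,
    q j z = z 0 ^ 2 * A j 0 z + z 0 * z 1 * A j 1 z + z 1 ^ 2 * A j 2 z
  A_zero : ∀ j i, A j i 0 = if i = j then kc κ j else 0
  B_eq : ∀ z ∈ ball (0 : Fin 2 → ℂ) ε,
    disc (fun j => q j z) = ∑ i : Fin 7, z 0 ^ (6 - (i : ℕ)) * z 1 ^ (i : ℕ) * B i z
  nzP : ∀ z ∈ ball (0 : Fin 2 → ℂ) ε, ¬ ∀ᶠ w in 𝓝 z, disc (fun j => q j w) = 0
  nzq : ∀ z ∈ ball (0 : Fin 2 → ℂ) ε, ¬ ∀ᶠ w in 𝓝 z, q 0 w = 0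

theorem an_coord (i : Fin 2) (z : Fin 2 → ℂ) : AnalyticAt ℂ (fun z : Fin 2 → ℂ => z i) z :=
  (ContinuousLinearMap.proj (R := ℂ) (φ := fun _ : Fin 2 => ℂ) i).analyticAt _

theorem an_disc {q : Fin 3 → (Fin 2 → ℂ) → ℂ} {z : Fin 2 → ℂ} (h : ∀ j, AnalyticAt ℂ (q j) z) :
    AnalyticAt ℂ (fun z => disc fun j => q j z) z := by
  unfold disc
  exact ((h 1).pow 2).sub ((analyticAt_const.mul (h 0)).mul (h 2))

theorem mono3 (j : Fin 3) (z : Fin 2 → ℂ) : z 0 ^ (2 - (j : ℕ)) * z 1 ^ (j : ℕ) =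
    ![z 0 ^ 2, z 0 * z 1, z 1 ^ 2] j := by
  fin_cases j <;> simp

theorem exists_row {κ' : ℂ} (j : Fin 3) {q : (Fin 2 → ℂ) → ℂ} (hq : AnalyticAt ℂ q 0)
    (ho : (fun z : Fin 2 → ℂ => q z - κ' * ![z 0 ^ 2, z 0 * z 1, z 1 ^ 2] j) =O[𝓝 0]
      fun z : Fin 2 → ℂ => ‖z‖ ^ 3) :
    ∃ A : Fin 3 → (Fin 2 → ℂ) → ℂ, (∀ i, AnalyticAt ℂ (A i) 0) ∧
      (∀ᶠ z in 𝓝 (0 : Fin 2 → ℂ), q z = z 0 ^ 2 * A 0 z + z 0 * z 1 * A 1 z + z 1 ^ 2 * A 2 z) ∧
      ∀ i, A i 0 = if i = j then κ' else 0 := by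
  have hm : AnalyticAt ℂ (fun z : Fin 2 → ℂ => q z - κ' * ![z 0 ^ 2, z 0 * z 1, z 1 ^ 2] j) 0 := by
    refine hq.sub (analyticAt_const.mul ?_)
    have := fun z : Fin 2 → ℂ => mono3 j z
    simp only [← this]
    exact ((an_coord 0 0).pow _).mul ((an_coord 1 0).pow _)
  obtain ⟨B, hB, hBe⟩ := decomp 3 hm ho
  refine ⟨![fun z => (if (0 : Fin 3) = j then κ' else 0) + (z 0 * B 0 z + z 1 * B 1 z),
    fun z => (if (1 : Fin 3) = j then κ' else 0) + z 1 * B 2 z,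
    fun z => (if (2 : Fin 3) = j then κ' else 0) + z 1 * B 3 z], ?_, ?_, ?_⟩
  · intro i
    fin_cases i
    · exact analyticAt_const.add (((an_coord 0 0).mul (hB 0)).add ((an_coord 1 0).mul (hB 1)))
    · exact analyticAt_const.add ((an_coord 1 0).mul (hB 2))
    · exact analyticAt_const.add ((an_coord 1 0).mul (hB 3))
  · filter_upwards [hBe] with z hz
    simp only [Finset.sum_range_succ, Finset.range_zero, Finset.sum_empty, zero_add, Nat.sub_zero,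
      pow_zero, mul_one, pow_one, Nat.sub_self, one_mul] at hz
    have e1 : q z = κ' * ![z 0 ^ 2, z 0 * z 1, z 1 ^ 2] j + (z 0 ^ 3 * B 0 z +
        z 0 ^ (3 - 1) * z 1 * B 1 z + z 0 ^ (3 - 2) * z 1 ^ 2 * B 2 z + z 1 ^ 3 * B 3 z) := by
      rw [← hz]; ring
    rw [e1]
    fin_cases j <;> simp <;> ring
  · intro i
    fin_cases i <;> simp

theorem kf_ev {α : Type*} [TopologicalSpace α] {x : α} {ι : Type*} [Finite ι] {p : ι → α → Prop}
    (h : ∀ i, ∀ᶠ y in 𝓝 x, p i y) : ∀ᶠ y in 𝓝 x, ∀ i, p i y := eventually_all.2 h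

/-- an analytic function on a ball which is not identically zero near the centre -/
theorem nz_ball {f : (Fin 2 → ℂ) → ℂ} {ε : ℝ} (hε : 0 < ε) (hf : AnalyticOnNhd ℂ f (ball 0 ε))
    (h0 : ¬ ∀ᶠ z in 𝓝 (0 : Fin 2 → ℂ), f z = 0) :
    ∀ z ∈ ball (0 : Fin 2 → ℂ) ε, ¬ ∀ᶠ w in 𝓝 z, f w = 0 := by
  intro z hz h1
  apply h0
  have h2 := hf.eqOn_zero_of_preconnected_of_eventuallyEq_zero
    (convex_ball _ _).isPreconnected hz h1
  filter_upwards [ball_mem_nhds (0 : Fin 2 → ℂ) hε] with w hw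
  exact h2 hw

theorem KD.nz0 {κ : ℂ} {q : Fin 3 → (Fin 2 → ℂ) → ℂ} (h : KD κ q) :
    ¬ ∀ᶠ z in 𝓝 (0 : Fin 2 → ℂ), q 0 z = 0 := by
  intro h0
  obtain ⟨C, hC⟩ := h.j0.bound
  have h1 : ∀ᶠ z in 𝓝 (0 : Fin 2 → ℂ), ‖κ‖ * ‖z 0‖ ^ 2 ≤ C * ‖z‖ ^ 3 := by
    filter_upwards [h0, hC] with z h2 h3
    rw [h2, zero_sub, norm_neg, norm_mul, norm_pow, norm_pow, norm_norm] at h3
    exact h3
  have ht : Tendsto (fun w : ℂ => (![w, 0] : Fin 2 → ℂ)) (𝓝 0) (𝓝 0) := by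
    have h1 : Continuous (fun w : ℂ => (![w, 0] : Fin 2 → ℂ)) := by
      refine continuous_pi fun i => ?_
      fin_cases i
      · exact continuous_id
      · exact continuous_const
    have h2 := h1.tendsto 0
    have h3 : (![0, 0] : Fin 2 → ℂ) = 0 := by funext i; fin_cases i <;> rfl
    rw [h3] at h2
    exact h2
  have h2 : ∀ᶠ w in 𝓝[≠] (0 : ℂ), ‖κ‖ ≤ C * ‖w‖ := by
    filter_upwards [nhdsWithin_le_nhds (ht.eventually h1), self_mem_nhdsWithin] with w h3 h4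
    have hw : 0 < ‖w‖ := norm_pos_iff.2 h4
    rw [norm_vec2, norm_zero, max_eq_left (norm_nonneg w)] at h3
    simp only [Matrix.cons_val_zero] at h3
    have h5 : ‖w‖ ^ 2 * ‖κ‖ ≤ ‖w‖ ^ 2 * (C * ‖w‖) := by
      calc ‖w‖ ^ 2 * ‖κ‖ = ‖κ‖ * ‖w‖ ^ 2 := by ring
        _ ≤ C * ‖w‖ ^ 3 := h3
        _ = _ := by ring
    exact le_of_mul_le_mul_left h5 (pow_pos hw 2)
  have h3 : Tendsto (fun w : ℂ => C * ‖w‖) (𝓝[≠] 0) (𝓝 0) := by
    have : Tendsto (fun w : ℂ => C * ‖w‖) (𝓝 0) (𝓝 (C * ‖(0 : ℂ)‖)) := by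
      apply Continuous.tendsto
      fun_prop
    rw [norm_zero, mul_zero] at this
    exact this.mono_left nhdsWithin_le_nhds
  have h4 : ‖κ‖ ≤ 0 := ge_of_tendsto h3 h2
  exact h.κ_ne (norm_le_zero_iff.1 h4)

/-- **existence of the coefficients** -/
theorem KD.exists_kf {κ : ℂ} {q : Fin 3 → (Fin 2 → ℂ) → ℂ} (h : KD κ q) : Nonempty (KF κ q) := by
  have hrow : ∀ j : Fin 3, ∃ A : Fin 3 → (Fin 2 → ℂ) → ℂ, (∀ i, AnalyticAt ℂ (A i) 0) ∧
      (∀ᶠ z in 𝓝 (0 : Fin 2 → ℂ), q j z =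
        z 0 ^ 2 * A 0 z + z 0 * z 1 * A 1 z + z 1 ^ 2 * A 2 z) ∧
      ∀ i, A i 0 = if i = j then kc κ j else 0 := by
    intro j
    refine exists_row j (h.an j) ?_
    fin_cases j
    · exact h.j0
    · exact h.j1
    · exact h.j2
  choose A hA hAe hA0 using hrow
  obtain ⟨B, hB, hBe⟩ := decomp 6 (an_disc h.an) h.disc6
  have hall : ∀ᶠ z in 𝓝 (0 : Fin 2 → ℂ), (∀ j, AnalyticAt ℂ (q j) z) ∧
      (∀ j i, AnalyticAt ℂ (A j i) z) ∧ (∀ i : Fin 7, AnalyticAt ℂ (B i) z) ∧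
      (∀ j, q j z = z 0 ^ 2 * A j 0 z + z 0 * z 1 * A j 1 z + z 1 ^ 2 * A j 2 z) ∧
      disc (fun j => q j z) = ∑ i ∈ Finset.range (6 + 1), z 0 ^ (6 - i) * z 1 ^ i * B i z := by
    refine (kf_ev fun j => (h.an j).eventually_analyticAt).and
      ((kf_ev fun j => kf_ev fun i => (hA j i).eventually_analyticAt).and
      ((kf_ev fun i : Fin 7 => (hB i).eventually_analyticAt).and
      ((kf_ev hAe).and hBe)))
  obtain ⟨ε, hε, hb⟩ := Metric.eventually_nhds_iff_ball.1 hall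
  refine ⟨⟨ε, hε, A, fun i => B i, h.κ_ne, fun j z hz => (hb z hz).1 j,
    fun j i z hz => (hb z hz).2.1 j i, fun i z hz => (hb z hz).2.2.1 i,
    fun j z hz => (hb z hz).2.2.2.1 j, hA0, fun z hz => ?_, ?_, ?_⟩⟩
  · rw [(hb z hz).2.2.2.2, Finset.sum_range]
  · exact nz_ball hε (fun z hz => an_disc fun j => (hb z hz).1 j) h.nz
  · exact nz_ball hε (fun z hz => (hb z hz).1 0) h.nz0

namespace KF

variable {κ : ℂ} {q : Fin 3 → (Fin 2 → ℂ) → ℂ} (K : KF κ q)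

/-- cubic monomials in `m` -/
def MM (m : Fin 3 → ℂ) : Fin 7 → ℂ :=
  ![m 0 ^ 3, m 0 ^ 2 * m 1, m 0 ^ 2 * m 2, m 0 * m 1 * m 2, m 0 * m 2 ^ 2, m 1 * m 2 ^ 2, m 2 ^ 3]

/-- `x = (x₀, E, v)` as a function of `(z, m)` -/
def X (z : Fin 2 → ℂ) (m : Fin 3 → ℂ) (j : Fin 3) : ℂ :=
  m 0 * K.A j 0 z + m 1 * K.A j 1 z + m 2 * K.A j 2 z

/-- `R` as a function of `(z, m)` -/
def RR (z : Fin 2 → ℂ) (m : Fin 3 → ℂ) : ℂ := ∑ i, MM m i * K.B i z

/-- `X / ρ` -/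
def yy (s : Fin 2 → ℂ) (τ : ℂ) (j : Fin 3) : ℂ :=
  s 0 ^ 2 * K.A j 0 (τ • s) + s 0 * s 1 * K.A j 1 (τ • s) + s 1 ^ 2 * K.A j 2 (τ • s)

/-- `RR / ρ³` -/
def be (s : Fin 2 → ℂ) (τ : ℂ) : ℂ :=
  ∑ i : Fin 7, s 0 ^ (6 - (i : ℕ)) * s 1 ^ (i : ℕ) * K.B i (τ • s)

/-- `m = ρ (s₀², s₀ s₁, s₁²)` -/
def qu (ρ : ℂ) (s : Fin 2 → ℂ) : Fin 3 → ℂ := ![ρ * s 0 ^ 2, ρ * (s 0 * s 1), ρ * s 1 ^ 2]

theorem X_qu (s : Fin 2 → ℂ) (ρ τ : ℂ) (j : Fin 3) : K.X (τ • s) (qu ρ s) j = ρ * K.yy s τ j := by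
  simp only [X, qu, yy, Matrix.cons_val_zero, Matrix.cons_val_one, Matrix.cons_val]
  ring

theorem MM_qu (ρ : ℂ) (s : Fin 2 → ℂ) (i : Fin 7) :
    MM (qu ρ s) i = ρ ^ 3 * (s 0 ^ (6 - (i : ℕ)) * s 1 ^ (i : ℕ)) := by
  fin_cases i <;> simp [MM, qu] <;> ring

theorem RR_qu (s : Fin 2 → ℂ) (ρ τ : ℂ) : K.RR (τ • s) (qu ρ s) = ρ ^ 3 * K.be s τ := by
  simp only [RR, be, MM_qu, Finset.mul_sum]
  exact Finset.sum_congr rfl fun i _ => by ring

theorem q_yy {s : Fin 2 → ℂ} {τ : ℂ} (h : τ • s ∈ ball (0 : Fin 2 → ℂ) K.ε) (j : Fin 3) :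
    q j (τ • s) = τ ^ 2 * K.yy s τ j := by
  rw [K.A_eq j _ h]
  simp only [yy, Pi.smul_apply, smul_eq_mul]
  ring

theorem P_be {s : Fin 2 → ℂ} {τ : ℂ} (h : τ • s ∈ ball (0 : Fin 2 → ℂ) K.ε) :
    disc (fun j => q j (τ • s)) = τ ^ 6 * K.be s τ := by
  rw [K.B_eq _ h, be, Finset.mul_sum]
  refine Finset.sum_congr rfl fun i _ => ?_
  simp only [Pi.smul_apply, smul_eq_mul, mul_pow]
  have h6 : τ ^ 6 = τ ^ (6 - (i : ℕ)) * τ ^ (i : ℕ) := by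
    rw [← pow_add]; congr 1; omega
  rw [h6]
  ring

theorem disc_yy_of_ne {s : Fin 2 → ℂ} {τ : ℂ} (h : τ • s ∈ ball (0 : Fin 2 → ℂ) K.ε)
    (hτ : τ ≠ 0) : disc (K.yy s τ) = τ ^ 2 * K.be s τ := by
  have h1 := K.P_be h
  have h2 : disc (fun j => q j (τ • s)) = τ ^ 4 * disc (K.yy s τ) := by
    simp only [disc, K.q_yy h]
    ring
  rw [h2] at h1
  have h3 : τ ^ 4 ≠ 0 := pow_ne_zero 4 hτ
  apply mul_left_cancel₀ h3
  rw [h1]
  ring

theorem an_yy {E : Type*} [NormedAddCommGroup E] [NormedSpace ℂ E] {s : E → (Fin 2 → ℂ)}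
    {τ : E → ℂ} {c : E} (hs : ∀ i, AnalyticAt ℂ (fun c => s c i) c) (hτ : AnalyticAt ℂ τ c)
    (h : τ c • s c ∈ ball (0 : Fin 2 → ℂ) K.ε) (j : Fin 3) :
    AnalyticAt ℂ (fun c => K.yy (s c) (τ c) j) c := by
  have hz : AnalyticAt ℂ (fun c => τ c • s c) c := by
    refine AnalyticAt.pi fun i => ?_
    simp only [Pi.smul_apply, smul_eq_mul]
    exact hτ.mul (hs i)
  have hA : ∀ i, AnalyticAt ℂ (fun c => K.A j i (τ c • s c)) c := fun i =>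
    AnalyticAt.comp (g := K.A j i) (f := fun c => τ c • s c) (K.A_an j i _ h) hz
  simp only [yy]
  exact ((((hs 0).pow 2).mul (hA 0)).add (((hs 0).mul (hs 1)).mul (hA 1))).add
    (((hs 1).pow 2).mul (hA 2))

theorem an_be {E : Type*} [NormedAddCommGroup E] [NormedSpace ℂ E] {s : E → (Fin 2 → ℂ)}
    {τ : E → ℂ} {c : E} (hs : ∀ i, AnalyticAt ℂ (fun c => s c i) c) (hτ : AnalyticAt ℂ τ c)
    (h : τ c • s c ∈ ball (0 : Fin 2 → ℂ) K.ε) :
    AnalyticAt ℂ (fun c => K.be (s c) (τ c)) c := by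
  have hz : AnalyticAt ℂ (fun c => τ c • s c) c := by
    refine AnalyticAt.pi fun i => ?_
    simp only [Pi.smul_apply, smul_eq_mul]
    exact hτ.mul (hs i)
  have hB : ∀ i, AnalyticAt ℂ (fun c => K.B i (τ c • s c)) c := fun i =>
    AnalyticAt.comp (g := K.B i) (f := fun c => τ c • s c) (K.B_an i _ h) hz
  simp only [be]
  exact Finset.analyticAt_fun_sum _ fun i _ => (((hs 0).pow _).mul ((hs 1).pow _)).mul (hB i)

theorem disc_yy {s : Fin 2 → ℂ} {τ : ℂ} (h : τ • s ∈ ball (0 : Fin 2 → ℂ) K.ε) :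
    disc (K.yy s τ) = τ ^ 2 * K.be s τ := by
  by_cases hτ : τ ≠ 0
  · exact K.disc_yy_of_ne h hτ
  · rw [not_not] at hτ
    subst hτ
    have hs : ∀ i, AnalyticAt ℂ (fun _ : ℂ => s i) (0 : ℂ) := fun i => analyticAt_const
    have c1 : ContinuousAt (fun τ : ℂ => disc (K.yy s τ)) 0 := by
      have h1 := fun j => K.an_yy (s := fun _ : ℂ => s) hs analyticAt_id h j
      unfold disc
      exact ((((h1 1).pow 2).sub ((analyticAt_const.mul (h1 0)).mul (h1 2)))).continuousAt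
    have c2 : ContinuousAt (fun τ : ℂ => τ ^ 2 * K.be s τ) 0 :=
      ((analyticAt_id.pow 2).mul (K.an_be (s := fun _ : ℂ => s) hs analyticAt_id h)).continuousAt
    have hc : ContinuousAt (fun τ : ℂ => τ • s) 0 := by fun_prop
    have h3 : ∀ᶠ τ in 𝓝[≠] (0 : ℂ), disc (K.yy s τ) = τ ^ 2 * K.be s τ := by
      filter_upwards [nhdsWithin_le_nhds (hc.eventually (isOpen_ball.mem_nhds h)),
        self_mem_nhdsWithin] with t h4 h5
      exact K.disc_yy_of_ne h4 h5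
    exact tendsto_nhds_unique ((c1.tendsto.mono_left nhdsWithin_le_nhds).congr' h3)
      (c2.tendsto.mono_left nhdsWithin_le_nhds)

/-- values at `z = 0` -/
theorem yy_zero {s : Fin 2 → ℂ} {τ : ℂ} (h : τ • s = 0) (j : Fin 3) :
    K.yy s τ j = ![κ * s 0 ^ 2, 2 * κ * (s 0 * s 1), κ * s 1 ^ 2] j := by
  simp only [yy, h, K.A_zero]
  fin_cases j <;> simp [kc] <;> ring

end KF

end

end Crest.Agent.R272.PW_92
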