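import Crest.Agent.R272.Lc9_220
import Crest.Agent.R272.Tp7_60
import Crest.Agent.R272.Tq2_916
import Crest.Agent.R272.PosP3_848
import Crest.Agent.R272.PEnd10_732
import Crest.Agent.R272.Kum8_977
import Crest.Agent.R272.K3E5_227
import Crest.Agent.R272.IdnE_834
import Crest.Agent.R272.Idn2_834
import Crest.Agent.R272.AJd_956
import Crest.Agent.R266.SCV
import Crest.Agent.R272.K3F_227
import Crest.Agent.R272.PW4_92
import Crest.Agent.R272.PosP6_848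
import Crest.Agent.R272.PW2_92

-- ▼ part R272/KbDefs_898
section

/-!
# R272 (S0415), POS at `p0`, (K-b) (helper898): hypotheses

* `sc i S`  : the second coordinate of the colour `i` (`S₁`, `S₂`);
* `KLoc D L`: the functions of the model in the local coordinates of the cluster;
* `St`      : the standard coordinates `st` on an open set `O`, the swap.
-/

set_option autoImplicit false
set_option linter.unusedSectionVars false

open Set Filter Topology OnePoint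

namespace Crest.Agent.R272.Kb_898

open Crest.Agent.R275.Geo Crest.Agent.R273.Fam_835 Crest.Agent.R272.FamP_54
open Crest.Agent.R272.HFam_342 Crest.Agent.R272.Tp1_60 Crest.Agent.R272.Refl_246
open Crest.Agent.R272.Tp2_60 hiding Amb
open Crest.Agent.R272.Tp3_60 Crest.Agent.R272.Tp5_60 Crest.Agent.R272.Tp6_60
open Crest.Agent.R272.Cur_297 (Par Cv tt kk)
open Crest.Agent.R272.P1A_54 (ambFam amb_z amb_t amb_v amb_k)
open Crest.Agent.R272.Gr_559 (GData Pen)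
open Crest.Agent.R272.Act_302 (GAct)
open Crest.Agent.R272.Tq1_916 (swA)
open Crest.Agent.R272.Quot_783

noncomputable section

variable {N : Type} [TopologicalSpace N] {F : Fam 3 N} {P : Par}

/-- the second coordinate of the colour `i` -/
def sc (i : Fin 2) (S : ℂ × ℂ × ℂ) : ℂ := if i = 0 then S.2.1 else S.2.2

@[simp] theorem sc_zero (S : ℂ × ℂ × ℂ) : sc 0 S = S.2.1 := rfl
@[simp] theorem sc_one (S : ℂ × ℂ × ℂ) : sc 1 S = S.2.2 := rfl

/-- the functions of the model in the local coordinates of the cluster -/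
structure KLoc (D : GData F) (L : Loc P N) where
  u : Fin 2 → N → ℂ
  w : Fin 2 → N → ℂ
  hu : ∀ i, ∀ z ∈ L.sh.source, HFA F (u i) z
  hw : ∀ i, ∀ z ∈ L.sh.source, HFA F (w i) z
  u0 : ∀ i, ∀ z ∈ L.sh.source, u i z ≠ 0
  w0 : ∀ i, ∀ z ∈ L.sh.source, w i z ≠ 0
  ef : ∀ z ∈ L.sh.source, D.f0 z = L.a z * (L.sh z).1
  ex : ∀ i, ∀ z ∈ L.sh.source, D.x i z = L.b i z * (sc i (L.sh z) - P.c 5 * (L.sh z).1)
  eP : ∀ i, ∀ z ∈ L.sh.source, D.P i z = u i z * ((sc i (L.sh z) - P.c 0 * (L.sh z).1) *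
    (sc i (L.sh z) - P.c 1 * (L.sh z).1) * (sc i (L.sh z) - P.c 2 * (L.sh z).1))
  eQ : ∀ i, ∀ z ∈ L.sh.source, D.Q i z = w i z * ((sc i (L.sh z) - P.c 3 * (L.sh z).1) *
    (sc i (L.sh z) - P.c 4 * (L.sh z).1) * (sc i (L.sh z) - P.c 5 * (L.sh z).1))


variable {D : GData F} {G : Type} [Group G] [MulAction G N]

/-- the standard coordinates on an open set, and the swap -/
structure St (A : GAct D G) (L : Loc P N) (O : Set A.X) (st : A.X → Tp2_60.Amb (Cv P)) (s : G) :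
    Prop where
  op : IsOpen O
  std : ∀ v ∈ O, st v ∈ Std (tt : Cv P → P1)
  tgt : ∀ v ∈ O, (st v).1 ∈ L.sh.target
  fro : ∀ v ∈ O, A.val v = toA N (L.fro (st v))
  s_ne : s ≠ 1
  sO : ∀ v ∈ O, s • v ∈ O
  sw : ∀ v ∈ O, st (s • v) = swA (st v)
  stab : ∀ g : G, ∀ v ∈ O, g • v = v → g = 1 ∨ g = s

variable {A : GAct D G} {L : Loc P N} {O : Set A.X} {st : A.X → Tp2_60.Amb (Cv P)} {s : G}

namespace St

variable (T : St A L O st s)

include T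

theorem src {v : A.X} (hv : v ∈ O) : A.pz v ∈ L.sh.source := by
  have h1 : A.pz v = (L.fro (st v)).1 := by
    rw [A.pz_eq, T.fro v hv]; rfl
  rw [h1]
  exact L.sh.map_target (T.tgt v hv)



end St

end

end Crest.Agent.R272.Kb_898
end

-- ▼ part R272/PEnd11_732
section

/-!
# R272 (S0415), POS at `p0` (helper732): fixed points of the swap over the cluster

`St_of`   : 898's `St` from a small neighbourhood `B : BV G q` and `Swp`;
`fix_iff` : `y` has a non trivial stabiliser iff `swA (st y) = st y`;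
`fix_E`   : 977's `Fix` in the charts `E i j`;
`fix_M`   : the same in the `m`-charts.
-/

set_option autoImplicit false
set_option linter.unusedSectionVars false
set_option linter.unusedVariables false

open Set Filter Topology OnePoint

namespace Crest.Agent.R272.PEnd8_732

open Crest.Agent.R275.Geo Crest.Agent.R273.Fam_835 Crest.Agent.R272.Gr_559
open Crest.Agent.R272.Act_302 Crest.Agent.R272.Lc_220 Crest.Agent.R272.Refl_246
open Crest.Agent.R272.MQ_783 Crest.Agent.R272.FamP_54 Crest.Agent.R272.P1A_54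
open Crest.Agent.R272.Cur_297 (Par Cv tt kk cur)
open Crest.Agent.R272.Tp1_60 (iv nn dd nn_dd)
open Crest.Agent.R272.Tp2_60 (Amb Std)
open Crest.Agent.R272.Tp3_60 (Loc RelX E6)
open Crest.Agent.R272.Tp6_60 (toA)
open Crest.Agent.R272.Tq1_916 (swA swA_mem pole fij fm Dm dl nu dl_nu swA_fij swA_fm)
open Crest.Agent.R272.Tq3_916 (DEij FEij DEm)
open Crest.Agent.R272.Tq4_916 (ib ib_cover)
open Crest.Agent.R272.SubF_54 (IsSl)
open Crest.Agent.R272.PosP7_848 (YC MCpt mc)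

noncomputable section

variable {N : Type} [TopologicalSpace N] {F : Fam 3 N} {D : GData F} {G : Type} [Group G]
  [MulAction G N] {A : GAct D G} {P : Par} {L : Loc P N} {hX : LX D L} {q : N} {B : BV G q}


include hX in
/-- **non trivial stabilisers** -/
theorem fix_iff (hV : B.V ⊆ L.sh.source) (hs : Swp A L B.s B.V) (hne : B.s ≠ 1) {y : A.X}
    (hy : A.pz y ∈ B.V) : (∃ g : G, g ≠ 1 ∧ g • y = y) ↔ swA (st A L hX y) = st A L hX y := by
  have h1 := st_smul (hX := hX) A hV hs hy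
  constructor
  · rintro ⟨g, hg, hgy⟩
    have h2 : g • A.pz y ∈ B.V := by rw [← A.pz_smul, hgy]; exact hy
    rcases B.two g _ hy h2 with rfl | rfl
    · exact absurd rfl hg
    · rw [← h1, hgy]
  · intro h
    refine ⟨B.s, hne, st_inj (hX := hX) ?_ (hV hy) (h1.trans h)⟩
    rw [A.pz_smul]
    exact hV (B.sV _ hy)

theorem frame_cross {i j : Fin 2} {t : Cur_297.P1} (h : t ≠ pole i) (h' : t ≠ pole j) :
    nu i t * dl j t = dl i t * nu j t := by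
  have e1 := dl_nu h
  have e2 := dl_nu h'
  have h3 : (nu i t * dl j t - dl i t * nu j t) * nn t = 0 := by
    linear_combination (nu i t) * e2 - (nu j t) * e1
  have h4 : (nu i t * dl j t - dl i t * nu j t) * dd t = 0 := by
    linear_combination (dl i t) * e2 - (dl j t) * e1
  rcases nn_dd t with h5 | h5
  · exact sub_eq_zero.1 ((mul_eq_zero.1 h3).resolve_right h5)
  · exact sub_eq_zero.1 ((mul_eq_zero.1 h4).resolve_right h5)

/-- the diagonal in the charts `E i j` -/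
theorem swA_FEij {i j : Fin 2} {p : (Cv P × Cv P) × ℂ} (h : tt p.1.1 ≠ pole i)
    (h' : tt p.1.2 ≠ pole j) : swA (FEij P i j p) = FEij P i j p ↔ p.1.1 = p.1.2 := by
  constructor
  · intro e
    exact (congrArg (fun y : Amb (Cv P) => y.2.2.1) e)
  · intro e
    obtain ⟨⟨c, c'⟩, x⟩ := p
    simp only at e h h'
    subst e
    have hc := frame_cross h h'
    have h1 : x * dl i (tt c) * nu j (tt c) = x * nu i (tt c) * dl j (tt c) := by
      linear_combination (-x) * hc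
    refine Prod.ext (Prod.ext rfl (Prod.ext ?_ ?_)) (Prod.ext rfl (Prod.ext rfl rfl))
    · exact h1
    · exact h1.symm

/-- the diagonal in the `m`-charts -/
theorem swA_fm_iff {b b' : Bool} {p : ℂ × ℂ × ℂ} :
    swA (fm (ib P b) (ib P b') p) = fm (ib P b) (ib P b') p ↔
      p.2.1 = p.2.2 ∧ (ib P b).e.symm (p.1 * p.2.1) = (ib P b').e.symm (p.1 * p.2.1) := by
  constructor
  · intro e
    have e1 : p.2.2 = p.2.1 := congrArg (fun y : Amb (Cv P) => y.1.2.1) e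
    have e2 : (ib P b').e.symm (p.1 * p.2.1) = (ib P b).e.symm (p.1 * p.2.2) :=
      congrArg (fun y : Amb (Cv P) => y.2.1) e
    rw [e1] at e2
    exact ⟨e1.symm, e2.symm⟩
  · rintro ⟨e1, e2⟩
    refine Prod.ext (Prod.ext rfl (Prod.ext e1.symm e1)) (Prod.ext ?_ (Prod.ext ?_ rfl))
    · show (ib P b').e.symm (p.1 * p.2.1) = (ib P b).e.symm (p.1 * p.2.2)
      rw [← e1, e2]
    · show (ib P b).e.symm (p.1 * p.2.2) = (ib P b').e.symm (p.1 * p.2.1)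
      rw [← e1, e2]

/-- **977's `Fix`** -/
theorem fix_E {hsl : IsSl (ambFam F) D.X1 3} (hV : B.V ⊆ L.sh.source) (hs : Swp A L B.s B.V)
    (hne : B.s ≠ 1) (T : YC P (A.fam hsl) A.pz q (A.pz ⁻¹' B.V)) (hT : T.st = st A L hX)
    {i j : Fin 2} {p : (Cv P × Cv P) × ℂ} (hp : p ∈ (T.E i j).source)
    (hy : A.pz (T.E i j p) ∈ B.V) : Kum_977.Fix G (T.E i j) p := by
  have h1 : ∀ᶠ y in 𝓝 (T.E i j p), y ∈ (T.E i j).target :=
    (T.E i j).open_target.mem_nhds ((T.E i j).map_source hp)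
  have h2 : ∀ᶠ y in 𝓝 (T.E i j p), A.pz y ∈ B.V :=
    A.continuous_pz.continuousAt.preimage_mem_nhds (B.op.mem_nhds hy)
  filter_upwards [h1, h2] with y hy1 hy2
  have h3 := (T.E i j).map_target hy1
  obtain ⟨h4, h5⟩ := T.hE i j _ h3
  have h6 := T.sE i j _ h3
  rw [(T.E i j).right_inv hy1, hT] at h6
  rw [fix_iff (hX := hX) hV hs hne hy2, h6]
  exact swA_FEij h4 h5

/-- the same in the `m`-charts -/
theorem fix_M {hsl : IsSl (ambFam F) D.X1 3} (hV : B.V ⊆ L.sh.source) (hs : Swp A L B.s B.V)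
    (hne : B.s ≠ 1) (T : YC P (A.fam hsl) A.pz q (A.pz ⁻¹' B.V)) (hT : T.st = st A L hX)
    {b b' : Bool} {p : ℂ × ℂ × ℂ} (hp : p ∈ (T.M b b').source)
    (hy : A.pz (T.M b b' p) ∈ B.V) : ∀ᶠ y in 𝓝 (T.M b b' p), (∃ g : G, g ≠ 1 ∧ g • y = y) ↔
      (((T.M b b').symm y).2.1 = ((T.M b b').symm y).2.2 ∧
        (ib P b).e.symm (((T.M b b').symm y).1 * ((T.M b b').symm y).2.1) =
          (ib P b').e.symm (((T.M b b').symm y).1 * ((T.M b b').symm y).2.1)) := by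
  have h1 : ∀ᶠ y in 𝓝 (T.M b b' p), y ∈ (T.M b b').target :=
    (T.M b b').open_target.mem_nhds ((T.M b b').map_source hp)
  have h2 : ∀ᶠ y in 𝓝 (T.M b b' p), A.pz y ∈ B.V :=
    A.continuous_pz.continuousAt.preimage_mem_nhds (B.op.mem_nhds hy)
  filter_upwards [h1, h2] with y hy1 hy2
  have h3 := (T.M b b').map_target hy1
  have h6 := T.sM b b' _ h3
  rw [(T.M b b').right_inv hy1, hT] at h6
  rw [fix_iff (hX := hX) hV hs hne hy2, h6]
  exact swA_fm_iff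

end

end Crest.Agent.R272.PEnd8_732
end

-- ▼ part R272/Th1_876
section

/-!
# R272 (helper876), THETA, part 1: descent of symmetric functions near `Γ` to germs at `0 ∈ ℂ²`

`exists_form`   : near `(c, iv c)` a swap invariant analytic function is an analytic function of
                  `(TT i, U_i)`;
`removable_pt`  : isolated points are removable in `ℂ²`;
`exists_desc`   : **a swap invariant function, analytic near `Γ` and constant on `Γ`, is `q ∘ U` with `q`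
                  analytic at `0`**;
`isBigO_of_isLittleO` : an analytic germ which is `o(|z|ⁿ)` is `O(|z|ⁿ⁺¹)`.
-/

set_option autoImplicit false
set_option linter.unusedSectionVars false
set_option linter.unusedVariables false

open Set Filter Topology Asymptotics

namespace Crest.Agent.R272.Th_876

open Crest.Agent.R272.AJ_956 Crest.Agent.R272.Idn_834

noncomputable section

/-! ### removable points -/

theorem removable_pt {f : E2 → ℂ} (hc : ContinuousAt f 0)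
    (hd : ∀ᶠ z in 𝓝 (0 : E2), z ≠ 0 → DifferentiableAt ℂ f z) : AnalyticAt ℂ f 0 := by
  obtain ⟨W, hW, hWo, h0⟩ := eventually_nhds_iff.1 hd
  have hcW : ContinuousOn f W := by
    intro z hz
    rcases eq_or_ne z 0 with rfl | hz0
    · exact hc.continuousWithinAt
    · exact (hW z hz hz0).continuousAt.continuousWithinAt
  refine Crest.Agent.R266.SCV.analyticOnNhd_of_basis (Module.finBasis ℂ E2) hWo hcW
    (fun y hy i => ?_) 0 h0
  set v : E2 := Module.finBasis ℂ E2 i with hv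
  have hv0 : v ≠ 0 := (Module.finBasis ℂ E2).ne_zero i
  rcases eq_or_ne y 0 with rfl | hy0
  · have hl : Continuous fun z : ℂ => (0 : E2) + z • v := by fun_prop
    have hV : ((fun z : ℂ => (0 : E2) + z • v) ⁻¹' W) ∈ 𝓝 (0 : ℂ) :=
      (hWo.preimage hl).mem_nhds (by simpa using h0)
    refine (Complex.analyticAt_of_differentiable_on_punctured_nhds_of_continuousAt ?_
      ?_).differentiableAt
    · filter_upwards [self_mem_nhdsWithin, mem_nhdsWithin_of_mem_nhds hV] with z h1 h2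
      have h3 : (0 : E2) + z • v ≠ 0 := by
        rw [zero_add]; exact smul_ne_zero h1 hv0
      exact (hW _ h2 h3).comp z (f := fun z : ℂ => (0 : E2) + z • v) (by fun_prop)
    · have h3 : ContinuousAt f ((0 : E2) + (0 : ℂ) • v) := by simpa using hc
      exact h3.comp (f := fun z : ℂ => (0 : E2) + z • v) hl.continuousAt
  · have h3 : DifferentiableAt ℂ f (y + (0 : ℂ) • v) := by simpa using hW y hy hy0
    exact h3.comp (0 : ℂ) (f := fun z : ℂ => y + z • v) (by fun_prop)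

/-! ### orders of germs -/

theorem poly_zero (n : ℕ) : ∀ c : ℕ → ℂ,
    ((fun a : ℂ => ∑ k ∈ Finset.range (n + 1), c k * a ^ k) =o[𝓝[≠] 0] fun a : ℂ => a ^ n) →
    ∀ k, k ≤ n → c k = 0 := by
  have hid : Tendsto (fun a : ℂ => a) (𝓝[≠] 0) (𝓝 0) := nhdsWithin_le_nhds
  induction n with
  | zero =>
    intro c h k hk
    have h1 : Tendsto (fun _ : ℂ => c 0) (𝓝[≠] (0 : ℂ)) (𝓝 0) := by
      have := h.tendsto_div_nhds_zero
      simpa using this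
    obtain rfl : k = 0 := by omega
    exact tendsto_nhds_unique tendsto_const_nhds h1
  | succ n ih =>
    intro c h
    have h0 : c 0 = 0 := by
      have h1 : Tendsto (fun a : ℂ => ∑ k ∈ Finset.range (n + 1 + 1), c k * a ^ k) (𝓝[≠] 0)
          (𝓝 0) := by
        have h2 : Tendsto (fun a : ℂ => a ^ (n + 1)) (𝓝[≠] (0 : ℂ)) (𝓝 0) := by
          have := hid.pow (n + 1)
          simpa using this
        exact h.trans_tendsto h2
      have h2 : Tendsto (fun a : ℂ => ∑ k ∈ Finset.range (n + 1 + 1), c k * a ^ k) (𝓝[≠] 0)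
          (𝓝 (∑ k ∈ Finset.range (n + 1 + 1), c k * 0 ^ k)) :=
        tendsto_finsetSum _ fun k _ => tendsto_const_nhds.mul (hid.pow k)
      have h3 : ∑ k ∈ Finset.range (n + 1 + 1), c k * (0 : ℂ) ^ k = c 0 := by
        rw [Finset.sum_range_succ']
        simp
      rw [h3] at h2
      exact tendsto_nhds_unique h2 h1
    have h4 := ih (fun k => c (k + 1)) (by
      rw [isLittleO_iff] at h ⊢
      intro ε hε
      filter_upwards [h hε, self_mem_nhdsWithin] with a ha ha0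
      have ha0' : 0 < ‖a‖ := norm_pos_iff.2 ha0
      rw [Finset.sum_range_succ', h0, zero_mul, add_zero] at ha
      have e1 : ∑ k ∈ Finset.range (n + 1), c (k + 1) * a ^ (k + 1) =
          a * ∑ k ∈ Finset.range (n + 1), c (k + 1) * a ^ k := by
        rw [Finset.mul_sum]
        refine Finset.sum_congr rfl fun k _ => ?_
        ring
      rw [e1, norm_mul, pow_succ, norm_mul] at ha
      have e2 : ‖a‖ * ‖∑ k ∈ Finset.range (n + 1), c (k + 1) * a ^ k‖ ≤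
          ‖a‖ * (ε * ‖a ^ n‖) := by linarith [ha]
      exact le_of_mul_le_mul_left e2 ha0')
    intro k hk
    rcases k with _ | k
    · exact h0
    · exact h4 k (by omega)

/-- an analytic germ which is `o(|z|ⁿ)` is `O(|z|ⁿ⁺¹)` -/
theorem isBigO_of_isLittleO {E : Type*} [NormedAddCommGroup E] [NormedSpace ℂ E] {f : E → ℂ}
    (n : ℕ) (hf : AnalyticAt ℂ f 0) (h : f =o[𝓝 0] fun z => ‖z‖ ^ n) :
    f =O[𝓝 0] fun z => ‖z‖ ^ (n + 1) := by
  obtain ⟨p, hp⟩ := hf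
  have h3 : (fun y => f (0 + y) - p.partialSum (n + 1) y) =O[𝓝 0] fun y => ‖y‖ ^ (n + 1) :=
    hp.isBigO_sub_partialSum_pow (n + 1)
  simp only [zero_add] at h3
  suffices hz : ∀ y, p.partialSum (n + 1) y = 0 by
    simpa [hz] using h3
  intro y
  set c : ℕ → ℂ := fun k => p k fun _ => y with hc
  have hsm : ∀ (a : ℂ), p.partialSum (n + 1) (a • y) =
      ∑ k ∈ Finset.range (n + 1), c k * a ^ k := by
    intro a
    refine Finset.sum_congr rfl fun k _ => ?_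
    have := (p k).map_smul_univ (fun _ => a) (fun _ => y)
    simp only [Finset.prod_const, Finset.card_univ, Fintype.card_fin, smul_eq_mul] at this
    rw [this, mul_comm]
  have hl : Tendsto (fun a : ℂ => a • y) (𝓝[≠] 0) (𝓝 (0 : E)) := by
    have : Tendsto (fun a : ℂ => a • y) (𝓝 0) (𝓝 ((0 : ℂ) • y)) :=
      (continuous_id.smul continuous_const).tendsto 0
    rw [zero_smul] at this
    exact this.mono_left nhdsWithin_le_nhds
  have h4 : (fun a : ℂ => f (a • y)) =o[𝓝[≠] 0] fun a : ℂ => a ^ n := by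
    refine (h.comp_tendsto hl).trans_isBigO ?_
    refine IsBigO.of_bound (‖y‖ ^ n) (Eventually.of_forall fun a => ?_)
    simp only [Function.comp, norm_smul, norm_pow, norm_mul, norm_norm]
    exact le_of_eq (by ring)
  have h5 : (fun a : ℂ => f (a • y) - p.partialSum (n + 1) (a • y)) =o[𝓝[≠] 0]
      fun a : ℂ => a ^ n := by
    refine (h3.comp_tendsto hl).trans_isLittleO ?_
    have h6 : (fun a : ℂ => ‖a • y‖ ^ (n + 1)) =O[𝓝[≠] 0] fun a : ℂ => a ^ (n + 1) := by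
      refine IsBigO.of_bound (‖y‖ ^ (n + 1)) (Eventually.of_forall fun a => ?_)
      simp only [norm_smul, norm_pow, norm_mul, norm_norm]
      exact le_of_eq (by ring)
    refine h6.trans_isLittleO ?_
    have h7 : (fun a : ℂ => a ^ (n + 1)) =o[𝓝 0] fun a : ℂ => a ^ n :=
      isLittleO_pow_pow (by omega)
    exact h7.mono nhdsWithin_le_nhds
  have h8 : (fun a : ℂ => ∑ k ∈ Finset.range (n + 1), c k * a ^ k) =o[𝓝[≠] 0]
      fun a : ℂ => a ^ n := by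
    refine (h4.sub h5).congr_left fun a => ?_
    rw [← hsm a]
    ring
  have h9 := poly_zero n c h8
  have h10 := hsm 1
  rw [one_smul] at h10
  rw [h10]
  refine Finset.sum_eq_zero fun k hk => ?_
  rw [h9 k (by have := Finset.mem_range.1 hk; omega), zero_mul]

/-! ### functions near `Γ` -/

variable {C : Type} [TopologicalSpace C] {𝒞 : Cur C} {N : Set (C × C)} {U : C × C → E2}

theorem kk_tendsto (c : C) : Tendsto (fun x : C × C => (𝒞.k c x.1, 𝒞.k (𝒞.iv c) x.2))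
    (𝓝 (c, 𝒞.iv c)) (𝓝 (0 : ℂ × ℂ)) := K3E_227.tendsto_cc c

/-- a swap invariant analytic function near `(c, iv c)` is an analytic function of `(TT i, U_i)` -/
theorem exists_form (hN : 𝒞.NearE N U) {Q : C × C → ℂ} {i : Fin 2} {c : C} (hc : c ∈ Ci 𝒞 i)
    (hsym : ∀ᶠ x in 𝓝 ((c, 𝒞.iv c) : C × C), Q x.swap = Q x)
    (han : ∃ γ : ℂ × ℂ → ℂ, AnalyticAt ℂ γ 0 ∧ ∀ᶠ x in 𝓝 ((c, 𝒞.iv c) : C × C),
      Q x = γ (𝒞.k c x.1, 𝒞.k (𝒞.iv c) x.2)) :
    ∃ H : ℂ × ℂ → ℂ, AnalyticAt ℂ H (tv 𝒞 i c, 0) ∧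
      (∀ᶠ x in 𝓝 ((c, 𝒞.iv c) : C × C), Q x = H (𝒞.TT U i x, U x i)) ∧
      Tendsto (fun x => (𝒞.TT U i x, U x i)) (𝓝 (c, 𝒞.iv c)) (𝓝 (tv 𝒞 i c, 0)) := by
  have hg : ((c, 𝒞.iv c) : C × C) ∈ 𝒞.Gam := rfl
  have h0 : (𝒞.TT U i (c, 𝒞.iv c), U (c, 𝒞.iv c) i) = (tv 𝒞 i c, 0) := by
    rw [TT_gam hg, U_gam hN hg]; rfl
  obtain ⟨γ, hγ, hQ⟩ := han
  -- common end: `(TT, U i) = F (σ x)`, `Q x = η (σ x)`
  have key : ∀ (σ : C × C → ℂ × ℂ) (F : ℂ × ℂ → ℂ × ℂ) (F' : (ℂ × ℂ) ≃L[ℂ] (ℂ × ℂ))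
      (η : ℂ × ℂ → ℂ), AnalyticAt ℂ F 0 → HasFDerivAt F (F' : (ℂ × ℂ) →L[ℂ] (ℂ × ℂ)) 0 →
      AnalyticAt ℂ η 0 → Tendsto σ (𝓝 (c, 𝒞.iv c)) (𝓝 0) → σ (c, 𝒞.iv c) = 0 →
      (∀ᶠ x in 𝓝 ((c, 𝒞.iv c) : C × C), (𝒞.TT U i x, U x i) = F (σ x)) →
      (∀ᶠ x in 𝓝 ((c, 𝒞.iv c) : C × C), Q x = η (σ x)) →
      ∃ H : ℂ × ℂ → ℂ, AnalyticAt ℂ H (tv 𝒞 i c, 0) ∧
      (∀ᶠ x in 𝓝 ((c, 𝒞.iv c) : C × C), Q x = H (𝒞.TT U i x, U x i)) ∧
      Tendsto (fun x => (𝒞.TT U i x, U x i)) (𝓝 (c, 𝒞.iv c)) (𝓝 (tv 𝒞 i c, 0)) := by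
    intro σ F F' η hF hF' hη hσ hσ0 hT hQη
    have hF0 : F 0 = (tv 𝒞 i c, 0) := by
      rw [← h0, ← hσ0]; exact hT.self_of_nhds.symm
    obtain ⟨e, he0, -, hee, he1, he2⟩ :=
      Crest.Agent.R266.SCV.exists_analytic_openPartialHomeomorph hF F' hF' univ_mem
    have hes : e.symm (tv 𝒞 i c, 0) = 0 := by
      rw [← hF0, ← hee]; exact e.left_inv he0
    have het : ((tv 𝒞 i c, 0) : ℂ × ℂ) ∈ e.target := by
      rw [← hF0, ← hee]; exact e.map_source he0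
    refine ⟨fun p => η (e.symm p), ?_, ?_, ?_⟩
    · exact AnalyticAt.comp (g := η) (f := e.symm) (by rw [hes]; exact hη) (he2 _ het)
    · filter_upwards [hT, hQη, hσ.eventually (e.open_source.mem_nhds he0)] with x h1 h2 h3
      rw [h1, h2, ← hee, e.left_inv h3]
    · have h1 : Tendsto (fun x => F (σ x)) (𝓝 (c, 𝒞.iv c)) (𝓝 (tv 𝒞 i c, 0)) := by
        rw [← hF0]
        exact hF.continuousAt.tendsto.comp hσ
      exact h1.congr' (hT.mono fun x hx => hx.symm)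
  by_cases hW : 𝒞.iv c = c
  · obtain ⟨F, F', hF, hF', hev⟩ := hN.coordW c i hW hc
    rw [hW] at key hsym hQ ⊢
    set σ : C × C → ℂ × ℂ :=
      fun x => (𝒞.k c x.1 + 𝒞.k c x.2, (𝒞.k c x.1 - 𝒞.k c x.2) ^ 2) with hσd
    have hkk : Tendsto (fun x : C × C => (𝒞.k c x.1, 𝒞.k c x.2)) (𝓝 (c, c)) (𝓝 (0 : ℂ × ℂ)) := by
      have := kk_tendsto (𝒞 := 𝒞) c
      rwa [hW] at this
    have hσ : Tendsto σ (𝓝 (c, c)) (𝓝 0) := by
      have hm : Tendsto (fun p : ℂ × ℂ => (p.1 + p.2, (p.1 - p.2) ^ 2)) (𝓝 0)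
          (𝓝 (0 : ℂ × ℂ)) := by
        have : Continuous fun p : ℂ × ℂ => (p.1 + p.2, (p.1 - p.2) ^ 2) := by fun_prop
        exact this.tendsto' _ _ (by simp)
      exact hm.comp hkk
    have hσ0 : σ (c, c) = 0 := by simp [hσd, 𝒞.k_zero]
    -- even descent
    let L : ℂ × ℂ → ℂ × ℂ := fun p => ((p.1 + p.2) / 2, (p.1 - p.2) / 2)
    have hL : Continuous L := by fun_prop
    have hL0 : L 0 = 0 := by simp [L]
    have hLt : Tendsto L (𝓝 0) (𝓝 0) := by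
      have := hL.tendsto 0
      rwa [hL0] at this
    have hLa : AnalyticAt ℂ L 0 := by
      have : L = fun p : ℂ × ℂ => ((p.1 + p.2) / 2, (p.1 - p.2) / 2) := rfl
      rw [this]
      exact ((analyticAt_fst.add analyticAt_snd).div_const).prod
        ((analyticAt_fst.sub analyticAt_snd).div_const)
    have hγ' : AnalyticAt ℂ (fun p => γ (L p)) 0 :=
      AnalyticAt.comp (g := γ) (f := L) (by rw [hL0]; exact hγ) hLa
    -- symmetry of `γ`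
    have hks : Tendsto (fun p : ℂ × ℂ => ((𝒞.k c).symm p.1, (𝒞.k c).symm p.2)) (𝓝 0)
        (𝓝 ((c, c) : C × C)) := by
      have h1 : Tendsto (fun p : ℂ × ℂ => (𝒞.k c).symm p.1) (𝓝 0) (𝓝 c) :=
        (K3E_227.tendsto_ks (𝒞 := 𝒞) c).comp (continuous_fst.tendsto' _ _ rfl)
      have h2 : Tendsto (fun p : ℂ × ℂ => (𝒞.k c).symm p.2) (𝓝 0) (𝓝 c) :=
        (K3E_227.tendsto_ks (𝒞 := 𝒞) c).comp (continuous_snd.tendsto' _ _ rfl)
      exact h1.prodMk_nhds h2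
    have htg : ∀ᶠ p : ℂ × ℂ in 𝓝 0, p.1 ∈ (𝒞.k c).target ∧ p.2 ∈ (𝒞.k c).target := by
      have h1 : ∀ᶠ z : ℂ in 𝓝 0, z ∈ (𝒞.k c).target :=
        (𝒞.k c).open_target.mem_nhds (K3E_227.zero_mem 𝒞 c)
      have h2 : Tendsto (fun p : ℂ × ℂ => p.1) (𝓝 0) (𝓝 0) := continuous_fst.tendsto' _ _ rfl
      have h3 : Tendsto (fun p : ℂ × ℂ => p.2) (𝓝 0) (𝓝 0) := continuous_snd.tendsto' _ _ rfl
      exact (h2.eventually h1).and (h3.eventually h1)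
    have hswt : Tendsto (Prod.swap : C × C → C × C) (𝓝 (c, c)) (𝓝 (c, c)) :=
      continuous_swap.tendsto' _ _ rfl
    have hγs : ∀ᶠ p : ℂ × ℂ in 𝓝 0, γ (p.2, p.1) = γ (p.1, p.2) := by
      filter_upwards [hks.eventually (hsym.and (hQ.and (hswt.eventually hQ))), htg] with p hp ht
      obtain ⟨h1, h2, h3⟩ := hp
      simp only [Prod.swap_prod_mk] at h1 h2 h3
      rw [(𝒞.k c).right_inv ht.1, (𝒞.k c).right_inv ht.2] at h2 h3
      rw [← h3, ← h2, h1]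
    have heven : ∀ᶠ p : ℂ × ℂ in 𝓝 0, (fun p => γ (L p)) (p.1, -p.2) = (fun p => γ (L p)) p := by
      filter_upwards [hLt.eventually hγs] with p hp
      have e1 : L (p.1, -p.2) = ((L p).2, (L p).1) := by
        simp only [L, Prod.mk.injEq]
        constructor <;> ring
      show γ (L (p.1, -p.2)) = γ (L p)
      rw [e1, hp]
    obtain ⟨η, hη, hηe⟩ := even_desc hγ' heven
    have hδ : Tendsto (fun x : C × C => ((𝒞.k c x.1 + 𝒞.k c x.2, 𝒞.k c x.1 - 𝒞.k c x.2) : ℂ × ℂ))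
        (𝓝 (c, c)) (𝓝 0) := by
      have hm : Tendsto (fun p : ℂ × ℂ => (p.1 + p.2, p.1 - p.2)) (𝓝 0) (𝓝 (0 : ℂ × ℂ)) := by
        have : Continuous fun p : ℂ × ℂ => (p.1 + p.2, p.1 - p.2) := by fun_prop
        exact this.tendsto' _ _ (by simp)
      exact hm.comp hkk
    refine key σ F F' η hF hF' hη hσ hσ0 hev ?_
    filter_upwards [hQ, hδ.eventually hηe] with x h1 h2
    rw [h1]
    have e1 : L (𝒞.k c x.1 + 𝒞.k c x.2, 𝒞.k c x.1 - 𝒞.k c x.2) = (𝒞.k c x.1, 𝒞.k c x.2) := by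
      simp only [L, Prod.mk.injEq]
      constructor <;> ring
    rw [e1] at h2
    rw [h2]
  · obtain ⟨F, F', hF, hF', hev⟩ := hN.coord c i hW hc
    exact key (fun x => (𝒞.k c x.1, 𝒞.k (𝒞.iv c) x.2)) F F' γ hF hF' hγ (kk_tendsto c)
      (by simp only [𝒞.k_zero]; rfl) hev hQ

/-- **descent** -/
theorem exists_desc [T2Space C] (hN : 𝒞.NearE N U) {Q : C × C → ℂ} {q₀ : ℂ}
    (hsym : ∀ c, ∀ᶠ x in 𝓝 ((c, 𝒞.iv c) : C × C), Q x.swap = Q x)
    (han : ∀ c, ∃ γ : ℂ × ℂ → ℂ, AnalyticAt ℂ γ 0 ∧ ∀ᶠ x in 𝓝 ((c, 𝒞.iv c) : C × C),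
      Q x = γ (𝒞.k c x.1, 𝒞.k (𝒞.iv c) x.2))
    (hΓ : ∀ c, Q (c, 𝒞.iv c) = q₀) :
    ∃ q : E2 → ℂ, AnalyticAt ℂ q 0 ∧ q 0 = q₀ ∧ ∀ᶠ x in 𝓝ˢ 𝒞.Gam, Q x = q (U x) := by
  classical
  -- the good set
  let P : C × C → Prop := fun x => x ∈ N ∧ Q x.swap = Q x ∧ (x ∈ 𝒞.Gam ∨ ∃ i, U x i ≠ 0 ∧
    ∃ H : ℂ × ℂ → ℂ, AnalyticAt ℂ H (𝒞.TT U i x, U x i) ∧
      ∀ᶠ y in 𝓝 x, Q y = H (𝒞.TT U i y, U y i) ∧ y ∉ 𝒞.Gam)
  have hP : ∀ c, ∀ᶠ x in 𝓝 ((c, 𝒞.iv c) : C × C), P x := by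
    intro c
    obtain ⟨i, hi⟩ := exists_Ci (𝒞 := 𝒞) c
    obtain ⟨H, hH, hQH, hT⟩ := exists_form hN hi (hsym c) (han c)
    filter_upwards [hN.open_N.mem_nhds (hN.sub rfl), hsym c, near_alt hN hi,
      hT.eventually hH.eventually_analyticAt, hQH.eventually_nhds] with x h1 h2 h3 h4 h5
    refine ⟨h1, h2, ?_⟩
    by_cases hx : x ∈ 𝒞.Gam
    · exact Or.inl hx
    · refine Or.inr ⟨i, h3.resolve_left hx, H, h4, ?_⟩
      filter_upwards [h5, (AJd_956.Basic.isClosed_Gam 𝒞).isOpen_compl.mem_nhds hx] with y h6 h7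
      exact ⟨h6, h7⟩
  obtain ⟨O, hO, hOP⟩ : ∃ O : Set (C × C), (IsOpen O ∧ 𝒞.Gam ⊆ O) ∧ ∀ x ∈ O, P x := by
    refine ⟨interior {x | P x}, ⟨isOpen_interior, ?_⟩, fun x hx =>
      show x ∈ {x | P x} from interior_subset hx⟩
    intro x hx
    have hx2 : x = (x.1, 𝒞.iv x.1) := Prod.ext rfl hx
    rw [hx2, mem_interior_iff_mem_nhds]
    exact hP x.1
  let q : E2 → ℂ := fun z => if h : ∃ x, x ∈ N ∧ U x = z then Q h.choose else q₀
  obtain ⟨δ, hδ, hδ1, hδ2⟩ := hN.small O hO.1 hO.2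
  have hq : ∀ x ∈ N, ‖U x‖ < δ → q (U x) = Q x := by
    intro x hx hxδ
    have h : ∃ y, y ∈ N ∧ U y = U x := ⟨x, hx, rfl⟩
    have e : q (U x) = Q h.choose := dif_pos h
    have hy := h.choose_spec
    set y := h.choose
    rw [e]
    by_cases h0 : U x = 0
    · have h1 := (hN.zero x hx).1 h0
      have h2 := (hN.zero y hy.1).1 (by rw [hy.2, h0])
      have hx2 : x = (x.1, 𝒞.iv x.1) := Prod.ext rfl h1
      have hy2 : y = (y.1, 𝒞.iv y.1) := Prod.ext rfl h2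
      rw [hx2, hy2, hΓ, hΓ]
    · rcases hN.inj x hx y hy.1 hy.2.symm h0 with h1 | h1
      · rw [h1]
      · rw [h1]
        exact (hOP x (hδ1 x hx hxδ)).2.1
  have hsurj : ∀ z : E2, ‖z‖ < δ → ∃ x ∈ N, x ∈ O ∧ U x = z := by
    intro z hz
    obtain ⟨x, hx, hxz⟩ := hδ2 (mem_ball_zero_iff.2 hz)
    exact ⟨x, hx.1, hx.2, hxz⟩
  have hball : ∀ᶠ z in 𝓝 (0 : E2), ‖z‖ < δ := by
    filter_upwards [Metric.ball_mem_nhds (0 : E2) hδ] with z hz
    exact mem_ball_zero_iff.1 hz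
  refine ⟨q, removable_pt ?_ ?_, ?_, ?_⟩
  · -- continuity at `0`
    rw [Metric.continuousAt_iff]
    intro ε hε
    have hcont : ∀ c, ContinuousAt Q (c, 𝒞.iv c) := by
      intro c
      obtain ⟨γ, hγ, hQγ⟩ := han c
      have h1 : Tendsto (fun x : C × C => γ (𝒞.k c x.1, 𝒞.k (𝒞.iv c) x.2)) (𝓝 (c, 𝒞.iv c))
          (𝓝 (γ 0)) := hγ.continuousAt.tendsto.comp (kk_tendsto c)
      have h2 : Q (c, 𝒞.iv c) = γ 0 := by
        have := hQγ.self_of_nhds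
        simp only [𝒞.k_zero] at this
        exact this
      show Tendsto Q _ (𝓝 (Q (c, 𝒞.iv c)))
      rw [h2]
      exact h1.congr' (hQγ.mono fun x hx => hx.symm)
    let O' : Set (C × C) := interior {x | dist (Q x) q₀ < ε}
    have hO' : 𝒞.Gam ⊆ O' := by
      intro x hx
      have hx2 : x = (x.1, 𝒞.iv x.1) := Prod.ext rfl hx
      rw [hx2]
      refine mem_interior_iff_mem_nhds.2 ?_
      have h1 := (hcont x.1).eventually (Metric.ball_mem_nhds _ hε)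
      rw [hΓ] at h1
      exact h1
    obtain ⟨δ', hδ', hδ1', -⟩ := hN.small O' isOpen_interior hO'
    refine ⟨min δ δ', lt_min hδ hδ', fun {z} hz => ?_⟩
    rw [dist_zero_right] at hz
    have hz1 := hz.trans_le (min_le_left δ δ')
    have hz2 := hz.trans_le (min_le_right δ δ')
    obtain ⟨x, hx, hxO, rfl⟩ := hsurj z hz1
    obtain ⟨x0, hx0, hx0O, hx00⟩ := hsurj 0 (by simpa using hδ)
    have e0 : q 0 = q₀ := by
      have h1 := hq x0 hx0 (by rw [hx00]; simpa using hδ)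
      rw [hx00] at h1
      rw [h1]
      have h2 : x0 ∈ 𝒞.Gam := (hN.zero x0 hx0).1 hx00
      have h3 : x0 = (x0.1, 𝒞.iv x0.1) := Prod.ext rfl h2
      rw [h3, hΓ]
    rw [hq x hx hz1, e0]
    exact show x ∈ {x | dist (Q x) q₀ < ε} from interior_subset (hδ1' x hx hz2)
  · -- differentiability off `0`
    filter_upwards [hball] with z hz hz0
    obtain ⟨x, hx, hxO, rfl⟩ := hsurj z hz
    have hxG : x ∉ 𝒞.Gam := fun h => hz0 ((hN.zero x hx).2 h)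
    obtain ⟨-, -, hPx⟩ := hOP x hxO
    obtain ⟨i, hi, H, hH, hev⟩ := hPx.resolve_left hxG
    have hmap : Filter.map U (𝓝 x) = 𝓝 (U x) := AJd_956.Basic.LP.map_nhds 𝒞 hN.lp hx hxG
    have hTT : 𝒞.TT U i x = U x (1 - i) / U x i := TT_off hxG
    have h1 : q =ᶠ[𝓝 (U x)] fun z => H (z (1 - i) / z i, z i) := by
      rw [Filter.EventuallyEq, ← hmap, Filter.eventually_map]
      have h2 : ∀ᶠ y in 𝓝 x, ‖U y‖ < δ := by
        have h3 : ∀ᶠ z in 𝓝 (U x), ‖z‖ < δ := by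
          have : Continuous fun z : E2 => ‖z‖ := continuous_norm
          exact (isOpen_lt this continuous_const).mem_nhds hz
        rw [← hmap, Filter.eventually_map] at h3
        exact h3
      filter_upwards [h2, hev, hN.open_N.mem_nhds hx] with y h3 h4 h5
      rw [hq y h5 h3, h4.1, TT_off h4.2]
    have h2 : AnalyticAt ℂ (fun z : E2 => H (z (1 - i) / z i, z i)) (U x) := by
      have hpr : ∀ j : Fin 2, AnalyticAt ℂ (fun z : E2 => z j) (U x) := fun j =>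
        (ContinuousLinearMap.proj (R := ℂ) (φ := fun _ : Fin 2 => ℂ) j).analyticAt _
      refine AnalyticAt.comp (g := H) (f := fun z : E2 => (z (1 - i) / z i, z i)) ?_
        (((hpr _).fun_div (hpr _) hi).prod (hpr _))
      rw [← hTT]
      exact hH
    exact (h2.congr h1.symm).differentiableAt
  · obtain ⟨x0, hx0, hx0O, hx00⟩ := hsurj 0 (by simpa using hδ)
    have h1 := hq x0 hx0 (by rw [hx00]; simpa using hδ)
    rw [hx00] at h1
    rw [h1]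
    have h2 : x0 ∈ 𝒞.Gam := (hN.zero x0 hx0).1 hx00
    have h3 : x0 = (x0.1, 𝒞.iv x0.1) := Prod.ext rfl h2
    rw [h3, hΓ]
  · rw [eventually_nhdsSet_iff_forall]
    intro x hx
    have hxN := hN.sub hx
    have hc : ContinuousAt U x := AJd_956.Basic.LP.continuousAt 𝒞 hN.lp hxN
    have h1 : ∀ᶠ y in 𝓝 x, ‖U y‖ < δ := by
      have h2 : ‖U x‖ < δ := by rw [(hN.zero x hxN).2 hx]; simpa using hδ
      exact hc.norm.eventually (gt_mem_nhds h2)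
    filter_upwards [h1, hN.open_N.mem_nhds hxN] with y h2 h3
    exact (hq y h3 h2).symm

/-- transfer of statements from a neighbourhood of `Γ` to a neighbourhood of `0` -/
theorem eventually_zero [T2Space C] (hN : 𝒞.NearE N U) {P : C × C → Prop} {R : E2 → Prop}
    (h : ∀ᶠ x in 𝓝ˢ 𝒞.Gam, P x) (hR : ∀ x ∈ N, P x → R (U x)) : ∀ᶠ z in 𝓝 (0 : E2), R z := by
  obtain ⟨O, hO, hΓO, hOP⟩ := mem_nhdsSet_iff_exists.1 h
  obtain ⟨δ, hδ, -, hδ2⟩ := hN.small O hO hΓO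
  filter_upwards [Metric.ball_mem_nhds (0 : E2) hδ] with z hz
  obtain ⟨x, hx, rfl⟩ := hδ2 hz
  exact hR x hx.1 (hOP hx.2)

end

end Crest.Agent.R272.Th_876
end

-- ▼ part R272/Th2_876
section

/-!
# R272 (helper876), THETA, part 2: the functions `1/G, (t+t')/G, t t'/G` as germs in `z = U(c,c')`

For `K : K3 𝒞 U` (`K.g i = U_i² G_i`): `Tj i j` = `(1, t + t', t t')` in the frame `i`,
`fm K i j = Tj i j * U_i² / g_i`, `QQ K j` = the function near `Γ`.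
`exists_q` : `QQ K j = q j ∘ U`, `q j` analytic at `0`; if `g_i = κ` on `Γ`:
`q j = κ⁻¹ (z₀², 2 z₀ z₁, z₁²)_j + O(|z|³)`.
-/

set_option autoImplicit false
set_option linter.unusedSectionVars false
set_option linter.unusedVariables false

open Set Filter Topology Asymptotics

namespace Crest.Agent.R272.Th_876

open Crest.Agent.R272.AJ_956 Crest.Agent.R272.Idn_834

noncomputable section

variable {C : Type} [TopologicalSpace C] {𝒞 : Cur C} {N : Set (C × C)} {U : C × C → E2}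

/-- `(1, t + t', t t')` in the frame `i = 0`, `(s s', s + s', 1)` in the frame `i = 1` -/
def Tj (𝒞 : Cur C) : Fin 2 → Fin 3 → C × C → ℂ :=
  ![![fun _ => 1, fun x => tv 𝒞 0 x.1 + tv 𝒞 0 x.2, fun x => tv 𝒞 0 x.1 * tv 𝒞 0 x.2],
    ![fun x => tv 𝒞 1 x.1 * tv 𝒞 1 x.2, fun x => tv 𝒞 1 x.1 + tv 𝒞 1 x.2, fun _ => 1]]

/-- `(z₀², 2 z₀ z₁, z₁²)` -/
def mm (j : Fin 3) (z : E2) : ℂ := ![z 0 ^ 2, 2 * z 0 * z 1, z 1 ^ 2] j

/-- the function in the frame `i` -/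
def fm (K : K3 𝒞 U) (i : Fin 2) (j : Fin 3) (x : C × C) : ℂ := Tj 𝒞 i j x * U x i ^ 2 / K.g i x

theorem Tj_rel {x : C × C} (h10 : x.1 ∈ Ci 𝒞 0) (h11 : x.1 ∈ Ci 𝒞 1) (h20 : x.2 ∈ Ci 𝒞 0)
    (h21 : x.2 ∈ Ci 𝒞 1) (j : Fin 3) :
    Tj 𝒞 0 j x = tv 𝒞 0 x.1 * tv 𝒞 0 x.2 * Tj 𝒞 1 j x := by
  have ht := K3E_227.tv_ne h10 h11
  have hu := K3E_227.tv_ne h20 h21
  have e1 := K3E_227.tv_one (𝒞 := 𝒞) x.1
  have e2 := K3E_227.tv_one (𝒞 := 𝒞) x.2
  fin_cases j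
  · show (1 : ℂ) = tv 𝒞 0 x.1 * tv 𝒞 0 x.2 * (tv 𝒞 1 x.1 * tv 𝒞 1 x.2)
    rw [e1, e2]; field_simp
  · show tv 𝒞 0 x.1 + tv 𝒞 0 x.2 = tv 𝒞 0 x.1 * tv 𝒞 0 x.2 * (tv 𝒞 1 x.1 + tv 𝒞 1 x.2)
    rw [e1, e2]; field_simp; ring
  · show tv 𝒞 0 x.1 * tv 𝒞 0 x.2 = tv 𝒞 0 x.1 * tv 𝒞 0 x.2 * 1
    ring

theorem fm_eq (hN : 𝒞.NearE N U) (K : K3 𝒞 U) {x : C × C} (h0 : x ∈ K.N 0) (h1 : x ∈ K.N 1)
    (hx : x ∈ N) (j : Fin 3) : fm K 0 j x = fm K 1 j x := by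
  obtain ⟨a1, a2, a3⟩ := K.dom 0 x h0
  obtain ⟨b1, b2, b3⟩ := K.dom 1 x h1
  by_cases hG : x ∈ 𝒞.Gam
  · have hU := U_gam hN hG
    simp [fm, hU]
  · have hU0 := a3.resolve_left hG
    have hr := K.rel x h0 h1
    have hg0 := K.ne 0 x h0
    have hg1 := K.ne 1 x h1
    rw [TT_off hG] at hr
    have e : (1 : Fin 2) - 0 = 1 := rfl
    rw [e, div_pow, ← mul_div_assoc, eq_div_iff (pow_ne_zero 2 hU0)] at hr
    unfold fm
    rw [Tj_rel a1 b1 a2 b2 j, div_eq_div_iff hg0 hg1]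
    linear_combination (Tj 𝒞 1 j x) * hr

open Classical in
/-- the function near `Γ` -/
def QQ (K : K3 𝒞 U) (j : Fin 3) (x : C × C) : ℂ := if x ∈ K.N 0 then fm K 0 j x else fm K 1 j x

theorem QQ_eq (hN : 𝒞.NearE N U) (K : K3 𝒞 U) {i : Fin 2} {x : C × C} (h : x ∈ K.N i)
    (hx : x ∈ N) (j : Fin 3) : QQ K j x = fm K i j x := by
  unfold QQ
  split_ifs with h0
  · fin_cases i
    · rfl
    · exact fm_eq hN K h0 h hx j
  · fin_cases i
    · exact absurd h h0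
    · rfl

theorem near_K (K : K3 𝒞 U) {i : Fin 2} {c : C} (hc : c ∈ Ci 𝒞 i) :
    ∀ᶠ x in 𝓝 ((c, 𝒞.iv c) : C × C), x ∈ K.N i := (K.open_N i).mem_nhds (K.sub i c hc)

theorem QQ_sym (hN : 𝒞.NearE N U) (K : K3 𝒞 U) (j : Fin 3) (c : C) :
    ∀ᶠ x in 𝓝 ((c, 𝒞.iv c) : C × C), QQ K j x.swap = QQ K j x := by
  obtain ⟨i, hi⟩ := exists_Ci (𝒞 := 𝒞) c
  filter_upwards [near_K K hi, hN.open_N.mem_nhds (hN.sub rfl)] with x h1 h2
  rw [QQ_eq hN K h1 h2 j, QQ_eq hN K (K.swap_mem i x h1) (hN.swap_N x h2) j]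
  unfold fm
  rw [K.symm i x h1, hN.swap x h2]
  have : Tj 𝒞 i j x.swap = Tj 𝒞 i j x := by
    fin_cases i <;> fin_cases j <;> simp [Tj, mul_comm, add_comm]
  rw [this]

theorem QQ_gam (hN : 𝒞.NearE N U) (K : K3 𝒞 U) (j : Fin 3) (c : C) :
    QQ K j (c, 𝒞.iv c) = 0 := by
  have hg : ((c, 𝒞.iv c) : C × C) ∈ 𝒞.Gam := rfl
  have hU := U_gam hN hg
  unfold QQ fm
  rw [hU]
  split_ifs <;> simp

/-- slopes and `U` in the charts -/
theorem tv_loc {i : Fin 2} {c : C} (hc : c ∈ Ci 𝒞 i) : ∃ τ τ' : ℂ → ℂ, AnalyticAt ℂ τ 0 ∧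
    AnalyticAt ℂ τ' 0 ∧ ∀ᶠ x in 𝓝 ((c, 𝒞.iv c) : C × C),
      tv 𝒞 i x.1 = τ (𝒞.k c x.1) ∧ tv 𝒞 i x.2 = τ' (𝒞.k (𝒞.iv c) x.2) := by
  refine ⟨_, _, K3E_227.tv_an 𝒞 c i hc, K3E_227.tv_an 𝒞 (𝒞.iv c) i
    ((K3E_227.Ci_iv 𝒞).2 hc), ?_⟩
  filter_upwards [K3E_227.near_src (𝒞 := 𝒞) c] with x hx
  rw [(𝒞.k c).left_inv hx.1, (𝒞.k (𝒞.iv c)).left_inv hx.2.2]
  exact ⟨rfl, rfl⟩

theorem U_loc (hN : 𝒞.NearE N U) (i : Fin 2) (c : C) : ∃ η : ℂ × ℂ → ℂ, AnalyticAt ℂ η 0 ∧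
    ∀ᶠ x in 𝓝 ((c, 𝒞.iv c) : C × C), U x i = η (𝒞.k c x.1, 𝒞.k (𝒞.iv c) x.2) := by
  have hg : ((c, 𝒞.iv c) : C × C) ∈ 𝒞.Gam := rfl
  refine ⟨fun p => 𝒞.G c p.1 i + 𝒞.G (𝒞.iv c) p.2 i, ?_, ?_⟩
  · have h1 := K3E_227.an_comp (K3E_227.G_an0 𝒞 c) i
    have h2 := K3E_227.an_comp (K3E_227.G_an0 𝒞 (𝒞.iv c)) i
    exact (AnalyticAt.comp (g := fun z => 𝒞.G c z i) (f := fun p : ℂ × ℂ => p.1) h1
      analyticAt_fst).add (AnalyticAt.comp (g := fun z => 𝒞.G (𝒞.iv c) z i)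
        (f := fun p : ℂ × ℂ => p.2) h2 analyticAt_snd)
  · filter_upwards [hN.lp (c, 𝒞.iv c) (hN.sub hg)] with x hx
    rw [hx, U_gam hN hg]
    simp [Cur.P]

theorem QQ_an (hN : 𝒞.NearE N U) (K : K3 𝒞 U) (j : Fin 3) (c : C) :
    ∃ γ : ℂ × ℂ → ℂ, AnalyticAt ℂ γ 0 ∧ ∀ᶠ x in 𝓝 ((c, 𝒞.iv c) : C × C),
      QQ K j x = γ (𝒞.k c x.1, 𝒞.k (𝒞.iv c) x.2) := by
  obtain ⟨i, hi⟩ := exists_Ci (𝒞 := 𝒞) c
  obtain ⟨τ, τ', hτ, hτ', ht⟩ := tv_loc hi
  obtain ⟨η, hη, hU⟩ := U_loc hN i c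
  obtain ⟨γ, hγ, hg⟩ := K.an i c hi
  have hγ0 : γ 0 ≠ 0 := by
    have h1 := hg.self_of_nhds
    simp only [𝒞.k_zero] at h1
    have h2 := K.ne i _ (K.sub i c hi)
    rw [h1] at h2
    exact h2
  have t1 : AnalyticAt ℂ (fun p : ℂ × ℂ => τ p.1) 0 :=
    AnalyticAt.comp (g := τ) (f := fun p : ℂ × ℂ => p.1) hτ analyticAt_fst
  have t2 : AnalyticAt ℂ (fun p : ℂ × ℂ => τ' p.2) 0 :=
    AnalyticAt.comp (g := τ') (f := fun p : ℂ × ℂ => p.2) hτ' analyticAt_snd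
  -- the polynomial `T`
  obtain ⟨T, hT, hTe⟩ : ∃ T : ℂ × ℂ → ℂ, AnalyticAt ℂ T 0 ∧
      ∀ x : C × C, tv 𝒞 i x.1 = τ (𝒞.k c x.1) → tv 𝒞 i x.2 = τ' (𝒞.k (𝒞.iv c) x.2) →
        Tj 𝒞 i j x = T (𝒞.k c x.1, 𝒞.k (𝒞.iv c) x.2) := by
    fin_cases i <;> fin_cases j
    · exact ⟨fun _ => 1, analyticAt_const, fun x h1 h2 => rfl⟩
    · exact ⟨fun p => τ p.1 + τ' p.2, t1.add t2, fun x h1 h2 => by
        show tv 𝒞 0 x.1 + tv 𝒞 0 x.2 = _
        exact congrArg₂ (· + ·) h1 h2⟩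
    · exact ⟨fun p => τ p.1 * τ' p.2, t1.mul t2, fun x h1 h2 => by
        show tv 𝒞 0 x.1 * tv 𝒞 0 x.2 = _
        exact congrArg₂ (· * ·) h1 h2⟩
    · exact ⟨fun p => τ p.1 * τ' p.2, t1.mul t2, fun x h1 h2 => by
        show tv 𝒞 1 x.1 * tv 𝒞 1 x.2 = _
        exact congrArg₂ (· * ·) h1 h2⟩
    · exact ⟨fun p => τ p.1 + τ' p.2, t1.add t2, fun x h1 h2 => by
        show tv 𝒞 1 x.1 + tv 𝒞 1 x.2 = _
        exact congrArg₂ (· + ·) h1 h2⟩
    · exact ⟨fun _ => 1, analyticAt_const, fun x h1 h2 => rfl⟩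
  refine ⟨fun p => T p * η p ^ 2 / γ p, (hT.mul (hη.pow 2)).fun_div hγ hγ0, ?_⟩
  filter_upwards [ht, hU, hg, near_K K hi, hN.open_N.mem_nhds (hN.sub rfl)] with x h1 h2 h3 h4 h5
  rw [QQ_eq hN K h4 h5 j]
  unfold fm
  rw [hTe x h1.1 h1.2, h2, h3]

theorem exists_q [T2Space C] (hN : 𝒞.NearE N U) (K : K3 𝒞 U) (j : Fin 3) :
    ∃ q : E2 → ℂ, AnalyticAt ℂ q 0 ∧ q 0 = 0 ∧ ∀ᶠ x in 𝓝ˢ 𝒞.Gam, QQ K j x = q (U x) :=
  exists_desc hN (QQ_sym hN K j) (QQ_an hN K j) (QQ_gam hN K j)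

theorem TT_tendsto (hN : 𝒞.NearE N U) {i : Fin 2} {c : C} (hc : c ∈ Ci 𝒞 i) :
    Tendsto (fun x => 𝒞.TT U i x) (𝓝 (c, 𝒞.iv c)) (𝓝 (tv 𝒞 i c)) := by
  have h := (exists_form hN (Q := fun _ => 0) hc (Eventually.of_forall fun _ => rfl)
    ⟨fun _ => 0, analyticAt_const, Eventually.of_forall fun _ => rfl⟩).choose_spec.2.2
  exact (continuous_fst.tendsto _).comp h

theorem Tj_tendsto {i : Fin 2} {c : C} (hc : c ∈ Ci 𝒞 i) (j : Fin 3) :
    Tendsto (Tj 𝒞 i j) (𝓝 (c, 𝒞.iv c)) (𝓝 (Tj 𝒞 i j (c, c))) := by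
  have h1 : Tendsto (fun x : C × C => tv 𝒞 i x.1) (𝓝 (c, 𝒞.iv c)) (𝓝 (tv 𝒞 i c)) :=
    (K3E_227.tv_cont i c hc).tendsto.comp (continuous_fst.tendsto' _ _ rfl)
  have h2 : Tendsto (fun x : C × C => tv 𝒞 i x.2) (𝓝 (c, 𝒞.iv c)) (𝓝 (tv 𝒞 i c)) := by
    have := (K3E_227.tv_cont i (𝒞.iv c) ((K3E_227.Ci_iv 𝒞).2 hc)).tendsto.comp
      (continuous_snd.tendsto' ((c, 𝒞.iv c) : C × C) (𝒞.iv c) rfl)
    rwa [K3E_227.tv_iv] at this
  fin_cases i <;> fin_cases j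
  · exact tendsto_const_nhds
  · exact h1.add h2
  · exact h1.mul h2
  · exact h1.mul h2
  · exact h1.add h2
  · exact tendsto_const_nhds

/-- `mm j z` in the frame `i` -/
theorem mm_frame (hN : 𝒞.NearE N U) {i : Fin 2} {x : C × C}
    (hx : x ∈ 𝒞.Gam ∨ U x i ≠ 0) (j : Fin 3) : mm j (U x) =
      (![![1, 2 * 𝒞.TT U i x, 𝒞.TT U i x ^ 2], ![𝒞.TT U i x ^ 2, 2 * 𝒞.TT U i x, 1]] :
        Fin 2 → Fin 3 → ℂ) i j * U x i ^ 2 := by
  by_cases hG : x ∈ 𝒞.Gam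
  · have hU := U_gam hN hG
    fin_cases j <;> simp [mm, hU]
  · have hU := hx.resolve_left hG
    have hT := TT_off (U := U) (i := i) hG
    have h1 : U x (1 - i) = 𝒞.TT U i x * U x i := by rw [hT, div_mul_cancel₀ _ hU]
    fin_cases i
    · have h1' : U x 1 = 𝒞.TT U 0 x * U x 0 := h1
      fin_cases j
      · show U x 0 ^ 2 = 1 * U x 0 ^ 2
        ring
      · show 2 * U x 0 * U x 1 = 2 * 𝒞.TT U 0 x * U x 0 ^ 2
        rw [h1']; ring
      · show U x 1 ^ 2 = 𝒞.TT U 0 x ^ 2 * U x 0 ^ 2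
        rw [h1']; ring
    · have h1' : U x 0 = 𝒞.TT U 1 x * U x 1 := h1
      fin_cases j
      · show U x 0 ^ 2 = 𝒞.TT U 1 x ^ 2 * U x 1 ^ 2
        rw [h1']; ring
      · show 2 * U x 0 * U x 1 = 2 * 𝒞.TT U 1 x * U x 1 ^ 2
        rw [h1']; ring
      · show U x 1 ^ 2 = 1 * U x 1 ^ 2
        ring

theorem mm_an (j : Fin 3) : AnalyticAt ℂ (mm j) 0 := by
  have hpr : ∀ j : Fin 2, AnalyticAt ℂ (fun z : E2 => z j) 0 := fun j =>
    (ContinuousLinearMap.proj (R := ℂ) (φ := fun _ : Fin 2 => ℂ) j).analyticAt _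
  fin_cases j
  · exact (hpr 0).pow 2
  · exact (analyticAt_const.mul (hpr 0)).mul (hpr 1)
  · exact (hpr 1).pow 2

/-- **expansion** -/
theorem q_exp [T2Space C] (hN : 𝒞.NearE N U) (K : K3 𝒞 U) {κ : ℂ} (hκ : κ ≠ 0)
    (hK : ∀ i c, c ∈ Ci 𝒞 i → K.g i (c, 𝒞.iv c) = κ) {j : Fin 3} {q : E2 → ℂ}
    (hq : AnalyticAt ℂ q 0) (hqU : ∀ᶠ x in 𝓝ˢ 𝒞.Gam, QQ K j x = q (U x)) :
    (fun z => q z - κ⁻¹ * mm j z) =O[𝓝 0] fun z => ‖z‖ ^ 3 := by
  refine isBigO_of_isLittleO 2 (hq.sub (analyticAt_const.mul (mm_an j))) ?_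
  rw [isLittleO_iff]
  intro ε hε
  have key : ∀ᶠ x in 𝓝ˢ 𝒞.Gam, ‖QQ K j x - κ⁻¹ * mm j (U x)‖ ≤ ε * ‖U x‖ ^ 2 := by
    rw [eventually_nhdsSet_iff_forall]
    intro x₀ hx₀
    obtain ⟨c, rfl⟩ : ∃ c, x₀ = (c, 𝒞.iv c) := ⟨x₀.1, Prod.ext rfl hx₀⟩
    obtain ⟨i, hi⟩ := exists_Ci (𝒞 := 𝒞) c
    set M : C × C → ℂ := fun x =>
      (![![1, 2 * 𝒞.TT U i x, 𝒞.TT U i x ^ 2], ![𝒞.TT U i x ^ 2, 2 * 𝒞.TT U i x, 1]] :
        Fin 2 → Fin 3 → ℂ) i j with hM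
    have hMt : Tendsto M (𝓝 (c, 𝒞.iv c)) (𝓝 (Tj 𝒞 i j (c, c))) := by
      have hT := TT_tendsto hN hi
      have h2 : Tendsto (fun _ : C × C => (2 : ℂ)) (𝓝 (c, 𝒞.iv c)) (𝓝 2) := tendsto_const_nhds
      simp only [hM]
      fin_cases i <;> fin_cases j
      · exact tendsto_const_nhds
      · have := h2.mul hT
        have e : Tj 𝒞 0 1 (c, c) = 2 * tv 𝒞 0 c := by
          show tv 𝒞 0 c + tv 𝒞 0 c = _
          ring
        show Tendsto (fun x => 2 * 𝒞.TT U 0 x) _ (𝓝 (Tj 𝒞 0 1 (c, c)))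
        rw [e]; exact this
      · have := hT.pow 2
        have e : Tj 𝒞 0 2 (c, c) = tv 𝒞 0 c ^ 2 := by
          show tv 𝒞 0 c * tv 𝒞 0 c = _
          ring
        show Tendsto (fun x => 𝒞.TT U 0 x ^ 2) _ (𝓝 (Tj 𝒞 0 2 (c, c)))
        rw [e]; exact this
      · have := hT.pow 2
        have e : Tj 𝒞 1 0 (c, c) = tv 𝒞 1 c ^ 2 := by
          show tv 𝒞 1 c * tv 𝒞 1 c = _
          ring
        show Tendsto (fun x => 𝒞.TT U 1 x ^ 2) _ (𝓝 (Tj 𝒞 1 0 (c, c)))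
        rw [e]; exact this
      · have := h2.mul hT
        have e : Tj 𝒞 1 1 (c, c) = 2 * tv 𝒞 1 c := by
          show tv 𝒞 1 c + tv 𝒞 1 c = _
          ring
        show Tendsto (fun x => 2 * 𝒞.TT U 1 x) _ (𝓝 (Tj 𝒞 1 1 (c, c)))
        rw [e]; exact this
      · exact tendsto_const_nhds
    have hgt : Tendsto (K.g i) (𝓝 (c, 𝒞.iv c)) (𝓝 κ) := by
      obtain ⟨γ, hγ, hg⟩ := K.an i c hi
      have h1 : Tendsto (fun x : C × C => γ (𝒞.k c x.1, 𝒞.k (𝒞.iv c) x.2)) (𝓝 (c, 𝒞.iv c))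
          (𝓝 (γ 0)) := hγ.continuousAt.tendsto.comp (kk_tendsto c)
      have h2 : γ 0 = κ := by
        have := hg.self_of_nhds
        simp only [𝒞.k_zero] at this
        rw [hK i c hi] at this
        exact this.symm
      rw [h2] at h1
      exact h1.congr' (hg.mono fun x hx => hx.symm)
    have hd : Tendsto (fun x => Tj 𝒞 i j x / K.g i x - κ⁻¹ * M x) (𝓝 (c, 𝒞.iv c)) (𝓝 0) := by
      have h1 := ((Tj_tendsto hi j).div hgt hκ).sub (hMt.const_mul κ⁻¹)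
      have e : Tj 𝒞 i j (c, c) / κ - κ⁻¹ * Tj 𝒞 i j (c, c) = 0 := by
        rw [div_eq_inv_mul, sub_self]
      rwa [e] at h1
    have hd' : ∀ᶠ x in 𝓝 ((c, 𝒞.iv c) : C × C), ‖Tj 𝒞 i j x / K.g i x - κ⁻¹ * M x‖ ≤ ε := by
      have := hd.norm
      rw [norm_zero] at this
      exact this.eventually (ge_mem_nhds hε)
    filter_upwards [hd', near_K K hi, hN.open_N.mem_nhds (hN.sub rfl)] with x h1 h2 h3
    rw [QQ_eq hN K h2 h3 j, mm_frame hN (K.dom i x h2).2.2 j]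
    have e : fm K i j x - κ⁻¹ * (M x * U x i ^ 2) =
        (Tj 𝒞 i j x / K.g i x - κ⁻¹ * M x) * U x i ^ 2 := by
      unfold fm; ring
    show ‖fm K i j x - κ⁻¹ * (M x * U x i ^ 2)‖ ≤ _
    rw [e, norm_mul, norm_pow]
    have h4 : ‖U x i‖ ≤ ‖U x‖ := norm_le_pi_norm (U x) i
    gcongr
  have h2 : ∀ᶠ z in 𝓝 (0 : E2), ‖q z - κ⁻¹ * mm j z‖ ≤ ε * ‖z‖ ^ 2 := by
    refine eventually_zero hN (key.and hqU) fun x hx hP => ?_
    rw [← hP.2]
    exact hP.1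
  filter_upwards [h2] with z hz
  rw [norm_pow, norm_norm]
  exact hz

end

end Crest.Agent.R272.Th_876
end

-- ▼ part R272/Th3_876
section

/-!
# R272 (helper876), THETA, part 3: the discriminant; the final structure `Theta`

`id6`          : `(t - t')² g_i = U_i² (F(t,t') - 2 y y')` near `Γ`;
`Theta S h`    : the three germs `q 0, q 1, q 2` (`1/G, (t+t')/G, t t'/G` as functions of `z = U(c,c')`);
`exists_theta` : existence;
`Theta.fs`, `Theta.fS` : the functions `x₀, x₁ + x₂, x₁ x₂, S = x₀³ R` in terms of `(z, ω)`.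
-/

set_option autoImplicit false
set_option linter.unusedSectionVars false
set_option linter.unusedVariables false

open Set Filter Topology Asymptotics

namespace Crest.Agent.R272.Th_876

open Crest.Agent.R272.AJ_956 Crest.Agent.R272.Idn_834
open Crest.Agent.R272.K3E_227 (Sext k3 fp Fp lr rv)

noncomputable section

variable {C : Type} [TopologicalSpace C] {𝒞 : Cur C} {N : Set (C × C)} {U : C × C → E2}
  {l : Fin 7 → ℂ}

/-- `F(t,t') - 2 y y'` in the frame `i` -/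
def Ph (S : Sext 𝒞 l) (i : Fin 2) (x : C × C) : ℂ :=
  Fp (lr l i) (tv 𝒞 i x.1) (tv 𝒞 i x.2) - 2 * S.y i x.1 * S.y i x.2

theorem y_cont (S : Sext 𝒞 l) {i : Fin 2} {c : C} (hc : c ∈ Ci 𝒞 i) :
    ContinuousAt (S.y i) c := by
  have h1 : ContinuousAt (fun z => S.y i ((𝒞.k c).symm z)) (𝒞.k c c) := by
    rw [𝒞.k_zero]; exact (S.an i c hc).continuousAt
  have h2 := h1.comp ((𝒞.k c).continuousAt (𝒞.k_mem c))
  refine h2.congr ?_
  filter_upwards [(𝒞.k c).open_source.mem_nhds (𝒞.k_mem c)] with y hy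
  simp only [Function.comp_apply]
  rw [(𝒞.k c).left_inv hy]

theorem fst_cont {f : C → ℂ} {x : C × C} (h : ContinuousAt f x.1) :
    ContinuousAt (fun y : C × C => f y.1) x := h.comp (f := Prod.fst) continuousAt_fst

theorem snd_cont {f : C → ℂ} {x : C × C} (h : ContinuousAt f x.2) :
    ContinuousAt (fun y : C × C => f y.2) x := h.comp (f := Prod.snd) continuousAt_snd

theorem Ph_cont (S : Sext 𝒞 l) {i : Fin 2} {x : C × C} (h1 : x.1 ∈ Ci 𝒞 i)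
    (h2 : x.2 ∈ Ci 𝒞 i) : ContinuousAt (Ph S i) x := by
  have a1 := fst_cont (K3E_227.tv_cont i x.1 h1)
  have a2 := snd_cont (K3E_227.tv_cont i x.2 h2)
  have b1 := fst_cont (y_cont S h1)
  have b2 := snd_cont (y_cont S h2)
  have hF : Continuous fun p : ℂ × ℂ => Fp (lr l i) p.1 p.2 := by
    unfold Fp; fun_prop
  have c1 : ContinuousAt (fun y : C × C => Fp (lr l i) (tv 𝒞 i y.1) (tv 𝒞 i y.2)) x :=
    ContinuousAt.comp (g := fun p : ℂ × ℂ => Fp (lr l i) p.1 p.2)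
      (f := fun y : C × C => (tv 𝒞 i y.1, tv 𝒞 i y.2)) hF.continuousAt (a1.prodMk a2)
  exact c1.sub ((continuousAt_const.mul b1).mul b2)

/-- **the relation `(t - t')² g = U² (F - 2 y y')`** -/
theorem id6 (S : Sext 𝒞 l) (h : 𝒞.NearE N U) {i : Fin 2} {x : C × C}
    (hx : x ∈ (k3 S h).N i) :
    (tv 𝒞 i x.1 - tv 𝒞 i x.2) ^ 2 * (k3 S h).g i x = U x i ^ 2 * Ph S i x := by
  have hx' : x ∈ interior (K3E_227.Tset S N U i) := hx.1
  obtain ⟨⟨m1, m2⟩, m3, m4, m5, m6, m7, m8⟩ := interior_subset hx'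
  have : NeBot (𝓝[K3E_227.As 𝒞 i] x) := mem_closure_iff_nhdsWithin_neBot.1 m7
  have cU : ContinuousAt (fun y => U y i) x :=
    (continuous_apply i).continuousAt.comp (K3E_227.U_cont h x m5)
  have cL : ContinuousAt (fun y : C × C => (tv 𝒞 i y.1 - tv 𝒞 i y.2) ^ 2 *
      K3E_227.gg S U i y) x :=
    (((fst_cont (K3E_227.tv_cont i x.1 m1)).sub
      (snd_cont (K3E_227.tv_cont i x.2 m2))).pow 2).mul m6
  have cR : ContinuousAt (fun y : C × C => U y i ^ 2 * Ph S i y) x :=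
    (cU.pow 2).mul (Ph_cont S m1 m2)
  have hag : ∀ᶠ y in 𝓝[K3E_227.As 𝒞 i] x, (tv 𝒞 i y.1 - tv 𝒞 i y.2) ^ 2 *
      K3E_227.gg S U i y = U y i ^ 2 * Ph S i y := by
    filter_upwards [mem_nhdsWithin_of_mem_nhds (isOpen_interior.mem_nhds hx'),
      self_mem_nhdsWithin] with y hy hyA
    have n8 := (interior_subset hy).2.2.2.2.2.2
    rw [n8 hyA]
    have hne : tv 𝒞 i y.1 - tv 𝒞 i y.2 ≠ 0 := sub_ne_zero.2 hyA
    unfold K3E_227.frm Ph
    field_simp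
  have l1 := cL.tendsto.mono_left (nhdsWithin_le_nhds (s := K3E_227.As 𝒞 i))
  have l2 := cR.tendsto.mono_left (nhdsWithin_le_nhds (s := K3E_227.As 𝒞 i))
  exact tendsto_nhds_unique (l1.congr' hag) l2

/-- discriminant of `Tj` -/
theorem Tj_disc (i : Fin 2) (x : C × C) :
    Tj 𝒞 i 1 x ^ 2 - 4 * Tj 𝒞 i 0 x * Tj 𝒞 i 2 x = (tv 𝒞 i x.1 - tv 𝒞 i x.2) ^ 2 := by
  fin_cases i
  · show (tv 𝒞 0 x.1 + tv 𝒞 0 x.2) ^ 2 - 4 * 1 * (tv 𝒞 0 x.1 * tv 𝒞 0 x.2) =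
      (tv 𝒞 0 x.1 - tv 𝒞 0 x.2) ^ 2
    ring
  · show (tv 𝒞 1 x.1 + tv 𝒞 1 x.2) ^ 2 - 4 * (tv 𝒞 1 x.1 * tv 𝒞 1 x.2) * 1 =
      (tv 𝒞 1 x.1 - tv 𝒞 1 x.2) ^ 2
    ring

/-- the discriminant near `Γ` -/
theorem disc_fm (S : Sext 𝒞 l) (h : 𝒞.NearE N U) {i : Fin 2} {x : C × C}
    (hx : x ∈ (k3 S h).N i) :
    fm (k3 S h) i 1 x ^ 2 - 4 * fm (k3 S h) i 0 x * fm (k3 S h) i 2 x =
      U x i ^ 6 * Ph S i x / (k3 S h).g i x ^ 3 := by
  have h1 := id6 S h hx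
  have h2 := Tj_disc (𝒞 := 𝒞) i x
  have hg := (k3 S h).ne i x hx
  rw [← h2] at h1
  have e : fm (k3 S h) i 1 x ^ 2 - 4 * fm (k3 S h) i 0 x * fm (k3 S h) i 2 x =
      (Tj 𝒞 i 1 x ^ 2 - 4 * Tj 𝒞 i 0 x * Tj 𝒞 i 2 x) * U x i ^ 4 / (k3 S h).g i x ^ 2 := by
    unfold fm; ring
  rw [e, div_eq_div_iff (pow_ne_zero 2 hg) (pow_ne_zero 3 hg)]
  linear_combination (U x i ^ 4 * (k3 S h).g i x ^ 2) * h1

/-- the three germs -/
structure Theta (S : Sext 𝒞 l) (h : 𝒞.NearE N U) where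
  q : Fin 3 → E2 → ℂ
  an : ∀ j, AnalyticAt ℂ (q j) 0
  zero : ∀ j, q j 0 = 0
  exp : ∀ j, (fun z => q j z - 4⁻¹ * mm j z) =O[𝓝 0] fun z => ‖z‖ ^ 3
  disc : (fun z => q 1 z ^ 2 - 4 * q 0 z * q 2 z) =O[𝓝 0] fun z => ‖z‖ ^ 6
  nz : ∃ᶠ z in 𝓝 0, q 1 z ^ 2 - 4 * q 0 z * q 2 z ≠ 0
  form : ∀ᶠ x in 𝓝ˢ 𝒞.Gam, x ∈ N ∧ ∀ i, x ∈ (k3 S h).N i → ∀ j,
    q j (U x) * (k3 S h).g i x = Tj 𝒞 i j x * U x i ^ 2

/-- `Γ` has empty interior -/
theorem freq_gam (c : C) : ∃ᶠ x in 𝓝 ((c, 𝒞.iv c) : C × C), x ∉ 𝒞.Gam := by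
  intro h
  have h1 : ∀ᶠ y in 𝓝 c, ((y, 𝒞.iv c) : C × C) ∈ 𝒞.Gam := by
    have h2 : Tendsto (fun y : C => ((y, 𝒞.iv c) : C × C)) (𝓝 c) (𝓝 (c, 𝒞.iv c)) :=
      (Continuous.prodMk continuous_id continuous_const).tendsto' _ _ rfl
    filter_upwards [h2.eventually h] with y hy
    exact not_not.1 hy
  have h2 : ∀ᶠ y in 𝓝 c, y = c := by
    filter_upwards [h1] with y hy
    have : 𝒞.iv c = 𝒞.iv y := hy
    have := congrArg 𝒞.iv this
    rw [𝒞.iv_iv, 𝒞.iv_iv] at this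
    exact this.symm
  have h3 := (K3E_227.tendsto_ks (𝒞 := 𝒞) c).eventually h2
  have h4 : ∀ᶠ z : ℂ in 𝓝 0, z = 0 := by
    filter_upwards [h3, (𝒞.k c).open_target.mem_nhds (K3E_227.zero_mem 𝒞 c)] with z hz hz2
    rw [← (𝒞.k c).right_inv hz2, hz, 𝒞.k_zero]
  have h5 : ({0} : Set ℂ) ∈ 𝓝 (0 : ℂ) := h4
  exact (not_isOpen_singleton (0 : ℂ)) (isOpen_singleton_iff_nhds_eq_pure (0 : ℂ) |>.2
    (le_antisymm (by rwa [← Filter.principal_singleton, Filter.le_principal_iff])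
      (pure_le_nhds 0)))

/-- **existence of the theta germs** -/
theorem exists_theta [T2Space C] (S : Sext 𝒞 l) (h : 𝒞.NearE N U)
    (hy : ∃ i, ∃ c ∈ Ci 𝒞 i, S.y i c ≠ 0) : Nonempty (Theta S h) := by
  choose q hqa hq0 hqU using fun j => exists_q h (k3 S h) j
  have hall : ∀ᶠ x in 𝓝ˢ 𝒞.Gam, ∀ j, QQ (k3 S h) j x = q j (U x) := by
    rw [eventually_all]
    exact hqU
  have hNn : ∀ᶠ x in 𝓝ˢ 𝒞.Gam, x ∈ N := h.open_N.mem_nhdsSet.2 h.sub
  have hd : AnalyticAt ℂ (fun z => q 1 z ^ 2 - 4 * q 0 z * q 2 z) 0 :=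
    ((hqa 1).pow 2).sub ((analyticAt_const.mul (hqa 0)).mul (hqa 2))
  have hform : ∀ᶠ x in 𝓝ˢ 𝒞.Gam, x ∈ N ∧ ∀ i, x ∈ (k3 S h).N i → ∀ j,
      q j (U x) * (k3 S h).g i x = Tj 𝒞 i j x * U x i ^ 2 := by
    filter_upwards [hall, hNn] with x h1 h2
    refine ⟨h2, fun i hi j => ?_⟩
    rw [← h1 j, QQ_eq h _ hi h2 j]
    exact div_mul_cancel₀ _ ((k3 S h).ne i x hi)
  -- the discriminant
  have hdx : ∀ᶠ x in 𝓝ˢ 𝒞.Gam, ∀ i, x ∈ (k3 S h).N i →
      q 1 (U x) ^ 2 - 4 * q 0 (U x) * q 2 (U x) = U x i ^ 6 * Ph S i x / (k3 S h).g i x ^ 3 := by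
    filter_upwards [hall, hNn] with x h1 h2 i hi
    rw [← h1 0, ← h1 1, ← h1 2, QQ_eq h _ hi h2 0, QQ_eq h _ hi h2 1, QQ_eq h _ hi h2 2]
    exact disc_fm S h hi
  have hgt : ∀ (i : Fin 2) (c : C), c ∈ Ci 𝒞 i →
      Tendsto (fun x => Ph S i x / (k3 S h).g i x ^ 3) (𝓝 (c, 𝒞.iv c))
        (𝓝 (Ph S i (c, 𝒞.iv c) / 4 ^ 3)) := by
    intro i c hi
    have h1 := (Ph_cont S (x := (c, 𝒞.iv c)) hi ((K3E_227.Ci_iv 𝒞).2 hi)).tendsto
    obtain ⟨γ, hγ, hg⟩ := (k3 S h).an i c hi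
    have h2 : Tendsto (fun x : C × C => γ (𝒞.k c x.1, 𝒞.k (𝒞.iv c) x.2)) (𝓝 (c, 𝒞.iv c))
        (𝓝 (γ 0)) := hγ.continuousAt.tendsto.comp (kk_tendsto c)
    have h3 : γ 0 = 4 := by
      have := hg.self_of_nhds
      simp only [𝒞.k_zero] at this
      rw [K3E_227.k3_Gam S h i c hi] at this
      exact this.symm
    rw [h3] at h2
    have h4 : Tendsto ((k3 S h).g i) (𝓝 (c, 𝒞.iv c)) (𝓝 4) :=
      h2.congr' (hg.mono fun x hx => hx.symm)
    exact h1.div (h4.pow 3) (by norm_num)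
  refine ⟨⟨q, hqa, hq0, fun j => q_exp h (k3 S h) (by norm_num)
    (fun i c hc => K3E_227.k3_Gam S h i c hc) (hqa j) (hqU j), ?_, ?_, hform⟩⟩
  · refine isBigO_of_isLittleO 5 hd ?_
    rw [isLittleO_iff]
    intro ε hε
    have key : ∀ᶠ x in 𝓝ˢ 𝒞.Gam,
        ‖q 1 (U x) ^ 2 - 4 * q 0 (U x) * q 2 (U x)‖ ≤ ε * ‖U x‖ ^ 5 := by
      have h1 : ∀ᶠ x in 𝓝ˢ 𝒞.Gam, ∃ i, x ∈ (k3 S h).N i ∧
          ‖U x i ^ 6 * Ph S i x / (k3 S h).g i x ^ 3‖ ≤ ε * ‖U x‖ ^ 5 := by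
        rw [eventually_nhdsSet_iff_forall]
        intro x₀ hx₀
        obtain ⟨c, rfl⟩ : ∃ c, x₀ = (c, 𝒞.iv c) := ⟨x₀.1, Prod.ext rfl hx₀⟩
        obtain ⟨i, hi⟩ := exists_Ci (𝒞 := 𝒞) c
        have hU : Tendsto (fun x => U x i) (𝓝 (c, 𝒞.iv c)) (𝓝 0) := by
          have h2 : ContinuousAt U (c, 𝒞.iv c) := K3E_227.U_cont h _ (h.sub rfl)
          have h3 : ContinuousAt (fun x => U x i) (c, 𝒞.iv c) :=
            (continuous_apply i).continuousAt.comp h2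
          have h4 : U (c, 𝒞.iv c) i = 0 := by rw [U_gam h (show (c, 𝒞.iv c) ∈ 𝒞.Gam from rfl)]; rfl
          have h5 := h3.tendsto
          rwa [h4] at h5
        have h2 := (hU.mul (hgt i c hi)).norm
        rw [zero_mul, norm_zero] at h2
        filter_upwards [h2.eventually (ge_mem_nhds hε), near_K (k3 S h) hi] with x h3 h4
        refine ⟨i, h4, ?_⟩
        have e : U x i ^ 6 * Ph S i x / (k3 S h).g i x ^ 3 =
            U x i ^ 5 * (U x i * (Ph S i x / (k3 S h).g i x ^ 3)) := by ring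
        rw [e, norm_mul, norm_pow]
        have h5 : ‖U x i‖ ≤ ‖U x‖ := norm_le_pi_norm (U x) i
        calc ‖U x i‖ ^ 5 * ‖U x i * (Ph S i x / (k3 S h).g i x ^ 3)‖
            ≤ ‖U x‖ ^ 5 * ε := by gcongr
          _ = ε * ‖U x‖ ^ 5 := mul_comm _ _
      filter_upwards [h1, hdx] with x h2 h3
      obtain ⟨i, hi, h4⟩ := h2
      rw [h3 i hi]
      exact h4
    have h2 := eventually_zero h (R := fun z => ‖q 1 z ^ 2 - 4 * q 0 z * q 2 z‖ ≤ ε * ‖z‖ ^ 5)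
      key fun x hx hP => hP
    filter_upwards [h2] with z hz
    rw [norm_pow, norm_norm]
    exact hz
  · intro hev
    obtain ⟨i, c, hc, hyc⟩ := hy
    have hU : Tendsto U (𝓝 (c, 𝒞.iv c)) (𝓝 0) := by
      have h2 : ContinuousAt U (c, 𝒞.iv c) := K3E_227.U_cont h _ (h.sub rfl)
      have h5 := h2.tendsto
      rwa [U_gam h (show (c, 𝒞.iv c) ∈ 𝒞.Gam from rfl)] at h5
    have hPh : Ph S i (c, 𝒞.iv c) = 4 * S.y i c ^ 2 := by
      unfold Ph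
      simp only
      rw [K3E_227.tv_iv, K3E_227.Fp_eq, S.iv i c hc, ← S.sq i c hc]
      ring
    have hne : ∀ᶠ x in 𝓝 ((c, 𝒞.iv c) : C × C), Ph S i x ≠ 0 := by
      refine (Ph_cont S (x := (c, 𝒞.iv c)) hc ((K3E_227.Ci_iv 𝒞).2 hc)).eventually_ne ?_
      rw [hPh]
      exact mul_ne_zero (by norm_num) (pow_ne_zero 2 hyc)
    have hdx' := eventually_nhdsSet_iff_forall.1 hdx (c, 𝒞.iv c) rfl
    have hev' := hU.eventually hev
    refine freq_gam (𝒞 := 𝒞) c ?_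
    filter_upwards [hne, hdx', hev', near_K (k3 S h) hc] with x h1 h2 h3 h4
    rw [not_not]
    by_contra hG
    have h5 := ((k3 S h).dom i x h4).2.2.resolve_left hG
    apply h3
    rw [h2 i h4]
    exact div_ne_zero (mul_ne_zero (pow_ne_zero 6 h5) h1) (pow_ne_zero 3 ((k3 S h).ne i x h4))

end

end Crest.Agent.R272.Th_876
end

-- ▼ part R272/PW5_92
section

/-!
# R272 (S0415), POS at `p0` (helper92), part 5: the data of the new side from the theta germs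

`kd_of_theta` : `Th_876.Theta S h → KD 4⁻¹ T.q`; `kf_of_theta` : the coefficients;
`upDat K hb`  : 848's `UpDat Up.fam Up.N IPhi` with `FB = K.PhiU b`.
-/

set_option autoImplicit false
set_option linter.unusedSectionVars false
set_option linter.unusedVariables false

open Set Filter Topology Complex Asymptotics

namespace Crest.Agent.R272.PW_92

open Crest.Agent.R272.AJ_956 Crest.Agent.R272.Idn_834
open Crest.Agent.R272.K3E_227 (Sext k3)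
open Crest.Agent.R272.Th_876 (Theta mm)
open Crest.Agent.R272.PosP4_848 Crest.Agent.R272.PosP5_848
open Crest.Agent.R275.Geo Crest.Agent.R273.Fam_835
open Crest.Agent.R272.Flop_66 Crest.Agent.R272.Lc_220 Crest.Agent.R272.FinCB3_876

noncomputable section

section theta

variable {C : Type} [TopologicalSpace C] {𝒞 : Cur C} {N : Set (C × C)} {U : C × C → E2}
  {l : Fin 7 → ℂ} {S : Sext 𝒞 l} {h : 𝒞.NearE N U}



end theta

/-- **the data on the new side** -/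
def upDat {κ : ℂ} {q : Fin 3 → (Fin 2 → ℂ) → ℂ} (K : KF κ q) {b : ℕ} (hb : 15 ≤ b) :
    UpDat Up.fam Up.N IPhi where
  FB := K.PhiU b
  valB x hx := K.valC_N0 hb hx
  ffB := fun x hx => K.ff_N0 hb x hx

end

end Crest.Agent.R272.PW_92
end

-- ▼ part R272/Th4_876

/-!
# R272 (helper876), THETA, part 4: the input `KD` of helper92 and the collar formulas

`Theta.kd`   : `KD 4⁻¹ T.q`;
`exists_kd`  : for the curve of S0415: `q` with `KD 4⁻¹ q` and, near `Γ`, in the frame `i`: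
               `q j (U x) g_i = ks_j U_i²`, `disc q (U x) g_i³ = U_i⁶ rh`;
`KdP.x`, `KdP.R` : `ξ ks_j = ω q_j(U x)`, `ξ³ rh = ω³ disc q (U x)` for `ω = ξ g_i / U_i²`.
-/

set_option autoImplicit false
set_option linter.unusedSectionVars false
set_option linter.unusedVariables false

open Set Filter Topology Asymptotics

namespace Crest.Agent.R272.Th_876

open Crest.Agent.R272.AJ_956 Crest.Agent.R272.Idn_834
open Crest.Agent.R272.K3E_227 (Sext k3 fp Fp lr rv)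
open Crest.Agent.R272.PW_92 (KD disc)

noncomputable section

variable {C : Type} [TopologicalSpace C] {𝒞 : Cur C} {N : Set (C × C)} {U : C × C → E2}
  {l : Fin 7 → ℂ}

theorem Theta.kd {S : Sext 𝒞 l} {h : 𝒞.NearE N U} (T : Theta S h) : KD 4⁻¹ T.q where
  κ_ne := by norm_num
  an := T.an
  j0 := T.exp 0
  j1 := by
    refine (T.exp 1).congr_left fun z => ?_
    show T.q 1 z - 4⁻¹ * (2 * z 0 * z 1) = _
    ring
  j2 := T.exp 2
  disc6 := T.disc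
  nz := by
    intro h0
    refine T.nz ?_
    filter_upwards [h0] with z hz
    exact not_not.2 hz

open Crest.Agent.R272.Cur_297 (Par Cv P1 cur tt kk yv vv sv)
open Crest.Agent.R272.K3E_227 (lP sextP k3P)
open Crest.Agent.R272.PosP3_848 (fs fr eta ks rh)
open Crest.Agent.R272.Kum_977 (Fh rho)

variable {P : Par} {NP : Set (Cv P × Cv P)} {UP : Cv P × Cv P → E2}

theorem Tj_ks {i : Fin 2} {x : Cv P × Cv P} (h1 : x.1 ∈ Ci (cur P) i) (h2 : x.2 ∈ Ci (cur P) i)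
    (j : Fin 3) : Tj (cur P) i j x = ks i i x.1 x.2 j := by
  fin_cases i
  · have e1 : tv (cur P) 0 x.1 = fr 0 x.1 := by
      rw [K3E_227.tv0, PosP3_848.fr_zero (K3E_227.mem_C0.1 h1)]
    have e2 : tv (cur P) 0 x.2 = fr 0 x.2 := by
      rw [K3E_227.tv0, PosP3_848.fr_zero (K3E_227.mem_C0.1 h2)]
    have f1 : fs 0 x.1 = 1 := rfl
    have f2 : fs 0 x.2 = 1 := rfl
    fin_cases j
    · show (1 : ℂ) = fs 0 x.1 * fs 0 x.2
      rw [f1, f2]; ring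
    · show tv (cur P) 0 x.1 + tv (cur P) 0 x.2 = fr 0 x.1 * fs 0 x.2 + fs 0 x.1 * fr 0 x.2
      rw [f1, f2, e1, e2]; ring
    · show tv (cur P) 0 x.1 * tv (cur P) 0 x.2 = fr 0 x.1 * fr 0 x.2
      rw [e1, e2]
  · have e1 : tv (cur P) 1 x.1 = fs 1 x.1 := by rw [K3E_227.tv1, PosP3_848.fs_one]
    have e2 : tv (cur P) 1 x.2 = fs 1 x.2 := by rw [K3E_227.tv1, PosP3_848.fs_one]
    have f1 : fr 1 x.1 = 1 := rfl
    have f2 : fr 1 x.2 = 1 := rfl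
    fin_cases j
    · show tv (cur P) 1 x.1 * tv (cur P) 1 x.2 = fs 1 x.1 * fs 1 x.2
      rw [e1, e2]
    · show tv (cur P) 1 x.1 + tv (cur P) 1 x.2 = fr 1 x.1 * fs 1 x.2 + fs 1 x.1 * fr 1 x.2
      rw [f1, f2, e1, e2]; ring
    · show (1 : ℂ) = fr 1 x.1 * fr 1 x.2
      rw [f1, f2]; ring

theorem Ph_rh {i : Fin 2} {x : Cv P × Cv P} (h1 : x.1 ∈ Ci (cur P) i)
    (h2 : x.2 ∈ Ci (cur P) i) : Ph (sextP P) i x = rh i i x.1 x.2 := by
  fin_cases i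
  · have e1 : tv (cur P) 0 x.1 = fr 0 x.1 := by
      rw [K3E_227.tv0, PosP3_848.fr_zero (K3E_227.mem_C0.1 h1)]
    have e2 : tv (cur P) 0 x.2 = fr 0 x.2 := by
      rw [K3E_227.tv0, PosP3_848.fr_zero (K3E_227.mem_C0.1 h2)]
    have y1 : (sextP P).y 0 x.1 = eta 0 x.1 :=
      (PosP3_848.eta_zero (K3E_227.mem_C0.1 h1)).symm
    have y2 : (sextP P).y 0 x.2 = eta 0 x.2 :=
      (PosP3_848.eta_zero (K3E_227.mem_C0.1 h2)).symm
    have f1 : fs 0 x.1 = 1 := rfl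
    have f2 : fs 0 x.2 = 1 := rfl
    have l0 : lr (lP P) 0 = lP P := by simp [lr]
    show Fp (lr (lP P) 0) (tv (cur P) 0 x.1) (tv (cur P) 0 x.2) -
      2 * (sextP P).y 0 x.1 * (sextP P).y 0 x.2 = rho (lP P) (fs 0 x.1) (fr 0 x.1) (eta 0 x.1)
        (fs 0 x.2) (fr 0 x.2) (eta 0 x.2)
    rw [y1, y2, e1, e2, f1, f2, l0]
    unfold rho Fh Fp
    ring
  · have e1 : tv (cur P) 1 x.1 = fs 1 x.1 := by rw [K3E_227.tv1, PosP3_848.fs_one]
    have e2 : tv (cur P) 1 x.2 = fs 1 x.2 := by rw [K3E_227.tv1, PosP3_848.fs_one]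
    have y1 : (sextP P).y 1 x.1 = - eta 1 x.1 := by rw [PosP3_848.eta_one]; rfl
    have y2 : (sextP P).y 1 x.2 = - eta 1 x.2 := by rw [PosP3_848.eta_one]; rfl
    have f1 : fr 1 x.1 = 1 := rfl
    have f2 : fr 1 x.2 = 1 := rfl
    have l1 : lr (lP P) 1 = rv (lP P) := by simp [lr]
    have r0 : rv (lP P) 0 = lP P 6 := rfl
    have r1 : rv (lP P) 1 = lP P 5 := rfl
    have r2 : rv (lP P) 2 = lP P 4 := rfl
    have r3 : rv (lP P) 3 = lP P 3 := rfl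
    have r4 : rv (lP P) 4 = lP P 2 := rfl
    have r5 : rv (lP P) 5 = lP P 1 := rfl
    have r6 : rv (lP P) 6 = lP P 0 := rfl
    show Fp (lr (lP P) 1) (tv (cur P) 1 x.1) (tv (cur P) 1 x.2) -
      2 * (sextP P).y 1 x.1 * (sextP P).y 1 x.2 = rho (lP P) (fs 1 x.1) (fr 1 x.1) (eta 1 x.1)
        (fs 1 x.2) (fr 1 x.2) (eta 1 x.2)
    rw [y1, y2, e1, e2, f1, f2, l1]
    unfold rho Fh Fp
    rw [r0, r1, r2, r3, r4, r5, r6]
    ring

theorem exists_y (P : Par) : ∃ i, ∃ c ∈ Ci (cur P) i, (sextP P).y i c ≠ 0 := by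
  obtain ⟨t, ht⟩ := (Set.finite_range P.c).exists_notMem
  obtain ⟨c, hc⟩ := Cur_297.surjective_tt (P := P) ((t : ℂ) : P1)
  have h1 : tt c ≠ OnePoint.infty := by rw [hc]; exact OnePoint.coe_ne_infty t
  refine ⟨0, c, K3E_227.mem_C0.2 h1, ?_⟩
  show yv c ≠ 0
  intro h0
  have h2 := Cur_297.yv_sq h1
  have h3 : Cur_297.tv c = t := by
    have := Cur_297.tt_eq h1
    rw [hc] at this
    exact (OnePoint.coe_injective this).symm
  rw [h0, h3] at h2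
  have h4 : P.p0 t ≠ 0 := by
    unfold Par.p0 Par.AA Par.BB
    have hj : ∀ j, t - P.c j ≠ 0 := fun j h => ht ⟨j, (sub_eq_zero.1 h).symm⟩
    exact mul_ne_zero (mul_ne_zero (mul_ne_zero (hj _) (hj _)) (hj _))
      (mul_ne_zero (mul_ne_zero (hj _) (hj _)) (hj _))
  apply h4
  rw [← h2]
  ring

/-- the germs for the curve of S0415, with the relations near `Γ` -/
structure KdP (h : (cur P).NearE NP UP) (q : Fin 3 → E2 → ℂ) (x : Cv P × Cv P) : Prop where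
  mem : x ∈ NP
  rel : ∀ i, x ∈ (k3P h).N i → ∀ j,
    q j (UP x) * (k3P h).g i x = ks i i x.1 x.2 j * UP x i ^ 2
  rel6 : ∀ i, x ∈ (k3P h).N i →
    disc (fun j => q j (UP x)) * (k3P h).g i x ^ 3 = UP x i ^ 6 * rh i i x.1 x.2

theorem exists_kd (h : (cur P).NearE NP UP) : ∃ q : Fin 3 → E2 → ℂ, KD 4⁻¹ q ∧
    (∀ j, q j 0 = 0) ∧ ∀ᶠ x in 𝓝ˢ (cur P).Gam, KdP h q x := by
  obtain ⟨T⟩ := exists_theta (sextP P) h (exists_y P)
  refine ⟨T.q, T.kd, T.zero, ?_⟩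
  filter_upwards [T.form] with x hx
  have hr : ∀ i, x ∈ (k3P h).N i → ∀ j,
      T.q j (UP x) * (k3P h).g i x = ks i i x.1 x.2 j * UP x i ^ 2 := by
    intro i hi j
    have hd := (k3P h).dom i x hi
    rw [← Tj_ks hd.1 hd.2.1 j]
    exact hx.2 i hi j
  refine ⟨hx.1, hr, fun i hi => ?_⟩
  have hd := (k3P h).dom i x hi
  have e0 := hx.2 i hi 0
  have e1 := hx.2 i hi 1
  have e2 := hx.2 i hi 2
  have h6 := id6 (sextP P) h hi
  have hdj := Tj_disc (𝒞 := cur P) i x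
  rw [← Ph_rh hd.1 hd.2.1]
  show (T.q 1 (UP x) ^ 2 - 4 * T.q 0 (UP x) * T.q 2 (UP x)) * (k3 (sextP P) h).g i x ^ 3 = _
  have e3 : (T.q 1 (UP x) ^ 2 - 4 * T.q 0 (UP x) * T.q 2 (UP x)) * (k3 (sextP P) h).g i x ^ 2 =
      (tv (cur P) i x.1 - tv (cur P) i x.2) ^ 2 * UP x i ^ 4 := by
    rw [← hdj]
    linear_combination (T.q 1 (UP x) * (k3 (sextP P) h).g i x +
      Tj (cur P) i 1 x * UP x i ^ 2) * e1 -
      4 * (T.q 2 (UP x) * (k3 (sextP P) h).g i x) * e0 - 4 * (Tj (cur P) i 0 x * UP x i ^ 2) * e2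
  linear_combination ((k3 (sextP P) h).g i x) * e3 + (UP x i ^ 4) * h6

/-- `ω` -/
def om' (h : (cur P).NearE NP UP) (i : Fin 2) (x : Cv P × Cv P) (ξ : ℂ) : ℂ :=
  ξ * (k3P h).g i x / UP x i ^ 2

theorem KdP.x {h : (cur P).NearE NP UP} {q : Fin 3 → E2 → ℂ} {x : Cv P × Cv P}
    (hx : KdP h q x) {i : Fin 2} (hi : x ∈ (k3P h).N i) (hU : UP x i ≠ 0) (ξ : ℂ) (j : Fin 3) :
    ξ * ks i i x.1 x.2 j = om' h i x ξ * q j (UP x) := by
  have h1 := hx.rel i hi j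
  unfold om'
  rw [div_mul_eq_mul_div, eq_div_iff (pow_ne_zero 2 hU)]
  linear_combination -ξ * h1

theorem KdP.R {h : (cur P).NearE NP UP} {q : Fin 3 → E2 → ℂ} {x : Cv P × Cv P}
    (hx : KdP h q x) {i : Fin 2} (hi : x ∈ (k3P h).N i) (hU : UP x i ≠ 0) (ξ : ℂ) :
    ξ ^ 3 * rh i i x.1 x.2 = om' h i x ξ ^ 3 * disc (fun j => q j (UP x)) := by
  have h1 := hx.rel6 i hi
  unfold om'
  rw [div_pow, div_mul_eq_mul_div, eq_div_iff (pow_ne_zero 3 (pow_ne_zero 2 hU))]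
  linear_combination -(ξ ^ 3) * h1

end

end Crest.Agent.R272.Th_876
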