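import Mathlib
import Crest.Agent.R272.UB5_20
import Crest.Agent.R272.GLoc5_620
import Crest.Agent.R272.Tq3_916
import Crest.Agent.R272.Tq2_916
import Crest.Agent.R272.Cur2_297
import Crest.Agent.R272.Act1_302
import Crest.Agent.R272.Arc2_297
import Crest.Agent.R272.As156_338
import Crest.Agent.R272.Ref1_246

-- ▼ part R272/UB6_20
section

/-!
# R272, leaf UB-DISC (helper20), part 6: numerics of the squares

`η` a primitive fifth root of unity with `η + η⁴ = (√5-1)/2`. `wv t = (1-t) η² + t η³`.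
-/

set_option autoImplicit false

open Set Filter Topology
open scoped ComplexConjugate

namespace Crest.Agent.R272.UB_20

noncomputable section

/-- the fifth root of unity in the upper or lower half plane nearest to `1` -/
structure Eta (η : ℂ) : Prop where
  cyc : η ^ 4 + η ^ 3 + η ^ 2 + η + 1 = 0
  cj : conj η = η ^ 4
  re1 : η + η ^ 4 = (((√5 - 1) / 2 : ℝ) : ℂ)

/-- golden ratio -/
def gr : ℝ := (1 + √5) / 2

theorem gr_sq : gr ^ 2 = gr + 1 := by
  have h5 : √5 ^ 2 = (5 : ℝ) := Real.sq_sqrt (by norm_num)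
  unfold gr
  nlinarith

theorem gr_lo : 1.618 < gr := by
  have h5 : √5 ^ 2 = (5 : ℝ) := Real.sq_sqrt (by norm_num)
  have h0 : 0 ≤ √5 := Real.sqrt_nonneg 5
  have : (2.236 : ℝ) < √5 := by
    by_contra hc
    push Not at hc
    nlinarith
  unfold gr
  linarith

theorem gr_hi : gr < 1.6185 := by
  have h5 : √5 ^ 2 = (5 : ℝ) := Real.sq_sqrt (by norm_num)
  have h0 : 0 ≤ √5 := Real.sqrt_nonneg 5
  have : √5 < (2.237 : ℝ) := by
    by_contra hc
    push Not at hc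
    nlinarith
  unfold gr
  linarith

namespace Eta

variable {η : ℂ} (h : Eta η)
include h

theorem z5 : η ^ 5 = 1 := by
  have : η ^ 5 - 1 = (η - 1) * (η ^ 4 + η ^ 3 + η ^ 2 + η + 1) := by ring
  rw [h.cyc, mul_zero] at this
  exact sub_eq_zero.mp this

theorem ne0 : η ≠ 0 := by
  rintro rfl
  have := h.z5
  norm_num at this

theorem conj_pow' (n : ℕ) : conj (η ^ n) = η ^ (4 * n) := by
  rw [map_pow, h.cj, ← pow_mul]

theorem normSq_pow (n : ℕ) : (η ^ n).re ^ 2 + (η ^ n).im ^ 2 = 1 := by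
  have h1 : η ^ n * conj (η ^ n) = 1 := by
    rw [h.conj_pow', ← pow_add, show n + 4 * n = 5 * n by ring, pow_mul, h.z5, one_pow]
  rw [Complex.mul_conj, Complex.normSq_apply] at h1
  have h2 : (η ^ n).re * (η ^ n).re + (η ^ n).im * (η ^ n).im = 1 := by exact_mod_cast h1
  nlinarith

theorem re_1 : (η ^ 1).re = (gr - 1) / 2 := by
  have h1 : η + conj η = (((√5 - 1) / 2 : ℝ) : ℂ) := by rw [h.cj, h.re1]
  rw [Complex.add_conj] at h1
  have h2 : 2 * η.re = (√5 - 1) / 2 := by exact_mod_cast h1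
  rw [pow_one]
  unfold gr
  linarith

theorem re_4 : (η ^ 4).re = (gr - 1) / 2 := by
  rw [← h.cj, Complex.conj_re]
  simpa using h.re_1

theorem conj2 : conj (η ^ 2) = η ^ 3 := by
  rw [h.conj_pow', show 4 * 2 = 5 + 3 by norm_num, pow_add, h.z5, one_mul]

theorem re_2 : (η ^ 2).re = -gr / 2 := by
  have h1 : η ^ 2 + conj (η ^ 2) = ((-gr : ℝ) : ℂ) := by
    rw [h.conj2]
    have h2 := h.cyc
    have h3 := h.re1
    unfold gr
    push_cast at h3 ⊢
    linear_combination h2 - h3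
  rw [Complex.add_conj] at h1
  have h2 : 2 * (η ^ 2).re = -gr := by exact_mod_cast h1
  linarith

theorem re_3 : (η ^ 3).re = -gr / 2 := by
  rw [← h.conj2, Complex.conj_re, h.re_2]

theorem im_3 : (η ^ 3).im = -(η ^ 2).im := by
  rw [← h.conj2, Complex.conj_im]

theorem im_2_sq : (η ^ 2).im ^ 2 = (3 - gr) / 4 := by
  have h1 := h.normSq_pow 2
  rw [h.re_2] at h1
  have := gr_sq
  nlinarith

end Eta

/-- the segment from `η²` to `η³` -/
def wv (η : ℂ) (t : ℝ) : ℂ := (1 - t) * η ^ 2 + t * η ^ 3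

theorem wv_sub2 (η : ℂ) (t : ℝ) : wv η t - η ^ 2 = t * (η ^ 3 - η ^ 2) := by
  unfold wv; ring

theorem wv_sub3 (η : ℂ) (t : ℝ) : wv η t - η ^ 3 = (1 - t) * (η ^ 2 - η ^ 3) := by
  unfold wv; ring

section wv

variable {η : ℂ} (h : Eta η) (t : ℝ)
include h

theorem wv_re : (wv η t).re = -gr / 2 := by
  have e : wv η t = ((1 - t : ℝ) : ℂ) * η ^ 2 + ((t : ℝ) : ℂ) * η ^ 3 := by
    unfold wv; push_cast; ring
  rw [e, Complex.add_re, Complex.re_ofReal_mul, Complex.re_ofReal_mul, h.re_2, h.re_3]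
  ring

theorem wv_im : (wv η t).im = (1 - 2 * t) * (η ^ 2).im := by
  have e : wv η t = ((1 - t : ℝ) : ℂ) * η ^ 2 + ((t : ℝ) : ℂ) * η ^ 3 := by
    unfold wv; push_cast; ring
  rw [e, Complex.add_im, Complex.im_ofReal_mul, Complex.im_ofReal_mul, h.im_3]
  ring

theorem wv_ne_of_re {x : ℂ} (hx : x.re ≠ -gr / 2) : wv η t ≠ x := by
  intro e
  exact hx (by rw [← e, wv_re h t])

theorem wv_ne_zero : wv η t ≠ 0 := wv_ne_of_re h t (by
  have := gr_lo
  rw [Complex.zero_re]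
  intro h0
  linarith)

theorem wv_ne_one : wv η t - 1 ≠ 0 := sub_ne_zero.2 (wv_ne_of_re h t (by
  have := gr_lo
  rw [Complex.one_re]
  intro h0
  linarith))

/-- `w` avoids the other three roots -/
theorem wv_ne_pow {m : ℕ} (hm : m = 0 ∨ m = 1 ∨ m = 4) : wv η t - η ^ m ≠ 0 := by
  have := gr_lo
  rcases hm with rfl | rfl | rfl
  · simpa using wv_ne_one h t
  · refine sub_ne_zero.2 (wv_ne_of_re h t ?_)
    rw [h.re_1]
    intro h0
    linarith
  · refine sub_ne_zero.2 (wv_ne_of_re h t ?_)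
    rw [h.re_4]
    intro h0
    linarith

theorem pow23_ne : η ^ 3 - η ^ 2 ≠ 0 := by
  intro h0
  have h1 := congrArg Complex.im h0
  rw [Complex.sub_im, h.im_3, Complex.zero_im] at h1
  have h2 := h.im_2_sq
  have : (η ^ 2).im = 0 := by linarith
  rw [this] at h2
  have := gr_hi
  norm_num at h2
  linarith

theorem normSq_wv : Complex.normSq (wv η t) = gr ^ 2 / 4 + (1 - 2 * t) ^ 2 * ((3 - gr) / 4) := by
  rw [Complex.normSq_apply, wv_re h, wv_im h]
  have := h.im_2_sq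
  linear_combination (1 - 2 * t) ^ 2 * this

theorem normSq_wv1 : Complex.normSq (wv η t - 1) =
    (1 + gr / 2) ^ 2 + (1 - 2 * t) ^ 2 * ((3 - gr) / 4) := by
  rw [Complex.normSq_apply, Complex.sub_re, Complex.sub_im, wv_re h, wv_im h, Complex.one_re,
    Complex.one_im]
  have := h.im_2_sq
  linear_combination (1 - 2 * t) ^ 2 * this

/-- the square stays in the ball of radius `√(9/10)` -/
theorem radius (ht : t ∈ Icc (0 : ℝ) 1) :
    gr * (1 + Complex.normSq (wv η t) + 1 / 100) ≤ 9 / 10 * Complex.normSq (wv η t - 1) := by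
  rw [normSq_wv h, normSq_wv1 h]
  have h1 := gr_lo
  have h2 := gr_hi
  have h3 := gr_sq
  have hy : (1 - 2 * t) ^ 2 ≤ 1 := by
    have := ht.1
    have := ht.2
    nlinarith
  have hy0 : 0 ≤ (1 - 2 * t) ^ 2 := sq_nonneg _
  set y := (1 - 2 * t) ^ 2
  -- the difference is linear in `y`
  have h4 : gr * (1 + (gr ^ 2 / 4 + y * ((3 - gr) / 4)) + 1 / 100) -
      9 / 10 * ((1 + gr / 2) ^ 2 + y * ((3 - gr) / 4)) =
      gr * (201 / 100) - 9 / 10 * (2 + gr) + (y - 1) * ((3 - gr) / 4) * (gr - 9 / 10) := by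
    have : (1 + gr / 2) ^ 2 = 1 + gr + (gr + 1) / 4 := by rw [← h3]; ring
    rw [this, h3]
    ring
  have h5 : (y - 1) * ((3 - gr) / 4) * (gr - 9 / 10) ≤ 0 := by
    have h6 : 0 ≤ (1 - y) * ((3 - gr) / 4) * (gr - 9 / 10) :=
      mul_nonneg (mul_nonneg (by linarith) (by linarith)) (by linarith)
    nlinarith
  linarith

/-- `|1/10 - η^i| < |w - 1|` -/
theorem small_c (i : ℕ) : Complex.normSq ((1 / 10 : ℂ) - η ^ i) < Complex.normSq (wv η t - 1) := by
  rw [normSq_wv1 h]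
  have h1 := gr_lo
  have h2 := gr_hi
  have h3 := h.normSq_pow i
  have hy0 : 0 ≤ (1 - 2 * t) ^ 2 := sq_nonneg _
  have e : Complex.normSq ((1 / 10 : ℂ) - η ^ i) = (1 / 10 - (η ^ i).re) ^ 2 + (η ^ i).im ^ 2 := by
    have : (1 / 10 : ℂ) = ((1 / 10 : ℝ) : ℂ) := by push_cast; ring
    rw [this, Complex.normSq_apply, Complex.sub_re, Complex.sub_im, Complex.ofReal_re,
      Complex.ofReal_im]
    ring
  rw [e]
  have h4 : (1 / 10 - (η ^ i).re) ^ 2 + (η ^ i).im ^ 2 ≤ 1.21 := by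
    have : -1 ≤ (η ^ i).re := by nlinarith [sq_nonneg (η ^ i).im]
    nlinarith
  have h5 : 0 ≤ (1 - 2 * t) ^ 2 * ((3 - gr) / 4) := mul_nonneg hy0 (by linarith)
  nlinarith

omit t in
theorem c_ne (i : ℕ) : (1 / 10 : ℂ) - η ^ i ≠ 0 := by
  intro h0
  have h3 := h.normSq_pow i
  have h4 : η ^ i = ((1 / 10 : ℝ) : ℂ) := by
    push_cast
    linear_combination -h0
  rw [h4, Complex.ofReal_re, Complex.ofReal_im] at h3
  norm_num at h3

/-- the other bridges of the same colour are not met -/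
theorem bridge_ne {m : ℕ} (hm : m = 1 ∨ m = 2 ∨ m = 3 ∨ m = 4) (ht : t ∈ Icc (0 : ℝ) 1) {σ : ℝ}
    (hσ : σ ∈ Icc (0 : ℝ) 1) : σ * (wv η t - η ^ m) - (wv η t - 1) ≠ 0 := by
  intro h0
  have h1 := gr_lo
  have h2 := gr_hi
  have h3 := gr_sq
  have h4 := h.normSq_pow m
  have hx : (η ^ m).re ≤ (gr - 1) / 2 := by
    rcases hm with rfl | rfl | rfl | rfl
    · rw [h.re_1]
    · rw [h.re_2]; linarith
    · rw [h.re_3]; linarith
    · rw [h.re_4]
  set x := (η ^ m).re with hxd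
  set y := (η ^ m).im with hyd
  set v := (1 - 2 * t) * (η ^ 2).im with hv
  have hv2 : v ^ 2 ≤ (3 - gr) / 4 := by
    have e : v ^ 2 = (1 - 2 * t) ^ 2 * ((3 - gr) / 4) := by
      rw [hv, mul_pow, h.im_2_sq]
    rw [e]
    have : (1 - 2 * t) ^ 2 ≤ 1 := by
      have := ht.1
      have := ht.2
      nlinarith
    nlinarith
  have hx1 : -1 ≤ x := by nlinarith [sq_nonneg y]
  have key : 0 < (1 - x) * (1 + gr / 2) + y * v := by
    have h5 : -(y ^ 2 + v ^ 2) / 2 ≤ y * v := by nlinarith [sq_nonneg (y + v)]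
    have h6 : y ^ 2 = 1 - x ^ 2 := by linarith
    have h7 : 0 < (1 - x) * (1 + gr - x) - (3 - gr) / 4 := by nlinarith
    nlinarith
  -- real part of the product with `conj (w - 1)`
  have h8 := congrArg Complex.re h0
  have h9 := congrArg Complex.im h0
  have e1 : (σ * (wv η t - η ^ m) - (wv η t - 1)).re = σ * (-gr / 2 - x) - (-gr / 2 - 1) := by
    rw [Complex.sub_re, Complex.re_ofReal_mul, Complex.sub_re, Complex.sub_re, wv_re h,
      Complex.one_re]
  have e2 : (σ * (wv η t - η ^ m) - (wv η t - 1)).im = σ * (v - y) - v := by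
    rw [Complex.sub_im, Complex.im_ofReal_mul, Complex.sub_im, Complex.sub_im, wv_im h,
      Complex.one_im, sub_zero]
  rw [e1, Complex.zero_re] at h8
  rw [e2, Complex.zero_im] at h9
  -- combine: `(-(1+g/2)) * re + v * im`
  have h10 : (1 - σ) * ((1 + gr / 2) ^ 2 + v ^ 2) + σ * ((1 - x) * (1 + gr / 2) + y * v) = 0 := by
    linear_combination (1 + gr / 2) * h8 - v * h9
  have h11 : 0 < (1 + gr / 2) ^ 2 + v ^ 2 := by positivity
  rcases eq_or_lt_of_le hσ.1 with h12 | h12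
  · rw [← h12] at h10
    nlinarith
  · have h13 : 0 ≤ (1 - σ) * ((1 + gr / 2) ^ 2 + v ^ 2) :=
      mul_nonneg (by linarith [hσ.2]) h11.le
    have h14 := mul_pos h12 key
    linarith

end wv

end

end Crest.Agent.R272.UB_20
end

-- ▼ part R272/UB9_20
section

/-!
# R272, leaf UB-DISC (helper20), part 9: the squares in the arrangement (1)

the affine functions `lf a` = `lin (io (base a)).1 / W`, their values on the square `zz k`.
-/

set_option autoImplicit false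

open Set Filter Topology
open scoped ComplexConjugate

namespace Crest.Agent.R272.UB_20

open Crest.Agent.R272.EBase_641 Crest.Agent.R272.GLoc_620
open Crest.Agent.R272.Cls_620 Crest.Agent.R272.Quot_783
open Crest.Agent.R272.In_68 (Z5r io)

noncomputable section

section form

variable {O : Subring (Fin 2 → ℂ)} {z μ : Fin 2 → ℂ}

/-- the root of the slopes -/
def et (z : Fin 2 → ℂ) : ℂ := conj (z 0)

theorem eta_et (h : Z5r O z) : Eta (et z) := by
  have hc := In_68.conj_z h 0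
  have h5 := In_68.z5t h 0
  have hcyc : z 0 ^ 4 + z 0 ^ 3 + z 0 ^ 2 + z 0 + 1 = 0 := by
    have := congrFun h.cyc 0
    simpa using this
  have e : et z = z 0 ^ 4 := hc
  refine ⟨?_, ?_, ?_⟩
  · rw [e]
    linear_combination hcyc + (z 0 ^ 11 + z 0 ^ 6 + z 0 ^ 7 + z 0 + z 0 ^ 2 + z 0 ^ 3) * h5
  · rw [et, Complex.conj_conj, hc]
    linear_combination (-(z 0 ^ 11 + z 0 ^ 6 + z 0)) * h5
  · rw [e]
    have h0 := h.at0
    rw [← h0]
    linear_combination (z 0 ^ 11 + z 0 ^ 6 + z 0) * h5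

/-- the scale -/
def WW (z : Fin 2 → ℂ) : ℝ := √(In_68.dd z 0)

theorem WW_pos (h : Z5r O z) : 0 < WW z := Real.sqrt_pos.2 (In_68.dd_pos h 0)

theorem ww_lt (i : Fin 3) : In_68.ww z i.castSucc 0 = WW z := by
  have : In_68.rr z i.castSucc 0 = 1 := by
    fin_cases i <;> simp [In_68.rr, HH]
  rw [In_68.ww, this, abs_one, mul_one, WW]

theorem ww_3 (h : Z5r O z) : In_68.ww z 3 0 = WW z * √gr := by
  have e : In_68.rr z 3 0 = -gr := by
    show ((z ^ 2 + z ^ 3) 0).re = _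
    have e1 : (z ^ 2 + z ^ 3) 0 = z 0 ^ 2 + z 0 ^ 3 := rfl
    rw [e1, h.toZ5.at0', Complex.ofReal_re]
    unfold gr
    ring
  rw [In_68.ww, e, abs_neg, abs_of_pos (by linarith [gr_lo]), WW,
    Real.sqrt_mul (In_68.dd_pos h 0).le]

/-- `lin` in coordinates -/
theorem lin_coord (h : Z5r O z) (v : Fin 4 → Fin 2 → ℂ) (q : E 3) :
    lin (io h v).1 q = WW z * (conj (v 0 0) * q 0 + conj (v 1 0) * q 1 + conj (v 2 0) * q 2
      - (√gr : ℝ) * conj (v 3 0)) := by
  rw [lin, In_68.io_fst, PiLp.inner_apply, Fin.sum_univ_three, In_68.P0_snd, ww_3 h]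
  simp only [In_68.P0_fst, ww_lt, RCLike.inner_apply, map_mul, Complex.conj_ofReal]
  show q 0 * ((WW z : ℂ) * conj (v 0 0)) + q 1 * ((WW z : ℂ) * conj (v 1 0)) +
    q 2 * ((WW z : ℂ) * conj (v 2 0)) - _ * conj (v 3 0) = _
  push_cast
  ring

/-- the affine functions of the labels -/
def lf (η : ℂ) : Lb → E 3 → ℂ
  | .o, q => q 0
  | .n false, q => q 1
  | .n true, q => q 2
  | .v false j, q => q 1 - η ^ (j : ℕ) * q 0
  | .v true j, q => q 2 - η ^ (j : ℕ) * q 0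
  | .b false k, q => q 1 - η ^ (k : ℕ) * q 0 - (√gr : ℝ)
  | .b true k, q => q 2 - η ^ (k : ℕ) * q 0 - (√gr : ℝ)

theorem lin_base (h : Z5r O z) (a : Lb) (q : E 3) :
    lin (io h (base z a)).1 q = WW z * lf (et z) a q := by
  rw [lin_coord h]
  cases a with
  | o => simp [base, e0, lf]
  | n i => cases i <;> simp [base, ei, e1, e2, lf]
  | v i j =>
    cases i <;> simp [base, ei, e0, e1, e2, lf, et] <;> ring_nf <;> simp
  | b i k =>
    cases i <;> simp [base, ei, e0, e1, e2, e3, lf, et] <;> ring_nf <;> simp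

theorem base_fst_ne (h : Z5r O z) (a : Lb) : (io h (base z a)).1.1 ≠ 0 := by
  intro h0
  have hc : ∀ q q' : E 3, lf (et z) a q = lf (et z) a q' := by
    intro q q'
    have e1 := lin_base h a q
    have e2 := lin_base h a q'
    rw [lin, h0, inner_zero_left] at e1 e2
    have hW : (WW z : ℂ) ≠ 0 := Complex.ofReal_ne_zero.2 (WW_pos h).ne'
    exact mul_left_cancel₀ hW (e1.symm.trans e2)
  have h1 := hc (WithLp.toLp 2 ![1, 0, 0]) 0
  have h2 := hc (WithLp.toLp 2 ![0, 1, 0]) 0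
  have h3 := hc (WithLp.toLp 2 ![0, 0, 1]) 0
  cases a with
  | o => simp [lf] at h1
  | n i => cases i <;> simp [lf] at h2 h3
  | v i j => cases i <;> simp [lf] at h2 h3
  | b i k => cases i <;> simp [lf] at h2 h3

end form

/-! ### units -/

section unit

variable {O : Subring (Fin 2 → ℂ)} {z μ : Fin 2 → ℂ} (h : Z5r O z)
variable {G : Type} [Group G] {ρ : G →* UG 3} {kk : ℕ}

theorem isUM_of_ne {f : E 3 → ℂ} {v : V1 3} {q : E 3} (hf : IsU f q) (hv : lin v q ≠ 0) :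
    IsUM f (lin v) q := by
  have h1 : IsU (lin v) q :=
    ⟨{w | lin v w ≠ 0}, (differentiable_lin v).continuous.continuousAt.eventually_ne hv,
      (differentiable_lin v).differentiableOn, fun w hw => hw⟩
  refine ⟨fun w => f w * (lin v w)⁻¹, hf.mul h1.inv, ?_⟩
  filter_upwards [(differentiable_lin v).continuous.continuousAt.eventually_ne hv] with w hw
  field_simp

include h in
theorem isUM_base (hD : Deep O z μ 2) (hD' : Deep O z μ 13) {a : Lb}
    (R : Root 3 kk ρ (SS h μ a)) {q : E 3} (hq : ‖q‖ ^ 2 ≤ 9 / 10) :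
    IsUM R.f (lin (io h (base z a)).1) q := by
  have hqB : q ∈ Ball 3 := by
    rw [mem_Ball]
    nlinarith [norm_nonneg q]
  by_cases h0 : lin (io h (base z a)).1 q = 0
  · exact root_L h hD R hqB ⟨base_mem h.toZ5 a, Cg.refl _ _, rfl⟩ ((perp_iff h _ q).mpr h0)
  · refine isUM_of_ne (root_U h R hqB ?_) h0
    rintro ⟨v, hv, hvp⟩
    apply h0
    have h1 := (perp_iff h v q).mp hvp
    have h2 : v = base z a :=
      std_of_ball h (K := 13) (r := 9 / 10) (by norm_num) (by norm_num) hD' (by norm_num) hv hq h1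
    rw [← h2]
    exact h1

include h in
/-- global form of the root functions on the ball of radius `√(9/10)` -/
theorem exists_UU (hD : Deep O z μ 2) (hD' : Deep O z μ 13) (R : ∀ a : Lb, Root 3 kk ρ (SS h μ a)) :
    ∃ U : Lb → E 3 → ℂ, (∀ a, ContinuousOn (U a) {q | ‖q‖ ^ 2 ≤ 9 / 10}) ∧
      (∀ a q, ‖q‖ ^ 2 ≤ 9 / 10 → U a q ≠ 0) ∧
      ∀ a q, ‖q‖ ^ 2 ≤ 9 / 10 → (R a).f q = lf (et z) a q * U a q := by
  have hW : (WW z : ℂ) ≠ 0 := Complex.ofReal_ne_zero.2 (WW_pos h).ne'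
  have h1 : ∀ a : Lb, ∃ U : E 3 → ℂ, ContinuousOn U {q | ‖q‖ ^ 2 ≤ 9 / 10} ∧
      (∀ q, ‖q‖ ^ 2 ≤ 9 / 10 → U q ≠ 0) ∧
      ∀ q, ‖q‖ ^ 2 ≤ 9 / 10 → (R a).f q = lf (et z) a q * U q := by
    intro a
    obtain ⟨U, hU1, hU2, hU3⟩ := exists_unit (base_fst_ne h a)
      (K := {q : E 3 | ‖q‖ ^ 2 ≤ 9 / 10}) (f := (R a).f) (fun q hq => isUM_base h hD hD' (R a) hq)
    refine ⟨fun q => WW z * U q, continuousOn_const.mul hU1, fun q hq => mul_ne_zero hW (hU2 q hq),
      fun q hq => ?_⟩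
    rw [hU3 q hq, lin_base h]
    ring
  choose U hU1 hU2 hU3 using h1
  exact ⟨U, hU1, hU2, hU3⟩

end unit

/-! ### the square in the ball -/

section square

/-- the slope along the arc -/
def uv (η : ℂ) (k : Fin 5) (t : ℝ) : ℂ := η ^ (k : ℕ) * wv η t

/-- the length -/
def Lv (η : ℂ) (k : Fin 5) (t : ℝ) : ℂ := (√gr : ℝ) / (η ^ (k : ℕ) * (wv η t - 1))

/-- the square -/
def zz (η : ℂ) (k : Fin 5) (p : ℝ × ℝ) : E 3 :=
  WithLp.toLp 2 ![p.1 * Lv η k p.2, p.1 * Lv η k p.2 * uv η k p.2, p.1 * Lv η k p.2 * (1 / 10)]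

variable {η : ℂ} (hη : Eta η) (k : Fin 5)

theorem wv_cont (η : ℂ) : Continuous (wv η) := by
  unfold wv; fun_prop

theorem uv_cont (η : ℂ) (k : Fin 5) : Continuous (uv η k) :=
  continuous_const.mul (wv_cont η)

include hη

theorem Lv_cont : Continuous (Lv η k) := by
  unfold Lv
  refine continuous_const.div (continuous_const.mul ((wv_cont η).sub continuous_const)) ?_
  intro t
  exact mul_ne_zero (pow_ne_zero _ hη.ne0) (wv_ne_one hη t)

theorem Lv_ne (t : ℝ) : Lv η k t ≠ 0 := by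
  refine div_ne_zero ?_ (mul_ne_zero (pow_ne_zero _ hη.ne0) (wv_ne_one hη t))
  exact Complex.ofReal_ne_zero.2 (Real.sqrt_pos.2 (by linarith [gr_lo])).ne'

theorem zz_cont : Continuous (zz η k) := by
  have h1 := Lv_cont hη k
  have h2 := uv_cont η k
  unfold zz
  refine (PiLp.continuous_toLp 2 _).comp (continuous_pi fun i => ?_)
  fin_cases i
  · show Continuous fun p : ℝ × ℝ => (p.1 : ℂ) * Lv η k p.2
    fun_prop
  · show Continuous fun p : ℝ × ℝ => (p.1 : ℂ) * Lv η k p.2 * uv η k p.2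
    fun_prop
  · show Continuous fun p : ℝ × ℝ => (p.1 : ℂ) * Lv η k p.2 * (1 / 10)
    fun_prop

theorem normSq_pow1 (n : ℕ) : Complex.normSq (η ^ n) = 1 := by
  rw [Complex.normSq_apply]
  have := hη.normSq_pow n
  nlinarith

theorem zz_norm {p : ℝ × ℝ} (hp : p ∈ sqr) : ‖zz η k p‖ ^ 2 ≤ 9 / 10 := by
  have h1 : ‖zz η k p‖ ^ 2 = p.1 ^ 2 * (Complex.normSq (Lv η k p.2) *
      (1 + Complex.normSq (wv η p.2) + 1 / 100)) := by
    rw [EuclideanSpace.norm_sq_eq, Fin.sum_univ_three]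
    show ‖(p.1 : ℂ) * Lv η k p.2‖ ^ 2 + ‖(p.1 : ℂ) * Lv η k p.2 * uv η k p.2‖ ^ 2 +
      ‖(p.1 : ℂ) * Lv η k p.2 * (1 / 10)‖ ^ 2 = _
    rw [← Complex.normSq_eq_norm_sq, ← Complex.normSq_eq_norm_sq, ← Complex.normSq_eq_norm_sq]
    simp only [map_mul, uv, normSq_pow1 hη, Complex.normSq_ofReal]
    have : Complex.normSq (1 / 10 : ℂ) = 1 / 100 := by
      have e : (1 / 10 : ℂ) = ((1 / 10 : ℝ) : ℂ) := by push_cast; ring
      rw [e, Complex.normSq_ofReal]
      norm_num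
    rw [this]
    ring
  have h2 : Complex.normSq (Lv η k p.2) = gr / Complex.normSq (wv η p.2 - 1) := by
    unfold Lv
    rw [map_div₀, map_mul, normSq_pow1 hη, one_mul, Complex.normSq_ofReal,
      Real.mul_self_sqrt (by linarith [gr_lo])]
  have h3 : 0 < Complex.normSq (wv η p.2 - 1) := Complex.normSq_pos.2 (wv_ne_one hη _)
  have h4 := radius hη p.2 hp.2
  rw [h1, h2]
  have h5 : gr / Complex.normSq (wv η p.2 - 1) * (1 + Complex.normSq (wv η p.2) + 1 / 100) ≤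
      9 / 10 := by
    rw [div_mul_eq_mul_div, div_le_iff₀ h3]
    exact h4
  have h6 : p.1 ^ 2 ≤ 1 := by
    have := hp.1.1
    have := hp.1.2
    nlinarith
  have h7 : 0 ≤ gr / Complex.normSq (wv η p.2 - 1) *
      (1 + Complex.normSq (wv η p.2) + 1 / 100) := by
    have := Complex.normSq_nonneg (wv η p.2)
    have := gr_lo
    positivity
  nlinarith

end square

/-! ### factorisation on the square -/

section factor

/-- the vanishing part -/
def ea (k : Fin 5) : Lb → ℝ × ℝ → ℝ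
  | .o, p => p.1
  | .n _, p => p.1
  | .v true _, p => p.1
  | .v false m, p => if m = k + 2 then p.1 * p.2 else if m = k + 3 then p.1 * (1 - p.2) else p.1
  | .b false m, p => if m = k then 1 - p.1 else 1
  | .b true _, _ => 1

/-- the nonvanishing part -/
def Ba (η : ℂ) (k : Fin 5) : Lb → ℝ × ℝ → ℂ
  | .o, p => Lv η k p.2
  | .n false, p => Lv η k p.2 * uv η k p.2
  | .n true, p => Lv η k p.2 * (1 / 10)
  | .v true j, p => Lv η k p.2 * (1 / 10 - η ^ (j : ℕ))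
  | .v false m, p =>
      if m = k + 2 then Lv η k p.2 * (η ^ (k : ℕ) * (η ^ 3 - η ^ 2))
      else if m = k + 3 then Lv η k p.2 * (η ^ (k : ℕ) * (η ^ 2 - η ^ 3))
      else Lv η k p.2 * (uv η k p.2 - η ^ (m : ℕ))
  | .b false m, p =>
      if m = k then -(√gr : ℝ) else p.1 * Lv η k p.2 * (uv η k p.2 - η ^ (m : ℕ)) - (√gr : ℝ)
  | .b true m, p => p.1 * Lv η k p.2 * (1 / 10 - η ^ (m : ℕ)) - (√gr : ℝ)

variable {η : ℂ} (hη : Eta η) (k : Fin 5)
include hη

theorem pow_fin (n : Fin 5) : η ^ ((k + n : Fin 5) : ℕ) = η ^ (k : ℕ) * η ^ (n : ℕ) := by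
  rw [Fin.val_add, ← pow_add]
  conv_rhs => rw [← Nat.mod_add_div ((k : ℕ) + n) 5]
  rw [pow_add, pow_mul, hη.z5, one_pow, mul_one]

omit hη in
theorem fin_split (m : Fin 5) : ∃ n : Fin 5, m = k + n := ⟨m - k, (add_sub_cancel k m).symm⟩

theorem Lk (t : ℝ) : Lv η k t * (η ^ (k : ℕ) * (wv η t - 1)) = (√gr : ℝ) := by
  have h1 := mul_ne_zero (pow_ne_zero (k : ℕ) hη.ne0) (wv_ne_one hη t)
  exact div_mul_cancel₀ _ h1

/-- factorisation -/
theorem lf_zz (a : Lb) (p : ℝ × ℝ) : lf η a (zz η k p) = ea k a p * Ba η k a p := by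
  have hu2 : uv η k p.2 - η ^ (((k + 2 : Fin 5)) : ℕ) =
      p.2 * (η ^ (k : ℕ) * (η ^ 3 - η ^ 2)) := by
    rw [pow_fin hη k 2, uv]
    show η ^ (k : ℕ) * wv η p.2 - η ^ (k : ℕ) * η ^ 2 = _
    linear_combination η ^ (k : ℕ) * wv_sub2 η p.2
  have hu3 : uv η k p.2 - η ^ (((k + 3 : Fin 5)) : ℕ) =
      (1 - p.2) * (η ^ (k : ℕ) * (η ^ 2 - η ^ 3)) := by
    rw [pow_fin hη k 3, uv]
    show η ^ (k : ℕ) * wv η p.2 - η ^ (k : ℕ) * η ^ 3 = _
    linear_combination η ^ (k : ℕ) * wv_sub3 η p.2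
  cases a with
  | o => rfl
  | n i => 
    cases i
    · show (p.1 : ℂ) * Lv η k p.2 * uv η k p.2 = p.1 * (Lv η k p.2 * uv η k p.2)
      ring
    · show (p.1 : ℂ) * Lv η k p.2 * (1 / 10) = p.1 * (Lv η k p.2 * (1 / 10))
      ring
  | v i m =>
    cases i
    · show (p.1 : ℂ) * Lv η k p.2 * uv η k p.2 - η ^ (m : ℕ) * (p.1 * Lv η k p.2) = _
      simp only [ea, Ba]
      split_ifs with h1 h2
      · rw [h1]
        push_cast
        linear_combination (p.1 : ℂ) * Lv η k p.2 * hu2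
      · rw [h2]
        push_cast
        linear_combination (p.1 : ℂ) * Lv η k p.2 * hu3
      · ring
    · show (p.1 : ℂ) * Lv η k p.2 * (1 / 10) - η ^ (m : ℕ) * (p.1 * Lv η k p.2) =
        p.1 * (Lv η k p.2 * (1 / 10 - η ^ (m : ℕ)))
      ring
  | b i m =>
    cases i
    · show (p.1 : ℂ) * Lv η k p.2 * uv η k p.2 - η ^ (m : ℕ) * (p.1 * Lv η k p.2) -
        (√gr : ℝ) = _
      simp only [ea, Ba]
      split_ifs with h1
      · rw [h1]
        have := Lk hη k p.2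
        unfold uv
        push_cast
        linear_combination (p.1 : ℂ) * this
      · push_cast
        ring
    · show (p.1 : ℂ) * Lv η k p.2 * (1 / 10) - η ^ (m : ℕ) * (p.1 * Lv η k p.2) -
        (√gr : ℝ) = ((1 : ℝ) : ℂ) * (p.1 * Lv η k p.2 * (1 / 10 - η ^ (m : ℕ)) - (√gr : ℝ))
      push_cast
      ring

theorem Ba_cont (a : Lb) : Continuous (Ba η k a) := by
  have h1 := Lv_cont hη k
  have h2 := uv_cont η k
  cases a with
  | o => exact h1.comp continuous_snd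
  | n i => 
    cases i
    · exact (h1.comp continuous_snd).mul (h2.comp continuous_snd)
    · exact (h1.comp continuous_snd).mul continuous_const
  | v i m =>
    cases i
    · by_cases e1 : m = k + 2
      · have : Ba η k (.v false m) = fun p => Lv η k p.2 * (η ^ (k : ℕ) * (η ^ 3 - η ^ 2)) := by
          funext p; simp only [Ba, if_pos e1]
        rw [this]
        fun_prop
      · by_cases e2 : m = k + 3
        · have : Ba η k (.v false m) = fun p => Lv η k p.2 * (η ^ (k : ℕ) * (η ^ 2 - η ^ 3)) := by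
            funext p; simp only [Ba, if_neg e1, if_pos e2]
          rw [this]
          fun_prop
        · have : Ba η k (.v false m) = fun p => Lv η k p.2 * (uv η k p.2 - η ^ (m : ℕ)) := by
            funext p; simp only [Ba, if_neg e1, if_neg e2]
          rw [this]
          fun_prop
    · exact (h1.comp continuous_snd).mul continuous_const
  | b i m =>
    cases i
    · by_cases e1 : m = k
      · have : Ba η k (.b false m) = fun _ => -(((√gr : ℝ)) : ℂ) := by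
          funext p; simp only [Ba, if_pos e1]
        rw [this]
        fun_prop
      · have : Ba η k (.b false m) = fun p =>
            p.1 * Lv η k p.2 * (uv η k p.2 - η ^ (m : ℕ)) - (√gr : ℝ) := by
          funext p; simp only [Ba, if_neg e1]
        rw [this]
        fun_prop
    · have : Ba η k (.b true m) = fun p =>
          p.1 * Lv η k p.2 * (1 / 10 - η ^ (m : ℕ)) - (√gr : ℝ) := by
        funext p; simp only [Ba]
      rw [this]
      fun_prop

theorem Ba_ne (a : Lb) {p : ℝ × ℝ} (hp : p ∈ sqr) : Ba η k a p ≠ 0 := by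
  have hL := Lv_ne hη k p.2
  have hk := pow_ne_zero (k : ℕ) hη.ne0
  have hs : ((√gr : ℝ) : ℂ) ≠ 0 :=
    Complex.ofReal_ne_zero.2 (Real.sqrt_pos.2 (by linarith [gr_lo])).ne'
  have h32 := pow23_ne hη
  have h23 : η ^ 2 - η ^ 3 ≠ 0 := fun h0 => h32 (by linear_combination -h0)
  cases a with
  | o => exact hL
  | n i =>
    cases i
    · exact mul_ne_zero hL (mul_ne_zero hk (wv_ne_zero hη _))
    · exact mul_ne_zero hL (by norm_num)
  | v i m =>
    cases i
    · simp only [Ba]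
      split_ifs with h1 h2
      · exact mul_ne_zero hL (mul_ne_zero hk h32)
      · exact mul_ne_zero hL (mul_ne_zero hk h23)
      · refine mul_ne_zero hL ?_
        obtain ⟨n, rfl⟩ := fin_split k m
        rw [pow_fin hη k n, uv, ← mul_sub]
        refine mul_ne_zero hk ?_
        have hn : (n : ℕ) = 0 ∨ (n : ℕ) = 1 ∨ (n : ℕ) = 4 := by
          have h3 : n ≠ 2 := fun e => h1 (by rw [e])
          have h4 : n ≠ 3 := fun e => h2 (by rw [e])
          clear h1 h2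
          revert h3 h4
          fin_cases n <;> simp
        exact wv_ne_pow hη p.2 hn
    · exact mul_ne_zero hL (c_ne hη _)
  | b i m =>
    cases i
    · simp only [Ba]
      split_ifs with h1
      · exact neg_ne_zero.2 hs
      · obtain ⟨n, rfl⟩ := fin_split k m
        have hn : (n : ℕ) = 1 ∨ (n : ℕ) = 2 ∨ (n : ℕ) = 3 ∨ (n : ℕ) = 4 := by
          have h3 : n ≠ 0 := fun e => h1 (by rw [e, add_zero])
          clear h1
          revert h3
          fin_cases n <;> simp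
        have h5 := bridge_ne hη p.2 hn hp.2 hp.1
        have h6 := Lk hη k p.2
        intro h0
        apply mul_ne_zero (mul_ne_zero hL hk) h5
        rw [pow_fin hη k n, uv] at h0
        linear_combination h0 - h6
    · intro h0
      have h0' : (p.1 : ℂ) * Lv η k p.2 * (1 / 10 - η ^ (m : ℕ)) = (√gr : ℝ) := by
        simp only [Ba] at h0
        linear_combination h0
      have h1 := congrArg Complex.normSq h0'
      have h2 : Complex.normSq (Lv η k p.2) = gr / Complex.normSq (wv η p.2 - 1) := by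
        unfold Lv
        rw [map_div₀, map_mul, normSq_pow1 hη, one_mul, Complex.normSq_ofReal,
          Real.mul_self_sqrt (by linarith [gr_lo])]
      have h3 : 0 < Complex.normSq (wv η p.2 - 1) := Complex.normSq_pos.2 (wv_ne_one hη _)
      rw [map_mul, map_mul, h2, Complex.normSq_ofReal, Complex.normSq_ofReal,
        Real.mul_self_sqrt (by linarith [gr_lo])] at h1
      have h4 := small_c hη p.2 (m : ℕ)
      have h5 := gr_lo
      have h6 : p.1 * p.1 ≤ 1 := by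
        have := hp.1.1
        have := hp.1.2
        nlinarith
      have h7 : p.1 * p.1 * Complex.normSq (1 / 10 - η ^ (m : ℕ)) =
          Complex.normSq (wv η p.2 - 1) := by
        generalize Complex.normSq (1 / 10 - η ^ (m : ℕ)) = X at h1 h4 ⊢
        generalize Complex.normSq (wv η p.2 - 1) = Y at h1 h3 h4 ⊢
        have h10 : gr ≠ 0 := by linarith
        have h11 : Y ≠ 0 := h3.ne'
        field_simp at h1
        linarith
      have h8 : p.1 * p.1 * Complex.normSq (1 / 10 - η ^ (m : ℕ)) ≤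
          1 * Complex.normSq (1 / 10 - η ^ (m : ℕ)) :=
        mul_le_mul_of_nonneg_right h6 (Complex.normSq_nonneg _)
      linarith

end factor

/-! ### the squares over the ball -/

section sqd

open Crest.Agent.R272.GI_620
open Crest.Agent.R272.Gr_559 (GData)

variable {O : Subring (Fin 2 → ℂ)} {z μ : Fin 2 → ℂ} (h : Z5r O z)
variable {G : Type} [Group G] {ρ : G →* UG 3} {kk : ℕ} (R : ∀ a : Lb, Root 3 kk ρ (SS h μ a))
variable {Γ : Type} [Group Γ] (ρ' : Γ →* UG 3)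

/-- `(R a).f = lf a * U a` near the origin -/
structure IsUU (U : Lb → E 3 → ℂ) : Prop where
  cont : ∀ a, ContinuousOn (U a) {q | ‖q‖ ^ 2 ≤ 9 / 10}
  ne : ∀ a q, ‖q‖ ^ 2 ≤ 9 / 10 → U a q ≠ 0
  eq : ∀ a q, ‖q‖ ^ 2 ≤ 9 / 10 → (R a).f q = lf (et z) a q * U a q

theorem exists_isUU (hD : Deep O z μ 2) (hD' : Deep O z μ 13) : ∃ U, IsUU h R U := by
  obtain ⟨U, h1, h2, h3⟩ := exists_UU h hD hD' R
  exact ⟨U, h1, h2, h3⟩

variable {U : Lb → E 3 → ℂ} (hU : IsUU h R U) (k : Fin 5)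

/-- the nonvanishing part of the root functions -/
def Ph (z : Fin 2 → ℂ) (U : Lb → E 3 → ℂ) (k : Fin 5) (a : Lb) (p : ℝ × ℝ) : ℂ :=
  Ba (et z) k a p * U a (zz (et z) k p)

/-- the nonvanishing part of `P` -/
def PPh (z : Fin 2 → ℂ) (U : Lb → E 3 → ℂ) (k : Fin 5) (i : Bool) (p : ℝ × ℝ) : ℂ :=
  Ph z U k (.v i 1) p * Ph z U k (.v i 2) p * Ph z U k (.n i) p *
    (Ph z U k (.b i 1) p * Ph z U k (.b i 2) p)

/-- the nonvanishing part of `Q` -/
def QPh (z : Fin 2 → ℂ) (U : Lb → E 3 → ℂ) (k : Fin 5) (i : Bool) (p : ℝ × ℝ) : ℂ :=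
  Ph z U k (.v i 3) p * Ph z U k (.v i 4) p * Ph z U k (.v i 0) p * Ph z U k (.b i 4) p

include hU

theorem R_zz (a : Lb) {p : ℝ × ℝ} (hp : p ∈ sqr) :
    (R a).f (zz (et z) k p) = ea k a p * Ph z U k a p := by
  rw [hU.eq a _ (zz_norm (eta_et h) k hp), lf_zz (eta_et h) k a p, Ph]
  ring

theorem Ph_cont (a : Lb) : ContinuousOn (Ph z U k a) sqr := by
  refine (Ba_cont (eta_et h) k a).continuousOn.mul ?_
  exact (hU.cont a).comp (zz_cont (eta_et h) k).continuousOn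
    (fun p hp => zz_norm (eta_et h) k hp)

theorem Ph_ne (a : Lb) {p : ℝ × ℝ} (hp : p ∈ sqr) : Ph z U k a p ≠ 0 :=
  mul_ne_zero (Ba_ne (eta_et h) k a hp) (hU.ne a _ (zz_norm (eta_et h) k hp))

theorem PPh_cont (i : Bool) : ContinuousOn (PPh z U k i) sqr :=
  (((Ph_cont h R hU k _).mul (Ph_cont h R hU k _)).mul (Ph_cont h R hU k _)).mul
    ((Ph_cont h R hU k _).mul (Ph_cont h R hU k _))

theorem QPh_cont (i : Bool) : ContinuousOn (QPh z U k i) sqr :=
  (((Ph_cont h R hU k _).mul (Ph_cont h R hU k _)).mul (Ph_cont h R hU k _)).mul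
    (Ph_cont h R hU k _)

theorem PPh_ne (i : Bool) {p : ℝ × ℝ} (hp : p ∈ sqr) : PPh z U k i p ≠ 0 :=
  mul_ne_zero (mul_ne_zero (mul_ne_zero (Ph_ne h R hU k _ hp) (Ph_ne h R hU k _ hp))
    (Ph_ne h R hU k _ hp)) (mul_ne_zero (Ph_ne h R hU k _ hp) (Ph_ne h R hU k _ hp))

theorem QPh_ne (i : Bool) {p : ℝ × ℝ} (hp : p ∈ sqr) : QPh z U k i p ≠ 0 :=
  mul_ne_zero (mul_ne_zero (mul_ne_zero (Ph_ne h R hU k _ hp) (Ph_ne h R hU k _ hp))
    (Ph_ne h R hU k _ hp)) (Ph_ne h R hU k _ hp)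

theorem FP_zz (i : Bool) {p : ℝ × ℝ} (hp : p ∈ sqr) : FP h R i (zz (et z) k p) =
    (ea k (.v i 1) p * ea k (.v i 2) p * ea k (.n i) p * (ea k (.b i 1) p * ea k (.b i 2) p) : ℝ) *
      PPh z U k i p := by
  unfold FP PPh
  rw [R_zz h R hU k _ hp, R_zz h R hU k _ hp, R_zz h R hU k _ hp, R_zz h R hU k _ hp,
    R_zz h R hU k _ hp]
  push_cast
  ring

theorem FQ_zz (i : Bool) {p : ℝ × ℝ} (hp : p ∈ sqr) : FQ h R i (zz (et z) k p) =
    (ea k (.v i 3) p * ea k (.v i 4) p * ea k (.v i 0) p * ea k (.b i 4) p : ℝ) *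
      QPh z U k i p := by
  unfold FQ QPh
  rw [R_zz h R hU k _ hp, R_zz h R hU k _ hp, R_zz h R hU k _ hp, R_zz h R hU k _ hp]
  push_cast
  ring

theorem FP_true {p : ℝ × ℝ} (hp : p ∈ sqr) :
    FP h R true (zz (et z) k p) = p.1 ^ 3 * PPh z U k true p := by
  rw [FP_zz h R hU k true hp]
  have : ea k (.v true 1) p * ea k (.v true 2) p * ea k (.n true) p *
      (ea k (.b true 1) p * ea k (.b true 2) p) = p.1 ^ 3 := by
    simp only [ea]
    ring
  rw [this]
  push_cast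
  ring

theorem FQ_true {p : ℝ × ℝ} (hp : p ∈ sqr) :
    FQ h R true (zz (et z) k p) = p.1 ^ 3 * QPh z U k true p := by
  rw [FQ_zz h R hU k true hp]
  have : ea k (.v true 3) p * ea k (.v true 4) p * ea k (.v true 0) p *
      ea k (.b true 4) p = p.1 ^ 3 := by
    simp only [ea]
    ring
  rw [this]
  push_cast
  ring

omit hU in
/-- the three admissible pairs -/
def Adm (k : Fin 5) (sw : Bool) : Prop := (k = 4 ∧ sw = false) ∨ (k = 1 ∧ sw = true) ∨
  (k = 2 ∧ sw = true)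

theorem F_false {sw : Bool} (hk : Adm k sw) {p : ℝ × ℝ} (hp : p ∈ sqr) :
    (if sw then FQ h R false else FP h R false) (zz (et z) k p) =
      p.1 ^ 3 * (p.2 * (1 - p.2)) * (if sw then QPh z U k false p else PPh z U k false p) ∧
    (if sw then FP h R false else FQ h R false) (zz (et z) k p) =
      p.1 ^ 3 * (1 - p.1) * (if sw then PPh z U k false p else QPh z U k false p) := by
  have hP := FP_zz h R hU k false hp
  have hQ := FQ_zz h R hU k false hp
  rcases hk with ⟨rfl, rfl⟩ | ⟨rfl, rfl⟩ | ⟨rfl, rfl⟩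
  · have e1 : ea 4 (.v false 1) p * ea 4 (.v false 2) p * ea 4 (.n false) p *
        (ea 4 (.b false 1) p * ea 4 (.b false 2) p) = p.1 ^ 3 * (p.2 * (1 - p.2)) := by
      have h1 : (1 : Fin 5) = 4 + 2 := rfl
      have h2 : (2 : Fin 5) ≠ 4 + 2 := by decide
      have h3 : (2 : Fin 5) = 4 + 3 := rfl
      simp only [ea, if_pos h1, if_neg h2, if_pos h3, if_neg (by decide : (1 : Fin 5) ≠ 4),
        if_neg (by decide : (2 : Fin 5) ≠ 4)]
      ring
    have e2 : ea 4 (.v false 3) p * ea 4 (.v false 4) p * ea 4 (.v false 0) p *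
        ea 4 (.b false 4) p = p.1 ^ 3 * (1 - p.1) := by
      simp only [ea, if_neg (by decide : (3 : Fin 5) ≠ 4 + 2),
        if_neg (by decide : (3 : Fin 5) ≠ 4 + 3), if_neg (by decide : (4 : Fin 5) ≠ 4 + 2),
        if_neg (by decide : (4 : Fin 5) ≠ 4 + 3), if_neg (by decide : (0 : Fin 5) ≠ 4 + 2),
        if_neg (by decide : (0 : Fin 5) ≠ 4 + 3), if_true]
      ring
    rw [e1] at hP
    rw [e2] at hQ
    refine ⟨?_, ?_⟩
    · simp only [Bool.false_eq_true, if_false]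
      rw [hP]
      push_cast
      ring
    · simp only [Bool.false_eq_true, if_false]
      rw [hQ]
      push_cast
      ring
  · have e1 : ea 1 (.v false 1) p * ea 1 (.v false 2) p * ea 1 (.n false) p *
        (ea 1 (.b false 1) p * ea 1 (.b false 2) p) = p.1 ^ 3 * (1 - p.1) := by
      simp only [ea, if_neg (by decide : (1 : Fin 5) ≠ 1 + 2),
        if_neg (by decide : (1 : Fin 5) ≠ 1 + 3), if_neg (by decide : (2 : Fin 5) ≠ 1 + 2),
        if_neg (by decide : (2 : Fin 5) ≠ 1 + 3), if_true, if_neg (by decide : (2 : Fin 5) ≠ 1)]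
      ring
    have e2 : ea 1 (.v false 3) p * ea 1 (.v false 4) p * ea 1 (.v false 0) p *
        ea 1 (.b false 4) p = p.1 ^ 3 * (p.2 * (1 - p.2)) := by
      have h1 : (3 : Fin 5) = 1 + 2 := rfl
      have h2 : (4 : Fin 5) ≠ 1 + 2 := by decide
      have h3 : (4 : Fin 5) = 1 + 3 := rfl
      simp only [ea, if_pos h1, if_neg h2, if_pos h3, if_neg (by decide : (0 : Fin 5) ≠ 1 + 2),
        if_neg (by decide : (0 : Fin 5) ≠ 1 + 3), if_neg (by decide : (4 : Fin 5) ≠ 1)]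
      ring
    rw [e1] at hP
    rw [e2] at hQ
    refine ⟨?_, ?_⟩
    · simp only [if_true]
      rw [hQ]
      push_cast
      ring
    · simp only [if_true]
      rw [hP]
      push_cast
      ring
  · have e1 : ea 2 (.v false 1) p * ea 2 (.v false 2) p * ea 2 (.n false) p *
        (ea 2 (.b false 1) p * ea 2 (.b false 2) p) = p.1 ^ 3 * (1 - p.1) := by
      simp only [ea, if_neg (by decide : (1 : Fin 5) ≠ 2 + 2),
        if_neg (by decide : (1 : Fin 5) ≠ 2 + 3), if_neg (by decide : (2 : Fin 5) ≠ 2 + 2),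
        if_neg (by decide : (2 : Fin 5) ≠ 2 + 3), if_true, if_neg (by decide : (1 : Fin 5) ≠ 2)]
      ring
    have e2 : ea 2 (.v false 3) p * ea 2 (.v false 4) p * ea 2 (.v false 0) p *
        ea 2 (.b false 4) p = p.1 ^ 3 * (p.2 * (1 - p.2)) := by
      have h1 : (4 : Fin 5) = 2 + 2 := rfl
      have h2 : (0 : Fin 5) ≠ 2 + 2 := by decide
      have h3 : (0 : Fin 5) = 2 + 3 := rfl
      simp only [ea, if_pos h1, if_neg h2, if_pos h3, if_neg (by decide : (3 : Fin 5) ≠ 2 + 2),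
        if_neg (by decide : (3 : Fin 5) ≠ 2 + 3), if_neg (by decide : (4 : Fin 5) ≠ 2)]
      ring
    rw [e1] at hP
    rw [e2] at hQ
    refine ⟨?_, ?_⟩
    · simp only [if_true]
      rw [hQ]
      push_cast
      ring
    · simp only [if_true]
      rw [hP]
      push_cast
      ring

omit hU in
/-- the square as a map to the ball with its group -/
def bz (k : Fin 5) (p : ℝ × ℝ) : BX ρ' :=
  BX.mk ρ' (zz (et z) k (clamp p)) (by
    have := zz_norm (eta_et h) k (clamp_mem p)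
    rw [mem_Ball]
    nlinarith [norm_nonneg (zz (et z) k (clamp p))])

omit hU in
theorem bz_val {p : ℝ × ℝ} (hp : p ∈ sqr) : (bz h ρ' k p).val = zz (et z) k p := by
  show zz (et z) k (clamp p) = _
  rw [clamp_eq hp]

omit hU in
theorem bz_cont : Continuous (bz h ρ' k) := by
  rw [BX.isOpenEmbedding_val.isEmbedding.continuous_iff]
  exact (zz_cont (eta_et h) k).comp clamp_cont

omit hU in
/-- the slope minus one -/
def sl1 (z : Fin 2 → ℂ) (k : Fin 5) (i : Fin 2) (t : ℝ) : ℂ :=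
  if i = 0 then uv (et z) k t - 1 else 1 / 10 - 1

/-- **the squares** -/
theorem exists_sqd (hμ : μ ∈ O) (hD : Deep O z μ 2) {sw : Bool} (hk : Adm k sw) :
    ∃ S : SqD (gdata h R ρ' hμ hD) sw, S.z = bz h ρ' k ∧
      (∀ p, S.A0 p = Lv (et z) k p.2 * U .o (zz (et z) k p)) ∧
      (∀ i p, S.A i p = Lv (et z) k p.2 * sl1 z k i p.2 * U (.v (col i) 0) (zz (et z) k p)) := by
  have hη := eta_et h
  -- roots
  obtain ⟨r, hr1, hr2, hr3⟩ := exists_root_sqr
    (g := fun p => (if sw then QPh z U k false p else PPh z U k false p) /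
      (if sw then PPh z U k false p else QPh z U k false p)) (by
      cases sw
      · exact (PPh_cont h R hU k false).div (QPh_cont h R hU k false)
          (fun p hp => QPh_ne h R hU k false hp)
      · exact (QPh_cont h R hU k false).div (PPh_cont h R hU k false)
          (fun p hp => PPh_ne h R hU k false hp)) (by
      intro p hp
      cases sw
      · exact div_ne_zero (PPh_ne h R hU k false hp) (QPh_ne h R hU k false hp)
      · exact div_ne_zero (QPh_ne h R hU k false hp) (PPh_ne h R hU k false hp))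
  obtain ⟨rB, hB1, hB2, hB3⟩ := exists_root_sqr
    (g := fun p => PPh z U k true p / QPh z U k true p)
    ((PPh_cont h R hU k true).div (QPh_cont h R hU k true)
      (fun p hp => QPh_ne h R hU k true hp))
    (fun p hp => div_ne_zero (PPh_ne h R hU k true hp) (QPh_ne h R hU k true hp))
  have hUc : ∀ a, ContinuousOn (fun p => U a (zz (et z) k p)) sqr := fun a =>
    (hU.cont a).comp (zz_cont hη k).continuousOn (fun p hp => zz_norm hη k hp)
  have hLc : ContinuousOn (fun p : ℝ × ℝ => Lv (et z) k p.2) sqr :=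
    ((Lv_cont hη k).comp continuous_snd).continuousOn
  have hslc : ∀ i, ContinuousOn (fun p : ℝ × ℝ => sl1 z k i p.2) sqr := by
    intro i
    unfold sl1
    split_ifs
    · exact (((uv_cont (et z) k).comp continuous_snd).sub continuous_const).continuousOn
    · exact continuousOn_const
  refine ⟨{
    z := bz h ρ' k
    hz := (bz_cont h ρ' k).continuousOn
    A0 := fun p => Lv (et z) k p.2 * U .o (zz (et z) k p)
    A := fun i p => Lv (et z) k p.2 * sl1 z k i p.2 * U (.v (col i) 0) (zz (et z) k p)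
    AP := fun p => if sw then QPh z U k false p else PPh z U k false p
    AQ := fun p => if sw then PPh z U k false p else QPh z U k false p
    r := r
    rB := rB
    BQ := QPh z U k true
    cA0 := hLc.mul (hUc _)
    cA := fun i => (hLc.mul (hslc i)).mul (hUc _)
    cr := hr1
    crB := hB1
    nA0 := fun p hp => mul_ne_zero (Lv_ne hη k _) (hU.ne _ _ (zz_norm hη k hp))
    nr := hr3
    ef := ?_
    ex := ?_
    eP := ?_
    eQ := ?_
    er := ?_
    eQ1 := ?_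
    eP1 := ?_ }, rfl, fun p => rfl, fun i p => rfl⟩
  · intro p hp
    show (R .o).f (bz h ρ' k p).val = _
    rw [bz_val h ρ' k hp, hU.eq _ _ (zz_norm hη k hp)]
    show ((p.1 : ℂ) * Lv (et z) k p.2) * U .o _ = _
    ring
  · intro i p hp
    show (R (.v (col i) 0)).f (bz h ρ' k p).val = _
    rw [bz_val h ρ' k hp, hU.eq _ _ (zz_norm hη k hp)]
    fin_cases i
    · show ((p.1 : ℂ) * Lv (et z) k p.2 * uv (et z) k p.2 -
        et z ^ 0 * ((p.1 : ℂ) * Lv (et z) k p.2)) * U (.v false 0) _ =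
        p.1 * (Lv (et z) k p.2 * (uv (et z) k p.2 - 1) * U (.v false 0) _)
      ring
    · show ((p.1 : ℂ) * Lv (et z) k p.2 * (1 / 10) -
        et z ^ 0 * ((p.1 : ℂ) * Lv (et z) k p.2)) * U (.v true 0) _ =
        p.1 * (Lv (et z) k p.2 * (1 / 10 - 1) * U (.v true 0) _)
      ring
  · intro p hp
    have h1 := (F_false h R hU k hk hp).1
    rw [← bz_val h ρ' k hp] at h1
    cases sw
    · exact h1
    · exact h1
  · intro p hp
    have h1 := (F_false h R hU k hk hp).2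
    rw [← bz_val h ρ' k hp] at h1
    cases sw
    · exact h1
    · exact h1
  · intro p hp
    simp only [hr2 p hp]
    refine div_mul_cancel₀ _ ?_
    cases sw
    · exact QPh_ne h R hU k false hp
    · exact PPh_ne h R hU k false hp
  · intro p hp
    show FQ h R true (bz h ρ' k p).val = _
    rw [bz_val h ρ' k hp, FQ_true h R hU k hp]
  · intro p hp
    show FP h R true (bz h ρ' k p).val = _
    rw [bz_val h ρ' k hp, FP_true h R hU k hp, hB2 p hp]
    congr 1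
    exact (div_mul_cancel₀ _ (QPh_ne h R hU k true hp)).symm

end sqd

end

end Crest.Agent.R272.UB_20
private theorem rz_d4d9acb6b2 : type_of% @_root_.Crest.Agent.R272.UB_20.Ba.eq_1 := @_root_.Crest.Agent.R272.UB_20.Ba.eq_1 -- L280
private theorem rz_cfdc287b48 : type_of% @_root_.Crest.Agent.R272.UB_20.ea.eq_1 := @_root_.Crest.Agent.R272.UB_20.ea.eq_1 -- L271
private theorem rz_5a41effc7c : type_of% @_root_.Crest.Agent.R272.UB_20.lf.eq_1 := @_root_.Crest.Agent.R272.UB_20.lf.eq_1 -- L80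
end

-- ▼ part R272/UB10_20
section

/-!
# R272, leaf UB-DISC (helper20), part 10: the arcs over `σ = 0` lie in the zero section

`S : SqD D sw` a square with `sh (z (σ,t)) = σ ℓ(t) (1, s₀ t, s₁ t)`. Then the arc of `S` in the sheet
`b` is `t ↦ zs (c_b t, c'_b t)` (`zs` = the zero section of 916), `tt (c_b t) = s₀ t`,
`tt (c'_b t) = s₁ t`, `c_{-1} = iv ∘ c_1`, `c'_{-1} = c'_1`; `c'` is constant if `s₁` is.
-/

set_option autoImplicit false
set_option linter.unusedSectionVars false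

open Set Filter Topology OnePoint

namespace Crest.Agent.R272.UB_20

open Crest.Agent.R272.Gr_559 (GData)
open Crest.Agent.R273.Fam_835
open Crest.Agent.R272.Tp3_60 Crest.Agent.R272.Tq2_916 Crest.Agent.R272.Tq3_916
open Crest.Agent.R272.Cur_297 (Par Cv Cset Eqn tt kk iv negP continuous_tt continuous_kk)
open Crest.Agent.R272.Tp2_60 (Std)

noncomputable section

local notation "I" => unitInterval

/-! ### `P1` -/

theorem br_neg (x y : ℂ) : br (-x, y) = negP (br (x, y)) := by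
  rcases eq_or_ne y 0 with rfl | hy
  · rw [br_zero, br_zero]; rfl
  · rw [br_of_ne hy, br_of_ne hy, neg_div]; rfl

theorem br_neg' (x y : ℂ) : br (y, -x) = negP (br (y, x)) := by
  rcases eq_or_ne x 0 with rfl | hx
  · rw [neg_zero, br_zero]; rfl
  · rw [br_of_ne hx, br_of_ne (neg_ne_zero.2 hx), div_neg]; rfl

theorem Km_neg (m : ℂ) (hm : m ≠ 0) (k : OnePoint ℂ) : Km m (negP k) = negP (Km m k) := by
  induction k using OnePoint.rec with
  | infty =>
    show Tp1_60.rat _ _ = negP (Tp1_60.rat _ _)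
    simp only [Cur_297.negP_infty, Tp1_60.nn_inf, Tp1_60.dd_inf]
    rw [show (0 : ℂ) * 1 + m * 0 = 0 by ring, Tp1_60.rat_zero]
    rfl
  | coe c =>
    show Tp1_60.rat _ _ = negP (Tp1_60.rat _ _)
    simp only [Cur_297.negP_coe, Tp1_60.nn_coe, Tp1_60.dd_coe]
    rw [show (0 : ℂ) * (-c) + m * 1 = m by ring, show (0 : ℂ) * c + m * 1 = m by ring,
      Tp1_60.rat_ne hm, Tp1_60.rat_ne hm, Cur_297.negP_coe]
    congr 1
    ring

/-- `T = (a/b) t + c₅` at a finite point -/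
theorem Tm_coe (P : Par) {a b x s : ℂ} (hb : b ≠ 0) (h : b * (s - P.c 5) = a * x) :
    Tm P a b ((x : ℂ) : OnePoint ℂ) = ((s : ℂ) : OnePoint ℂ) := by
  show Tp1_60.rat _ _ = _
  rw [Tp1_60.nn_coe, Tp1_60.dd_coe, show (0 : ℂ) * x + b * 1 = b by ring, Tp1_60.rat_ne hb]
  congr 1
  field_simp
  linear_combination -h

theorem Vm_zero (a β : ℂ) (hβ : β ≠ 0) : Vm a β 0 ((0 : ℂ) : OnePoint ℂ) = ((0 : ℂ) : OnePoint ℂ) := by
  show Tp1_60.rat _ _ = _
  rw [Tp1_60.nn_coe, Tp1_60.dd_coe, show (0 : ℂ) * 0 + β * 1 = β by ring, Tp1_60.rat_ne hβ]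
  congr 1
  ring_nf

variable {N : Type} [TopologicalSpace N] {F : Fam 3 N} {D : GData F} {sw : Bool}
variable (S : SqD D sw) {P : Par} (L : Loc P N) (X : Set (E6 N))
  (hX : ∀ y : E6 N, y.1 ∈ L.sh.source → (y ∈ X ↔ RelX L y))
  (hXD : ∀ y : E6 N, y ∈ X ↔ toA y ∈ D.X1)

/-- the square in the coordinates of the cluster point -/
structure Adp (S : SqD D sw) (L : Loc P N) (s : Fin 2 → ℝ → ℂ) : Prop where
  h0 : (0 : ℂ × ℂ × ℂ) ∈ L.sh.target
  z0 : ∀ t ∈ Icc (0 : ℝ) 1, S.z (0, t) = L.sh.symm 0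
  sh : ∃ ℓ : ℝ → ℂ, (∀ t, ℓ t ≠ 0) ∧ ∀ p ∈ sqr, S.z p ∈ L.sh.source →
    L.sh (S.z p) = (p.1 * ℓ p.2, p.1 * ℓ p.2 * s 0 p.2, p.1 * ℓ p.2 * s 1 p.2)

variable {S L} {s : Fin 2 → ℝ → ℂ} (hA : Adp S L s)

include hA

theorem Adp.src : L.sh.symm 0 ∈ L.sh.source := L.sh.map_target hA.h0

include hX hXD

/-- the slopes for `σ > 0` -/
theorem slope_pos {p : ℝ × ℝ} (hp : p ∈ starSet) (h0 : 0 < p.1) (hz : S.z p ∈ L.sh.source)
    (i : Fin 2) : L.b i (S.z p) * (s i p.2 - P.c 5) = L.a (S.z p) * (S.A i p / S.A0 p) := by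
  obtain ⟨ℓ, hℓ, hsh⟩ := hA.sh
  have hps : p ∈ sqr := starSet_sub hp
  have h1 : toA (toA.symm (S.pt p (S.kc 1 p))) ∈ D.X1 := by
    rw [Homeomorph.apply_symm_apply]
    exact S.mem_star (Or.inl rfl) hp
  have h2 := (hX (toA.symm (S.pt p (S.kc 1 p))) hz).1 ((hXD _).2 h1)
  have h3 := hsh p hps hz
  have hc : (p.1 : ℂ) * ℓ p.2 ≠ 0 := mul_ne_zero (SqD.ofReal_ne h0) (hℓ _)
  fin_cases i
  · have r1 := h2.r1
    change L.b 0 (S.z p) * ((L.sh (S.z p)).2.1 - P.c 5 * (L.sh (S.z p)).1) *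
      Tp1_60.dd (((S.A 0 p / S.A0 p : ℂ) : OnePoint ℂ)) = L.a (S.z p) * (L.sh (S.z p)).1 *
      Tp1_60.nn (((S.A 0 p / S.A0 p : ℂ) : OnePoint ℂ)) at r1
    rw [h3, Tp1_60.nn_coe, Tp1_60.dd_coe] at r1
    show L.b 0 (S.z p) * (s 0 p.2 - P.c 5) = L.a (S.z p) * (S.A 0 p / S.A0 p)
    refine mul_left_cancel₀ hc ?_
    linear_combination r1
  · have r1 := h2.r2
    change L.b 1 (S.z p) * ((L.sh (S.z p)).2.2 - P.c 5 * (L.sh (S.z p)).1) *
      Tp1_60.dd (((S.A 1 p / S.A0 p : ℂ) : OnePoint ℂ)) = L.a (S.z p) * (L.sh (S.z p)).1 *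
      Tp1_60.nn (((S.A 1 p / S.A0 p : ℂ) : OnePoint ℂ)) at r1
    rw [h3, Tp1_60.nn_coe, Tp1_60.dd_coe] at r1
    show L.b 1 (S.z p) * (s 1 p.2 - P.c 5) = L.a (S.z p) * (S.A 1 p / S.A0 p)
    refine mul_left_cancel₀ hc ?_
    linear_combination r1

/-- the slopes at `σ = 0` -/
theorem slope_zero {t : ℝ} (ht : t ∈ Icc (0 : ℝ) 1) (i : Fin 2) :
    L.b i (L.sh.symm 0) * (s i t - P.c 5) = L.a (L.sh.symm 0) * (S.A i (0, t) / S.A0 (0, t)) := by
  have hp : ((0 : ℝ), t) ∈ sqr := ⟨⟨le_refl _, zero_le_one⟩, ht⟩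
  have hz := hA.z0 t ht
  have hsrc := hA.src
  have hne : (𝓝[Ioo (0 : ℝ) 1] 0).NeBot := left_nhdsWithin_Ioo_neBot one_pos
  have ht1 : Tendsto (fun σ : ℝ => (σ, t)) (𝓝[Ioo 0 1] 0) (𝓝[sqr] ((0 : ℝ), t)) := by
    refine tendsto_nhdsWithin_iff.2 ⟨?_, ?_⟩
    · have : Continuous fun σ : ℝ => (σ, t) := by fun_prop
      exact (this.tendsto 0).mono_left nhdsWithin_le_nhds
    · filter_upwards [self_mem_nhdsWithin] with σ hσ
      exact ⟨⟨hσ.1.le, hσ.2.le⟩, ht⟩
  have hzt : Tendsto (fun σ : ℝ => S.z (σ, t)) (𝓝[Ioo 0 1] 0) (𝓝 (L.sh.symm 0)) := by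
    have := (S.hz _ hp).tendsto.comp ht1
    rwa [hz] at this
  have hev : ∀ᶠ σ in 𝓝[Ioo (0 : ℝ) 1] 0, S.z (σ, t) ∈ L.sh.source :=
    hzt.eventually (L.sh.open_source.mem_nhds hsrc)
  have hl : Tendsto (fun σ : ℝ => L.b i (S.z (σ, t)) * (s i t - P.c 5)) (𝓝[Ioo 0 1] 0)
      (𝓝 (L.b i (L.sh.symm 0) * (s i t - P.c 5))) :=
    ((L.contAt_b i hsrc).tendsto.comp hzt).mul tendsto_const_nhds
  have hr : Tendsto (fun σ : ℝ => L.a (S.z (σ, t)) * (S.A i (σ, t) / S.A0 (σ, t)))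
      (𝓝[Ioo 0 1] 0) (𝓝 (L.a (L.sh.symm 0) * (S.A i (0, t) / S.A0 (0, t)))) := by
    refine ((L.contAt_a hsrc).tendsto.comp hzt).mul ?_
    exact ((S.cA i _ hp).tendsto.comp ht1).div ((S.cA0 _ hp).tendsto.comp ht1) (S.nA0 _ hp)
  refine tendsto_nhds_unique hl (hr.congr' ?_)
  filter_upwards [hev, self_mem_nhdsWithin] with σ h1 h2
  have hst : ((σ : ℝ), t) ∈ starSet := ⟨⟨h2.1.le, h2.2.le⟩, ht, fun h => absurd h h2.2.ne⟩
  exact (slope_pos X hX hXD hA hst h2.1 h1 i).symm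

/-- the coordinate `T` of the arc -/
theorem T_zero {t : ℝ} (ht : t ∈ Icc (0 : ℝ) 1) (i : Fin 2) :
    Tm P (L.a (L.sh.symm 0)) (L.b i (L.sh.symm 0)) (S.tc (0, t) i) = ((s i t : ℂ) : OnePoint ℂ) :=
  Tm_coe P (L.b0 i _ hA.src) (slope_zero X hX hXD hA ht i)

omit hX hXD in
/-- the coordinate `V` of the arc -/
theorem V_zero {t : ℝ} : L.vv (L.sh.symm 0) (S.vc (0, t)) = ((0 : ℂ) : OnePoint ℂ) := by
  have e1 : S.vc (0, t) = ((0 : ℂ) : OnePoint ℂ) := by
    unfold SqD.vc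
    congr 1
    simp
  have e2 : L.sh (L.sh.symm 0) = (0 : ℂ × ℂ × ℂ) := L.sh.right_inv hA.h0
  have e3 : Loc.ee P (0 : ℂ × ℂ × ℂ) = 0 := by simp [Loc.ee]
  rw [Loc.vv, e1, e2, e3]
  exact Vm_zero _ _ (mul_ne_zero (L.b0 0 _ hA.src) (L.b0 1 _ hA.src))

/-! ### the paths in the curve -/

/-- the point of the arc in `X` -/
def ya (b : ℂ) (hb : b = 1 ∨ b = -1) (t : I) : {y : X | y.1.1 ∈ L.sh.source} :=
  ⟨⟨toA.symm (S.pt (0, (t : ℝ)) (S.kc b (0, (t : ℝ)))), (hXD _).2 (by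
    rw [Homeomorph.apply_symm_apply]
    exact S.mem_star hb (SqD.star0 t))⟩, by
    show S.z (0, (t : ℝ)) ∈ L.sh.source
    rw [hA.z0 _ t.2]
    exact hA.src⟩

theorem ya_cont (b : ℂ) (hb : b = 1 ∨ b = -1) : Continuous (ya X hXD hA b hb) := by
  refine Continuous.subtype_mk (Continuous.subtype_mk ?_ _) _
  have h1 := S.arc_cont (fun _ => True) (fun _ _ => trivial) b hb
  exact toA.symm.continuous.comp (continuous_subtype_val.comp (continuous_subtype_val.comp h1))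

/-- standard coordinates of the arc -/
def sa (b : ℂ) (hb : b = 1 ∨ b = -1) (t : I) : Tp2_60.Amb (Cv P) :=
  ((L.hom X hX).symm (ya X hXD hA b hb t)).1.1

theorem sa_cont (b : ℂ) (hb : b = 1 ∨ b = -1) : Continuous (sa X hX hXD hA b hb) :=
  continuous_subtype_val.comp (continuous_subtype_val.comp
    ((L.hom X hX).symm.continuous.comp (ya_cont X hX hXD hA b hb)))

theorem sa_fro (b : ℂ) (hb : b = 1 ∨ b = -1) (t : I) :
    L.fro (sa X hX hXD hA b hb t) = toA.symm (S.pt (0, (t : ℝ)) (S.kc b (0, (t : ℝ)))) := by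
  have h1 := (L.hom X hX).apply_symm_apply (ya X hXD hA b hb t)
  exact congrArg (fun y => y.1.1) h1

theorem sa_eq (b : ℂ) (hb : b = 1 ∨ b = -1) (t : I) :
    (sa X hX hXD hA b hb t).1 = 0 ∧
    tt (sa X hX hXD hA b hb t).2.1 = ((s 0 t : ℂ) : OnePoint ℂ) ∧
    kk (sa X hX hXD hA b hb t).2.1 = Km (L.m 0 (L.sh.symm 0)) (S.kc b (0, (t : ℝ))) ∧
    tt (sa X hX hXD hA b hb t).2.2.1 = ((s 1 t : ℂ) : OnePoint ℂ) ∧
    kk (sa X hX hXD hA b hb t).2.2.1 = Km (L.m 1 (L.sh.symm 0)) ((S.rB (0, (t : ℝ)) : ℂ)) ∧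
    (sa X hX hXD hA b hb t).2.2.2 = ((0 : ℂ) : OnePoint ℂ) := by
  have hz : S.z (0, (t : ℝ)) = L.sh.symm 0 := hA.z0 _ t.2
  refine ⟨?_, ?_, ?_, ?_, ?_, ?_⟩
  · show L.sh (S.z (0, (t : ℝ))) = 0
    rw [hz]
    exact L.sh.right_inv hA.h0
  · show Tm P (L.a (S.z (0, (t : ℝ)))) (L.b 0 (S.z (0, (t : ℝ)))) (S.tc (0, (t : ℝ)) 0) = _
    rw [hz]
    exact T_zero X hX hXD hA t.2 0
  · show Km (L.m 0 (S.z (0, (t : ℝ)))) (S.kc b (0, (t : ℝ))) = _
    rw [hz]
  · show Tm P (L.a (S.z (0, (t : ℝ)))) (L.b 1 (S.z (0, (t : ℝ)))) (S.tc (0, (t : ℝ)) 1) = _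
    rw [hz]
    exact T_zero X hX hXD hA t.2 1
  · show Km (L.m 1 (S.z (0, (t : ℝ)))) ((S.rB (0, (t : ℝ)) : ℂ)) = _
    rw [hz]
  · show L.vv (S.z (0, (t : ℝ))) (S.vc (0, (t : ℝ))) = _
    rw [hz]
    exact V_zero hA

/-- the path in the first curve -/
def c1 (b : ℂ) (hb : b = 1 ∨ b = -1) : C(I, Cv P) :=
  ⟨fun t => (sa X hX hXD hA b hb t).2.1,
    (continuous_fst.comp continuous_snd).comp (sa_cont X hX hXD hA b hb)⟩

/-- the path in the second curve -/
def c2 (b : ℂ) (hb : b = 1 ∨ b = -1) : C(I, Cv P) :=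
  ⟨fun t => (sa X hX hXD hA b hb t).2.2.1,
    (continuous_fst.comp (continuous_snd.comp continuous_snd)).comp (sa_cont X hX hXD hA b hb)⟩

theorem tt_c1 (b : ℂ) (hb : b = 1 ∨ b = -1) (t : I) :
    tt (c1 X hX hXD hA b hb t) = ((s 0 t : ℂ) : OnePoint ℂ) := (sa_eq X hX hXD hA b hb t).2.1

theorem tt_c2 (b : ℂ) (hb : b = 1 ∨ b = -1) (t : I) :
    tt (c2 X hX hXD hA b hb t) = ((s 1 t : ℂ) : OnePoint ℂ) := (sa_eq X hX hXD hA b hb t).2.2.2.1

/-- the arc is in the zero section -/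
theorem arc_zst (b : ℂ) (hb : b = 1 ∨ b = -1) (t : I) :
    S.pt (0, (t : ℝ)) (S.kc b (0, (t : ℝ))) =
      toA (L.fro (zst (c1 X hX hXD hA b hb t, c2 X hX hXD hA b hb t))) := by
  have h1 := sa_fro X hX hXD hA b hb t
  have h2 := sa_eq X hX hXD hA b hb t
  have h3 : zst (c1 X hX hXD hA b hb t, c2 X hX hXD hA b hb t) = sa X hX hXD hA b hb t :=
    Prod.ext h2.1.symm (Prod.ext rfl (Prod.ext rfl h2.2.2.2.2.2.symm))
  rw [h3, h1, Homeomorph.apply_symm_apply]

theorem c2_neg (t : I) : c2 X hX hXD hA (-1) (Or.inr rfl) t = c2 X hX hXD hA 1 (Or.inl rfl) t := by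
  have h1 := sa_eq X hX hXD hA (-1) (Or.inr rfl) t
  have h2 := sa_eq X hX hXD hA 1 (Or.inl rfl) t
  exact Cur_297.ext_c (h1.2.2.2.1.trans h2.2.2.2.1.symm)
    (h1.2.2.2.2.1.trans h2.2.2.2.2.1.symm)

omit hX hXD hA in
theorem kc_neg (p : ℝ × ℝ) : S.kc (-1) p = negP (S.kc 1 p) := by
  have h1 : (hom S.r (-1) p) = (-(hom S.r 1 p).1, (hom S.r 1 p).2) := by
    refine Prod.ext ?_ rfl
    show (-1 : ℂ) * _ * _ = -((1 : ℂ) * _ * _)
    ring
  unfold SqD.kc
  cases sw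
  · show br (hom S.r (-1) p) = negP (br (hom S.r 1 p))
    rw [h1]
    exact br_neg _ _
  · show br ((hom S.r (-1) p).2, (hom S.r (-1) p).1) =
      negP (br ((hom S.r 1 p).2, (hom S.r 1 p).1))
    rw [h1]
    exact br_neg' _ _

theorem c1_neg (t : I) :
    c1 X hX hXD hA (-1) (Or.inr rfl) t = iv (c1 X hX hXD hA 1 (Or.inl rfl) t) := by
  have h1 := sa_eq X hX hXD hA (-1) (Or.inr rfl) t
  have h2 := sa_eq X hX hXD hA 1 (Or.inl rfl) t
  refine Cur_297.ext_c (h1.2.1.trans h2.2.1.symm) ?_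
  show kk (sa X hX hXD hA (-1) (Or.inr rfl) t).2.1 =
    negP (kk (sa X hX hXD hA 1 (Or.inl rfl) t).2.1)
  rw [h1.2.2.1, h2.2.2.1, kc_neg, Km_neg _ (L.m0 0 _ hA.src)]

omit hX hXD hA in
/-- a path over a constant is constant -/
theorem const_of_tt (g : C(I, Cv P)) {x : OnePoint ℂ} (h : ∀ t, tt (g t) = x) (t : I) :
    g t = g 0 := by
  have hf : ({g 0, iv (g 0)} : Set (Cv P)).Finite := Set.toFinite _
  obtain ⟨y, -, hy⟩ := (isPreconnected_univ (α := I)).eqOn_const_of_mapsTo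
    (T := {g 0, iv (g 0)}) (f := g) hf.isDiscrete g.continuous.continuousOn (by
      intro t _
      rcases Cur_297.eq_or_eq_iv ((h 0).trans (h t).symm) with h1 | h1
      · exact Or.inl h1
      · exact Or.inr h1) ⟨g 0, Or.inl rfl⟩
  rw [hy (mem_univ t), hy (mem_univ 0)]
  rfl

/-- **identification of the arcs with the zero section** -/
theorem arcs_zst {x : ℂ} (hs1 : ∀ t : I, s 1 t = x) : ∃ (c : C(I, Cv P)) (c' : Cv P),
    (∀ t : I, tt (c t) = ((s 0 t : ℂ) : OnePoint ℂ)) ∧ tt c' = ((x : ℂ) : OnePoint ℂ) ∧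
    (∀ t : I, S.pt (0, (t : ℝ)) (S.kc 1 (0, (t : ℝ))) = toA (L.fro (zst (c t, c')))) ∧
    (∀ t : I, S.pt (0, (t : ℝ)) (S.kc (-1) (0, (t : ℝ))) = toA (L.fro (zst (iv (c t), c')))) := by
  have hc2 : ∀ t, c2 X hX hXD hA 1 (Or.inl rfl) t = c2 X hX hXD hA 1 (Or.inl rfl) 0 :=
    const_of_tt _ (x := ((x : ℂ) : OnePoint ℂ)) (fun t => by rw [tt_c2, hs1])
  refine ⟨c1 X hX hXD hA 1 (Or.inl rfl), c2 X hX hXD hA 1 (Or.inl rfl) 0,
    fun t => tt_c1 X hX hXD hA 1 _ t, ?_, fun t => ?_, fun t => ?_⟩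
  · rw [tt_c2, hs1]
  · rw [arc_zst X hX hXD hA, hc2]
  · rw [arc_zst X hX hXD hA _ (Or.inr rfl), c1_neg, c2_neg, hc2]

end

end Crest.Agent.R272.UB_20
end

-- ▼ part R272/UB11_20
section

/-!
# R272, leaf UB-DISC (helper20), part 11: the periods of the arcs 1, 3, 4 die

* `ZData`   : the zero section `zE : C × C → A.X` (916), the swap, the stabiliser of the base point;
* `avoid`   : the points over the square are not in the orbit of the antidiagonal of `zE`;
* `hr_sq`   : the two arcs of a square are homotopic rel end points after any map `A.X → M`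
              continuous off that orbit;
* `dies_sq`, `dies_all` : 338's `Dies`.
-/

set_option autoImplicit false
set_option linter.unusedSectionVars false

open Set Filter Topology OnePoint

namespace Crest.Agent.R272.UB_20

open Crest.Agent.R272.Gr_559 (GData)
open Crest.Agent.R273.Fam_835
open Crest.Agent.R272.Tp3_60 Crest.Agent.R272.Tq2_916 Crest.Agent.R272.Tq3_916
open Crest.Agent.R272.Cur_297 (Par Cv Cset Eqn tt kk iv negP continuous_tt continuous_kk Pz Cz cur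
  seg ze arc tt_arc eq_arc)
open Crest.Agent.R272.Act_302 (GAct)
open Crest.Agent.R272.AJ_956 Crest.Agent.R272.As15_338

noncomputable section

local notation "I" => unitInterval

section gen

variable {N : Type} [TopologicalSpace N] {F : Fam 3 N} {D : GData F} {sw : Bool}
variable {G : Type} [Group G] [MulAction G N] (A : GAct D G) {P : Par} (L : Loc P N)

/-- off the flat `f0 = 0`, or over the base point and off the antidiagonal -/
def WL (D : GData F) (L : Loc P N) (zt : N × (Fin 2 → OnePoint ℂ)) : Prop :=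
  D.f0 zt.1 ≠ 0 ∨ (zt.1 = L.sh.symm 0 ∧
    Tm P (L.a (L.sh.symm 0)) (L.b 0 (L.sh.symm 0)) (zt.2 0) ≠
      Tm P (L.a (L.sh.symm 0)) (L.b 1 (L.sh.symm 0)) (zt.2 1))

/-- the zero section -/
structure ZData (s₀ : G) (zE : Cv P × Cv P → A.X) : Prop where
  val : ∀ x, A.val (zE x) = toA (L.fro (zst x))
  swap : ∀ x, s₀ • zE x = zE x.swap
  stab : ∀ g : G, g • L.sh.symm 0 = L.sh.symm 0 → g = 1 ∨ g = s₀
  f0 : D.f0 (L.sh.symm 0) = 0
  h0 : (0 : ℂ × ℂ × ℂ) ∈ L.sh.target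

variable {A L} {s₀ : G} {zE : Cv P × Cv P → A.X} (H : ZData A L s₀ zE)
include H

theorem ZData.fst (x : Cv P × Cv P) : (A.val (zE x)).1 = L.sh.symm 0 := by
  rw [H.val]
  rfl

theorem ZData.t0 (x : Cv P × Cv P) :
    Tm P (L.a (L.sh.symm 0)) (L.b 0 (L.sh.symm 0)) ((A.val (zE x)).2.1 0) = tt x.1 := by
  have hz := L.sh.map_target H.h0
  rw [H.val]
  exact Tm_tm (L.a0 _ hz) (L.b0 0 _ hz) _

theorem ZData.t1 (x : Cv P × Cv P) :
    Tm P (L.a (L.sh.symm 0)) (L.b 1 (L.sh.symm 0)) ((A.val (zE x)).2.1 1) = tt x.2 := by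
  have hz := L.sh.map_target H.h0
  rw [H.val]
  exact Tm_tm (L.a0 _ hz) (L.b0 1 _ hz) _

theorem avoid {y : A.X} (hy : WL D L ((A.val y).1, (A.val y).2.1)) (g : G) (c : Cv P) :
    y ≠ g • zE (c, iv c) := by
  intro he
  have h1 : (A.val y).1 = g • L.sh.symm 0 := by
    rw [he, A.val_smul, A.act_z, H.fst]
  rcases hy with h2 | ⟨h2, h3⟩
  · apply h2
    show D.f0 (A.val y).1 = 0
    rw [h1, A.f0_smul, H.f0, mul_zero]
  · have h4 : g • L.sh.symm 0 = L.sh.symm 0 := by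
      rw [← h1]; exact h2
    have h5 : ∃ x : Cv P × Cv P, tt x.1 = tt x.2 ∧ y = zE x := by
      rcases H.stab g h4 with rfl | rfl
      · exact ⟨(c, iv c), rfl, by rw [he, one_smul]⟩
      · exact ⟨(iv c, c), rfl, by rw [he, H.swap]; rfl⟩
    obtain ⟨x, hx, rfl⟩ := h5
    apply h3
    show Tm P (L.a (L.sh.symm 0)) (L.b 0 (L.sh.symm 0)) ((A.val (zE x)).2.1 0) =
      Tm P (L.a (L.sh.symm 0)) (L.b 1 (L.sh.symm 0)) ((A.val (zE x)).2.1 1)
    rw [H.t0, H.t1, hx]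

/-- the square satisfies the condition -/
theorem wl_sq {S : SqD D sw} {s : Fin 2 → ℝ → ℂ} (X : Set (E6 N))
    (hX : ∀ y : E6 N, y.1 ∈ L.sh.source → (y ∈ X ↔ RelX L y))
    (hXD : ∀ y : E6 N, y ∈ X ↔ toA y ∈ D.X1) (hA : Adp S L s)
    (hne : ∀ t ∈ Icc (0 : ℝ) 1, s 0 t ≠ s 1 t) : ∀ p ∈ sqr, WL D L (S.z p, S.tc p) := by
  rintro ⟨σ, t⟩ hp
  rcases eq_or_lt_of_le hp.1.1 with h0 | h0
  · simp only at h0
    subst h0
    right
    refine ⟨hA.z0 t hp.2, ?_⟩
    show Tm P _ _ (S.tc (0, t) 0) ≠ Tm P _ _ (S.tc (0, t) 1)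
    rw [T_zero X hX hXD hA hp.2, T_zero X hX hXD hA hp.2]
    exact fun h => hne t hp.2 (OnePoint.coe_injective h)
  · left
    show D.f0 (S.z (σ, t)) ≠ 0
    rw [S.ef _ hp]
    exact mul_ne_zero (SqD.ofReal_ne h0) (S.nA0 _ hp)

/-- **the two arcs are homotopic** after any map continuous off the orbit of the antidiagonal -/
theorem hr_sq {S : SqD D sw} {s : Fin 2 → ℝ → ℂ} (X : Set (E6 N))
    (hX : ∀ y : E6 N, y.1 ∈ L.sh.source → (y ∈ X ↔ RelX L y))
    (hXD : ∀ y : E6 N, y ∈ X ↔ toA y ∈ D.X1) (hA : Adp S L s) {x : ℂ}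
    (hs1 : ∀ t ∈ Icc (0 : ℝ) 1, s 1 t = x) (hne : ∀ t ∈ Icc (0 : ℝ) 1, s 0 t ≠ x)
    {M : Type} [TopologicalSpace M] (f : A.X → M)
    (hf : ContinuousOn f {y | ∀ (g : G) (c : Cv P), y ≠ g • zE (c, iv c)}) :
    ∃ (c : C(I, Cv P)) (c' : Cv P), (∀ t : I, tt (c t) = ((s 0 t : ℂ) : OnePoint ℂ)) ∧
      tt c' = ((x : ℂ) : OnePoint ℂ) ∧
      ∃ (a b a' b' : M) (p : Path a b) (p' : Path a' b'),
        (∀ t, p t = f (zE (c t, c'))) ∧ (∀ t, p' t = f (zE (iv (c t), c'))) ∧ HR p p' := by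
  have hW := wl_sq H X hX hXD hA (fun t ht => by rw [hs1 t ht]; exact hne t ht)
  obtain ⟨c, c', h1, h2, h3, h4⟩ := arcs_zst X hX hXD hA (x := x) (fun t => hs1 t t.2)
  refine ⟨c, c', h1, h2, ?_⟩
  let f0 : SqD.XW D (WL D L) → M := fun y => f (show A.X from y.1)
  have hf0 : Continuous f0 := by
    refine hf.comp_continuous (f := fun y : SqD.XW D (WL D L) => (show A.X from y.1)) ?_ ?_
    · exact continuous_subtype_val
    · exact fun y g c => avoid H y.2 g c
  let q1 : Path (S.arc (WL D L) hW 1 (Or.inl rfl) 0) (S.arc (WL D L) hW 1 (Or.inl rfl) 1) :=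
    ⟨⟨S.arc (WL D L) hW 1 (Or.inl rfl), S.arc_cont _ hW _ _⟩, rfl, rfl⟩
  let q2 : Path (S.arc (WL D L) hW (-1) (Or.inr rfl) 0) (S.arc (WL D L) hW (-1) (Or.inr rfl) 1) :=
    ⟨⟨S.arc (WL D L) hW (-1) (Or.inr rfl), S.arc_cont _ hW _ _⟩, rfl, rfl⟩
  have h5 : HR q1 q2 := S.arcs (WL D L) hW q1 q2 (fun _ => rfl) (fun _ => rfl)
  refine ⟨_, _, _, _, q1.map hf0, q2.map hf0, fun t => ?_, fun t => ?_, HR_map h5 ⟨f0, hf0⟩⟩
  · show f (show A.X from (S.arc (WL D L) hW 1 (Or.inl rfl) t).1) = _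
    congr 1
    apply A.val_injective
    rw [H.val, ← h3]
    rfl
  · show f (show A.X from (S.arc (WL D L) hW (-1) (Or.inr rfl) t).1) = _
    congr 1
    apply A.val_injective
    rw [H.val, ← h4]
    rfl

omit H in
/-- every sheet of a segment -/
theorem dies_of_lift {T M : Type} [TopologicalSpace T] [TopologicalSpace M] {q : Cz × Cz → T}
    (hq : Continuous q) (inc : T → M) {j : ℕ} {c : C(I, Cz)}
    (hc : ∀ t : I, tt (c t) = ((seg j t : ℂ) : OnePoint ℂ))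
    (h : Dies (cur Pz) hq inc c) : Dies (cur Pz) hq inc (arc j) := by
  rcases eq_arc hc with h1 | h1
  · exact h.congr (fun t => (h1 t).symm)
  · refine h.iv (fun t => ?_)
    show arc j t = iv (c t)
    rw [h1 t, Cur_297.iv_iv]

end gen

/-! ### the curve `cur Pz` -/

section cz

variable {N : Type} [TopologicalSpace N] {F : Fam 3 N} {D : GData F} {sw : Bool}
variable {G : Type} [Group G] [MulAction G N] {A : GAct D G} {L : Loc Pz N}
variable {s₀ : G} {zE : Cz × Cz → A.X} (H : ZData A L s₀ zE)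
include H

/-- **the period of the arc dies** -/
theorem dies_sq {S : SqD D sw} {s : Fin 2 → ℝ → ℂ} (X : Set (E6 N))
    (hX : ∀ y : E6 N, y.1 ∈ L.sh.source → (y ∈ X ↔ RelX L y))
    (hXD : ∀ y : E6 N, y ∈ X ↔ toA y ∈ D.X1) (hA : Adp S L s) {x : ℂ}
    (hs1 : ∀ t ∈ Icc (0 : ℝ) 1, s 1 t = x) (hne : ∀ t ∈ Icc (0 : ℝ) 1, s 0 t ≠ x)
    {M : Type} [TopologicalSpace M] (f : A.X → M)
    (hf : ContinuousOn f {y | ∀ (g : G) (c : Cz), y ≠ g • zE (c, iv c)})
    {T : Type} [TopologicalSpace T] {q : Cz × Cz → T} (hq : Continuous q) (inc : T → M)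
    (hinc : ∀ x : Cz × Cz, x.2 ≠ iv x.1 → inc (q x) = f (zE x)) {j : ℕ}
    (hs0 : ∀ t ∈ Icc (0 : ℝ) 1, s 0 t = seg j t) : Dies (cur Pz) hq inc (arc j) := by
  obtain ⟨c, c', h1, h2, a, b, a', b', p, p', h3, h4, h5⟩ := hr_sq H X hX hXD hA hs1 hne f hf
  refine dies_of_lift (c := c) hq inc (fun t => by rw [h1, hs0 t t.2]) ?_
  have hcc : ∀ t : I, tt (c t) ≠ tt c' := by
    intro t h6
    rw [h1, h2] at h6
    exact hne t t.2 (OnePoint.coe_injective h6)
  refine dies_of c' p p' (fun t => ?_) (fun t => ?_) h5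
  · rw [h3, hinc]
    intro h6
    apply hcc t
    show tt (c t) = tt c'
    have h7 : c' = iv (c t) := h6
    rw [h7]
    rfl
  · rw [h4]
    show f (zE (iv (c t), c')) = inc (q (iv (c t), c'))
    rw [hinc]
    intro h6
    apply hcc t
    have h7 : c' = iv (iv (c t)) := h6
    rw [h7, Cur_297.iv_iv]

end cz

end

end Crest.Agent.R272.UB_20
end

-- ▼ part R272/UB12_20

/-!
# R272, leaf UB-DISC (helper20), part 12: the upper bound over the arithmetic instance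

`dies_j1`, `dies_j3`, `dies_j4` : the periods of the arcs 1, 3, 4 die in `π₁(XP)`.
-/

set_option autoImplicit false
set_option linter.unusedSectionVars false

open Set Filter Topology OnePoint

namespace Crest.Agent.R272.UB_20

open Crest.Agent.R272.EBase_641 Crest.Agent.R272.GLoc_620
open Crest.Agent.R272.Cls_620 Crest.Agent.R272.Quot_783 Crest.Agent.R272.GI_620
open Crest.Agent.R272.In_68 (Z5r io)
open Crest.Agent.R272.Gr_559 (GData)
open Crest.Agent.R273.Fam_835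
open Crest.Agent.R272.Tp3_60 Crest.Agent.R272.Tq2_916 Crest.Agent.R272.Tq3_916
open Crest.Agent.R272.Cur_297 (Par Cv Cset Eqn tt kk iv negP continuous_tt continuous_kk Pz Cz cur
  seg ze arc tt_arc eq_arc)
open Crest.Agent.R272.Act_302 (GAct)
open Crest.Agent.R272.AJ_956 Crest.Agent.R272.As15_338
open Crest.Agent.R272.P0_939 (o3 o3_val)

noncomputable section

local notation "I" => unitInterval

/-- the two slopes -/
def slp (z : Fin 2 → ℂ) (k : Fin 5) (i : Fin 2) (t : ℝ) : ℂ :=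
  if i = 0 then uv (et z) k t else 1 / 10

theorem uv_seg (η : ℂ) (k : Fin 5) (t : ℝ) : uv η k t = η ^ ((k : ℕ) + 2) * (1 + t * (η - 1)) := by
  unfold uv wv
  ring

section inst

variable {O : Subring (Fin 2 → ℂ)} {z μ : Fin 2 → ℂ} (h : Z5r O z)
variable {G : Type} [Group G] {ρ : G →* UG 3} {kk : ℕ} (R : ∀ a : Lb, Root 3 kk ρ (SS h μ a))
variable {Γ : Type} [Group Γ] (ρ' : Γ →* UG 3) (hμ : μ ∈ O) (hD : Deep O z μ 2)

theorem et_eq (h : Z5r O z) : et z = ze := Ref_246.conj_z0' h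

theorem uv_ne (h : Z5r O z) (k : Fin 5) (t : ℝ) : uv (et z) k t ≠ 1 / 10 := by
  intro h0
  have h1 := congrArg Complex.normSq h0
  have e : (1 / 10 : ℂ) = ((1 / 10 : ℝ) : ℂ) := by push_cast; ring
  rw [uv, map_mul, normSq_pow1 (eta_et h), one_mul, normSq_wv (eta_et h), e,
    Complex.normSq_ofReal] at h1
  have h2 := gr_lo
  have h3 := gr_hi
  have h4 : 0 ≤ (1 - 2 * t) ^ 2 * ((3 - gr) / 4) := mul_nonneg (sq_nonneg _) (by linarith)
  nlinarith

/-- the coordinates of the cluster point -/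
structure LData (L : Loc Pz (BX ρ')) : Prop where
  mem : o3 ρ' ∈ L.sh.source
  sh : ∃ κ : ℂ, κ ≠ 0 ∧ ∀ y ∈ L.sh.source, L.sh y = (κ * y.val 0, κ * y.val 1, κ * y.val 2)

variable {ρ'} {L : Loc Pz (BX ρ')} (hL : LData ρ' L)
include hL

theorem LData.zero : L.sh (o3 ρ') = 0 := by
  obtain ⟨κ, hκ, h1⟩ := hL.sh
  rw [h1 _ hL.mem]
  show (κ * (0 : E 3) 0, κ * (0 : E 3) 1, κ * (0 : E 3) 2) = 0
  simp

theorem LData.h0 : (0 : ℂ × ℂ × ℂ) ∈ L.sh.target := by
  rw [← hL.zero]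
  exact L.sh.map_source hL.mem

theorem LData.symm : L.sh.symm 0 = o3 ρ' := by
  rw [← hL.zero]
  exact L.sh.left_inv hL.mem

theorem adp_bz {k : Fin 5} {sw : Bool} {S : SqD (gdata h R ρ' hμ hD) sw}
    (hz : S.z = bz h ρ' k) : Adp S L (slp z k) where
  h0 := hL.h0
  z0 t ht := by
    have hp : ((0 : ℝ), t) ∈ sqr := ⟨⟨le_refl _, zero_le_one⟩, ht⟩
    rw [hz, hL.symm]
    apply BX.ext
    rw [bz_val h ρ' k hp, o3_val]
    ext i
    fin_cases i <;> simp [zz]
  sh := by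
    obtain ⟨κ, hκ, h1⟩ := hL.sh
    refine ⟨fun t => κ * Lv (et z) k t, fun t => mul_ne_zero hκ (Lv_ne (eta_et h) k t), ?_⟩
    intro p hp hps
    rw [h1 _ hps, hz, bz_val h ρ' k hp]
    show (κ * ((p.1 : ℂ) * Lv (et z) k p.2), κ * ((p.1 : ℂ) * Lv (et z) k p.2 * uv (et z) k p.2),
      κ * ((p.1 : ℂ) * Lv (et z) k p.2 * (1 / 10))) =
      ((p.1 : ℂ) * (κ * Lv (et z) k p.2), (p.1 : ℂ) * (κ * Lv (et z) k p.2) * uv (et z) k p.2,
        (p.1 : ℂ) * (κ * Lv (et z) k p.2) * (1 / 10))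
    refine Prod.ext ?_ (Prod.ext ?_ ?_) <;> simp only <;> ring

variable {A : GAct (gdata h R ρ' hμ hD) Γ} {s₀ : Γ} {zE : Cz × Cz → A.X}
  (H : ZData A L s₀ zE) (hD' : Deep O z μ 13)
include H hD'

/-- **the period of the arc `j` dies**, `(j, k)` with `ζ^(k+2) = ζ^j` -/
theorem dies_gen (X : Set (E6 (BX ρ')))
    (hX : ∀ y : E6 (BX ρ'), y.1 ∈ L.sh.source → (y ∈ X ↔ RelX L y))
    (hXD : ∀ y : E6 (BX ρ'), y ∈ X ↔ toA y ∈ (gdata h R ρ' hμ hD).X1)
    {M : Type} [TopologicalSpace M] (f : A.X → M)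
    (hf : ContinuousOn f {y | ∀ (g : Γ) (c : Cz), y ≠ g • zE (c, iv c)})
    {T : Type} [TopologicalSpace T] {q : Cz × Cz → T} (hq : Continuous q) (inc : T → M)
    (hinc : ∀ x : Cz × Cz, x.2 ≠ iv x.1 → inc (q x) = f (zE x)) {k : Fin 5} {sw : Bool}
    (hk : Adm k sw) {j : ℕ} (hj : ze ^ ((k : ℕ) + 2) = ze ^ j) :
    Dies (cur Pz) hq inc (arc j) := by
  obtain ⟨U, hU⟩ := exists_isUU h R hD hD'
  obtain ⟨S, hz, -, -⟩ := exists_sqd h R ρ' hU k hμ hD hk
  have hA := adp_bz h R hμ hD hL hz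
  refine dies_sq H X hX hXD hA (x := 1 / 10) (fun t _ => rfl) (fun t _ => uv_ne h k t) f hf hq inc
    hinc (fun t _ => ?_)
  show uv (et z) k t = seg j t
  rw [uv_seg, et_eq h, hj]
  rfl

theorem dies_j (X : Set (E6 (BX ρ')))
    (hX : ∀ y : E6 (BX ρ'), y.1 ∈ L.sh.source → (y ∈ X ↔ RelX L y))
    (hXD : ∀ y : E6 (BX ρ'), y ∈ X ↔ toA y ∈ (gdata h R ρ' hμ hD).X1)
    {M : Type} [TopologicalSpace M] (f : A.X → M)
    (hf : ContinuousOn f {y | ∀ (g : Γ) (c : Cz), y ≠ g • zE (c, iv c)})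
    {T : Type} [TopologicalSpace T] {q : Cz × Cz → T} (hq : Continuous q) (inc : T → M)
    (hinc : ∀ x : Cz × Cz, x.2 ≠ iv x.1 → inc (q x) = f (zE x)) :
    Dies (cur Pz) hq inc (arc 1) ∧ Dies (cur Pz) hq inc (arc 3) ∧
      Dies (cur Pz) hq inc (arc 4) := by
  have h5 := Cur_297.ze_pow
  refine ⟨?_, ?_, ?_⟩
  · refine dies_gen h R hμ hD hL H hD' X hX hXD f hf hq inc hinc (k := 4) (sw := false)
      (Or.inl ⟨rfl, rfl⟩) ?_
    show ze ^ 6 = ze ^ 1
    rw [pow_succ, h5, one_mul, pow_one]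
  · exact dies_gen h R hμ hD hL H hD' X hX hXD f hf hq inc hinc (k := 1) (sw := true)
      (Or.inr (Or.inl ⟨rfl, rfl⟩)) rfl
  · exact dies_gen h R hμ hD hL H hD' X hX hXD f hf hq inc hinc (k := 2) (sw := true)
      (Or.inr (Or.inr ⟨rfl, rfl⟩)) rfl

end inst

end

end Crest.Agent.R272.UB_20
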