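import Crest.Agent.R272.Fin4_338
import Crest.Agent.R272.UB12_20
import Crest.Agent.R272.Kb1_220
import Crest.Agent.R272.Lc12_220
import Crest.Agent.R272.Kum8_977
import Crest.Agent.R272.PosP7_848
import Crest.Agent.R272.PosP10_848
import Crest.Agent.R272.Th4_876_Mg
import Crest.Agent.R272.PEndZ_220
import Crest.Agent.R272.PEnd10_732

-- ▼ part R272/Fin5_338
section

/-!
# R272, S15-ASM (helper338): the three dying arcs over `W : Md M`

`die15` : 20's `dies_j` over 939's `M : Ar`, 916's `Γ : GE M`, 834's `W : Md M`.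
-/

set_option autoImplicit false
set_option linter.unusedSectionVars false
set_option linter.unusedVariables false

open Set Filter Topology OnePoint

namespace Crest.Agent.R272.Fin_338

open Crest.Agent.R275.Geo Crest.Agent.R273.Fam_835
open Crest.Agent.R272 Crest.Agent.R272.MQ_783 Crest.Agent.R272.Refl_246
open Crest.Agent.R272.HFam_342 Crest.Agent.R272.Sur_342 Crest.Agent.R272.Flop_66
open Crest.Agent.R272.AJ_956 Crest.Agent.R272.Idn_834 Crest.Agent.R272.Ax_834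
open Crest.Agent.R272.Cur_297 Crest.Agent.R272.K3E_227 Crest.Agent.R272.M15_939
open Crest.Agent.R272.LbExt_259 Crest.Agent.R272.As15_338 Crest.Agent.R272.Comp_259
open Crest.Agent.R272.Md_834 Crest.Agent.R272.Tp3_60 Crest.Agent.R272.CB_232
open Crest.Agent.R272.Tq12_916 Crest.Agent.R272.Tq11_916 Crest.Agent.R272.Lc_220
open Crest.Agent.R272.Tq3_916 (zst FEij DEij DEm)
open Crest.Agent.R272.Tp6_60 (toA)

noncomputable section

variable {M : Ar} {Γ : GE M}

theorem symm_zero (Γ : GE M) : Γ.L.sh.symm 0 = M.p0 := by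
  rw [← Γ.sh_q]
  exact Γ.L.sh.left_inv Γ.q_mem

/-- 20's zero section -/
theorem zData (hΓ : Pens M Γ) : UB_20.ZData M.A Γ.L M.s (zG Γ) where
  val _ := rfl
  swap := (zsecM Γ).swap
  stab := by
    rw [symm_zero]
    exact M.bpt.stab
  f0 := by
    rw [symm_zero]
    exact M.bpt.f0_zero
  h0 := by
    rw [← Γ.sh_q]
    exact Γ.L.sh.map_source Γ.q_mem

/-- 20's chart at the cluster point -/
theorem lData (hΓ : Pens M Γ) : UB_20.LData M.ρ Γ.L where
  mem := Γ.q_mem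
  sh := ⟨P0_939.cc O5_74.z5v, P0_939.cc_ne hz, fun y hy => by
    rw [(hΓ.eq y hy).1, M.bpt_s0, M.bpt_s1, M.bpt_s1']⟩

/-- **the three dying arcs** -/
theorem die15 (M : Ar) (Γ : GE M) (hΓ : Pens M Γ) (W : Md M) (w1 : W.Ge = Γ.g) (w2 : W.z = zG Γ) :
    Dies (cur Pz) W.hq.cont W.inc (Cur_297.arc 1) ∧
      Dies (cur Pz) W.hq.cont W.inc (Cur_297.arc 3) ∧
      Dies (cur Pz) W.hq.cont W.inc (Cur_297.arc 4) := by
  refine UB_20.dies_j hz M.R M.kd.mem M.deep2 (lData hΓ) (zData hΓ) (M.deep (by norm_num))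
    {y | toA M.N y ∈ M.DX.X1} Γ.hX (fun y => Iff.rfl) (fun y => W.S.iota (pr M.G y)) ?_
    W.hq.cont W.inc ?_
  · have hc : Continuous (pr M.G : M.X → Orb M.G M.X) := continuous_quotient_mk'
    refine ContinuousOn.comp (s := {y : M.X | ∀ (g : M.G) (c : Cz), y ≠ g • zG Γ (c, iv c)})
      (f := (pr M.G : M.X → Orb M.G M.X)) W.S.iota.continuousOn hc.continuousOn fun y hy => ?_
    rw [W.S.mem_iota_source, W.mem_K_pr]
    rintro ⟨g, c, h⟩
    rw [w2] at h
    exact hy g c h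
  · intro x hx
    show W.inc (W.q x) = W.S.iota (pr M.G (zG Γ x))
    rw [W.inc_q x hx, w2]

end

end Crest.Agent.R272.Fin_338
end

-- ▼ part R272/CmE_220
section

/-!
# R272 (S0415), (K-b) (helper220): the comparison `cmp` in the E-charts

* `cmp_of_Y` : from the cover to the local equations of record;
* `cmp_E`    : `cmp` at `T.E i j w`, `w.2 ≠ 0`.
-/

set_option autoImplicit false
set_option linter.unusedSectionVars false
set_option linter.unusedVariables false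

open Set Filter Topology

namespace Crest.Agent.R272.Cm_220

open Crest.Agent.R275.Geo Crest.Agent.R273.Fam_835
open Crest.Agent.R272 Crest.Agent.R272.MQ_783 Crest.Agent.R272.Refl_246
open Crest.Agent.R272.Quot_783 Crest.Agent.R272.Gr_559 Crest.Agent.R272.Act_302
open Crest.Agent.R272.CB_232 Crest.Agent.R272.CB9_232
open Crest.Agent.R272.Cur_297 (Par Cv cur tt)
open Crest.Agent.R272.Tp3_60 (Loc)
open Crest.Agent.R272.Tq1_916 (pole dl nu fij)
open Crest.Agent.R272.Tq3_916 (FEij)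
open Crest.Agent.R272.PosP7_848
open Crest.Agent.R272.Kum_977
open Crest.Agent.R272.PW_92 (IPhi)
open Crest.Agent.R272.FinCB3_876 (GenAt ValC)
open Crest.Agent.R272.Lc_220 Crest.Agent.R272.LcR_783
open Crest.Agent.R272.P1A_54 (ambFam)

noncomputable section

variable {N : Type} [TopologicalSpace N] {F : Fam 3 N} {D : GData F} {G : Type} [Group G]
  [MulAction G N] [Nonempty N] (A : GAct D G) {h : SubF_54.IsSl (ambFam F) D.X1 3} (hz : NzX A)
  (hX : RA (A.fam h) G)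

/-- **from the cover to the local equations of record** -/
theorem cmp_of_Y {κ : Type} [Finite κ] {y : A.X} {γ : A.X → ℂ} (hγ : (gsX A h hz).IsG y γ)
    {c : RC G (A.fam h)} (hc : y ∈ c.e.source) {f : κ → A.X → ℂ} {mm k : ℕ}
    (H : GenAt (A.fam h) f (fun v => (γ v * γ v) ^ mm * (eqU c v ^ 2) ^ k) y) :
    ∃ a b, pr G y ∈ (JX A hX hz).V a ∧ pr G y ∈ (brLE hX).eqs.V b ∧
      GenAt (A.fam h) f (fun v => (JX A hX hz).f a (pr G v) ^ mm *
        (brLE hX).eqs.f b (pr G v) ^ k) y := by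
  obtain ⟨a, ha⟩ := (JX A hX hz).cov (pr G y) (mem_univ _)
  obtain ⟨b, hb⟩ := (brLE hX).eqs.cov (pr G y) (mem_univ _)
  refine ⟨a, b, ha, hb, H.asc ?_⟩
  have h1 : Asc (A.fam h) y (fun v => (JX A hX hz).f a (pr G v) ^ mm)
      (fun v => (γ v * γ v) ^ mm) := (asc_of_JX A hX hz ha hγ).pow mm
  have h2 : Asc (A.fam h) y (fun v => (brLE hX).eqs.f b (pr G v) ^ k)
      (fun v => (eqU c v ^ 2) ^ k) := ((brLE_pr hX hc).1 (LEq.LE_eqs _ hb)).pow k
  exact (h1.mul h2).symm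

variable {P : Par} {q : N} (p : Pen F D.f0 (D.x 0) (D.P 0) (D.Q 0) q)
  (p' : Pen F D.f0 (D.x 1) (D.P 1) (D.Q 1) q) (hpp : p'.s0 = p.s0) {L : Loc P N}
  (hU : L.sh.source ⊆ p.U ∩ p'.U)
  (hsh : ∀ z ∈ L.sh.source, L.sh z = (p.s0 z, p.s1 z, p'.s1 z))
  {O : Set A.X} {q' : N} (T : YC P (A.fam h) A.pz q' O)
  (hT : ∀ y : A.X, A.pz y ∈ L.sh.source → (T.st y).1 = L.sh (A.pz y))

include hpp hU hsh hT in
/-- **(K-b) in the E-charts** -/
theorem cmp_E {mm : ℕ} (hb : 15 ≤ 10 * mm) {i j : Fin 2} {w : (Cv P × Cv P) × ℂ}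
    (hw : w ∈ (T.E i j).source) (hw0 : w.2 ≠ 0) (hy : A.pz (T.E i j w) ∈ L.sh.source)
    (hfix : Fix G (T.E i j) w) :
    ∃ a b, pr G (T.E i j w) ∈ (JX A hX hz).V a ∧ pr G (T.E i j w) ∈ (brLE hX).eqs.V b ∧
      GenAt (A.fam h) (T.ff (10 * mm)) (fun v => (JX A hX hz).f a (pr G v) ^ mm *
        (brLE hX).eqs.f b (pr G v) ^ 4) (T.E i j w) := by
  set y : A.X := T.E i j w with hyd
  have hp := T.hE i j w hw
  have hE := T.cE i j
  obtain ⟨c, hc⟩ := hX.cov y
  have f1 := fr_1 hE hw hp.1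
  have f2 := fr_2 hE hw hp.2
  have hξ : HolN (A.fam h) y (xY (T.E i j)) := holN_x hE hw
  have hy' : T.E i j w ∈ (T.E i j).target := (T.E i j).map_source hw
  -- the functions near `y`
  have e : ∀ᶠ v in 𝓝 y, (p.s0 (A.pz v), p.s1 (A.pz v), p'.s1 (A.pz v)) =
      ((xY (T.E i j) v * sY (T.E i j) i v * sY' (T.E i j) j v,
        xY (T.E i j) v * rY (T.E i j) i v * sY' (T.E i j) j v,
        xY (T.E i j) v * sY (T.E i j) i v * rY' (T.E i j) j v) : ℂ × ℂ × ℂ) := by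
    filter_upwards [(T.E i j).open_target.mem_nhds hy',
      (L.sh.open_source.preimage A.continuous_pz).mem_nhds hy] with v h1 h2
    have h3 : (T.st v).1 = L.sh (A.pz v) := hT v h2
    have h4 := T.sE i j _ ((T.E i j).map_target h1)
    rw [(T.E i j).right_inv h1] at h4
    rw [← hsh _ h2, ← h3, h4]
    rfl
  have hG : (gsX A h hz).IsG y fun v => p.s0 (A.pz v) ^ 5 := by
    refine isG_E' A h hz p p' hpp (hU hy).1 (hU hy).2 (ξ := xY (T.E i j)) (ν := rY (T.E i j) i)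
      (δ := sY (T.E i j) i) (ν' := rY' (T.E i j) j) (δ' := sY' (T.E i j) j) hξ f1.hr f1.hs
      f2.hr f2.hs ?_ ?_ ?_ ?_ ?_ ?_
    · exact e.mono fun v hv => congrArg Prod.fst hv
    · exact e.mono fun v hv => congrArg (fun t : ℂ × ℂ × ℂ => t.2.1) hv
    · exact e.mono fun v hv => congrArg (fun t : ℂ × ℂ × ℂ => t.2.2) hv
    · rintro ⟨h1, h2⟩
      exact (frame_ne i _).elim (fun h => h h2) fun h => h h1
    · rintro ⟨h1, h2⟩
      exact (frame_ne j _).elim (fun h => h h2) fun h => h h1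
    · show (((T.E i j).symm (T.E i j w))).2 ≠ 0
      rw [(T.E i j).left_inv hw]
      exact hw0
  refine cmp_of_Y A hz hX hG hc ?_
  have hf : HF (10 * mm) (T.E i j) i j w (T.ff (10 * mm)) := by
    filter_upwards [(T.E i j).open_source.mem_nhds hw] with u hu a
    show PosP3_848.FF (10 * mm) (T.st (T.E i j u)) a = _
    rw [T.sE i j u hu]
    exact PosP3_848.FF_fij hb i j u.1.1 u.1.2 u.2 a
  refine (kum_cmp hb hE hw hp.1 hp.2 hw0 hf hc hfix).asc ?_
  refine Asc.symm ⟨fun v => xY (T.E i j) v ^ (10 * mm), hξ.pow _, pow_ne_zero _ ?_, ?_⟩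
  · show (((T.E i j).symm (T.E i j w))).2 ≠ 0
    rw [(T.E i j).left_inv hw]
    exact hw0
  · filter_upwards [e] with v hv
    have h1 : p.s0 (A.pz v) = xY (T.E i j) v * sY (T.E i j) i v * sY' (T.E i j) j v :=
      congrArg Prod.fst hv
    rw [h1, gC_eq]
    ring

end

end Crest.Agent.R272.Cm_220
end

-- ▼ part R272/CmM_220
section

/-!
# R272 (S0415), (K-b) (helper220): the comparison `cmp` in the m-charts

* `gen_eq`, `gen_opp` : 898's factorisation at `m = 0`;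
* `cmp_M0`            : `cmp` at `T.M b b' q`, `q.1 = 0`, `pz ≠ z₀`.
-/

set_option autoImplicit false
set_option linter.unusedSectionVars false
set_option linter.unusedVariables false

open Set Filter Topology

namespace Crest.Agent.R272.Cm_220

open Crest.Agent.R275.Geo Crest.Agent.R273.Fam_835
open Crest.Agent.R272 Crest.Agent.R272.MQ_783 Crest.Agent.R272.Refl_246
open Crest.Agent.R272.Quot_783 Crest.Agent.R272.Gr_559 Crest.Agent.R272.Act_302
open Crest.Agent.R272.CB_232 Crest.Agent.R272.CB9_232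
open Crest.Agent.R272.Cur_297 (Par Cv cur tt Pz vv)
open Crest.Agent.R272.Tp3_60 (Loc)
open Crest.Agent.R272.Tq1_916 (pole dl nu fij)
open Crest.Agent.R272.Tq3_916 (FEij)
open Crest.Agent.R272.Tq4_916 (ib pinf)
open Crest.Agent.R272.PosP7_848
open Crest.Agent.R272.Kum_977
open Crest.Agent.R272.PosL_898
open Crest.Agent.R272.PW_92 (IPhi Phi)
open Crest.Agent.R272.FinCB3_876 (GenAt ValC)
open Crest.Agent.R272.Lc_220 Crest.Agent.R272.LcR_783
open Crest.Agent.R272.P1A_54 (ambFam)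

noncomputable section

section line

variable {n : ℕ} {X : Type} [TopologicalSpace X] {C : Fam n X} {y : X}
  {x0 E p S m x1 x2 η1 η2 : X → ℂ}

/-- 898's local data at any point of an m-chart -/
structure LineM (C : Fam n X) (y : X) (x0 E p S m x1 x2 η1 η2 : X → ℂ) (e1 e2 : ℂ) : Prop where
  hm : HolN C y m
  h1 : HolN C y x1
  h2 : HolN C y x2
  s1 : ‖m y * x2 y‖ < 1
  s2 : ‖m y * x1 y‖ < 1
  e0 : ∀ᶠ w in 𝓝 y, x0 w = m w * (x1 w * x2 w)
  eE : ∀ᶠ w in 𝓝 y, E w = x1 w + x2 w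
  ep : ∀ᶠ w in 𝓝 y, p w = x1 w * x2 w
  eS : ∀ᶠ w in 𝓝 y, S w = 2 * p w ^ 3 - x0 w ^ 5 * E w
    - 2 * ((x1 w ^ 3 * η1 w) * (x2 w ^ 3 * η2 w))
  he : e1 ^ 2 = 1
  eη : ∀ᶠ w in 𝓝 y, η1 w = e1 * rt (m w * x2 w) ∧ η2 w = e2 * rt (m w * x1 w)

variable {e1 e2 : ℂ} (L : LineM C y x0 E p S m x1 x2 η1 η2 e1 e2) {b : ℕ}

include L

theorem LineM.small : ∀ᶠ w in 𝓝 y, ‖m w * x2 w‖ < 1 ∧ ‖m w * x1 w‖ < 1 :=
  ((L.hm.mul L.h2).continuousAt.norm.eventually_lt_const L.s1).and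
    ((L.hm.mul L.h1).continuousAt.norm.eventually_lt_const L.s2)

/-- equal sheets -/
theorem LineM.gen_eq (hb : 15 ≤ b) (hη : e1 = e2) :
    GenAt C (fun i w => Phi b (x0 w) (E w) (p w) (S w) i) (fun w => gM1 b (E w) (p w)) y := by
  subst hη
  set u : IPhi → X → ℂ := fun i w => YM1 b (m w) (x1 w + x2 w) (x1 w * x2 w)
    (heq (m w) (x1 w) (x2 w)) i with hu
  have hh := holN_heq L.hm L.h1 L.h2 L.s1 L.s2
  have huh : ∀ i, HolN C y (u i) := fun i => holN_YM1 L.hm L.h1 L.h2 hh i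
  refine genAt_of huh ?_ ⟨.v, by simp [hu, YM1]⟩
  filter_upwards [L.e0, L.eE, L.ep, L.eS, L.small, L.eη] with w a0 aE ap aS asm aη i
  have h2 : S w = p w ^ 3 * (E w ^ 2 - 4 * p w) * heq (m w) (x1 w) (x2 w) := by
    rw [aS, aη.1, aη.2, a0, ap, aE]
    exact N_eq L.he asm.1 asm.2
  have h3 := phi_M1 hb (x0 := x0 w) (E := E w) (p := p w) (S := S w) (m := m w)
    (h := heq (m w) (x1 w) (x2 w)) (by rw [a0, ap]) h2 i
  rw [h3, aE, ap]

/-- opposite sheets -/
theorem LineM.gen_opp (hb : 15 ≤ b) (hη : e2 = - e1) :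
    GenAt C (fun i w => Phi b (x0 w) (E w) (p w) (S w) i) (fun w => gM2 b (p w)) y := by
  subst hη
  set u : IPhi → X → ℂ := fun i w => YM2 b (m w) (x1 w + x2 w) (x1 w * x2 w)
    (hop (m w) (x1 w) (x2 w)) i with hu
  have hh := holN_hop L.hm L.h1 L.h2 L.s1 L.s2
  have huh : ∀ i, HolN C y (u i) := fun i => holN_YM2 L.hm L.h1 L.h2 hh i
  have hfac : ∀ᶠ w in 𝓝 y, ∀ i, Phi b (x0 w) (E w) (p w) (S w) i = u i w * gM2 b (p w) := by
    filter_upwards [L.e0, L.eE, L.ep, L.eS, L.eη] with w a0 aE ap aS aη i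
    have h2 : S w = p w ^ 3 * hop (m w) (x1 w) (x2 w) := by
      rw [aS, aη.1, aη.2, a0, ap, aE]
      exact N_opp (m w) (x1 w) (x2 w) e1 L.he
    have h3 := phi_M2 hb (x0 := x0 w) (E := E w) (p := p w) (S := S w) (m := m w)
      (h := hop (m w) (x1 w) (x2 w)) (by rw [a0, ap]) h2 i
    rw [h3, aE, ap]
  by_cases hx : x1 y = x2 y
  · refine genAt_of huh hfac ⟨.last, ?_⟩
    have h4 : hop (m y) (x1 y) (x2 y) = 4 * (1 - (m y * x2 y) ^ 5) := by
      rw [hx]
      unfold hop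
      have := rt_sq L.s1
      linear_combination 2 * this
    have h5 := one_sub_ne L.s1
    simp only [hu, YM2, h4]
    exact pow_ne_zero 4 (mul_ne_zero (by norm_num) h5)
  · refine genAt_of huh hfac ⟨.v, ?_⟩
    have h4 : (x1 y + x2 y) ^ 2 - 4 * (x1 y * x2 y) = (x1 y - x2 y) ^ 2 := by ring
    simp only [hu, YM2, h4]
    exact pow_ne_zero 4 (pow_ne_zero 2 (sub_ne_zero.2 hx))

end line

/-! ### the linear change of coordinates `(m, s, s') ↦ (s - s', s', m)` -/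

/-- `(w0, w1, w2) ↦ (w1 - w2, w2, w0)` -/
def Ls : Cn 3 ≃L[ℂ] Cn 3 :=
  LinearEquiv.toContinuousLinearEquiv
    { toFun := fun w => WithLp.toLp 2 ![w 1 - w 2, w 2, w 0]
      invFun := fun w => WithLp.toLp 2 ![w 2, w 0 + w 1, w 1]
      map_add' := by
        intro p q
        ext i
        fin_cases i
        · simp; ring
        · simp
        · simp
      map_smul' := by
        intro r p
        ext i
        fin_cases i
        · simp; ring
        · simp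
        · simp
      left_inv := by
        intro p
        ext i
        fin_cases i <;> simp
      right_inv := by
        intro z
        ext i
        fin_cases i <;> simp }


variable {Y : Type} [TopologicalSpace Y] {CY : Fam 3 Y} {G : Type} [Group G] [MulAction G Y]

/-- `s - s'` is the reflected coordinate -/
theorem sd_asc_eqU {E : OpenPartialHomeomorph (ℂ × ℂ × ℂ) Y} (hE : MCpt CY E) {q : ℂ × ℂ × ℂ}
    (hq : q ∈ E.source) {c : RC G CY} (hc : E q ∈ c.e.source)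
    (hfix : ∀ᶠ y in 𝓝 (E q), (∃ g : G, g ≠ 1 ∧ g • y = y) ↔ (E.symm y).2.1 = (E.symm y).2.2) :
    Asc CY (E q) (fun y => (E.symm y).2.1 - (E.symm y).2.2) (eqU c) := by
  have hh : HolN CY (E q) fun y => (E.symm y).2.1 - (E.symm y).2.2 :=
    (holN_m1 hE hq).sub (holN_m2 hE hq)
  refine Asc.of_dvd hh (nz_M hq (f := fun q => q.2.1 - q.2.2) (freq_12 q)) ?_ ?_
  · refine dvd_eqU hc hh ?_
    filter_upwards [hfix] with y k1 k3
    rw [k1.1 k3, sub_self]
  · have hφ : Refl_246.Cpt CY ((E.symm.transHomeomorph mc.toHomeomorph).transHomeomorph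
        Ls.toHomeomorph) := cpt_lin hE Ls
    refine dvd_coord hφ (E.map_source hq) (a := 0) (holN_eqU hc) ?_
    filter_upwards [hfix, c.e.open_source.mem_nhds hc] with y k1 k2 k3
    refine (eqU_zero_iff k2).2 (k1.2 ?_)
    have : (E.symm y).2.1 - (E.symm y).2.2 = 0 := k3
    exact sub_eq_zero.1 this

/-! ### the charts at infinity of the curve of record -/

theorem vvf_sq (b : Bool) {s : ℂ} (hs : ‖s‖ < (ib Pz b).r) :
    vv ((ib Pz b).e.symm s) ^ 2 = 1 - s ^ 5 := by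
  rw [YC.vv_sq' b hs, Kum_977.fh_cf_inf, Cur_297.Pz_p1]

/-- the radius of the chart is at most one -/
theorem r_le (b : Bool) : (ib Pz b).r ≤ 1 := by
  by_contra hr
  push Not at hr
  have h1 : ‖(1 : ℂ)‖ < (ib Pz b).r := by rw [norm_one]; exact hr
  have hf := YC.an_vv (P := Pz) b h1
  have hev : (fun z => vv ((ib Pz b).e.symm z) ^ 2) =ᶠ[𝓝 (1 : ℂ)] fun z => 1 - z ^ 5 := by
    filter_upwards [continuous_norm.continuousAt.eventually_lt_const h1] with z hz
    exact vvf_sq b hz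
  have h0 : vv ((ib Pz b).e.symm 1) = 0 := by
    have := vvf_sq b h1
    rw [one_pow, sub_self] at this
    exact pow_eq_zero_iff (two_ne_zero) |>.1 this
  have h2 := (hf.differentiableAt.hasDerivAt.pow 2).deriv
  have h3 : deriv (fun z : ℂ => 1 - z ^ 5) 1 = -5 := by
    have := ((hasDerivAt_id (1 : ℂ)).pow 5).const_sub 1
    have h4 := this.deriv
    simp at h4 ⊢
  have h5 := hev.deriv_eq
  rw [h3] at h5
  have h6 : deriv (fun z => vv ((ib Pz b).e.symm z) ^ 2) 1 = 0 := by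
    have h7 : deriv (fun z => vv ((ib Pz b).e.symm z) ^ 2) 1 =
        (2 : ℕ) * vv ((ib Pz b).e.symm 1) ^ (2 - 1) *
          deriv (fun z => vv ((ib Pz b).e.symm z)) 1 := h2
    rw [h7, h0]
    simp
  rw [h6] at h5
  norm_num at h5

/-- `η = ± rt` on the whole chart -/
theorem vvf (b : Bool) {s : ℂ} (hs : ‖s‖ < (ib Pz b).r) :
    vv ((ib Pz b).e.symm s) = vv (pinf Pz b) * rt s := by
  have hle := r_le b
  have hS : IsPreconnected (Metric.ball (0 : ℂ) (ib Pz b).r) :=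
    (convex_ball (0 : ℂ) _).isPreconnected
  have hm : ∀ {z : ℂ}, z ∈ Metric.ball (0 : ℂ) (ib Pz b).r ↔ ‖z‖ < (ib Pz b).r := by
    intro z; simp
  have h1 : ∀ {z : ℂ}, z ∈ Metric.ball (0 : ℂ) (ib Pz b).r → ‖z‖ < 1 := fun hz =>
    lt_of_lt_of_le (hm.1 hz) hle
  have hf : ContinuousOn (fun z => vv ((ib Pz b).e.symm z)) (Metric.ball 0 (ib Pz b).r) :=
    fun z hz => (YC.an_vv (P := Pz) b (hm.1 hz)).continuousAt.continuousWithinAt
  have hg : ContinuousOn (fun z => vv (pinf Pz b) * rt z) (Metric.ball 0 (ib Pz b).r) :=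
    fun z hz => (continuousAt_const.mul (analyticAt_rt (h1 hz)).continuousAt).continuousWithinAt
  have hv := vv_pinf_sq b
  have hv0 : vv (pinf Pz b) ≠ 0 := by
    intro h
    rw [h] at hv
    norm_num at hv
  refine hS.eq_of_sq_eq hf hg ?_ (fun {z} hz => mul_ne_zero hv0 (rt_ne (h1 hz)))
    (y := 0) (by simpa using (ib Pz b).r_pos) ?_ (hm.2 hs)
  · intro z hz
    show vv ((ib Pz b).e.symm z) ^ 2 = (vv (pinf Pz b) * rt z) ^ 2
    rw [vvf_sq b (hm.1 hz), mul_pow, hv, one_mul, rt_sq (h1 hz)]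
  · show vv ((ib Pz b).e.symm 0) = vv (pinf Pz b) * rt 0
    rw [symm_ib, rt_zero, mul_one]

/-! ### the m-charts -/

section YCsec

variable {N : Type} {Pm : Y → N} {z₀ : N} {O : Set Y} (T : YC Pz CY Pm z₀ O)
  {b b' : Bool} {q : ℂ × ℂ × ℂ} (hq : q ∈ (T.M b b').source)

include hq

theorem lineM :
    LineM CY (T.M b b' q) T.x0 T.ee T.pp T.ss (fun y => ((T.M b b').symm y).1) T.x1 T.x2
      (T.e1 b b') (T.e2 b b') (vv (pinf Pz b)) (vv (pinf Pz b')) where
  hm := holN_m0 (T.cM b b') hq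
  h1 := T.holN_x1 hq
  h2 := T.holN_x2 hq
  s1 := by
    show ‖((T.M b b').symm (T.M b b' q)).1 * T.x2 (T.M b b' q)‖ < 1
    rw [(T.M b b').left_inv hq, (T.stM hq).2.2.1]
    exact lt_of_lt_of_le (T.hM b b' q hq).1 (r_le b)
  s2 := by
    show ‖((T.M b b').symm (T.M b b' q)).1 * T.x1 (T.M b b' q)‖ < 1
    rw [(T.M b b').left_inv hq, (T.stM hq).2.1]
    exact lt_of_lt_of_le (T.hM b b' q hq).2 (r_le b')
  e0 := T.ev_M hq (Q := fun y p => T.x0 y = p.1 * (T.x1 y * T.x2 y)) fun p hp => by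
    rw [(T.stM hp).1, (T.stM hp).2.1, (T.stM hp).2.2.1]
  eE := Eventually.of_forall fun _ => rfl
  ep := Eventually.of_forall fun _ => rfl
  eS := T.ev_M hq (Q := fun y p => T.ss y = 2 * T.pp y ^ 3 - T.x0 y ^ 5 * T.ee y -
      2 * ((T.x1 y ^ 3 * T.e1 b b' y) * (T.x2 y ^ 3 * T.e2 b b' y))) fun p hp => by
    obtain ⟨a0, a1, a2, a3⟩ := T.stM hp
    rw [a3]
    unfold YC.ee YC.pp YC.e1 YC.e2
    rw [(T.M b b').left_inv hp, a0, a1, a2]
    unfold rho
    rw [Fh_Pz]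
    ring
  he := vv_pinf_sq b
  eη := T.ev_M hq (Q := fun y p => vv ((ib Pz b).e.symm (((T.M b b').symm y).1 *
      ((T.M b b').symm y).2.2)) = vv (pinf Pz b) * rt (((T.M b b').symm y).1 * T.x2 y) ∧
      vv ((ib Pz b').e.symm (((T.M b b').symm y).1 * ((T.M b b').symm y).2.1)) =
        vv (pinf Pz b') * rt (((T.M b b').symm y).1 * T.x1 y)) fun p hp => by
    rw [(T.M b b').left_inv hp, (T.stM hp).2.2.1, (T.stM hp).2.1]
    exact ⟨vvf b (T.hM b b' p hp).1, vvf b' (T.hM b b' p hp).2⟩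

/-- the list is generated by `(s s')^n * eqU^8` in the m-charts -/
theorem gen_M {n : ℕ} (hn : 15 ≤ n) {c : RC G CY} (hc : T.M b b' q ∈ c.e.source)
    (hfix : ∀ᶠ y in 𝓝 (T.M b b' q), (∃ g : G, g ≠ 1 ∧ g • y = y) ↔
      (((T.M b b').symm y).2.1 = ((T.M b b').symm y).2.2 ∧
        (ib Pz b).e.symm (((T.M b b').symm y).1 * ((T.M b b').symm y).2.1) =
          (ib Pz b').e.symm (((T.M b b').symm y).1 * ((T.M b b').symm y).2.1))) :
    GenAt CY (T.ff n) (fun y => (T.x1 y * T.x2 y) ^ n * eqU c y ^ 8) (T.M b b' q) := by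
  have L := lineM T hq
  have hs := (T.M b b').left_inv hq
  by_cases hbb : b = b'
  · subst hbb
    have hg := L.gen_eq hn rfl
    refine GenAt.asc (f := T.ff n) hg ?_
    have h2 : ∀ᶠ y in 𝓝 (T.M b b q), (∃ g : G, g ≠ 1 ∧ g • y = y) ↔
        ((T.M b b).symm y).2.1 = ((T.M b b).symm y).2.2 :=
      hfix.mono fun y hy => ⟨fun h => (hy.1 h).1, fun h => hy.2 ⟨h, rfl⟩⟩
    have h3 := (sd_asc_eqU (T.cM b b) hq hc h2).pow 8
    have h4 : Asc CY (T.M b b q) (fun y => (T.x1 y * T.x2 y) ^ n)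
      (fun y => (T.x1 y * T.x2 y) ^ n) := Asc.refl _
    have h5 := T.ev_M hq (Q := fun y p => T.x1 y - T.x2 y = p.2.1 - p.2.2) fun p hp => by
      rw [(T.stM hp).2.1, (T.stM hp).2.2.1]
    refine (h4.mul h3).congr ?_ (Eventually.of_forall fun _ => rfl)
    filter_upwards [h5] with y hy
    rw [← hy]
    unfold gM1 YC.ee YC.pp
    ring
  · have hg := L.gen_opp hn (by linear_combination vv_pinf hbb)
    refine GenAt.asc (f := T.ff n) hg ?_
    have h2 : eqU c (T.M b b' q) ≠ 0 := by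
      intro h0
      have h3 := (eqU_zero_iff hc).1 h0
      obtain ⟨h4, h5⟩ := hfix.self_of_nhds.1 h3
      rw [hs] at h4 h5
      have h6 := congrArg vv h5
      obtain ⟨d1, d2⟩ := T.hM b b' q hq
      rw [vvf b (by rw [h4]; exact d1), vvf b' d2, vv_pinf hbb] at h6
      have h7 : rt (q.1 * q.2.1) ≠ 0 := rt_ne (lt_of_lt_of_le d2 (r_le b'))
      have h8 : vv (pinf Pz b') ≠ 0 := by
        intro h
        have := vv_pinf_sq b'
        rw [h] at this
        norm_num at this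
      have h9 : vv (pinf Pz b') * rt (q.1 * q.2.1) = 0 := by linear_combination (-1 / 2) * h6
      exact (mul_ne_zero h8 h7) h9
    refine Asc.symm ⟨fun y => eqU c y ^ 8, (holN_eqU hc).pow 8, pow_ne_zero 8 h2,
      Eventually.of_forall fun y => ?_⟩
    unfold gM2 YC.pp
    ring

end YCsec

end

end Crest.Agent.R272.Cm_220
end

-- ▼ part R272/CmF_220
section

/-!
# R272 (S0415), (K-b) (helper220): the comparison `cmp` over `M : Ar`

* `cmp_M` : `cmp` in the m-charts;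
* `cmp_O` : `cmp` at every point of `O = pz⁻¹(V)` off the bad fibre (732's `YC`).
-/

set_option autoImplicit false
set_option linter.unusedSectionVars false
set_option linter.unusedVariables false

open Set Filter Topology

namespace Crest.Agent.R272.Cm_220

open Crest.Agent.R275.Geo Crest.Agent.R273.Fam_835
open Crest.Agent.R272 Crest.Agent.R272.MQ_783 Crest.Agent.R272.Refl_246
open Crest.Agent.R272.Quot_783 Crest.Agent.R272.Gr_559 Crest.Agent.R272.Act_302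
open Crest.Agent.R272.CB_232 Crest.Agent.R272.CB9_232
open Crest.Agent.R272.Cur_297 (Par Cv cur tt Pz vv)
open Crest.Agent.R272.Tp3_60 (Loc)
open Crest.Agent.R272.Tq4_916 (ib pinf)
open Crest.Agent.R272.PosP7_848
open Crest.Agent.R272.Kum_977
open Crest.Agent.R272.PW_92 (IPhi Phi)
open Crest.Agent.R272.FinCB3_876 (GenAt ValC)
open Crest.Agent.R272.Lc_220 Crest.Agent.R272.LcR_783
open Crest.Agent.R272.P1A_54 (ambFam)
open Crest.Agent.R272.PEnd8_732 (LX st Swp st_fst fix_E fix_M)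

noncomputable section

variable {N : Type} [TopologicalSpace N] {F : Fam 3 N} {D : GData F} {G : Type} [Group G]
  [MulAction G N] [Nonempty N] (A : GAct D G) {h : SubF_54.IsSl (ambFam F) D.X1 3} (hz : NzX A)
  (hX : RA (A.fam h) G)
  {q : N} (p : Pen F D.f0 (D.x 0) (D.P 0) (D.Q 0) q)
  (p' : Pen F D.f0 (D.x 1) (D.P 1) (D.Q 1) q) (hpp : p'.s0 = p.s0) {L : Loc Pz N}
  (hU : L.sh.source ⊆ p.U ∩ p'.U)
  (hsh : ∀ z ∈ L.sh.source, L.sh z = (p.s0 z, p.s1 z, p'.s1 z))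

include hpp hU hsh in
/-- **(K-b) in the m-charts** -/
theorem cmp_M {O : Set A.X} {q' : N} (T : YC Pz (A.fam h) A.pz q' O)
    (hT : ∀ y : A.X, A.pz y ∈ L.sh.source → (T.st y).1 = L.sh (A.pz y)) {mm : ℕ}
    (hb : 15 ≤ 10 * mm) {b b' : Bool} {w : ℂ × ℂ × ℂ}
    (hw : w ∈ (T.M b b').source) (hy : A.pz (T.M b b' w) ∈ L.sh.source)
    (hfix : ∀ᶠ y in 𝓝 (T.M b b' w), (∃ g : G, g ≠ 1 ∧ g • y = y) ↔
      (((T.M b b').symm y).2.1 = ((T.M b b').symm y).2.2 ∧
        (ib Pz b).e.symm (((T.M b b').symm y).1 * ((T.M b b').symm y).2.1) =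
          (ib Pz b').e.symm (((T.M b b').symm y).1 * ((T.M b b').symm y).2.1))) :
    ∃ a c, pr G (T.M b b' w) ∈ (JX A hX hz).V a ∧ pr G (T.M b b' w) ∈ (brLE hX).eqs.V c ∧
      GenAt (A.fam h) (T.ff (10 * mm)) (fun v => (JX A hX hz).f a (pr G v) ^ mm *
        (brLE hX).eqs.f c (pr G v) ^ 4) (T.M b b' w) := by
  obtain ⟨c, hc⟩ := hX.cov (T.M b b' w)
  -- the functions near the point
  have e : ∀ᶠ v in 𝓝 (T.M b b' w), p.s1 (A.pz v) = T.x1 v ∧ p'.s1 (A.pz v) = T.x2 v ∧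
      p.s0 (A.pz v) = T.x0 v := by
    filter_upwards [(L.sh.open_source.preimage A.continuous_pz).mem_nhds hy] with v h2
    have h3 : (T.st v).1 = L.sh (A.pz v) := hT v h2
    rw [hsh _ h2] at h3
    unfold YC.x0 YC.x1 YC.x2
    rw [h3]
    exact ⟨rfl, rfl, rfl⟩
  have hG : (gsX A h hz).IsG (T.M b b' w) fun v => (p.s1 (A.pz v) * p'.s1 (A.pz v)) ^ 5 := by
    refine isG_M A h hz p p' hpp (hU hy).1 (hU hy).2
      (m := fun y => ((T.M b b').symm y).1) (holN_m0 (T.cM b b') hw) ?_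
    filter_upwards [e, T.ev_M hw (Q := fun y p => T.x0 y = p.1 * (T.x1 y * T.x2 y))
      fun p hp => by rw [(T.stM hp).1, (T.stM hp).2.1, (T.stM hp).2.2.1]] with v h1 h2
    rw [h1.1, h1.2.1, h1.2.2, h2]
    ring
  refine cmp_of_Y A hz hX hG hc ?_
  refine (gen_M T hw hb hc hfix).asc ?_
  refine (Asc.refl _).congr ?_ (Eventually.of_forall fun _ => rfl)
  filter_upwards [e] with v h1
  rw [h1.1, h1.2.1]
  ring

include hpp hU hsh in
/-- **(K-b)** : `cmp` at every point of `O` off the bad fibre -/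
theorem cmp_O {q' : N} {hL : LX D L} {B : BV G q'} (hV : B.V ⊆ L.sh.source)
    (hs : Swp A L B.s B.V) (hne : B.s ≠ 1)
    (T : YC Pz (A.fam h) A.pz q' (A.pz ⁻¹' B.V)) (hT : T.st = st A L hL) {mm : ℕ}
    (hb : 15 ≤ 10 * mm) {y : A.X} (hy : A.pz y ∈ B.V) (hy0 : A.pz y ≠ q') :
    ∃ a c, pr G y ∈ (JX A hX hz).V a ∧ pr G y ∈ (brLE hX).eqs.V c ∧
      GenAt (A.fam h) (T.ff (10 * mm)) (fun v => (JX A hX hz).f a (pr G v) ^ mm *
        (brLE hX).eqs.f c (pr G v) ^ 4) y := by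
  have hT' : ∀ y : A.X, A.pz y ∈ L.sh.source → (T.st y).1 = L.sh (A.pz y) := by
    intro y hy
    rw [hT]
    exact st_fst A hy
  rcases T.off y hy hy0 with ⟨i, j, w, hw, rfl, hw0⟩ | ⟨b, b', w, hw, rfl, -⟩
  · exact cmp_E A hz hX p p' hpp hU hsh T hT' hb hw hw0 (hV hy) (fix_E hV hs hne T hT hw hy)
  · exact cmp_M A hz hX p p' hpp hU hsh T hT' hb hw (hV hy) (fix_M hV hs hne T hT hw hy)

end

end Crest.Agent.R272.Cm_220
end

-- ▼ part R272/CmG_220
section

/-!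
# R272 (S0415), (K-b) (helper220): argument `cmp` of 338's `s15_of'`
-/

set_option autoImplicit false
set_option linter.unusedSectionVars false
set_option linter.unusedVariables false

open Set Filter Topology

namespace Crest.Agent.R272.Cm_220

open Crest.Agent.R272.M15_939 Crest.Agent.R272.Md_834 Crest.Agent.R272.Fin_338
open Crest.Agent.R272.Tq12_916 Crest.Agent.R272.Lc_220

/-- **argument (1) of `Fin_338.s15_of'`** -/
theorem cmp15 (M : Ar) (Γ : GE M) (hΓ : Pens M Γ) (Y : YB M Γ) : CMP Y :=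
  fun mm hmm y hy hy0 => cmp_O M.A (nzX_ins M) (raM M) M.bpt.p M.bpt.p' M.bpt.s0_eq hΓ.src
    (fun z hz => (hΓ.eq z hz).1) (hL := Γ.hX) Y.src Y.swp (by rw [Y.s]; exact M.bpt.s_ne) Y.T
    Y.st_eq (by omega) hy hy0

end Crest.Agent.R272.Cm_220
end

-- ▼ part R272/Fin6_338
section

/-!
# R272, S15-ASM (helper338): S0415 from the collar alone

`s15_col` : `cmp` = 220's `cmp15`, `die` = `die15` (20), so only 92's collar is an argument.
-/

set_option autoImplicit false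
set_option linter.unusedSectionVars false
set_option linter.unusedVariables false

namespace Crest.Agent.R272.Fin_338

open Crest.Agent.R272.M15_939 Crest.Agent.R272.Comp_259 Crest.Agent.R272.Md_834
open Crest.Agent.R272.Tq12_916 Crest.Agent.R272.Tq11_916

/-- **S0415 from the collar** -/
theorem s15_col (M : Ar)
    (col : ∀ Γ : GE M, Pens M Γ → ∀ Y : YB M Γ, ∀ W : Md M, W.Ge = Γ.g → W.z = zG Γ → COL Y W) :
    S15 :=
  s15_of' M (Cm_220.cmp15 M) col (die15 M)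

end Crest.Agent.R272.Fin_338
end

-- ▼ part R272/Col_92

/-!
# R272 (S0415), POS at `p0` (helper92), part 6: the collar

`X_col`, `RR_col` : `X_j(z, m) = ξ ks_j`, `RR(z, m) = ξ³ rh` at the point `(TT, U_i, ξ g_i)` of `Um`,
                    also on `Γ` (by continuity);
`collar`          : the functions on `Up` and on `Y` agree on the collar (`cp` of 220's `germ15`).
-/

set_option autoImplicit false
set_option linter.unusedSectionVars false
set_option linter.unusedVariables false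

open Set Filter Topology Metric

namespace Crest.Agent.R272.PW_92

open Crest.Agent.R275.Geo Crest.Agent.R273.Fam_835
open Crest.Agent.R272.AJ_956 Crest.Agent.R272.Idn_834 Crest.Agent.R272.Ax_834
open Crest.Agent.R272.Flop_66 Crest.Agent.R272.Lc_220 Crest.Agent.R272.FinCB3_876
open Crest.Agent.R272.Cur_297 (Par Cv P1 cur tt kk yv vv sv Pz Cz)
open Crest.Agent.R272.K3E_227 (lP sextP k3P k3 Sext)
open Crest.Agent.R272.PosP3_848 (fs fr eta ks rh FF FF_fij)
open Crest.Agent.R272.Th_876 (KdP Tj Ph Tj_ks Ph_rh Ph_cont freq_gam om' exists_kd)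

noncomputable section

/-! ### the point of `Um` -/

/-- `z` in the chart `i` -/
def zi (i : Fin 2) (T a : ℂ) : Fin 2 → ℂ := if i = 0 then ![a, a * T] else ![a * T, a]

/-- `m` in the chart `i` -/
def mi (i : Fin 2) (T μ : ℂ) : Fin 3 → ℂ :=
  if i = 0 then ![μ, μ * T, μ * T ^ 2] else ![μ * T ^ 2, μ * T, μ]

theorem um_z (i : Fin 2) (p : (ℂ × ℂ) × ℂ) :
    ((Um.fam.e (Um.dix i)).symm (h3 p)).z = zi i p.1.1 p.1.2 := by
  fin_cases i <;> rfl

theorem um_m (i : Fin 2) (p : (ℂ × ℂ) × ℂ) :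
    ((Um.fam.e (Um.dix i)).symm (h3 p)).m = mi i p.1.1 p.2 := by
  fin_cases i <;> rfl

section core

variable {P : Par} {NP : Set (Cv P × Cv P)} {UP : Cv P × Cv P → E2} {h : (cur P).NearE NP UP}
  {κ : ℂ} {q : Fin 3 → E2 → ℂ} (K : KF κ q)

theorem zi_U {i : Fin 2} {x : Cv P × Cv P} (hg : x ∉ (cur P).Gam) (hU : UP x i ≠ 0) :
    zi i ((cur P).TT UP i x) (UP x i) = UP x := by
  rw [TT_off hg]
  funext k
  fin_cases i
  · fin_cases k
    · rfl
    · show UP x 0 * (UP x 1 / UP x 0) = UP x 1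
      exact mul_div_cancel₀ _ hU
  · fin_cases k
    · show UP x 1 * (UP x 0 / UP x 1) = UP x 0
      exact mul_div_cancel₀ _ hU
    · rfl

theorem mi_qu {i : Fin 2} {x : Cv P × Cv P} (hg : x ∉ (cur P).Gam) (hU : UP x i ≠ 0) (μ : ℂ) :
    mi i ((cur P).TT UP i x) μ = KF.qu (μ / UP x i ^ 2) (UP x) := by
  rw [TT_off hg]
  funext k
  fin_cases i
  · have hU0 : UP x 0 ≠ 0 := hU
    fin_cases k
    · show μ = μ / UP x 0 ^ 2 * UP x 0 ^ 2
      field_simp
    · show μ * (UP x 1 / UP x 0) = μ / UP x 0 ^ 2 * (UP x 0 * UP x 1)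
      field_simp
    · show μ * (UP x 1 / UP x 0) ^ 2 = μ / UP x 0 ^ 2 * UP x 1 ^ 2
      field_simp
  · have hU0 : UP x 1 ≠ 0 := hU
    fin_cases k
    · show μ * (UP x 0 / UP x 1) ^ 2 = μ / UP x 1 ^ 2 * UP x 0 ^ 2
      field_simp
    · show μ * (UP x 0 / UP x 1) = μ / UP x 1 ^ 2 * (UP x 0 * UP x 1)
      field_simp
    · show μ = μ / UP x 1 ^ 2 * UP x 1 ^ 2
      field_simp

/-- `X` off `Γ` -/
theorem X_off {i : Fin 2} {x : Cv P × Cv P} (hx : KdP h q x) (hi : x ∈ (k3P h).N i)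
    (hg : x ∉ (cur P).Gam) (hb : UP x ∈ ball (0 : Fin 2 → ℂ) K.ε) (ξ : ℂ) (j : Fin 3) :
    K.X (zi i ((cur P).TT UP i x) (UP x i)) (mi i ((cur P).TT UP i x) (ξ * (k3P h).g i x)) j =
      ξ * ks i i x.1 x.2 j := by
  have hU : UP x i ≠ 0 := ((k3P h).dom i x hi).2.2.resolve_left hg
  rw [zi_U hg hU, mi_qu hg hU, K.X_cone hb, hx.x hi hU]
  rfl

/-- `RR` off `Γ` -/
theorem RR_off {i : Fin 2} {x : Cv P × Cv P} (hx : KdP h q x) (hi : x ∈ (k3P h).N i)
    (hg : x ∉ (cur P).Gam) (hb : UP x ∈ ball (0 : Fin 2 → ℂ) K.ε) (ξ : ℂ) :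
    K.RR (zi i ((cur P).TT UP i x) (UP x i)) (mi i ((cur P).TT UP i x) (ξ * (k3P h).g i x)) =
      ξ ^ 3 * rh i i x.1 x.2 := by
  have hU : UP x i ≠ 0 := ((k3P h).dom i x hi).2.2.resolve_left hg
  rw [zi_U hg hU, mi_qu hg hU, K.RR_cone hb, hx.R hi hU]
  rfl

/-! ### continuity -/

theorem fst_c {C X : Type} [TopologicalSpace C] [TopologicalSpace X] {f : C → X} {x : C × C}
    (h : ContinuousAt f x.1) : ContinuousAt (fun y : C × C => f y.1) x :=
  h.comp (f := Prod.fst) continuousAt_fst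

theorem snd_c {C X : Type} [TopologicalSpace C] [TopologicalSpace X] {f : C → X} {x : C × C}
    (h : ContinuousAt f x.2) : ContinuousAt (fun y : C × C => f y.2) x :=
  h.comp (f := Prod.snd) continuousAt_snd

theorem Tj_cont {i : Fin 2} {x : Cv P × Cv P} (h1 : x.1 ∈ Ci (cur P) i)
    (h2 : x.2 ∈ Ci (cur P) i) (j : Fin 3) : ContinuousAt (Tj (cur P) i j) x := by
  have a1 := fst_c (K3E_227.tv_cont i x.1 h1)
  have a2 := snd_c (K3E_227.tv_cont i x.2 h2)
  fin_cases i <;> fin_cases j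
  · exact continuousAt_const
  · exact a1.add a2
  · exact a1.mul a2
  · exact a1.mul a2
  · exact a1.add a2
  · exact continuousAt_const

theorem ks_cont {i : Fin 2} {x : Cv P × Cv P} (hi : x ∈ (k3P h).N i) (j : Fin 3) :
    ContinuousAt (fun x : Cv P × Cv P => ks i i x.1 x.2 j) x := by
  have hd := (k3P h).dom i x hi
  refine (Tj_cont hd.1 hd.2.1 j).congr ?_
  filter_upwards [((k3P h).open_N i).mem_nhds hi] with y hy
  have hy' := (k3P h).dom i y hy
  exact Tj_ks hy'.1 hy'.2.1 j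

theorem rh_cont {i : Fin 2} {x : Cv P × Cv P} (hi : x ∈ (k3P h).N i) :
    ContinuousAt (fun x : Cv P × Cv P => rh i i x.1 x.2) x := by
  have hd := (k3P h).dom i x hi
  refine (Ph_cont (sextP P) hd.1 hd.2.1).congr ?_
  filter_upwards [((k3P h).open_N i).mem_nhds hi] with y hy
  have hy' := (k3P h).dom i y hy
  exact Ph_rh hy'.1 hy'.2.1

theorem g_cont {i : Fin 2} {x : Cv P × Cv P} (hi : x ∈ (k3P h).N i) :
    ContinuousAt ((k3P h).g i) x := by
  have hx' : x ∈ interior (K3E_227.Tset (sextP P) NP UP i) := hi.1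
  obtain ⟨⟨m1, m2⟩, m3, m4, m5, m6, m7, m8⟩ := interior_subset hx'
  exact m6

theorem zi_cont {Z : Type} [TopologicalSpace Z] {i : Fin 2} {T a : Z → ℂ} {x : Z}
    (hT : ContinuousAt T x) (ha : ContinuousAt a x) :
    ContinuousAt (fun y => zi i (T y) (a y)) x := by
  refine continuousAt_pi.2 fun k => ?_
  fin_cases i <;> fin_cases k
  · exact ha
  · exact ha.mul hT
  · exact ha.mul hT
  · exact ha

theorem mi_cont {Z : Type} [TopologicalSpace Z] {i : Fin 2} {T μ : Z → ℂ} {x : Z}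
    (hT : ContinuousAt T x) (hμ : ContinuousAt μ x) (k : Fin 3) :
    ContinuousAt (fun y => mi i (T y) (μ y) k) x := by
  fin_cases i <;> fin_cases k
  · exact hμ
  · exact hμ.mul hT
  · exact hμ.mul (hT.pow 2)
  · exact hμ.mul (hT.pow 2)
  · exact hμ.mul hT
  · exact hμ

theorem X_cont {Z : Type} [TopologicalSpace Z] {z : Z → Fin 2 → ℂ} {m : Z → Fin 3 → ℂ} {x : Z}
    (hz : ContinuousAt z x) (hm : ∀ k, ContinuousAt (fun y => m y k) x)
    (hb : z x ∈ ball (0 : Fin 2 → ℂ) K.ε) (j : Fin 3) :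
    ContinuousAt (fun y => K.X (z y) (m y) j) x := by
  have hA : ∀ k, ContinuousAt (fun y => K.A j k (z y)) x := fun k =>
    ContinuousAt.comp (g := K.A j k) (f := z) (K.A_an j k _ hb).continuousAt hz
  exact (((hm 0).mul (hA 0)).add ((hm 1).mul (hA 1))).add ((hm 2).mul (hA 2))

theorem RR_cont {Z : Type} [TopologicalSpace Z] {z : Z → Fin 2 → ℂ} {m : Z → Fin 3 → ℂ} {x : Z}
    (hz : ContinuousAt z x) (hm : ∀ k, ContinuousAt (fun y => m y k) x)
    (hb : z x ∈ ball (0 : Fin 2 → ℂ) K.ε) :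
    ContinuousAt (fun y => K.RR (z y) (m y)) x := by
  have hB : ∀ k, ContinuousAt (fun y => K.B k (z y)) x := fun k =>
    ContinuousAt.comp (g := K.B k) (f := z) (K.B_an k _ hb).continuousAt hz
  refine tendsto_finsetSum _ fun k _ => ?_
  refine ContinuousAt.mul ?_ (hB k)
  fin_cases k
  · exact (hm 0).pow 3
  · exact ((hm 0).pow 2).mul (hm 1)
  · exact ((hm 0).pow 2).mul (hm 2)
  · exact ((hm 0).mul (hm 1)).mul (hm 2)
  · exact (hm 0).mul ((hm 2).pow 2)
  · exact (hm 1).mul ((hm 2).pow 2)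
  · exact (hm 2).pow 3

/-! ### everywhere near `Γ` -/

/-- two functions continuous at a point of `Γ` which agree off `Γ` agree -/
theorem eq_gam {c : Cv P} {f g : Cv P × Cv P → ℂ}
    (hf : ContinuousAt f (c, (cur P).iv c)) (hg : ContinuousAt g (c, (cur P).iv c))
    (he : ∀ᶠ x in 𝓝 ((c, (cur P).iv c) : Cv P × Cv P), x ∉ (cur P).Gam → f x = g x) :
    f (c, (cur P).iv c) = g (c, (cur P).iv c) := by
  have hne : NeBot (𝓝[(cur P).Gamᶜ] ((c, (cur P).iv c) : Cv P × Cv P)) := by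
    rw [← mem_closure_iff_nhdsWithin_neBot, mem_closure_iff_frequently]
    exact freq_gam c
  refine tendsto_nhds_unique ((hf.tendsto.mono_left (nhdsWithin_le_nhds (s := (cur P).Gamᶜ))).congr'
    ?_) (hg.tendsto.mono_left (nhdsWithin_le_nhds (s := (cur P).Gamᶜ)))
  filter_upwards [mem_nhdsWithin_of_mem_nhds he, self_mem_nhdsWithin] with x h1 h2
  exact h1 h2


/-- **`X` and `RR` in terms of `(x, ξ)`** -/
theorem XR_col (hq : ∀ᶠ x in 𝓝ˢ (cur P).Gam, KdP h q x) {x : Cv P × Cv P} (hx : KdP h q x)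
    {i : Fin 2} (hi : x ∈ (k3P h).N i) (hb : UP x ∈ ball (0 : Fin 2 → ℂ) K.ε) (ξ : ℂ) :
    (∀ j, K.X (zi i ((cur P).TT UP i x) (UP x i))
      (mi i ((cur P).TT UP i x) (ξ * (k3P h).g i x)) j = ξ * ks i i x.1 x.2 j) ∧
    K.RR (zi i ((cur P).TT UP i x) (UP x i)) (mi i ((cur P).TT UP i x) (ξ * (k3P h).g i x)) =
      ξ ^ 3 * rh i i x.1 x.2 := by
  by_cases hg : x ∈ (cur P).Gam
  · obtain ⟨c, c'⟩ := x
    obtain rfl : c' = (cur P).iv c := hg
    have hg : ((c, (cur P).iv c) : Cv P × Cv P) ∈ (cur P).Gam := rfl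
    have hc : c ∈ Ci (cur P) i := ((k3P h).dom i _ hi).1
    have hU0 : UP (c, (cur P).iv c) = 0 := U_gam h hg
    have hUc : ContinuousAt UP (c, (cur P).iv c) := K3E_227.U_cont h _ (h.sub hg)
    have hUi : ContinuousAt (fun x => UP x i) (c, (cur P).iv c) :=
      ContinuousAt.comp (g := fun z : E2 => z i) (continuous_apply i).continuousAt hUc
    have hT := TT_cont h hc
    have hμ : ContinuousAt (fun x => ξ * (k3P h).g i x) (c, (cur P).iv c) :=
      continuousAt_const.mul (g_cont hi)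
    have hz := zi_cont (i := i) hT hUi
    have hm := fun k => mi_cont (i := i) hT hμ k
    have hz0 : zi i ((cur P).TT UP i (c, (cur P).iv c)) (UP (c, (cur P).iv c) i) ∈
        ball (0 : Fin 2 → ℂ) K.ε := by
      have : zi i ((cur P).TT UP i (c, (cur P).iv c)) (UP (c, (cur P).iv c) i) = 0 := by
        rw [hU0]
        funext k
        fin_cases i <;> fin_cases k <;> simp [zi]
      rw [this]
      exact mem_ball_self K.ε_pos
    have hev : ∀ᶠ y in 𝓝 ((c, (cur P).iv c) : Cv P × Cv P), KdP h q y ∧ y ∈ (k3P h).N i ∧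
        UP y ∈ ball (0 : Fin 2 → ℂ) K.ε :=
      (eventually_nhdsSet_iff_forall.1 hq _ hg).and (Eventually.and
        (((k3P h).open_N i).mem_nhds hi) (hUc.eventually (isOpen_ball.mem_nhds hb)))
    constructor
    · intro j
      refine eq_gam (P := P) (X_cont K hz hm hz0 j) (continuousAt_const.mul (ks_cont hi j)) ?_
      filter_upwards [hev] with y hy hyg
      exact X_off K hy.1 hy.2.1 hyg hy.2.2 ξ j
    · refine eq_gam (P := P) (RR_cont K hz hm hz0) (continuousAt_const.mul (rh_cont hi)) ?_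
      filter_upwards [hev] with y hy hyg
      exact RR_off K hy.1 hy.2.1 hyg hy.2.2 ξ
  · exact ⟨fun j => X_off K hx hi hg hb ξ j, RR_off K hx hi hg hb ξ⟩

end core

/-! ### small points -/

section small

open Crest.Agent.R272 Crest.Agent.R272.MQ_783 Crest.Agent.R272.Refl_246
open Crest.Agent.R272.M15_939 Crest.Agent.R272.Md_834
open Crest.Agent.R272.PosP7_848 Crest.Agent.R272.PosP5_848
open Crest.Agent.R272.Tp10_60 (GermE)
open Crest.Agent.R272.Tp4_60 (FE)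
open Crest.Agent.R272.Tq1_916 (fij)
open Crest.Agent.R272.Tq12_916 Crest.Agent.R272.Tq11_916
open Crest.Agent.R272.Fin_338 (YB COL Pens)

theorem FE_fij {P : Par} (i : Fin 2) (p : (Cv P × Cv P) × ℂ) :
    FE P i p = fij tt i i (p.1.1, p.1.2, p.2) := by
  fin_cases i
  · show Tp2_60.f0 tt (p.1.1, p.1.2, p.2) = _
    simp only [Tp2_60.f0, fij, Fin.zero_eta, Tq1_916.dl_zero, Tq1_916.nu_zero, mul_one]
    refine Prod.ext rfl (Prod.ext rfl (Prod.ext rfl ?_))
    simp only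
    congr 1
    ring
  · show Tp2_60.fi tt (p.1.1, p.1.2, p.2) = _
    simp only [Tp2_60.fi, fij, Fin.mk_one, Tq1_916.dl_one, Tq1_916.nu_one, mul_one]

variable {M : Ar} (W : Md M)

/-- **small points of `Um`** come from small points of the cover -/
theorem small_form {O : Set M.X} (hO : IsOpen O) (hO' : ∀ y, M.A.pz y = M.p0 → y ∈ O)
    {Q : Cz × Cz → Prop} (hQ : ∀ᶠ x in 𝓝ˢ (cur Pz).Gam, Q x) :
    ∃ δ > 0, ∀ a : Um, a.N < δ → ∃ (i : Fin 2) (p : (Cz × Cz) × ℂ), p ∈ W.I.Dm i ∧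
      W.Ge.E i p ∈ W.I.OO ∧ W.Ge.E i p ∈ O ∧ Q p.1 ∧ pr M.G (W.Ge.E i p) = W.e.symm a ∧
      a = (Um.fam.e (Um.dix i)).symm (h3 (W.I.co W.I i p)) := by
  obtain ⟨D, hD, hGD, hDQ⟩ := eventually_nhdsSet_iff_exists.1 hQ
  let S : Fin 2 → Set ((Cz × Cz) × ℂ) := fun i =>
    (W.Ge.E i).source ∩ {p | p.1 ∈ W.NN ∧ p.1 ∈ W.I.K.N i ∧ p.1 ∈ D}
  have hS : ∀ i, IsOpen (S i) := fun i =>
    (W.Ge.E i).open_source.inter ((W.hN.open_N.inter ((W.I.K.open_N i).inter hD)).preimage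
      continuous_fst)
  let A : Set M.X := (⋃ i, (W.Ge.E i) '' S i) ∩ (W.I.OO ∩ O)
  have hA : IsOpen A := (isOpen_iUnion fun i =>
    (W.Ge.E i).isOpen_image_of_subset_source (hS i) inter_subset_left).inter
      (W.I.isOpen_OO.inter hO)
  let B : Set Um := W.e.target ∩ W.e.symm ⁻¹' (pr M.G '' A)
  have hB : IsOpen B := W.e.isOpen_inter_preimage_symm (isOpenQuotientMap_pr.isOpenMap _ hA)
  have h0 : ∀ a : Um, a.N = 0 → a ∈ B := by
    intro a ha
    have h1 : a ∈ W.e.target := W.isId.sub_target (fun _ => rfl) a ha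
    refine ⟨h1, ?_⟩
    have h2 : W.e.symm a ∈ W.e.source := W.e.map_target h1
    obtain ⟨i, c, hc, h3⟩ := W.isId.exists_c (fun _ => rfl) h2 (by rw [W.e.right_inv h1]; exact ha)
    refine ⟨W.Ge.E i ((c, (cur Pz).iv c), 0), ⟨?_, W.I.y0_OO hc, ?_⟩, h3.symm⟩
    · exact mem_iUnion.2 ⟨i, mem_image_of_mem _ ⟨W.Ge.mem i c hc, W.hN.sub rfl,
        W.I.K.sub i c hc, hGD rfl⟩⟩
    · refine hO' _ ?_
      rw [W.Z.germ i _ (W.Ge.mem i c hc)]
      exact W.pz _
  obtain ⟨δ, δ0, hδ⟩ := Um.exists_eps hB h0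
  refine ⟨δ, δ0, fun a ha => ?_⟩
  obtain ⟨h1, y, ⟨hy1, hy2, hy3⟩, hy4⟩ := hδ a ha.le
  obtain ⟨i, p, hp, rfl⟩ := mem_iUnion.1 hy1 |>.imp fun i h => h
  have hD' : p ∈ W.I.Dm i := ⟨hp.1, hp.2.1, hp.2.2.1⟩
  refine ⟨i, p, hD', hy2, hy3, hDQ _ hp.2.2.2, hy4, ?_⟩
  have h2 := W.isId.form i p hD' hy2
  rw [hy4, W.e.right_inv h1] at h2
  exact h2

/-- **the collar** -/
theorem collar {O : Set M.X} (Γ : GermE (Gr_559.isSl_X1 M.DX) M.A Pz M.s M.p0)
    (hG : W.Ge = Γ.g) (T : YC Pz M.CX M.A.pz M.p0 O) (hT : T.st = PEnd8_732.st M.A Γ.L Γ.hX)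
    {κ : ℂ} {q : Fin 3 → E2 → ℂ} (K : KF κ q)
    (hq : ∀ᶠ x in 𝓝ˢ (cur Pz).Gam, KdP W.hN q x) :
    ∃ δ > 0, ∀ u : Up, u.N ≠ 0 → u.N < δ → u.N < W.ε → ∃ y ∈ O, pr M.G y = W.S.bx u ∧
      ∀ b, 15 ≤ b → ∀ j, K.PhiU b j u = T.ff b j y := by
  have hball : ∀ᶠ x in 𝓝ˢ (cur Pz).Gam, W.U x ∈ ball (0 : Fin 2 → ℂ) K.ε := by
    rw [eventually_nhdsSet_iff_forall]
    intro x hx
    have h1 : ContinuousAt W.U x := K3E_227.U_cont W.hN x (W.hN.sub hx)
    refine h1.eventually (isOpen_ball.mem_nhds ?_)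
    rw [U_gam W.hN hx]
    exact mem_ball_self K.ε_pos
  obtain ⟨δ, δ0, hδ⟩ := small_form W T.hO (fun y hy => (T.fib y hy).1) (hq.and hball)
  refine ⟨δ, δ0, fun u h0 h1 h2 => ?_⟩
  have hNs : (phi.symm u).N = u.N := W.S.NA_symm (b := u) h0
  obtain ⟨i, p, hp, hOO, hpO, ⟨hk, hb⟩, h3, h4⟩ := hδ (phi.symm u) (by rw [hNs]; exact h1)
  refine ⟨W.Ge.E i p, hpO, h3, fun b hb15 j => ?_⟩
  have hz : u.z = zi i ((cur Pz).TT W.U i p.1) (W.U p.1 i) := by
    rw [← (pd_spec h0).1, ← phi_symm_apply, h4, um_z]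
    rfl
  have hm : u.m = mi i ((cur Pz).TT W.U i p.1) (p.2 * (k3P W.hN).g i p.1) := by
    rw [← (pd_spec h0).2, ← phi_symm_apply, h4, um_m]
    rfl
  have hXR := XR_col K hq hk hp.2.2 hb p.2
  have hX : K.X u.z u.m = fun k => p.2 * ks i i p.1.1 p.1.2 k := by
    funext k
    rw [hz, hm]
    exact hXR.1 k
  have hR : K.RR u.z u.m = p.2 ^ 3 * rh i i p.1.1 p.1.2 := by
    rw [hz, hm]
    exact hXR.2
  have hst : T.st (W.Ge.E i p) = fij tt i i (p.1.1, p.1.2, p.2) := by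
    rw [hT, hG, (PEnd8_732.st_gE Γ i (by rw [← hG]; exact hp.1)).2, FE_fij]
  show K.PhiU b j u = FF b (T.st (W.Ge.E i p)) j
  rw [hst, FF_fij hb15, KF.PhiU, phi_eq hb15 (x := K.X u.z u.m) (R := K.RR u.z u.m) rfl rfl rfl rfl,
    hX, hR]

/-- **`COL`** -/
theorem col (Γ : GE M) (Y : YB M Γ) (hG : W.Ge = Γ.g) : COL Y W := by
  obtain ⟨q, hKD, -, hq⟩ := exists_kd W.hN
  obtain ⟨K⟩ := hKD.exists_kf
  obtain ⟨δ, δ0, hδ⟩ := collar W Γ hG Y.T Y.st_eq K hq
  refine ⟨fun b hb => upDat K hb, fun b hb => ⟨δ, δ0, fun u h0 h1 h2 => ?_⟩⟩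
  obtain ⟨y, hy, h3, h4⟩ := hδ u h0 h1 h2
  exact ⟨y, hy, h3, h4 b hb⟩

end small

end

end Crest.Agent.R272.PW_92
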