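import Crest.Prelude.Def_RatCurveLoops
import Crest.Agent.R266.Osgood
import Crest.Agent.R272.CpTop_338
import Crest.Agent.R273.ChowM_313

-- ▼ part R272/CpSub_338
section

/-!
# R272 (S0414, S0415), leaf CP-CHOW, part 2 (helper338): images of immersions are submanifolds

`subm_of_imm` : `G` holomorphic near `w0` with injective derivative at `w0`, `S` contains the image
of `G` near `w0` and near `G w0` nothing else ⟹ `IsCplxSubmfldAt c S (G w0)`, `c + dim = N`.
-/

set_option autoImplicit false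
set_option linter.unusedSectionVars false

open Set Filter Topology
open scoped ContDiff
open Crest.AlgGeometry

namespace Crest.Agent.R272.CpSub_338

noncomputable section

variable {E : Type*} [NormedAddCommGroup E] [NormedSpace ℂ E] [FiniteDimensional ℂ E]
variable {T : Type*} [NormedAddCommGroup T] [NormedSpace ℂ T] [FiniteDimensional ℂ T]

/-- a complement of the image of an injective linear map -/
theorem exists_compl (L : E →ₗ[ℂ] T) (hL : Function.Injective L) (c : ℕ)
    (hc : c + Module.finrank ℂ E = Module.finrank ℂ T) :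
    ∃ (L2 : (Fin c → ℂ) →ₗ[ℂ] T) (e : (E × (Fin c → ℂ)) ≃ₗ[ℂ] T),
      ∀ w t, e (w, t) = L w + L2 t := by
  obtain ⟨Q, hQ⟩ := Submodule.exists_isCompl (LinearMap.range L)
  have h1 : Module.finrank ℂ (LinearMap.range L) = Module.finrank ℂ E :=
    LinearMap.finrank_range_of_inj hL
  have h2 := Submodule.finrank_add_eq_of_isCompl hQ
  have h3 : Module.finrank ℂ (Fin c → ℂ) = Module.finrank ℂ Q := by
    rw [Module.finrank_fin_fun]
    omega
  let e1 : (Fin c → ℂ) ≃ₗ[ℂ] Q := LinearEquiv.ofFinrankEq _ _ h3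
  let e2 : E ≃ₗ[ℂ] LinearMap.range L := LinearEquiv.ofInjective L hL
  let e : (E × (Fin c → ℂ)) ≃ₗ[ℂ] T := (e2.prodCongr e1).trans (Submodule.prodEquivOfIsCompl _ _ hQ)
  refine ⟨Q.subtype ∘ₗ e1.toLinearMap, e, fun w t => ?_⟩
  show (Submodule.prodEquivOfIsCompl _ _ hQ) (e2 w, e1 t) = _
  rw [Submodule.coe_prodEquivOfIsCompl']
  rfl

theorem subm_of_imm {N : ℕ} {G : E → (Fin N → ℂ)} {V : Set E} {w0 : E} (hV : IsOpen V)
    (hw0 : w0 ∈ V) (hG : DifferentiableOn ℂ G V)
    (himm : ∀ v, fderiv ℂ G w0 v = 0 → v = 0) {c : ℕ} (hc : c + Module.finrank ℂ E = N)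
    {S : Set (Fin N → ℂ)} (h1 : ∀ w ∈ V, G w ∈ S)
    (h2 : ∀ V' ∈ 𝓝 w0, ∀ᶠ u in 𝓝 (G w0), u ∈ S → u ∈ G '' V') :
    IsCplxSubmfldAt c S (G w0) := by
  have hinj : Function.Injective (fderiv ℂ G w0 : E →ₗ[ℂ] (Fin N → ℂ)) := by
    rw [injective_iff_map_eq_zero]
    intro v hv
    exact himm v hv
  obtain ⟨L2, e, he⟩ := exists_compl (fderiv ℂ G w0 : E →ₗ[ℂ] (Fin N → ℂ)) hinj c
    (by rw [hc, Module.finrank_fin_fun])
  let L2' : (Fin c → ℂ) →L[ℂ] (Fin N → ℂ) := LinearMap.toContinuousLinearMap L2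
  let e' : (E × (Fin c → ℂ)) ≃L[ℂ] (Fin N → ℂ) := e.toContinuousLinearEquiv
  have he' : ∀ w t, e' (w, t) = fderiv ℂ G w0 w + L2' t := he
  let Φ : E × (Fin c → ℂ) → (Fin N → ℂ) := fun p => G p.1 + L2' p.2
  have hGc : ContDiffAt ℂ 1 G w0 :=
    ((Crest.Agent.R266.SCV.contDiffOn_omega_of_differentiableOn hV hG).contDiffAt
      (hV.mem_nhds hw0)).of_le le_top
  have hΦc : ContDiffAt ℂ 1 Φ (w0, 0) := by
    refine ContDiffAt.add ?_ ?_
    · exact ContDiffAt.comp (w0, (0 : Fin c → ℂ)) hGc contDiffAt_fst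
    · exact L2'.contDiff.contDiffAt.comp (w0, (0 : Fin c → ℂ)) contDiffAt_snd
  have hΦd : HasFDerivAt Φ (e' : E × (Fin c → ℂ) →L[ℂ] (Fin N → ℂ)) (w0, 0) := by
    have h3 : HasFDerivAt Φ ((fderiv ℂ G w0).comp (ContinuousLinearMap.fst ℂ E (Fin c → ℂ)) +
        L2'.comp (ContinuousLinearMap.snd ℂ E (Fin c → ℂ))) (w0, 0) := by
      refine HasFDerivAt.add ?_ ?_
      · exact HasFDerivAt.comp (w0, (0 : Fin c → ℂ))
          (hGc.differentiableAt (by norm_num)).hasFDerivAt hasFDerivAt_fst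
      · exact HasFDerivAt.comp (w0, (0 : Fin c → ℂ)) L2'.hasFDerivAt hasFDerivAt_snd
    have h4 : ((e' : E × (Fin c → ℂ) →L[ℂ] (Fin N → ℂ))) =
        (fderiv ℂ G w0).comp (ContinuousLinearMap.fst ℂ E (Fin c → ℂ)) +
        L2'.comp (ContinuousLinearMap.snd ℂ E (Fin c → ℂ)) := by
      refine ContinuousLinearMap.ext fun p => ?_
      exact he' p.1 p.2
    rw [h4]
    exact h3
  let R := hΦc.toOpenPartialHomeomorph Φ hΦd one_ne_zero
  have hR : ∀ p, R p = Φ p := fun p => rfl
  have hmem : (w0, (0 : Fin c → ℂ)) ∈ R.source :=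
    hΦc.mem_toOpenPartialHomeomorph_source hΦd one_ne_zero
  have hΦ0 : Φ (w0, 0) = G w0 := by
    show G w0 + L2' 0 = G w0
    rw [map_zero, add_zero]
  have hz : G w0 ∈ R.target := by
    have := R.map_source hmem
    rwa [hR, hΦ0] at this
  have hΨ0 : R.symm (G w0) = (w0, 0) := by
    rw [← hΦ0, ← hR, R.left_inv hmem]
  have hΨc : ContDiffAt ℂ 1 R.symm (G w0) := by
    have h3 := hΦc.to_localInverse hΦd one_ne_zero
    rw [hΦ0] at h3
    exact h3
  have hΨd : HasFDerivAt R.symm (e'.symm : (Fin N → ℂ) →L[ℂ] E × (Fin c → ℂ)) (G w0) := by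
    refine R.hasFDerivAt_symm hz ?_
    rw [hΨ0]
    exact hΦd
  -- the neighbourhood
  have e1 : ∀ᶠ u in 𝓝 (G w0), u ∈ R.target := R.open_target.mem_nhds hz
  have e2 : ∀ᶠ u in 𝓝 (G w0), ContDiffAt ℂ 1 R.symm u := hΨc.eventually (by norm_num)
  have hcts : ContinuousAt R.symm (G w0) := hΨc.continuousAt
  have e3 : ∀ᶠ u in 𝓝 (G w0), (R.symm u).1 ∈ V := by
    have h3 : ContinuousAt (fun u => (R.symm u).1) (G w0) := continuousAt_fst.comp hcts
    refine h3.eventually ?_
    show ∀ᶠ y in 𝓝 (R.symm (G w0)).1, y ∈ V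
    rw [hΨ0]
    exact hV.mem_nhds hw0
  have hV' : {w | (w, (0 : Fin c → ℂ)) ∈ R.source} ∈ 𝓝 w0 := by
    have h3 : ContinuousAt (fun w : E => (w, (0 : Fin c → ℂ))) w0 := by fun_prop
    exact h3 (R.open_source.mem_nhds hmem)
  have e4 := h2 _ hV'
  obtain ⟨U, hU1, hU2, hU3⟩ := mem_nhds_iff.1 (e1.and (e2.and (e3.and e4)))
  refine ⟨U, fun u => (R.symm u).2, hU2, hU3, ?_, ?_, ?_⟩
  · intro u hu
    exact (((hU1 hu).2.1.differentiableAt (by norm_num)).snd).differentiableWithinAt
  · have h3 : HasFDerivAt (fun u => (R.symm u).2)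
        ((ContinuousLinearMap.snd ℂ E (Fin c → ℂ)).comp
          (e'.symm : (Fin N → ℂ) →L[ℂ] E × (Fin c → ℂ))) (G w0) := hΨd.snd
    rw [h3.fderiv]
    intro t
    refine ⟨e' (0, t), ?_⟩
    show (e'.symm (e' (0, t))).2 = t
    rw [e'.symm_apply_apply]
  · ext u
    constructor
    · rintro ⟨hu1, hu2⟩
      refine ⟨hu2, ?_⟩
      obtain ⟨w, hw, rfl⟩ := (hU1 hu2).2.2.2 hu1
      have h3 : Φ (w, 0) = G w := by
        show G w + L2' 0 = G w
        rw [map_zero, add_zero]
      have h4 : R.symm (G w) = (w, 0) := by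
        rw [← h3, ← hR, R.left_inv hw]
      show (R.symm (G w)).2 = 0
      rw [h4]
    · rintro ⟨hu2, hu0⟩
      refine ⟨?_, hu2⟩
      have h3 := hU1 hu2
      have h4 : R (R.symm u) = u := R.right_inv h3.1
      rw [hR] at h4
      change G (R.symm u).1 + L2' (R.symm u).2 = u at h4
      have hu0' : (R.symm u).2 = 0 := hu0
      rw [hu0', map_zero, add_zero] at h4
      rw [← h4]
      exact h1 _ h3.2.2.1

end

end Crest.Agent.R272.CpSub_338
end

-- ▼ part R272/CpChow_338

/-!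
# R272 (S0414, S0415), leaf CP-CHOW, part 3 (helper338): Chow's theorem in the frozen language

`M` compact connected Hausdorff, `A : Atl n M` finite, `PA : Part A`, `hD : D2 A`, `P : ProjD A`:
* `toCP P : M → CPn P.N`, `toCP_eq`, `toCP_injective`, `continuous_toCP`,
  `isClosedEmbedding_toCP`;
* `toCP_alg`  : the image is the zero set of finitely many homogeneous polynomials;
* `toCP_subm` : the image is a submanifold of codimension `c`, `c + n = P.N`, in the charts;
* `toCP_smooth` : `∃ c, c + n = P.N ∧ IsSmoothProjVariety c (range (toCP P))`.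
-/

set_option autoImplicit false
set_option linter.unusedSectionVars false

open Set Filter Topology Complex
open scoped ContDiff Matrix ComplexConjugate
open Crest.AlgGeometry

namespace Crest.Agent.R272.CpChow_338

open Crest.Agent.R275 Crest.Agent.R275.Geo Crest.Agent.R275.Core144 Crest.Agent.R275.Dg199
open Crest.Agent.R273.LamN127 Crest.Agent.R273.SerA_945
open Crest.Agent.R273.SerB_945 Crest.Agent.R273.SerC_945 Crest.Agent.R273.SerE_945
open Crest.Agent.R273.Defs_333 Crest.Agent.R273.FS_333 Crest.Agent.R273.SteinC_794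
open Crest.Agent.R273.Chow_313 Crest.Agent.R273.TD3_733
open CpTop_338 CpSub_338

noncomputable section

variable {n : ℕ} {M : Type} [TopologicalSpace M] {A : Atl n M}

/-- a chart at `x` -/
def ci (A : Atl n M) (x : M) : A.ι := (A.cover x).choose

theorem ci_mem (A : Atl n M) (x : M) : x ∈ (A.e (ci A x)).source := (A.cover x).choose_spec

/-- the map to projective space -/
def toCP (P : ProjD A) (x : M) : CPn P.N := CPn.mk (P.F (ci A x) x) (P.ne _ x (ci_mem A x))

theorem toCP_eq (P : ProjD A) {i : A.ι} {x : M} (hx : x ∈ (A.e i).source) :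
    toCP P x = CPn.mk (P.F i x) (P.ne i x hx) :=
  (mk_eq_iff _ _).2 (P.tr _ _ x ⟨ci_mem A x, hx⟩)

theorem toCP_injective (P : ProjD A) : Function.Injective (toCP P) := by
  intro x y h
  exact P.inj _ _ x (ci_mem A x) y (ci_mem A y) ((mk_eq_iff _ _).1 h)

theorem continuousAt_F (P : ProjD A) {i : A.ι} {x : M} (hx : x ∈ (A.e i).source) :
    ContinuousAt (P.F i) x := by
  rw [continuousAt_pi]
  exact fun k => continuousAt_of_holAt isOpen_univ (P.hol i k) hx (mem_univ x)

theorem continuous_toCP (P : ProjD A) : Continuous (toCP P) := by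
  refine continuous_iff_local fun x => ⟨P.F (ci A x), continuousAt_F P (ci_mem A x), ?_⟩
  filter_upwards [(A.e (ci A x)).open_source.mem_nhds (ci_mem A x)] with y hy
  exact ⟨P.ne _ y hy, toCP_eq P hy⟩

theorem isClosedEmbedding_toCP [CompactSpace M] (P : ProjD A) : IsClosedEmbedding (toCP P) :=
  (continuous_toCP P).isClosedEmbedding (toCP_injective P)

/-! ### the image is algebraic -/

section Alg

/-- the homogeneous polynomials which vanish on the image -/
def VanS (P : ProjD A) : Set (MvPolynomial (Fin (P.N + 1)) ℂ) :=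
  {p | (∃ d, p.IsHomogeneous d) ∧ ∀ i, ∀ x ∈ (A.e i).source, MvPolynomial.eval (P.F i x) p = 0}

variable [T2Space M] [ConnectedSpace M] [CompactSpace M] [Finite A.ι]

theorem mem_range_iff (PA : Part A) (hD : D2 A) (P : ProjD A) (v : Fin (P.N + 1) → ℂ)
    (hv : v ≠ 0) : CPn.mk v hv ∈ range (toCP P) ↔ ∀ p ∈ VanS P, MvPolynomial.eval v p = 0 := by
  constructor
  · rintro ⟨x, hx⟩ p ⟨⟨d, hd⟩, hp⟩
    obtain ⟨c, -, hc⟩ := (mk_eq_iff' hv (P.ne _ x (ci_mem A x))).1 hx.symm
    rw [hc, eval_smul hd, hp _ x (ci_mem A x), mul_zero]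
  · intro h
    obtain ⟨m0, hV⟩ := solv_large PA hD (fs_pos P) (1 : LB A)
    have hV' : ∀ m, m0 ≤ m → ∀ q, 1 ≤ q → Solv (lb P ^ m) q := fun m hm q hq => by
      have := hV m hm q hq
      rwa [one_mul] at this
    obtain ⟨i, x, hx, c, hc, hvc⟩ := chow_vec (F := fun k => sec P k) (isHS_sec P)
      (exists_sec_ne' P) (fun k => fd_HS PA _) hV' v hv fun d p hp h1 => by
        refine h p ⟨⟨d, hp⟩, fun i x hx => ?_⟩
        have h2 := h1 i x hx
        have h3 : (fun k => sec P k i x) = P.F i x := funext fun k => sec_eq P hx k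
        rwa [h3] at h2
    refine ⟨x, ?_⟩
    rw [toCP_eq P hx]
    refine ((mk_eq_iff' hv (P.ne i x hx)).2 ⟨c, hc, ?_⟩).symm
    rw [hvc]
    congr 1
    exact funext fun k => sec_eq P hx k

theorem toCP_alg (PA : Part A) (hD : D2 A) (P : ProjD A) :
    ∃ s : Finset (MvPolynomial (Fin (P.N + 1)) ℂ), (∀ p ∈ s, ∃ d : ℕ, p.IsHomogeneous d) ∧
      ∀ (v : Fin (P.N + 1) → ℂ) (hv : v ≠ 0),
        CPn.mk v hv ∈ range (toCP P) ↔ ∀ p ∈ s, MvPolynomial.eval v p = 0 := by
  have hfg : (Ideal.span (VanS P)).FG := (isNoetherianRing_iff_ideal_fg _).1 inferInstance _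
  obtain ⟨s, hs1, hs2⟩ := (Submodule.fg_span_iff_fg_span_finset_subset (VanS P)).1 hfg
  refine ⟨s, fun p hp => (hs1 hp).1, fun v hv => ?_⟩
  rw [mem_range_iff PA hD P v hv]
  constructor
  · exact fun h p hp => h p (hs1 hp)
  · intro h p hp
    have h1 : Ideal.span (s : Set (MvPolynomial (Fin (P.N + 1)) ℂ)) ≤
        RingHom.ker (MvPolynomial.eval v) := by
      rw [Ideal.span_le]
      exact fun p hp => h p hp
    have h2 : p ∈ Ideal.span (VanS P) := Ideal.subset_span hp
    have h3 : Ideal.span (VanS P) = Ideal.span (s : Set (MvPolynomial (Fin (P.N + 1)) ℂ)) := hs2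
    rw [h3] at h2
    exact h1 h2

end Alg

/-! ### the image is a submanifold -/

section Subm

variable (P : ProjD A)

/-- the affine coordinates of the embedding, read in the chart `i` -/
def aff (i : A.ι) (j : Fin (P.N + 1)) (w : Cn n) : Fin P.N → ℂ := fun k =>
  P.F i ((A.e i).symm w) (j.succAbove k) / P.F i ((A.e i).symm w) j

/-- the domain -/
def affD (i : A.ι) (j : Fin (P.N + 1)) : Set (Cn n) :=
  {w | w ∈ (A.e i).target ∧ P.F i ((A.e i).symm w) j ≠ 0}

theorem Fdiff (i : A.ι) {w : Cn n} (hw : w ∈ (A.e i).target) (k : Fin (P.N + 1)) :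
    DifferentiableAt ℂ (fun w => P.F i ((A.e i).symm w) k) w := by
  have h1 := (P.hol i k).diffAt isOpen_univ ((A.e i).map_target hw) (mem_univ _)
  rwa [(A.e i).right_inv hw] at h1

theorem isOpen_affD (i : A.ι) (j : Fin (P.N + 1)) : IsOpen (affD P i j) := by
  rw [isOpen_iff_mem_nhds]
  rintro w ⟨hw, h0⟩
  filter_upwards [(A.e i).open_target.mem_nhds hw,
    (Fdiff P i hw j).continuousAt.eventually_ne h0] with u hu hu0
  exact ⟨hu, hu0⟩

theorem toCP_aff {i : A.ι} {j : Fin (P.N + 1)} {w : Cn n} (hw : w ∈ affD P i j) :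
    toCP P ((A.e i).symm w) = CPn.affineChart j (aff P i j w) := by
  rw [toCP_eq P ((A.e i).map_target hw.1), mk_eq_affineChart]
  exact ⟨hw.2, fun k => rfl⟩

theorem aff_diff (i : A.ι) (j : Fin (P.N + 1)) :
    DifferentiableOn ℂ (aff P i j) (affD P i j) := by
  intro w hw
  refine DifferentiableAt.differentiableWithinAt ?_
  rw [differentiableAt_pi]
  intro k
  have h1 : DifferentiableAt ℂ (fun w => P.F i ((A.e i).symm w) (j.succAbove k) *
      (P.F i ((A.e i).symm w) j)⁻¹) w :=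
    (Fdiff P i hw.1 (j.succAbove k)).mul ((Fdiff P i hw.1 j).inv hw.2)
  exact h1

theorem aff_imm {i : A.ι} {j : Fin (P.N + 1)} {w : Cn n} (hw : w ∈ affD P i j) (v : Cn n)
    (hv : fderiv ℂ (aff P i j) w v = 0) : v = 0 := by
  have hd := (aff_diff P i j).differentiableAt ((isOpen_affD P i j).mem_nhds hw)
  have hFd := Fdiff P i hw.1
  have hk : ∀ k : Fin P.N, fderiv ℂ (fun w => aff P i j w k) w v = 0 := by
    intro k
    have h3 := fderiv_pi (h := fun k => (differentiableAt_pi.1 hd) k)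
    have h4 : (fun w => fun k => aff P i j w k) = aff P i j := rfl
    rw [h4] at h3
    rw [h3] at hv
    exact congrFun hv k
  have h5 : ∀ k, fderiv ℂ (fun w => P.F i ((A.e i).symm w)) w v k =
      fderiv ℂ (fun w => P.F i ((A.e i).symm w) k) w v := by
    intro k
    have h3 := fderiv_pi (h := fun k => hFd k)
    rw [show (fun w => fun k => P.F i ((A.e i).symm w) k) =
      fun w => P.F i ((A.e i).symm w) from rfl] at h3
    rw [h3]
    rfl
  refine P.imm i w hw.1 v ⟨fderiv ℂ (fun w => P.F i ((A.e i).symm w) j) w v /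
    P.F i ((A.e i).symm w) j, funext fun l => ?_⟩
  rw [h5 l, Pi.smul_apply, smul_eq_mul]
  refine Fin.succAboveCases j ?_ (fun k => ?_) l
  · rw [div_mul_cancel₀ _ hw.2]
  · have h6 : (fun w => P.F i ((A.e i).symm w) (j.succAbove k)) =ᶠ[𝓝 w]
        fun w => aff P i j w k * P.F i ((A.e i).symm w) j := by
      filter_upwards [(isOpen_affD P i j).mem_nhds hw] with u hu
      exact (div_mul_cancel₀ _ hu.2).symm
    rw [h6.fderiv_eq, fderiv_fun_mul ((differentiableAt_pi.1 hd) k) (hFd j)]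
    simp only [_root_.add_apply, _root_.smul_apply, smul_eq_mul]
    rw [hk k, mul_zero, add_zero]
    show P.F i ((A.e i).symm w) (j.succAbove k) / P.F i ((A.e i).symm w) j * _ = _
    ring

theorem le_N [Nonempty M] : n ≤ P.N := by
  obtain ⟨x⟩ := (inferInstance : Nonempty M)
  have hx := ci_mem A x
  obtain ⟨j, hj⟩ := Function.ne_iff.1 (P.ne _ x hx)
  have hw : A.e (ci A x) x ∈ affD P (ci A x) j := by
    refine ⟨(A.e _).map_source hx, ?_⟩
    rw [(A.e _).left_inv hx]
    exact hj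
  have hinj : Function.Injective (fderiv ℂ (aff P (ci A x) j) (A.e (ci A x) x) :
      Cn n →ₗ[ℂ] (Fin P.N → ℂ)) := by
    rw [injective_iff_map_eq_zero]
    exact fun v hv => aff_imm P hw v hv
  have h := LinearMap.finrank_le_finrank_of_injective hinj
  rwa [finrank_euclideanSpace_fin, Module.finrank_fin_fun] at h

variable [CompactSpace M]

theorem toCP_subm {c : ℕ} (hc : c + n = P.N) (j : Fin (P.N + 1)) (z : Fin P.N → ℂ)
    (hz : CPn.affineChart j z ∈ range (toCP P)) :
    IsCplxSubmfldAt c (CPn.affineChart j ⁻¹' range (toCP P)) z := by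
  obtain ⟨x, hx⟩ := hz
  have hxi := ci_mem A x
  set i := ci A x with hi
  have hx' := hx
  rw [toCP_eq P hxi, mk_eq_affineChart] at hx'
  obtain ⟨hj, hzk⟩ := hx'
  have hw : A.e i x ∈ affD P i j := by
    refine ⟨(A.e _).map_source hxi, ?_⟩
    rw [(A.e _).left_inv hxi]
    exact hj
  have hzw : aff P i j (A.e i x) = z := by
    funext k
    rw [hzk k, aff, (A.e i).left_inv hxi]
  rw [← hzw]
  refine subm_of_imm (isOpen_affD P i j) hw (aff_diff P i j) (fun v hv => aff_imm P hw v hv)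
    (by rw [finrank_euclideanSpace_fin]; exact hc) (fun w hw => ?_) fun V' hV' => ?_
  · exact ⟨_, toCP_aff P hw⟩
  · rw [hzw]
    have h1 : {y | y ∈ (A.e i).source ∧ A.e i y ∈ V' ∩ affD P i j} ∈ 𝓝 x := by
      refine inter_mem ((A.e i).open_source.mem_nhds hxi) ?_
      exact (A.e i).continuousAt hxi (inter_mem hV' ((isOpen_affD P i j).mem_nhds hw))
    rw [(isClosedEmbedding_toCP P).isInducing.nhds_eq_comap, mem_comap] at h1
    obtain ⟨O, hO, hOs⟩ := h1
    rw [hx] at hO
    have h2 := (continuous_affineChart j).continuousAt (x := z) hO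
    filter_upwards [h2] with u hu
    rintro ⟨y, hy⟩
    have hyO : toCP P y ∈ O := by
      rw [hy]
      exact hu
    obtain ⟨hy1, hy2, hy3⟩ := hOs hyO
    refine ⟨A.e i y, hy2, affineChart_injective j ?_⟩
    rw [← toCP_aff P hy3, (A.e i).left_inv hy1, hy]

end Subm

/-- **Chow's theorem in the frozen language** -/
theorem toCP_smooth [T2Space M] [ConnectedSpace M] [CompactSpace M] [Finite A.ι] (PA : Part A)
    (hD : D2 A) (P : ProjD A) {c : ℕ} (hc : c + n = P.N) :
    IsSmoothProjVariety c (range (toCP P)) :=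
  ⟨toCP_alg PA hD P, fun j z hz => toCP_subm P hc j z hz⟩

theorem toCP_smooth' [T2Space M] [ConnectedSpace M] [CompactSpace M] [Finite A.ι] (PA : Part A)
    (hD : D2 A) (P : ProjD A) : ∃ c, c + n = P.N ∧ IsSmoothProjVariety c (range (toCP P)) :=
  ⟨P.N - n, Nat.sub_add_cancel (le_N P), toCP_smooth PA hD P (Nat.sub_add_cancel (le_N P))⟩

theorem isConnected_toCP [ConnectedSpace M] (P : ProjD A) : IsConnected (range (toCP P)) :=
  isConnected_range (continuous_toCP P)

end

end Crest.Agent.R272.CpChow_338
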