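import Crest.Agent.R272.Root5_83
import Crest.Agent.R272.Blup4_102
import Crest.Agent.R272.Blup7_102

-- ▼ part R272/BL1_366
section

/-!
# R272 (S0414), leaf S14-BL (helper366), part 1: square classes, good points, the blow-down map

`Sq C x φ h`  : `φ` (an arbitrary function, junk at its poles) equals `h` times the square of a
                meromorphic germ near `x`;
`Good C φ x`  : near `x` the square classes of the `φ a` are represented by holomorphic functions
                whose zero divisors are smooth with independent differentials at `x`;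
`dom_pi`      : the blow-down map is dominant in the sense of `Root5_83`;
`good_off`    : a good point off the centres stays good on the blow-up.
-/

set_option autoImplicit false
set_option linter.unusedSectionVars false

open Set Filter Topology Complex

namespace Crest.Agent.R272.BL_366

open Crest.Agent.R275.Geo Crest.Agent.R275.Core144
open Crest.Agent.R273.Fam_835 Crest.Agent.R273.Map_835
open Crest.Agent.R272.Quot_783 Crest.Agent.R272.Root_83 Crest.Agent.R272.Blup1_102

noncomputable section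

variable {n : ℕ} {X : Type} [TopologicalSpace X] {ρ : Type}

/-- `φ = h * (p / q) ^ 2` near `x` with holomorphic germs `p`, `q` which are not locally zero -/
def Sq (C : Fam n X) (x : X) (φ h : X → ℂ) : Prop :=
  ∃ p q : X → ℂ, NZ C x p ∧ NZ C x q ∧
    ∀ᶠ y in 𝓝 x, p y ≠ 0 → q y ≠ 0 → φ y * q y ^ 2 = h y * p y ^ 2

/-- the differentials of those `h a` which vanish at `x` are independent (in the chart `i`) -/
def Snc (C : Fam n X) (h : ρ → X → ℂ) (i : C.ι) (x : X) : Prop :=
  ∀ w : ρ → ℂ, ∃ v : Cn n, ∀ a, h a x = 0 →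
    fderiv ℂ (fun z => h a ((C.e i).symm z)) (C.e i x) v = w a

/-- a good point of the family of square classes `φ` -/
def Good (C : Fam n X) (φ : ρ → X → ℂ) (x : X) : Prop :=
  ∃ h : ρ → X → ℂ, (∀ a, HG C x (h a)) ∧ (∀ a, Sq C x (φ a) (h a)) ∧
    ∃ i, x ∈ (C.e i).source ∧ Snc C h i x

variable {C : Fam n X} {x : X} {φ h h' r : X → ℂ}

theorem NZ.hg (h : NZ C x r) : HG C x r := h.hol

theorem NZ.mul {r' : X → ℂ} (h1 : NZ C x r) (h2 : NZ C x r') : NZ C x (fun z => r z * r' z) :=
  ⟨HG.mul h1.hol h2.hol, freq_mul h1.hol h2.hol h1.ne h2.ne⟩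

theorem NZ.pow (h1 : NZ C x r) (k : ℕ) : NZ C x (fun z => r z ^ k) := by
  induction k with
  | zero => exact ⟨(HG.const 1).congr (by simp [EventuallyEq]), by simp⟩
  | succ k ih =>
    have := NZ.mul ih h1
    simpa only [pow_succ] using this

theorem NZ.const {c : ℂ} (hc : c ≠ 0) : NZ C x (fun _ => c) :=
  ⟨HG.const c, (Filter.Eventually.of_forall fun _ => hc).frequently⟩


theorem Sq.refl (φ : X → ℂ) : Sq C x φ φ :=
  ⟨fun _ => 1, fun _ => 1, NZ.const one_ne_zero, NZ.const one_ne_zero,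
    Filter.Eventually.of_forall fun _ _ _ => rfl⟩

theorem Sq.congr (h1 : Sq C x φ h) (h2 : h =ᶠ[𝓝 x] h') : Sq C x φ h' := by
  obtain ⟨p, q, hp, hq, he⟩ := h1
  refine ⟨p, q, hp, hq, ?_⟩
  filter_upwards [he, h2] with y h3 h4 h5 h6
  rw [← h4]
  exact h3 h5 h6




/-! ### pull back -/

variable {m : ℕ} {Y : Type} [TopologicalSpace Y] {D : Fam m Y} {π : Y → X} {y : Y}

theorem NZ.comp (h : NZ C (π y) r) (hp : HolC D C π) (hd : Dom D C π y) :
    NZ D y (fun z => r (π z)) := ⟨HG.comp h.hol hp, hd _ h.hol h.ne⟩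

theorem Sq.comp (h1 : Sq C (π y) φ h) (hp : HolC D C π) (hd : Dom D C π y) :
    Sq D y (fun z => φ (π z)) (fun z => h (π z)) := by
  obtain ⟨p, q, hp', hq, he⟩ := h1
  exact ⟨fun z => p (π z), fun z => q (π z), NZ.comp hp' hp hd, NZ.comp hq hp hd,
    hp.cont.continuousAt.eventually he⟩

/-! ### one colour -/


/-! ### the blow-down map -/

section Blow

variable {n : ℕ} [NeZero n] {M : Type} [TopologicalSpace M] [T2Space M] {A : Atl n M} (K : Ctr A)

theorem holC_pi : HolC (fam K.atl) (fam A) K.pi := holC_iff.2 K.holMap_pi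

/-- the blow-down map is open off `E` -/
theorem nhds_pi {y : K.X} (hy : y ∉ K.E) : 𝓝 (K.pi y) ≤ Filter.map K.pi (𝓝 y) := by
  have hZ : K.pi y ∉ K.Z := hy
  have h1 : ContinuousAt K.lift (K.pi y) :=
    K.continuousOn_lift.continuousAt (K.isClosed_Z.isOpen_compl.mem_nhds hZ)
  intro S hS
  have h2 : K.pi ⁻¹' S ∈ 𝓝 (K.lift (K.pi y)) := by rw [K.lift_pi hZ]; exact hS
  filter_upwards [h1 h2] with x hx
  have hx' : K.pi (K.lift x) ∈ S := hx
  rwa [K.pi_lift] at hx'

theorem dom_pi (y : K.X) : Dom (fam K.atl) (fam A) K.pi y :=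
  dom_of_freq_open K.continuous_pi ((K.frequently_off y).mono fun _ h => nhds_pi K h)


end Blow

end

end Crest.Agent.R272.BL_366
end

-- ▼ part R272/BL2_366
section

/-!
# R272 (S0414), leaf S14-BL (helper366), part 2: one blow-up of a surface, local forms on `E`

For a centre `s` with coordinates `z = K.z s x`, `p = K.p s`:

* `NodeF K s h k u` : `h = z1^(2k) - z0^(2k) u`, `TacF K s h u` : `h = z1^2 - z0^4 u` near `p`;
* `lift_unit`, `lift_node`, `lift_tac` : the square class of `h ∘ pi` at a point of `E` is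
  represented by a function which is non zero or has a non zero derivative along `E`.
-/

set_option autoImplicit false
set_option linter.unusedSectionVars false

open Set Filter Topology Complex

namespace Crest.Agent.R272.BL_366

open Crest.Agent.R275.Geo Crest.Agent.R275.Core144
open Crest.Agent.R273.Fam_835 Crest.Agent.R273.Map_835
open Crest.Agent.R272.Quot_783 Crest.Agent.R272.Root_83 Crest.Agent.R272.Blup1_102

noncomputable section

section Chart

variable {n : ℕ} [NeZero n] {M : Type} [TopologicalSpace M] [T2Space M] {A : Atl n M} (K : Ctr A)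

/-- the unscaled coordinates are holomorphic -/
theorem hg_co {s : K.S} {a : Fin n} {y : K.X} (hy : y ∈ K.V s a) (b : Fin n) :
    HG (fam K.atl) y (fun y => K.co s a y b) := by
  have h1 : DifferentiableOn ℂ (fun v : Cn n => (sc n).symm v b)
      ((fam K.atl).e (Sum.inr (s, a))).target :=
    fun v _ => (differentiableAt_euclidean.1 (differentiable_sc_symm v) b).differentiableWithinAt
  refine ⟨K.V s a, K.isOpen_V s a, hy, ?_⟩
  have h2 := holF_of_chart (fam K.atl) (Sum.inr (s, a)) (V := (K.atl.e (Sum.inr (s, a))).target)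
    (r := fun v => (sc n).symm v b) h1 (U := K.V s a)
    (fun x hx => ⟨hx, (K.atl.e (Sum.inr (s, a))).map_source hx⟩)
  intro j
  refine (h2 j).congr fun z _ => ?_
  show K.co s a _ b = (sc n).symm (sc n (K.co s a _)) b
  rw [Homeomorph.symm_apply_apply]


/-- derivatives along `E` -/
theorem fderiv_line {s : K.S} {a b : Fin n} {y : K.X} (hy : y ∈ K.V s a) {f : K.X → ℂ}
    (hf : HG (fam K.atl) y f) {g : ℂ → ℂ} {g' : ℂ} (hg : HasDerivAt g g' 0)
    (he : ∀ᶠ t : ℂ in 𝓝 0, f (K.ci s a (K.co s a y + t • EuclideanSpace.single b 1)) = g t) :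
    fderiv ℂ (fun z => f (((fam K.atl).e (Sum.inr (s, a))).symm z))
      ((fam K.atl).e (Sum.inr (s, a)) y) ((1 / 5 : ℂ) • EuclideanSpace.single b 1) = g' := by
  obtain ⟨U, hU, hyU, hf⟩ := hf
  have h1 := hf.diffAt hU (j := Sum.inr (s, a)) (x := y) hy hyU
  set e := (fam K.atl).e (Sum.inr (s, a)) with he'
  set v : Cn n := (1 / 5 : ℂ) • EuclideanSpace.single b 1 with hv
  have h2 : HasDerivAt (fun t : ℂ => e y + t • v) v 0 := by
    have := ((hasDerivAt_id (0 : ℂ)).smul_const v).const_add (e y)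
    simpa using this
  have h3 : HasFDerivAt (fun z => f (e.symm z)) (fderiv ℂ (fun z => f (e.symm z)) (e y))
      (e y + (0 : ℂ) • v) := by
    rw [zero_smul, add_zero]
    exact h1.hasFDerivAt
  have h4 := h3.comp_hasDerivAt (0 : ℂ) h2
  refine h4.unique (hg.congr_of_eventuallyEq ?_)
  filter_upwards [he] with t ht
  rw [← ht]
  show f (K.ci s a ((sc n).symm (sc n (K.co s a y) + t • v))) = _
  congr 2
  rw [Homeomorph.symm_apply_eq]
  show (1 / 5 : ℂ) • K.co s a y + kap n + t • v =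
    (1 / 5 : ℂ) • (K.co s a y + t • EuclideanSpace.single b 1) + kap n
  rw [hv, smul_add, smul_comm t]
  abel

/-- the line along `E` stays in the chart -/
theorem line_mem {s : K.S} {a b : Fin n} {y : K.X} (hy : y ∈ K.V s a) :
    ∀ᶠ t : ℂ in 𝓝 0, K.co s a y + t • EuclideanSpace.single b 1 ∈ K.T s a := by
  have h : ContinuousAt (fun t : ℂ => K.co s a y + t • (EuclideanSpace.single b 1 : Cn n)) 0 := by
    fun_prop
  refine h.eventually ((K.isOpen_T s a).mem_nhds ?_)
  simp only [zero_smul, add_zero]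
  exact K.co_mem hy


end Chart

section Two

variable {M : Type} [TopologicalSpace M] [T2Space M] {A : Atl 2 M} (K : Ctr A)



variable {K}

theorem z_eq {s : K.S} {a : Fin 2} {y : K.X} (hy : y ∈ K.V s a) :
    K.z s (K.pi y) = K.co s a y a • Ctr.W a (K.co s a y) := (K.exists_W hy.1 hy.2.1).1

theorem z_chart0 {s : K.S} {y : K.X} (hy : y ∈ K.V s 0) :
    K.z s (K.pi y) 0 = K.co s 0 y 0 ∧ K.z s (K.pi y) 1 = K.co s 0 y 0 * K.co s 0 y 1 := by
  rw [z_eq hy]
  constructor <;> simp

theorem z_chart1 {s : K.S} {y : K.X} (hy : y ∈ K.V s 1) :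
    K.z s (K.pi y) 1 = K.co s 1 y 1 ∧ K.z s (K.pi y) 0 = K.co s 1 y 1 * K.co s 1 y 0 := by
  rw [z_eq hy]
  constructor <;> simp

theorem mem_E_of {s : K.S} {y : K.X} (hy : K.pi y = K.p s) : y ∈ K.E := ⟨s, hy.symm⟩

/-- the charts over a centre -/
theorem exists_chart {s : K.S} {y : K.X} (hy : K.pi y = K.p s) : ∃ a : Fin 2, y ∈ K.V s a := by
  obtain ⟨i, hi⟩ := K.atl.cover y
  rcases i with i | ⟨t, a⟩
  · exact absurd (mem_E_of hy) (K.mem_ec_inl.1 hi).1
  · have h1 : y ∈ K.V t a := hi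
    have h2 : t = s := K.U_unique h1.1 (by rw [hy]; exact K.p_mem s)
    exact ⟨a, h2 ▸ h1⟩



theorem zero_mem_T (s : K.S) (a : Fin 2) : (0 : Cn 2) ∈ K.T s a := by
  refine ⟨?_, fun b _ => ?_⟩
  · simpa using K.r_pos s
  · simp

theorem pi_ci_zero (s : K.S) (a : Fin 2) : K.pi (K.ci s a 0) = K.p s := by
  rw [K.pi_ci (zero_mem_T s a)]
  simp only [PiLp.zero_apply, zero_smul]
  have := K.pt_z (K.p_mem s)
  rwa [K.z_p] at this


/-! ### nodes -/



/-! ### tacnodes -/



end Two

end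

end Crest.Agent.R272.BL_366
end

-- ▼ part R272/Two_102

/-!
# R272 (S0414), helper102: two blow-ups

* `c2 C₁ τ` : the second centres: the points `C₁.ci t 0 0` (origin of the chart `(t, 0)`), `t ∈ τ`;
* `two_step` : how a property of all points of the second blow-up is assembled;
* `good_two` : road E (366's `Good`), from `Star` / `Tac` at the first centres.
-/

set_option autoImplicit false
set_option linter.unusedSectionVars false

open Set Filter Topology Complex

namespace Crest.Agent.R272.Two_102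

open Crest.Agent.R275.Geo Crest.Agent.R275.Core144
open Crest.Agent.R273.Fam_835 Crest.Agent.R273.Map_835
open Crest.Agent.R272.Blup1_102

noncomputable section

variable {M : Type} [TopologicalSpace M] [T2Space M] {A : Atl 2 M} (C₁ : Ctr A)

theorem zero_mem_T (t : C₁.S) (a : Fin 2) : (0 : Cn 2) ∈ C₁.T t a := by
  refine ⟨?_, fun b _ => ?_⟩
  · rw [PiLp.zero_apply, zero_smul, norm_zero]
    exact C₁.r_pos t
  · rw [PiLp.zero_apply, norm_zero]
    exact two_pos

theorem pi_ci_zero (t : C₁.S) (a : Fin 2) : C₁.pi (C₁.ci t a 0) = C₁.p t := by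
  rw [C₁.pi_ci (zero_mem_T C₁ t a), PiLp.zero_apply, zero_smul, Ctr.pt, add_zero,
    (A.e (C₁.i t)).left_inv (C₁.hp t)]

variable (τ : Set C₁.S) [Finite C₁.S]

/-- the second centres -/
def c2 : Ctr C₁.atl :=
  ctr (S := τ) (fun t => Sum.inr (t.1, 0)) (fun t => C₁.ci t.1 0 0)
    (fun t t' h => Subtype.ext (C₁.p_inj (by
      have h1 := congrArg C₁.pi h
      rwa [pi_ci_zero, pi_ci_zero] at h1)))
    (fun t => C₁.mem_ec_inr.2 (C₁.ci_mem (zero_mem_T C₁ t.1 0)))
    (fun _ => univ) (fun _ => univ_mem) one_pos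

@[simp] theorem c2_p (t : τ) : (c2 C₁ τ).p t = C₁.ci t.1 0 0 := rfl

@[simp] theorem c2_i (t : τ) : (c2 C₁ τ).i t = Sum.inr (t.1, 0) := rfl

instance : Finite (c2 C₁ τ).S := inferInstanceAs (Finite τ)

/-- assembly of a property of all points of the second blow-up -/
theorem two_step {Q₀ : M → Prop} {Q₁ : C₁.X → Prop} {Q₂ : (c2 C₁ τ).X → Prop}
    (h0 : ∀ x, x ∉ C₁.Z → Q₀ x)
    (off1 : ∀ y, C₁.pi y ∉ C₁.Z → Q₀ (C₁.pi y) → Q₁ y)
    (on1 : ∀ t : C₁.S, ∀ y, C₁.pi y = C₁.p t → (t ∈ τ → y ≠ C₁.ci t 0 0) → Q₁ y)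
    (off2 : ∀ y, (c2 C₁ τ).pi y ∉ (c2 C₁ τ).Z → Q₁ ((c2 C₁ τ).pi y) → Q₂ y)
    (on2 : ∀ t : τ, ∀ y, (c2 C₁ τ).pi y = C₁.ci t.1 0 0 → Q₂ y) : ∀ y, Q₂ y := by
  intro y
  by_cases hy : (c2 C₁ τ).pi y ∈ (c2 C₁ τ).Z
  · obtain ⟨t, ht⟩ := hy
    exact on2 t y ht.symm
  · refine off2 y hy ?_
    by_cases hx : C₁.pi ((c2 C₁ τ).pi y) ∈ C₁.Z
    · obtain ⟨t, ht⟩ := hx
      refine on1 t _ ht.symm fun htτ h => hy ⟨⟨t, htτ⟩, ?_⟩
      exact h.symm
    · exact off1 _ hx (h0 _ hx)


end

end Crest.Agent.R272.Two_102
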