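import Crest.Agent.R272.DCov4_426
import Crest.Agent.R272.CpRat2_423

-- ▼ part R272/Cyc1_760
section

/-!
# R272 (S0414), leaf S14-CYC (helper760), part 1: homogeneous rational curves

* `HA C F w`  : `F : E → X` (`E` a normed space) is holomorphic at `w`;
* `HCur C`    : rational curve as a homogeneous map `G : ℂ² ∖ 0 → X` (holomorphic, `G (c • w) = G w`,
                injective and immersive modulo scalars);
* `HCur.map`, `HCur.pre`, `HCur.toP1C`, `HTrans`, `HTrans.toP1C`.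
-/

set_option autoImplicit false
set_option linter.unusedSectionVars false

open Set Filter Topology

namespace Crest.Agent.R272.Cyc_760

open Crest.Agent.R275.Geo Crest.Agent.R275.Core144
open Crest.Agent.R273.Map_835 Crest.Agent.R273.Fam_835
open Crest.Agent.R272.CpRat423

noncomputable section

variable {E : Type*} [NormedAddCommGroup E] [NormedSpace ℂ E]
  {n m : ℕ} {X Y : Type} [TopologicalSpace X] [TopologicalSpace Y]
  {C : Fam n X} {D : Fam m Y}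

/-- `F` is holomorphic at `w` -/
structure HA (C : Fam n X) (F : E → X) (w : E) : Prop where
  cont : ContinuousAt F w
  diff : ∀ i, F w ∈ (C.e i).source → DifferentiableAt ℂ (fun w => C.e i (F w)) w

section HA

variable {F : E → X} {w : E}

theorem comp_fd {V : Type*} [NormedAddCommGroup V] [NormedSpace ℂ V] {g : X → V} {i : C.ι}
    (hc : ContinuousAt F w) (hi : F w ∈ (C.e i).source)
    (hd : DifferentiableAt ℂ (fun w => C.e i (F w)) w)
    (hg : DifferentiableAt ℂ (fun z => g ((C.e i).symm z)) (C.e i (F w))) :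
    HasFDerivAt (fun w => g (F w)) ((fderiv ℂ (fun z => g ((C.e i).symm z)) (C.e i (F w))).comp
      (fderiv ℂ (fun w => C.e i (F w)) w)) w := by
  have h1 := hg.hasFDerivAt.comp w hd.hasFDerivAt
  refine h1.congr_of_eventuallyEq ?_
  filter_upwards [hc ((C.e i).open_source.mem_nhds hi)] with u hu
  simp only [Function.comp]
  rw [(C.e i).left_inv hu]

theorem tr_diff (C : Fam n X) {i j : C.ι} {x : X} (hi : x ∈ (C.e i).source)
    (hj : x ∈ (C.e j).source) :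
    DifferentiableAt ℂ (fun z => C.e j ((C.e i).symm z)) (C.e i x) :=
  (C.holo i j).differentiableAt (((C.e i).isOpen_inter_preimage_symm
    (C.e j).open_source).mem_nhds ⟨(C.e i).map_source hi, by
      rw [mem_preimage, (C.e i).left_inv hi]; exact hj⟩)

theorem HA.of (hc : ContinuousAt F w) {i : C.ι} (hi : F w ∈ (C.e i).source)
    (hd : DifferentiableAt ℂ (fun w => C.e i (F w)) w) : HA C F w :=
  ⟨hc, fun _ hj => (comp_fd hc hi hd (tr_diff C hi hj)).differentiableAt⟩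

theorem HA.congr {F' : E → X} (h : HA C F w) (he : F' =ᶠ[𝓝 w] F) : HA C F' w := by
  refine ⟨h.cont.congr he.symm, fun i hi => ?_⟩
  have h1 : F' w = F w := he.eq_of_nhds
  rw [h1] at hi
  refine (h.diff i hi).congr_of_eventuallyEq ?_
  filter_upwards [he] with u hu
  rw [hu]

/-- functions on `X` composed with `F` -/
theorem HA.fun_diff {V : Type*} [NormedAddCommGroup V] [NormedSpace ℂ V] {g : X → V} {i : C.ι}
    (h : HA C F w) (hi : F w ∈ (C.e i).source)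
    (hg : DifferentiableAt ℂ (fun z => g ((C.e i).symm z)) (C.e i (F w))) :
    DifferentiableAt ℂ (fun w => g (F w)) w :=
  (comp_fd h.cont hi (h.diff i hi) hg).differentiableAt

theorem HA.fun_zero {V : Type*} [NormedAddCommGroup V] [NormedSpace ℂ V] {g : X → V} {i : C.ι}
    (h : HA C F w) (hi : F w ∈ (C.e i).source)
    (hg : DifferentiableAt ℂ (fun z => g ((C.e i).symm z)) (C.e i (F w))) {v : E}
    (hv : fderiv ℂ (fun w => C.e i (F w)) w v = 0) :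
    fderiv ℂ (fun w => g (F w)) w v = 0 := by
  rw [(comp_fd h.cont hi (h.diff i hi) hg).fderiv, ContinuousLinearMap.comp_apply, hv, map_zero]

theorem HA.fun_eq {V : Type*} [NormedAddCommGroup V] [NormedSpace ℂ V] {g : X → V} {i : C.ι}
    {E' : Type*} [NormedAddCommGroup E'] [NormedSpace ℂ E'] {F' : E' → X} {w' : E'}
    (h : HA C F w) (h' : HA C F' w') (he : F w = F' w') (hi : F w ∈ (C.e i).source)
    (hg : DifferentiableAt ℂ (fun z => g ((C.e i).symm z)) (C.e i (F w))) {v : E} {v' : E'}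
    (hv : fderiv ℂ (fun w => C.e i (F w)) w v = fderiv ℂ (fun w => C.e i (F' w)) w' v') :
    fderiv ℂ (fun w => g (F w)) w v = fderiv ℂ (fun w => g (F' w)) w' v' := by
  have hi' : F' w' ∈ (C.e i).source := he ▸ hi
  have hg' : DifferentiableAt ℂ (fun z => g ((C.e i).symm z)) (C.e i (F' w')) := he ▸ hg
  rw [(comp_fd h.cont hi (h.diff i hi) hg).fderiv,
    (comp_fd h'.cont hi' (h'.diff i hi') hg').fderiv, ContinuousLinearMap.comp_apply,
    ContinuousLinearMap.comp_apply, hv, he]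

theorem hol_diff {p : X → Y} (hp : HolC C D p) {i : C.ι} {j : D.ι} {x : X}
    (hi : x ∈ (C.e i).source) (hj : p x ∈ (D.e j).source) :
    DifferentiableAt ℂ (fun z => D.e j (p ((C.e i).symm z))) (C.e i x) :=
  hp.diffAt ((C.e i).map_source hi) (by rw [(C.e i).left_inv hi]; exact hj)

theorem HA.comp {p : X → Y} (hp : HolC C D p) (h : HA C F w) : HA D (fun w => p (F w)) w := by
  refine ⟨ContinuousAt.comp (g := p) hp.cont.continuousAt h.cont, fun j hj => ?_⟩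
  obtain ⟨i, hi⟩ := C.cover (F w)
  exact h.fun_diff (g := fun x => D.e j (p x)) hi (hol_diff hp hi hj)

theorem HA.comp_zero {p : X → Y} (hp : HolC C D p) (h : HA C F w) {i : C.ι} {j : D.ι}
    (hi : F w ∈ (C.e i).source) (hj : p (F w) ∈ (D.e j).source) {v : E}
    (hv : fderiv ℂ (fun w => C.e i (F w)) w v = 0) :
    fderiv ℂ (fun w => D.e j (p (F w))) w v = 0 :=
  h.fun_zero (g := fun x => D.e j (p x)) hi (hol_diff hp hi hj) hv

/-- precomposition -/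
theorem HA.pre {E' : Type*} [NormedAddCommGroup E'] [NormedSpace ℂ E'] {f : E' → E} {u : E'}
    (hf : DifferentiableAt ℂ f u) (h : HA C F (f u)) : HA C (fun u => F (f u)) u :=
  ⟨ContinuousAt.comp (g := F) h.cont hf.continuousAt, fun i hi =>
    DifferentiableAt.comp u (g := fun w => C.e i (F w)) (h.diff i hi) hf⟩

theorem HA.pre_fderiv {E' : Type*} [NormedAddCommGroup E'] [NormedSpace ℂ E'] {f : E' → E} {u : E'}
    (hf : DifferentiableAt ℂ f u) (h : HA C F (f u)) {i : C.ι} (hi : F (f u) ∈ (C.e i).source)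
    (v : E') : fderiv ℂ (fun u => C.e i (F (f u))) u v =
      fderiv ℂ (fun w => C.e i (F w)) (f u) (fderiv ℂ f u v) := by
  have h1 := (h.diff i hi).hasFDerivAt.comp u hf.hasFDerivAt
  have h2 := h1.fderiv
  simp only [Function.comp_def] at h2
  rw [h2]
  rfl

end HA

/-- the vectors `(x, y)` -/
abbrev V2 : Type := Fin 2 → ℂ

/-- a rational curve, as a homogeneous map -/
structure HCur (C : Fam n X) where
  G : V2 → X
  smul : ∀ c : ℂ, c ≠ 0 → ∀ w : V2, w ≠ 0 → G (c • w) = G w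
  ha : ∀ w : V2, w ≠ 0 → HA C G w
  imm : ∀ w : V2, w ≠ 0 → ∃ i, G w ∈ (C.e i).source ∧ ∀ v : V2,
    fderiv ℂ (fun w => C.e i (G w)) w v = 0 → ∃ c : ℂ, v = c • w
  inj : ∀ w w' : V2, w ≠ 0 → w' ≠ 0 → G w = G w' → ∃ c : ℂ, w' = c • w

namespace HCur

variable (Γ : HCur C)

/-- the image -/
def img : Set X := {x | ∃ w : V2, w ≠ 0 ∧ Γ.G w = x}

theorem imm' {w : V2} (hw : w ≠ 0) {i : C.ι} (hi : Γ.G w ∈ (C.e i).source) {v : V2}
    (hv : fderiv ℂ (fun w => C.e i (Γ.G w)) w v = 0) : ∃ c : ℂ, v = c • w := by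
  obtain ⟨j, hj, h⟩ := Γ.imm w hw
  exact h v ((Γ.ha w hw).fun_zero (g := fun x => C.e j x) hi (tr_diff C hi hj) hv)

theorem euler {w : V2} (hw : w ≠ 0) {i : C.ι} (hi : Γ.G w ∈ (C.e i).source) :
    fderiv ℂ (fun w => C.e i (Γ.G w)) w w = 0 := by
  have h1 : HasDerivAt (fun c : ℂ => (1 + c) • w) w 0 := by
    have h2 : HasDerivAt (fun c : ℂ => (1 + c)) 1 0 := (hasDerivAt_id' (0 : ℂ)).const_add 1
    have h3 := h2.smul_const w
    rwa [one_smul] at h3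
  have e0 : (1 + (0 : ℂ)) • w = w := by rw [add_zero, one_smul]
  have h4 : HasFDerivAt (fun w => C.e i (Γ.G w)) (fderiv ℂ (fun w => C.e i (Γ.G w)) w)
      ((fun c : ℂ => (1 + c) • w) 0) := by
    simp only [e0]
    exact ((Γ.ha w hw).diff i hi).hasFDerivAt
  have h5 := h4.comp_hasDerivAt 0 h1
  have h6 : HasDerivAt (fun _ : ℂ => C.e i (Γ.G w)) (fderiv ℂ (fun w => C.e i (Γ.G w)) w w) 0 := by
    refine h5.congr_of_eventuallyEq ?_
    have h7 : ∀ᶠ c : ℂ in 𝓝 0, 1 + c ≠ 0 := by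
      have h8 : ContinuousAt (fun c : ℂ => 1 + c) 0 := by fun_prop
      exact h8.eventually_ne (by simp)
    filter_upwards [h7] with c hc
    simp only [Function.comp]
    rw [Γ.smul _ hc w hw]
  exact h6.unique (hasDerivAt_const _ _)

/-- change of the complex structure -/
def map {C' : Fam n X} (h : HolC C C' id) (h' : HolC C' C id) : HCur C' where
  G := Γ.G
  smul := Γ.smul
  ha w hw := HA.comp (p := id) h (Γ.ha w hw)
  imm w hw := by
    obtain ⟨i, hi, h1⟩ := Γ.imm w hw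
    obtain ⟨j, hj⟩ := C'.cover (Γ.G w)
    refine ⟨j, hj, fun v hv => h1 v ?_⟩
    have h2 : HA C' Γ.G w := HA.comp (p := id) h (Γ.ha w hw)
    exact HA.comp_zero (p := id) h' h2 hj (j := i) hi hv
  inj := Γ.inj

/-- linear change of the parameter -/
def pre (B : V2 ≃L[ℂ] V2) : HCur C where
  G w := Γ.G (B w)
  smul c hc w hw := by
    rw [map_smul]
    exact Γ.smul c hc _ ((map_ne_zero_iff _ B.injective).2 hw)
  ha w hw := (Γ.ha (B w) ((map_ne_zero_iff _ B.injective).2 hw)).pre B.differentiableAt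
  imm w hw := by
    have hBw : B w ≠ 0 := (map_ne_zero_iff _ B.injective).2 hw
    obtain ⟨i, hi, h⟩ := Γ.imm (B w) hBw
    refine ⟨i, hi, fun v hv => ?_⟩
    rw [(Γ.ha (B w) hBw).pre_fderiv B.differentiableAt hi, B.fderiv] at hv
    obtain ⟨c, hc⟩ := h _ hv
    refine ⟨c, B.injective ?_⟩
    rw [map_smul]
    exact hc
  inj w w' hw hw' h := by
    obtain ⟨c, hc⟩ := Γ.inj _ _ ((map_ne_zero_iff _ B.injective).2 hw)
      ((map_ne_zero_iff _ B.injective).2 hw') h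
    refine ⟨c, B.injective ?_⟩
    rw [map_smul]
    exact hc

theorem pre_img (B : V2 ≃L[ℂ] V2) : (Γ.pre B).img = Γ.img := by
  ext x
  constructor
  · rintro ⟨w, hw, h⟩
    exact ⟨B w, (map_ne_zero_iff _ B.injective).2 hw, h⟩
  · rintro ⟨w, hw, h⟩
    refine ⟨B.symm w, (map_ne_zero_iff _ B.symm.injective).2 hw, ?_⟩
    show Γ.G (B (B.symm w)) = x
    rw [B.apply_symm_apply]
    exact h

end HCur

/-- distinct tangent lines at all common points -/
def HTrans (Γ Δ : HCur C) : Prop :=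
  ∀ w w' : V2, w ≠ 0 → w' ≠ 0 → Γ.G w = Δ.G w' → ∃ i, Γ.G w ∈ (C.e i).source ∧ ∀ v v' : V2,
    fderiv ℂ (fun w => C.e i (Γ.G w)) w v = fderiv ℂ (fun w => C.e i (Δ.G w)) w' v' →
    fderiv ℂ (fun w => C.e i (Γ.G w)) w v = 0

theorem HTrans.all {Γ Δ : HCur C} (h : HTrans Γ Δ) {w w' : V2} (hw : w ≠ 0) (hw' : w' ≠ 0)
    (he : Γ.G w = Δ.G w') {i : C.ι} (hi : Γ.G w ∈ (C.e i).source) {v v' : V2}
    (hv : fderiv ℂ (fun w => C.e i (Γ.G w)) w v = fderiv ℂ (fun w => C.e i (Δ.G w)) w' v') :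
    fderiv ℂ (fun w => C.e i (Γ.G w)) w v = 0 := by
  obtain ⟨j, hj, h1⟩ := h w w' hw hw' he
  have h2 := (Γ.ha w hw).fun_eq (g := fun x => C.e j x) (Δ.ha w' hw') he hi (tr_diff C hi hj) hv
  have h3 := h1 v v' h2
  exact (Γ.ha w hw).fun_zero (g := fun x => C.e i x) hj (tr_diff C hj hi) h3

theorem HTrans.symm {Γ Δ : HCur C} (h : HTrans Γ Δ) : HTrans Δ Γ := by
  intro w w' hw hw' he
  obtain ⟨i, hi⟩ := C.cover (Δ.G w)
  refine ⟨i, hi, fun v v' hv => ?_⟩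
  rw [hv]
  exact h.all hw' hw he.symm (by rw [← he]; exact hi) hv.symm

/-! ### the projective line with two charts -/

section P1C

variable {A : Atl n X}

theorem mi_ne (b : Bool) (z c : ℂ) : (Pi.single (mi b) 1 : V2) ≠ c • pt b z := by
  intro h
  cases b
  · have h0 := congrFun h 0
    have h1 := congrFun h 1
    simp [mi] at h0 h1
    rw [← h0] at h1
    simp at h1
  · have h0 := congrFun h 0
    have h1 := congrFun h 1
    simp [mi] at h0 h1
    rw [← h1] at h0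
    simp at h0

theorem hasDerivAt_pt' (b : Bool) (z : ℂ) :
    HasDerivAt (fun w => pt b w) (Pi.single (mi b) 1 : V2) z := by
  rw [hasDerivAt_pi]
  intro i
  have h := hasDerivAt_pt b i z
  refine h.congr_deriv ?_
  rw [Pi.single_apply]

theorem HCur.deriv_pt {C : Fam n X} (Γ : HCur C) (b : Bool) (z : ℂ) {i : C.ι}
    (hi : Γ.G (pt b z) ∈ (C.e i).source) :
    HasDerivAt (fun z => C.e i (Γ.G (pt b z)))
      (fderiv ℂ (fun w => C.e i (Γ.G w)) (pt b z) (Pi.single (mi b) 1)) z :=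
  ((Γ.ha _ (pt_ne b z)).diff i hi).hasFDerivAt.comp_hasDerivAt z (hasDerivAt_pt' b z)

/-- the two affine charts of a homogeneous curve -/
def HCur.toP1C (Γ : HCur (fam A)) : P1C A where
  g b z := Γ.G (pt b z)
  glue z hz := by
    have h : pt true z⁻¹ = z⁻¹ • pt false z := by
      funext i
      fin_cases i <;> simp [hz]
    rw [h]
    exact Γ.smul _ (inv_ne_zero hz) _ (pt_ne false z)
  cont b := by
    rw [continuous_iff_continuousAt]
    intro z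
    exact ContinuousAt.comp (g := Γ.G) (Γ.ha _ (pt_ne b z)).cont (hasDerivAt_pt' b z).continuousAt
  hol b z := by
    obtain ⟨i, hi, h⟩ := Γ.imm _ (pt_ne b z)
    have hd := Γ.deriv_pt b z hi
    refine ⟨i, hi, hd.differentiableAt, ?_⟩
    have e : deriv (fun w => A.e i (Γ.G (pt b w))) z = _ := hd.deriv
    rw [e]
    intro h0
    obtain ⟨c, hc⟩ := h _ h0
    exact mi_ne b z c hc
  inj z z' h := by
    obtain ⟨c, hc⟩ := Γ.inj _ _ (pt_ne false z) (pt_ne false z') h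
    have h0 := congrFun hc 0
    have h1 := congrFun hc 1
    simp at h0 h1
    rw [← h0, one_mul] at h1
    exact h1.symm
  ninf := by
    rintro ⟨z, h⟩
    obtain ⟨c, hc⟩ := Γ.inj _ _ (pt_ne false z) (pt_ne true 0) h
    have h0 := congrFun hc 0
    have h1 := congrFun hc 1
    simp at h0 h1
    rw [← h0, zero_mul] at h1
    exact one_ne_zero h1


theorem HCur.toP1C_img (Γ : HCur (fam A)) : Γ.toP1C.img = Γ.img := by
  ext x
  rw [P1C.mem_img_iff]
  constructor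
  · rintro ⟨b, z, h⟩
    exact ⟨pt b z, pt_ne b z, h⟩
  · rintro ⟨w, hw, h⟩
    obtain ⟨b, z, c, hc, rfl⟩ := exists_pt hw
    refine ⟨b, z, ?_⟩
    rw [Γ.smul c hc _ (pt_ne b z)] at h
    exact h

theorem HTrans.toP1C {Γ Δ : HCur (fam A)} (h : HTrans Γ Δ) : Trans Γ.toP1C Δ.toP1C := by
  intro b z b' z' he
  have he' : Γ.G (pt b z) = Δ.G (pt b' z') := he
  obtain ⟨i, hi, h1⟩ := h _ _ (pt_ne b z) (pt_ne b' z') he'
  refine ⟨i, hi, ?_⟩
  rintro ⟨c, hc⟩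
  have hi' : Δ.G (pt b' z') ∈ ((fam A).e i).source := he' ▸ hi
  have e1 : deriv (fun w => A.e i (Γ.toP1C.g b w)) z = _ := (Γ.deriv_pt b z hi).deriv
  have e2 : deriv (fun w => A.e i (Δ.toP1C.g b' w)) z' = _ := (Δ.deriv_pt b' z' hi').deriv
  rw [e1, e2, ← map_smul] at hc
  have h2 := h1 _ _ hc.symm
  rw [← hc] at h2
  obtain ⟨c', hc'⟩ := Δ.imm' (pt_ne b' z') hi' h2
  exact mi_ne b' z' c' hc'

/-- the image of a homogeneous curve is connected -/
theorem HCur.isConnected_img (Γ : HCur C) : IsConnected Γ.img := by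
  have h1 : IsConnected ({0}ᶜ : Set V2) := by
    refine isConnected_compl_singleton_of_one_lt_rank ?_ 0
    rw [rank_real_of_complex]
    simp
    norm_num
  have h2 : Γ.img = Γ.G '' ({0}ᶜ : Set V2) := by
    ext x
    constructor
    · rintro ⟨w, hw, h⟩
      exact ⟨w, hw, h⟩
    · rintro ⟨w, hw, h⟩
      exact ⟨w, hw, h⟩
  rw [h2]
  exact h1.image _ fun w hw => (Γ.ha w hw).cont.continuousWithinAt

end P1C

end

end Crest.Agent.R272.Cyc_760
end

-- ▼ part R272/Cyc2_760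

/-!
# R272 (S0414), leaf S14-CYC (helper760), part 2: the two sheets over a rational curve

`Frm L Γ m` : nowhere vanishing homogeneous holomorphic frame of degree `m` of `Γ^* L`;
`Sheet D a b Γ` : `s_a = fa²` and `s_b = fb² · w0 · w1` along the homogeneous curve `Γ` of the base;
`Sheet.up ε` (`ε² = 1`) : the curve `ζ ↦ (Γ (ζ0², ζ1²), y_a = ε fa, y_b = fb ζ0 ζ1)` of `D.X`.
-/

set_option autoImplicit false
set_option linter.unusedSectionVars false

open Set Filter Topology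

namespace Crest.Agent.R272.Cyc_760

open Crest.Agent.R275.Geo Crest.Agent.R275.Core144
open Crest.Agent.R273.Map_835 Crest.Agent.R273.Fam_835
open Crest.Agent.R272.CpRat423 Crest.Agent.R272.DCov_426

noncomputable section

variable {n : ℕ} {M : Type} [TopologicalSpace M] {A : Atl n M}

/-- the square map of `ℂ²` -/
def sqv (ζ : V2) : V2 := ![ζ 0 ^ 2, ζ 1 ^ 2]

@[simp] theorem sqv_zero (ζ : V2) : sqv ζ 0 = ζ 0 ^ 2 := rfl
@[simp] theorem sqv_one (ζ : V2) : sqv ζ 1 = ζ 1 ^ 2 := rfl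

theorem v2_ext {v w : V2} (h0 : v 0 = w 0) (h1 : v 1 = w 1) : v = w := by
  funext i
  fin_cases i
  · exact h0
  · exact h1

theorem v2_ne {v : V2} (h : v ≠ 0) : v 0 ≠ 0 ∨ v 1 ≠ 0 := by
  by_contra h1
  push Not at h1
  exact h (v2_ext h1.1 h1.2)

theorem sqv_ne {ζ : V2} (h : ζ ≠ 0) : sqv ζ ≠ 0 := by
  intro h0
  apply h
  have h1 := congrFun h0 0
  have h2 := congrFun h0 1
  simp only [sqv_zero, sqv_one, Pi.zero_apply] at h1 h2
  exact v2_ext (pow_eq_zero_iff two_ne_zero |>.1 h1) (pow_eq_zero_iff two_ne_zero |>.1 h2)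

theorem sqv_smul (c : ℂ) (ζ : V2) : sqv (c • ζ) = c ^ 2 • sqv ζ :=
  v2_ext (by simp [mul_pow]) (by simp [mul_pow])

/-- the derivative of the square map -/
def dsq (ζ : V2) : V2 →L[ℂ] V2 :=
  ContinuousLinearMap.pi ![(2 * ζ 0) • ContinuousLinearMap.proj (R := ℂ) (φ := fun _ : Fin 2 => ℂ) 0,
    (2 * ζ 1) • ContinuousLinearMap.proj (R := ℂ) (φ := fun _ : Fin 2 => ℂ) 1]

@[simp] theorem dsq_zero (ζ v : V2) : dsq ζ v 0 = 2 * ζ 0 * v 0 := rfl
@[simp] theorem dsq_one (ζ v : V2) : dsq ζ v 1 = 2 * ζ 1 * v 1 := rfl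

theorem hasFDerivAt_sqv (ζ : V2) : HasFDerivAt sqv (dsq ζ) ζ := by
  rw [hasFDerivAt_pi']
  intro i
  fin_cases i
  · have h := (hasFDerivAt_apply (𝕜 := ℂ) (0 : Fin 2) ζ).pow 2
    refine h.congr_fderiv ?_
    ext v
    simp [dsq]
  · have h := (hasFDerivAt_apply (𝕜 := ℂ) (1 : Fin 2) ζ).pow 2
    refine h.congr_fderiv ?_
    ext v
    simp [dsq]

theorem exists_sqv {w : V2} (hw : w ≠ 0) : ∃ ζ : V2, ζ ≠ 0 ∧ sqv ζ = w := by
  obtain ⟨a, ha⟩ := IsAlgClosed.exists_pow_nat_eq (w 0) (n := 2) (by norm_num)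
  obtain ⟨b, hb⟩ := IsAlgClosed.exists_pow_nat_eq (w 1) (n := 2) (by norm_num)
  refine ⟨![a, b], ?_, v2_ext (by simpa using ha) (by simpa using hb)⟩
  intro h0
  apply hw
  have h1 := congrFun h0 0
  have h2 := congrFun h0 1
  simp at h1 h2
  exact v2_ext (by rw [← ha, h1]; simp) (by rw [← hb, h2]; simp)

/-- if `ζ'² = c ζ²` and `ζ0' ζ1' = c ζ0 ζ1` then `ζ' = d ζ` -/
theorem sqv_inj {ζ ζ' : V2} (hζ : ζ ≠ 0) (hζ' : ζ' ≠ 0) {c : ℂ} (h : sqv ζ' = c • sqv ζ)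
    (hp : ζ' 0 * ζ' 1 = c * (ζ 0 * ζ 1)) : ∃ d : ℂ, ζ' = d • ζ := by
  have hc : c ≠ 0 := by
    rintro rfl
    rw [zero_smul] at h
    exact sqv_ne hζ' h
  have h0 : ζ' 0 ^ 2 = c * ζ 0 ^ 2 := congrFun h 0
  have h1 : ζ' 1 ^ 2 = c * ζ 1 ^ 2 := congrFun h 1
  rcases v2_ne hζ with h2 | h2
  · have h3 : ζ' 0 ≠ 0 := by
      intro h4
      rw [h4] at h0
      exact mul_ne_zero hc (pow_ne_zero 2 h2) (by rw [← h0]; simp)
    refine ⟨ζ' 0 / ζ 0, v2_ext ?_ ?_⟩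
    · simp [h2]
    · have h5 : ζ' 0 * ζ' 1 = ζ' 0 * (ζ' 0 / ζ 0 * ζ 1) := by
        rw [hp]
        field_simp
        rw [h0]
        ring
      simpa using mul_left_cancel₀ h3 h5
  · have h3 : ζ' 1 ≠ 0 := by
      intro h4
      rw [h4] at h1
      exact mul_ne_zero hc (pow_ne_zero 2 h2) (by rw [← h1]; simp)
    refine ⟨ζ' 1 / ζ 1, v2_ext ?_ ?_⟩
    · have h5 : ζ' 1 * ζ' 0 = ζ' 1 * (ζ' 1 / ζ 1 * ζ 0) := by
        rw [mul_comm, hp]
        field_simp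
        rw [h1]
        ring
      simpa using mul_left_cancel₀ h3 h5
    · simp [h2]

/-- a nowhere vanishing homogeneous frame of `Γ^* L` -/
structure Frm (L : LB A) (Γ : HCur (fam A)) (m : ℕ) where
  r : A.ι → V2 → ℂ
  tr : ∀ w : V2, w ≠ 0 → ∀ i j, Γ.G w ∈ (A.e i).source → Γ.G w ∈ (A.e j).source →
    r i w = L.g i j (Γ.G w) * r j w
  ne : ∀ w : V2, w ≠ 0 → ∀ i, Γ.G w ∈ (A.e i).source → r i w ≠ 0
  hol : ∀ w : V2, w ≠ 0 → ∀ i, Γ.G w ∈ (A.e i).source → DifferentiableAt ℂ (r i) w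
  hom : ∀ c : ℂ, c ≠ 0 → ∀ w : V2, w ≠ 0 → ∀ i, Γ.G w ∈ (A.e i).source →
    c ^ m * r i (c • w) = r i w

/-- `s_a` is the square of a frame and `s_b` the square of a frame times `w0 w1`, along `Γ` -/
structure Sheet (D : Data A (Fin 2)) (a b : Fin 2) (Γ : HCur (fam A)) where
  hab : a ≠ b
  ka : D.k a = 2
  kb : D.k b = 2
  fa : Frm (D.L a) Γ 0
  fb : Frm (D.L b) Γ 1
  sa : ∀ w : V2, w ≠ 0 → ∀ i, Γ.G w ∈ (A.e i).source → D.s a i (Γ.G w) = fa.r i w ^ 2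
  sb : ∀ w : V2, w ≠ 0 → ∀ i, Γ.G w ∈ (A.e i).source →
    D.s b i (Γ.G w) = fb.r i w ^ 2 * (w 0 * w 1)

namespace Sheet

variable {D : Data A (Fin 2)} {a b : Fin 2} {Γ : HCur (fam A)} (S : Sheet D a b Γ)

/-- the coordinates of the lifted curve -/
def t (ε : ℂ) (c : Fin 2) (i : A.ι) (ζ : V2) : ℂ :=
  if c = a then ε * S.fa.r i (sqv ζ) else S.fb.r i (sqv ζ) * (ζ 0 * ζ 1)

theorem t_a (ε : ℂ) (i : A.ι) (ζ : V2) : S.t ε a i ζ = ε * S.fa.r i (sqv ζ) := by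
  rw [t, if_pos rfl]

theorem t_b (ε : ℂ) (i : A.ι) (ζ : V2) : S.t ε b i ζ = S.fb.r i (sqv ζ) * (ζ 0 * ζ 1) := by
  rw [t, if_neg (Ne.symm S.hab)]

include S in
theorem eq_ab (c : Fin 2) : c = a ∨ c = b := by
  have h := S.hab
  fin_cases a <;> fin_cases b <;> fin_cases c <;> simp_all

theorem liftData {ε : ℂ} (hε : ε ^ 2 = 1) : Data.LiftData D
    (fun ζ : {ζ : V2 // ζ ≠ 0} => Γ.G (sqv ζ.1)) (fun c i ζ => S.t ε c i ζ.1) where
  tr c i j ζ hi hj := by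
    rcases S.eq_ab c with rfl | rfl
    · rw [S.t_a, S.t_a, S.fa.tr _ (sqv_ne ζ.2) i j hi hj]
      ring
    · rw [S.t_b, S.t_b, S.fb.tr _ (sqv_ne ζ.2) i j hi hj]
      ring
  pw c i ζ hi := by
    rcases S.eq_ab c with rfl | rfl
    · rw [S.t_a, S.ka, S.sa _ (sqv_ne ζ.2) i hi, mul_pow, hε, one_mul]
    · rw [S.t_b, S.kb, S.sb _ (sqv_ne ζ.2) i hi, mul_pow, mul_pow]
      rfl

open Classical in
/-- the lifted curve -/
def F {ε : ℂ} (hε : ε ^ 2 = 1) (ζ : V2) : D.X :=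
  if h : ζ ≠ 0 then D.lift (S.liftData hε) ⟨ζ, h⟩
  else D.lift (S.liftData hε) ⟨pt false 0, pt_ne false 0⟩

variable {ε : ℂ} (hε : ε ^ 2 = 1)

theorem F_of {ζ : V2} (h : ζ ≠ 0) : S.F hε ζ = D.lift (S.liftData hε) ⟨ζ, h⟩ := by
  rw [F, dif_pos h]

theorem p_F {ζ : V2} (h : ζ ≠ 0) : D.p (S.F hε ζ) = Γ.G (sqv ζ) := by
  rw [S.F_of hε h]
  rfl

theorem y_F {ζ : V2} (h : ζ ≠ 0) {i : A.ι} (hi : Γ.G (sqv ζ) ∈ (A.e i).source) (c : Fin 2) :
    D.y c i (S.F hε ζ) = S.t ε c i ζ := by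
  rw [S.F_of hε h]
  exact D.y_lift (S.liftData hε) (q := ⟨ζ, h⟩) hi c

theorem diff_ra {ζ : V2} (h : ζ ≠ 0) {i : A.ι} (hi : Γ.G (sqv ζ) ∈ (A.e i).source) :
    DifferentiableAt ℂ (fun ζ => S.fa.r i (sqv ζ)) ζ :=
  DifferentiableAt.comp ζ (g := S.fa.r i) (S.fa.hol _ (sqv_ne h) i hi)
    (hasFDerivAt_sqv ζ).differentiableAt

theorem diff_rb {ζ : V2} (h : ζ ≠ 0) {i : A.ι} (hi : Γ.G (sqv ζ) ∈ (A.e i).source) :
    DifferentiableAt ℂ (fun ζ => S.fb.r i (sqv ζ)) ζ :=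
  DifferentiableAt.comp ζ (g := S.fb.r i) (S.fb.hol _ (sqv_ne h) i hi)
    (hasFDerivAt_sqv ζ).differentiableAt

theorem diff_t {ζ : V2} (h : ζ ≠ 0) {i : A.ι} (hi : Γ.G (sqv ζ) ∈ (A.e i).source) (c : Fin 2) :
    DifferentiableAt ℂ (S.t ε c i) ζ := by
  rcases S.eq_ab c with rfl | rfl
  · have e : S.t ε c i = fun ζ => ε * S.fa.r i (sqv ζ) := by
      funext ζ
      exact S.t_a ε i ζ
    rw [e]
    exact (S.diff_ra h hi).const_mul ε
  · have e : S.t ε c i = fun ζ => S.fb.r i (sqv ζ) * (ζ 0 * ζ 1) := by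
      funext ζ
      exact S.t_b ε i ζ
    rw [e]
    refine (S.diff_rb h hi).mul ?_
    fun_prop

theorem haΓ {ζ : V2} (h : ζ ≠ 0) : HA (fam A) (fun ζ => Γ.G (sqv ζ)) ζ :=
  (Γ.ha _ (sqv_ne h)).pre (hasFDerivAt_sqv ζ).differentiableAt

theorem ev_ne {ζ : V2} (h : ζ ≠ 0) : ∀ᶠ ζ' : V2 in 𝓝 ζ, ζ' ≠ 0 :=
  isOpen_ne.mem_nhds h

theorem ev_src {ζ : V2} (h : ζ ≠ 0) {i : A.ι} (hi : Γ.G (sqv ζ) ∈ (A.e i).source) :
    ∀ᶠ ζ' : V2 in 𝓝 ζ, Γ.G (sqv ζ') ∈ (A.e i).source :=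
  (haΓ h).cont ((A.e i).open_source.mem_nhds hi)

theorem ev_p {ζ : V2} (h : ζ ≠ 0) : (fun ζ => D.p (S.F hε ζ)) =ᶠ[𝓝 ζ] fun ζ => Γ.G (sqv ζ) := by
  filter_upwards [ev_ne h] with ζ' h'
  exact S.p_F hε h'

theorem ev_y {ζ : V2} (h : ζ ≠ 0) {i : A.ι} (hi : Γ.G (sqv ζ) ∈ (A.e i).source) (c : Fin 2) :
    (fun ζ => D.y c i (S.F hε ζ)) =ᶠ[𝓝 ζ] S.t ε c i := by
  filter_upwards [ev_ne h, ev_src h hi] with ζ' h' h''
  exact S.y_F hε h' h'' c

theorem continuousAt_F {ζ : V2} (h : ζ ≠ 0) : ContinuousAt (S.F hε) ζ := by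
  obtain ⟨i, hi⟩ := A.cover (Γ.G (sqv ζ))
  refine D.continuousAt_X (i := i) (by rw [S.p_F hε h]; exact hi)
    ((haΓ h).cont.congr (S.ev_p hε h).symm) fun c => ?_
  exact (S.diff_t h hi c).continuousAt.congr (S.ev_y hε h hi c).symm

theorem ha_F {ζ : V2} (h : ζ ≠ 0) : HA D.famX (S.F hε) ζ := by
  refine ⟨S.continuousAt_F hε h, fun c hc => ?_⟩
  have h3 : ((S.F hε ζ : D.X) : D.T) ∈ c.G.source := hc
  obtain ⟨h4, h5⟩ := c.mem_source.1 h3
  have h4' : Γ.G (sqv ζ) ∈ (A.e c.i).source := by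
    have : D.p (S.F hε ζ) ∈ (A.e c.i).source := h4
    rwa [S.p_F hε h] at this
  have h6 : DifferentiableAt ℂ (fun ζ => D.ch c.i (S.F hε ζ : D.X)) ζ := by
    have h7 : DifferentiableAt ℂ (fun ζ => A.e c.i (D.p (S.F hε ζ))) ζ := by
      refine ((haΓ h).diff c.i h4').congr_of_eventuallyEq ?_
      filter_upwards [S.ev_p hε h] with ζ' h'
      show A.e c.i (D.p (S.F hε ζ')) = A.e c.i (Γ.G (sqv ζ'))
      rw [h']
    exact h7.prodMk (differentiableAt_pi.2 fun a' =>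
      (S.diff_t h h4' a').congr_of_eventuallyEq (S.ev_y hε h h4' a'))
  have h7 : DifferentiableAt ℂ c.χ (D.ch c.i (S.F hε ζ : D.X)) :=
    c.d1.differentiableAt (c.χ.open_source.mem_nhds h5)
  have h8 : DifferentiableAt ℂ (fun ζ => c.χ (D.ch c.i (S.F hε ζ : D.X))) ζ :=
    DifferentiableAt.comp ζ (f := fun ζ => D.ch c.i (S.F hε ζ : D.X)) h7 h6
  exact h8.fst

theorem p_hol {q : D.X} {c : D.K} {i : A.ι} (hc : q ∈ (D.famX.e c).source)
    (hi : D.p q ∈ (A.e i).source) :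
    DifferentiableAt ℂ (fun z => A.e i (D.p ((D.famX.e c).symm z))) (D.famX.e c q) :=
  hol_diff D.holC_p (j := i) hc hi

theorem y_hol {q : D.X} {c : D.K} {i : A.ι} (hc : q ∈ (D.famX.e c).source)
    (hi : D.p q ∈ (A.e i).source) (a' : Fin 2) :
    DifferentiableAt ℂ (fun z => D.y a' i ((D.famX.e c).symm z)) (D.famX.e c q) :=
  D.y_diffAt a' (c := c) ((D.famX.e c).map_source hc) (by
    show D.p ((D.famX.e c).symm (D.famX.e c q)) ∈ _
    rw [(D.famX.e c).left_inv hc]; exact hi)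

/-- the kernel of the differential -/
theorem ker_F {ζ : V2} (h : ζ ≠ 0) {c : D.K} (hc : S.F hε ζ ∈ (D.famX.e c).source) {v : V2}
    (hv : fderiv ℂ (fun ζ => D.famX.e c (S.F hε ζ)) ζ v = 0) : ∃ d : ℂ, v = d • ζ := by
  obtain ⟨i, hi⟩ := A.cover (Γ.G (sqv ζ))
  have hi' : D.p (S.F hε ζ) ∈ (A.e i).source := by rw [S.p_F hε h]; exact hi
  have hF := S.ha_F hε h
  have h1 : fderiv ℂ (fun ζ => A.e i (D.p (S.F hε ζ))) ζ v = 0 :=
    hF.fun_zero (g := fun q => A.e i (D.p q)) hc (p_hol hc hi') hv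
  have h2 : fderiv ℂ (fun ζ => D.y b i (S.F hε ζ)) ζ v = 0 :=
    hF.fun_zero (g := fun q => D.y b i q) hc (y_hol hc hi' b) hv
  have e1 : (fun ζ => A.e i (D.p (S.F hε ζ))) =ᶠ[𝓝 ζ] fun ζ => (fam A).e i (Γ.G (sqv ζ)) := by
    filter_upwards [S.ev_p hε h] with ζ' h'
    show A.e i (D.p (S.F hε ζ')) = A.e i (Γ.G (sqv ζ'))
    rw [h']
  rw [e1.fderiv_eq, (Γ.ha _ (sqv_ne h)).pre_fderiv (hasFDerivAt_sqv ζ).differentiableAt hi,
    (hasFDerivAt_sqv ζ).fderiv] at h1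
  obtain ⟨k, hk⟩ := Γ.imm' (sqv_ne h) hi h1
  have k0 : 2 * ζ 0 * v 0 = k * ζ 0 ^ 2 := congrFun hk 0
  have k1 : 2 * ζ 1 * v 1 = k * ζ 1 ^ 2 := congrFun hk 1
  have hr : S.fb.r i (sqv ζ) ≠ 0 := S.fb.ne _ (sqv_ne h) i hi
  have e2 : HasFDerivAt (fun ζ : V2 => S.fb.r i (sqv ζ) * (ζ 0 * ζ 1))
      (S.fb.r i (sqv ζ) • (ζ 0 • ContinuousLinearMap.proj (R := ℂ) (φ := fun _ : Fin 2 => ℂ) 1 +
        ζ 1 • ContinuousLinearMap.proj (R := ℂ) (φ := fun _ : Fin 2 => ℂ) 0) +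
        (ζ 0 * ζ 1) • fderiv ℂ (fun ζ => S.fb.r i (sqv ζ)) ζ) ζ :=
    (S.diff_rb h hi).hasFDerivAt.mul
      ((hasFDerivAt_apply (𝕜 := ℂ) (0 : Fin 2) ζ).mul (hasFDerivAt_apply (𝕜 := ℂ) (1 : Fin 2) ζ))
  have e3 : (fun ζ => D.y b i (S.F hε ζ)) =ᶠ[𝓝 ζ] fun ζ => S.fb.r i (sqv ζ) * (ζ 0 * ζ 1) := by
    filter_upwards [S.ev_y hε h hi b] with ζ' h'
    rw [h', S.t_b]
  rw [e3.fderiv_eq, e2.fderiv] at h2
  simp only [_root_.add_apply, _root_.smul_apply, ContinuousLinearMap.proj_apply,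
    smul_eq_mul] at h2
  rcases v2_ne h with h0 | h0
  · by_cases h1' : ζ 1 = 0
    · rw [h1'] at h2
      simp only [zero_mul, mul_zero, add_zero] at h2
      have h3 : v 1 = 0 := by
        rcases mul_eq_zero.1 h2 with h4 | h4
        · exact absurd h4 hr
        · exact (mul_eq_zero.1 h4).resolve_left h0
      refine ⟨v 0 / ζ 0, v2_ext ?_ ?_⟩
      · simp [h0]
      · simp [h1', h3]
    · refine ⟨k / 2, v2_ext ?_ ?_⟩
      · have : v 0 = k / 2 * ζ 0 := by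
          apply mul_left_cancel₀ (mul_ne_zero two_ne_zero h0)
          rw [k0]
          ring
        simpa using this
      · have : v 1 = k / 2 * ζ 1 := by
          apply mul_left_cancel₀ (mul_ne_zero two_ne_zero h1')
          rw [k1]
          ring
        simpa using this
  · by_cases h1' : ζ 0 = 0
    · rw [h1'] at h2
      simp only [zero_mul, add_zero, zero_add] at h2
      have h3 : v 0 = 0 := by
        rcases mul_eq_zero.1 h2 with h4 | h4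
        · exact absurd h4 hr
        · exact (mul_eq_zero.1 h4).resolve_left h0
      refine ⟨v 1 / ζ 1, v2_ext ?_ ?_⟩
      · simp [h1', h3]
      · simp [h0]
    · refine ⟨k / 2, v2_ext ?_ ?_⟩
      · have : v 0 = k / 2 * ζ 0 := by
          apply mul_left_cancel₀ (mul_ne_zero two_ne_zero h1')
          rw [k0]
          ring
        simpa using this
      · have : v 1 = k / 2 * ζ 1 := by
          apply mul_left_cancel₀ (mul_ne_zero two_ne_zero h0)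
          rw [k1]
          ring
        simpa using this

theorem F_smul {c : ℂ} (hc : c ≠ 0) {ζ : V2} (h : ζ ≠ 0) : S.F hε (c • ζ) = S.F hε ζ := by
  have h' : c • ζ ≠ 0 := smul_ne_zero hc h
  obtain ⟨i, hi⟩ := A.cover (Γ.G (sqv ζ))
  have e1 : Γ.G (sqv (c • ζ)) = Γ.G (sqv ζ) := by
    rw [sqv_smul]
    exact Γ.smul _ (pow_ne_zero 2 hc) _ (sqv_ne h)
  have hi2 : Γ.G (sqv (c • ζ)) ∈ (A.e i).source := by rw [e1]; exact hi
  refine D.ext_X (i := i) (by rw [S.p_F hε h', S.p_F hε h, e1])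
    (by rw [S.p_F hε h']; exact hi2) fun a' => ?_
  rw [S.y_F hε h' hi2, S.y_F hε h hi]
  rcases S.eq_ab a' with rfl | rfl
  · rw [S.t_a, S.t_a, sqv_smul, ← S.fa.hom (c ^ 2) (pow_ne_zero 2 hc) _ (sqv_ne h) i hi]
    simp
  · rw [S.t_b, S.t_b, sqv_smul, ← S.fb.hom (c ^ 2) (pow_ne_zero 2 hc) _ (sqv_ne h) i hi]
    simp only [Pi.smul_apply, smul_eq_mul]
    ring

theorem F_inj {ζ ζ' : V2} (h : ζ ≠ 0) (h' : ζ' ≠ 0) (he : S.F hε ζ = S.F hε ζ') :
    ∃ d : ℂ, ζ' = d • ζ := by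
  obtain ⟨i, hi⟩ := A.cover (Γ.G (sqv ζ))
  have e1 : Γ.G (sqv ζ) = Γ.G (sqv ζ') := by
    rw [← S.p_F hε h, ← S.p_F hε h', he]
  have hi' : Γ.G (sqv ζ') ∈ (A.e i).source := by rw [← e1]; exact hi
  obtain ⟨c, hc⟩ := Γ.inj _ _ (sqv_ne h) (sqv_ne h') e1
  have hc0 : c ≠ 0 := by
    rintro rfl
    rw [zero_smul] at hc
    exact sqv_ne h' hc
  have e2 : S.t ε b i ζ = S.t ε b i ζ' := by
    rw [← S.y_F hε h hi, ← S.y_F hε h' hi', he]
  rw [S.t_b, S.t_b, hc, ← S.fb.hom c hc0 _ (sqv_ne h) i hi, pow_one] at e2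
  have hr : S.fb.r i (c • sqv ζ) ≠ 0 := by
    rw [← hc]
    exact S.fb.ne _ (sqv_ne h') i hi'
  refine sqv_inj h h' hc ?_
  apply mul_left_cancel₀ hr
  rw [← e2]
  ring

/-- **the sheet `ε` over the curve `Γ`** -/
def up {ε : ℂ} (hε : ε ^ 2 = 1) : HCur D.famX where
  G := S.F hε
  smul c hc ζ h := S.F_smul hε hc h
  ha ζ h := S.ha_F hε h
  imm ζ h := by
    obtain ⟨c, hc⟩ := D.famX.cover (S.F hε ζ)
    exact ⟨c, hc, fun v hv => S.ker_F hε h hc hv⟩
  inj ζ ζ' h h' he := S.F_inj hε h h' he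


end Sheet

end

end Crest.Agent.R272.Cyc_760
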