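import Crest.Agent.R273.Fam_835
import Crest.Agent.R275.ProdAtl_363

-- ▼ part R272/SubF_54
section

/-!
# R272 (S0415), MODEL tools (helper54): embedded submanifolds by slices, closures of graphs

`Slice F S n`   : a slice of the subset `S` of the complex manifold `(X, F)`: holomorphic
                  `φ : U → V` (parametrisation), `ψ : V → Cn n` (coordinates), `V` in a chart of `F`;
`slFam`         : the complex structure of `S` given by slices at all points
                  (`slFam_hol`, `slFam_lift`, `slFam_coord`, `slFam_of`);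
`GSlice F G O n`: the same for `S = closure G ∩ O`, all conditions being checked on `G` only
                  (`GSlice.toSlice`).
-/

set_option autoImplicit false
set_option linter.unusedSectionVars false

open Set Filter Topology Complex
open scoped ContDiff Matrix ComplexConjugate Manifold

namespace Crest.Agent.R272.SubF_54

open Crest.Agent.R275.Geo Crest.Agent.R273.Fam_835

noncomputable section

variable {n N k m : ℕ} {X P Q : Type} [TopologicalSpace X] [TopologicalSpace P]
  [TopologicalSpace Q] {F : Fam N X} {E : Fam k P} {H : Fam m Q} {S : Set X}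

/-- a slice of the subset `S` of the complex manifold `(X, F)` -/
structure Slice (F : Fam N X) (S : Set X) (n : ℕ) where
  j : F.ι
  V : Set (Cn N)
  U : Set (Cn n)
  φ : Cn n → Cn N
  ψ : Cn N → Cn n
  hV : IsOpen V
  hVt : V ⊆ (F.e j).target
  hU : IsOpen U
  φV : ∀ u ∈ U, φ u ∈ V
  φS : ∀ u ∈ U, (F.e j).symm (φ u) ∈ S
  dφ : DifferentiableOn ℂ φ U
  dψ : DifferentiableOn ℂ ψ V
  ψφ : ∀ u ∈ U, ψ (φ u) = u
  ψU : ∀ x ∈ S, x ∈ (F.e j).source → F.e j x ∈ V → ψ (F.e j x) ∈ U
  φψ : ∀ x ∈ S, x ∈ (F.e j).source → F.e j x ∈ V → φ (ψ (F.e j x)) = F.e j x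

namespace Slice

/-- the domain of the slice in `X` -/
def dom (c : Slice F S n) : Set X := (F.e c.j).source ∩ (F.e c.j) ⁻¹' c.V

theorem isOpen_dom (c : Slice F S n) : IsOpen c.dom :=
  (F.e c.j).isOpen_inter_preimage c.hV

/-- the point of `X` with coordinates `u` -/
def pt (c : Slice F S n) (u : Cn n) : X := (F.e c.j).symm (c.φ u)

theorem pt_mem (c : Slice F S n) {u : Cn n} (hu : u ∈ c.U) : c.pt u ∈ S := c.φS u hu

theorem pt_source (c : Slice F S n) {u : Cn n} (hu : u ∈ c.U) : c.pt u ∈ (F.e c.j).source :=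
  (F.e c.j).map_target (c.hVt (c.φV u hu))

theorem e_pt (c : Slice F S n) {u : Cn n} (hu : u ∈ c.U) : F.e c.j (c.pt u) = c.φ u :=
  (F.e c.j).right_inv (c.hVt (c.φV u hu))

theorem pt_dom (c : Slice F S n) {u : Cn n} (hu : u ∈ c.U) : c.pt u ∈ c.dom :=
  ⟨c.pt_source hu, by rw [mem_preimage, c.e_pt hu]; exact c.φV u hu⟩

theorem continuousOn_pt (c : Slice F S n) : ContinuousOn c.pt c.U :=
  (F.e c.j).continuousOn_symm.comp c.dφ.continuousOn fun u hu => c.hVt (c.φV u hu)

/-- the coordinates of a point -/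
def co (c : Slice F S n) (x : X) : Cn n := c.ψ (F.e c.j x)

theorem co_mem (c : Slice F S n) {x : X} (hS : x ∈ S) (hx : x ∈ c.dom) : c.co x ∈ c.U :=
  c.ψU x hS hx.1 hx.2

theorem pt_co (c : Slice F S n) {x : X} (hS : x ∈ S) (hx : x ∈ c.dom) : c.pt (c.co x) = x := by
  unfold pt co
  rw [c.φψ x hS hx.1 hx.2, (F.e c.j).left_inv hx.1]

theorem co_pt (c : Slice F S n) {u : Cn n} (hu : u ∈ c.U) : c.co (c.pt u) = u := by
  unfold co
  rw [c.e_pt hu, c.ψφ u hu]

theorem continuousOn_co (c : Slice F S n) : ContinuousOn c.co c.dom :=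
  c.dψ.continuousOn.comp ((F.e c.j).continuousOn.mono inter_subset_left) fun _ hx => hx.2

open Classical in
/-- the chart of `S` given by a slice -/
def chart (c : Slice F S n) (x₀ : S) : OpenPartialHomeomorph S (Cn n) where
  toFun x := c.co x.1
  invFun u := if h : c.pt u ∈ S then ⟨_, h⟩ else x₀
  source := Subtype.val ⁻¹' c.dom
  target := c.U
  map_source' x hx := c.co_mem x.2 hx
  map_target' u hu := by
    rw [dif_pos (c.pt_mem hu)]
    exact c.pt_dom hu
  left_inv' x hx := by
    have h1 : c.pt (c.co x.1) = x.1 := c.pt_co x.2 hx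
    have h2 : c.pt (c.co x.1) ∈ S := by rw [h1]; exact x.2
    rw [dif_pos h2]
    exact Subtype.ext h1
  right_inv' u hu := by
    rw [dif_pos (c.pt_mem hu)]
    exact c.co_pt hu
  open_source := c.isOpen_dom.preimage continuous_subtype_val
  open_target := c.hU
  continuousOn_toFun := c.continuousOn_co.comp continuous_subtype_val.continuousOn fun _ hx => hx
  continuousOn_invFun := by
    rw [Topology.IsInducing.subtypeVal.continuousOn_iff]
    refine c.continuousOn_pt.congr ?_
    intro u hu
    simp only [Function.comp]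
    rw [dif_pos (c.pt_mem hu)]

@[simp] theorem chart_apply (c : Slice F S n) (x₀ x : S) : c.chart x₀ x = c.co x.1 := rfl



theorem chart_symm (c : Slice F S n) (x₀ : S) {u : Cn n} (hu : u ∈ c.U) :
    ((c.chart x₀).symm u).1 = c.pt u := by
  have h1 : (c.chart x₀).symm u =
    (open Classical in if h : c.pt u ∈ S then ⟨_, h⟩ else x₀ : S) := rfl
  rw [h1, dif_pos (c.pt_mem hu)]


/-- the ambient point is a holomorphic function of the coordinates -/
theorem diffAt_pt (c : Slice F S n) (i : F.ι) {u : Cn n} (hu : u ∈ c.U)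
    (hi : c.pt u ∈ (F.e i).source) : DifferentiableAt ℂ (fun u => F.e i (c.pt u)) u := by
  have h1 : DifferentiableAt ℂ c.φ u := c.dφ.differentiableAt (c.hU.mem_nhds hu)
  have h2 : DifferentiableAt ℂ (fun z => F.e i ((F.e c.j).symm z)) (c.φ u) :=
    (F.holo c.j i).differentiableAt (((F.e c.j).isOpen_inter_preimage_symm
      (F.e i).open_source).mem_nhds ⟨c.hVt (c.φV u hu), hi⟩)
  exact DifferentiableAt.comp u (g := fun z => F.e i ((F.e c.j).symm z)) h2 h1

/-- transition between slices -/
theorem trans_diffAt (c c' : Slice F S n) {u : Cn n} (hu : u ∈ c.U) (h : c.pt u ∈ c'.dom) :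
    DifferentiableAt ℂ (fun u => c'.co (c.pt u)) u := by
  have h1 : DifferentiableAt ℂ (fun u => F.e c'.j (c.pt u)) u := c.diffAt_pt c'.j hu h.1
  have h2 : DifferentiableAt ℂ c'.ψ (F.e c'.j (c.pt u)) :=
    c'.dψ.differentiableAt (c'.hV.mem_nhds h.2)
  exact DifferentiableAt.comp u (g := c'.ψ) h2 h1

end Slice

/-- `S` has a slice of dimension `n` at every point -/
def IsSl (F : Fam N X) (S : Set X) (n : ℕ) : Prop := ∀ x ∈ S, ∃ c : Slice F S n, x ∈ c.dom

/-- a slice chosen at `x` -/
def IsSl.sl (h : IsSl F S n) (x : S) : Slice F S n := (h x.1 x.2).choose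

theorem IsSl.mem_sl (h : IsSl F S n) (x : S) : x.1 ∈ (h.sl x).dom := (h x.1 x.2).choose_spec

/-- the complex structure of `S` -/
def slFam (h : IsSl F S n) : Fam n S where
  ι := S
  e x := (h.sl x).chart x
  cover x := ⟨x, h.mem_sl x⟩
  holo x y := by
    rintro u ⟨hu, hu'⟩
    refine DifferentiableAt.differentiableWithinAt ?_
    set c := h.sl x
    set c' := h.sl y
    have hu1 : u ∈ c.U := hu
    have h1 : c.pt u ∈ c'.dom := by
      have h2 : (((c.chart x).symm u).1) ∈ c'.dom := hu'
      rwa [c.chart_symm x hu1] at h2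
    refine (c.trans_diffAt c' hu1 h1).congr_of_eventuallyEq ?_
    filter_upwards [c.hU.mem_nhds hu1] with w hw
    rw [Slice.chart_apply, c.chart_symm x hw]

/-- the inclusion is holomorphic -/
theorem slFam_hol (h : IsSl F S n) : HolC (slFam h) F Subtype.val := by
  refine holC_of_local continuous_subtype_val fun x => ?_
  obtain ⟨j, hj⟩ := F.cover x.1
  refine ⟨x, j, h.mem_sl x, hj, ?_⟩
  set c := h.sl x with hc
  have hxd : x.1 ∈ c.dom := h.mem_sl x
  have hu : c.co x.1 ∈ c.U := c.co_mem x.2 hxd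
  have e1 : c.pt (c.co x.1) = x.1 := c.pt_co x.2 hxd
  have h1 := c.diffAt_pt j hu (by rw [e1]; exact hj)
  refine h1.congr_of_eventuallyEq ?_
  filter_upwards [c.hU.mem_nhds hu] with w hw
  show F.e j (((c.chart x).symm w).1) = _
  rw [c.chart_symm x hw]

/-- holomorphic maps into `S` -/
theorem slFam_lift (h : IsSl F S n) {f : P → S} (hf : HolC E F (fun x => (f x).1)) :
    HolC E (slFam h) f := by
  have hfc : Continuous f := continuous_induced_rng.2 hf.cont
  refine holC_of_local hfc fun x => ?_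
  obtain ⟨i, hi⟩ := E.cover x
  refine ⟨i, f x, hi, h.mem_sl (f x), ?_⟩
  set c := h.sl (f x) with hc
  have hxd : (f x).1 ∈ c.dom := h.mem_sl (f x)
  have h1 : DifferentiableAt ℂ (fun z => F.e c.j ((f ((E.e i).symm z)).1)) (E.e i x) :=
    hf.diffAt ((E.e i).map_source hi) (by rw [(E.e i).left_inv hi]; exact hxd.1)
  have e1 : F.e c.j ((f ((E.e i).symm (E.e i x))).1) = F.e c.j (f x).1 := by
    rw [(E.e i).left_inv hi]
  have h2 : DifferentiableAt ℂ c.ψ (F.e c.j (f x).1) :=
    c.dψ.differentiableAt (c.hV.mem_nhds hxd.2)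
  exact DifferentiableAt.comp (E.e i x) (g := c.ψ) (by rw [e1]; exact h2) h1

theorem slFam_lift_iff (h : IsSl F S n) {f : P → S} :
    HolC E (slFam h) f ↔ HolC E F (fun x => (f x).1) :=
  ⟨fun h1 => (slFam_hol h).comp h1, slFam_lift h⟩



/-! ### closures of (multivalued) graphs -/

/-- slice of `closure G ∩ O`; the conditions are checked on `G` -/
structure GSlice (F : Fam N X) (G O : Set X) (n : ℕ) where
  j : F.ι
  V : Set (Cn N)
  U : Set (Cn n)
  φ : Cn n → Cn N
  ψ : Cn N → Cn n
  hV : IsOpen V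
  hVt : V ⊆ (F.e j).target
  hU : IsOpen U
  φV : ∀ u ∈ U, φ u ∈ V
  φO : ∀ u ∈ U, (F.e j).symm (φ u) ∈ O
  D : Set (Cn n)
  dense : U ⊆ closure (U ∩ D)
  φG : ∀ u ∈ U, u ∈ D → (F.e j).symm (φ u) ∈ G
  dφ : DifferentiableOn ℂ φ U
  dψ : DifferentiableOn ℂ ψ V
  ψφ : ∀ u ∈ U, ψ (φ u) = u
  ψU : ∀ v ∈ V, ψ v ∈ U
  φψ : ∀ x ∈ G, x ∈ (F.e j).source → F.e j x ∈ V → φ (ψ (F.e j x)) = F.e j x

/-- a closed relation which holds on `G ∩ W`, `W` open, holds on `closure G ∩ W` -/
theorem closure_rel {Y : Type*} [TopologicalSpace Y] [T2Space Y] {G W : Set X} (hW : IsOpen W)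
    {f g : X → Y} (hf : ContinuousOn f W) (hg : ContinuousOn g W)
    (h : ∀ x ∈ G, x ∈ W → f x = g x) : ∀ x ∈ closure G, x ∈ W → f x = g x := by
  intro x hx hxW
  have hf' : ContinuousAt f x := hf.continuousAt (hW.mem_nhds hxW)
  have hg' : ContinuousAt g x := hg.continuousAt (hW.mem_nhds hxW)
  have hne : (𝓝[G] x).NeBot := mem_closure_iff_nhdsWithin_neBot.1 hx
  have h1 : Tendsto f (𝓝[G] x) (𝓝 (f x)) := hf'.mono_left nhdsWithin_le_nhds
  have h2 : Tendsto g (𝓝[G] x) (𝓝 (g x)) := hg'.mono_left nhdsWithin_le_nhds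
  refine tendsto_nhds_unique (h1.congr' ?_) h2
  filter_upwards [self_mem_nhdsWithin, mem_nhdsWithin_of_mem_nhds (hW.mem_nhds hxW)] with y h3 h4
  exact h y h3 h4

/-- the slice of the closure -/
def GSlice.toSlice {G O : Set X} (c : GSlice F G O n) : Slice F (closure G ∩ O) n where
  j := c.j
  V := c.V
  U := c.U
  φ := c.φ
  ψ := c.ψ
  hV := c.hV
  hVt := c.hVt
  hU := c.hU
  φV := c.φV
  dφ := c.dφ
  dψ := c.dψ
  ψφ := c.ψφ
  ψU _ _ _ hx := c.ψU _ hx
  φS u hu := by
    refine ⟨?_, c.φO u hu⟩
    have h1 : ContinuousOn (fun u => (F.e c.j).symm (c.φ u)) c.U :=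
      (F.e c.j).continuousOn_symm.comp c.dφ.continuousOn fun u hu => c.hVt (c.φV u hu)
    have h2 : ContinuousAt (fun u => (F.e c.j).symm (c.φ u)) u :=
      h1.continuousAt (c.hU.mem_nhds hu)
    have hne : (𝓝[c.U ∩ c.D] u).NeBot := mem_closure_iff_nhdsWithin_neBot.1 (c.dense hu)
    refine mem_closure_of_tendsto (h2.mono_left (nhdsWithin_le_nhds (s := c.U ∩ c.D))) ?_
    filter_upwards [self_mem_nhdsWithin] with w hw
    exact c.φG w hw.1 hw.2
  φψ x hx hs hV := by
    refine closure_rel (G := G) (W := (F.e c.j).source ∩ (F.e c.j) ⁻¹' c.V)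
      ((F.e c.j).isOpen_inter_preimage c.hV) (f := fun x => c.φ (c.ψ (F.e c.j x)))
      (g := F.e c.j) ?_ ((F.e c.j).continuousOn.mono inter_subset_left) ?_ x hx.1 ⟨hs, hV⟩
    · refine c.dφ.continuousOn.comp (c.dψ.continuousOn.comp
        ((F.e c.j).continuousOn.mono inter_subset_left) fun _ hx => hx.2) ?_
      exact fun y hy => c.ψU _ hy.2
    · exact fun y hy hyW => c.φψ y hy hyW.1 hyW.2

@[simp] theorem GSlice.toSlice_dom {G O : Set X} (c : GSlice F G O n) :
    c.toSlice.dom = (F.e c.j).source ∩ (F.e c.j) ⁻¹' c.V := rfl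

end

end Crest.Agent.R272.SubF_54
end

-- ▼ part R272/FamP_54

/-!
# R272 (S0415), MODEL tools (helper54): products of families, scalar holomorphic functions

`prodFam F G : Fam (n + m) (X × Y)` : charts `(x, y) ↦ app (F.e i x) (G.e j y)`;
`prod_fst`, `prod_snd`, `HolC.prodMk`, `holC_prod_iff`;
`HF F U f` : the function `f : X → ℂ` is holomorphic on the open set `U` (in the charts of `F`);
`HFA F f x`: the same at the point `x` (differentiable in the charts at `x`).
-/

set_option autoImplicit false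
set_option linter.unusedSectionVars false

open Set Filter Topology Complex
open scoped ContDiff Matrix ComplexConjugate Manifold

namespace Crest.Agent.R272.FamP_54

open Crest.Agent.R275.Geo Crest.Agent.R273.Fam_835 Crest.Agent.R275.Prod363

noncomputable section

variable {n N k m l : ℕ} {X Y P Q : Type} [TopologicalSpace X] [TopologicalSpace P]
  [TopologicalSpace Q] [TopologicalSpace Y] {F : Fam N X} {G : Fam m Y} {E : Fam k P}
  {H : Fam l Q}

/-! ### products -/

/-- chart of a product -/
def prodE (e : OpenPartialHomeomorph X (Cn N)) (e' : OpenPartialHomeomorph Y (Cn m)) :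
    OpenPartialHomeomorph (X × Y) (Cn (N + m)) :=
  (e.prod e').transHomeomorph (appH N m).toHomeomorph

@[simp] theorem prodE_apply (e : OpenPartialHomeomorph X (Cn N))
    (e' : OpenPartialHomeomorph Y (Cn m)) (p : X × Y) : prodE e e' p = app (e p.1) (e' p.2) := rfl

@[simp] theorem prodE_symm (e : OpenPartialHomeomorph X (Cn N))
    (e' : OpenPartialHomeomorph Y (Cn m)) (z : Cn (N + m)) :
    (prodE e e').symm z = (e.symm (fstL N m z), e'.symm (sndL N m z)) := rfl

@[simp] theorem prodE_source (e : OpenPartialHomeomorph X (Cn N))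
    (e' : OpenPartialHomeomorph Y (Cn m)) : (prodE e e').source = e.source ×ˢ e'.source := rfl


/-- the product family -/
def prodFam (F : Fam N X) (G : Fam m Y) : Fam (N + m) (X × Y) where
  ι := F.ι × G.ι
  e i := prodE (F.e i.1) (G.e i.2)
  cover x := by
    obtain ⟨i, hi⟩ := F.cover x.1
    obtain ⟨j, hj⟩ := G.cover x.2
    exact ⟨(i, j), hi, hj⟩
  holo i j := by
    rintro z ⟨hz1, hz2⟩
    refine DifferentiableAt.differentiableWithinAt ?_
    have h1 : DifferentiableAt ℂ (fun w => F.e j.1 ((F.e i.1).symm w)) (fstL N m z) :=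
      (F.holo i.1 j.1).differentiableAt (((F.e i.1).isOpen_inter_preimage_symm
        (F.e j.1).open_source).mem_nhds ⟨hz1.1, hz2.1⟩)
    have h2 : DifferentiableAt ℂ (fun w => G.e j.2 ((G.e i.2).symm w)) (sndL N m z) :=
      (G.holo i.2 j.2).differentiableAt (((G.e i.2).isOpen_inter_preimage_symm
        (G.e j.2).open_source).mem_nhds ⟨hz1.2, hz2.2⟩)
    have h3 : DifferentiableAt ℂ (fun z => F.e j.1 ((F.e i.1).symm (fstL N m z))) z :=
      DifferentiableAt.comp z (g := fun w => F.e j.1 ((F.e i.1).symm w)) h1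
        (fstL N m).differentiableAt
    have h4 : DifferentiableAt ℂ (fun z => G.e j.2 ((G.e i.2).symm (sndL N m z))) z :=
      DifferentiableAt.comp z (g := fun w => G.e j.2 ((G.e i.2).symm w)) h2
        (sndL N m).differentiableAt
    exact DifferentiableAt.comp z (g := appL N m) (appL N m).differentiableAt (h3.prodMk h4)


theorem prod_fst : HolC (prodFam F G) F Prod.fst := by
  refine holC_of_local continuous_fst fun x => ?_
  obtain ⟨i, hi⟩ := F.cover x.1
  obtain ⟨j, hj⟩ := G.cover x.2
  refine ⟨(i, j), i, ⟨hi, hj⟩, hi, ?_⟩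
  have h1 : DifferentiableAt ℂ (fun z => fstL N m z) (prodE (F.e i) (G.e j) x) :=
    (fstL N m).differentiableAt
  refine h1.congr_of_eventuallyEq ?_
  filter_upwards [(prodE (F.e i) (G.e j)).open_target.mem_nhds
    ((prodE (F.e i) (G.e j)).map_source ⟨hi, hj⟩)] with z hz
  exact (F.e i).right_inv hz.1

theorem prod_snd : HolC (prodFam F G) G Prod.snd := by
  refine holC_of_local continuous_snd fun x => ?_
  obtain ⟨i, hi⟩ := F.cover x.1
  obtain ⟨j, hj⟩ := G.cover x.2
  refine ⟨(i, j), j, ⟨hi, hj⟩, hj, ?_⟩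
  have h1 : DifferentiableAt ℂ (fun z => sndL N m z) (prodE (F.e i) (G.e j) x) :=
    (sndL N m).differentiableAt
  refine h1.congr_of_eventuallyEq ?_
  filter_upwards [(prodE (F.e i) (G.e j)).open_target.mem_nhds
    ((prodE (F.e i) (G.e j)).map_source ⟨hi, hj⟩)] with z hz
  exact (G.e j).right_inv hz.2

theorem prodMk {f : P → X} {g : P → Y} (hf : HolC E F f) (hg : HolC E G g) :
    HolC E (prodFam F G) (fun x => (f x, g x)) := by
  refine ⟨hf.cont.prodMk hg.cont, fun i j => ?_⟩
  rintro z ⟨hz, hz2⟩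
  refine DifferentiableAt.differentiableWithinAt ?_
  have h3 : DifferentiableAt ℂ (fun z => F.e j.1 (f ((E.e i).symm z))) z := hf.diffAt hz hz2.1
  have h4 : DifferentiableAt ℂ (fun z => G.e j.2 (g ((E.e i).symm z))) z := hg.diffAt hz hz2.2
  exact DifferentiableAt.comp z (g := appL N m) (appL N m).differentiableAt (h3.prodMk h4)

theorem holC_prod_iff {f : P → X × Y} :
    HolC E (prodFam F G) f ↔ HolC E F (fun x => (f x).1) ∧ HolC E G (fun x => (f x).2) :=
  ⟨fun h => ⟨prod_fst.comp h, prod_snd.comp h⟩, fun h => prodMk h.1 h.2⟩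

/-- product of maps -/
theorem prodMap {f : P → X} {g : Q → Y} (hf : HolC E F f) (hg : HolC H G g) :
    HolC (prodFam E H) (prodFam F G) (fun x => (f x.1, g x.2)) :=
  prodMk (hf.comp prod_fst) (hg.comp prod_snd)


/-! ### the model families -/

/-- `Cn n` as a manifold -/
def cnFam (n : ℕ) : Fam n (Cn n) where
  ι := Unit
  e _ := OpenPartialHomeomorph.refl _
  cover _ := ⟨(), mem_univ _⟩
  holo _ _ := differentiableOn_id

/-- the coordinate -/
def oneL : ℂ ≃L[ℂ] Cn 1 :=
  ContinuousLinearEquiv.equivOfInverse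
    (LinearMap.toContinuousLinearMap
      { toFun := fun z => WithLp.toLp 2 (fun _ => z)
        map_add' := fun _ _ => rfl
        map_smul' := fun _ _ => rfl })
    (LinearMap.toContinuousLinearMap
      { toFun := fun z => z 0
        map_add' := fun _ _ => rfl
        map_smul' := fun _ _ => rfl })
    (fun _ => rfl) (fun z => by ext a; fin_cases a; rfl)

@[simp] theorem oneL_apply (c : ℂ) (a : Fin 1) : oneL c a = c := rfl

@[simp] theorem oneL_symm_apply (z : Cn 1) : oneL.symm z = z 0 := rfl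

/-- `ℂ` as a manifold -/
def cFam : Fam 1 ℂ where
  ι := Unit
  e _ := oneL.toHomeomorph.toOpenPartialHomeomorph
  cover _ := ⟨(), mem_univ _⟩
  holo _ _ := by
    have h : (fun z : Cn 1 => oneL (oneL.symm z)) = id := by
      funext z; exact oneL.apply_symm_apply z
    show DifferentiableOn ℂ (fun z : Cn 1 => oneL (oneL.symm z)) _
    rw [h]
    exact differentiableOn_id

@[simp] theorem cFam_apply (i : cFam.ι) (c : ℂ) : cFam.e i c = oneL c := rfl

@[simp] theorem cFam_symm (i : cFam.ι) (z : Cn 1) : (cFam.e i).symm z = z 0 := rfl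

@[simp] theorem cFam_source (i : cFam.ι) : (cFam.e i).source = univ := rfl

@[simp] theorem cFam_target (i : cFam.ι) : (cFam.e i).target = univ := rfl

/-! ### scalar functions -/

section scalar

variable {W : Type*} [NormedAddCommGroup W] [NormedSpace ℂ W]

/-- `f` is complex differentiable at `x` in the charts -/
def HFA (F : Fam N X) (f : X → W) (x : X) : Prop :=
  ∀ i, x ∈ (F.e i).source → DifferentiableAt ℂ (fun z => f ((F.e i).symm z)) (F.e i x)

/-- `f` is holomorphic on the (open) set `U` -/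
def HF (F : Fam N X) (U : Set X) (f : X → W) : Prop := ∀ x ∈ U, HFA F f x

theorem HFA.of {f : X → W} {x : X} (i : F.ι) (hi : x ∈ (F.e i).source)
    (h : DifferentiableAt ℂ (fun z => f ((F.e i).symm z)) (F.e i x)) : HFA F f x := by
  intro j hj
  have h1 : DifferentiableAt ℂ (fun z => F.e i ((F.e j).symm z)) (F.e j x) :=
    (F.holo j i).differentiableAt (((F.e j).isOpen_inter_preimage_symm
      (F.e i).open_source).mem_nhds ⟨(F.e j).map_source hj, by
        rw [mem_preimage, (F.e j).left_inv hj]; exact hi⟩)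
  have e1 : F.e i ((F.e j).symm (F.e j x)) = F.e i x := by rw [(F.e j).left_inv hj]
  have h2 : DifferentiableAt ℂ (fun z => f ((F.e i).symm (F.e i ((F.e j).symm z)))) (F.e j x) :=
    DifferentiableAt.comp (F.e j x) (g := fun z => f ((F.e i).symm z)) (by rw [e1]; exact h) h1
  refine h2.congr_of_eventuallyEq ?_
  have h3 : ContinuousAt (F.e j).symm (F.e j x) := (F.e j).continuousAt_symm
    ((F.e j).map_source hj)
  have h4 : ∀ᶠ z in 𝓝 (F.e j x), (F.e j).symm z ∈ (F.e i).source :=
    h3.preimage_mem_nhds (by rw [(F.e j).left_inv hj]; exact (F.e i).open_source.mem_nhds hi)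
  filter_upwards [h4] with z hz
  rw [(F.e i).left_inv hz]

theorem HFA.continuousAt {f : X → W} {x : X} (h : HFA F f x) : ContinuousAt f x := by
  obtain ⟨i, hi⟩ := F.cover x
  have h1 : ContinuousAt (fun y => f ((F.e i).symm (F.e i y))) x :=
    ContinuousAt.comp (g := fun z => f ((F.e i).symm z)) (h i hi).continuousAt
      ((F.e i).continuousAt hi)
  refine h1.congr ?_
  filter_upwards [(F.e i).open_source.mem_nhds hi] with y hy
  rw [(F.e i).left_inv hy]

theorem HF.continuousOn {f : X → W} {U : Set X} (h : HF F U f) : ContinuousOn f U :=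
  fun x hx => (h x hx).continuousAt.continuousWithinAt

theorem HF.continuous {f : X → W} (h : HF F univ f) : Continuous f :=
  continuous_iff_continuousAt.2 fun x => (h x trivial).continuousAt

theorem HF.mono {f : X → W} {U V : Set X} (h : HF F U f) (hVU : V ⊆ U) : HF F V f :=
  fun x hx => h x (hVU hx)

/-- near `x`, in the chart `i` -/
theorem eventually_chart {i : F.ι} {x : X} (hx : x ∈ (F.e i).source) {T : X → Prop}
    (hT : ∀ᶠ y in 𝓝 x, T y) : ∀ᶠ z in 𝓝 (F.e i x), T ((F.e i).symm z) := by
  have h1 : ContinuousAt (F.e i).symm (F.e i x) :=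
    (F.e i).continuousAt_symm ((F.e i).map_source hx)
  refine h1.eventually ?_
  rw [(F.e i).left_inv hx]
  exact hT

theorem HFA.congr {f g : X → W} {x : X} (h : HFA F f x) (he : ∀ᶠ y in 𝓝 x, g y = f y) :
    HFA F g x := fun i hi => (h i hi).congr_of_eventuallyEq (eventually_chart hi he)

theorem HF.congr {f g : X → W} {U : Set X} (hU : IsOpen U) (h : HF F U f)
    (he : ∀ x ∈ U, g x = f x) : HF F U g :=
  fun x hx => (h x hx).congr (by filter_upwards [hU.mem_nhds hx] with y hy using he y hy)

theorem HFA.const (c : W) (x : X) : HFA F (fun _ => c) x := fun _ _ => differentiableAt_const _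

theorem HFA.add {f g : X → W} {x : X} (hf : HFA F f x) (hg : HFA F g x) :
    HFA F (fun y => f y + g y) x := fun i hi => (hf i hi).add (hg i hi)

theorem HFA.sub {f g : X → W} {x : X} (hf : HFA F f x) (hg : HFA F g x) :
    HFA F (fun y => f y - g y) x := fun i hi => (hf i hi).sub (hg i hi)

theorem HFA.neg {f : X → W} {x : X} (hf : HFA F f x) : HFA F (fun y => - f y) x :=
  fun i hi => (hf i hi).neg

theorem HFA.mul {f g : X → ℂ} {x : X} (hf : HFA F f x) (hg : HFA F g x) :
    HFA F (fun y => f y * g y) x := fun i hi => (hf i hi).mul (hg i hi)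

theorem HFA.smul {f : X → ℂ} {g : X → W} {x : X} (hf : HFA F f x) (hg : HFA F g x) :
    HFA F (fun y => f y • g y) x := fun i hi => (hf i hi).smul (hg i hi)

theorem HFA.pow {f : X → ℂ} {x : X} (hf : HFA F f x) (r : ℕ) : HFA F (fun y => f y ^ r) x :=
  fun i hi => (hf i hi).pow r

theorem HFA.inv {f : X → ℂ} {x : X} (hf : HFA F f x) (h0 : f x ≠ 0) :
    HFA F (fun y => (f y)⁻¹) x :=
  fun i hi => (hf i hi).fun_inv (by rw [(F.e i).left_inv hi]; exact h0)

theorem HFA.div {f g : X → ℂ} {x : X} (hf : HFA F f x) (hg : HFA F g x) (h0 : g x ≠ 0) :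
    HFA F (fun y => f y / g y) x := by
  simpa only [div_eq_mul_inv] using hf.mul (hg.inv h0)

theorem HFA.prod {ι : Type*} (s : Finset ι) {f : ι → X → ℂ} {x : X}
    (h : ∀ i ∈ s, HFA F (f i) x) : HFA F (fun y => ∏ i ∈ s, f i y) x := by
  classical
  induction s using Finset.induction_on with
  | empty => simpa using HFA.const (F := F) (1 : ℂ) x
  | insert a s ha ih =>
    have h1 := (h a (Finset.mem_insert_self _ _)).mul
      (ih fun i hi => h i (Finset.mem_insert_of_mem hi))
    refine h1.congr (Eventually.of_forall fun y => ?_)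
    rw [Finset.prod_insert ha]

theorem HFA.sum {ι : Type*} (s : Finset ι) {f : ι → X → W} {x : X}
    (h : ∀ i ∈ s, HFA F (f i) x) : HFA F (fun y => ∑ i ∈ s, f i y) x := by
  classical
  induction s using Finset.induction_on with
  | empty => simpa using HFA.const (F := F) (0 : W) x
  | insert a s ha ih =>
    have h1 := (h a (Finset.mem_insert_self _ _)).add
      (ih fun i hi => h i (Finset.mem_insert_of_mem hi))
    refine h1.congr (Eventually.of_forall fun y => ?_)
    rw [Finset.sum_insert ha]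

/-- composition with a differentiable map of normed spaces -/
theorem HFA.comp_left {W' : Type*} [NormedAddCommGroup W'] [NormedSpace ℂ W'] {f : X → W}
    {g : W → W'} {x : X} (hg : DifferentiableAt ℂ g (f x)) (hf : HFA F f x) :
    HFA F (fun y => g (f y)) x := fun i hi =>
  DifferentiableAt.comp (F.e i x) (g := g) (f := fun z => f ((F.e i).symm z))
    (by simp only [(F.e i).left_inv hi]; exact hg) (hf i hi)

/-- composition with a holomorphic map of manifolds -/
theorem HFA.comp_right {f : X → W} {p : P → X} {x : P} (hf : HFA F f (p x)) (hp : HolC E F p) :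
    HFA E (fun y => f (p y)) x := by
  intro i hi
  obtain ⟨j, hj⟩ := F.cover (p x)
  have h1 : DifferentiableAt ℂ (fun z => F.e j (p ((E.e i).symm z))) (E.e i x) :=
    hp.diffAt ((E.e i).map_source hi) (by rw [(E.e i).left_inv hi]; exact hj)
  have e1 : F.e j (p ((E.e i).symm (E.e i x))) = F.e j (p x) := by rw [(E.e i).left_inv hi]
  have h2 : DifferentiableAt ℂ (fun z => f ((F.e j).symm (F.e j (p ((E.e i).symm z)))))
      (E.e i x) :=
    DifferentiableAt.comp (E.e i x) (g := fun z => f ((F.e j).symm z))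
      (by rw [e1]; exact hf j hj) h1
  refine h2.congr_of_eventuallyEq ?_
  have h4 : ∀ᶠ z in 𝓝 (E.e i x), p ((E.e i).symm z) ∈ (F.e j).source :=
    eventually_chart hi (hp.cont.continuousAt.preimage_mem_nhds
      ((F.e j).open_source.mem_nhds hj))
  filter_upwards [h4] with z hz
  rw [(F.e j).left_inv hz]

theorem HF.comp_right {f : X → W} {U : Set X} {p : P → X} (hf : HF F U f) (hp : HolC E F p) :
    HF E (p ⁻¹' U) (fun y => f (p y)) := fun x hx => HFA.comp_right (hf (p x) hx) hp

/-- the coordinates of a chart are holomorphic -/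
theorem hfa_chart {i : F.ι} {x : X} (hi : x ∈ (F.e i).source) : HFA F (fun y => F.e i y) x := by
  refine HFA.of i hi ?_
  have h1 : DifferentiableAt ℂ (fun z : Cn N => z) (F.e i x) := differentiableAt_id
  refine h1.congr_of_eventuallyEq ?_
  filter_upwards [(F.e i).open_target.mem_nhds ((F.e i).map_source hi)] with z hz
  exact (F.e i).right_inv hz

/-- maps into a manifold are holomorphic iff they are continuous and their coordinates are -/
theorem holC_iff_hfa {p : P → X} (hc : Continuous p) :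
    HolC E F p ↔ ∀ x, ∃ j, p x ∈ (F.e j).source ∧ HFA E (fun y => F.e j (p y)) x := by
  constructor
  · intro h x
    obtain ⟨j, hj⟩ := F.cover (p x)
    exact ⟨j, hj, HFA.comp_right (hfa_chart hj) h⟩
  · intro h
    refine holC_of_local hc fun x => ?_
    obtain ⟨i, hi⟩ := E.cover x
    obtain ⟨j, hj, h1⟩ := h x
    exact ⟨i, j, hi, hj, h1 i hi⟩


/-- in `Cn n` : plain differentiability -/
theorem hfa_cn {f : Cn n → W} {x : Cn n} : HFA (cnFam n) f x ↔ DifferentiableAt ℂ f x :=
  ⟨fun h => h () trivial, fun h _ _ => h⟩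

theorem hfa_c {f : ℂ → W} {x : ℂ} : HFA cFam f x ↔ DifferentiableAt ℂ f x := by
  constructor
  · intro h
    have h1 := h () trivial
    have h2 : DifferentiableAt ℂ (fun c : ℂ => f ((cFam.e ()).symm (oneL c))) x :=
      DifferentiableAt.comp x (g := fun z => f ((cFam.e ()).symm z)) h1 oneL.differentiableAt
    exact h2
  · intro h i hi
    refine DifferentiableAt.comp (cFam.e i x) (g := f) (f := fun z : Cn 1 => z 0) ?_ ?_
    · simpa using h
    · exact (oneL.symm : Cn 1 ≃L[ℂ] ℂ).differentiableAt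

end scalar

/-! ### functions on submanifolds given by slices -/

open Crest.Agent.R272.SubF_54



end

end Crest.Agent.R272.FamP_54
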