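import Crest.Agent.R272.Root5_83
import Crest.Agent.R272.FamP_54
import Crest.Agent.R272.CpRat2_423
import Crest.Agent.R272.DCov4_426

/-!
# R272, S14-ASM (helper414): rational curves (`P1C` of 423) by functions

`CurveAt C g z` : `g : ℂ → X` is continuous and complex differentiable at `z` in the charts of the family `C`;
`P1F C` : parametrised curve `g false`, `g true` (= `g false (1/z)`) such that at every point ONE function, complex
differentiable in the charts, has nonzero derivative along the curve;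
`P1F.cv` : the `P1C A'` for every atlas `A'` compatible with `C` (`Cmp C A'`), with the same image;
`trans_of` : transversality from two functions; `isConnected_img`, `isCompact_img`.
-/

set_option autoImplicit false
set_option linter.unusedSectionVars false

open Set Filter Topology

namespace Crest.Agent.R272.P1F_414

open Crest.Agent.R275.Geo Crest.Agent.R273.Fam_835
open Crest.Agent.R272.CpRat423 Crest.Agent.R272.DCov_426 Crest.Agent.R272.FamP_54

noncomputable section

variable {n m : ℕ} {X Y : Type} [TopologicalSpace X] [TopologicalSpace Y] {C : Fam n X}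
  {D : Fam m Y}

/-- `g` is continuous and complex differentiable at `z`, read in the charts of `C` -/
def CurveAt (C : Fam n X) (g : ℂ → X) (z : ℂ) : Prop :=
  ContinuousAt g z ∧ ∀ i, g z ∈ (C.e i).source → DifferentiableAt ℂ (fun w => C.e i (g w)) z

theorem comp_chart {g : ℂ → X} {z : ℂ} (hc : ContinuousAt g z) {i : C.ι}
    (hi : g z ∈ (C.e i).source) (hd : DifferentiableAt ℂ (fun w => C.e i (g w)) z)
    {W : Type*} [NormedAddCommGroup W] [NormedSpace ℂ W] {f : X → W}
    (hf : DifferentiableAt ℂ (fun w => f ((C.e i).symm w)) (C.e i (g z))) :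
    HasDerivAt (fun w => f (g w)) (fderiv ℂ (fun w => f ((C.e i).symm w)) (C.e i (g z))
      (deriv (fun w => C.e i (g w)) z)) z := by
  have h3 := hf.hasFDerivAt.comp_hasDerivAt z hd.hasDerivAt
  refine h3.congr_of_eventuallyEq ?_
  filter_upwards [hc.eventually ((C.e i).open_source.mem_nhds hi)] with w hw
  simp only [Function.comp, (C.e i).left_inv hw]

/-- one chart is enough -/
theorem CurveAt.of {g : ℂ → X} {z : ℂ} (hc : ContinuousAt g z) (i : C.ι)
    (hi : g z ∈ (C.e i).source) (hd : DifferentiableAt ℂ (fun w => C.e i (g w)) z) :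
    CurveAt C g z := by
  refine ⟨hc, fun j hj => ?_⟩
  have ho : IsOpen ((C.e i).target ∩ (C.e i).symm ⁻¹' (C.e j).source) :=
    (C.e i).isOpen_inter_preimage_symm (C.e j).open_source
  have h2 : DifferentiableAt ℂ (fun w => C.e j ((C.e i).symm w)) (C.e i (g z)) :=
    (C.holo i j).differentiableAt (ho.mem_nhds ⟨(C.e i).map_source hi, by
      rw [mem_preimage, (C.e i).left_inv hi]; exact hj⟩)
  exact (comp_chart hc hi hd h2).differentiableAt


/-- curves are mapped to curves -/
theorem CurveAt.map {g : ℂ → X} {z : ℂ} (h : CurveAt C g z) {p : X → Y} (hp : HolC C D p) :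
    CurveAt D (fun w => p (g w)) z := by
  obtain ⟨i, hi⟩ := C.cover (g z)
  obtain ⟨j, hj⟩ := D.cover (p (g z))
  refine CurveAt.of (ContinuousAt.comp (f := g) hp.cont.continuousAt h.1) j hj ?_
  have h2 := hp.diffAt (i := i) (j := j) ((C.e i).map_source hi)
    (by rw [(C.e i).left_inv hi]; exact hj)
  exact (comp_chart h.1 hi (h.2 i hi) (f := fun x => D.e j (p x)) h2).differentiableAt


/-- a function along a curve -/
theorem CurveAt.deriv_comp {g : ℂ → X} {z : ℂ} (h : CurveAt C g z) {f : X → ℂ}
    (hf : HFA C f (g z)) {i : C.ι} (hi : g z ∈ (C.e i).source) :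
    deriv (fun w => f (g w)) z = fderiv ℂ (fun w => f ((C.e i).symm w)) (C.e i (g z))
      (deriv (fun w => C.e i (g w)) z) :=
  (comp_chart h.1 hi (h.2 i hi) (hf i hi)).deriv


theorem CurveAt.deriv_ne {g : ℂ → X} {z : ℂ} (h : CurveAt C g z) {f : X → ℂ}
    (hf : HFA C f (g z)) (h0 : deriv (fun w => f (g w)) z ≠ 0) {i : C.ι}
    (hi : g z ∈ (C.e i).source) : deriv (fun w => C.e i (g w)) z ≠ 0 := by
  intro h1
  rw [h.deriv_comp hf hi, h1, map_zero] at h0
  exact h0 rfl

/-- transport of differentiability to a compatible atlas -/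
theorem hfa_to {A' : Atl n X} (hc : Cmp C A') {f : X → ℂ} {x : X} (hf : HFA C f x) :
    HFA (fam A') f x := by
  intro i hi
  obtain ⟨j, hj⟩ := C.cover x
  have h1 : DifferentiableAt ℂ (fun z => C.e j (((fam A').e i).symm z)) ((fam A').e i x) :=
    hc.fwd.diffAt (((fam A').e i).map_source hi) (by
      show ((fam A').e i).symm ((fam A').e i x) ∈ (C.e j).source
      rw [((fam A').e i).left_inv hi]; exact hj)
  have e1 : C.e j (((fam A').e i).symm ((fam A').e i x)) = C.e j x := by
    rw [((fam A').e i).left_inv hi]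
  have h2 : DifferentiableAt ℂ (fun z => f ((C.e j).symm (C.e j (((fam A').e i).symm z))))
      ((fam A').e i x) :=
    DifferentiableAt.comp ((fam A').e i x) (g := fun z => f ((C.e j).symm z))
      (by rw [e1]; exact hf j hj) h1
  refine h2.congr_of_eventuallyEq ?_
  have h3 : ContinuousAt ((fam A').e i).symm ((fam A').e i x) :=
    ((fam A').e i).continuousAt_symm (((fam A').e i).map_source hi)
  have h4 : ∀ᶠ z in 𝓝 ((fam A').e i x), ((fam A').e i).symm z ∈ (C.e j).source :=
    h3.preimage_mem_nhds (by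
      rw [((fam A').e i).left_inv hi]; exact (C.e j).open_source.mem_nhds hj)
  filter_upwards [h4] with z hz
  rw [(C.e j).left_inv hz]

/-! ### the curves -/

/-- holomorphic injective immersion of the projective line, by functions -/
structure P1F (C : Fam n X) where
  g : Bool → ℂ → X
  glue : ∀ z : ℂ, z ≠ 0 → g true z⁻¹ = g false z
  cont : ∀ b, Continuous (g b)
  hol : ∀ b z, CurveAt C (g b) z
  imm : ∀ b z, ∃ f : X → ℂ, HFA C f (g b z) ∧ deriv (fun w => f (g b w)) z ≠ 0
  inj : Function.Injective (g false)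
  ninf : g true 0 ∉ range (g false)

namespace P1F

variable (γ δ : P1F C)

def img : Set X := range (γ.g false) ∪ range (γ.g true)

variable {A' : Atl n X} (hc : Cmp C A')

/-- the curve in a compatible atlas -/
def cv : P1C A' where
  g := γ.g
  glue := γ.glue
  cont := γ.cont
  hol b z := by
    obtain ⟨i, hi⟩ := A'.cover (γ.g b z)
    have h1 : CurveAt (fam A') (fun w => id (γ.g b w)) z := (γ.hol b z).map hc.bwd
    obtain ⟨f, hf, h0⟩ := γ.imm b z
    exact ⟨i, hi, h1.2 i hi, CurveAt.deriv_ne (C := fam A') h1 (hfa_to hc hf) h0 hi⟩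
  inj := γ.inj
  ninf := γ.ninf



/-- transversality by two functions -/
def Tr : Prop := ∀ b z b' z', γ.g b z = δ.g b' z' → ∃ f₁ f₂ : X → ℂ,
  HFA C f₁ (γ.g b z) ∧ HFA C f₂ (γ.g b z) ∧
    deriv (fun w => f₁ (γ.g b w)) z * deriv (fun w => f₂ (δ.g b' w)) z' ≠
      deriv (fun w => f₂ (γ.g b w)) z * deriv (fun w => f₁ (δ.g b' w)) z'

variable {γ δ}

theorem Tr.trans (h : γ.Tr δ) : Trans (γ.cv hc) (δ.cv hc) := by
  intro b z b' z' he
  obtain ⟨f₁, f₂, h1, h2, h3⟩ := h b z b' z' he
  obtain ⟨i, hi⟩ := A'.cover (γ.g b z)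
  have hi' : δ.g b' z' ∈ (A'.e i).source := by
    have he' : γ.g b z = δ.g b' z' := he
    rw [← he']; exact hi
  refine ⟨i, hi, ?_⟩
  rintro ⟨c, hcc⟩
  have hγ : CurveAt (fam A') (γ.g b) z := (γ.hol b z).map hc.bwd
  have hδ : CurveAt (fam A') (δ.g b') z' := (δ.hol b' z').map hc.bwd
  have he' : γ.g b z = δ.g b' z' := he
  have key : ∀ f : X → ℂ, HFA C f (γ.g b z) →
      deriv (fun w => f (δ.g b' w)) z' = c * deriv (fun w => f (γ.g b w)) z := by
    intro f hf
    have hf1 := hfa_to hc hf
    rw [hγ.deriv_comp hf1 (i := i) hi, hδ.deriv_comp (by rw [← he']; exact hf1) (i := i) hi']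
    have h5 : deriv (fun w => (fam A').e i (δ.g b' w)) z' =
      c • deriv (fun w => (fam A').e i (γ.g b w)) z := hcc
    rw [h5, map_smul, smul_eq_mul, ← he']
  apply h3
  rw [key f₁ h1, key f₂ h2]
  ring


theorem isConnected_img : IsConnected γ.img := by
  refine IsConnected.union ⟨γ.g false 1, ⟨1, rfl⟩, ⟨1, ?_⟩⟩ (isConnected_range (γ.cont false))
    (isConnected_range (γ.cont true))
  have := γ.glue 1 one_ne_zero
  rwa [inv_one] at this

end P1F


end

end Crest.Agent.R272.P1F_414
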