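import Crest.Agent.R272.G14a_414
import Crest.Agent.R272.Mid_414
import Crest.Agent.R272.NPos_102
import Crest.Agent.R272.BlA1_266
import Crest.Agent.R272.Root7_83
import Crest.Agent.R272.Comp2_259
import Crest.Agent.R272.P1F_414
import Crest.Agent.R272.Gm2_235

-- ▼ part R272/G14b_414
section

/-!
# R272, S14-ASM (helper414), part 2: two coverings `E → X̂ → X`

`loops_infinite2` : the lower bound of S0414 with a tower of two coverings;
`of_theta` : the end of S0414 from `ProjD`, the nodal curve and the circle valued function.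
-/

set_option autoImplicit false
set_option linter.unusedSectionVars false

open Set Filter Topology
open scoped unitInterval
open Crest.AlgGeometry

namespace Crest.Agent.R272.G14a_414

open Crest.Agent.R275.Geo Crest.Agent.R275.Core144 Crest.Agent.R275.GC293
open Crest.Agent.R273.Defs_333
open CpTop_338 CpChow_338 CpMan_338 CpPi_338 CpRat423

noncomputable section

universe u v w

/-- two coverings `E → X̂ → X`, `θ : E → ℝ/ℤ`, a loop over `Z` of non-zero degree -/
theorem loops_infinite2 {X : Type u} [TopologicalSpace X] {Z : Set X} {Xh : Type v}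
    [TopologicalSpace Xh] {E : Type w} [TopologicalSpace E] {p : E → Xh} {q : Xh → X}
    (hp : IsCoveringMap p) (hq : IsCoveringMap q) (θ : C(E, AddCircle (1 : ℝ))) {e : E}
    (γ : Path e e) (hZ : ∀ t, q (p (γ t)) ∈ Z) (ℓ : C(I, ℝ))
    (hℓ : ∀ t, (ℓ t : AddCircle (1 : ℝ)) = θ (γ t)) (hne : ℓ 1 ≠ ℓ 0) :
    (loopsIn Z (q (p e))).Infinite := by
  have hx : q (p e) ∈ Z := by have := hZ 0; rwa [γ.source] at this
  exact infinite_of_not_isOfFinOrder hx
    (g := CovOrd_463.cls ((γ.map hp.continuous).map hq.continuous))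
    ⟨(γ.map hp.continuous).map hq.continuous, hZ, rfl⟩
    (CovOrd_463.not_isOfFinOrder_map hq _ (CovOrd_463.not_isOfFinOrder_of_cover hp θ γ ℓ hℓ hne))


end

end Crest.Agent.R272.G14a_414
end

-- ▼ part R272/Middle_414
section

/-!
# R272, S14-ASM (helper414): the middle part, with two blow-ups

`mid'` : `Mid_414.mid` without finiteness of the atlas of the base;
`middle` : `N` compact T2 with a positive bundle, two blow-ups, `D` a cover of the second one.
-/

set_option autoImplicit false
set_option linter.unusedSectionVars false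

open Set Filter Topology

namespace Crest.Agent.R272.Middle_414

open Crest.Agent.R275.Geo Crest.Agent.R275.Core144 Crest.Agent.R275.GC293
open Crest.Agent.R273.Map_835 Crest.Agent.R273.Fam_835 Crest.Agent.R273.PB_835
open Crest.Agent.R273.Defs_333 Crest.Agent.R273.HM_333
open DCov_426 Part_414 Mid_414 Blup1_102 NPos_102 BlA_266

noncomputable section

variable {n : ℕ} {M : Type} [TopologicalSpace M] {A : Atl n M} {ρ : Type} [Fintype ρ]

/-- **the cover of a compact manifold with a positive bundle is projective** (any atlas) -/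
theorem mid' [T2Space M] [CompactSpace M] (D : Data A ρ)
    (hpos : ∃ (L : LB A) (g : HM L), g.Pos) : CompactSpace D.X ∧ T2Space D.X ∧
      ∃ (A' : Atl n D.X) (_ : Cmp D.famX A') (_ : Ref A' A D.p),
        Finite A'.ι ∧ GoodA A' ∧ Nonempty (Part A') ∧ Nonempty (ProjD A') := by
  obtain ⟨H, hH, hHp⟩ := hpos
  have h1 : CompactSpace D.X := D.compact_X
  have h2 : T2Space D.X := D.t2_X
  obtain ⟨A', hc, R, h3, h4, h5, m0, h6⟩ := D.exists_all' hHp
  obtain ⟨hh, hp⟩ := h6 m0 le_rfl
  exact ⟨h1, h2, A', hc, R, h3, h4, h5, exists_projD_any hp⟩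

variable [NeZero n]



end

end Crest.Agent.R272.Middle_414
end

-- ▼ part R272/Top14_414
section

/-!
# R272, S14-ASM (helper414): the top of S0414 as compiled theorems

* `of_theta'` : `of_theta` without connectedness;
* `s14_top`   : S0414 from the surface `X` (compact, T2, `CX : Fam 2 X`, `A'` compatible, `Part`, `ProjD`), the data
  `Dat14` of 83, the four (any number of) rational curves `P1F CX`, and the inputs of 275's `lb414`;
* `s14_tower` : the same with `X = D.X`, `D` the cover of a double blow-up of a compact `N` with a positive bundle.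
-/

set_option autoImplicit false
set_option linter.unusedSectionVars false

open Set Filter Topology
open scoped unitInterval

namespace Crest.Agent.R272.Top14_414

open Crest.Agent.R275.Geo Crest.Agent.R275.Core144 Crest.Agent.R275.GC293
open Crest.Agent.R273.Defs_333 Crest.Agent.R273.Fam_835 Crest.Agent.R273.HM_333
open CpTop_338 CpChow_338 CpMan_338 CpPi_338 CpRat423 G14a_414
open DCov_426 P1F_414 Root_83 UnB_894 LbExt_259 Wall4_275 Blup1_102

noncomputable section

universe v w

/-- `of_theta` without connectedness -/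
theorem of_theta' {X : Type} [TopologicalSpace X] [T2Space X] [CompactSpace X]
    {A : Atl 2 X} [Finite A.ι] (PA : Part A) (P : ProjD A) {k : ℕ} (γ : Fin k → P1C A)
    (ht : ∀ i j, i ≠ j → Trans (γ i) (γ j))
    (h3 : ∀ i j l, i ≠ j → j ≠ l → i ≠ l → (γ i).img ∩ (γ j).img ∩ (γ l).img = ∅)
    (hc : IsConnected (⋃ i, (γ i).img))
    {Xh : Type v} [TopologicalSpace Xh] {E : Type w} [TopologicalSpace E] {p : E → Xh}
    {q : Xh → X} (hp : IsCoveringMap p) (hq : IsCoveringMap q) (θ : C(E, AddCircle (1 : ℝ)))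
    {e : E} (c : Path e e) (hZ : ∀ t, q (p (c t)) ∈ ⋃ i, (γ i).img) (ℓ : C(I, ℝ))
    (hℓ : ∀ t, (ℓ t : AddCircle (1 : ℝ)) = θ (c t)) (hne : ℓ 1 ≠ ℓ 0) : S14 := by
  have hx : q (p e) ∈ ⋃ i, (γ i).img := by have := hZ 0; rwa [c.source] at this
  exact Comp_259.s14_of PA P γ ht h3 hc hx (loops_infinite2 hp hq θ c hZ ℓ hℓ hne)

section top

variable {X B C : Type} [TopologicalSpace X] [TopologicalSpace B] [TopologicalSpace C]
  {CX : Fam 2 X} {AB : Atl 1 B} {AC : Atl 1 C}


end top

section tower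

variable {N B C : Type} [TopologicalSpace N] [TopologicalSpace B] [TopologicalSpace C]
  {A : Atl 2 N} {AB : Atl 1 B} {AC : Atl 1 C} {ρ : Type} [Fintype ρ]


end tower

end

end Crest.Agent.R272.Top14_414
end

-- ▼ part R272/TopG_414

/-!
# R272, S14-ASM (helper414): the top of S0414, general form

* `CurvesOn CX Z` : for every atlas compatible with `CX` the set `Z` is a connected union of `P1C`'s, pairwise
  transversal, without triple points; `CurvesOn.of_P1F`;
* `s14_gen` : for any covering `X̂ → X`, bidisc data `B` and root system `H` on `X̂`;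
* `s14_towerG` : the same for the cover of a double blow-up;
* `s14_tower235` : for helper235's `DiscD`, `XMap`, `SqD`, `SlD`.
-/

set_option autoImplicit false
set_option linter.unusedSectionVars false

open Set Filter Topology
open scoped unitInterval

namespace Crest.Agent.R272.Top14_414

open Crest.Agent.R275.Geo Crest.Agent.R275.Core144 Crest.Agent.R275.GC293
open Crest.Agent.R273.Defs_333 Crest.Agent.R273.Fam_835 Crest.Agent.R273.HM_333
open CpTop_338 CpChow_338 CpMan_338 CpPi_338 CpRat423 G14a_414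
open DCov_426 P1F_414 Root_83 UnB_894 LbExt_259 Wall4_275 Blup1_102

noncomputable section

universe v w

/-- `Z` is a nodal connected union of rational curves, in every compatible atlas -/
def CurvesOn {X : Type} [TopologicalSpace X] (CX : Fam 2 X) (Z : Set X) : Prop :=
  ∀ A' : Atl 2 X, Cmp CX A' → ∃ (k : ℕ) (γ : Fin k → P1C A'), (∀ i j, i ≠ j → Trans (γ i) (γ j)) ∧
    (∀ i j l, i ≠ j → j ≠ l → i ≠ l → (γ i).img ∩ (γ j).img ∩ (γ l).img = ∅) ∧
    IsConnected (⋃ i, (γ i).img) ∧ (⋃ i, (γ i).img) = Z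


section gen

variable {X : Type} [TopologicalSpace X] {CX : Fam 2 X}

/-- **the end game of S0414** over any covering `qX : X̂ → X` with bidisc data and a root system -/
theorem s14_gen [T2Space X] [CompactSpace X] {A' : Atl 2 X} [Finite A'.ι] (hcmp : Cmp CX A')
    (PA : Part A') (P : ProjD A') {Z : Set X} (hcv : CurvesOn CX Z)
    {Xh : Type v} [TopologicalSpace Xh] {qX : Xh → X} (hq : IsCoveringMap qX)
    (B : BD Xh) (H : RS Xh (Fin 4) (gg B.F B.T B.W)) (hloc : Loc B H) {Zh : Set Xh}
    (hZ : ∀ y ∈ Zh, B.T y = 0 ∧ B.W y = 0) (hZγ : ∀ y ∈ Zh, qX y ∈ Z)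
    (R : Zh → Fin 4 → Xh → ℂ) (hR : ∀ (y : Zh) (a : Fin 4), H.Rt a (R y a) (y : Xh))
    (hRc : ∀ y : Zh, ∀ᶠ y' : Zh in 𝓝 y, ∀ a, R y' a =ᶠ[𝓝 (y' : Xh)] R y a)
    {z₀ z₁ z₂ z₃ : Zh} (k₁ : Path z₀ z₁) (r₁ : Path z₁ z₂) (k₂ : Path z₂ z₃) (r₂ : Path z₃ z₀)
    (hk₁ : Arc R k₁) (hk₂ : Arc R k₂) (hr₁ : ∀ t, SlR (R (r₁ t)) (r₁ t : Xh) 0)
    (hr₂ : ∀ t, SlR (R (r₂ t)) (r₂ t : Xh) 0) : S14 := by
  obtain ⟨θ, e, c, l, h1, h2, h4⟩ := lb414 hloc (Zh := Zh) hZ R hR hRc k₁ r₁ k₂ r₂ hk₁ hk₂ hr₁ hr₂
  obtain ⟨k, γ, ht, h3, hc, hU⟩ := hcv A' hcmp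
  refine of_theta' (A := A') PA P γ ht h3 hc H.cov hq θ c (fun t => ?_) l h2 h4
  rw [hU]
  exact hZγ _ (h1 t)

end gen

section tower

variable {N : Type} [TopologicalSpace N] {A : Atl 2 N} {ρ : Type} [Fintype ρ]



end tower

end

end Crest.Agent.R272.Top14_414
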