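import Crest.Agent.R272.P1F_414
import Crest.Agent.R272.Wall4_275
import Crest.Agent.R272.Cyc3_760
import Crest.Agent.R272.TopG_414

-- ▼ part R272/Cyp1_894
section

/-!
# R272, S14-CYC (helper894, partner of helper760): the 4-cycle of rational curves

`Cyc C`: four parametrised curves `K ±`, `R ±` (`P1F C` of helper414) with the incidences
`K e (d i) = R d (∞ if e = +, 0 if e = -)`, `K +` and `K -` disjoint, `R +` and `R -` disjoint,
`K e` and `R d` transversal.

* `c.cv : Fin 4 → P1F C`, `trans_cv`, `triple_cv`, `connected_cv` : the input of 414's `of_theta`;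
* `c.kp e`, `c.rp d` : the four paths; `c.exists_paths`: the closed 4-gon in 275's form;
* `arc_kp`, `slr_rp` : the hypotheses `Arc`, `SlR` of 275's `lb414` from the values along the curves.
-/

set_option autoImplicit false
set_option linter.unusedSectionVars false

open Set Filter Topology
open scoped unitInterval

namespace Crest.Agent.R272.Cyp_894

open Crest.Agent.R275.Geo Crest.Agent.R273.Fam_835
open Crest.Agent.R272.CpRat423 Crest.Agent.R272.DCov_426 Crest.Agent.R272.P1F_414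
open Crest.Agent.R272.Wall4_275 Crest.Agent.R272.Root_83

noncomputable section

variable {X : Type} [TopologicalSpace X] {C : Fam 2 X}

/-- `i` or `-i` -/
def cI (d : Bool) : ℂ := if d then Complex.I else -Complex.I

/-- `1` or `-1` -/
def cs (e : Bool) : ℂ := if e then 1 else -1

@[simp] theorem cI_true : cI true = Complex.I := rfl
@[simp] theorem cI_false : cI false = -Complex.I := rfl
@[simp] theorem cs_true : cs true = 1 := rfl
@[simp] theorem cs_false : cs false = -1 := rfl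

/-- the cycle of four curves -/
structure Cyc (C : Fam 2 X) where
  K : Bool → P1F C
  R : Bool → P1F C
  meet : ∀ e d, (K e).g false (cI d) = (R d).g e 0
  disjK : Disjoint (K true).img (K false).img
  disjR : Disjoint (R true).img (R false).img
  tr : ∀ e d, (K e).Tr (R d)


theorem P1F_mem {γ : P1F C} {b : Bool} {z : ℂ} : γ.g b z ∈ γ.img := by
  cases b
  · exact Or.inl ⟨z, rfl⟩
  · exact Or.inr ⟨z, rfl⟩


namespace Cyc

variable (c : Cyc C)

/-- the four curves -/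
def cv : Fin 4 → P1F C := ![c.K true, c.R true, c.K false, c.R false]







/-- the union of the four curves -/
def Z : Set X := ⋃ i, (c.cv i).img

theorem K_mem (e : Bool) (b : Bool) (z : ℂ) : (c.K e).g b z ∈ c.Z := by
  cases e
  · exact mem_iUnion.2 ⟨2, P1F_mem⟩
  · exact mem_iUnion.2 ⟨0, P1F_mem⟩

theorem R_mem (d : Bool) (b : Bool) (z : ℂ) : (c.R d).g b z ∈ c.Z := by
  cases d
  · exact mem_iUnion.2 ⟨3, P1F_mem⟩
  · exact mem_iUnion.2 ⟨1, P1F_mem⟩


/-! ### the paths -/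

/-- the angle `φ t = π/2 - π t` -/
def ph (t : ℝ) : ℝ := Real.pi / 2 - Real.pi * t

/-- the parameter along `K e` -/
def zt (e : Bool) (t : ℝ) : ℂ := Complex.exp (cs e * (ph t : ℂ) * Complex.I)

theorem continuous_zt (e : Bool) : Continuous (zt e) := by
  unfold zt ph
  fun_prop


theorem zt_zero (e : Bool) : zt e 0 = cI e := by
  cases e
  · simp only [zt, ph, cs_false, cI_false, mul_zero, sub_zero]
    rw [show (-1 : ℂ) * ((Real.pi / 2 : ℝ) : ℂ) * Complex.I =
      -(((Real.pi : ℂ) / 2) * Complex.I) by push_cast; ring, Complex.exp_neg, Complex.exp_pi_div_two_mul_I,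
      Complex.inv_I]
  · simp only [zt, ph, cs_true, cI_true, mul_zero, sub_zero]
    rw [show (1 : ℂ) * ((Real.pi / 2 : ℝ) : ℂ) * Complex.I =
      (((Real.pi : ℂ) / 2) * Complex.I) by push_cast; ring, Complex.exp_pi_div_two_mul_I]

theorem zt_one (e : Bool) : zt e 1 = cI (!e) := by
  cases e
  · simp only [zt, ph, cs_false, mul_one, Bool.not_false, cI_true]
    rw [show (-1 : ℂ) * ((Real.pi / 2 - Real.pi : ℝ) : ℂ) * Complex.I =
      (((Real.pi : ℂ) / 2) * Complex.I) by push_cast; ring, Complex.exp_pi_div_two_mul_I]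
  · simp only [zt, ph, cs_true, mul_one, Bool.not_true, cI_false]
    rw [show (1 : ℂ) * ((Real.pi / 2 - Real.pi : ℝ) : ℂ) * Complex.I =
      -(((Real.pi : ℂ) / 2) * Complex.I) by push_cast; ring, Complex.exp_neg, Complex.exp_pi_div_two_mul_I,
      Complex.inv_I]



/-- the path on `K e` -/
def kp (e : Bool) : Path (⟨(c.K e).g false (cI e), c.K_mem e _ _⟩ : c.Z)
    ⟨(c.K e).g false (cI (!e)), c.K_mem e _ _⟩ where
  toFun t := ⟨(c.K e).g false (zt e t), c.K_mem e _ _⟩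
  continuous_toFun := by
    refine Continuous.subtype_mk ?_ _
    exact ((c.K e).cont false).comp ((continuous_zt e).comp continuous_subtype_val)
  source' := by simp only [Set.Icc.coe_zero, zt_zero]
  target' := by simp only [Set.Icc.coe_one, zt_one]


/-- the two halves of the path on `R d` -/
def rp1 (d : Bool) : Path (⟨(c.R d).g true 0, c.R_mem d _ _⟩ : c.Z)
    ⟨(c.R d).g false 1, c.R_mem d _ _⟩ where
  toFun t := ⟨(c.R d).g true ((t : ℝ) : ℂ), c.R_mem d _ _⟩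
  continuous_toFun := by
    refine Continuous.subtype_mk ?_ _
    exact ((c.R d).cont true).comp (Complex.continuous_ofReal.comp continuous_subtype_val)
  source' := by simp
  target' := by
    have h := (c.R d).glue 1 one_ne_zero
    rw [inv_one] at h
    apply Subtype.ext
    simp [h]

def rp2 (d : Bool) : Path (⟨(c.R d).g false 1, c.R_mem d _ _⟩ : c.Z)
    ⟨(c.R d).g false 0, c.R_mem d _ _⟩ where
  toFun t := ⟨(c.R d).g false ((1 - (t : ℝ) : ℝ) : ℂ), c.R_mem d _ _⟩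
  continuous_toFun := by
    refine Continuous.subtype_mk ?_ _
    refine ((c.R d).cont false).comp (Complex.continuous_ofReal.comp ?_)
    exact continuous_const.sub continuous_subtype_val
  source' := by simp
  target' := by simp

/-- the path on `R d` -/
def rp (d : Bool) : Path (⟨(c.R d).g true 0, c.R_mem d _ _⟩ : c.Z)
    ⟨(c.R d).g false 0, c.R_mem d _ _⟩ := (c.rp1 d).trans (c.rp2 d)


/-! ### the closed 4-gon in a space `Zh` over `Z` -/

variable {Y : Type*} [TopologicalSpace Y] {Zh : Set Y}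

/-- the vertices -/
theorem pt_eq {x y : X} (hx : x ∈ c.Z) (hy : y ∈ c.Z) (h : x = y) : (⟨x, hx⟩ : c.Z) = ⟨y, hy⟩ :=
  Subtype.ext h

/-- `k₁ : K +` from `i` to `-i` -/
def k₁ : Path (⟨(c.K true).g false Complex.I, c.K_mem _ _ _⟩ : c.Z)
    ⟨(c.K true).g false (-Complex.I), c.K_mem _ _ _⟩ := c.kp true

/-- `r₁ : R -` from `∞` to `0` -/
def r₁ : Path (⟨(c.K true).g false (-Complex.I), c.K_mem _ _ _⟩ : c.Z)
    ⟨(c.K false).g false (-Complex.I), c.K_mem _ _ _⟩ :=
  (c.rp false).cast (c.pt_eq _ _ (c.meet true false)) (c.pt_eq _ _ (c.meet false false))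

/-- `k₂ : K -` from `-i` to `i` -/
def k₂ : Path (⟨(c.K false).g false (-Complex.I), c.K_mem _ _ _⟩ : c.Z)
    ⟨(c.K false).g false Complex.I, c.K_mem _ _ _⟩ := c.kp false

/-- `r₂ : R +` from `0` to `∞` -/
def r₂ : Path (⟨(c.K false).g false Complex.I, c.K_mem _ _ _⟩ : c.Z)
    ⟨(c.K true).g false Complex.I, c.K_mem _ _ _⟩ :=
  ((c.rp true).symm).cast (c.pt_eq _ _ (c.meet false true)) (c.pt_eq _ _ (c.meet true true))





end Cyc

/-! ### the hypotheses of `lb414` -/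

variable {Y : Type*} [TopologicalSpace Y] {Zh : Set Y}


end

end Crest.Agent.R272.Cyp_894
end

-- ▼ part R272/Cyc4_760
section

/-!
# R272 (S0414), leaf S14-CYC (helper760), part 4: the cycle in 414's and 894's forms

* `HCur.toP1F`, `HTrans.toTr` : homogeneous curves as 414's `P1F`, transversality as `P1F.Tr`;
* `CycD.cyc` : 894's `Cyc D.famX` (`K e`, `R d`), with explicit parametrisations `K_g`, `R_g`.
-/

set_option autoImplicit false
set_option linter.unusedSectionVars false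

open Set Filter Topology

namespace Crest.Agent.R272.Cyc_760

open Crest.Agent.R275.Geo Crest.Agent.R275.Core144
open Crest.Agent.R273.Map_835 Crest.Agent.R273.Fam_835
open Crest.Agent.R272.CpRat423 Crest.Agent.R272.DCov_426 Crest.Agent.R272.P1F_414
open Crest.Agent.R272.FamP_54 Crest.Agent.R272.Cyp_894

noncomputable section

variable {n : ℕ} {X : Type} [TopologicalSpace X] {C : Fam n X}

/-- a coordinate of a chart is differentiable in all charts -/
theorem hfa_coord (C : Fam n X) {x : X} {i : C.ι} (hi : x ∈ (C.e i).source) (k : Fin n) :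
    HFA C (fun x => C.e i x k) x := by
  intro j hj
  have h := tr_diff C hj hi
  exact (EuclideanSpace.proj (𝕜 := ℂ) k).differentiableAt.comp _ h

theorem deriv_coord {g : ℂ → Cn n} {z : ℂ} {v : Cn n} (h : HasDerivAt g v z) (k : Fin n) :
    HasDerivAt (fun w => g w k) (v k) z := by
  have h1 := (EuclideanSpace.proj (𝕜 := ℂ) k).hasFDerivAt.comp_hasDerivAt z h
  exact h1

theorem exists_coord {v : Cn n} (h : v ≠ 0) : ∃ k, v k ≠ 0 := by
  by_contra h1
  push Not at h1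
  exact h (PiLp.ext h1)

/-- the two affine charts of a homogeneous curve, in the form of helper414 -/
def HCur.toP1F (Γ : HCur C) : P1F C where
  g b z := Γ.G (pt b z)
  glue z hz := by
    have h : pt true z⁻¹ = z⁻¹ • pt false z := by
      funext i
      fin_cases i <;> simp [hz]
    rw [h]
    exact Γ.smul _ (inv_ne_zero hz) _ (pt_ne false z)
  cont b := by
    rw [continuous_iff_continuousAt]
    intro z
    exact ContinuousAt.comp (g := Γ.G) (Γ.ha _ (pt_ne b z)).cont (hasDerivAt_pt' b z).continuousAt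
  hol b z := by
    refine ⟨ContinuousAt.comp (g := Γ.G) (Γ.ha _ (pt_ne b z)).cont
      (hasDerivAt_pt' b z).continuousAt, fun i hi => ?_⟩
    exact (Γ.deriv_pt b z hi).differentiableAt
  imm b z := by
    obtain ⟨i, hi, h⟩ := Γ.imm _ (pt_ne b z)
    have hd := Γ.deriv_pt b z hi
    have h0 : fderiv ℂ (fun w => C.e i (Γ.G w)) (pt b z) (Pi.single (mi b) 1) ≠ 0 := by
      intro h0
      obtain ⟨c, hc⟩ := h _ h0
      exact mi_ne b z c hc
    obtain ⟨k, hk⟩ := exists_coord h0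
    refine ⟨fun x => C.e i x k, hfa_coord C hi k, ?_⟩
    rw [(deriv_coord hd k).deriv]
    exact hk
  inj z z' h := by
    obtain ⟨c, hc⟩ := Γ.inj _ _ (pt_ne false z) (pt_ne false z') h
    have h0 := congrFun hc 0
    have h1 := congrFun hc 1
    simp at h0 h1
    rw [← h0, one_mul] at h1
    exact h1.symm
  ninf := by
    rintro ⟨z, h⟩
    obtain ⟨c, hc⟩ := Γ.inj _ _ (pt_ne false z) (pt_ne true 0) h
    have h0 := congrFun hc 0
    have h1 := congrFun hc 1
    simp at h0 h1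
    rw [← h0, zero_mul] at h1
    exact one_ne_zero h1


theorem HCur.toP1F_img (Γ : HCur C) : Γ.toP1F.img = Γ.img := by
  ext x
  constructor
  · rintro (⟨z, h⟩ | ⟨z, h⟩)
    · exact ⟨pt false z, pt_ne false z, h⟩
    · exact ⟨pt true z, pt_ne true z, h⟩
  · rintro ⟨w, hw, h⟩
    obtain ⟨b, z, c, hc, rfl⟩ := exists_pt hw
    rw [Γ.smul c hc _ (pt_ne b z)] at h
    cases b
    · exact Or.inl ⟨z, h⟩
    · exact Or.inr ⟨z, h⟩

/-- two vectors which are not parallel have a non-zero minor -/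
theorem exists_minor {v v' : Cn n} (hv : v ≠ 0) (h : ∀ c : ℂ, v' ≠ c • v) :
    ∃ k l, v k * v' l ≠ v l * v' k := by
  obtain ⟨k, hk⟩ := exists_coord hv
  by_contra h1
  push Not at h1
  refine h (v' k / v k) (PiLp.ext fun l => ?_)
  have h2 := h1 k l
  simp only [PiLp.smul_apply, smul_eq_mul]
  field_simp
  linear_combination h2

theorem HTrans.toTr {Γ Δ : HCur C} (h : HTrans Γ Δ) : Γ.toP1F.Tr Δ.toP1F := by
  intro b z b' z' he
  have he' : Γ.G (pt b z) = Δ.G (pt b' z') := he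
  obtain ⟨i, hi, h1⟩ := h _ _ (pt_ne b z) (pt_ne b' z') he'
  have hi' : Δ.G (pt b' z') ∈ (C.e i).source := he' ▸ hi
  have e1 := Γ.deriv_pt b z hi
  have e2 := Δ.deriv_pt b' z' hi'
  have n1 : fderiv ℂ (fun w => C.e i (Γ.G w)) (pt b z) (Pi.single (mi b) 1) ≠ 0 := by
    intro h0
    obtain ⟨c, hc⟩ := Γ.imm' (pt_ne b z) hi h0
    exact mi_ne b z c hc
  have n2 : fderiv ℂ (fun w => C.e i (Δ.G w)) (pt b' z') (Pi.single (mi b') 1) ≠ 0 := by
    intro h0
    obtain ⟨c, hc⟩ := Δ.imm' (pt_ne b' z') hi' h0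
    exact mi_ne b' z' c hc
  obtain ⟨k, l, hkl⟩ := exists_minor n1 (v' := fderiv ℂ (fun w => C.e i (Δ.G w)) (pt b' z')
    (Pi.single (mi b') 1)) (by
      intro c hc
      have hc0 : c ≠ 0 := by
        rintro rfl
        rw [zero_smul] at hc
        exact n2 hc
      have h3 := h1 (c • Pi.single (mi b) 1) (Pi.single (mi b') 1) (by rw [map_smul]; exact hc.symm)
      rw [map_smul] at h3
      exact (smul_ne_zero hc0 n1) h3)
  refine ⟨fun x => C.e i x k, fun x => C.e i x l, hfa_coord C hi k, hfa_coord C hi l, ?_⟩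
  have d1 : deriv (fun w => C.e i (Γ.toP1F.g b w) k) z = _ := (deriv_coord e1 k).deriv
  have d2 : deriv (fun w => C.e i (Γ.toP1F.g b w) l) z = _ := (deriv_coord e1 l).deriv
  have d3 : deriv (fun w => C.e i (Δ.toP1F.g b' w) k) z' = _ := (deriv_coord e2 k).deriv
  have d4 : deriv (fun w => C.e i (Δ.toP1F.g b' w) l) z' = _ := (deriv_coord e2 l).deriv
  rw [d1, d2, d3, d4]
  exact hkl

/-! ### invertible linear maps of `ℂ²` -/

/-- the linear map `(x, y) ↦ (a x + b y, c x + d y)` -/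
def lin2 (a b c d : ℂ) (w : V2) : V2 := ![a * w 0 + b * w 1, c * w 0 + d * w 1]

@[simp] theorem lin2_zero (a b c d : ℂ) (w : V2) : lin2 a b c d w 0 = a * w 0 + b * w 1 := rfl
@[simp] theorem lin2_one (a b c d : ℂ) (w : V2) : lin2 a b c d w 1 = c * w 0 + d * w 1 := rfl

/-- the linear equivalence -/
def linE (a b c d : ℂ) (h : a * d - b * c ≠ 0) : V2 ≃L[ℂ] V2 :=
  LinearEquiv.toContinuousLinearEquiv
    { toFun := lin2 a b c d
      invFun := fun w => (a * d - b * c)⁻¹ • lin2 d (-b) (-c) a w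
      map_add' := fun v w => v2_ext (by simp; ring) (by simp; ring)
      map_smul' := fun k v => v2_ext (by simp; ring) (by simp; ring)
      left_inv := fun w => by
        refine v2_ext ?_ ?_
        · show (a * d - b * c)⁻¹ * (d * (a * w 0 + b * w 1) + -b * (c * w 0 + d * w 1)) = w 0
          rw [inv_mul_eq_iff_eq_mul₀ h]
          ring
        · show (a * d - b * c)⁻¹ * (-c * (a * w 0 + b * w 1) + a * (c * w 0 + d * w 1)) = w 1
          rw [inv_mul_eq_iff_eq_mul₀ h]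
          ring
      right_inv := fun w => by
        refine v2_ext ?_ ?_
        · show a * ((a * d - b * c)⁻¹ * (d * w 0 + -b * w 1)) +
            b * ((a * d - b * c)⁻¹ * (-c * w 0 + a * w 1)) = w 0
          have e : a * ((a * d - b * c)⁻¹ * (d * w 0 + -b * w 1)) +
            b * ((a * d - b * c)⁻¹ * (-c * w 0 + a * w 1)) =
              (a * d - b * c)⁻¹ * ((a * d - b * c) * w 0) := by ring
          rw [e, inv_mul_cancel_left₀ h]
        · show c * ((a * d - b * c)⁻¹ * (d * w 0 + -b * w 1)) +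
            d * ((a * d - b * c)⁻¹ * (-c * w 0 + a * w 1)) = w 1
          have e : c * ((a * d - b * c)⁻¹ * (d * w 0 + -b * w 1)) +
            d * ((a * d - b * c)⁻¹ * (-c * w 0 + a * w 1)) =
              (a * d - b * c)⁻¹ * ((a * d - b * c) * w 1) := by ring
          rw [e, inv_mul_cancel_left₀ h] }

@[simp] theorem linE_apply (a b c d : ℂ) (h : a * d - b * c ≠ 0) (w : V2) :
    linE a b c d h w = lin2 a b c d w := rfl

namespace CycD

variable {A : Atl n X} {D : Data A (Fin 2)} (K : CycD D)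

theorem cs_sq (e : Bool) : cs e ^ 2 = 1 := by cases e <;> simp


theorem cI_sq (d : Bool) : cI d ^ 2 = -1 := by cases d <;> simp

/-- the two signs at the node -/
structure Sg (K : CycD D) (κ₁ κ₂ : ℂ) : Prop where
  s1 : κ₁ ^ 2 = 1
  s2 : κ₂ ^ 2 = 1
  w1 : K.w₁ = ![-1, 1]
  w2 : K.w₂ = ![1, 1]
  e1 : ∀ i, K.α.G K.w₁ ∈ (A.e i).source →
    K.Sα.fb.r i K.w₁ * Complex.I = κ₁ * K.Sβ.fa.r i K.w₂
  e2 : ∀ i, K.α.G K.w₁ ∈ (A.e i).source → K.Sβ.fb.r i K.w₂ = κ₂ * K.Sα.fa.r i K.w₁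


variable {K}

theorem sq_ne {κ : ℂ} (h : κ ^ 2 = 1) : κ ≠ 0 := by
  rintro rfl
  norm_num at h

/-- the parametrisation of `K e` : `(1, z) ↦ ζ = (z - 1, κ₁ (z + 1))` -/
def Bk {κ₁ : ℂ} (h1 : κ₁ ^ 2 = 1) : V2 ≃L[ℂ] V2 :=
  linE (-1) 1 κ₁ κ₁ (by
    intro h
    exact sq_ne h1 (by linear_combination (-1 / 2) * h))

/-- the parametrisation of `R d` : `(1, z) ↦ ζ = (κ₂ (z - 1), z + 1)` -/
def Br {κ₂ : ℂ} (h2 : κ₂ ^ 2 = 1) : V2 ≃L[ℂ] V2 :=
  linE (-κ₂) κ₂ 1 1 (by
    intro h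
    exact sq_ne h2 (by linear_combination (-1 / 2) * h))

variable {κ₁ κ₂ : ℂ}

/-- the curve `K e` -/
def ck (S : K.Sg κ₁ κ₂) (e : Bool) : HCur D.famX := (K.Sα.up (cs_sq e)).pre (Bk S.s1)

/-- the curve `R d` -/
def cr (S : K.Sg κ₁ κ₂) (d : Bool) : HCur D.famX := (K.Sβ.up (cs_sq d)).pre (Br S.s2)

theorem ck_G (S : K.Sg κ₁ κ₂) (e : Bool) (w : V2) :
    (ck S e).G w = K.Sα.F (cs_sq e) (lin2 (-1) 1 κ₁ κ₁ w) := rfl

theorem cr_G (S : K.Sg κ₁ κ₂) (d : Bool) (w : V2) :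
    (cr S d).G w = K.Sβ.F (cs_sq d) (lin2 (-κ₂) κ₂ 1 1 w) := rfl

theorem lin_k_ne {κ₁ : ℂ} (h1 : κ₁ ^ 2 = 1) {w : V2} (hw : w ≠ 0) : lin2 (-1) 1 κ₁ κ₁ w ≠ 0 :=
  (map_ne_zero_iff _ (Bk h1).injective).2 hw

theorem lin_r_ne {κ₂ : ℂ} (h2 : κ₂ ^ 2 = 1) {w : V2} (hw : w ≠ 0) : lin2 (-κ₂) κ₂ 1 1 w ≠ 0 :=
  (map_ne_zero_iff _ (Br h2).injective).2 hw

theorem ck_img (S : K.Sg κ₁ κ₂) (e : Bool) : (ck S e).img = (K.Sα.up (cs_sq e)).img :=
  HCur.pre_img _ _

theorem cr_img (S : K.Sg κ₁ κ₂) (d : Bool) : (cr S d).img = (K.Sβ.up (cs_sq d)).img :=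
  HCur.pre_img _ _

theorem meet_kr (S : K.Sg κ₁ κ₂) (e d : Bool) :
    (ck S e).G (pt false (cI d)) = (cr S d).G (pt e 0) := by
  rw [ck_G, cr_G]
  have hz := cI_sq d
  have hz0 : cI d ≠ 0 := by
    intro h
    rw [h] at hz
    norm_num at hz
  have hId : cI d = cs d * Complex.I := by cases d <;> simp
  set ζ := lin2 (-1) 1 κ₁ κ₁ (pt false (cI d)) with hζ
  set ζ' := lin2 (-κ₂) κ₂ 1 1 (pt e 0) with hζ'
  have hζ0 : ζ ≠ 0 := lin_k_ne S.s1 (pt_ne _ _)
  have hζ0' : ζ' ≠ 0 := lin_r_ne S.s2 (pt_ne _ _)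
  have a0 : ζ 0 = cI d - 1 := by
    rw [hζ]
    simp
    ring
  have a1 : ζ 1 = κ₁ * (cI d + 1) := by
    rw [hζ]
    simp
    ring
  have b0 : ζ' 0 = cs e * κ₂ := by
    rw [hζ']
    cases e <;> simp
  have b1 : ζ' 1 = 1 := by
    rw [hζ']
    cases e <;> simp
  have c1 : sqv ζ = (2 * cI d) • K.w₁ := by
    rw [S.w1]
    refine v2_ext ?_ ?_
    · simp [a0]
      linear_combination hz
    · simp [a1, mul_pow, S.s1]
      linear_combination hz
  have c2 : sqv ζ' = K.w₂ := by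
    rw [S.w2]
    refine v2_ext ?_ ?_
    · simp [b0, mul_pow, S.s2, cs_sq]
    · simp [b1]
  have h2z : (2 * cI d) ≠ 0 := mul_ne_zero two_ne_zero hz0
  have c3 : K.α.G (sqv ζ) = K.α.G K.w₁ := by
    rw [c1]
    exact K.α.smul _ h2z _ K.hw₁
  obtain ⟨i, hi⟩ := A.cover (K.α.G K.w₁)
  have hi1 : K.α.G (sqv ζ) ∈ (A.e i).source := by rw [c3]; exact hi
  have hi2 : K.β.G (sqv ζ') ∈ (A.e i).source := by rw [c2, ← K.meet]; exact hi
  refine D.ext_X (i := i) (by rw [K.Sα.p_F _ hζ0, K.Sβ.p_F _ hζ0', c3, c2, K.meet])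
    (by rw [K.Sα.p_F _ hζ0]; exact hi1) fun c => ?_
  rw [K.Sα.y_F _ hζ0 hi1, K.Sβ.y_F _ hζ0' hi2]
  rcases K.Sα.eq_ab c with rfl | rfl
  · rw [K.Sα.t_a, K.Sβ.t_b, c1, c2, S.e2 i hi, b0, b1]
    have h3 := K.Sα.fa.hom _ h2z _ K.hw₁ i hi
    rw [pow_zero, one_mul] at h3
    rw [h3]
    linear_combination (- cs e * K.Sα.fa.r i K.w₁) * S.s2
  · rw [K.Sα.t_b, K.Sβ.t_a, c1, c2, a0, a1]
    have h3 := K.Sα.fb.hom _ h2z _ K.hw₁ i hi
    rw [pow_one] at h3
    have h4 := S.e1 i hi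
    apply mul_left_cancel₀ h2z
    have h5 : 2 * cI d * (K.Sα.fb.r i ((2 * cI d) • K.w₁) * ((cI d - 1) * (κ₁ * (cI d + 1)))) =
        (2 * cI d * K.Sα.fb.r i ((2 * cI d) • K.w₁)) * ((cI d - 1) * (κ₁ * (cI d + 1))) := by ring
    rw [h5, h3, hId]
    have h6 : cs d ^ 2 = 1 := cs_sq d
    have h7 : Complex.I ^ 2 = -1 := Complex.I_sq
    linear_combination (K.Sα.fb.r i K.w₁ * κ₁ * Complex.I ^ 2 -
      2 * Complex.I * K.Sβ.fa.r i K.w₂) * h6 - K.Sα.fb.r i K.w₁ * κ₁ * h7 +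
      2 * κ₁ * Complex.I * h4 + 2 * Complex.I * K.Sβ.fa.r i K.w₂ * S.s1

theorem htrans_pre {X : Type} [TopologicalSpace X] {C : Fam n X} {Γ Δ : HCur C}
    (h : HTrans Γ Δ) (B B' : V2 ≃L[ℂ] V2) : HTrans (Γ.pre B) (Δ.pre B') := by
  intro w w' hw hw' he
  have hBw : B w ≠ 0 := (map_ne_zero_iff _ B.injective).2 hw
  have hBw' : B' w' ≠ 0 := (map_ne_zero_iff _ B'.injective).2 hw'
  have he' : Γ.G (B w) = Δ.G (B' w') := he
  obtain ⟨i, hi, h1⟩ := h _ _ hBw hBw' he'
  have hi' : Δ.G (B' w') ∈ (C.e i).source := he' ▸ hi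
  refine ⟨i, hi, fun v v' hv => ?_⟩
  have e1 : fderiv ℂ (fun w => C.e i (Γ.G (B w))) w v =
      fderiv ℂ (fun w => C.e i (Γ.G w)) (B w) (fderiv ℂ (⇑B) w v) :=
    (Γ.ha _ hBw).pre_fderiv B.differentiableAt hi v
  have e2 : fderiv ℂ (fun w => C.e i (Δ.G (B' w))) w' v' =
      fderiv ℂ (fun w => C.e i (Δ.G w)) (B' w') (fderiv ℂ (⇑B') w' v') :=
    (Δ.ha _ hBw').pre_fderiv B'.differentiableAt hi' v'
  have hv' : fderiv ℂ (fun w => C.e i (Γ.G (B w))) w v =
      fderiv ℂ (fun w => C.e i (Δ.G (B' w))) w' v' := hv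
  rw [e1, e2] at hv'
  show fderiv ℂ (fun w => C.e i (Γ.G (B w))) w v = 0
  rw [e1]
  exact h1 _ _ hv'

theorem disj_img {a b : Fin 2} {Γ : HCur (fam A)} (S : Sheet D a b Γ) :
    Disjoint (S.up (cs_sq true)).img (S.up (cs_sq false)).img := by
  rw [Set.disjoint_left]
  rintro x ⟨ζ, hζ, e⟩ ⟨ζ', hζ', e'⟩
  have h := S.sheet_eq (cs_sq true) (cs_sq false) hζ hζ' (e.trans e'.symm)
  simp only [cs_true, cs_false] at h
  norm_num at h

end CycD

namespace CycD

variable {A : Atl 2 X} {D : Data A (Fin 2)} {K : CycD D} {κ₁ κ₂ : ℂ}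

/-- **894's cycle** -/
def cyc (S : K.Sg κ₁ κ₂) : Cyc D.famX where
  K e := (ck S e).toP1F
  R d := (cr S d).toP1F
  meet e d := meet_kr S e d
  disjK := by
    rw [HCur.toP1F_img, HCur.toP1F_img, ck_img, ck_img]
    exact disj_img K.Sα
  disjR := by
    rw [HCur.toP1F_img, HCur.toP1F_img, cr_img, cr_img]
    exact disj_img K.Sβ
  tr e d := (htrans_pre (K.htrans (cs_sq e) (cs_sq d)) _ _).toTr




end CycD

end

end Crest.Agent.R272.Cyc_760
end

-- ▼ part R272/Cyc5_760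

/-!
# R272 (S0414), leaf S14-CYC (helper760), part 5: `CurvesOn` of 414 from `CycD`

`CycD.curvesOn : CurvesOn D.famX (⋃ i, (K.γ i).img)`.
-/

set_option autoImplicit false
set_option linter.unusedSectionVars false

open Set Filter Topology

namespace Crest.Agent.R272.Cyc_760

open Crest.Agent.R275.Geo Crest.Agent.R275.Core144
open Crest.Agent.R273.Map_835 Crest.Agent.R273.Fam_835
open Crest.Agent.R272.CpRat423 Crest.Agent.R272.DCov_426 Crest.Agent.R272.P1F_414
open Crest.Agent.R272.Top14_414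

noncomputable section

variable {M : Type} [TopologicalSpace M] {A : Atl 2 M}

namespace CycD

variable {D : Data A (Fin 2)} (K : CycD D)

/-- the union of the four curves -/
def Z : Set D.X := ⋃ i, (K.γ i).img

theorem curvesOn : CurvesOn D.famX K.Z := fun _ hc =>
  ⟨4, K.cP hc, K.cP_ht hc, K.cP_h3 hc, K.cP_hc hc, iUnion_congr fun i => K.cP_img hc i⟩

theorem mem_Z {x : D.X} : x ∈ K.Z ↔ ∃ i, x ∈ (K.γ i).img := mem_iUnion

/-- a point of the union lies over one of the two curves of the base -/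
theorem p_mem_of_Z {x : D.X} (hx : x ∈ K.Z) : D.p x ∈ K.α.img ∨ D.p x ∈ K.β.img := by
  obtain ⟨i, hi⟩ := K.mem_Z.1 hx
  fin_cases i
  · obtain ⟨ζ, hζ, rfl⟩ := hi
    exact Or.inl ⟨sqv ζ, sqv_ne hζ, (K.Sα.p_F one_sq hζ).symm⟩
  · obtain ⟨ζ, hζ, rfl⟩ := hi
    exact Or.inr ⟨sqv ζ, sqv_ne hζ, (K.Sβ.p_F one_sq hζ).symm⟩
  · obtain ⟨ζ, hζ, rfl⟩ := hi
    exact Or.inl ⟨sqv ζ, sqv_ne hζ, (K.Sα.p_F neg_sq' hζ).symm⟩
  · obtain ⟨ζ, hζ, rfl⟩ := hi
    exact Or.inr ⟨sqv ζ, sqv_ne hζ, (K.Sβ.p_F neg_sq' hζ).symm⟩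

end CycD

end

end Crest.Agent.R272.Cyc_760
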