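import Crest.Agent.R272.PosFib3_220
import Crest.Agent.R272.P1S1_590

-- ▼ part R272/Kps1_595
section

/-!
# R272, S14-KPOS (helper595), part 1: positive metrics from sections; one-forms as sections of `KB A`

* `exists_pos`  : `M` compact, sections of `L` over `M` which are generating and immersive at every
                  point (in SOME chart) ⟹ `∃ H : HM L, H.Pos`;
* `good_of`     : the good point condition from `s b = t * s a` near `x`, `s a x ≠ 0`, `dt ≠ 0`
                  (manifolds of dimension one);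
* `d1 A u`      : the differential of the function `u` as a family of coefficients,
                  `isHS_d1` : it is a section of `KB A` where `u` is holomorphic;
* `glueHS`      : sections over the members of a finite or infinite open cover which agree on the
                  overlaps glue.
-/

set_option autoImplicit false
set_option linter.unusedSectionVars false

open Set Filter Topology Complex
open scoped ContDiff Matrix ComplexConjugate Manifold

namespace Crest.Agent.R272.Kps_595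

open Crest.Agent.R275.Geo Crest.Agent.R275.Core144 Crest.Agent.R273.Defs_333
open Crest.Agent.R272.PosGlue_232 Crest.Agent.R272.PosFib_220

noncomputable section

section Gen

variable {n : ℕ} {M : Type} [TopologicalSpace M] {A : Atl n M} {L : LB A}
  {α : Type} [Fintype α]

/-- a metric over `univ` is a metric -/
def toHM (h : HMo L (univ : Set M)) : HM L where
  w := h.w
  pos i x hx := h.pos i x hx (mem_univ x)
  sm i := by
    have h1 := h.sm i
    rw [preimage_univ, inter_univ] at h1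
    exact h1
  tr i j x hx := h.tr i j x hx (mem_univ x)

theorem exists_pos [T2Space M] [CompactSpace M] {y : α → A.ι → M → ℂ}
    (hy : ∀ a, IsHS L univ (y a)) (hgood : ∀ x, Good univ y x) : ∃ H : HM L, H.Pos := by
  obtain ⟨W, hWo, hKW, -, h, hh⟩ := posfib isOpen_univ isCompact_univ (subset_univ _)
    finite_empty hy (fun x _ _ => hgood x)
  obtain rfl : W = univ := univ_subset_iff.1 hKW
  refine ⟨toHM h, fun i z hz v hv => ?_⟩
  have h1 := hh ((A.e i).symm z) (mem_univ _) i ((A.e i).map_target hz) v hv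
  rw [(A.e i).right_inv hz] at h1
  exact h1

end Gen

section Dim1

variable {M : Type} [TopologicalSpace M] {A : Atl 1 M}

/-- the unit vector -/
def e1 : Cn 1 := EuclideanSpace.single 0 1

theorem cn1_eq (v : Cn 1) : v = v 0 • e1 := by
  ext a
  fin_cases a
  simp [e1]

theorem fd1 (T : Cn 1 →L[ℂ] ℂ) (v : Cn 1) : T v = v 0 * T e1 := by
  conv_lhs => rw [cn1_eq v, map_smul]
  rfl

/-- the differential of `u` in the chart `i` -/
def d1 (A : Atl 1 M) (u : M → ℂ) (i : A.ι) (x : M) : ℂ :=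
  open Classical in
  if x ∈ (A.e i).source then fderiv ℂ (fun z => u ((A.e i).symm z)) (A.e i x) e1 else 0

theorem d1_of_mem (u : M → ℂ) {i : A.ι} {x : M} (hx : x ∈ (A.e i).source) :
    d1 A u i x = fderiv ℂ (fun z => u ((A.e i).symm z)) (A.e i x) e1 := if_pos hx

theorem d1_off (u : M → ℂ) {i : A.ι} {x : M} (hx : x ∉ (A.e i).source) : d1 A u i x = 0 :=
  if_neg hx

theorem isHS_d1 {u : M → ℂ} {U : Set M} (hU : IsOpen U) (hu : ∀ i, HolAt A i U u) :
    IsHS (KB A) U (d1 A u) := by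
  refine ⟨fun i => ?_, fun i x hx => d1_off u hx, fun i j x hx hxU => ?_⟩
  · have h1 : DifferentiableOn ℂ (fun z => fderiv ℂ (fun w => u ((A.e i).symm w)) z e1)
        ((A.e i).target ∩ (A.e i).symm ⁻¹' U) := by
      have h2 := Crest.Agent.R266.SCV.analyticOnNhd_of_differentiableOn
        ((A.e i).isOpen_inter_preimage_symm hU) (hu i)
      intro z hz
      exact ((h2 z hz).fderiv.differentiableAt.clm_apply
        (differentiableAt_const e1)).differentiableWithinAt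
    refine h1.congr fun z hz => ?_
    rw [d1_of_mem u ((A.e i).map_target hz.1), (A.e i).right_inv hz.1]
  · have hz : A.e i x ∈ A.ov i j := mem_ov hx
    have h1 : (fun z => u ((A.e i).symm z)) =ᶠ[𝓝 (A.e i x)]
        (fun z => u ((A.e j).symm z)) ∘ fun z => A.e j ((A.e i).symm z) := by
      filter_upwards [(isOpen_ov (A := A) i j).mem_nhds hz] with w hw
      simp only [Function.comp_apply]
      rw [(A.e j).left_inv hw.2]
    have h2 : DifferentiableAt ℂ (fun z => A.e j ((A.e i).symm z)) (A.e i x) :=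
      (A.holo i j).differentiableAt ((isOpen_ov (A := A) i j).mem_nhds hz)
    have h3 : A.e j ((A.e i).symm (A.e i x)) = A.e j x := by rw [(A.e i).left_inv hx.1]
    have h4 : DifferentiableAt ℂ (fun z => u ((A.e j).symm z)) (A.e j x) := by
      refine (hu j).differentiableAt (((A.e j).isOpen_inter_preimage_symm hU).mem_nhds
        ⟨(A.e j).map_source hx.2, ?_⟩)
      show (A.e j).symm (A.e j x) ∈ U
      rwa [(A.e j).left_inv hx.2]
    rw [d1_of_mem u hx.1, d1_of_mem u hx.2, h1.fderiv_eq, fderiv_comp _ (by rw [h3]; exact h4) h2,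
      h3, ContinuousLinearMap.comp_apply, fd1, KB_g hx]
    congr 1
    rw [Matrix.det_fin_one]
    rfl

/-- functions times sections -/
theorem isHS_fmul {L : LB A} {s : A.ι → M → ℂ} {f : M → ℂ} {U : Set M} (hf : ∀ i, HolAt A i U f)
    (hs : IsHS L U s) : IsHS L U fun i x => f x * s i x := by
  refine ⟨fun i => (hf i).mul (hs.hol i), fun i x hx => ?_, fun i j x hx hxU => ?_⟩
  · simp [hs.off i x hx]
  · show f x * s i x = L.g i j x * (f x * s j x)
    rw [hs.tr i j x hx hxU]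
    ring

/-- gluing of sections -/
theorem glueHS {L : LB A} {κ : Type} {U : κ → Set M} (hU : ∀ k, IsOpen (U k))
    (hcov : ∀ x, ∃ k, x ∈ U k) {s : κ → A.ι → M → ℂ} (hs : ∀ k, IsHS L (U k) (s k))
    (hag : ∀ k l, ∀ x ∈ U k ∩ U l, ∀ i, s k i x = s l i x) :
    ∃ t : A.ι → M → ℂ, IsHS L univ t ∧ ∀ k, ∀ x ∈ U k, ∀ i, t i x = s k i x := by
  choose c hc using hcov
  have key : ∀ k, ∀ x ∈ U k, ∀ i, s (c x) i x = s k i x := fun k x hx i =>
    hag (c x) k x ⟨hc x, hx⟩ i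
  refine ⟨fun i x => s (c x) i x, ⟨fun i => ?_, fun i x hx => (hs _).off i x hx,
    fun i j x hx _ => (hs _).tr i j x hx (hc x)⟩, fun k x hx i => key k x hx i⟩
  rintro z ⟨hz, -⟩
  set x := (A.e i).symm z with hx
  have h1 : DifferentiableAt ℂ (fun w => s (c x) i ((A.e i).symm w)) z :=
    ((hs (c x)).hol i).differentiableAt (((A.e i).isOpen_inter_preimage_symm (hU (c x))).mem_nhds
      ⟨hz, hc x⟩)
  refine (h1.congr_of_eventuallyEq ?_).differentiableWithinAt
  filter_upwards [((A.e i).isOpen_inter_preimage_symm (hU (c x))).mem_nhds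
    (show z ∈ (A.e i).target ∩ (A.e i).symm ⁻¹' (U (c x)) from ⟨hz, hc x⟩)] with w hw
  exact key (c x) _ hw.2 i

variable {α : Type} [Fintype α]

/-- a good point: two sections `y b = t * y a` near `x`, `y a` without zero, `t` a coordinate -/
theorem good_of {L : LB A} {y : α → A.ι → M → ℂ} (hy : ∀ a, IsHS L univ (y a)) {x : M} {i : A.ι}
    (hi : x ∈ (A.e i).source) {U : Set M} (hU : IsOpen U) (hxU : x ∈ U) {t : M → ℂ}
    (ht : HolAt A i U t) {a b : α} (hab : ∀ p ∈ U, y b i p = t p * y a i p) (h0 : y a i x ≠ 0)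
    (hd : d1 A t i x ≠ 0) (K : Set M) : Good K y x := by
  refine ⟨i, hi, ⟨a, h0⟩, fun v hv ⟨c, hc⟩ => absurd ?_ hv⟩
  have hz : A.e i x ∈ (A.e i).target ∩ (A.e i).symm ⁻¹' U :=
    ⟨(A.e i).map_source hi, show (A.e i).symm (A.e i x) ∈ U by rwa [(A.e i).left_inv hi]⟩
  have hn := ((A.e i).isOpen_inter_preimage_symm hU).mem_nhds hz
  have h1 : DifferentiableAt ℂ (fun w => t ((A.e i).symm w)) (A.e i x) :=
    ht.differentiableAt hn
  have h2 : DifferentiableAt ℂ (fun w => y a i ((A.e i).symm w)) (A.e i x) :=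
    (sec_anal isOpen_univ (hy a) hi (mem_univ x)).differentiableAt
  have h3 : (fun w => y b i ((A.e i).symm w)) =ᶠ[𝓝 (A.e i x)]
      fun w => t ((A.e i).symm w) * y a i ((A.e i).symm w) := by
    filter_upwards [hn] with w hw
    exact hab _ hw.2
  have hx : (A.e i).symm (A.e i x) = x := (A.e i).left_inv hi
  have hb := hc b
  have ha := hc a
  rw [h3.fderiv_eq, fderiv_fun_mul h1 h2, hab x hxU] at hb
  simp only [_root_.add_apply, _root_.smul_apply, smul_eq_mul, hx] at hb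
  rw [ha] at hb
  have h4 : y a i x * fderiv ℂ (fun w => t ((A.e i).symm w)) (A.e i x) v = 0 := by
    linear_combination hb
  have h5 := (mul_eq_zero.1 h4).resolve_left h0
  rw [fd1, ← d1_of_mem t hi] at h5
  have h6 := (mul_eq_zero.1 h5).resolve_right hd
  rw [cn1_eq v, h6, zero_smul]

end Dim1

end

end Crest.Agent.R272.Kps_595
end

-- ▼ part R272/Kps2_595
section

/-!
# R272, S14-KPOS (helper595), part 2: the Fermat quartic

`QuD A` : functions on a curve which make it the plane quartic `Y⁴ = 1 - X⁴` (charts `X, Y` on `U0`,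
`ξ = 1 / X`, `υ = Y / X` on `U1`); `kpos` : its canonical bundle has a positive metric
(sections `dX / Y³ · (1, X, Y)`).
-/

set_option autoImplicit false
set_option linter.unusedSectionVars false

open Set Filter Topology Complex
open scoped ContDiff Matrix ComplexConjugate Manifold

namespace Crest.Agent.R272.Kps_595

open Crest.Agent.R275.Geo Crest.Agent.R275.Core144 Crest.Agent.R273.Defs_333
open Crest.Agent.R272.PosGlue_232 Crest.Agent.R272.PosFib_220

noncomputable section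

variable {M : Type} [TopologicalSpace M] {A : Atl 1 M}

/-! ### calculus of `d1` -/

section Calc

variable {u v : M → ℂ} {U : Set M} {i : A.ι} {x : M}

theorem diffAt (hU : IsOpen U) (hu : HolAt A i U u) (hi : x ∈ (A.e i).source) (hx : x ∈ U) :
    DifferentiableAt ℂ (fun z => u ((A.e i).symm z)) (A.e i x) :=
  hu.differentiableAt (((A.e i).isOpen_inter_preimage_symm hU).mem_nhds
    ⟨(A.e i).map_source hi, show (A.e i).symm (A.e i x) ∈ U by rwa [(A.e i).left_inv hi]⟩)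

theorem d1_congr (hU : IsOpen U) (hx : x ∈ U) (h : ∀ p ∈ U, u p = v p) (i : A.ι) :
    d1 A u i x = d1 A v i x := by
  by_cases hi : x ∈ (A.e i).source
  · rw [d1_of_mem u hi, d1_of_mem v hi]
    have hz : A.e i x ∈ (A.e i).target ∩ (A.e i).symm ⁻¹' U :=
      ⟨(A.e i).map_source hi, show (A.e i).symm (A.e i x) ∈ U by rwa [(A.e i).left_inv hi]⟩
    have h3 : (fun w => u ((A.e i).symm w)) =ᶠ[𝓝 (A.e i x)] fun w => v ((A.e i).symm w) := by
      filter_upwards [((A.e i).isOpen_inter_preimage_symm hU).mem_nhds hz] with w hw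
      exact h _ hw.2
    rw [h3.fderiv_eq]
  · rw [d1_off u hi, d1_off v hi]

theorem d1_const (c : ℂ) (i : A.ι) (x : M) : d1 A (fun _ => c) i x = 0 := by
  by_cases hi : x ∈ (A.e i).source
  · rw [d1_of_mem _ hi]
    simp
  · rw [d1_off _ hi]

theorem d1_mul (hU : IsOpen U) (hx : x ∈ U) (hu : ∀ i, HolAt A i U u) (hv : ∀ i, HolAt A i U v)
    (i : A.ι) : d1 A (fun p => u p * v p) i x = u x * d1 A v i x + v x * d1 A u i x := by
  by_cases hi : x ∈ (A.e i).source
  · rw [d1_of_mem _ hi, d1_of_mem _ hi, d1_of_mem _ hi, fderiv_fun_mul (diffAt hU (hu i) hi hx)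
      (diffAt hU (hv i) hi hx)]
    simp only [_root_.add_apply, _root_.smul_apply, smul_eq_mul, (A.e i).left_inv hi]
  · rw [d1_off _ hi, d1_off _ hi, d1_off _ hi]
    ring


theorem d1_sub (hU : IsOpen U) (hx : x ∈ U) (hu : ∀ i, HolAt A i U u) (hv : ∀ i, HolAt A i U v)
    (i : A.ι) : d1 A (fun p => u p - v p) i x = d1 A u i x - d1 A v i x := by
  by_cases hi : x ∈ (A.e i).source
  · rw [d1_of_mem _ hi, d1_of_mem _ hi, d1_of_mem _ hi, fderiv_fun_sub (diffAt hU (hu i) hi hx)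
      (diffAt hU (hv i) hi hx)]
    simp only [_root_.sub_apply]
  · rw [d1_off _ hi, d1_off _ hi, d1_off _ hi]
    ring

theorem d1_pow (hU : IsOpen U) (hx : x ∈ U) (hu : ∀ i, HolAt A i U u) (m : ℕ) (i : A.ι) :
    d1 A (fun p => u p ^ (m + 1)) i x = (m + 1) * u x ^ m * d1 A u i x := by
  induction m with
  | zero => simp
  | succ m ih =>
    have h1 : (fun p => u p ^ (m + 1 + 1)) = fun p => u p ^ (m + 1) * u p := by
      funext p
      rw [pow_succ]
    rw [h1, d1_mul hU hx (fun i => (hu i).pow _) hu, ih]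
    push_cast
    ring


end Calc

/-- the Fermat quartic `Y⁴ = 1 - X⁴`: `(X, Y)` on `U0`, `(ξ, υ) = (1 / X, Y / X)` on `U1`, both
immersive -/
structure QuD (A : Atl 1 M) where
  U0 : Set M
  U1 : Set M
  o0 : IsOpen U0
  o1 : IsOpen U1
  X : M → ℂ
  Y : M → ℂ
  ξ : M → ℂ
  υ : M → ℂ
  cov : ∀ x, x ∈ U0 ∨ x ∈ U1 ∧ υ x ≠ 0
  hX : ∀ i, HolAt A i U0 X
  hY : ∀ i, HolAt A i U0 Y
  hξ : ∀ i, HolAt A i U1 ξ
  hυ : ∀ i, HolAt A i U1 υ
  r0 : ∀ x ∈ U0, Y x ^ 4 = 1 - X x ^ 4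
  r1 : ∀ x ∈ U1, υ x ^ 4 = ξ x ^ 4 - 1
  ovX : ∀ x ∈ U0 ∩ U1, ξ x * X x = 1
  ovY : ∀ x ∈ U0 ∩ U1, υ x = ξ x * Y x
  imm0 : ∀ x ∈ U0, ∃ i, x ∈ (A.e i).source ∧ (d1 A X i x ≠ 0 ∨ d1 A Y i x ≠ 0)
  imm1 : ∀ x ∈ U1, ∃ i, x ∈ (A.e i).source ∧ (d1 A ξ i x ≠ 0 ∨ d1 A υ i x ≠ 0)

namespace QuD

variable (Q : QuD A)

theorem cont_of_hol {u : M → ℂ} {U : Set M} (hU : IsOpen U) (hu : ∀ i, HolAt A i U u) :
    ContinuousOn u U := by
  intro x hx
  obtain ⟨i, hi⟩ := A.cover x
  have h1 := (diffAt hU (hu i) hi hx).continuousAt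
  have h2 : ContinuousAt (fun p => u ((A.e i).symm (A.e i p))) x :=
    ContinuousAt.comp (g := fun z => u ((A.e i).symm z)) h1 ((A.e i).continuousAt hi)
  refine (h2.congr ?_).continuousWithinAt
  filter_upwards [(A.e i).open_source.mem_nhds hi] with p hp
  rw [(A.e i).left_inv hp]

theorem open_ne {u : M → ℂ} {U : Set M} (hU : IsOpen U) (hu : ∀ i, HolAt A i U u) :
    IsOpen (U ∩ {x | u x ≠ 0}) :=
  (cont_of_hol hU hu).isOpen_inter_preimage hU _root_.isOpen_ne

/-- the three open sets -/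
def V : Fin 3 → Set M :=
  ![Q.U0 ∩ {x | Q.Y x ≠ 0}, Q.U0 ∩ {x | Q.X x ≠ 0}, Q.U1 ∩ {x | Q.υ x ≠ 0}]

theorem oV (k : Fin 3) : IsOpen (Q.V k) := by
  fin_cases k
  · exact open_ne Q.o0 Q.hY
  · exact open_ne Q.o0 Q.hX
  · exact open_ne Q.o1 Q.hυ

theorem cV (x : M) : ∃ k, x ∈ Q.V k := by
  by_cases h0 : x ∈ Q.U0
  · by_cases hY : Q.Y x = 0
    · refine ⟨1, h0, fun hX => ?_⟩
      have h1 := Q.r0 x h0
      rw [hX, hY] at h1
      norm_num at h1
    · exact ⟨0, h0, hY⟩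
  · exact ⟨2, (Q.cov x).resolve_left h0⟩

/-- the coefficient functions of the three forms on the three open sets -/
def cf : Fin 3 → Fin 3 → M → ℂ :=
  ![![fun x => (Q.Y x ^ 3)⁻¹, fun x => Q.X x * (Q.Y x ^ 3)⁻¹, fun x => Q.Y x * (Q.Y x ^ 3)⁻¹],
    ![fun x => - (Q.X x ^ 3)⁻¹, fun x => - (Q.X x * (Q.X x ^ 3)⁻¹),
      fun x => - (Q.Y x * (Q.X x ^ 3)⁻¹)],
    ![fun x => - (Q.ξ x * (Q.υ x ^ 3)⁻¹), fun x => - (Q.υ x ^ 3)⁻¹,
      fun x => - (Q.υ x * (Q.υ x ^ 3)⁻¹)]]

/-- the coordinate of the open sets -/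
def co : Fin 3 → M → ℂ := ![Q.X, Q.Y, Q.ξ]

/-- the forms -/
def fm (a k : Fin 3) (i : A.ι) (x : M) : ℂ := Q.cf k a x * d1 A (Q.co k) i x

theorem hcf (k a : Fin 3) (i : A.ι) : HolAt A i (Q.V k) (Q.cf k a) := by
  have hX : HolAt A i (Q.V 1) Q.X := (Q.hX i).mono inter_subset_left
  have hY : HolAt A i (Q.V 1) Q.Y := (Q.hY i).mono inter_subset_left
  have hX0 : HolAt A i (Q.V 0) Q.X := (Q.hX i).mono inter_subset_left
  have hY0 : HolAt A i (Q.V 0) Q.Y := (Q.hY i).mono inter_subset_left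
  have hξ : HolAt A i (Q.V 2) Q.ξ := (Q.hξ i).mono inter_subset_left
  have hυ : HolAt A i (Q.V 2) Q.υ := (Q.hυ i).mono inter_subset_left
  have e0 : HolAt A i (Q.V 0) fun x => (Q.Y x ^ 3)⁻¹ :=
    (hY0.pow 3).inv fun x _ hx => pow_ne_zero 3 hx.2
  have e1 : HolAt A i (Q.V 1) fun x => (Q.X x ^ 3)⁻¹ :=
    (hX.pow 3).inv fun x _ hx => pow_ne_zero 3 hx.2
  have e2 : HolAt A i (Q.V 2) fun x => (Q.υ x ^ 3)⁻¹ :=
    (hυ.pow 3).inv fun x _ hx => pow_ne_zero 3 hx.2
  fin_cases k <;> fin_cases a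
  · exact e0
  · exact hX0.mul e0
  · exact hY0.mul e0
  · exact e1.neg
  · exact (hX.mul e1).neg
  · exact (hY.mul e1).neg
  · exact (hξ.mul e2).neg
  · exact e2.neg
  · exact (hυ.mul e2).neg

theorem hco (k : Fin 3) (i : A.ι) : HolAt A i (Q.V k) (Q.co k) := by
  fin_cases k
  · exact (Q.hX i).mono inter_subset_left
  · exact (Q.hY i).mono inter_subset_left
  · exact (Q.hξ i).mono inter_subset_left

theorem hfm (a k : Fin 3) : IsHS (KB A) (Q.V k) (Q.fm a k) :=
  isHS_fmul (Q.hcf k a) (isHS_d1 (Q.oV k) (Q.hco k))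

/-- `X³ dX + Y³ dY = 0` -/
theorem rel0 {x : M} (hx : x ∈ Q.U0) (i : A.ι) :
    Q.Y x ^ 3 * d1 A Q.Y i x = - (Q.X x ^ 3 * d1 A Q.X i x) := by
  have h1 := d1_congr (A := A) (u := fun p => Q.Y p ^ (3 + 1)) (v := fun p => 1 - Q.X p ^ (3 + 1))
    Q.o0 hx (fun p hp => Q.r0 p hp) i
  rw [d1_pow Q.o0 hx Q.hY, d1_sub Q.o0 hx (fun i => holAt_const 1) (fun i => (Q.hX i).pow _),
    d1_const, d1_pow Q.o0 hx Q.hX] at h1
  push_cast at h1
  linear_combination h1 / 4

theorem rel1 {x : M} (hx : x ∈ Q.U1) (i : A.ι) :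
    Q.υ x ^ 3 * d1 A Q.υ i x = Q.ξ x ^ 3 * d1 A Q.ξ i x := by
  have h1 := d1_congr (A := A) (u := fun p => Q.υ p ^ (3 + 1)) (v := fun p => Q.ξ p ^ (3 + 1) - 1)
    Q.o1 hx (fun p hp => Q.r1 p hp) i
  rw [d1_pow Q.o1 hx Q.hυ, d1_sub Q.o1 hx (fun i => (Q.hξ i).pow _) (fun i => holAt_const 1),
    d1_const, d1_pow Q.o1 hx Q.hξ] at h1
  push_cast at h1
  linear_combination h1 / 4

theorem dX {x : M} (hx : x ∈ Q.U0) (hY : Q.Y x ≠ 0) :
    ∃ i, x ∈ (A.e i).source ∧ d1 A Q.X i x ≠ 0 := by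
  obtain ⟨i, hi, h⟩ := Q.imm0 x hx
  refine ⟨i, hi, fun h0 => ?_⟩
  have h1 := Q.rel0 hx i
  rw [h0, mul_zero, neg_zero] at h1
  rcases h with h | h
  · exact h h0
  · exact h ((mul_eq_zero.1 h1).resolve_left (pow_ne_zero 3 hY))

theorem dY {x : M} (hx : x ∈ Q.U0) (hX : Q.X x ≠ 0) :
    ∃ i, x ∈ (A.e i).source ∧ d1 A Q.Y i x ≠ 0 := by
  obtain ⟨i, hi, h⟩ := Q.imm0 x hx
  refine ⟨i, hi, fun h0 => ?_⟩
  have h1 := Q.rel0 hx i
  rw [h0, mul_zero, eq_comm, neg_eq_zero] at h1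
  rcases h with h | h
  · exact h ((mul_eq_zero.1 h1).resolve_left (pow_ne_zero 3 hX))
  · exact h h0

theorem dξ {x : M} (hx : x ∈ Q.U1) (hυ : Q.υ x ≠ 0) :
    ∃ i, x ∈ (A.e i).source ∧ d1 A Q.ξ i x ≠ 0 := by
  obtain ⟨i, hi, h⟩ := Q.imm1 x hx
  refine ⟨i, hi, fun h0 => ?_⟩
  have h1 := Q.rel1 hx i
  rw [h0, mul_zero] at h1
  rcases h with h | h
  · exact h h0
  · exact h ((mul_eq_zero.1 h1).resolve_left (pow_ne_zero 3 hυ))

/-- `ξ dX + X dξ = 0` -/
theorem relX {x : M} (hx : x ∈ Q.U0 ∩ Q.U1) (i : A.ι) :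
    Q.ξ x * d1 A Q.X i x + Q.X x * d1 A Q.ξ i x = 0 := by
  have ho := Q.o0.inter Q.o1
  have hX : ∀ i, HolAt A i (Q.U0 ∩ Q.U1) Q.X := fun i => (Q.hX i).mono inter_subset_left
  have hξ : ∀ i, HolAt A i (Q.U0 ∩ Q.U1) Q.ξ := fun i => (Q.hξ i).mono inter_subset_right
  have h1 := d1_congr (A := A) (u := fun p => Q.ξ p * Q.X p) (v := fun _ => (1 : ℂ))
    ho hx (fun p hp => Q.ovX p hp) i
  rw [d1_mul ho hx hξ hX, d1_const] at h1
  exact h1

theorem ag01 (a : Fin 3) {x : M} (h0 : x ∈ Q.V 0) (h1 : x ∈ Q.V 1) (i : A.ι) :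
    Q.fm a 0 i x = Q.fm a 1 i x := by
  have hY : Q.Y x ≠ 0 := h0.2
  have hX : Q.X x ≠ 0 := h1.2
  have h := Q.rel0 h0.1 i
  have key : (Q.Y x ^ 3)⁻¹ * d1 A Q.X i x = - (Q.X x ^ 3)⁻¹ * d1 A Q.Y i x := by
    field_simp
    linear_combination h
  fin_cases a
  · exact key
  · show Q.X x * (Q.Y x ^ 3)⁻¹ * d1 A Q.X i x = - (Q.X x * (Q.X x ^ 3)⁻¹) * d1 A Q.Y i x
    linear_combination Q.X x * key
  · show Q.Y x * (Q.Y x ^ 3)⁻¹ * d1 A Q.X i x = - (Q.Y x * (Q.X x ^ 3)⁻¹) * d1 A Q.Y i x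
    linear_combination Q.Y x * key

theorem ag02 (a : Fin 3) {x : M} (h0 : x ∈ Q.V 0) (h1 : x ∈ Q.V 2) (i : A.ι) :
    Q.fm a 0 i x = Q.fm a 2 i x := by
  have hY : Q.Y x ≠ 0 := h0.2
  have hυ : Q.υ x ≠ 0 := h1.2
  have hX := Q.ovX x ⟨h0.1, h1.1⟩
  have hX0 : Q.X x ≠ 0 := right_ne_zero_of_mul_eq_one hX
  have hξ0 : Q.ξ x ≠ 0 := left_ne_zero_of_mul_eq_one hX
  have h := Q.relX ⟨h0.1, h1.1⟩ i
  have hυY := Q.ovY x ⟨h0.1, h1.1⟩
  have hX' : Q.X x = (Q.ξ x)⁻¹ := eq_inv_of_mul_eq_one_right hX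
  have hd : d1 A Q.X i x = - (d1 A Q.ξ i x) * (Q.ξ x)⁻¹ * (Q.ξ x)⁻¹ := by
    have h2 : Q.ξ x * d1 A Q.X i x = - (Q.X x * d1 A Q.ξ i x) := by linear_combination h
    rw [hX'] at h2
    field_simp
    field_simp at h2
    linear_combination h2
  have key : (Q.Y x ^ 3)⁻¹ * d1 A Q.X i x = - (Q.ξ x * (Q.υ x ^ 3)⁻¹) * d1 A Q.ξ i x := by
    rw [hd, hυY]
    field_simp
  fin_cases a
  · exact key
  · show Q.X x * (Q.Y x ^ 3)⁻¹ * d1 A Q.X i x = - (Q.υ x ^ 3)⁻¹ * d1 A Q.ξ i x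
    rw [mul_assoc, key]
    linear_combination (- (Q.υ x ^ 3)⁻¹ * d1 A Q.ξ i x) * hX
  · show Q.Y x * (Q.Y x ^ 3)⁻¹ * d1 A Q.X i x = - (Q.υ x * (Q.υ x ^ 3)⁻¹) * d1 A Q.ξ i x
    rw [mul_assoc, key, hυY]
    ring

theorem ag12 (a : Fin 3) {x : M} (h0 : x ∈ Q.V 1) (h1 : x ∈ Q.V 2) (i : A.ι) :
    Q.fm a 1 i x = Q.fm a 2 i x := by
  have hυY := Q.ovY x ⟨h0.1, h1.1⟩
  have hY : Q.Y x ≠ 0 := fun h => h1.2 (by rw [hυY, h, mul_zero])
  rw [← Q.ag01 a (x := x) ⟨h0.1, hY⟩ h0 i, Q.ag02 a (x := x) ⟨h0.1, hY⟩ h1 i]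

theorem ag (a k l : Fin 3) {x : M} (hx : x ∈ Q.V k ∩ Q.V l) (i : A.ι) :
    Q.fm a k i x = Q.fm a l i x := by
  fin_cases k <;> fin_cases l
  · rfl
  · exact Q.ag01 a hx.1 hx.2 i
  · exact Q.ag02 a hx.1 hx.2 i
  · exact (Q.ag01 a hx.2 hx.1 i).symm
  · rfl
  · exact Q.ag12 a hx.1 hx.2 i
  · exact (Q.ag02 a hx.2 hx.1 i).symm
  · exact (Q.ag12 a hx.2 hx.1 i).symm
  · rfl

/-- **the canonical bundle of the Fermat quartic is positive** -/
theorem kpos [T2Space M] [CompactSpace M] (Q : QuD A) : ∃ H : HM (KB A), H.Pos := by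
  have hg : ∀ a : Fin 3, ∃ t : A.ι → M → ℂ, IsHS (KB A) univ t ∧
      ∀ k, ∀ x ∈ Q.V k, ∀ i, t i x = Q.fm a k i x := fun a =>
    glueHS Q.oV Q.cV (fun k => Q.hfm a k) fun k l x hx i => Q.ag a k l hx i
  choose y hy hyk using hg
  refine exists_pos hy fun x => ?_
  by_cases h0 : x ∈ Q.U0
  · by_cases hY : Q.Y x = 0
    · have hX : Q.X x ≠ 0 := by
        intro hX
        have h1 := Q.r0 x h0
        rw [hX, hY] at h1
        norm_num at h1
      obtain ⟨i, hi, hd⟩ := Q.dY h0 hX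
      have hV : x ∈ Q.V 1 := ⟨h0, hX⟩
      refine good_of (a := 0) (b := 2) hy hi (Q.oV 1) hV ((Q.hY i).mono inter_subset_left)
        (fun p hp => ?_) ?_ hd univ
      · rw [hyk 2 1 p hp, hyk 0 1 p hp]
        show - (Q.Y p * (Q.X p ^ 3)⁻¹) * d1 A Q.Y i p = Q.Y p * (- (Q.X p ^ 3)⁻¹ * d1 A Q.Y i p)
        ring
      · rw [hyk 0 1 x hV]
        exact mul_ne_zero (neg_ne_zero.2 (inv_ne_zero (pow_ne_zero 3 hX))) hd
    · obtain ⟨i, hi, hd⟩ := Q.dX h0 hY
      have hV : x ∈ Q.V 0 := ⟨h0, hY⟩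
      refine good_of (a := 0) (b := 1) hy hi (Q.oV 0) hV ((Q.hX i).mono inter_subset_left)
        (fun p hp => ?_) ?_ hd univ
      · rw [hyk 1 0 p hp, hyk 0 0 p hp]
        show Q.X p * (Q.Y p ^ 3)⁻¹ * d1 A Q.X i p = Q.X p * ((Q.Y p ^ 3)⁻¹ * d1 A Q.X i p)
        ring
      · rw [hyk 0 0 x hV]
        exact mul_ne_zero (inv_ne_zero (pow_ne_zero 3 hY)) hd
  · obtain ⟨h1, hυ⟩ := (Q.cov x).resolve_left h0
    obtain ⟨i, hi, hd⟩ := Q.dξ h1 hυ
    have hV : x ∈ Q.V 2 := ⟨h1, hυ⟩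
    refine good_of (a := 1) (b := 0) hy hi (Q.oV 2) hV ((Q.hξ i).mono inter_subset_left)
      (fun p hp => ?_) ?_ hd univ
    · rw [hyk 0 2 p hp, hyk 1 2 p hp]
      show - (Q.ξ p * (Q.υ p ^ 3)⁻¹) * d1 A Q.ξ i p = Q.ξ p * (- (Q.υ p ^ 3)⁻¹ * d1 A Q.ξ i p)
      ring
    · rw [hyk 1 2 x hV]
      exact mul_ne_zero (neg_ne_zero.2 (inv_ne_zero (pow_ne_zero 3 hυ))) hd

end QuD

end

end Crest.Agent.R272.Kps_595
end

-- ▼ part R272/Kps3_595

/-!
# R272, S14-KPOS (helper595), part 3: the instance for the cover `Y⁴ = a0⁴ - a1⁴` of the line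

`quD_of`  : `D : DCov_426.Data A1 ρ`, one root `y⁴ = a0⁴ - a1⁴` of `O 1` ⟹ `QuD A'` for every
            compatible atlas `A'` of `D.X`;
`kpos_of` : its canonical bundle has a positive metric.
-/

set_option autoImplicit false
set_option linter.unusedSectionVars false

open Set Filter Topology Complex
open scoped ContDiff Matrix ComplexConjugate Manifold

namespace Crest.Agent.R272.Kps_595

open Crest.Agent.R275.Geo Crest.Agent.R275.Core144 Crest.Agent.R273.Defs_333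
open Crest.Agent.R273.Fam_835 Crest.Agent.R273.Map_835
open Crest.Agent.R272.PosGlue_232 Crest.Agent.R272.PosFib_220
open Crest.Agent.R272.P1F_54 Crest.Agent.R272.P1S_590 Crest.Agent.R272.DCov_426

noncomputable section

variable {ρ : Type} [Fintype ρ] (D : Data A1 ρ) {A' : Atl 1 D.X} (hc : Cmp D.famX A')

/-- the open set over the chart `s` -/
def US (s : Bool) : Set D.X := D.p ⁻¹' (A1.e s).source

/-- the affine coordinate of the base point -/
def XS (s : Bool) (q : D.X) : ℂ := pc s (D.p q)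

theorem oUS (s : Bool) : IsOpen (US D s) := (A1.e s).open_source.preimage D.continuous_p

include hc in
theorem hXS (s : Bool) (i : A'.ι) : HolAt A' i (US D s) (XS D s) := by
  intro z hz
  have h1 : DifferentiableAt ℂ (rd A' A1 D.p i s) z :=
    ((D.holMap_p hc).hol i s).differentiableAt (((D.holMap_p hc).isOpen_dm i s).mem_nhds hz)
  have h2 : DifferentiableAt ℂ (fun w => kap (rd A' A1 D.p i s w)) z :=
    DifferentiableAt.comp z (g := kap) differentiable_kap.differentiableAt h1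
  refine (h2.congr_of_eventuallyEq ?_).differentiableWithinAt
  filter_upwards [((D.holMap_p hc).isOpen_dm i s).mem_nhds hz] with w hw
  exact (kap_ch1 s (t := D.p ((A'.e i).symm w)) hw.2).symm

include hc in
theorem hYS (a : ρ) (s : Bool) (i : A'.ι) : HolAt A' i (US D s) (D.y a s) :=
  (D.rsY hc a).hol i s

include hc in
theorem immS [Unique ρ] (s : Bool) {x : D.X} (hx : x ∈ US D s) :
    ∃ i, x ∈ (A'.e i).source ∧ (d1 A' (XS D s) i x ≠ 0 ∨ d1 A' (D.y default s) i x ≠ 0) := by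
  obtain ⟨i, hi⟩ := A'.cover x
  refine ⟨i, hi, ?_⟩
  by_contra hcon
  push Not at hcon
  obtain ⟨hX, hY⟩ := hcon
  rw [d1_of_mem _ hi] at hX hY
  have hz : A'.e i x ∈ dm A' A1 D.p i s :=
    ⟨(A'.e i).map_source hi, show D.p ((A'.e i).symm (A'.e i x)) ∈ (A1.e s).source by
      rw [(A'.e i).left_inv hi]
      exact hx⟩
  have hd := (D.holMap_p hc).isOpen_dm i s
  have h1 : DifferentiableAt ℂ (rd A' A1 D.p i s) (A'.e i x) :=
    ((D.holMap_p hc).hol i s).differentiableAt (hd.mem_nhds hz)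
  have h2 : (fun w => XS D s ((A'.e i).symm w)) =ᶠ[𝓝 (A'.e i x)]
      kap ∘ rd A' A1 D.p i s := by
    filter_upwards [hd.mem_nhds hz] with w hw
    exact (kap_ch1 s (t := D.p ((A'.e i).symm w)) hw.2).symm
  have h3 : fderiv ℂ (rd A' A1 D.p i s) (A'.e i x) e1 = 0 := by
    rw [h2.fderiv_eq, fderiv_comp _ (differentiable_kap _) h1, (hasFDerivAt_kap _).fderiv] at hX
    have h4 : (4 : ℂ) * (fderiv ℂ (rd A' A1 D.p i s) (A'.e i x) e1) 0 = 0 := hX
    have h5 := (mul_eq_zero.1 h4).resolve_left (by norm_num)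
    rw [cn1_eq (fderiv ℂ (rd A' A1 D.p i s) (A'.e i x) e1), h5, zero_smul]
  have h6 := D.imm_rs hc i s (A'.e i x) hz e1 h3 ⟨0, fun o => ?_⟩
  · have h7 := congrArg (fun v : Cn 1 => v 0) h6
    simp [e1] at h7
  · rcases o with _ | a
    · have h8 : (fun w => ((D.rs hc) none).f i s ((A'.e i).symm w)) = fun _ : Cn 1 => (1 : ℂ) := rfl
      rw [h8]
      simp
    · obtain rfl : a = default := Subsingleton.elim _ _
      rw [zero_mul]
      exact hY

/-- the cover `y⁴ = a0⁴ - a1⁴` of the line is the Fermat quartic -/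
def quD_of [Unique ρ] (hk : D.k default = 4)
    (h0 : ∀ t ∈ (A1.e false).source, D.s default false t = 1 - pc false t ^ 4)
    (h1 : ∀ t ∈ (A1.e true).source, D.s default true t = pc true t ^ 4 - 1)
    (hg : ∀ t ∈ (A1.e false).source ∩ (A1.e true).source,
      (D.L default).g true false t = pc true t) : QuD A' where
  U0 := US D false
  U1 := US D true
  o0 := oUS D false
  o1 := oUS D true
  X := XS D false
  Y := D.y default false
  ξ := XS D true
  υ := D.y default true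
  hX := hXS D hc false
  hY := hYS D hc default false
  hξ := hXS D hc true
  hυ := hYS D hc default true
  cov x := by
    by_cases hx : x ∈ US D false
    · exact Or.inl hx
    · right
      obtain ⟨s, hs⟩ := A1.cover (D.p x)
      cases s with
      | false => exact absurd hs hx
      | true =>
        refine ⟨hs, fun hυ => hx ?_⟩
        have h2 := D.y_pow default (i := true) (q := x) hs
        rw [hυ, hk, h1 _ hs] at h2
        have h3 : pc true (D.p x) ^ 4 = 1 := by linear_combination h2.symm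
        have h4 : ‖pc true (D.p x)‖ = 1 := by
          have h5 : ‖pc true (D.p x)‖ ^ 4 = 1 := by rw [← norm_pow, h3, norm_one]
          exact (pow_eq_one_iff_of_nonneg (norm_nonneg _) (by norm_num)).1 h5
        obtain ⟨a0, a1, h, he⟩ := exists_pt (D.p x)
        have hm : D.p x ∈ ps true := (mem_ch1.1 hs).1
        rw [he] at hm h4
        have ha1 : a1 ≠ 0 := (mem_ps_pt h true).1 hm
        rw [pc_pt (s := true) ha1, oth_true, sel_true, norm_div] at h4
        have ha0 : a0 ≠ 0 := by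
          rintro rfl
          simp at h4
        show D.p x ∈ (ch1 false).source
        rw [he]
        refine mem_ch1.2 ⟨(mem_ps_pt h false).2 ha0, ?_⟩
        rw [pc_pt (s := false) ha0, oth_false, sel_false, norm_div]
        have h6 : ‖a0‖ = ‖a1‖ := by
          rw [div_eq_one_iff_eq (norm_ne_zero_iff.2 ha1)] at h4
          exact h4
        rw [h6, div_self (norm_ne_zero_iff.2 ha1)]
        norm_num
  r0 x hx := by
    have h2 := D.y_pow default (i := false) (q := x) hx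
    rw [hk, h0 _ hx] at h2
    exact h2
  r1 x hx := by
    have h2 := D.y_pow default (i := true) (q := x) hx
    rw [hk, h1 _ hx] at h2
    exact h2
  ovX x hx := by
    obtain ⟨a0, a1, h, he⟩ := exists_pt (D.p x)
    have hm0 : D.p x ∈ ps false := (mem_ch1.1 hx.1).1
    have hm1 : D.p x ∈ ps true := (mem_ch1.1 hx.2).1
    rw [he] at hm0 hm1
    have ha0 : a0 ≠ 0 := (mem_ps_pt h false).1 hm0
    have ha1 : a1 ≠ 0 := (mem_ps_pt h true).1 hm1
    show pc true (D.p x) * pc false (D.p x) = 1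
    rw [he, pc_pt (s := true) ha1, pc_pt (s := false) ha0, oth_true, sel_true, oth_false,
      sel_false]
    field_simp
  ovY x hx := by
    rw [D.y_tr default (i := true) (j := false) hx.2 hx.1, hg _ hx]
    rfl
  imm0 x hx := immS D hc false hx
  imm1 x hx := immS D hc true hx

include hc in
/-- **the canonical bundle of `y⁴ = a0⁴ - a1⁴` is positive**, on every compatible atlas -/
theorem kpos_of [Unique ρ] (hk : D.k default = 4)
    (h0 : ∀ t ∈ (A1.e false).source, D.s default false t = 1 - pc false t ^ 4)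
    (h1 : ∀ t ∈ (A1.e true).source, D.s default true t = pc true t ^ 4 - 1)
    (hg : ∀ t ∈ (A1.e false).source ∩ (A1.e true).source,
      (D.L default).g true false t = pc true t) : ∃ H : HM (KB A'), H.Pos := by
  have : T2Space D.X := D.t2_X
  have : CompactSpace D.X := D.compact_X
  exact (quD_of D hc hk h0 h1 hg).kpos

end

end Crest.Agent.R272.Kps_595
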