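import Crest.Agent.R272.UnB1_894
import Crest.Agent.Lib.InjHolo
import Crest.Agent.R273.Map_835

-- ▼ part R272/UnB2_894
section

/-!
Row 272 (S0414), UNIF-B, part 2: holomorphic maps of the disc, Schwarz lemma, rotations.
-/

set_option autoImplicit false

open Metric Set Filter Topology Function
open scoped Classical

namespace Crest.Agent.R272.UnB_894

noncomputable section

/-- extension by zero of a function on the disc -/
def exw {W : Type*} [Zero W] (φ : DD → W) (z : ℂ) : W :=
  if h : z ∈ ball (0 : ℂ) 1 then φ ⟨z, h⟩ else 0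

section exw

variable {W : Type*} [Zero W]

@[simp] theorem exw_coe (φ : DD → W) (t : DD) : exw φ (t : ℂ) = φ t := by
  rw [exw, dif_pos t.2]

theorem exw_mk (φ : DD → W) {z : ℂ} (h : z ∈ ball (0 : ℂ) 1) : exw φ z = φ ⟨z, h⟩ := by
  rw [exw, dif_pos h]

theorem eventually_coe {P : ℂ → Prop} {t : DD} : (∀ᶠ s : DD in 𝓝 t, P s) ↔ ∀ᶠ z in 𝓝 (t : ℂ), P z := by
  rw [isOpen_ball.isOpenEmbedding_subtypeVal.map_nhds_eq t |>.symm]
  rfl

theorem eventually_mk {P : DD → Prop} {t : DD} :
    (∀ᶠ s : DD in 𝓝 t, P s) ↔ ∀ᶠ z in 𝓝 (t : ℂ), ∃ h : z ∈ ball (0 : ℂ) 1, P ⟨z, h⟩ := by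
  rw [← eventually_coe]
  exact eventually_congr (Eventually.of_forall fun s => ⟨fun h => ⟨s.2, h⟩, fun ⟨_, h⟩ => h⟩)

theorem continuousOn_exw {W : Type*} [Zero W] [TopologicalSpace W] {φ : DD → W} :
    ContinuousOn (exw φ) (ball 0 1) ↔ Continuous φ := by
  rw [continuousOn_iff_continuous_domRestrict]
  have : (ball (0 : ℂ) 1).domRestrict (exw φ) = φ := by
    funext t
    exact exw_coe φ t
  rw [this]

end exw

/-- holomorphic self-maps of the disc -/
def Hol (F : DD → DD) : Prop := DifferentiableOn ℂ (exw fun t => (F t : ℂ)) (ball 0 1)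

/-- the extension of a self-map -/
abbrev ex (F : DD → DD) : ℂ → ℂ := exw fun t => (F t : ℂ)

theorem ex_mem {F : DD → DD} {z : ℂ} (h : z ∈ ball (0 : ℂ) 1) : ex F z ∈ ball (0 : ℂ) 1 := by
  rw [ex, exw_mk _ h]
  exact (F ⟨z, h⟩).2

theorem ex_comp {F G : DD → DD} {z : ℂ} (h : z ∈ ball (0 : ℂ) 1) :
    ex (F ∘ G) z = ex F (ex G z) := by
  simp only [ex]
  rw [exw_mk _ h, exw_mk _ h]
  simp

theorem Hol.continuous {F : DD → DD} (h : Hol F) : Continuous F :=
  continuous_induced_rng.2 (continuousOn_exw.1 h.continuousOn)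

theorem Hol.comp {F G : DD → DD} (hF : Hol F) (hG : Hol G) : Hol (F ∘ G) := by
  have h1 : DifferentiableOn ℂ (fun z => ex F (ex G z)) (ball 0 1) :=
    DifferentiableOn.comp hF hG (fun z hz => ex_mem hz)
  exact h1.congr fun z hz => ex_comp hz

theorem Hol.id : Hol (fun t => t) := by
  refine differentiableOn_id.congr fun z hz => ?_
  rw [exw_mk _ hz]
  rfl

theorem Hol.differentiableAt {F : DD → DD} (h : Hol F) (t : DD) :
    DifferentiableAt ℂ (ex F) t := DifferentiableOn.differentiableAt h (isOpen_ball.mem_nhds t.2)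

theorem Hol.analyticAt {F : DD → DD} (h : Hol F) (t : DD) : AnalyticAt ℂ (ex F) t :=
  DifferentiableOn.analyticAt h (isOpen_ball.mem_nhds t.2)

/-- local criterion -/
theorem hol_of_local {F : DD → DD}
    (h : ∀ t : DD, ∃ G : ℂ → ℂ, DifferentiableAt ℂ G t ∧ ∀ᶠ s : DD in 𝓝 t, (F s : ℂ) = G s) :
    Hol F := by
  intro z hz
  obtain ⟨G, hG, hG'⟩ := h ⟨z, hz⟩
  refine (hG.congr_of_eventuallyEq ?_).differentiableWithinAt
  rw [eventually_mk] at hG'
  filter_upwards [hG'] with w ⟨hw, hw'⟩
  rw [exw_mk _ hw, hw']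


/-! ### Schwarz -/

section schwarz

variable {F : DD → DD}

theorem ex_zero (h0 : F o = o) : ex F 0 = 0 := by
  have := exw_coe (fun t => (F t : ℂ)) o
  rw [coe_o] at this
  rw [ex, this, h0, coe_o]

theorem mapsTo_ex : MapsTo (ex F) (ball 0 1) (closedBall (0 : ℂ) 1) :=
  fun _ hz => ball_subset_closedBall (ex_mem hz)

/-- Schwarz lemma -/
theorem schwarz (hF : Hol F) (h0 : F o = o) (t : DD) : ‖(F t : ℂ)‖ ≤ ‖(t : ℂ)‖ := by
  have := Complex.norm_le_norm_of_mapsTo_ball hF mapsTo_ex (ex_zero h0) (norm_lt_one t)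
  simpa [ex] using this




/-- Schwarz lemma for a map with a critical point at the centre -/
theorem schwarz_sq (hF : Hol F) (h0 : F o = o) (hd : deriv (ex F) 0 = 0) (t : DD) :
    ‖(F t : ℂ)‖ ≤ ‖(t : ℂ)‖ ^ 2 := by
  have hz := ex_zero h0
  have hm : MapsTo (ex F) (ball 0 1) (closedBall (ex F 0) 1) := by
    rw [hz]
    exact mapsTo_ex
  have hda : HasDerivAt (ex F) 0 0 := by
    have := (hF.differentiableAt o).hasDerivAt
    rw [coe_o] at this
    rwa [hd] at this
  have hn : (fun z => ex F z - ex F 0) =o[𝓝 0] (fun w => ‖w - 0‖ ^ 1) := by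
    have := hasDerivAt_iff_isLittleO.1 hda
    simp only [smul_zero, sub_zero] at this
    simp only [sub_zero, pow_one]
    exact this.norm_right
  have := Complex.dist_le_mul_div_pow_of_mapsTo_ball_of_isLittleO (n := 1) hF hm hn t.2
  rw [show exw (fun t => (F t : ℂ)) 0 = 0 from hz, one_mul, dist_zero_right, dist_zero_right,
    div_one, exw_coe] at this
  exact this


end schwarz

/-! ### rotations as homeomorphisms of the disc -/

/-- the rotation by `c` -/
def rot (c : ℂ) (hc : ‖c‖ = 1) : DD ≃ₜ DD where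
  toFun z := ⟨c * z, by
    rw [mem_ball_zero_iff, norm_mul, hc, one_mul]
    exact norm_lt_one z⟩
  invFun z := ⟨c⁻¹ * z, by
    rw [mem_ball_zero_iff, norm_mul, norm_inv, hc, inv_one, one_mul]
    exact norm_lt_one z⟩
  left_inv z := by
    have hc0 : c ≠ 0 := by
      intro h
      rw [h, norm_zero] at hc
      exact zero_ne_one hc
    ext
    simp [hc0]
  right_inv z := by
    have hc0 : c ≠ 0 := by
      intro h
      rw [h, norm_zero] at hc
      exact zero_ne_one hc
    ext
    simp [hc0]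
  continuous_toFun := by fun_prop
  continuous_invFun := by fun_prop

@[simp] theorem rot_apply (c : ℂ) (hc : ‖c‖ = 1) (z : DD) : (rot c hc z : ℂ) = c * z := rfl


/-! ### the roots -/







end

end Crest.Agent.R272.UnB_894
end

-- ▼ part R272/UnB3_894

/-!
Row 272 (S0414), UNIF-B, part 3: the bridge to complex curves in the atlas language
(`Atl 1 M`, `HolMap`): `LBD A p` = the map `p` from the disc is locally biholomorphic in the charts
of `A`; lifts of holomorphic maps are holomorphic; deck transformations are holomorphic; local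
orders (ramification) of a lift.
-/

set_option autoImplicit false

open Metric Set Filter Topology Function
open scoped Classical

namespace Crest.Agent.R272.UnB_894

open Crest.Agent.R275.Geo Crest.Agent.R275.Core144 Crest.Agent.R273.Map_835

noncomputable section

variable {M M' M'' : Type} [TopologicalSpace M] [TopologicalSpace M'] [TopologicalSpace M'']
  {A : Atl 1 M} {A' : Atl 1 M'} {A'' : Atl 1 M''}

/-- the coordinate of the chart `i` of a complex curve, as a complex valued function -/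
def co (A : Atl 1 M) (i : A.ι) (x : M) : ℂ := (A.e i x) 0

/-- a map from the disc read in the chart `i` -/
def rdD (A : Atl 1 M) (p : DD → M) (i : A.ι) : ℂ → ℂ := exw fun s => co A i (p s)

/-- `p : disc → M` is holomorphic -/
structure HolD (A : Atl 1 M) (p : DD → M) : Prop where
  cont : Continuous p
  diff : ∀ (z : DD) (i : A.ι), p z ∈ (A.e i).source → DifferentiableAt ℂ (rdD A p i) (z : ℂ)

/-- `p : disc → M` is holomorphic and locally biholomorphic -/
structure LBD (A : Atl 1 M) (p : DD → M) : Prop extends HolD A p where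
  ne : ∀ (z : DD) (i : A.ι), p z ∈ (A.e i).source → deriv (rdD A p i) (z : ℂ) ≠ 0

theorem continuous_co_comp {W : Type*} [TopologicalSpace W] {i : A.ι} {g : W → M} {x : W}
    (hg : ContinuousAt g x) (h : g x ∈ (A.e i).source) : ContinuousAt (fun y => co A i (g y)) x := by
  have h1 : ContinuousAt (fun y => A.e i (g y)) x :=
    ((A.e i).continuousAt h).comp hg
  exact (EuclideanSpace.proj (0 : Fin 1) : Cn 1 →L[ℂ] ℂ).continuous.continuousAt.comp h1

/-- the coordinate of a chart of a curve is injective on the domain of the chart -/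
theorem co_inj {i : A.ι} {x y : M} (hx : x ∈ (A.e i).source) (hy : y ∈ (A.e i).source)
    (h : co A i x = co A i y) : x = y := by
  refine (A.e i).injOn hx hy ?_
  ext a
  rw [Subsingleton.elim a 0]
  exact h

theorem HolD.eventually_mem {p : DD → M} (h : HolD A p) {z : DD} {i : A.ι}
    (hz : p z ∈ (A.e i).source) : ∀ᶠ s : DD in 𝓝 z, p s ∈ (A.e i).source :=
  h.cont.continuousAt.eventually_mem ((A.e i).open_source.mem_nhds hz)

theorem HolD.analyticAt {p : DD → M} (h : HolD A p) {z : DD} {i : A.ι}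
    (hz : p z ∈ (A.e i).source) : AnalyticAt ℂ (rdD A p i) (z : ℂ) := by
  rw [Complex.analyticAt_iff_eventually_differentiableAt]
  have := h.eventually_mem hz
  rw [eventually_mk] at this
  filter_upwards [this] with w ⟨hw, hw'⟩
  exact h.diff ⟨w, hw⟩ i hw'

theorem LBD.strict {p : DD → M} (h : LBD A p) {z : DD} {i : A.ι}
    (hz : p z ∈ (A.e i).source) :
    HasStrictDerivAt (rdD A p i) (deriv (rdD A p i) z) (z : ℂ) :=
  (h.analyticAt hz).hasStrictDerivAt

@[simp] theorem rdD_coe (p : DD → M) (i : A.ι) (z : DD) : rdD A p i z = co A i (p z) := exw_coe _ z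

/-- `f ∘ q` is holomorphic -/
theorem HolD.comp {q : DD → M'} {f : M' → M} (hf : HolMap A' A f) (hq : HolD A' q) :
    HolD A (fun t => f (q t)) := by
  refine ⟨hf.cont.comp hq.cont, fun z i hz => ?_⟩
  obtain ⟨j, hj⟩ := A'.cover (q z)
  -- the chart reading of `q` as a map to `Cn 1`
  have h1 : DifferentiableAt ℂ (fun w : ℂ => (WithLp.toLp 2 fun _ : Fin 1 => rdD A' q j w : Cn 1))
      (z : ℂ) := by
    rw [differentiableAt_euclidean]
    intro a
    exact hq.diff z j hj
  have e1 : (WithLp.toLp 2 fun _ : Fin 1 => rdD A' q j z : Cn 1) = A'.e j (q z) := by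
    ext a
    rw [Subsingleton.elim a 0]
    exact rdD_coe q j z
  have h2 : DifferentiableAt ℂ (rd A' A f j i)
      (WithLp.toLp 2 fun _ : Fin 1 => rdD A' q j z : Cn 1) := by
    rw [e1]
    exact hf.diffAt (mem_dm hj hz)
  have h3 : DifferentiableAt ℂ (fun w : ℂ => rd A' A f j i
      (WithLp.toLp 2 fun _ : Fin 1 => rdD A' q j w : Cn 1)) (z : ℂ) :=
    DifferentiableAt.comp (z : ℂ) (g := rd A' A f j i)
      (f := fun w : ℂ => (WithLp.toLp 2 fun _ : Fin 1 => rdD A' q j w : Cn 1)) h2 h1
  rw [differentiableAt_euclidean] at h3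
  refine (h3 0).congr_of_eventuallyEq ?_
  have := hq.eventually_mem hj
  rw [eventually_mk] at this
  filter_upwards [this] with w ⟨hw, hw'⟩
  have e2 : (WithLp.toLp 2 fun _ : Fin 1 => rdD A' q j w : Cn 1) = A'.e j (q ⟨w, hw⟩) := by
    ext a
    rw [Subsingleton.elim a 0]
    exact rdD_coe q j ⟨w, hw⟩
  rw [e2]
  simp only [rd]
  rw [(A'.e j).left_inv hw']
  exact rdD_coe (fun t => f (q t)) i ⟨w, hw⟩

/-- a continuous lift of a holomorphic map is holomorphic -/
theorem hol_lift {p : DD → M} (hp : LBD A p) {g : DD → M} (hg : HolD A g) {F : DD → DD}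
    (hF : Continuous F) (h : ∀ t, p (F t) = g t) : Hol F := by
  refine hol_of_local fun t => ?_
  obtain ⟨i, hi⟩ := A.cover (g t)
  have hi' : p (F t) ∈ (A.e i).source := by rwa [h]
  have hs := hp.strict hi'
  have hne := hp.ne (F t) i hi'
  set P := rdD A p i with hP
  set L := hs.localInverse P _ _ hne with hL
  have hL1 : HasStrictDerivAt L (deriv P (F t))⁻¹ (P (F t)) := hs.to_localInverse hne
  have hPt : P (F t) = rdD A g i t := by
    rw [hP, rdD_coe, rdD_coe, h]
  refine ⟨fun z => L (rdD A g i z), ?_, ?_⟩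
  · have h1 : DifferentiableAt ℂ L (rdD A g i t) := by
      rw [← hPt]
      exact hL1.hasDerivAt.differentiableAt
    exact DifferentiableAt.comp (t : ℂ) (g := L) (f := rdD A g i) h1 (hg.diff t i hi)
  · have h2 : ∀ᶠ w : ℂ in 𝓝 (F t : ℂ), L (P w) = w :=
      (hs.hasStrictFDerivAt_equiv hne).eventually_left_inverse
    have h3 : ∀ᶠ s : DD in 𝓝 t, L (P (F s)) = F s := by
      have hc : ContinuousAt (fun s : DD => (F s : ℂ)) t :=
        (continuous_subtype_val.comp hF).continuousAt
      exact hc.eventually h2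
    filter_upwards [h3] with s hs
    rw [← hs, hP, rdD_coe, rdD_coe, h]

end

end Crest.Agent.R272.UnB_894
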