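import Crest.Agent.R272.UnB1_894
import Crest.Agent.R272.UnB3_894

-- ▼ part R272/UnB4_894
section

/-!
Row 272 (S0414), UNIF-B, part 4: if `p = g ∘ q` with `p`, `g` covering maps and the base locally
connected, then `q` is a covering map; surjectivity of a covering onto a connected space.
-/

set_option autoImplicit false

open Metric Set Filter Topology Function

namespace Crest.Agent.R272.UnB_894

noncomputable section

variable {E Y X : Type*} [TopologicalSpace E] [TopologicalSpace Y] [TopologicalSpace X]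

/-- `p = g ∘ q`, `p` and `g` coverings, the base locally connected: then `q` is a covering -/
theorem covering_of_comp [LocallyConnectedSpace X] {p : E → X} (hp : IsCoveringMap p)
    {g : Y → X} (hg : IsCoveringMap g) {q : E → Y} (hq : Continuous q)
    (h : ∀ e, g (q e) = p e) : IsCoveringMap q := by
  have key0 : ∀ y : Y, ∀ (I : Type _) (_ : TopologicalSpace I) (K : Type _)
      (_ : TopologicalSpace K), IsEvenlyCovered g (g y) I → IsEvenlyCovered p (g y) K →
      ∃ (J : Type _) (_ : TopologicalSpace J), IsEvenlyCovered q y J := by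
    intro y I tI K tK hcg hcp
    obtain ⟨hI, Ug, hxUg, hUg, hgUg, Hg, hHg⟩ := hcg
    obtain ⟨hI', Up, hxUp, hUp, hpUp, Hp, hHp⟩ := hcp
    -- a connected open neighbourhood in both
    obtain ⟨U, hU1, hU2, hU3, hU4⟩ := locallyConnectedSpace_iff_subsets_isOpen_isConnected.1
      ‹_› (g y) (Ug ∩ Up) ((hUg.inter hUp).mem_nhds ⟨hxUg, hxUp⟩)
    have hUg' : U ⊆ Ug := fun x hx => (hU1 hx).1
    have hUp' : U ⊆ Up := fun x hx => (hU1 hx).2
    set i0 : I := (Hg ⟨y, hxUg⟩).2 with hi0
    -- the sheet of `g` through `y`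
    set V : Set Y := {z | ∃ hz : g z ∈ U, (Hg ⟨z, hUg' hz⟩).2 = i0} with hV
    -- sheets of `p`
    have hsub : ∀ {z : Y} (h1 h2 : z ∈ g ⁻¹' Ug), Hg ⟨z, h1⟩ = Hg ⟨z, h2⟩ := fun _ _ => rfl
    -- the lift of `U` to the sheet `k` of `p`
    let sp : K → U → E := fun k x => (Hp.symm (⟨x.1, hUp' x.2⟩, k) : E)
    have hsp : ∀ k, Continuous (sp k) := fun k => by
      refine continuous_subtype_val.comp (Hp.symm.continuous.comp ?_)
      exact (Continuous.subtype_mk continuous_subtype_val _).prodMk continuous_const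
    have psp : ∀ k x, p (sp k x) = x.1 := fun k x => by
      have := hHp (Hp.symm (⟨x.1, hUp' x.2⟩, k))
      rw [Homeomorph.apply_symm_apply] at this
      exact this.symm
    have gqsp : ∀ k x, g (q (sp k x)) = x.1 := fun k x => (h _).trans (psp k x)
    -- the sheet of `g` which contains `q (sp k x)`
    let sh : K → U → I := fun k x =>
      (Hg ⟨q (sp k x), by rw [mem_preimage, gqsp]; exact hUg' x.2⟩).2
    have hsh : ∀ k, Continuous (sh k) := fun k => by
      refine continuous_snd.comp (Hg.continuous.comp ?_)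
      exact Continuous.subtype_mk (hq.comp (hsp k)) _
    have hshc : ∀ k x x', sh k x = sh k x' := by
      intro k x x'
      have : PreconnectedSpace U := isPreconnected_iff_preconnectedSpace.1 hU4.isPreconnected
      exact PreconnectedSpace.constant ‹_› (hsh k)
    let x0 : U := ⟨g y, hU3⟩
    let J : Type _ := {k : K // sh k x0 = i0}
    refine ⟨J, inferInstance, inferInstance, V, ⟨hU3, rfl⟩, ?_, ?_, ?_⟩
    · -- `V` is open
      have h1 : IsOpen {z : g ⁻¹' Ug | g z ∈ U ∧ (Hg z).2 = i0} := by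
        refine (hU2.preimage (hg.continuous.comp continuous_subtype_val)).inter ?_
        exact (isOpen_discrete ({i0} : Set I)).preimage (continuous_snd.comp Hg.continuous)
      have h2 := hgUg.isOpenMap_subtype_val _ h1
      convert h2 using 1
      ext z
      constructor
      · rintro ⟨hz, hz'⟩
        exact ⟨⟨z, hUg' hz⟩, ⟨hz, hz'⟩, rfl⟩
      · rintro ⟨⟨z, hz0⟩, ⟨hz, hz'⟩, rfl⟩
        exact ⟨hz, hz'⟩
    · -- `q ⁻¹' V` is open
      have h1 : IsOpen {z : g ⁻¹' Ug | g z ∈ U ∧ (Hg z).2 = i0} := by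
        refine (hU2.preimage (hg.continuous.comp continuous_subtype_val)).inter ?_
        exact (isOpen_discrete ({i0} : Set I)).preimage (continuous_snd.comp Hg.continuous)
      have h2 := (hgUg.isOpenMap_subtype_val _ h1).preimage hq
      convert h2 using 1
      ext e
      constructor
      · rintro ⟨hz, hz'⟩
        exact ⟨⟨q e, hUg' hz⟩, ⟨hz, hz'⟩, rfl⟩
      · rintro ⟨⟨z, hz0⟩, ⟨hz, hz'⟩, hze⟩
        change z = q e at hze
        subst hze
        exact ⟨hz, hz'⟩
    · -- the homeomorphism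
      have hpe : ∀ {e : E}, e ∈ q ⁻¹' V → p e ∈ U := fun {e} he => by
        rw [← h]
        exact he.1
      -- a point over `U` is `sp` of its sheet
      have esp : ∀ (e : E) (he : p e ∈ U), sp (Hp ⟨e, hUp' he⟩).2 ⟨p e, he⟩ = e := by
        intro e he
        have h1 : ((⟨p e, hUp' he⟩ : Up), (Hp ⟨e, hUp' he⟩).2) = Hp ⟨e, hUp' he⟩ :=
          Prod.ext (Subtype.ext (hHp ⟨e, hUp' he⟩).symm) rfl
        change ((Hp.symm (⟨p e, hUp' he⟩, (Hp ⟨e, hUp' he⟩).2) : p ⁻¹' Up) : E) = e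
        rw [h1, Homeomorph.symm_apply_apply]
      have shp : ∀ (k : K) (x : U), (Hp ⟨sp k x, by rw [mem_preimage, psp]; exact hUp' x.2⟩).2 = k := by
        intro k x
        have h1 : (⟨sp k x, by rw [mem_preimage, psp]; exact hUp' x.2⟩ : p ⁻¹' Up) =
          Hp.symm (⟨x.1, hUp' x.2⟩, k) := rfl
        rw [h1, Homeomorph.apply_symm_apply]
      have hJ : ∀ {e : E} (he : e ∈ q ⁻¹' V), sh (Hp ⟨e, hUp' (hpe he)⟩).2 x0 = i0 := by
        intro e he
        rw [hshc _ x0 ⟨p e, hpe he⟩, ← he.2]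
        have h1 : q (sp (Hp ⟨e, hUp' (hpe he)⟩).2 ⟨p e, hpe he⟩) = q e := by rw [esp]
        change (Hg ⟨q (sp (Hp ⟨e, hUp' (hpe he)⟩).2 ⟨p e, hpe he⟩), _⟩).2 = _
        congr 2
        exact Subtype.ext h1
      have hVin : ∀ (v : V) (j : J), sp j.1 ⟨g v.1, v.2.1⟩ ∈ q ⁻¹' V := by
        intro v j
        refine ⟨by rw [gqsp]; exact v.2.1, ?_⟩
        have := hshc j.1 ⟨g v.1, v.2.1⟩ x0
        rw [j.2] at this
        exact this
      -- `V → U` is injective
      have hVinj : ∀ (v v' : V), g v.1 = g v'.1 → v = v' := by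
        intro v v' e
        have h1 : Hg ⟨v.1, hUg' v.2.1⟩ = Hg ⟨v'.1, hUg' v'.2.1⟩ := by
          refine Prod.ext (Subtype.ext ?_) ?_
          · exact (hHg ⟨v.1, hUg' v.2.1⟩).trans (e.trans (hHg ⟨v'.1, hUg' v'.2.1⟩).symm)
          · exact v.2.2.trans v'.2.2.symm
        exact Subtype.ext (congrArg (fun z : g ⁻¹' Ug => (z : Y)) (Hg.injective h1))
      refine ⟨⟨⟨fun e => (⟨q e.1, e.2⟩, ⟨(Hp ⟨e.1, hUp' (hpe e.2)⟩).2, hJ e.2⟩),
        fun x => ⟨sp x.2.1 ⟨g x.1.1, x.1.2.1⟩, hVin x.1 x.2⟩, ?_, ?_⟩, ?_, ?_⟩, fun e => rfl⟩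
      · intro e
        apply Subtype.ext
        change sp (Hp ⟨e.1, hUp' (hpe e.2)⟩).2 ⟨g (q e.1), _⟩ = e.1
        have h1 : (⟨g (q e.1), e.2.1⟩ : U) = ⟨p e.1, hpe e.2⟩ := Subtype.ext (h e.1)
        rw [h1, esp]
      · intro x
        refine Prod.ext ?_ ?_
        · refine hVinj _ _ ?_
          change g (q (sp x.2.1 ⟨g x.1.1, x.1.2.1⟩)) = g x.1.1
          rw [gqsp]
        · exact Subtype.ext (shp x.2.1 ⟨g x.1.1, x.1.2.1⟩)
      · refine Continuous.prodMk ?_ ?_
        · exact Continuous.subtype_mk (hq.comp continuous_subtype_val) _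
        · refine Continuous.subtype_mk ?_ _
          refine continuous_snd.comp (Hp.continuous.comp ?_)
          exact Continuous.subtype_mk continuous_subtype_val _
      · refine Continuous.subtype_mk ?_ _
        change Continuous fun x : V × J => ((Hp.symm (⟨g x.1.1, hUp' x.1.2.1⟩, x.2.1) : p ⁻¹' Up) : E)
        refine continuous_subtype_val.comp (Hp.symm.continuous.comp ?_)
        refine Continuous.prodMk ?_ (continuous_subtype_val.comp continuous_snd)
        exact Continuous.subtype_mk (hg.continuous.comp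
          (continuous_subtype_val.comp continuous_fst)) _
  intro y
  obtain ⟨J, tJ, hJ⟩ := key0 y _ _ _ _ (hg (g y)) (hp (g y))
  exact hJ.to_isEvenlyCovered_preimage


end

end Crest.Agent.R272.UnB_894
end

-- ▼ part R272/UnB5_894

/-!
Row 272 (S0414), UNIF-B, part 5: étale maps, ramification, and the final statement `discs`.
-/

set_option autoImplicit false

open Metric Set Filter Topology Function
open scoped Classical

namespace Crest.Agent.R272.UnB_894

open Crest.Agent.R275.Geo Crest.Agent.R275.Core144 Crest.Agent.R273.Map_835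

noncomputable section

variable {M M' M'' : Type} [TopologicalSpace M] [TopologicalSpace M'] [TopologicalSpace M'']

/-- the charted space of an atlas -/
@[reducible] def cs {n : ℕ} (A : Atl n M) : ChartedSpace (Cn n) M where
  atlas := range A.e
  chartAt x := A.e (A.cover x).choose
  mem_chart_source x := (A.cover x).choose_spec
  chart_mem_atlas _ := mem_range_self _


theorem lc_of_atl {n : ℕ} (A : Atl n M) : LocallyConnectedSpace M := by
  let _ := cs A
  exact ChartedSpace.locallyConnectedSpace (Cn n) M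

variable {A : Atl 1 M} {A' : Atl 1 M'} {A'' : Atl 1 M''}

/-- the point of `Cn 1` with coordinate `u` -/
def pt (u : ℂ) : Cn 1 := WithLp.toLp 2 fun _ => u

@[simp] theorem pt_zero (u : ℂ) : pt u 0 = u := rfl

theorem pt_co (x : M) (i : A.ι) : pt (co A i x) = A.e i x := by
  ext a
  rw [Subsingleton.elim a 0]
  rfl

theorem pt_inj {u v : ℂ} (h : pt u = pt v) : u = v := by
  have := congrArg (fun z : Cn 1 => z 0) h
  exact this


theorem continuous_pt : Continuous pt := by
  unfold pt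
  exact (PiLp.continuous_toLp 2 _).comp (continuous_pi fun _ => continuous_id)

theorem differentiable_pt : Differentiable ℂ pt := by
  intro u
  unfold pt
  rw [differentiableAt_euclidean]
  intro a
  exact differentiableAt_id

/-- a holomorphic map between curves, read in charts as a function of one variable -/
def rd1 (A' : Atl 1 M') (A : Atl 1 M) (f : M' → M) (j : A'.ι) (i : A.ι) (u : ℂ) : ℂ :=
  co A i (f ((A'.e j).symm (pt u)))

theorem rd1_co (f : M' → M) {j : A'.ι} {i : A.ι} {x : M'} (hx : x ∈ (A'.e j).source) :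
    rd1 A' A f j i (co A' j x) = co A i (f x) := by
  rw [rd1, pt_co, (A'.e j).left_inv hx]

theorem rd1_diff {f : M' → M} (hf : HolMap A' A f) {j : A'.ι} {i : A.ι} {u : ℂ}
    (h1 : pt u ∈ (A'.e j).target) (h2 : f ((A'.e j).symm (pt u)) ∈ (A.e i).source) :
    DifferentiableAt ℂ (rd1 A' A f j i) u := by
  have h3 : DifferentiableAt ℂ (rd A' A f j i) (pt u) := hf.diffAt ⟨h1, h2⟩
  have h4 : DifferentiableAt ℂ (fun v => rd A' A f j i (pt v)) u :=
    DifferentiableAt.comp u (g := rd A' A f j i) (f := pt) h3 (differentiable_pt u)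
  rw [differentiableAt_euclidean] at h4
  exact h4 0

theorem isOpen_rd1 {f : M' → M} (hf : Continuous f) (j : A'.ι) (i : A.ι) {N : Set M'}
    (hN : IsOpen N) : IsOpen {u : ℂ | pt u ∈ (A'.e j).target ∧
      (A'.e j).symm (pt u) ∈ N ∧ f ((A'.e j).symm (pt u)) ∈ (A.e i).source} := by
  have h1 := (A'.e j).isOpen_inter_preimage_symm
    (hN.inter ((A.e i).open_source.preimage hf))
  exact h1.preimage continuous_pt

theorem rd1_analyticAt {f : M' → M} (hf : HolMap A' A f) {j : A'.ι} {i : A.ι} {u : ℂ}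
    (h1 : pt u ∈ (A'.e j).target) (h2 : f ((A'.e j).symm (pt u)) ∈ (A.e i).source) :
    AnalyticAt ℂ (rd1 A' A f j i) u := by
  rw [Complex.analyticAt_iff_eventually_differentiableAt]
  filter_upwards [(isOpen_rd1 hf.cont j i isOpen_univ).mem_nhds ⟨h1, mem_univ _, h2⟩]
    with v hv
  exact rd1_diff hf hv.1 hv.2.2

/-- a locally injective holomorphic map of curves has non-zero derivative -/
theorem rd1_deriv_ne {f : M' → M} (hf : HolMap A' A f) {j : A'.ι} {i : A.ι} {x : M'}
    (hx : x ∈ (A'.e j).source) (hi : f x ∈ (A.e i).source)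
    (hinj : ∃ N ∈ 𝓝 x, InjOn f N) : deriv (rd1 A' A f j i) (co A' j x) ≠ 0 := by
  obtain ⟨N0, hN0, hinj⟩ := hinj
  obtain ⟨N, hN, hNo, hxN⟩ := mem_nhds_iff.1 hN0
  refine Crest.Agent.Lib.deriv_ne_zero_of_injOn (isOpen_rd1 hf.cont j i hNo)
    (fun u hu => (rd1_diff hf hu.1 hu.2.2).differentiableWithinAt) ?_ ?_
  · intro u hu v hv e
    have h1 := co_inj hu.2.2 hv.2.2 e
    have h2 := hinj (hN hu.2.1) (hN hv.2.1) h1
    exact pt_inj ((A'.e j).symm.injOn hu.1 hv.1 h2)
  · refine ⟨?_, ?_, ?_⟩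
    · rw [pt_co]
      exact (A'.e j).map_source hx
    · rw [pt_co, (A'.e j).left_inv hx]
      exact hxN
    · rw [pt_co, (A'.e j).left_inv hx]
      exact hi

/-- a lift of a local biholomorphism through an étale map is a local biholomorphism -/
theorem lbd_of_etale {p : DD → M} (hp : LBD A p) {g : M' → M} (hg : HolMap A' A g)
    (hgl : ∀ x, ∃ N ∈ 𝓝 x, InjOn g N) {q : DD → M'} (hq : Continuous q)
    (h : ∀ t, g (q t) = p t) : LBD A' q := by
  have key : ∀ (z : DD) (j : A'.ι), q z ∈ (A'.e j).source →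
      ∃ d : ℂ, d ≠ 0 ∧ HasDerivAt (rdD A' q j) d (z : ℂ) := by
    intro z j hj
    obtain ⟨i, hi⟩ := A.cover (p z)
    have hi' : g (q z) ∈ (A.e i).source := by rwa [h]
    have hne := rd1_deriv_ne hg hj hi' (hgl (q z))
    set G := rd1 A' A g j i with hG
    have hGa : AnalyticAt ℂ G (co A' j (q z)) := by
      refine rd1_analyticAt hg ?_ ?_
      · rw [pt_co]
        exact (A'.e j).map_source hj
      · rw [pt_co, (A'.e j).left_inv hj]
        exact hi'
    have hs := hGa.hasStrictDerivAt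
    set L := hs.localInverse G _ _ hne with hL
    have hL1 : HasStrictDerivAt L (deriv G (co A' j (q z)))⁻¹ (G (co A' j (q z))) :=
      hs.to_localInverse hne
    have hGz : G (co A' j (q z)) = rdD A p i z := by
      rw [hG, rd1_co g hj, rdD_coe, h]
    have hP := (hp.strict hi).hasDerivAt
    have h1 : HasDerivAt L (deriv G (co A' j (q z)))⁻¹ (rdD A p i z) := by
      rw [← hGz]
      exact hL1.hasDerivAt
    have h2 : HasDerivAt (fun w => L (rdD A p i w))
        ((deriv G (co A' j (q z)))⁻¹ * deriv (rdD A p i) z) (z : ℂ) :=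
      HasDerivAt.comp (z : ℂ) (h₂ := L) (h := rdD A p i) h1 hP
    refine ⟨_, mul_ne_zero (inv_ne_zero hne) (hp.ne z i hi), h2.congr_of_eventuallyEq ?_⟩
    have h3 : ∀ᶠ u : ℂ in 𝓝 (co A' j (q z)), L (G u) = u :=
      (hs.hasStrictFDerivAt_equiv hne).eventually_left_inverse
    have h4 : ContinuousAt (fun s : DD => co A' j (q s)) z :=
      continuous_co_comp hq.continuousAt hj
    have h5 : ∀ᶠ s : DD in 𝓝 z, q s ∈ (A'.e j).source :=
      hq.continuousAt.eventually_mem ((A'.e j).open_source.mem_nhds hj)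
    have h6 := (h4.eventually h3).and h5
    rw [eventually_mk] at h6
    filter_upwards [h6] with w ⟨hw, hw1, hw2⟩
    change rdD A' q j ((⟨w, hw⟩ : DD) : ℂ) = L (rdD A p i ((⟨w, hw⟩ : DD) : ℂ))
    rw [rdD_coe, rdD_coe, ← h, ← rd1_co g hw2, ← hG, hw1]
  exact ⟨⟨hq, fun z j hj => (key z j hj).choose_spec.2.differentiableAt⟩, fun z j hj => by
    rw [(key z j hj).choose_spec.2.deriv]
    exact (key z j hj).choose_spec.1⟩


/-- holomorphic lift of a holomorphic map of curves -/
theorem exists_hol_lift {p : DD → M} (hp : IsCoveringMap p) (hpl : LBD A p) {q : DD → M'}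
    (hq : HolD A' q) {f : M' → M} (hf : HolMap A' A f) (a b : DD) (h : p b = f (q a)) :
    ∃ F : DD → DD, Hol F ∧ F a = b ∧ ∀ t, p (F t) = f (q t) := by
  obtain ⟨F, hF, hFa, hF'⟩ := exists_liftD hp hq.cont hf.cont a b h
  exact ⟨F, hol_lift hpl (hq.comp hf) hF hF', hFa, hF'⟩

/-! ### ramification -/


/-- the order of the lift at a point is the order of the map in charts -/
theorem order_lift {p : DD → M} (hpl : LBD A p) {q : DD → M'} (hql : LBD A' q) {f : M' → M}
    {F : DD → DD} (hF : Hol F) (h : ∀ t, p (F t) = f (q t)) (t : DD)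
    {j : A'.ι} {i : A.ι} (hj : q t ∈ (A'.e j).source) (hi : f (q t) ∈ (A.e i).source) :
    analyticOrderAt (fun z => ex F z - F t) (t : ℂ) =
      analyticOrderAt (fun u => rd1 A' A f j i u - co A i (f (q t))) (co A' j (q t)) := by
  have hi' : p (F t) ∈ (A.e i).source := by rwa [h]
  have hPa := hpl.analyticAt hi'
  have hPne := hpl.ne (F t) i hi'
  have hQa := hql.analyticAt hj
  have hQne := hql.ne t j hj
  -- `P ∘ F - c`
  set c := co A i (f (q t)) with hc
  have e1 : analyticOrderAt ((fun w => rdD A p i w - c) ∘ ex F) (t : ℂ) =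
      analyticOrderAt (fun z => ex F z - F t) (t : ℂ) := by
    have hFt : ex F t = F t := exw_coe _ t
    have h1 : AnalyticAt ℂ (fun w => rdD A p i w - c) (ex F t) := by
      rw [hFt]
      exact hPa.sub analyticAt_const
    rw [h1.analyticOrderAt_comp (hF.analyticAt t), hFt]
    have h2 : analyticOrderAt (fun w => rdD A p i w - c) (F t : ℂ) = 1 := by
      have := hPa.analyticOrderAt_sub_eq_one_of_deriv_ne_zero hPne
      rwa [rdD_coe, h] at this
    rw [h2, one_mul]
  have e2 : analyticOrderAt ((fun u => rd1 A' A f j i u - c) ∘ rdD A' q j) (t : ℂ) =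
      analyticOrderAt (fun u => rd1 A' A f j i u - c) (co A' j (q t)) := by
    have := analyticOrderAt_comp_of_deriv_ne_zero (f := fun u => rd1 A' A f j i u - c) hQa hQne
    rwa [rdD_coe] at this
  rw [← e1, ← e2]
  refine analyticOrderAt_congr ?_
  have h5 := hql.toHolD.eventually_mem hj
  rw [eventually_mk] at h5
  filter_upwards [h5] with w ⟨hw, hw'⟩
  change rdD A p i (ex F ((⟨w, hw⟩ : DD) : ℂ)) - c =
    rd1 A' A f j i (rdD A' q j ((⟨w, hw⟩ : DD) : ℂ)) - c
  rw [show ex F ((⟨w, hw⟩ : DD) : ℂ) = F ⟨w, hw⟩ from exw_coe _ _, rdD_coe, rdD_coe,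
    rd1_co f hw', h]

/-- ramification of index `n` -/
theorem ex_factor {F : DD → DD} (hF : Hol F) {n : ℕ}
    (hn : analyticOrderAt (ex F) 0 = n) :
    ∃ u : ℂ → ℂ, AnalyticAt ℂ u 0 ∧ u 0 ≠ 0 ∧ ∀ᶠ z in 𝓝 0, ex F z = z ^ n * u z := by
  have ha : AnalyticAt ℂ (ex F) 0 := hF.analyticAt o
  obtain ⟨u, h1, h2, h3⟩ := ha.analyticOrderAt_eq_natCast.1 hn
  refine ⟨u, h1, h2, ?_⟩
  filter_upwards [h3] with z hz
  rw [hz, sub_zero, smul_eq_mul]

theorem deriv_ex_zero {F : DD → DD} (hF : Hol F) {n : ℕ} (h2 : 2 ≤ n)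
    (hn : analyticOrderAt (ex F) 0 = n) : deriv (ex F) 0 = 0 := by
  have ha : AnalyticAt ℂ (ex F) 0 := hF.analyticAt o
  obtain ⟨u, h1, -, h3⟩ := ha.analyticOrderAt_eq_natCast.1 hn
  obtain ⟨k, rfl⟩ : ∃ k, n = k + 2 := ⟨n - 2, by omega⟩
  have h4 : ex F =ᶠ[𝓝 0] fun z => z * (z * (z ^ k * u z)) := by
    filter_upwards [h3] with z hz
    rw [hz, sub_zero, smul_eq_mul]
    ring
  rw [h4.deriv_eq]
  have h5 : DifferentiableAt ℂ (fun z => z * (z ^ k * u z)) 0 := by
    have := h1.differentiableAt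
    fun_prop
  have h6 := (hasDerivAt_id (0 : ℂ)).mul h5.hasDerivAt
  have h7 : HasDerivAt (fun z : ℂ => z * (z * (z ^ k * u z))) 0 0 := by
    convert! h6 using 1
    simp
  exact h7.deriv

/-! ### the final statement -/

/-- All the data of S0414 on the discs.  `p : disc → C` the covering (U1), `f : B → C` étale,
`h : B → C` holomorphic, `f z0 = h z0 = p 0`. -/
theorem discs {B C : Type} [TopologicalSpace B] [TopologicalSpace C] {A' : Atl 1 B}
    {A : Atl 1 C} {p : DD → C} (hp : IsCoveringMap p) (hpl : LBD A p) {f h : B → C}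
    (hf : HolMap A' A f) (hfc : IsCoveringMap f) (hh : HolMap A' A h) {z0 : B}
    (h1 : f z0 = p o) (h2 : h z0 = p o) :
    ∃ q : DD → B, IsCoveringMap q ∧ LBD A' q ∧ q o = z0 ∧ (∀ t, f (q t) = p t) ∧
      ∃ F : DD → DD, Hol F ∧ F o = o ∧ (∀ t, p (F t) = h (q t)) ∧
        (∀ t, ‖(F t : ℂ)‖ ≤ ‖(t : ℂ)‖) ∧
        ∀ (j : A'.ι) (i : A.ι), z0 ∈ (A'.e j).source → h z0 ∈ (A.e i).source →
          analyticOrderAt (ex F) 0 =
            analyticOrderAt (fun u => rd1 A' A h j i u - co A i (h z0)) (co A' j z0) := by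
  have := lc_of_atl A
  obtain ⟨q, hq, hqo, hq'⟩ := exists_lift hfc hp.continuous o z0 h1
  have hqc : IsCoveringMap q := covering_of_comp hp hfc hq hq'
  have hfi : ∀ x, ∃ N ∈ 𝓝 x, InjOn f N := by
    intro x
    obtain ⟨e, hx, rfl⟩ := hfc.isLocalHomeomorph x
    exact ⟨e.source, e.open_source.mem_nhds hx, e.injOn⟩
  have hql : LBD A' q := lbd_of_etale hpl hf hfi hq hq'
  obtain ⟨F, hF, hFo, hF'⟩ := exists_hol_lift hp hpl hql.toHolD hh o o (by rw [hqo, h2])
  refine ⟨q, hqc, hql, hqo, hq', F, hF, hFo, hF', schwarz hF hFo, fun j i hj hi => ?_⟩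
  have := order_lift hpl hql hF hF' o (j := j) (i := i) (by rwa [hqo]) (by rwa [hqo])
  rw [hqo, hFo] at this
  simpa using this

/-- the version with a ramification point: `|F t| ≤ |t|²`, `F = t^n u`, `u 0 ≠ 0` -/
theorem discs_ram {B C : Type} [TopologicalSpace B] [TopologicalSpace C] {A' : Atl 1 B}
    {A : Atl 1 C} {p : DD → C} (hp : IsCoveringMap p) (hpl : LBD A p) {f h : B → C}
    (hf : HolMap A' A f) (hfc : IsCoveringMap f) (hh : HolMap A' A h) {z0 : B}
    (h1 : f z0 = p o) (h2 : h z0 = p o) {n : ℕ} (hn : 2 ≤ n)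
    (hram : ∃ (j : A'.ι) (i : A.ι), z0 ∈ (A'.e j).source ∧ h z0 ∈ (A.e i).source ∧
      analyticOrderAt (fun u => rd1 A' A h j i u - co A i (h z0)) (co A' j z0) = n) :
    ∃ q : DD → B, IsCoveringMap q ∧ LBD A' q ∧ q o = z0 ∧ (∀ t, f (q t) = p t) ∧
      ∃ F : DD → DD, Hol F ∧ F o = o ∧ (∀ t, p (F t) = h (q t)) ∧
        (∀ t, ‖(F t : ℂ)‖ ≤ ‖(t : ℂ)‖ ^ 2) ∧
        ∃ u : ℂ → ℂ, AnalyticAt ℂ u 0 ∧ u 0 ≠ 0 ∧ ∀ᶠ z in 𝓝 0, ex F z = z ^ n * u z := by
  obtain ⟨q, hqc, hql, hqo, hq', F, hF, hFo, hF', hS, hO⟩ := discs hp hpl hf hfc hh h1 h2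
  obtain ⟨j, i, hj, hi, ho⟩ := hram
  have h3 : analyticOrderAt (ex F) 0 = n := (hO j i hj hi).trans ho
  exact ⟨q, hqc, hql, hqo, hq', F, hF, hFo, hF',
    schwarz_sq hF hFo (deriv_ex_zero hF hn h3), ex_factor hF h3⟩

end

end Crest.Agent.R272.UnB_894
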