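import Crest.Agent.R272.M14a_590
import Crest.Agent.R272.UnB5_894
import Crest.Agent.R272.Unif5_903
import Crest.Agent.R272.UnB3_894
import Mathlib

-- ▼ part R272/M14b_590
section

/-!
# R272 (S0414), M14 (helper590), part 2: order of `φ` at `z0`

* `Co A x κ`     : `κ` is a local coordinate of the curve at `x`
* `order_of_co`  : `κ (f y) - κ (f x) = (κ' y - κ' x) ^ m` near `x` ⇒ the order of `f` at `x` is `m`
* `co_pc`        : `pc s ∘ D.p` is a coordinate where no root vanishes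
* `hram`         : the input of 894 / 414
-/

set_option autoImplicit false
set_option linter.unusedSectionVars false

open Set Filter Topology Complex

namespace Crest.Agent.R272.M14_590

open Crest.Agent.R275.Geo Crest.Agent.R275.Core144
open Crest.Agent.R273.Fam_835 Crest.Agent.R273.Map_835
open Crest.Agent.R272.FamP_54 Crest.Agent.R272.P1F_54 Crest.Agent.R272.DCov_426
open Crest.Agent.R272.P1S_590 Crest.Agent.R272.Hom_839
open Crest.Agent.R272.P1L_426 (Ch F8 CC BB f16 f8 f4 g8)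
open Crest.Agent.R272.UnB_894 (co rd1 rd1_co rd1_analyticAt pt_co)

noncomputable section

section Order

variable {M M' : Type} [TopologicalSpace M] [TopologicalSpace M'] {A : Atl 1 M} {A' : Atl 1 M'}

/-- `κ` is a local coordinate at `x` -/
structure Co (A : Atl 1 M) (x : M) (κ : M → ℂ) : Prop where
  hf : ∀ᶠ y in 𝓝 x, HFA (fam A) κ y
  inj : ∀ i, x ∈ (A.e i).source →
    Function.Injective (fderiv ℂ (fun w => κ ((A.e i).symm w)) (A.e i x))

/-- the coordinate read in a chart -/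
def rdf (A : Atl 1 M) (i : A.ι) (κ : M → ℂ) (u : ℂ) : ℂ := κ ((A.e i).symm (UnB_894.pt u))

theorem rdf_co {i : A.ι} {x : M} (hx : x ∈ (A.e i).source) (κ : M → ℂ) :
    rdf A i κ (co A i x) = κ x := by
  rw [rdf, pt_co, (A.e i).left_inv hx]

theorem Co.analytic {x : M} {κ : M → ℂ} (h : Co A x κ) {i : A.ι} (hx : x ∈ (A.e i).source) :
    AnalyticAt ℂ (rdf A i κ) (co A i x) := by
  rw [Complex.analyticAt_iff_eventually_differentiableAt]
  have h1 : ∀ᶠ z in 𝓝 (A.e i x), z ∈ (A.e i).target ∧ HFA (fam A) κ ((A.e i).symm z) := by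
    filter_upwards [(A.e i).open_target.mem_nhds ((A.e i).map_source hx),
      eventually_chart (F := fam A) (i := i) hx h.hf] with z hz hz'
    exact ⟨hz, hz'⟩
  have h2 : Tendsto UnB_894.pt (𝓝 (co A i x)) (𝓝 (A.e i x)) := by
    have := UnB_894.continuous_pt.tendsto (co A i x)
    rwa [pt_co] at this
  filter_upwards [h2.eventually h1] with u hu
  have h3 := hu.2 i ((A.e i).map_target hu.1)
  have h4 : ((fam A).e i) ((A.e i).symm (UnB_894.pt u)) = UnB_894.pt u := (A.e i).right_inv hu.1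
  rw [h4] at h3
  exact DifferentiableAt.comp u (g := fun w => κ ((A.e i).symm w)) (f := UnB_894.pt) h3
    (UnB_894.differentiable_pt u)

theorem hasDerivAt_pt (u : ℂ) : HasDerivAt UnB_894.pt (UnB_894.pt 1) u := by
  have h1 : UnB_894.pt = fun u : ℂ => u • UnB_894.pt 1 := by
    funext u
    ext a
    simp [UnB_894.pt]
  rw [h1]
  simpa using (hasDerivAt_id u).smul_const (UnB_894.pt 1)

theorem Co.deriv_ne {x : M} {κ : M → ℂ} (h : Co A x κ) {i : A.ι} (hx : x ∈ (A.e i).source) :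
    deriv (rdf A i κ) (co A i x) ≠ 0 := by
  have h1 : DifferentiableAt ℂ (fun w => κ ((A.e i).symm w)) (A.e i x) :=
    h.hf.self_of_nhds i hx
  have h2 : HasFDerivAt (fun w => κ ((A.e i).symm w))
      (fderiv ℂ (fun w => κ ((A.e i).symm w)) (A.e i x)) (UnB_894.pt (co A i x)) := by
    rw [pt_co]
    exact h1.hasFDerivAt
  have h3 := h2.comp_hasDerivAt (co A i x) (hasDerivAt_pt (co A i x))
  have h4 : deriv (rdf A i κ) (co A i x) =
      fderiv ℂ (fun w => κ ((A.e i).symm w)) (A.e i x) (UnB_894.pt 1) := h3.deriv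
  rw [h4]
  intro h5
  have h6 := h.inj i hx (h5.trans (map_zero _).symm)
  have h7 := congrArg (fun z : Cn 1 => z 0) h6
  exact one_ne_zero (α := ℂ) h7

theorem Co.order {x : M} {κ : M → ℂ} (h : Co A x κ) {i : A.ι} (hx : x ∈ (A.e i).source) :
    analyticOrderAt (fun u => rdf A i κ u - κ x) (co A i x) = 1 := by
  have h1 := (h.analytic hx).analyticOrderAt_sub_eq_one_of_deriv_ne_zero (h.deriv_ne hx)
  rwa [rdf_co hx] at h1

/-- **order of a map of curves from an equation between coordinates** -/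
theorem order_of_co {f : M' → M} (hf : HolMap A' A f) {x : M'} {κ' : M' → ℂ} {κ : M → ℂ}
    (h' : Co A' x κ') (h : Co A (f x) κ) {m : ℕ}
    (he : ∀ᶠ y in 𝓝 x, κ (f y) - κ (f x) = (κ' y - κ' x) ^ m)
    {j : A'.ι} {i : A.ι} (hj : x ∈ (A'.e j).source) (hi : f x ∈ (A.e i).source) :
    analyticOrderAt (fun u => rd1 A' A f j i u - co A i (f x)) (co A' j x) = m := by
  have hr : AnalyticAt ℂ (rd1 A' A f j i) (co A' j x) := rd1_analyticAt hf
    (by rw [pt_co]; exact (A'.e j).map_source hj)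
    (by rw [pt_co, (A'.e j).left_inv hj]; exact hi)
  have hr0 : rd1 A' A f j i (co A' j x) = co A i (f x) := rd1_co f hj
  have hb : AnalyticAt ℂ (fun v => rdf A i κ v - κ (f x)) (rd1 A' A f j i (co A' j x)) := by
    rw [hr0]
    exact (h.analytic hi).sub analyticAt_const
  have h1 := hb.analyticOrderAt_comp hr
  rw [hr0, h.order hi, one_mul] at h1
  rw [← h1]
  have h2 : ((fun v => rdf A i κ v - κ (f x)) ∘ rd1 A' A f j i) =ᶠ[𝓝 (co A' j x)]
      (fun u => rdf A' j κ' u - κ' x) ^ m := by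
    have h0 : ∀ᶠ y in 𝓝 x, f y ∈ (A.e i).source :=
      hf.cont.continuousAt.preimage_mem_nhds ((A.e i).open_source.mem_nhds hi)
    have h3 : ∀ᶠ z in 𝓝 (A'.e j x), f ((A'.e j).symm z) ∈ (A.e i).source ∧
        κ (f ((A'.e j).symm z)) - κ (f x) = (κ' ((A'.e j).symm z) - κ' x) ^ m :=
      eventually_chart (F := fam A') (i := j) hj (h0.and he)
    have h4 : Tendsto UnB_894.pt (𝓝 (co A' j x)) (𝓝 (A'.e j x)) := by
      have := UnB_894.continuous_pt.tendsto (co A' j x)
      rwa [pt_co] at this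
    filter_upwards [h4.eventually h3] with u hu
    show rdf A i κ (co A i (f ((A'.e j).symm (UnB_894.pt u)))) - κ (f x) = _
    rw [rdf_co hu.1, hu.2]
    rfl
  have h3 : AnalyticAt ℂ (fun u => rdf A' j κ' u - κ' x) (co A' j x) :=
    (h'.analytic hj).sub analyticAt_const
  rw [analyticOrderAt_congr h2, analyticOrderAt_pow h3, h'.order hj]
  simp

end Order

/-! ### coordinates of the covers -/

section Cov

variable {ρ : Type} [Fintype ρ] {D : DCov_426.Data A1 ρ} {A' : Atl 1 D.X} (hc : Cmp D.famX A')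

include hc in
/-- the affine coordinate is a coordinate where no root vanishes -/
theorem co_pc {s : Bool} {q : D.X} (hs : D.p q ∈ (A1.e s).source) (ha : ∀ a, D.y a s q ≠ 0) :
    Co A' q (fun q => pc s (D.p q)) := by
  refine ⟨?_, fun i hi => P1L_426.coord_pc D hc hi hs ha⟩
  filter_upwards [D.continuous_p.continuousAt.preimage_mem_nhds ((A1.e s).open_source.mem_nhds hs)]
    with q' hq'
  exact HFA.comp_right (p := id) (hfa_pcp hq') hc.fwd


end Cov

/-! ### `φ` at `z0` -/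

/-- the affine coordinate of `φ q` is the square of the one of `q` -/
theorem pc_phi {q : CC.X} {s : Bool} (hs : CC.p q ∈ ps s) :
    BB.p (phi q) ∈ ps s ∧ pc s (BB.p (phi q)) = pc s (CC.p q) ^ 2 := by
  obtain ⟨a0, a1, v, r⟩ := isHom_CC.exists_rep q
  have r' := rep_phi r
  rw [r.p, mem_ps_pt r.ne] at hs
  have hs' : sel s (a0 ^ 2) (a1 ^ 2) ≠ 0 := by
    cases s
    · exact pow_ne_zero 2 hs
    · exact pow_ne_zero 2 hs
  refine ⟨by rw [r'.p, mem_ps_pt r'.ne]; exact hs', ?_⟩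
  rw [r'.p, r.p, pc_pt hs', pc_pt hs]
  cases s
  · exact (div_pow _ _ _).symm
  · exact (div_pow _ _ _).symm

theorem z0_mem : CC.p z0 ∈ (A1.e false).source := by
  rw [rep_z0.p, mem_src_pt rep_z0.ne]
  norm_num [oth, sel]

theorem w0_mem : BB.p w0 ∈ (A1.e false).source := by
  rw [rep_w0.p, mem_src_pt rep_w0.ne]
  norm_num [oth, sel]

theorem co_z0 : Co CC.atlX z0 (fun q => pc false (CC.p q)) := by
  refine co_pc CC.cmp_atlX z0_mem fun a => ?_
  rw [rep_z0.y a false (by rw [← rep_z0.p]; exact z0_mem)]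
  simp

theorem co_w0 : Co BB.atlX w0 (fun q => pc false (BB.p q)) := by
  refine co_pc BB.cmp_atlX w0_mem fun a => ?_
  rw [rep_w0.y a false (by rw [← rep_w0.p]; exact w0_mem)]
  simp

theorem pc_z0 : pc false (CC.p z0) = 0 := by
  rw [rep_z0.p, pc_pt (by simp)]
  simp

theorem pc_w0 : pc false (BB.p w0) = 0 := by
  rw [rep_w0.p, pc_pt (by simp)]
  simp

/-- **the order of `φ` at `z0` is two**, in every pair of charts -/
theorem order_phi {j : CC.atlX.ι} {i : BB.atlX.ι} (hj : z0 ∈ (CC.atlX.e j).source)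
    (hi : phi z0 ∈ (BB.atlX.e i).source) :
    analyticOrderAt (fun u => rd1 CC.atlX BB.atlX phi j i u - co BB.atlX i (phi z0))
      (co CC.atlX j z0) = (2 : ℕ) := by
  refine order_of_co holMap_phi co_z0 (by rw [phi_z0]; exact co_w0) ?_ hj hi
  filter_upwards [CC.continuous_p.continuousAt.preimage_mem_nhds
    ((A1.e false).open_source.mem_nhds z0_mem)] with q hq
  rw [(pc_phi (mem_ch1.1 hq).1).2, phi_z0, pc_w0, pc_z0, sub_zero, sub_zero]

/-- the hypothesis `hram` of 414's `exists_discs` -/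
theorem hram : ∃ (j : CC.atlX.ι) (i : BB.atlX.ι), z0 ∈ (CC.atlX.e j).source ∧
    phi z0 ∈ (BB.atlX.e i).source ∧
    analyticOrderAt (fun u => rd1 CC.atlX BB.atlX phi j i u - co BB.atlX i (phi z0))
      (co CC.atlX j z0) = (2 : ℕ) := by
  obtain ⟨j, hj⟩ := CC.atlX.cover z0
  obtain ⟨i, hi⟩ := BB.atlX.cover (phi z0)
  exact ⟨j, i, hj, hi, order_phi hj hi⟩

end

end Crest.Agent.R272.M14_590
end

-- ▼ part R272/Unif6_903
section

/-!
# R272, UNIF (helper903), file 6: from a hyperbolic structure compatible with a complex curve to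
(U1) in the language of UnB3_894
-/

set_option autoImplicit false

open Set Filter Topology Complex Metric

open scoped ComplexConjugate

namespace Crest.Agent.R272.Unif_903

open Crest.Agent.R275.Geo Crest.Agent.R275.Core144 Crest.Agent.R273.Map_835
open Crest.Agent.R272.UnB_894

/-- the hyperbolic structure `X` is compatible with the complex curve `A` -/
def Compat {M : Type} [TopologicalSpace M] (A : Atl 1 M) (X : PH M) : Prop :=
  ∀ (j : X.ι) (i : A.ι), ∀ z ∈ (X.ch j).target, (X.ch j).symm z ∈ (A.e i).source →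
    ∃ d : Cn 1, HasDerivAt (A.e i ∘ (X.ch j).symm) d z ∧ d ≠ 0

theorem lbd_of_compat {M : Type} [TopologicalSpace M] {A : Atl 1 M} {X : PH M}
    (hAX : Compat A X) {p : ℂ → M} (hp : ∀ w ∈ ball (0:ℂ) 1, IsoM X p w) :
    LBD A (fun z : DD => p z) := by
  have key : ∀ (z : DD) (i : A.ι), p z ∈ (A.e i).source →
      ∃ d : ℂ, d ≠ 0 ∧ HasDerivAt (rdD A (fun z : DD => p z) i) d (z : ℂ) := by
    intro z i hi
    obtain ⟨j, hj⟩ := X.cov (p z)
    have h1 := (hp z z.2).2 j hj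
    obtain ⟨d, hd, hd0⟩ := hAX j i (X.ch j (p z)) ((X.ch j).map_source hj)
      (by rwa [(X.ch j).left_inv hj])
    have h2 := HasDerivAt.scomp (z : ℂ) hd h1.1.hasDerivAt
    have hz1 : ‖(z : ℂ)‖ < 1 := mem_ball_zero_iff.mp z.2
    have hz2 : ‖(X.ch j ∘ p) z‖ < 1 := by
      have := X.tgt j ((X.ch j).map_source hj)
      rwa [mem_ball_zero_iff] at this
    have h3 : deriv (X.ch j ∘ p) z ≠ 0 := by
      intro h
      have h4 := h1.2
      rw [h, norm_zero, zero_mul] at h4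
      have := one_sub_sq_pos hz2
      linarith
    refine ⟨(deriv (X.ch j ∘ p) z • d) 0, ?_, ?_⟩
    · intro h
      have : deriv (X.ch j ∘ p) z • d = 0 := by
        ext a
        rw [Subsingleton.elim a 0, h]
        rfl
      rcases smul_eq_zero.mp this with h | h
      · exact h3 h
      · exact hd0 h
    · have h5 : HasDerivAt (fun w : ℂ =>
          (((A.e i ∘ (X.ch j).symm) ∘ (X.ch j ∘ p)) w : Cn 1) 0)
          ((deriv (X.ch j ∘ p) z • d) 0) (z : ℂ) :=
        (EuclideanSpace.proj (0 : Fin 1) : Cn 1 →L[ℂ] ℂ).hasFDerivAt.comp_hasDerivAt (z : ℂ) h2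
      refine h5.congr_of_eventuallyEq ?_
      have a1 : ∀ᶠ w in 𝓝 (z : ℂ), p w ∈ (X.ch j).source :=
        (hp z z.2).1.eventually ((X.ch j).open_source.mem_nhds hj)
      filter_upwards [a1, isOpen_ball.mem_nhds z.2] with w b1 b2
      have b3 : rdD A (fun z : DD => p z) i w = co A i (p w) :=
        rdD_coe (fun z : DD => p z) i ⟨w, b2⟩
      rw [b3, co]
      simp only [Function.comp_apply]
      rw [(X.ch j).left_inv b1]
  refine ⟨⟨USys.continuous hp, fun z i hi => ?_⟩, fun z i hi => ?_⟩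
  · obtain ⟨d, _, hd⟩ := key z i hi
    exact hd.differentiableAt
  · obtain ⟨d, hd0, hd⟩ := key z i hi
    rw [hd.deriv]
    exact hd0

/-- (U1) for a complex curve with compatible hyperbolic structure -/
theorem exists_disc {M : Type} [TopologicalSpace M] [T2Space M] [CompactSpace M]
    [PreconnectedSpace M] {A : Atl 1 M} {X : PH M} (hAX : Compat A X) (x0 : M) :
    ∃ p : DD → M, IsCoveringMap p ∧ LBD A p ∧ p o = x0 := by
  obtain ⟨p, hp, h0, hc, _⟩ := uniformisation X x0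
  exact ⟨fun z => p z, hc, lbd_of_compat hAX hp, h0⟩

end Crest.Agent.R272.Unif_903
end

-- ▼ part R272/Unif7_903
section

/-!
# R272, UNIF (helper903), file 7: change of atlas
-/

set_option autoImplicit false

open Set Filter Topology Complex Metric

namespace Crest.Agent.R272.Unif_903

open Crest.Agent.R275.Geo Crest.Agent.R275.Core144 Crest.Agent.R273.Map_835
open Crest.Agent.R272.UnB_894

variable {M M' : Type} [TopologicalSpace M] [TopologicalSpace M'] {A : Atl 1 M} {A' : Atl 1 M'}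

/-- chain rule for `f ∘ p` read in charts -/
theorem hasDerivAt_rdD {q : DD → M'} {f : M' → M} (hf : HolMap A' A f) (hq : HolD A' q)
    {z : DD} {j : A'.ι} {i : A.ι} (hj : q z ∈ (A'.e j).source) (hz : f (q z) ∈ (A.e i).source) :
    ∃ L : Cn 1 →L[ℂ] Cn 1, HasDerivAt (rdD A (fun t => f (q t)) i)
      (L (WithLp.toLp 2 fun _ : Fin 1 => deriv (rdD A' q j) (z : ℂ)) 0) (z : ℂ) := by
  have hd := (hq.diff z j hj).hasDerivAt
  have h1 : HasDerivAt (fun w : ℂ => (WithLp.toLp 2 fun _ : Fin 1 => rdD A' q j w : Cn 1))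
      (WithLp.toLp 2 fun _ : Fin 1 => deriv (rdD A' q j) (z : ℂ)) (z : ℂ) := by
    have h0 : HasFDerivAt (fun w : ℂ => (WithLp.toLp 2 fun _ : Fin 1 => rdD A' q j w : Cn 1))
        ((PiLp.continuousLinearEquiv 2 ℂ (fun _ : Fin 1 => ℂ)).symm.toContinuousLinearMap.comp
          (ContinuousLinearMap.pi fun _ => ContinuousLinearMap.smulRight
            (1 : ℂ →L[ℂ] ℂ) (deriv (rdD A' q j) (z : ℂ)))) (z : ℂ) := by
      refine (PiLp.continuousLinearEquiv 2 ℂ (fun _ : Fin 1 => ℂ)).symm.hasFDerivAt.comp (z : ℂ) ?_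
      rw [hasFDerivAt_pi]
      exact fun a => hd.hasFDerivAt
    refine h0.hasDerivAt.congr_deriv ?_
    ext a
    simp
  have e1 : (WithLp.toLp 2 fun _ : Fin 1 => rdD A' q j z : Cn 1) = A'.e j (q z) := by
    ext a
    rw [Subsingleton.elim a 0]
    exact rdD_coe q j z
  have h2 : DifferentiableAt ℂ (rd A' A f j i)
      (WithLp.toLp 2 fun _ : Fin 1 => rdD A' q j z : Cn 1) := by
    rw [e1]
    exact hf.diffAt (mem_dm hj hz)
  have h3 := HasFDerivAt.comp_hasDerivAt (z : ℂ) h2.hasFDerivAt h1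
  refine ⟨fderiv ℂ (rd A' A f j i) (WithLp.toLp 2 fun _ : Fin 1 => rdD A' q j z : Cn 1), ?_⟩
  have h4 := (EuclideanSpace.proj (0 : Fin 1) : Cn 1 →L[ℂ] ℂ).hasFDerivAt.comp_hasDerivAt
    (z : ℂ) h3
  refine h4.congr_of_eventuallyEq ?_
  have := hq.eventually_mem hj
  rw [eventually_mk] at this
  filter_upwards [this] with w ⟨hw, hw'⟩
  have e2 : (WithLp.toLp 2 fun _ : Fin 1 => rdD A' q j w : Cn 1) = A'.e j (q ⟨w, hw⟩) := by
    ext a
    rw [Subsingleton.elim a 0]
    exact rdD_coe q j ⟨w, hw⟩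
  show rdD A (fun t => f (q t)) i w = (rd A' A f j i
    (WithLp.toLp 2 fun _ : Fin 1 => rdD A' q j w : Cn 1)) 0
  rw [e2]
  simp only [rd]
  rw [(A'.e j).left_inv hw']
  exact rdD_coe (fun t => f (q t)) i ⟨w, hw⟩

/-- `LBD` does not depend on the atlas -/
theorem lbd_of_compatible {A B : Atl 1 M} (h1 : HolMap A B id) (h2 : HolMap B A id)
    {p : DD → M} (h : LBD A p) : LBD B p := by
  have hB : HolD B p := HolD.comp (f := id) h1 h.toHolD
  refine ⟨hB, fun z i hi hd => ?_⟩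
  obtain ⟨j, hj⟩ := A.cover (p z)
  obtain ⟨L, hL⟩ := hasDerivAt_rdD (f := id) h2 hB (z := z) hi (i := j) hj
  have e : (WithLp.toLp 2 fun _ : Fin 1 => deriv (rdD B p i) (z : ℂ) : Cn 1) = 0 := by
    ext a; exact hd
  have hL' : HasDerivAt (rdD A p j)
      ((L (WithLp.toLp 2 fun _ : Fin 1 => deriv (rdD B p i) (z : ℂ))) 0) (z : ℂ) := hL
  rw [e, map_zero] at hL'
  exact h.ne z j hj hL'.deriv

end Crest.Agent.R272.Unif_903
end

-- ▼ part R272/Unif1_903
section

/-!
# R272, UNIF (helper903), file 1: holomorphic linear ODE on small discs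
-/

set_option autoImplicit false

open Set Filter Topology Complex Metric

namespace Crest.Agent.R272.Unif_903

theorem prim {F : ℂ → ℂ} {z0 : ℂ} {r C : ℝ} (hr : 0 < r) (hF : DifferentiableOn ℂ F (ball z0 r))
    (hC : ∀ z ∈ ball z0 r, ‖F z‖ ≤ C) :
    ∃ G : ℂ → ℂ, (∀ z ∈ ball z0 r, HasDerivAt G (F z) z) ∧ G z0 = 0 ∧
      ∀ z ∈ ball z0 r, ‖G z‖ ≤ C * r := by
  obtain ⟨G, h0, hG⟩ := hF.isExactOn_ball.with_val_at z0 0
  refine ⟨G, hG, h0, fun z hz => ?_⟩
  have h1 := (convex_ball z0 r).norm_image_sub_le_of_norm_hasDerivWithin_le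
    (f := G) (f' := F) (C := C) (fun x hx => (hG x hx).hasDerivWithinAt) hC (mem_ball_self hr) hz
  rw [h0, sub_zero] at h1
  have hC0 : 0 ≤ C := (norm_nonneg _).trans (hC z0 (mem_ball_self hr))
  refine h1.trans (mul_le_mul_of_nonneg_left ?_ hC0)
  rw [← dist_eq_norm]
  exact (mem_ball.mp hz).le

theorem step {Q : ℂ → ℂ} {z0 : ℂ} {r K : ℝ} (hr : 0 < r) (hK : 0 ≤ K)
    (hQ : DifferentiableOn ℂ Q (ball z0 r)) (hQK : ∀ z ∈ ball z0 r, ‖Q z‖ ≤ K)
    {F : ℂ → ℂ} {C : ℝ} (hF : DifferentiableOn ℂ F (ball z0 r))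
    (hC : ∀ z ∈ ball z0 r, ‖F z‖ ≤ C) :
    ∃ G G' : ℂ → ℂ, (∀ z ∈ ball z0 r, HasDerivAt G (G' z) z) ∧
      (∀ z ∈ ball z0 r, HasDerivAt G' (Q z * F z) z) ∧ G z0 = 0 ∧ G' z0 = 0 ∧
      (∀ z ∈ ball z0 r, ‖G z‖ ≤ K * C * r * r) ∧ (∀ z ∈ ball z0 r, ‖G' z‖ ≤ K * C * r) := by
  obtain ⟨G', h1, h2, h3⟩ := prim (C := K * C) hr (hQ.mul hF) (fun z hz => by
    rw [Pi.mul_apply, norm_mul]
    exact mul_le_mul (hQK z hz) (hC z hz) (norm_nonneg _) hK)
  have hd : DifferentiableOn ℂ G' (ball z0 r) :=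
    fun z hz => (h1 z hz).differentiableAt.differentiableWithinAt
  obtain ⟨G, k1, k2, k3⟩ := prim (C := K * C * r) hr hd h3
  exact ⟨G, G', k1, h1, k2, h2, k3, h3⟩

/-- local solution of `y'' = Q y` -/
theorem ode {Q : ℂ → ℂ} {z0 : ℂ} {R : ℝ} (hR : 0 < R) (hQ : DifferentiableOn ℂ Q (ball z0 R))
    (α β : ℂ) :
    ∃ r, 0 < r ∧ r ≤ R ∧ ∃ y y' : ℂ → ℂ, (∀ z ∈ ball z0 r, HasDerivAt y (y' z) z) ∧
      (∀ z ∈ ball z0 r, HasDerivAt y' (Q z * y z) z) ∧ y z0 = α ∧ y' z0 = β := by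
  -- bound for `Q` on a smaller ball
  obtain ⟨K, hK0, hK⟩ : ∃ K : ℝ, 0 < K ∧ ∀ z ∈ ball z0 (R / 2), ‖Q z‖ ≤ K := by
    have hc : ContinuousOn Q (closedBall z0 (R / 2)) :=
      hQ.continuousOn.mono (closedBall_subset_ball (by linarith))
    obtain ⟨K, hK⟩ := (isCompact_closedBall z0 (R / 2)).exists_bound_of_continuousOn hc
    exact ⟨max K 1, by positivity, fun z hz =>
      (hK z (ball_subset_closedBall hz)).trans (le_max_left _ _)⟩
  obtain ⟨r, hr0, hrR, hrK⟩ : ∃ r, 0 < r ∧ r ≤ R / 2 ∧ K * r * r ≤ 1 / 2 := by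
    refine ⟨min (R / 2) (min 1 (1 / (2 * K))), by positivity, min_le_left _ _, ?_⟩
    set r := min (R / 2) (min 1 (1 / (2 * K)))
    have h0 : 0 < r := by positivity
    have h1 : r ≤ 1 := (min_le_right _ _).trans (min_le_left _ _)
    have h2 : r ≤ 1 / (2 * K) := (min_le_right _ _).trans (min_le_right _ _)
    have h3 : K * r ≤ 1 / 2 := by
      have := mul_le_mul_of_nonneg_left h2 hK0.le
      refine this.trans (le_of_eq ?_)
      field_simp
    nlinarith
  have hsub : ball z0 r ⊆ ball z0 (R / 2) := ball_subset_ball hrR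
  have hQr : DifferentiableOn ℂ Q (ball z0 r) :=
    hQ.mono (hsub.trans (ball_subset_ball (by linarith)))
  have hKr : ∀ z ∈ ball z0 r, ‖Q z‖ ≤ K := fun z hz => hK z (hsub hz)
  have hr1 : r * ‖β‖ + ‖α‖ ≥ 0 := by positivity
  set C0 : ℝ := ‖α‖ + ‖β‖ * r with hC0
  -- the sequence
  let P : ℕ → (ℂ → ℂ) × (ℂ → ℂ) → Prop := fun n G =>
    (∀ z ∈ ball z0 r, HasDerivAt G.1 (G.2 z) z) ∧ (∀ z ∈ ball z0 r, ‖G.1 z‖ ≤ C0 * (1 / 2) ^ n)
  have hstep : ∀ n (G : {G // P n G}), ∃ H : {H // P (n + 1) H},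
      (∀ z ∈ ball z0 r, HasDerivAt H.1.2 (Q z * G.1.1 z) z) ∧ H.1.1 z0 = 0 ∧ H.1.2 z0 = 0 ∧
      ∀ z ∈ ball z0 r, ‖H.1.2 z‖ ≤ K * (C0 * (1 / 2) ^ n) * r := by
    rintro n ⟨G, h1, h2⟩
    obtain ⟨H, H', k1, k2, k3, k4, k5, k6⟩ := step hr0 hK0.le hQr hKr
      (fun z hz => (h1 z hz).differentiableAt.differentiableWithinAt) h2
    refine ⟨⟨(H, H'), k1, fun z hz => ?_⟩, k2, k3, k4, k6⟩
    refine (k5 z hz).trans ?_
    have hC : 0 ≤ C0 * (1 / 2) ^ n := by positivity
    calc K * (C0 * (1 / 2) ^ n) * r * r = (K * r * r) * (C0 * (1 / 2) ^ n) := by ring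
      _ ≤ (1 / 2) * (C0 * (1 / 2) ^ n) := mul_le_mul_of_nonneg_right hrK hC
      _ = C0 * (1 / 2) ^ (n + 1) := by ring
  choose nxt n1 n2 n3 n4 using hstep
  have h0 : P 0 (fun z => α + β * (z - z0), fun _ => β) := by
    refine ⟨fun z _ => ?_, fun z hz => ?_⟩
    · simpa using (((hasDerivAt_id z).sub_const z0).const_mul β).const_add α
    · simp only [pow_zero, mul_one, hC0]
      refine (norm_add_le _ _).trans ?_
      rw [norm_mul]
      gcongr
      rw [← dist_eq_norm]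
      exact (mem_ball.mp hz).le
  let s : (n : ℕ) → {G // P n G} := fun n => Nat.rec ⟨_, h0⟩ (fun n G => nxt n G) n
  have hs : ∀ n, s (n + 1) = nxt n (s n) := fun n => rfl
  have hs0 : s 0 = ⟨_, h0⟩ := rfl
  let y : ℂ → ℂ := fun z => ∑' n, (s n).1.1 z
  let y' : ℂ → ℂ := fun z => ∑' n, (s n).1.2 z
  have hsum1 : Summable fun n : ℕ => C0 * (1 / 2 : ℝ) ^ n :=
    (summable_geometric_of_lt_one (by norm_num) (by norm_num)).mul_left C0
  have hd1 : ∀ n, DifferentiableOn ℂ (s n).1.1 (ball z0 r) := fun n z hz =>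
    ((s n).2.1 z hz).differentiableAt.differentiableWithinAt
  have hb1 : ∀ n, ∀ z ∈ ball z0 r, ‖(s n).1.1 z‖ ≤ C0 * (1 / 2) ^ n := fun n => (s n).2.2
  -- second component
  have hd2 : ∀ n, ∀ z ∈ ball z0 r, HasDerivAt (s n).1.2
      (if n = 0 then 0 else Q z * (s (n - 1)).1.1 z) z := by
    intro n z hz
    cases n with
    | zero =>
      simp only [if_true]
      exact hasDerivAt_const z β
    | succ n =>
      rw [if_neg (Nat.succ_ne_zero n), Nat.add_sub_cancel, hs]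
      exact n1 n (s n) z hz
  let B : ℕ → ℝ := fun n => if n = 0 then ‖β‖ else K * (C0 * (1 / 2) ^ (n - 1)) * r
  have hsum2 : Summable B := by
    rw [← summable_nat_add_iff 1]
    have : (fun n => B (n + 1)) = fun n => (K * r) * (C0 * (1 / 2) ^ n) := by
      funext n
      simp only [B, if_neg (Nat.succ_ne_zero n), Nat.add_sub_cancel]
      ring
    rw [this]
    exact hsum1.mul_left _
  have hb2 : ∀ n, ∀ z ∈ ball z0 r, ‖(s n).1.2 z‖ ≤ B n := by
    intro n z hz
    cases n with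
    | zero => simp only [B, if_true]; exact le_refl _
    | succ n =>
      simp only [B, if_neg (Nat.succ_ne_zero n), Nat.add_sub_cancel]
      rw [hs]
      exact n4 n (s n) z hz
  have hd2' : ∀ n, DifferentiableOn ℂ (s n).1.2 (ball z0 r) := fun n z hz =>
    (hd2 n z hz).differentiableAt.differentiableWithinAt
  have hy : DifferentiableOn ℂ y (ball z0 r) :=
    differentiableOn_tsum_of_summable_norm hsum1 hd1 isOpen_ball hb1
  have hy' : DifferentiableOn ℂ y' (ball z0 r) :=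
    differentiableOn_tsum_of_summable_norm hsum2 hd2' isOpen_ball hb2
  refine ⟨r, hr0, by linarith, y, y', fun z hz => ?_, fun z hz => ?_, ?_, ?_⟩
  · have h1 := hasSum_deriv_of_summable_norm hsum1 hd1 isOpen_ball hb1 hz
    have h2 : deriv y z = y' z := by
      have : (fun n => deriv (s n).1.1 z) = fun n => (s n).1.2 z :=
        funext fun n => ((s n).2.1 z hz).deriv
      rw [this] at h1
      exact h1.tsum_eq.symm
    rw [← h2]
    exact (hy.differentiableAt (isOpen_ball.mem_nhds hz)).hasDerivAt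
  · have h1 := hasSum_deriv_of_summable_norm hsum2 hd2' isOpen_ball hb2 hz
    have h2 : deriv y' z = Q z * y z := by
      have e1 : (fun n => deriv (s n).1.2 z) =
          fun n => if n = 0 then 0 else Q z * (s (n - 1)).1.1 z :=
        funext fun n => (hd2 n z hz).deriv
      rw [e1] at h1
      have hsm : Summable fun n => (s n).1.1 z :=
        Summable.of_norm_bounded hsum1 fun n => hb1 n z hz
      have h3 : HasSum (fun n => Q z * (s n).1.1 z) (Q z * y z) := hsm.hasSum.mul_left _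
      have h4 : HasSum (fun n : ℕ => if n = 0 then (0:ℂ) else Q z * (s (n - 1)).1.1 z)
          (Q z * y z) := by
        rw [← hasSum_nat_add_iff' 1]
        simpa using h3
      exact h1.unique h4
    rw [← h2]
    exact (hy'.differentiableAt (isOpen_ball.mem_nhds hz)).hasDerivAt
  · have hz : z0 ∈ ball z0 r := mem_ball_self hr0
    have : ∀ n, n ≠ 0 → (s n).1.1 z0 = 0 := by
      intro n hn
      obtain ⟨m, rfl⟩ := Nat.exists_eq_succ_of_ne_zero hn
      exact n2 m (s m)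
    show ∑' n, (s n).1.1 z0 = α
    rw [tsum_eq_single 0 this]
    simp [hs0]
  · have hz : z0 ∈ ball z0 r := mem_ball_self hr0
    have : ∀ n, n ≠ 0 → (s n).1.2 z0 = 0 := by
      intro n hn
      obtain ⟨m, rfl⟩ := Nat.exists_eq_succ_of_ne_zero hn
      exact n3 m (s m)
    show ∑' n, (s n).1.2 z0 = β
    rw [tsum_eq_single 0 this]
    rfl

end Crest.Agent.R272.Unif_903
end

-- ▼ part R272/UnLiou_311

/-!
R272 / UnLiou_311: local developing map of a metric of constant negative curvature.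
If `u` is `C³` on an open set `U ⊆ ℂ` and `u_{z z̄} = e^u` there, then near every point `c` of `U`
there is a holomorphic `φ` with `φ c = 0`, `|φ| < 1`, `φ' ≠ 0` and
`e^u = 2 |φ'|² / (1 - |φ|²)²`.
-/

set_option autoImplicit false

open Set Filter Topology Metric Complex
open scoped ContDiff ComplexConjugate

noncomputable section

namespace Crest.Agent.R272.UnLiou_311

/-- the real linear map `v ↦ a v + b v̄` -/
def L (a b : ℂ) : ℂ →L[ℝ] ℂ :=
  (ContinuousLinearMap.mul ℝ ℂ a) + (ContinuousLinearMap.mul ℝ ℂ b).comp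
    (Complex.conjCLE : ℂ →L[ℝ] ℂ)

@[simp] theorem L_apply (a b v : ℂ) : L a b v = a * v + b * conj v := by
  simp [L]

/-- `f` is real differentiable at `z` with Wirtinger derivatives `f_z = a`, `f_z̄ = b` -/
def HW (f : ℂ → ℂ) (a b : ℂ) (z : ℂ) : Prop := HasFDerivAt f (L a b) z

theorem ext_L {T S : ℂ →L[ℝ] ℂ} (h1 : T 1 = S 1) (hI : T I = S I) : T = S := by
  ext v
  have hv : v = v.re • (1 : ℂ) + v.im • I := by
    apply Complex.ext <;> simp
  rw [hv, map_add, map_add, map_smul, map_smul, map_smul, map_smul, h1, hI]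

theorem HW.congr {f : ℂ → ℂ} {a b a' b' z : ℂ} (h : HW f a b z) (ha : a = a') (hb : b = b') :
    HW f a' b' z := by subst ha hb; exact h

theorem HW.mul {f g : ℂ → ℂ} {a b a' b' z : ℂ} (hf : HW f a b z) (hg : HW g a' b' z) :
    HW (fun z => f z * g z) (a * g z + f z * a') (b * g z + f z * b') z := by
  have := HasFDerivAt.mul (𝕜 := ℝ) hf hg
  refine this.congr_fderiv ?_
  ext v
  simp
  ring

theorem HW.add {f g : ℂ → ℂ} {a b a' b' z : ℂ} (hf : HW f a b z) (hg : HW g a' b' z) :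
    HW (fun z => f z + g z) (a + a') (b + b') z := by
  have := HasFDerivAt.add hf hg
  refine this.congr_fderiv ?_
  ext v
  simp
  ring

theorem HW.sub {f g : ℂ → ℂ} {a b a' b' z : ℂ} (hf : HW f a b z) (hg : HW g a' b' z) :
    HW (fun z => f z - g z) (a - a') (b - b') z := by
  have := HasFDerivAt.sub hf hg
  refine this.congr_fderiv ?_
  ext v
  simp
  ring

theorem HW.const (k z : ℂ) : HW (fun _ => k) 0 0 z := by
  refine (hasFDerivAt_const k z).congr_fderiv ?_
  ext v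
  simp

theorem HW.const_mul {f : ℂ → ℂ} {a b z : ℂ} (k : ℂ) (hf : HW f a b z) :
    HW (fun z => k * f z) (k * a) (k * b) z :=
  ((HW.const k z).mul hf).congr (by ring) (by ring)

theorem HW.conj {f : ℂ → ℂ} {a b z : ℂ} (hf : HW f a b z) :
    HW (fun z => conj (f z)) (conj b) (conj a) z := by
  have h := (Complex.conjCLE : ℂ →L[ℝ] ℂ).hasFDerivAt.comp z hf
  refine HasFDerivAt.congr_fderiv h ?_
  ext v
  simp
  ring

theorem HW.cexp {f : ℂ → ℂ} {a b z : ℂ} (hf : HW f a b z) :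
    HW (fun z => Complex.exp (f z)) (Complex.exp (f z) * a) (Complex.exp (f z) * b) z := by
  have h := HasFDerivAt.cexp (E := ℂ) (f := f) (x := z) (f' := L a b) hf
  refine h.congr_fderiv ?_
  ext v
  simp
  ring

theorem HW.of_hasDerivAt {f : ℂ → ℂ} {a z : ℂ} (hf : HasDerivAt f a z) : HW f a 0 z := by
  refine (hf.hasFDerivAt.restrictScalars ℝ).congr_fderiv ?_
  ext v
  simp [mul_comm]

theorem HW.hasDerivAt {f : ℂ → ℂ} {a z : ℂ} (hf : HW f a 0 z) : HasDerivAt f a z := by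
  rw [hasDerivAt_iff_hasFDerivAt]
  refine hasFDerivAt_of_restrictScalars ℝ hf ?_
  ext v
  simp [mul_comm]

theorem HW.unique {f : ℂ → ℂ} {a b a' b' z : ℂ} (h : HW f a b z) (h' : HW f a' b' z) :
    a = a' ∧ b = b' := by
  have e : L a b = L a' b' := HasFDerivAt.unique h h'
  have e1 : a + b = a' + b' := by simpa using congrArg (fun T => T 1) e
  have e2 : a * I + b * (-I) = a' * I + b' * (-I) := by simpa using congrArg (fun T => T I) e
  have e3 : a - b = a' - b' := by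
    have : I * (a - b) = I * (a' - b') := by linear_combination e2
    exact mul_left_cancel₀ I_ne_zero this
  constructor
  · linear_combination (e1 + e3) / 2
  · linear_combination (e1 - e3) / 2

/-- `∂f/∂z` -/
def dz (f : ℂ → ℂ) (z : ℂ) : ℂ := (fderiv ℝ f z 1 - I * fderiv ℝ f z I) / 2

/-- `∂f/∂z̄` -/
def db (f : ℂ → ℂ) (z : ℂ) : ℂ := (fderiv ℝ f z 1 + I * fderiv ℝ f z I) / 2

theorem HW.of_diff {f : ℂ → ℂ} {z : ℂ} (h : DifferentiableAt ℝ f z) : HW f (dz f z) (db f z) z := by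
  refine h.hasFDerivAt.congr_fderiv (ext_L ?_ ?_)
  · simp [dz, db]
    ring
  · simp [dz, db]
    linear_combination (fderiv ℝ f z I) * I_mul_I

theorem HW.differentiableAt {f : ℂ → ℂ} {a b z : ℂ} (h : HW f a b z) : DifferentiableAt ℝ f z :=
  HasFDerivAt.differentiableAt h

theorem HW.dz {f : ℂ → ℂ} {a b z : ℂ} (h : HW f a b z) : dz f z = a :=
  ((HW.of_diff h.differentiableAt).unique h).1

theorem HW.db {f : ℂ → ℂ} {a b z : ℂ} (h : HW f a b z) : db f z = b :=
  ((HW.of_diff h.differentiableAt).unique h).2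

theorem fderiv_fderiv_apply {f : ℂ → ℂ} {z : ℂ} (hf : ContDiffAt ℝ 2 f z) (v w : ℂ) :
    fderiv ℝ (fun y => fderiv ℝ f y w) z v = fderiv ℝ (fderiv ℝ f) z v w := by
  have h1 : DifferentiableAt ℝ (fderiv ℝ f) z :=
    (hf.fderiv_right (m := 1) (by norm_num)).differentiableAt one_ne_zero
  rw [fderiv_clm_apply h1 (differentiableAt_const w)]
  simp

theorem differentiableAt_dir {f : ℂ → ℂ} {z : ℂ} (hf : ContDiffAt ℝ 2 f z) (w : ℂ) :
    DifferentiableAt ℝ (fun y => fderiv ℝ f y w) z := by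
  have h1 : DifferentiableAt ℝ (fderiv ℝ f) z :=
    (hf.fderiv_right (m := 1) (by norm_num)).differentiableAt one_ne_zero
  exact h1.clm_apply (differentiableAt_const w)

theorem db_dz {f : ℂ → ℂ} {z : ℂ} (hf : ContDiffAt ℝ 2 f z) : db (dz f) z = dz (db f) z := by
  have h1 := differentiableAt_dir hf 1
  have h2 := differentiableAt_dir hf I
  have hs : fderiv ℝ (fderiv ℝ f) z 1 I = fderiv ℝ (fderiv ℝ f) z I 1 :=
    (hf.isSymmSndFDerivAt (by simp)).eq 1 I
  have e1 : ∀ v, fderiv ℝ (dz f) z v =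
      (fderiv ℝ (fderiv ℝ f) z v 1 - I * fderiv ℝ (fderiv ℝ f) z v I) / 2 := by
    intro v
    have : HasFDerivAt (dz f) ((2 : ℂ)⁻¹ • (fderiv ℝ (fun y => fderiv ℝ f y 1) z
        - I • fderiv ℝ (fun y => fderiv ℝ f y I) z)) z := by
      have h3 := (h1.hasFDerivAt.sub (h2.hasFDerivAt.const_smul I)).const_smul ((2 : ℂ)⁻¹)
      refine h3.congr_of_eventuallyEq (Eventually.of_forall fun y => ?_)
      simp only [dz, Pi.smul_apply, Pi.sub_apply, smul_eq_mul]
      ring
    rw [this.fderiv]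
    simp only [smul_apply, sub_apply, fderiv_fderiv_apply hf, smul_eq_mul]
    ring
  have e2 : ∀ v, fderiv ℝ (db f) z v =
      (fderiv ℝ (fderiv ℝ f) z v 1 + I * fderiv ℝ (fderiv ℝ f) z v I) / 2 := by
    intro v
    have : HasFDerivAt (db f) ((2 : ℂ)⁻¹ • (fderiv ℝ (fun y => fderiv ℝ f y 1) z
        + I • fderiv ℝ (fun y => fderiv ℝ f y I) z)) z := by
      have h3 := (h1.hasFDerivAt.add (h2.hasFDerivAt.const_smul I)).const_smul ((2 : ℂ)⁻¹)
      refine h3.congr_of_eventuallyEq (Eventually.of_forall fun y => ?_)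
      simp only [db, Pi.smul_apply, Pi.add_apply, smul_eq_mul]
      ring
    rw [this.fderiv]
    simp only [smul_apply, add_apply, fderiv_fderiv_apply hf, smul_eq_mul]
    ring
  have e3 : db (dz f) z = (fderiv ℝ (dz f) z 1 + I * fderiv ℝ (dz f) z I) / 2 := rfl
  have e4 : dz (db f) z = (fderiv ℝ (db f) z 1 - I * fderiv ℝ (db f) z I) / 2 := rfl
  rw [e3, e4, e1, e1, e2, e2, hs]
  ring


/-! ### The developing map -/

section Main

variable {u : ℂ → ℝ} {Ω : Set ℂ}

/-- `∂u/∂z` -/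
def pu (u : ℂ → ℝ) (z : ℂ) : ℂ := dz (fun z => (u z : ℂ)) z

theorem uc_contDiffAt (hΩ : IsOpen Ω) (hu : ContDiffOn ℝ ∞ u Ω) {z : ℂ} (hz : z ∈ Ω) :
    ContDiffAt ℝ ∞ (fun z => (u z : ℂ)) z :=
  Complex.ofRealCLM.contDiff.contDiffAt.comp z (hu.contDiffAt (hΩ.mem_nhds hz))

theorem hw_uc (hΩ : IsOpen Ω) (hu : ContDiffOn ℝ ∞ u Ω) {z : ℂ} (hz : z ∈ Ω) :
    HW (fun z => (u z : ℂ)) (pu u z) (conj (pu u z)) z := by
  have hd : DifferentiableAt ℝ (fun z => (u z : ℂ)) z :=
    (uc_contDiffAt hΩ hu hz).differentiableAt (by simp)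
  have h := HW.of_diff hd
  have h' := h.conj
  simp only [Complex.conj_ofReal] at h'
  exact h.congr rfl (h.unique h').2

theorem contDiffAt_dz {f : ℂ → ℂ} {z : ℂ} (hf : ContDiffAt ℝ ∞ f z) : ContDiffAt ℝ ∞ (dz f) z := by
  have h1 : ContDiffAt ℝ ∞ (fderiv ℝ f) z := hf.fderiv_right (m := ∞) (by simp)
  have h2 : ContDiffAt ℝ ∞ (fun y => fderiv ℝ f y 1) z := h1.clm_apply contDiffAt_const
  have h3 : ContDiffAt ℝ ∞ (fun y => fderiv ℝ f y I) z := h1.clm_apply contDiffAt_const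
  exact (h2.sub (contDiffAt_const.mul h3)).div_const 2

theorem contDiffAt_pu (hΩ : IsOpen Ω) (hu : ContDiffOn ℝ ∞ u Ω) {z : ℂ} (hz : z ∈ Ω) :
    ContDiffAt ℝ ∞ (pu u) z := contDiffAt_dz (uc_contDiffAt hΩ hu hz)

theorem db_pu (hΩ : IsOpen Ω) (hu : ContDiffOn ℝ ∞ u Ω)
    (hL : ∀ z ∈ Ω, fderiv ℝ (fderiv ℝ u) z 1 1 + fderiv ℝ (fderiv ℝ u) z I I
      = 4 * Real.exp (u z)) {z : ℂ} (hz : z ∈ Ω) :
    db (pu u) z = (Real.exp (u z) : ℂ) := by
  have hcd : ContDiffAt ℝ ∞ u z := hu.contDiffAt (hΩ.mem_nhds hz)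
  have hd2 : DifferentiableAt ℝ (fderiv ℝ u) z :=
    (hcd.fderiv_right (m := 1) (by norm_cast)).differentiableAt one_ne_zero
  -- near `z`, `fderiv` of the complexified function
  have hev : ∀ᶠ y in 𝓝 z, ∀ v, fderiv ℝ (fun z => (u z : ℂ)) y v = ((fderiv ℝ u y v : ℝ) : ℂ) := by
    filter_upwards [hΩ.mem_nhds hz] with y hy v
    have hdy : DifferentiableAt ℝ u y :=
      (hu.contDiffAt (hΩ.mem_nhds hy)).differentiableAt (by simp)
    have h := (Complex.ofRealCLM.hasFDerivAt.comp y hdy.hasFDerivAt)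
    have h' : fderiv ℝ (fun z => (u z : ℂ)) y = Complex.ofRealCLM.comp (fderiv ℝ u y) := h.fderiv
    rw [h']
    rfl
  have e1 : ∀ w : ℂ, HasFDerivAt (fun y => ((fderiv ℝ u y w : ℝ) : ℂ))
      (Complex.ofRealCLM.comp ((fderiv ℝ (fderiv ℝ u) z).flip w)) z := by
    intro w
    have h := hd2.hasFDerivAt.clm_apply (hasFDerivAt_const w z)
    have h2 : HasFDerivAt (fun y => fderiv ℝ u y w) ((fderiv ℝ (fderiv ℝ u) z).flip w) z := by
      refine h.congr_fderiv ?_
      ext v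
      simp
    exact Complex.ofRealCLM.hasFDerivAt.comp z h2
  have e2 : HasFDerivAt (pu u) ((2 : ℂ)⁻¹ •
      (Complex.ofRealCLM.comp ((fderiv ℝ (fderiv ℝ u) z).flip 1)
        - I • Complex.ofRealCLM.comp ((fderiv ℝ (fderiv ℝ u) z).flip I))) z := by
    have h3 := ((e1 1).sub ((e1 I).const_smul I)).const_smul ((2 : ℂ)⁻¹)
    refine h3.congr_of_eventuallyEq ?_
    filter_upwards [hev] with y hy
    simp only [pu, dz, hy, Pi.smul_apply, Pi.sub_apply, smul_eq_mul]
    ring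
  have hs : fderiv ℝ (fderiv ℝ u) z 1 I = fderiv ℝ (fderiv ℝ u) z I 1 :=
    ((hcd.of_le (m := 2) (by norm_cast)).isSymmSndFDerivAt (by simp)).eq 1 I
  have hL' := hL z hz
  have hLc : ((fderiv ℝ (fderiv ℝ u) z 1 1 : ℝ) : ℂ) + ((fderiv ℝ (fderiv ℝ u) z I I : ℝ) : ℂ)
      = 4 * (Real.exp (u z) : ℂ) := by exact_mod_cast congrArg (fun x : ℝ => (x : ℂ)) hL'
  unfold db
  rw [e2.fderiv]
  simp only [smul_apply, sub_apply, ContinuousLinearMap.comp_apply, ContinuousLinearMap.flip_apply,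
    smul_eq_mul, Complex.ofRealCLM_apply, hs]
  linear_combination (1 / 4) * hLc - (1 / 4) * ((fderiv ℝ (fderiv ℝ u) z I I : ℝ) : ℂ) * I_mul_I

/-- `V = e^{-u/2}` -/
def V (u : ℂ → ℝ) (z : ℂ) : ℂ := Complex.exp (-(1 / 2) * (u z : ℂ))

theorem V_eq (z : ℂ) : V u z = (Real.exp (-(u z) / 2) : ℂ) := by
  unfold V
  rw [Complex.ofReal_exp]
  congr 1
  push_cast
  ring

theorem V_ne (z : ℂ) : V u z ≠ 0 := Complex.exp_ne_zero _

theorem V_sq (z : ℂ) : V u z * V u z * (Real.exp (u z) : ℂ) = 1 := by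
  unfold V
  rw [Complex.ofReal_exp, ← Complex.exp_add, ← Complex.exp_add]
  have : -(1 / 2) * (u z : ℂ) + -(1 / 2) * (u z : ℂ) + (u z : ℂ) = 0 := by ring
  rw [this, Complex.exp_zero]

theorem conj_V (z : ℂ) : conj (V u z) = V u z := by
  rw [V_eq, Complex.conj_ofReal]

theorem hw_V (hΩ : IsOpen Ω) (hu : ContDiffOn ℝ ∞ u Ω) {z : ℂ} (hz : z ∈ Ω) :
    HW (V u) (-(1 / 2) * pu u z * V u z) (-(1 / 2) * conj (pu u z) * V u z) z :=
  ((hw_uc hΩ hu hz).const_mul (-(1 / 2))).cexp.congr (by unfold V; ring) (by unfold V; ring)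

/-- `∂V/∂z` -/
def Vd (u : ℂ → ℝ) (z : ℂ) : ℂ := -(1 / 2) * pu u z * V u z

/-- the potential -/
def Q (u : ℂ → ℝ) (z : ℂ) : ℂ := (1 / 4) * (pu u z * pu u z) - (1 / 2) * dz (pu u) z

variable (hΩ : IsOpen Ω) (hu : ContDiffOn ℝ ∞ u Ω)
  (hL : ∀ z ∈ Ω, fderiv ℝ (fderiv ℝ u) z 1 1 + fderiv ℝ (fderiv ℝ u) z I I
      = 4 * Real.exp (u z))

include hΩ hu hL

theorem hw_pu {z : ℂ} (hz : z ∈ Ω) :
    HW (pu u) (dz (pu u) z) (Real.exp (u z) : ℂ) z :=
  (HW.of_diff ((contDiffAt_pu hΩ hu hz).differentiableAt (by simp))).congr rfl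
    (db_pu hΩ hu hL hz)

theorem hw_Vd {z : ℂ} (hz : z ∈ Ω) :
    HW (Vd u) (Q u z * V u z)
      (-(1 / 2) * (Real.exp (u z) : ℂ) * V u z
        + (1 / 4) * pu u z * conj (pu u z) * V u z) z :=
  (((hw_pu hΩ hu hL hz).const_mul (-(1 / 2))).mul (hw_V hΩ hu hz)).congr
    (by unfold Q; ring) (by ring)

theorem hol_Q {z : ℂ} (hz : z ∈ Ω) : DifferentiableAt ℂ (Q u) z := by
  have h1 := hw_pu hΩ hu hL hz
  have hcd := contDiffAt_pu hΩ hu hz
  have h2 : DifferentiableAt ℝ (dz (pu u)) z := (contDiffAt_dz hcd).differentiableAt (by simp)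
  have h3 := HW.of_diff h2
  have h4 : db (dz (pu u)) z = pu u z * (Real.exp (u z) : ℂ) := by
    rw [db_dz (hcd.of_le (m := 2) (by norm_cast))]
    have h5 : HW (fun z => Complex.exp (u z : ℂ)) (Complex.exp (u z : ℂ) * pu u z)
        (Complex.exp (u z : ℂ) * conj (pu u z)) z := (hw_uc hΩ hu hz).cexp
    have h6 : db (pu u) =ᶠ[𝓝 z] fun z => Complex.exp (u z : ℂ) := by
      filter_upwards [hΩ.mem_nhds hz] with y hy
      rw [db_pu hΩ hu hL hy, Complex.ofReal_exp]
    have h7 : HW (db (pu u)) _ _ z := HasFDerivAt.congr_of_eventuallyEq h5 h6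
    rw [h7.dz, Complex.ofReal_exp]
    ring
  have h8 : HW (Q u) ((1 / 4) * (dz (pu u) z * pu u z + pu u z * dz (pu u) z)
      - (1 / 2) * dz (dz (pu u)) z) 0 z :=
    (((h1.mul h1).const_mul (1 / 4)).sub (h3.const_mul (1 / 2))).congr rfl
      (by rw [h4]; ring)
  exact h8.hasDerivAt.differentiableAt

/-- **Liouville**: a metric of constant negative curvature has a local developing map -/
theorem liouville_local' {z0 : ℂ} (hz0 : z0 ∈ Ω) :
    ∃ r > 0, ball z0 r ⊆ Ω ∧ ∃ f : ℂ → ℂ, DifferentiableOn ℂ f (ball z0 r) ∧ f z0 = 0 ∧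
      ∀ z ∈ ball z0 r, ‖f z‖ < 1 ∧ deriv f z ≠ 0 ∧
        2 * ‖deriv f z‖ ^ 2 / (1 - ‖f z‖ ^ 2) ^ 2 = Real.exp (u z) := by
  obtain ⟨R, hR, hRΩ⟩ := Metric.isOpen_iff.mp hΩ z0 hz0
  set s0 : ℝ := Real.sqrt (Real.exp (-(u z0) / 2)) with hs0
  have hs0p : 0 < s0 := Real.sqrt_pos.mpr (Real.exp_pos _)
  have hs0V : (s0 : ℂ) * s0 = V u z0 := by
    rw [V_eq, ← Complex.ofReal_mul, hs0, Real.mul_self_sqrt (Real.exp_pos _).le]
  have hs0c : (s0 : ℂ) ≠ 0 := by exact_mod_cast hs0p.ne'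
  obtain ⟨r, hr, hrR, y, y', hy, hy', hy0, hy'0⟩ := Crest.Agent.R272.Unif_903.ode hR
    (Q := Q u) (fun z hz => (hol_Q hΩ hu hL (hRΩ hz)).differentiableWithinAt)
    (s0 : ℂ) (Vd u z0 / s0)
  have hrΩ : ball z0 r ⊆ Ω := (ball_subset_ball hrR).trans hRΩ
  -- the antiholomorphic function `a`
  set a : ℂ → ℂ := fun z => V u z * y' z - Vd u z * y z with ha
  have hwa : ∀ z ∈ ball z0 r, HW a 0 (-(1 / 2) * conj (pu u z) * V u z * y' z
      - (-(1 / 2) * (Real.exp (u z) : ℂ) * V u z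
        + (1 / 4) * pu u z * conj (pu u z) * V u z) * y z) z := by
    intro z hz
    refine (((hw_V hΩ hu (hrΩ hz)).mul (HW.of_hasDerivAt (hy' z hz))).sub
      ((hw_Vd hΩ hu hL (hrΩ hz)).mul (HW.of_hasDerivAt (hy z hz)))).congr ?_ ?_
    · unfold Vd
      ring
    · ring
  set b : ℂ → ℂ := fun z => conj (a z) with hb
  -- simplified derivative of `b`
  have hVconj : ∀ z, V u z * conj (y' z) = conj (a z) - (1 / 2) * conj (pu u z) * V u z * conj (y z) := by
    intro z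
    simp only [ha, Vd, map_sub, map_mul, conj_V, map_neg, map_div₀, map_one, map_ofNat]
    ring
  have hwb : ∀ z ∈ ball z0 r, HW b (-(1 / 2) * pu u z * b z + (1 / 2) * (V u z)⁻¹ * conj (y z)) 0 z := by
    intro z hz
    refine (hwa z hz).conj.congr ?_ (map_zero _)
    have hVs := V_sq (u := u) z
    have hVn := V_ne (u := u) z
    have hE : (Real.exp (u z) : ℂ) * V u z = (V u z)⁻¹ := by
      field_simp
      linear_combination hVs
    simp only [map_sub, map_add, map_mul, map_neg, map_div₀, map_one, map_ofNat, conj_V,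
      Complex.conj_conj, Complex.conj_ofReal, hb]
    have h1 := hVconj z
    linear_combination (-(1 / 2) * pu u z) * h1 + (1 / 2) * conj (y z) * hE
  have hbconj : ∀ z, HW b (conj (-(1 / 2) * conj (pu u z) * V u z * y' z
      - (-(1 / 2) * (Real.exp (u z) : ℂ) * V u z
        + (1 / 4) * pu u z * conj (pu u z) * V u z) * y z)) (conj 0) z ∨ z ∉ ball z0 r := by
    intro z
    by_cases hz : z ∈ ball z0 r
    · exact Or.inl (hwa z hz).conj
    · exact Or.inr hz
  clear_value a b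
  have hy'eq : ∀ z, V u z * y' z = a z - (1 / 2) * pu u z * V u z * y z := by
    intro z
    simp only [ha, Vd]
    ring
  -- `N = |y|² - 2 |a|²`
  set N : ℂ → ℂ := fun z => y z * conj (y z) - 2 * (a z * b z) with hN
  set W : ℂ → ℂ := fun z => Complex.exp ((1 / 2) * (u z : ℂ)) with hW
  have hWV : ∀ z, W z * V u z = 1 := by
    intro z
    simp only [hW, V]
    rw [← Complex.exp_add]
    have : (1 / 2) * (u z : ℂ) + -(1 / 2) * (u z : ℂ) = 0 := by ring
    rw [this, Complex.exp_zero]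
  have hwW : ∀ z ∈ ball z0 r, HW W ((1 / 2) * pu u z * W z) ((1 / 2) * conj (pu u z) * W z) z :=
    fun z hz => ((hw_uc hΩ hu (hrΩ hz)).const_mul (1 / 2)).cexp.congr (by ring) (by ring)
  have hwN : ∀ z ∈ ball z0 r, HW N (-(1 / 2) * pu u z * N z) (-(1 / 2) * conj (pu u z) * N z) z := by
    intro z hz
    have hVn := V_ne (u := u) z
    have h1 := HW.of_hasDerivAt (hy z hz)
    have h2 := h1.conj
    have ha' := hwa z hz
    have hb' := hwb z hz
    have hNw := (h1.mul h2).sub ((ha'.mul hb').const_mul 2)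
    have hbb := (hbconj z).resolve_right (fun h => h hz)
    have e1 := (hb'.unique hbb).1
    have e2 : -(1 / 2) * conj (pu u z) * V u z * y' z
      - (-(1 / 2) * (Real.exp (u z) : ℂ) * V u z
        + (1 / 4) * pu u z * conj (pu u z) * V u z) * y z
        = -(1 / 2) * conj (pu u z) * a z + (1 / 2) * (V u z)⁻¹ * y z := by
      have := congrArg conj e1
      rw [Complex.conj_conj] at this
      rw [← this]
      simp only [hb, map_add, map_mul, map_neg, map_div₀, map_one, map_ofNat, map_inv₀, conj_V,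
        Complex.conj_conj]
    have h3 := hy'eq z
    have h4 := congrArg conj h3
    simp only [map_sub, map_mul, map_div₀, map_one, map_ofNat, conj_V] at h4
    rw [show conj (a z) = b z by rw [hb]] at h4
    have h3' : y' z = (a z - (1 / 2) * pu u z * V u z * y z) * (V u z)⁻¹ := by
      rw [eq_mul_inv_iff_mul_eq₀ hVn, mul_comm]
      exact h3
    have h4' : conj (y' z) = (b z - (1 / 2) * conj (pu u z) * V u z * conj (y z)) * (V u z)⁻¹ := by
      rw [eq_mul_inv_iff_mul_eq₀ hVn, mul_comm]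
      exact h4
    refine hNw.congr ?_ ?_
    · rw [h3']
      simp only [hN, map_zero]
      field_simp
      ring
    · rw [e2, h4']
      simp only [hN]
      field_simp
      ring
  have hwK : ∀ z ∈ ball z0 r, HW (fun z => N z * W z) 0 0 z := fun z hz =>
    ((hwN z hz).mul (hwW z hz)).congr (by ring) (by ring)
  have ha0 : a z0 = 0 := by
    simp only [ha, hy0, hy'0, ← hs0V]
    field_simp
    ring
  have hb0 : b z0 = 0 := by simp only [hb, ha0, map_zero]
  have hK : ∀ z ∈ ball z0 r, N z * W z = 1 := by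
    intro z hz
    have h1 := (convex_ball z0 r).is_const_of_fderivWithin_eq_zero (𝕜 := ℝ)
      (f := fun z => N z * W z) (fun x hx => (hwK x hx).differentiableAt.differentiableWithinAt)
      (fun x hx => by
        rw [fderivWithin_of_isOpen isOpen_ball hx]
        have h2 : fderiv ℝ (fun z => N z * W z) x = L 0 0 := HasFDerivAt.fderiv (hwK x hx)
        rw [h2]
        ext v
        simp) hz (mem_ball_self hr)
    have h3 : N z0 * W z0 = 1 := by
      simp only [hN, ha0, hy0, Complex.conj_ofReal]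
      rw [hs0V, zero_mul, mul_zero, sub_zero, mul_comm]
      exact hWV z0
    exact h1.trans h3
  have hNV : ∀ z ∈ ball z0 r, N z = V u z := by
    intro z hz
    have h1 := hK z hz
    have h2 := hWV z
    have h3 : W z ≠ 0 := Complex.exp_ne_zero _
    apply mul_right_cancel₀ h3
    rw [h1, mul_comm, h2]
  -- real form
  have hnorm : ∀ z ∈ ball z0 r, ‖y z‖ ^ 2 - 2 * ‖b z‖ ^ 2 = Real.exp (-(u z) / 2) := by
    intro z hz
    have h1 := hNV z hz
    rw [V_eq] at h1
    simp only [hN] at h1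
    have h2 : a z * b z = ((‖b z‖ ^ 2 : ℝ) : ℂ) := by
      have : a z = conj (b z) := by simp [hb]
      rw [this, mul_comm, Complex.mul_conj, Complex.normSq_eq_norm_sq]
    rw [h2, Complex.mul_conj, Complex.normSq_eq_norm_sq] at h1
    exact_mod_cast h1
  have hypos : ∀ z ∈ ball z0 r, 0 < ‖y z‖ ^ 2 := by
    intro z hz
    have := hnorm z hz
    have h2 := Real.exp_pos (-(u z) / 2)
    nlinarith [sq_nonneg ‖b z‖]
  have hyne : ∀ z ∈ ball z0 r, y z ≠ 0 := by
    intro z hz h0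
    have := hypos z hz
    rw [h0, norm_zero] at this
    norm_num at this
  set f : ℂ → ℂ := fun z => (Real.sqrt 2 : ℂ) * b z / y z with hf
  have hfd : ∀ z ∈ ball z0 r, HasDerivAt f ((Real.sqrt 2 : ℂ) / 2 / y z ^ 2) z := by
    intro z hz
    have h1 := (((hwb z hz).hasDerivAt).const_mul (Real.sqrt 2 : ℂ)).div (hy z hz) (hyne z hz)
    refine h1.congr_deriv ?_
    have hVn := V_ne (u := u) z
    have hyn := hyne z hz
    have h3' : y' z = (a z - (1 / 2) * pu u z * V u z * y z) * (V u z)⁻¹ := by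
      have h3 := hy'eq z
      rw [eq_mul_inv_iff_mul_eq₀ hVn, mul_comm]
      exact h3
    have h5 := hNV z hz
    simp only [hN] at h5
    rw [h3']
    field_simp
    linear_combination h5
  refine ⟨r, hr, hrΩ, f, fun z hz => (hfd z hz).differentiableAt.differentiableWithinAt, ?_, ?_⟩
  · simp only [hf, hb0, mul_zero, zero_div]
  · intro z hz
    have h1 := hnorm z hz
    have h2 := Real.exp_pos (-(u z) / 2)
    have h3 := hypos z hz
    have hs2 : ‖(Real.sqrt 2 : ℂ)‖ ^ 2 = 2 := by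
      rw [Complex.norm_real, Real.norm_eq_abs, sq_abs, Real.sq_sqrt (by norm_num)]
    have hf2 : ‖f z‖ ^ 2 = 2 * ‖b z‖ ^ 2 / ‖y z‖ ^ 2 := by
      simp only [hf, norm_div, norm_mul, div_pow, mul_pow, hs2]
    have hfe : 1 - ‖f z‖ ^ 2 = Real.exp (-(u z) / 2) / ‖y z‖ ^ 2 := by
      have hn : ‖y z‖ ^ 2 ≠ 0 := h3.ne'
      rw [hf2, ← h1, sub_div, div_self hn]
    have hdf : deriv f z = (Real.sqrt 2 : ℂ) / 2 / y z ^ 2 := (hfd z hz).deriv
    have hdf2 : ‖deriv f z‖ ^ 2 = 1 / 2 / (‖y z‖ ^ 2) ^ 2 := by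
      rw [hdf]
      simp only [norm_div, div_pow, hs2, norm_pow]
      norm_num
    refine ⟨?_, ?_, ?_⟩
    · have h4 : 0 < 1 - ‖f z‖ ^ 2 := by
        rw [hfe]
        positivity
      nlinarith [norm_nonneg (f z)]
    · rw [hdf]
      have : (Real.sqrt 2 : ℂ) ≠ 0 := by
        have := Real.sqrt_pos.mpr (show (0 : ℝ) < 2 by norm_num)
        exact_mod_cast this.ne'
      exact div_ne_zero (div_ne_zero this two_ne_zero) (pow_ne_zero _ (hyne z hz))
    · rw [hdf2, hfe]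
      have h5 : Real.exp (u z) * Real.exp (-(u z) / 2) ^ 2 = 1 := by
        rw [← Real.exp_nat_mul, ← Real.exp_add]
        have : u z + ((2 : ℕ) : ℝ) * (-(u z) / 2) = 0 := by push_cast; ring
        rw [this, Real.exp_zero]
      have hn : ‖y z‖ ^ 2 ≠ 0 := h3.ne'
      have he : Real.exp (-(u z) / 2) ^ 2 ≠ 0 := by positivity
      rw [div_pow, div_div_eq_mul_div, eq_comm, eq_div_iff he, h5]
      generalize ‖y z‖ ^ 2 = t at hn
      field_simp


end Main

end Crest.Agent.R272.UnLiou_311
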