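import Mathlib

-- ▼ part R272/Unif2_903
section

/-!
# R272, UNIF (helper903), file 2: Moebius maps of the disc, local isometries, rigidity
-/

set_option autoImplicit false

open Set Filter Topology Complex Metric

open scoped ComplexConjugate

namespace Crest.Agent.R272.Unif_903

/-- the disc automorphism `z ↦ (z - a) / (1 - ā z)` -/
noncomputable def mob (a z : ℂ) : ℂ := (z - a) / (1 - conj a * z)

/-- `h` is an infinitesimal isometry of the Poincare metric at `w` -/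
def Iso (h : ℂ → ℂ) (w : ℂ) : Prop :=
  DifferentiableAt ℂ h w ∧ ‖deriv h w‖ * (1 - ‖w‖ ^ 2) = 1 - ‖h w‖ ^ 2

theorem den_ne {a z : ℂ} (ha : ‖a‖ < 1) (hz : ‖z‖ < 1) : 1 - conj a * z ≠ 0 := by
  intro h
  have h1 : conj a * z = 1 := (sub_eq_zero.mp h).symm
  have h2 : ‖a‖ * ‖z‖ = 1 := by
    rw [← norm_conj a, ← norm_mul, h1, norm_one]
  nlinarith [norm_nonneg a, norm_nonneg z]

theorem one_sub_sq_pos {a : ℂ} (ha : ‖a‖ < 1) : 0 < 1 - ‖a‖ ^ 2 := by
  nlinarith [norm_nonneg a]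

theorem mob_key (a z : ℂ) :
    ‖1 - conj a * z‖ ^ 2 - ‖z - a‖ ^ 2 = (1 - ‖a‖ ^ 2) * (1 - ‖z‖ ^ 2) := by
  simp only [← Complex.normSq_eq_norm_sq, Complex.normSq_apply]
  simp
  ring

theorem one_sub_norm_mob {a z : ℂ} (ha : ‖a‖ < 1) (hz : ‖z‖ < 1) :
    1 - ‖mob a z‖ ^ 2 = (1 - ‖a‖ ^ 2) * (1 - ‖z‖ ^ 2) / ‖1 - conj a * z‖ ^ 2 := by
  have h := norm_ne_zero_iff.mpr (den_ne ha hz)
  rw [mob, norm_div, div_pow, ← mob_key, sub_div, div_self (pow_ne_zero 2 h)]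

theorem norm_mob_lt {a z : ℂ} (ha : ‖a‖ < 1) (hz : ‖z‖ < 1) : ‖mob a z‖ < 1 := by
  have h1 : 0 < 1 - ‖mob a z‖ ^ 2 := by
    rw [one_sub_norm_mob ha hz]
    have := norm_pos_iff.mpr (den_ne ha hz)
    have := one_sub_sq_pos ha
    have := one_sub_sq_pos hz
    positivity
  nlinarith [norm_nonneg (mob a z)]

theorem hasDerivAt_mob {a z : ℂ} (ha : ‖a‖ < 1) (hz : ‖z‖ < 1) :
    HasDerivAt (mob a) (((1 - ‖a‖ ^ 2 : ℝ) : ℂ) / (1 - conj a * z) ^ 2) z := by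
  have h := den_ne ha hz
  have h1 : HasDerivAt (fun z => z - a) 1 z := (hasDerivAt_id z).sub_const a
  have h2 : HasDerivAt (fun z => 1 - conj a * z) (-(conj a * 1)) z :=
    ((hasDerivAt_id z).const_mul (conj a)).const_sub 1
  refine (h1.div h2 h).congr_deriv ?_
  congr 1
  have h3 : (((1 - ‖a‖ ^ 2 : ℝ)) : ℂ) = 1 - a * conj a := by
    rw [Complex.mul_conj, Complex.normSq_eq_norm_sq]
    push_cast
    ring
  rw [h3]
  ring

theorem iso_mob {a z : ℂ} (ha : ‖a‖ < 1) (hz : ‖z‖ < 1) : Iso (mob a) z := by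
  have h := hasDerivAt_mob ha hz
  refine ⟨h.differentiableAt, ?_⟩
  rw [h.deriv, one_sub_norm_mob ha hz, norm_div, norm_pow, Complex.norm_real,
    Real.norm_of_nonneg (one_sub_sq_pos ha).le]
  ring

theorem iso_rot {c : ℂ} (hc : ‖c‖ = 1) (z : ℂ) : Iso (fun z => c * z) z := by
  have h : HasDerivAt (fun z => c * z) (c * 1) z := (hasDerivAt_id z).const_mul c
  refine ⟨h.differentiableAt, ?_⟩
  rw [h.deriv, norm_mul, norm_mul, hc, norm_one]
  ring

theorem Iso.comp {g h : ℂ → ℂ} {w : ℂ} (hg : Iso g (h w)) (hh : Iso h w) : Iso (g ∘ h) w := by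
  refine ⟨hg.1.comp w hh.1, ?_⟩
  rw [deriv_comp w hg.1 hh.1, norm_mul, mul_assoc, hh.2, hg.2]
  rfl

theorem Iso.congr {g h : ℂ → ℂ} {w : ℂ} (hh : Iso h w) (he : h =ᶠ[𝓝 w] g) : Iso g w := by
  refine ⟨hh.1.congr_of_eventuallyEq he.symm, ?_⟩
  rw [← he.deriv_eq, ← he.eq_of_nhds]
  exact hh.2

theorem mob_self (a : ℂ) : mob a a = 0 := by simp [mob]

theorem mob_zero (a : ℂ) : mob a 0 = -a := by simp [mob]

theorem mob_mob {a z : ℂ} (ha : ‖a‖ < 1) (hz : ‖z‖ < 1) : mob (-a) (mob a z) = z := by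
  have h1 := den_ne ha hz
  have h2 : 1 - a * conj a ≠ 0 := by
    have := den_ne ha ha
    rwa [mul_comm] at this
  have h3 : 1 - conj (-a) * mob a z = (1 - a * conj a) / (1 - conj a * z) := by
    rw [mob, map_neg, eq_div_iff h1, neg_mul, sub_neg_eq_add, add_mul, mul_assoc (conj a),
      div_mul_cancel₀ _ h1]
    ring
  have h4 : mob a z - -a = (1 - a * conj a) * z / (1 - conj a * z) := by
    rw [mob, eq_div_iff h1, sub_neg_eq_add, add_mul, div_mul_cancel₀ _ h1]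
    ring
  conv_lhs => rw [mob]
  rw [h3, h4, div_div_div_cancel_right₀ h1, mul_comm, mul_div_assoc, div_self h2, mul_one]

theorem mob_mob' {a z : ℂ} (ha : ‖a‖ < 1) (hz : ‖z‖ < 1) : mob a (mob (-a) z) = z := by
  have := mob_mob (a := -a) (z := z) (by rwa [norm_neg]) hz
  rwa [neg_neg] at this

theorem mob_eq_zero {a z : ℂ} (ha : ‖a‖ < 1) (hz : ‖z‖ < 1) : mob a z = 0 ↔ z = a := by
  rw [mob, div_eq_zero_iff, or_iff_left (den_ne ha hz), sub_eq_zero]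

theorem continuousAt_mob {a z : ℂ} (ha : ‖a‖ < 1) (hz : ‖z‖ < 1) : ContinuousAt (mob a) z :=
  (hasDerivAt_mob ha hz).continuousAt

/-- an isometric germ fixing `0` does not increase the modulus -/
theorem norm_le_of_iso {g : ℂ → ℂ} {r : ℝ} (hr1 : r ≤ 1)
    (hg : ∀ z ∈ ball (0:ℂ) r, Iso g z) (hg1 : ∀ z ∈ ball (0:ℂ) r, ‖g z‖ < 1) (h0 : g 0 = 0)
    {z : ℂ} (hz : z ∈ ball (0:ℂ) r) : ‖g z‖ ≤ ‖z‖ := by
  by_cases hgz : g z = 0
  · rw [hgz, norm_zero]; exact norm_nonneg z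
  have hgn : 0 < ‖g z‖ := norm_pos_iff.mpr hgz
  set e : ℂ := conj (g z) / ‖g z‖ with he
  have hen : ‖e‖ = 1 := by
    rw [he, norm_div, norm_conj, Complex.norm_real, norm_norm, div_self hgn.ne']
  have heg : e * g z = ‖g z‖ := by
    rw [he, div_mul_eq_mul_div, mul_comm, Complex.mul_conj, Complex.normSq_eq_norm_sq]
    have : ((‖g z‖ : ℝ) : ℂ) ≠ 0 := Complex.ofReal_ne_zero.mpr hgn.ne'
    push_cast
    field_simp
  set l : ℝ := ‖z‖ with hl
  have hl0 : 0 ≤ l := norm_nonneg z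
  have hlr : l < r := by simpa using hz
  have hl1 : l < 1 := hlr.trans_le hr1
  let k : ℝ → ℝ := fun t => (e * g (t * z)).re
  have hin : ∀ t ∈ Icc (0:ℝ) 1, (t : ℂ) * z ∈ ball (0:ℂ) r := by
    intro t ht
    rw [mem_ball_zero_iff, norm_mul, Complex.norm_real, Real.norm_of_nonneg ht.1]
    calc t * ‖z‖ ≤ 1 * ‖z‖ := mul_le_mul_of_nonneg_right ht.2 (norm_nonneg z)
      _ < r := by rw [one_mul]; exact hlr
  have hk : ∀ t ∈ Icc (0:ℝ) 1, HasDerivAt k ((e * (deriv g (t * z) * z)).re) t := by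
    intro t ht
    have h1 : HasDerivAt (fun s : ℂ => s * z) z (t : ℂ) := by
      simpa using (hasDerivAt_id (t : ℂ)).mul_const z
    have h2 := ((hg _ (hin t ht)).1.hasDerivAt.comp (t : ℂ) h1).const_mul e
    exact h2.real_of_complex
  have hkn : ∀ t, |k t| ≤ ‖g (t * z)‖ := by
    intro t
    calc |k t| ≤ ‖e * g (t * z)‖ := Complex.abs_re_le_norm _
      _ = ‖g (t * z)‖ := by rw [norm_mul, hen, one_mul]
  have hk1 : ∀ t ∈ Icc (0:ℝ) 1, |k t| < 1 := fun t ht => (hkn t).trans_lt (hg1 _ (hin t ht))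
  have hden : ∀ t ∈ Icc (0:ℝ) 1, 0 < 1 - t * l * k t := by
    intro t ht
    have h1 := abs_lt.mp (hk1 t ht)
    have h2 : 0 ≤ t * l := mul_nonneg ht.1 hl0
    have h3 : t * l < 1 := by nlinarith [ht.2]
    nlinarith
  have hineq : ∀ t ∈ Icc (0:ℝ) 1,
      (e * (deriv g (t * z) * z)).re * (1 - (t * l) ^ 2) ≤ l * (1 - k t ^ 2) := by
    intro t ht
    have h1 : (e * (deriv g (t * z) * z)).re ≤ ‖deriv g (t * z)‖ * l := by
      refine (Complex.re_le_norm _).trans ?_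
      rw [norm_mul, norm_mul, hen, one_mul]
    have h2 := (hg _ (hin t ht)).2
    have h3 : ‖(t : ℂ) * z‖ = t * l := by
      rw [norm_mul, Complex.norm_real, Real.norm_of_nonneg ht.1]
    rw [h3] at h2
    have h4 : 0 < 1 - (t * l) ^ 2 := by
      have h5 : 0 ≤ t * l := mul_nonneg ht.1 hl0
      have h6 : t * l < 1 := by nlinarith [ht.2]
      nlinarith
    have h7 : k t ^ 2 ≤ ‖g (t * z)‖ ^ 2 := by
      rw [← sq_abs]
      exact pow_le_pow_left₀ (abs_nonneg _) (hkn t) 2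
    calc (e * (deriv g (t * z) * z)).re * (1 - (t * l) ^ 2)
        ≤ (‖deriv g (t * z)‖ * l) * (1 - (t * l) ^ 2) :=
          mul_le_mul_of_nonneg_right h1 h4.le
      _ = l * (1 - ‖g (t * z)‖ ^ 2) := by rw [← h2]; ring
      _ ≤ l * (1 - k t ^ 2) := mul_le_mul_of_nonneg_left (by linarith) hl0
  let ψ : ℝ → ℝ := fun t => (t * l - k t) / (1 - t * l * k t)
  have hψ : ∀ t ∈ Icc (0:ℝ) 1, HasDerivAt ψ
      ((l * (1 - k t ^ 2) - (e * (deriv g (t * z) * z)).re * (1 - (t * l) ^ 2)) /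
        (1 - t * l * k t) ^ 2) t := by
    intro t ht
    have h1 : HasDerivAt (fun t : ℝ => t * l) l t := by
      simpa using (hasDerivAt_id t).mul_const l
    have h2 := h1.sub (hk t ht)
    have h3 := (h1.mul (hk t ht)).const_sub 1
    refine (h2.div h3 (hden t ht).ne').congr_deriv ?_
    congr 1
    simp only [Pi.sub_apply, Pi.mul_apply]
    ring
  have hmono : MonotoneOn ψ (Icc 0 1) := by
    refine monotoneOn_of_deriv_nonneg (convex_Icc 0 1)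
      (fun t ht => (hψ t ht).continuousAt.continuousWithinAt) (fun t ht => ?_) (fun t ht => ?_)
    · rw [interior_Icc] at ht
      exact (hψ t (Ioo_subset_Icc_self ht)).differentiableAt.differentiableWithinAt
    · rw [interior_Icc] at ht
      have ht' := Ioo_subset_Icc_self ht
      rw [(hψ t ht').deriv]
      exact div_nonneg (sub_nonneg.mpr (hineq t ht')) (sq_nonneg _)
  have h01 := hmono (left_mem_Icc.mpr zero_le_one) (right_mem_Icc.mpr zero_le_one) zero_le_one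
  have hψ0 : ψ 0 = 0 := by
    simp only [ψ, k]
    simp [h0]
  have hk11 : k 1 = ‖g z‖ := by
    simp only [k]
    rw [Complex.ofReal_one, one_mul, heg, Complex.ofReal_re]
  rw [hψ0] at h01
  have h2 : 0 ≤ 1 * l - k 1 := by
    by_contra hcon
    push Not at hcon
    exact absurd h01 (not_le.mpr (div_neg_of_neg_of_pos hcon
      (hden 1 (right_mem_Icc.mpr zero_le_one))))
  rw [hk11] at h2
  linarith

/-- an isometric germ fixing `0` is a rotation -/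
theorem rigid0 {g : ℂ → ℂ} (hg : ∀ᶠ z in 𝓝 (0:ℂ), Iso g z) (h0 : g 0 = 0) :
    ∃ c : ℂ, ‖c‖ = 1 ∧ ∀ᶠ z in 𝓝 (0:ℂ), g z = c * z := by
  have hI : Iso g 0 := hg.self_of_nhds
  have hsm : ∀ᶠ z in 𝓝 (0:ℂ), ‖g z‖ < 1 := by
    have : Tendsto (fun z => ‖g z‖) (𝓝 0) (𝓝 0) := by
      have h1 := hI.1.continuousAt.norm
      rw [ContinuousAt, h0, norm_zero] at h1
      exact h1
    exact this.eventually (gt_mem_nhds one_pos)
  obtain ⟨r, hr, hrs⟩ := Metric.eventually_nhds_iff_ball.mp (hg.and hsm)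
  set R := min r 1 with hR
  have hR0 : 0 < R := lt_min hr one_pos
  have hR1 : R ≤ 1 := min_le_right _ _
  have hsub : ball (0:ℂ) R ⊆ ball 0 r := ball_subset_ball (min_le_left _ _)
  have hle : ∀ z ∈ ball (0:ℂ) R, ‖g z‖ ≤ ‖z‖ := fun z hz =>
    norm_le_of_iso hR1 (fun z hz => (hrs z (hsub hz)).1) (fun z hz => (hrs z (hsub hz)).2) h0 hz
  have hd : DifferentiableOn ℂ g (ball 0 R) := fun z hz =>
    (hrs z (hsub hz)).1.1.differentiableWithinAt
  have hn : ‖deriv g 0‖ = 1 := by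
    have := hI.2
    rw [h0, norm_zero] at this
    linarith
  refine ⟨deriv g 0, hn, ?_⟩
  have hE := affine_of_mapsTo_ball_of_norm_dslope_eq_div (f := g) (c := 0) (R₁ := R) (R₂ := R)
    (z₀ := 0) hd (fun z hz => by
      rw [h0, mem_closedBall_zero_iff]
      exact (hle z hz).trans (le_of_lt (by simpa using hz))) (mem_ball_self hR0) (by
      rw [dslope_same, hn, div_self hR0.ne'])
  filter_upwards [ball_mem_nhds (0:ℂ) hR0] with z hz
  have := hE hz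
  simp only [dslope_same, h0, sub_zero, zero_add, smul_eq_mul] at this
  rw [this, mul_comm]

theorem mob_comp_alg {w s c z : ℂ} (hw : ‖w‖ < 1) (hs : ‖s‖ < 1) (hc : ‖c‖ = 1) :
    ∃ a c' : ℂ, ‖a‖ < 1 ∧ ‖c'‖ = 1 ∧ ∀ z, ‖z‖ < 1 → mob (-s) (c * mob w z) = c' * mob a z := by
  have hcc : conj c * c = 1 := by
    rw [mul_comm, Complex.mul_conj, Complex.normSq_eq_norm_sq, hc]; simp
  set b := conj c * s with hb
  have hbn : ‖b‖ < 1 := by rw [hb, norm_mul, norm_conj, hc, one_mul]; exact hs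
  have hsb : s = c * b := by rw [hb, ← mul_assoc, mul_comm c, hcc, one_mul]
  have h1 : 1 - conj b * w ≠ 0 := den_ne hbn hw
  have h2 : 1 - b * conj w ≠ 0 := by
    have := den_ne hw hbn
    rwa [mul_comm (conj w)] at this
  have h12 : ‖1 - b * conj w‖ = ‖1 - conj b * w‖ := by
    rw [← norm_conj (1 - conj b * w)]
    simp
  refine ⟨(w - b) / (1 - b * conj w), c * ((1 - b * conj w) / (1 - conj b * w)), ?_, ?_, ?_⟩
  · rw [norm_div, h12, ← norm_div]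
    exact norm_mob_lt hbn hw
  · rw [norm_mul, norm_div, hc, h12, one_mul, div_self (norm_ne_zero_iff.mpr h1)]
  · intro z hz
    have h3 : 1 - conj w * z ≠ 0 := den_ne hw hz
    have hna : ‖(w - b) / (1 - b * conj w)‖ < 1 := by
      rw [norm_div, h12, ← norm_div]
      exact norm_mob_lt hbn hw
    have h4 := den_ne hna hz
    have hca : conj ((w - b) / (1 - b * conj w)) = (conj w - conj b) / (1 - conj b * w) := by
      simp
    have h5 : 1 - conj w * z + conj b * (z - w) ≠ 0 := by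
      rw [hca] at h4
      intro h
      apply h4
      field_simp
      linear_combination h
    have h6 : conj s * c = conj b := by
      rw [hb]; simp [mul_comm]
    have h7 : 1 - conj (-s) * (c * mob w z)
        = (1 - conj w * z + conj b * (z - w)) / (1 - conj w * z) := by
      rw [map_neg, neg_mul, sub_neg_eq_add, ← mul_assoc, h6, mob, eq_div_iff h3, add_mul,
        mul_assoc (conj b), div_mul_cancel₀ _ h3]
      ring
    have h8 : c * mob w z - -s = c * (z - w + b * (1 - conj w * z)) / (1 - conj w * z) := by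
      rw [hsb, mob, eq_div_iff h3, sub_neg_eq_add, add_mul, mul_assoc c ((z - w) / _),
        div_mul_cancel₀ _ h3]
      ring
    conv_lhs => rw [mob, h7, h8, div_div_div_cancel_right₀ h3]
    rw [mob, hca]
    rw [hca] at h4
    have h9 : z - (w - b) / (1 - b * conj w) = (z * (1 - b * conj w) - (w - b)) / (1 - b * conj w) := by
      rw [eq_div_iff h2, sub_mul, div_mul_cancel₀ _ h2]
    have h10 : 1 - (conj w - conj b) / (1 - conj b * w) * z
        = (1 - conj w * z + conj b * (z - w)) / (1 - conj b * w) := by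
      rw [eq_div_iff h1, sub_mul, one_mul, mul_assoc, mul_comm z, ← mul_assoc,
        div_mul_cancel₀ _ h1]
      ring
    rw [h9, h10]
    obtain ⟨D1, hD1⟩ : ∃ D, D = 1 - conj b * w := ⟨_, rfl⟩
    obtain ⟨D2, hD2⟩ : ∃ D, D = 1 - b * conj w := ⟨_, rfl⟩
    obtain ⟨D3, hD3⟩ : ∃ D, D = 1 - conj w * z + conj b * (z - w) := ⟨_, rfl⟩
    rw [← hD1, ← hD2, ← hD3]
    rw [← hD1] at h1
    rw [← hD2] at h2
    rw [← hD3] at h5
    field_simp
    rw [hD2]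
    ring

theorem normal {h : ℂ → ℂ} {w : ℂ} (hw : ‖w‖ < 1) (hh : ∀ᶠ z in 𝓝 w, Iso h z)
    (hs : ‖h w‖ < 1) : ∃ a c : ℂ, ‖a‖ < 1 ∧ ‖c‖ = 1 ∧ ∀ᶠ z in 𝓝 w, h z = c * mob a z := by
  have hw' : ‖-w‖ < 1 := by rwa [norm_neg]
  have hball : ∀ᶠ x in 𝓝 (0:ℂ), ‖x‖ < 1 := by
    have := ball_mem_nhds (0:ℂ) one_pos
    filter_upwards [this] with x hx
    simpa using hx
  have hcont : Tendsto (mob (-w)) (𝓝 0) (𝓝 w) := by
    have := (continuousAt_mob hw' (by simp : ‖(0:ℂ)‖ < 1))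
    rw [ContinuousAt, mob_zero, neg_neg] at this
    exact this
  have hhs : ∀ᶠ z in 𝓝 w, ‖h z‖ < 1 :=
    hh.self_of_nhds.1.continuousAt.norm.eventually (gt_mem_nhds hs)
  have hg : ∀ᶠ x in 𝓝 (0:ℂ), Iso (mob (h w) ∘ h ∘ mob (-w)) x := by
    filter_upwards [hball, hcont.eventually (hh.and hhs)] with x h1 h2
    exact Iso.comp (iso_mob hs h2.2) (Iso.comp h2.1 (iso_mob hw' h1))
  have hg0 : (mob (h w) ∘ h ∘ mob (-w)) 0 = 0 := by
    simp [mob_zero, mob_self]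
  obtain ⟨c, hc, hcE⟩ := rigid0 hg hg0
  obtain ⟨a, c', ha, hc', hE⟩ := mob_comp_alg (z := 0) hw hs hc
  refine ⟨a, c', ha, hc', ?_⟩
  have hcont2 : Tendsto (mob w) (𝓝 w) (𝓝 0) := by
    have := continuousAt_mob hw hw
    rw [ContinuousAt, mob_self] at this
    exact this
  have hwz : ∀ᶠ z in 𝓝 w, ‖z‖ < 1 := continuous_norm.continuousAt.eventually (gt_mem_nhds hw)
  filter_upwards [hcont2.eventually hcE, hwz, hhs] with z h1 h2 h3
  simp only [Function.comp_apply] at h1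
  rw [mob_mob hw h2] at h1
  rw [← hE z h2, ← h1, mob_mob hs h3]

end Crest.Agent.R272.Unif_903
end

-- ▼ part R272/Unif3_903

/-!
# R272, UNIF (helper903), file 3: hyperbolic surfaces, rigidity, uniform radius
-/

set_option autoImplicit false

open Set Filter Topology Complex Metric

open scoped ComplexConjugate

namespace Crest.Agent.R272.Unif_903

/-- pseudo-hyperbolic ball -/
def Bh (a : ℂ) (ε : ℝ) : Set ℂ := {z | ‖z‖ < 1 ∧ ‖mob a z‖ < ε}

theorem mem_Bh_iff {a : ℂ} (ha : ‖a‖ < 1) {ε : ℝ} (h0 : 0 < ε) (h1 : ε < 1) (z : ℂ) :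
    z ∈ Bh a ε ↔ ‖z - a‖ ^ 2 < ε ^ 2 * ‖1 - conj a * z‖ ^ 2 := by
  constructor
  · rintro ⟨hz, hm⟩
    have hd := norm_pos_iff.mpr (den_ne ha hz)
    rw [mob, norm_div, div_lt_iff₀ hd] at hm
    rw [← mul_pow]
    exact pow_lt_pow_left₀ hm (norm_nonneg _) two_ne_zero
  · intro h
    have hk := mob_key a z
    have h2 : 0 < (1 - ‖a‖ ^ 2) * (1 - ‖z‖ ^ 2) := by
      have : ε ^ 2 ≤ 1 := by nlinarith
      nlinarith [sq_nonneg ‖1 - conj a * z‖]
    have h3 : 0 < 1 - ‖z‖ ^ 2 := (mul_pos_iff_of_pos_left (one_sub_sq_pos ha)).mp h2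
    have hz : ‖z‖ < 1 := by nlinarith [norm_nonneg z]
    refine ⟨hz, ?_⟩
    have hd := norm_pos_iff.mpr (den_ne ha hz)
    rw [mob, norm_div, div_lt_iff₀ hd]
    rw [← mul_pow] at h
    exact lt_of_pow_lt_pow_left₀ 2 (by positivity) h

theorem Bh_eq {a : ℂ} (ha : ‖a‖ < 1) {ε : ℝ} (h0 : 0 < ε) (h1 : ε < 1) :
    ∃ (c : ℂ) (r : ℝ), Bh a ε = ball c r := by
  have hA : 0 < 1 - ε ^ 2 * ‖a‖ ^ 2 := by
    have h2 : ε ^ 2 < 1 := by nlinarith
    have h3 := one_sub_sq_pos ha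
    nlinarith [sq_nonneg ‖a‖]
  refine ⟨(((1 - ε ^ 2) / (1 - ε ^ 2 * ‖a‖ ^ 2) : ℝ) : ℂ) * a,
    ε * (1 - ‖a‖ ^ 2) / (1 - ε ^ 2 * ‖a‖ ^ 2), ?_⟩
  ext z
  rw [mem_Bh_iff ha h0 h1, mem_ball, dist_eq_norm]
  have hr : 0 < ε * (1 - ‖a‖ ^ 2) / (1 - ε ^ 2 * ‖a‖ ^ 2) := by
    have := one_sub_sq_pos ha
    positivity
  rw [← sq_lt_sq₀ (norm_nonneg _) hr.le]
  set κ := (1 - ε ^ 2) / (1 - ε ^ 2 * ‖a‖ ^ 2) with hκ
  have hκ' : κ * (1 - ε ^ 2 * ‖a‖ ^ 2) = 1 - ε ^ 2 := div_mul_cancel₀ _ hA.ne'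
  have key : (‖z - (κ : ℂ) * a‖ ^ 2 - (ε * (1 - ‖a‖ ^ 2) / (1 - ε ^ 2 * ‖a‖ ^ 2)) ^ 2) *
      (1 - ε ^ 2 * ‖a‖ ^ 2) = ‖z - a‖ ^ 2 - ε ^ 2 * ‖1 - conj a * z‖ ^ 2 := by
    have e1 : (ε * (1 - ‖a‖ ^ 2) / (1 - ε ^ 2 * ‖a‖ ^ 2)) ^ 2 * (1 - ε ^ 2 * ‖a‖ ^ 2)
        = ε ^ 2 * (1 - ‖a‖ ^ 2) ^ 2 / (1 - ε ^ 2 * ‖a‖ ^ 2) := by
      field_simp
    have e2 : ε ^ 2 * (1 - ‖a‖ ^ 2) ^ 2 / (1 - ε ^ 2 * ‖a‖ ^ 2)
        = κ * (1 - ε ^ 2) * ‖a‖ ^ 2 - (‖a‖ ^ 2 - ε ^ 2) := by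
      rw [div_eq_iff hA.ne']
      have : κ * (1 - ε ^ 2) * ‖a‖ ^ 2 * (1 - ε ^ 2 * ‖a‖ ^ 2)
        = (κ * (1 - ε ^ 2 * ‖a‖ ^ 2)) * (1 - ε ^ 2) * ‖a‖ ^ 2 := by ring
      rw [sub_mul, this, hκ']
      ring
    rw [sub_mul, e1, e2]
    have e3 : ‖z - (κ : ℂ) * a‖ ^ 2 = ‖z‖ ^ 2 - 2 * κ * (z.re * a.re + z.im * a.im)
        + κ ^ 2 * ‖a‖ ^ 2 := by
      simp only [← Complex.normSq_eq_norm_sq, Complex.normSq_apply]
      simp
      ring
    have e4 : ‖z - a‖ ^ 2 = ‖z‖ ^ 2 - 2 * (z.re * a.re + z.im * a.im) + ‖a‖ ^ 2 := by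
      simp only [← Complex.normSq_eq_norm_sq, Complex.normSq_apply]
      simp
      ring
    have e5 : ‖1 - conj a * z‖ ^ 2 = 1 - 2 * (z.re * a.re + z.im * a.im) + ‖a‖ ^ 2 * ‖z‖ ^ 2 := by
      simp only [← Complex.normSq_eq_norm_sq, Complex.normSq_apply]
      simp
      ring
    rw [e3, e4, e5]
    linear_combination (-2 * (z.re * a.re + z.im * a.im) + κ * ‖a‖ ^ 2) * hκ'
  constructor
  · intro h
    have : (‖z - (κ : ℂ) * a‖ ^ 2 - (ε * (1 - ‖a‖ ^ 2) / (1 - ε ^ 2 * ‖a‖ ^ 2)) ^ 2) *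
      (1 - ε ^ 2 * ‖a‖ ^ 2) < 0 := by rw [key]; linarith
    nlinarith
  · intro h
    have h2 : (‖z - (κ : ℂ) * a‖ ^ 2 - (ε * (1 - ‖a‖ ^ 2) / (1 - ε ^ 2 * ‖a‖ ^ 2)) ^ 2) *
      (1 - ε ^ 2 * ‖a‖ ^ 2) < 0 := mul_neg_of_neg_of_pos (by linarith) hA
    rw [key] at h2
    linarith

theorem isOpen_Bh {a : ℂ} (ha : ‖a‖ < 1) {ε : ℝ} (h0 : 0 < ε) (h1 : ε < 1) : IsOpen (Bh a ε) := by
  obtain ⟨c, r, h⟩ := Bh_eq ha h0 h1
  rw [h]; exact isOpen_ball

theorem convex_Bh {a : ℂ} (ha : ‖a‖ < 1) {ε : ℝ} (h0 : 0 < ε) (h1 : ε < 1) :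
    Convex ℝ (Bh a ε) := by
  obtain ⟨c, r, h⟩ := Bh_eq ha h0 h1
  rw [h]; exact convex_ball c r

theorem self_mem_Bh {a : ℂ} (ha : ‖a‖ < 1) {ε : ℝ} (h0 : 0 < ε) : a ∈ Bh a ε :=
  ⟨ha, by rwa [mob_self, norm_zero]⟩

/-- a hyperbolic structure: charts in the disc with isometric holomorphic transitions -/
structure PH (M : Type*) [TopologicalSpace M] where
  ι : Type
  ch : ι → OpenPartialHomeomorph M ℂ
  cov : ∀ x, ∃ j, x ∈ (ch j).source
  tgt : ∀ j, (ch j).target ⊆ ball 0 1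
  iso : ∀ i j, ∀ z ∈ (ch i).target, (ch i).symm z ∈ (ch j).source → Iso (ch j ∘ (ch i).symm) z

variable {M : Type*} [TopologicalSpace M]

/-- `p` is an infinitesimal isometry at `w` -/
def IsoM (X : PH M) (p : ℂ → M) (w : ℂ) : Prop :=
  ContinuousAt p w ∧ ∀ j, p w ∈ (X.ch j).source → Iso (X.ch j ∘ p) w

theorem IsoM.congr {X : PH M} {p q : ℂ → M} {w : ℂ} (h : IsoM X p w) (he : p =ᶠ[𝓝 w] q) :
    IsoM X q w := by
  refine ⟨h.1.congr he, fun j hj => ?_⟩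
  rw [← he.eq_of_nhds] at hj
  exact (h.2 j hj).congr (he.fun_comp _)

theorem IsoM.comp {X : PH M} {p : ℂ → M} {A : ℂ → ℂ} {w : ℂ} (h : IsoM X p (A w))
    (hA : Iso A w) : IsoM X (p ∘ A) w :=
  ⟨h.1.comp hA.1.continuousAt, fun j hj => Iso.comp (g := X.ch j ∘ p) (h.2 j hj) hA⟩


/-- charts compatible with the hyperbolic structure -/
structure Good (X : PH M) (f : OpenPartialHomeomorph M ℂ) : Prop where
  tgt : f.target ⊆ ball 0 1
  symm : ∀ z ∈ f.target, IsoM X f.symm z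
  iso : ∀ (p : ℂ → M) (w : ℂ), IsoM X p w → p w ∈ f.source → Iso (f ∘ p) w

/-- the Moebius map as a partial homeomorphism -/
noncomputable def mobH (a : ℂ) (ha : ‖a‖ < 1) : OpenPartialHomeomorph ℂ ℂ where
  toFun := mob a
  invFun := mob (-a)
  source := ball 0 1
  target := ball 0 1
  map_source' z hz := by
    rw [mem_ball_zero_iff] at hz ⊢
    exact norm_mob_lt ha hz
  map_target' z hz := by
    rw [mem_ball_zero_iff] at hz ⊢
    exact norm_mob_lt (by rwa [norm_neg]) hz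
  left_inv' z hz := mob_mob ha (by simpa using hz)
  right_inv' z hz := mob_mob' ha (by simpa using hz)
  open_source := isOpen_ball
  open_target := isOpen_ball
  continuousOn_toFun := fun z hz =>
    (continuousAt_mob ha (by simpa using hz)).continuousWithinAt
  continuousOn_invFun := fun z hz =>
    (continuousAt_mob (by rwa [norm_neg]) (by simpa using hz)).continuousWithinAt

/-- centred chart with target a ball -/
theorem exists_centred (X : PH M) {m : M} {j : X.ι} (hm : m ∈ (X.ch j).source) {ε : ℝ}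
    (h0 : 0 < ε) (h1 : ε ≤ 1) (hball : ∀ z, ‖z‖ < ε → mob (-(X.ch j m)) z ∈ (X.ch j).target) :
    ∃ f : OpenPartialHomeomorph M ℂ, Good X f ∧ m ∈ f.source ∧ f m = 0 ∧ f.target = ball 0 ε := by
  have hc : ‖X.ch j m‖ < 1 := by
    simpa using X.tgt j ((X.ch j).map_source hm)
  have hc' : ‖-(X.ch j m)‖ < 1 := by rwa [norm_neg]
  set c := X.ch j m with hcdef
  let f : OpenPartialHomeomorph M ℂ :=
    ((X.ch j).trans (mobH c hc)).trans (OpenPartialHomeomorph.ofSet (ball 0 ε) isOpen_ball)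
  have hfx : ∀ x, f x = mob c (X.ch j x) := fun x => rfl
  have hfs : ∀ z, f.symm z = (X.ch j).symm (mob (-c) z) := fun z => rfl
  have htgt : f.target = ball 0 ε := by
    ext z
    simp only [f, OpenPartialHomeomorph.trans_target, OpenPartialHomeomorph.ofSet_target,
      mem_inter_iff, mem_preimage, OpenPartialHomeomorph.ofSet_symm,
      OpenPartialHomeomorph.ofSet_apply, id]
    constructor
    · exact fun h => h.1
    · intro h
      have hz : ‖z‖ < ε := by simpa using h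
      refine ⟨h, ?_, hball z hz⟩
      show z ∈ ball (0:ℂ) 1
      simpa using hz.trans_le h1
  have hsrc : ∀ x, x ∈ f.source ↔ x ∈ (X.ch j).source ∧ ‖mob c (X.ch j x)‖ < ε := by
    intro x
    simp only [f, OpenPartialHomeomorph.trans_source, OpenPartialHomeomorph.ofSet_source,
      mem_inter_iff, mem_preimage]
    constructor
    · rintro ⟨⟨h2, h3⟩, h4⟩
      exact ⟨h2, mem_ball_zero_iff.mp h4⟩
    · rintro ⟨h2, h3⟩
      exact ⟨⟨h2, X.tgt j ((X.ch j).map_source h2)⟩, by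
        show mob c (X.ch j x) ∈ ball (0:ℂ) ε
        simpa using h3⟩
  refine ⟨f, ⟨?_, ?_, ?_⟩, ?_, ?_, htgt⟩
  · rw [htgt]; exact ball_subset_ball h1
  · intro z hz
    rw [htgt] at hz
    have hz' : ‖z‖ < ε := by simpa using hz
    have hz1 : ‖z‖ < 1 := hz'.trans_le h1
    have ht : mob (-c) z ∈ (X.ch j).target := hball z hz'
    have h2 : IsoM X (X.ch j).symm (mob (-c) z) := by
      refine ⟨(X.ch j).symm.continuousAt ht, fun k hk => X.iso j k _ ht hk⟩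
    exact h2.comp (iso_mob hc' hz1)
  · intro p w hp hpw
    have h2 := (hsrc _).mp hpw
    have h3 := hp.2 j h2.1
    have h4 : ‖(X.ch j) (p w)‖ < 1 := by simpa using X.tgt j ((X.ch j).map_source h2.1)
    exact Iso.comp (g := mob c) (h := X.ch j ∘ p) (iso_mob hc h4) h3
  · rw [hsrc]
    refine ⟨hm, ?_⟩
    rw [mob_self, norm_zero]; exact h0
  · rw [hfx, mob_self]

theorem norm_mob_sub_le {c z : ℂ} (hc : ‖c‖ < 1) (hz : ‖z‖ < 1) :
    ‖mob (-c) z - c‖ ≤ 2 * ‖z‖ := by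
  have hc' : ‖-c‖ < 1 := by rwa [norm_neg]
  have hd := den_ne hc' hz
  have h1 : mob (-c) z - c = z * ((1 - ‖c‖ ^ 2 : ℝ) : ℂ) / (1 - conj (-c) * z) := by
    have h3 : (((1 - ‖c‖ ^ 2 : ℝ)) : ℂ) = 1 - c * conj c := by
      rw [Complex.mul_conj, Complex.normSq_eq_norm_sq]
      push_cast
      ring
    rw [h3, mob, eq_div_iff hd, sub_mul, div_mul_cancel₀ _ hd, map_neg]
    ring
  rw [h1, norm_div, norm_mul, Complex.norm_real, Real.norm_of_nonneg (one_sub_sq_pos hc).le]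
  have h4 : 1 - ‖c‖ ≤ ‖1 - conj (-c) * z‖ := by
    have h5 := norm_sub_norm_le (1:ℂ) (conj (-c) * z)
    rw [norm_one, norm_mul, norm_conj, norm_neg] at h5
    nlinarith [norm_nonneg c, norm_nonneg z]
  rw [div_le_iff₀ (norm_pos_iff.mpr hd)]
  have h6 : 0 < 1 - ‖c‖ := by linarith
  have h7 : ‖z‖ * (1 - ‖c‖ ^ 2) = ‖z‖ * (1 + ‖c‖) * (1 - ‖c‖) := by ring
  rw [h7]
  have h8 : ‖z‖ * (1 + ‖c‖) ≤ 2 * ‖z‖ := by nlinarith [norm_nonneg z, norm_nonneg c]
  exact mul_le_mul h8 h4 h6.le (by positivity)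

/-- uniform radius of the exponential maps -/
theorem exists_unif [CompactSpace M] (X : PH M) : ∃ ε : ℝ, 0 < ε ∧ ε < 1 ∧ ∀ m : M,
    ∃ f : OpenPartialHomeomorph M ℂ, Good X f ∧ m ∈ f.source ∧ f m = 0 ∧
      f.target = ball 0 ε := by
  choose j hj using X.cov
  have hδ : ∀ x, ∃ δ > 0, ball (X.ch (j x) x) δ ⊆ (X.ch (j x)).target := fun x =>
    Metric.isOpen_iff.mp (X.ch (j x)).open_target _ ((X.ch (j x)).map_source (hj x))
  choose δ hδ0 hδ using hδ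
  let V : M → Set M := fun x =>
    (X.ch (j x)).source ∩ (X.ch (j x)) ⁻¹' ball (X.ch (j x) x) (δ x / 2)
  have hV : ∀ x, V x ∈ 𝓝 x := fun x =>
    ((X.ch (j x)).isOpen_inter_preimage isOpen_ball).mem_nhds
      ⟨hj x, mem_ball_self (half_pos (hδ0 x))⟩
  obtain ⟨t, ht⟩ := CompactSpace.elim_nhds_subcover V hV
  obtain ⟨ε, hε0, hε1, hε⟩ : ∃ ε : ℝ, 0 < ε ∧ ε < 1 ∧ ∀ x ∈ t, ε ≤ δ x / 4 := by
    clear ht
    classical
    induction t using Finset.induction with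
    | empty => exact ⟨1 / 2, by norm_num, by norm_num, by simp⟩
    | insert a s _ ih =>
      obtain ⟨ε, h1, h2, h3⟩ := ih
      refine ⟨min ε (δ a / 4), lt_min h1 (by linarith [hδ0 a]), (min_le_left _ _).trans_lt h2, ?_⟩
      intro x hx
      rcases Finset.mem_insert.mp hx with rfl | hx
      · exact min_le_right _ _
      · exact (min_le_left _ _).trans (h3 x hx)
  refine ⟨ε, hε0, hε1, fun m => ?_⟩
  have hm : m ∈ ⋃ x ∈ t, V x := by rw [ht]; trivial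
  simp only [mem_iUnion] at hm
  obtain ⟨x, hx, hmx⟩ := hm
  have hc : ‖X.ch (j x) m‖ < 1 := by
    simpa using X.tgt (j x) ((X.ch (j x)).map_source hmx.1)
  refine exists_centred X hmx.1 hε0 hε1.le (fun z hz => hδ x ?_)
  have h1 := norm_mob_sub_le hc (hz.trans hε1)
  have h2 : dist (X.ch (j x) m) (X.ch (j x) x) < δ x / 2 := hmx.2
  rw [mem_ball]
  calc dist (mob (-(X.ch (j x) m)) z) (X.ch (j x) x)
      ≤ dist (mob (-(X.ch (j x) m)) z) (X.ch (j x) m) + dist (X.ch (j x) m) (X.ch (j x) x) :=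
        dist_triangle _ _ _
    _ < δ x := by
        rw [dist_eq_norm (mob _ z)]
        have := hε x hx
        linarith

/-- rigidity -/
theorem rigid [T2Space M] {X : PH M} {U : Set ℂ} (hU : IsOpen U) (hc : IsPreconnected U)
    {p q : ℂ → M} (hp : ∀ w ∈ U, IsoM X p w) (hq : ∀ w ∈ U, IsoM X q w) {w0 : ℂ} (h0 : w0 ∈ U)
    (he : p =ᶠ[𝓝 w0] q) : EqOn p q U := by
  let W : Set ℂ := {w | p =ᶠ[𝓝 w] q}
  have hW : IsOpen W := isOpen_setOfPred_eventually_nhds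
  have hsub : U ⊆ W := by
    refine hc.subset_of_closure_inter_subset hW ⟨w0, h0, he⟩ ?_
    rintro w ⟨hw, hwU⟩
    have hpq : p w = q w := by
      by_contra hne
      obtain ⟨A, B, hA, hB, hpA, hqB, hAB⟩ := t2_separation hne
      have h1 : ∀ᶠ z in 𝓝 w, p z ∈ A := (hp w hwU).1.eventually (hA.mem_nhds hpA)
      have h2 : ∀ᶠ z in 𝓝 w, q z ∈ B := (hq w hwU).1.eventually (hB.mem_nhds hqB)
      obtain ⟨z, hz1, hz2⟩ := mem_closure_iff_nhds.mp hw _ (h1.and h2)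
      have h3 : p z = q z := Filter.EventuallyEq.eq_of_nhds hz2
      exact Set.disjoint_left.mp hAB hz1.1 (h3 ▸ hz1.2)
    obtain ⟨j, hj⟩ := X.cov (p w)
    have e1 : ∀ᶠ z in 𝓝 w, z ∈ U ∧ p z ∈ (X.ch j).source ∧ q z ∈ (X.ch j).source := by
      have a1 := hU.mem_nhds hwU
      have a2 := (hp w hwU).1.eventually ((X.ch j).open_source.mem_nhds hj)
      have a3 := (hq w hwU).1.eventually ((X.ch j).open_source.mem_nhds (hpq ▸ hj))
      filter_upwards [a1, a2, a3] with z b1 b2 b3 using ⟨b1, b2, b3⟩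
    obtain ⟨r, hr, hr'⟩ := Metric.eventually_nhds_iff_ball.mp e1
    have d1 : DifferentiableOn ℂ (X.ch j ∘ p) (ball w r) := fun z hz =>
      ((hp z (hr' z hz).1).2 j (hr' z hz).2.1).1.differentiableWithinAt
    have d2 : DifferentiableOn ℂ (X.ch j ∘ q) (ball w r) := fun z hz =>
      ((hq z (hr' z hz).1).2 j (hr' z hz).2.2).1.differentiableWithinAt
    obtain ⟨z1, hz1, hz1W⟩ := mem_closure_iff_nhds.mp hw _ (ball_mem_nhds w hr)
    have e2 : (X.ch j ∘ p) =ᶠ[𝓝 z1] (X.ch j ∘ q) := Filter.EventuallyEq.fun_comp hz1W _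
    have e3 : EqOn (X.ch j ∘ p) (X.ch j ∘ q) (ball w r) :=
      (d1.analyticOnNhd isOpen_ball).eqOn_of_preconnected_of_eventuallyEq
        (d2.analyticOnNhd isOpen_ball) (convex_ball w r).isPreconnected hz1 e2
    show p =ᶠ[𝓝 w] q
    filter_upwards [ball_mem_nhds w hr] with z hz
    exact (X.ch j).injOn (hr' z hz).2.1 (hr' z hz).2.2 (e3 hz)
  exact fun w hw => (hsub hw).eq_of_nhds

/-- normal form of a local isometry in a good chart -/
theorem IsoM.normal {X : PH M} {p : ℂ → M} {w : ℂ} (hw : ‖w‖ < 1)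
    (hp : ∀ᶠ z in 𝓝 w, IsoM X p z) {f : OpenPartialHomeomorph M ℂ} (hf : Good X f)
    (hpw : p w ∈ f.source) : ∃ a c : ℂ, ‖a‖ < 1 ∧ ‖c‖ = 1 ∧ c * mob a w = f (p w) ∧
      ∀ᶠ z in 𝓝 w, p z = f.symm (c * mob a z) := by
  have h1 : ∀ᶠ z in 𝓝 w, p z ∈ f.source :=
    hp.self_of_nhds.1.eventually (f.open_source.mem_nhds hpw)
  have h2 : ∀ᶠ z in 𝓝 w, Iso (f ∘ p) z := by
    filter_upwards [hp, h1] with z a1 a2 using hf.iso p z a1 a2
  have h3 : ‖(f ∘ p) w‖ < 1 := by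
    simpa using hf.tgt (f.map_source hpw)
  obtain ⟨a, c, ha, hc, hE⟩ := Unif_903.normal hw h2 h3
  refine ⟨a, c, ha, hc, hE.self_of_nhds.symm, ?_⟩
  filter_upwards [h1, hE] with z a1 a2
  rw [← a2]
  exact (f.left_inv a1).symm

theorem isoM_model {X : PH M} {f : OpenPartialHomeomorph M ℂ} (hf : Good X f) {ε : ℝ}
    (ht : f.target = ball 0 ε) {a c : ℂ} (ha : ‖a‖ < 1) (hc : ‖c‖ = 1) {z : ℂ}
    (hz : z ∈ Bh a ε) : IsoM X (fun z => f.symm (c * mob a z)) z := by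
  have h1 : c * mob a z ∈ f.target := by
    rw [ht, mem_ball_zero_iff, norm_mul, hc, one_mul]; exact hz.2
  exact (hf.symm _ h1).comp (A := fun z => c * mob a z)
    (Iso.comp (g := fun z => c * z) (h := mob a) (iso_rot hc _) (iso_mob ha hz.1))

end Crest.Agent.R272.Unif_903
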