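import Crest.Agent.R272.Adp3_409
import Crest.Agent.R272.Pr1_414
import Crest.Agent.Lib.InjHolo
import Crest.Agent.R272.Root5_83
import Crest.Agent.R272.BlA2_266
import Crest.Agent.R272.NlB0_426

-- ▼ part R272/Adp4_409
section

/-!
# R272 (S0414), helper409: centres on a product of two curves

* `Cr1 A x t`     : `t` is a local coordinate of the curve at `x`; `Cr1.of_inj` (holomorphic and
                    injective near `x`), `Cr1.inj`;
* `hg_fst`, `hg_snd` : pull back of holomorphic germs to the product;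
* `crd_prod`      : the coordinates of the two curves are coordinates of the product;
* `prodNode`      : a `Node` at a point of the product.
-/

set_option autoImplicit false
set_option linter.unusedSectionVars false

open Set Filter Topology Metric
open scoped ContDiff Manifold

namespace Crest.Agent.R272.Adp_409

open Crest.Agent.R275.Geo Crest.Agent.R275.Core144 Crest.Agent.R275.GC293
open Crest.Agent.R275.Prod363
open Crest.Agent.R273.Map_835 Crest.Agent.R273.Fam_835 Crest.Agent.R273.PB_835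
open Crest.Agent.R273.Defs_333 Crest.Agent.R272.Refl_246 Crest.Agent.R272.DCov_426
open Crest.Agent.R272.Quot_783 Crest.Agent.R272.Root_83 Crest.Agent.R272.Blup1_102
open Crest.Agent.R272.BlA_266

noncomputable section

variable {M N : Type} [TopologicalSpace M] [TopologicalSpace N]

/-! ### local coordinates of a curve -/

/-- a local coordinate of a curve at `x` (derivative in one chart) -/
structure Cr1 (A : Atl 1 M) (x : M) (t : M → ℂ) : Prop where
  hol : HG (fam A) x t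
  ne : ∃ i, x ∈ (A.e i).source ∧ ∃ v, fderiv ℂ (fun z => t ((A.e i).symm z)) (A.e i x) v ≠ 0

theorem Cr1.congr {A : Atl 1 M} {x : M} {t t' : M → ℂ} (h : Cr1 A x t) (he : t =ᶠ[𝓝 x] t') :
    Cr1 A x t' := by
  refine ⟨h.hol.congr he, ?_⟩
  obtain ⟨i, hi, v, hv⟩ := h.ne
  refine ⟨i, hi, v, ?_⟩
  have h1 : (fun z => t ((A.e i).symm z)) =ᶠ[𝓝 (A.e i x)] fun z => t' ((A.e i).symm z) := by
    have h2 : Tendsto (A.e i).symm (𝓝 (A.e i x)) (𝓝 x) := by
      have := ((A.e i).continuousAt_symm ((A.e i).map_source hi)).tendsto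
      rwa [(A.e i).left_inv hi] at this
    exact h2.eventually he
  rwa [h1.fderiv_eq] at hv

/-- a linear form on a line which is not zero is injective -/
theorem lin_inj {L : Cn 1 →L[ℂ] ℂ} {v : Cn 1} (hv : L v ≠ 0) {w : Cn 1} (hw : L w = 0) : w = 0 := by
  have hv0 : v 0 ≠ 0 := by
    intro h
    apply hv
    have : v = 0 := by
      ext i
      rw [Subsingleton.elim i 0, h]
      rfl
    rw [this, map_zero]
  have h1 : w = (w 0 / v 0) • v := by
    ext i
    rw [Subsingleton.elim i 0, PiLp.smul_apply, smul_eq_mul, div_mul_cancel₀ _ hv0]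
  rw [h1, map_smul, smul_eq_mul] at hw
  have h2 : w 0 / v 0 = 0 := (mul_eq_zero.1 hw).resolve_right hv
  rw [h1, h2, zero_smul]

/-- every chart will do -/
theorem Cr1.all {A : Atl 1 M} {x : M} {t : M → ℂ} (h : Cr1 A x t) {j : A.ι}
    (hj : x ∈ (A.e j).source) : ∃ v, fderiv ℂ (fun z => t ((A.e j).symm z)) (A.e j x) v ≠ 0 := by
  obtain ⟨i, hi, v, hv⟩ := h.ne
  obtain ⟨U, hU, hxU, h1⟩ := h.hol
  have ht : DifferentiableAt ℂ (fun z => t ((A.e j).symm z)) (A.e j x) :=
    (h1 j).differentiableAt (((A.e j).isOpen_inter_preimage_symm hU).mem_nhds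
      ⟨(A.e j).map_source hj, by
        show (A.e j).symm (A.e j x) ∈ U
        rw [(A.e j).left_inv hj]; exact hxU⟩)
  have hz : A.e i x ∈ A.ov i j := ⟨(A.e i).map_source hi, by rw [(A.e i).left_inv hi]; exact hj⟩
  have hd : DifferentiableAt ℂ (fun z => A.e j ((A.e i).symm z)) (A.e i x) :=
    (A.holo i j).differentiableAt ((Crest.Agent.R275.GC293.isOpen_ov A i j).mem_nhds hz)
  have he : (fun z => t ((A.e i).symm z)) =ᶠ[𝓝 (A.e i x)]
      fun z => t ((A.e j).symm (A.e j ((A.e i).symm z))) := by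
    filter_upwards [(Crest.Agent.R275.GC293.isOpen_ov A i j).mem_nhds hz] with w hw
    rw [(A.e j).left_inv hw.2]
  refine ⟨fderiv ℂ (fun z => A.e j ((A.e i).symm z)) (A.e i x) v, ?_⟩
  have h3 : A.e j ((A.e i).symm (A.e i x)) = A.e j x := by rw [(A.e i).left_inv hi]
  have h4 := fderiv_comp (A.e i x) (g := fun z => t ((A.e j).symm z))
    (f := fun z => A.e j ((A.e i).symm z)) (by rw [h3]; exact ht) hd
  rw [he.fderiv_eq] at hv
  have h5 : fderiv ℂ (fun z => t ((A.e j).symm (A.e j ((A.e i).symm z)))) (A.e i x) =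
      (fderiv ℂ (fun z => t ((A.e j).symm z)) (A.e j ((A.e i).symm (A.e i x)))).comp
        (fderiv ℂ (fun z => A.e j ((A.e i).symm z)) (A.e i x)) := h4
  rw [h5, h3] at hv
  exact hv

theorem Cr1.inj {A : Atl 1 M} {x : M} {t : M → ℂ} (h : Cr1 A x t) {j : A.ι}
    (hj : x ∈ (A.e j).source) {w : Cn 1}
    (hw : fderiv ℂ (fun z => t ((A.e j).symm z)) (A.e j x) w = 0) : w = 0 := by
  obtain ⟨v, hv⟩ := h.all hj
  exact lin_inj hv hw


/-! ### the product -/

variable {A : Atl 1 M} {B : Atl 1 N}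

theorem hg_fst {n m : ℕ} {A : Atl n M} {B : Atl m N} {a : M} {b : N} {f : M → ℂ}
    (hf : HG (fam A) a f) : HG (fam (A.prod B)) (a, b) fun q => f q.1 :=
  HG.comp (p := Prod.fst) (y := (a, b)) hf (holC_iff.2 (Crest.Agent.R272.Pr_414.fst A B))

theorem hg_snd {n m : ℕ} {A : Atl n M} {B : Atl m N} {a : M} {b : N} {f : N → ℂ}
    (hf : HG (fam B) b f) : HG (fam (A.prod B)) (a, b) fun q => f q.2 :=
  HG.comp (p := Prod.snd) (y := (a, b)) hf (holC_iff.2 (Crest.Agent.R272.Pr_414.snd A B))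

theorem HG.diffAt_e {n : ℕ} {A : Atl n M} {x : M} {f : M → ℂ} (hf : HG (fam A) x f) {i : A.ι}
    (hi : x ∈ (A.e i).source) : DifferentiableAt ℂ (fun z => f ((A.e i).symm z)) (A.e i x) :=
  (HG.analyticAt (C := fam A) hf (e := A.e i) (cpt_e (C := fam A) i) hi).differentiableAt

/-- **coordinates of the two curves are coordinates of the product** -/
theorem crd_prod {a : M} {b : N} {t : M → ℂ} {s : N → ℂ} (ht : Cr1 A a t) (hs : Cr1 B b s) :
    Crd (n := 2) (A.prod B) (a, b) ![fun q => t q.1, fun q => s q.2] := by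
  obtain ⟨i, hi⟩ := A.cover a
  obtain ⟨j, hj⟩ := B.cover b
  refine ⟨?_, (i, j), ⟨hi, hj⟩, ?_⟩
  · intro c
    fin_cases c
    · exact hg_fst (B := B) ht.hol
    · exact hg_snd (A := A) hs.hol
  · intro v hv
    have h0 := hv 0
    have h1 := hv 1
    have hv' : (v : Cn (1 + 1)) = app (fstL 1 1 v) (sndL 1 1 v) :=
      (app_fstL_sndL (n := 1) (m := 1) v).symm
    have e0 : fderiv ℂ (fun z : Cn (1 + 1) => t ((A.e i).symm (fstL 1 1 z)))
        (app (A.e i a) (B.e j b)) (app (fstL 1 1 v) (sndL 1 1 v)) =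
        fderiv ℂ (fun z => t ((A.e i).symm z)) (A.e i a) (fstL 1 1 v) :=
      Crest.Agent.R272.Pr_414.fderiv_comp_fst (F := fun z => t ((A.e i).symm z))
        (HG.diffAt_e ht.hol hi) _ _
    have e1 : fderiv ℂ (fun z : Cn (1 + 1) => s ((B.e j).symm (sndL 1 1 z)))
        (app (A.e i a) (B.e j b)) (app (fstL 1 1 v) (sndL 1 1 v)) =
        fderiv ℂ (fun z => s ((B.e j).symm z)) (B.e j b) (sndL 1 1 v) :=
      Crest.Agent.R272.Pr_414.fderiv_comp_snd (F := fun z => s ((B.e j).symm z))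
        (HG.diffAt_e hs.hol hj) _ _
    rw [← hv'] at e0 e1
    have f0 : fstL 1 1 v = 0 := ht.inj hi (e0.symm.trans h0)
    have f1 : sndL 1 1 v = 0 := hs.inj hj (e1.symm.trans h1)
    refine ext_prod (n := 1) (m := 1) ?_ ?_
    · rw [f0, map_zero]
    · rw [f1, map_zero]

/-- **a centre of the product of two curves** -/
def prodNode {ρ : Type} (P : PD (n := 2) (A.prod B) ρ) {a : M} {b : N} {t : M → ℂ} {s : N → ℂ}
    (ht : Cr1 A a t) (hs : Cr1 B b s) (t0 : t a = 0) (s0 : s b = 0) (sh : ρ → Shape)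
    (i : (A.prod B).ι) (hi : (a, b) ∈ ((A.prod B).e i).source)
    (form : ∀ c, HasForm (fam (A.prod B)) (sh c) (P.s c i) (fun q => t q.1) (fun q => s q.2)
      (a, b)) : Node P (a, b) where
  T q := t q.1
  S q := s q.2
  sh := sh
  T0 := t0
  S0 := s0
  crd := crd_prod ht hs
  i := i
  hi := hi
  form := form

end

end Crest.Agent.R272.Adp_409
end

-- ▼ part R272/NF_140
section

/-!
# R272 (S0414), S14-FORMS (helper140): local forms of `s_M`, `s_N` at the centres

Model of record `#6536`.  `C^` : `d ^ 8 = 1 - t ^ 16`, `r ^ 2 = t ^ 8 + I` (patch `t`),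
`d ^ 8 = c ^ 16 - 1`, `r ^ 2 = 1 + I c ^ 8` (patch `c = 1 / t`); `F8` : `e ^ 8 = 1 - o ^ 8`
(patch `o`), `e ^ 8 = z ^ 8 - 1` (patch `z = 1 / o`).

`Frm C x s S T p q` : near `x`, `s = U * (S ^ p - c * T ^ q)` with units `U`, `c`.
-/

set_option autoImplicit false

open Set Topology Filter Complex

namespace Crest.Agent.R272.NF_140

open Crest.Agent.R275.Geo Crest.Agent.R273.Fam_835 Crest.Agent.R272.Quot_783
open Crest.Agent.R272.Root_83

noncomputable section

variable {n : ℕ} {X : Type} [TopologicalSpace X]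

/-- `s = U * (S ^ p - c * T ^ q)` near `x`, with units `U`, `c` -/
def Frm (C : Fam n X) (x : X) (s S T : X → ℂ) (p q : ℕ) : Prop :=
  ∃ U c : X → ℂ, HG C x U ∧ HG C x c ∧ U x ≠ 0 ∧ c x ≠ 0 ∧
    ∀ᶠ y in 𝓝 x, s y = U y * (S y ^ p - c y * T y ^ q)

/-- `s` is a unit at `x` -/
def Unt (C : Fam n X) (x : X) (s : X → ℂ) : Prop := HG C x s ∧ s x ≠ 0

variable {C : Fam n X} {x : X} {s s' S T u : X → ℂ} {p q : ℕ}

theorem Frm.unit_mul (h : Frm C x s S T p q) (hu : HG C x u) (hne : u x ≠ 0)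
    (hs : ∀ᶠ y in 𝓝 x, s' y = u y * s y) : Frm C x s' S T p q := by
  obtain ⟨U, c, hU, hc, hU0, hc0, he⟩ := h
  refine ⟨fun y => u y * U y, c, hu.mul hU, hc, mul_ne_zero hne hU0, hc0, ?_⟩
  filter_upwards [hs, he] with y h1 h2
  rw [h1, h2]
  ring

theorem Frm.congr (h : Frm C x s S T p q) (hs : ∀ᶠ y in 𝓝 x, s' y = s y) :
    Frm C x s' S T p q :=
  h.unit_mul (HG.const 1) one_ne_zero (by filter_upwards [hs] with y hy; rw [hy, one_mul])

theorem Frm.hg (h : Frm C x s S T p q) (hS : HG C x S) (hT : HG C x T) : HG C x s := by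
  obtain ⟨U, c, hU, hc, -, -, he⟩ := h
  refine (hU.mul ((hS.pow p).sub (hc.mul (hT.pow q)))).congr ?_
  filter_upwards [he] with y hy
  rw [hy]


theorem Unt.unit_mul (h : Unt C x s) (hu : HG C x u) (hne : u x ≠ 0)
    (hs : ∀ᶠ y in 𝓝 x, s' y = u y * s y) : Unt C x s' :=
  ⟨(hu.mul h.1).congr (by filter_upwards [hs] with y hy; rw [hy]), by
    rw [hs.self_of_nhds]; exact mul_ne_zero hne h.2⟩

theorem Frm.comp {m : ℕ} {Y : Type} [TopologicalSpace Y] {D : Fam m Y} {f : Y → X} {y : Y}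
    (h : Frm C (f y) s S T p q) (hf : HolC D C f) :
    Frm D y (fun z => s (f z)) (fun z => S (f z)) (fun z => T (f z)) p q := by
  obtain ⟨U, c, hU, hc, hU0, hc0, he⟩ := h
  exact ⟨fun z => U (f z), fun z => c (f z), hU.comp hf, hc.comp hf, hU0, hc0,
    hf.cont.continuousAt.eventually he⟩

theorem Unt.comp {m : ℕ} {Y : Type} [TopologicalSpace Y] {D : Fam m Y} {f : Y → X} {y : Y}
    (h : Unt C (f y) s) (hf : HolC D C f) : Unt D y (fun z => s (f z)) := ⟨h.1.comp hf, h.2⟩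

/-! ### the patches -/

/-- patch `t` of `C^` -/
structure Pt (C : Fam n X) (x : X) (t d r : X → ℂ) : Prop where
  ht : HG C x t
  hd : HG C x d
  hr : HG C x r
  ed : ∀ᶠ y in 𝓝 x, d y ^ 8 = 1 - t y ^ 16
  er : ∀ᶠ y in 𝓝 x, r y ^ 2 = t y ^ 8 + I

/-- patch `c = 1 / t` of `C^` -/
structure Pc (C : Fam n X) (x : X) (c d r : X → ℂ) : Prop where
  hc : HG C x c
  hd : HG C x d
  hr : HG C x r
  ed : ∀ᶠ y in 𝓝 x, d y ^ 8 = c y ^ 16 - 1
  er : ∀ᶠ y in 𝓝 x, r y ^ 2 = 1 + I * c y ^ 8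

/-- patch `o` of `F8` -/
structure Po (C : Fam n X) (x : X) (o e : X → ℂ) : Prop where
  ho : HG C x o
  he : HG C x e
  ee : ∀ᶠ y in 𝓝 x, e y ^ 8 = 1 - o y ^ 8

/-- patch `z = 1 / o` of `F8` -/
structure Pz (C : Fam n X) (x : X) (z e : X → ℂ) : Prop where
  hz : HG C x z
  he : HG C x e
  ee : ∀ᶠ y in 𝓝 x, e y ^ 8 = z y ^ 8 - 1

/-! ### the two sections in the patches -/

def sMto (t o : X → ℂ) : X → ℂ := fun y => o y ^ 2 - t y ^ 4
def sMco (c o : X → ℂ) : X → ℂ := fun y => o y ^ 2 * c y ^ 4 - 1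
def sMcz (c z : X → ℂ) : X → ℂ := fun y => c y ^ 4 - z y ^ 2
def sNto (k : ℂ) (t d o : X → ℂ) : X → ℂ := fun y =>
  o y ^ 2 * (t y ^ 8 - I) - k * t y ^ 2 * d y ^ 2
def sNco (k : ℂ) (c d o : X → ℂ) : X → ℂ := fun y =>
  o y ^ 2 * (1 - I * c y ^ 8) - k * c y ^ 2 * d y ^ 2
def sNcz (k : ℂ) (c d z : X → ℂ) : X → ℂ := fun y =>
  (1 - I * c y ^ 8) - k * c y ^ 2 * d y ^ 2 * z y ^ 2

variable {t d r o e c z : X → ℂ} {k : ℂ}


theorem k_ne (hk : k ^ 4 = 8 * I) : k ≠ 0 := by
  rintro rfl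
  rw [zero_pow (by norm_num)] at hk
  exact (mul_ne_zero (by norm_num) I_ne_zero) hk.symm

theorem hg_tI (ht : HG C x t) : HG C x (fun y => t y ^ 8 - I) := (ht.pow 8).sub (HG.const I)

theorem hg_cI (hc : HG C x c) : HG C x (fun y => 1 - I * c y ^ 8) :=
  (HG.const 1).sub ((HG.const I).mul (hc.pow 8))

/-- common shape of `s_N` -/
theorem frm_N {w d' S T : X → ℂ} (hw : HG C x w) (hw0 : w x ≠ 0) (hd : HG C x d')
    (hd0 : d' x ≠ 0) (hk : k ≠ 0)
    (hs : ∀ᶠ y in 𝓝 x, s y = S y ^ 2 * w y - k * T y ^ 2 * d' y ^ 2) : Frm C x s S T 2 2 := by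
  refine ⟨w, fun y => k * d' y ^ 2 * (w y)⁻¹, hw,
    ((HG.const k).mul (hd.pow 2)).mul (hw.inv hw0), hw0,
    mul_ne_zero (mul_ne_zero hk (pow_ne_zero 2 hd0)) (inv_ne_zero hw0), ?_⟩
  filter_upwards [hs, hw.continuousAt.eventually_ne hw0] with y hy hwy
  rw [hy]
  field_simp

/-- **(P)** -/
theorem form_P (h : Pt C x t d r) (hk : k ^ 4 = 8 * I) (ht : t x = 0)
    (_ho : o x = 0) :
    Frm C x (sMto t o) o t 2 4 ∧ Frm C x (sNto k t d o) o t 2 2 := by
  constructor
  · refine ⟨fun _ => 1, fun _ => 1, HG.const 1, HG.const 1, one_ne_zero, one_ne_zero, ?_⟩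
    filter_upwards with y
    rw [sMto]
    ring
  · have hd0 : d x ≠ 0 := by
      intro h0
      have := h.ed.self_of_nhds
      rw [h0, ht] at this
      norm_num at this
    refine frm_N (hg_tI h.ht) (by rw [ht]; norm_num) h.hd hd0 (k_ne hk) ?_
    filter_upwards with y
    rw [sNto]

/-- **(Q)** -/
theorem form_Q (h : Pc C x c d r) (h' : Pz C x z e) (hc : c x = 0) (_hz : z x = 0) :
    Frm C x (sMcz c z) z c 2 4 ∧ Unt C x (sNcz k c d z) := by
  constructor
  · refine ⟨fun _ => -1, fun _ => 1, HG.const _, HG.const 1, by norm_num, one_ne_zero, ?_⟩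
    filter_upwards with y
    rw [sMcz]
    ring
  · refine ⟨(hg_cI h.hc).sub ((((HG.const k).mul (h.hc.pow 2)).mul (h.hd.pow 2)).mul (h'.hz.pow 2)),
      ?_⟩
    rw [sNcz, hc]
    norm_num

theorem tI_ne {a : ℂ} (h : a ^ 2 = 1) : a - I ≠ 0 := by
  intro h0
  have h1 : a = I := sub_eq_zero.1 h0
  rw [h1, I_sq] at h
  norm_num at h

/-- **(T)**, `d = 0` -/
theorem form_T1 (h : Pt C x t d r) (h' : Po C x o e) (hk : k ^ 4 = 8 * I) (hd : d x = 0)
    (ho : o x = 0) :
    Unt C x (sMto t o) ∧ Frm C x (sNto k t d o) o d 2 2 := by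
  have h16 : t x ^ 16 = 1 := by
    have := h.ed.self_of_nhds
    rw [hd] at this
    linear_combination this
  have ht0 : t x ≠ 0 := by
    intro h0
    rw [h0] at h16
    norm_num at h16
  constructor
  · refine ⟨(h'.ho.pow 2).sub (h.ht.pow 4), ?_⟩
    rw [sMto, ho]
    intro h0
    apply ht0
    have : t x ^ 4 = 0 := by linear_combination -h0
    exact pow_eq_zero_iff (by norm_num) |>.1 this
  · refine frm_N (hg_tI h.ht) (tI_ne (a := t x ^ 8) (by rw [← pow_mul]; exact h16)) h.ht ht0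
      (k_ne hk) ?_
    filter_upwards with y
    rw [sNto]
    ring

/-- **(T)**, `c = 0` -/
theorem form_T2 (h : Pc C x c d r) (h' : Po C x o e) (hk : k ^ 4 = 8 * I) (hc : c x = 0)
    (_ho : o x = 0) :
    Unt C x (sMco c o) ∧ Frm C x (sNco k c d o) o c 2 2 := by
  have hd0 : d x ≠ 0 := by
    intro h0
    have := h.ed.self_of_nhds
    rw [h0, hc] at this
    norm_num at this
  constructor
  · refine ⟨((h'.ho.pow 2).mul (h.hc.pow 4)).sub (HG.const 1), ?_⟩
    rw [sMco, hc]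
    norm_num
  · refine frm_N (hg_cI h.hc) (by rw [hc]; norm_num) h.hd hd0 (k_ne hk) ?_
    filter_upwards with y
    rw [sNco]

/-- `a ^ 4 - b ^ 4` with `a x = b x ≠ 0` -/
theorem frm_88 {a b w S T c' : X → ℂ} (ha : HG C x a) (hb : HG C x b) (hw : HG C x w)
    (hc : HG C x c') (hw0 : w x ≠ 0) (hc0 : c' x ≠ 0) (hab : a x = b x) (ha0 : a x ≠ 0)
    (h : ∀ᶠ y in 𝓝 x, b y ^ 4 - a y ^ 4 = S y ^ 8 - c' y * T y ^ 8)
    (hs : ∀ᶠ y in 𝓝 x, s y = w y * (a y - b y)) : Frm C x s S T 8 8 := by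
  have hq : HG C x (fun y => (a y + b y) * (a y ^ 2 + b y ^ 2)) :=
    (ha.add hb).mul ((ha.pow 2).add (hb.pow 2))
  have hq0 : (a x + b x) * (a x ^ 2 + b x ^ 2) ≠ 0 := by
    rw [← hab]
    have h4 : (4 : ℂ) ≠ 0 := by norm_num
    have : (a x + a x) * (a x ^ 2 + a x ^ 2) = 4 * a x ^ 3 := by ring
    rw [this]
    exact mul_ne_zero h4 (pow_ne_zero 3 ha0)
  refine ⟨fun y => -1 * w y * ((a y + b y) * (a y ^ 2 + b y ^ 2))⁻¹, c',
    ((HG.const (-1)).mul hw).mul (hq.inv hq0), hc, mul_ne_zero (mul_ne_zero (by norm_num) hw0)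
    (inv_ne_zero hq0), hc0, ?_⟩
  filter_upwards [h, hs, hq.continuousAt.eventually_ne hq0] with y h1 h2 h3
  rw [h2, ← h1]
  have h5 : ((a y + b y) * (a y ^ 2 + b y ^ 2))⁻¹ * ((a y + b y) * (a y ^ 2 + b y ^ 2)) = 1 :=
    inv_mul_cancel₀ h3
  linear_combination (-(w y * (a y - b y))) * h5

/-- **(S)** -/
theorem form_S (h : Pt C x t d r) (h' : Po C x o e) (hd : d x = 0) (_he : e x = 0)
    (hot : o x ^ 2 = t x ^ 4) :
    Frm C x (sMto t o) e d 8 8 ∧ Unt C x (sNto k t d o) := by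
  have h16 : t x ^ 16 = 1 := by
    have := h.ed.self_of_nhds
    rw [hd] at this
    linear_combination this
  have ht0 : t x ≠ 0 := by
    intro h0
    rw [h0] at h16
    norm_num at h16
  constructor
  · refine frm_88 (a := fun y => o y ^ 2) (b := fun y => t y ^ 4) (w := fun _ => 1)
      (c' := fun _ => 1) (h'.ho.pow 2) (h.ht.pow 4) (HG.const 1) (HG.const 1) one_ne_zero
      one_ne_zero hot (by rw [hot]; exact pow_ne_zero 4 ht0) ?_ ?_
    · filter_upwards [h.ed, h'.ee] with y h1 h2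
      rw [h1, h2]
      ring
    · filter_upwards with y
      rw [sMto, one_mul]
  · refine ⟨((h'.ho.pow 2).mul (hg_tI h.ht)).sub (((HG.const k).mul (h.ht.pow 2)).mul (h.hd.pow 2)),
      ?_⟩
    rw [sNto, hd, hot]
    have h1 := tI_ne (a := t x ^ 8) (by rw [← pow_mul]; exact h16)
    have h2 : t x ^ 4 * (t x ^ 8 - I) - k * t x ^ 2 * 0 ^ 2 = t x ^ 4 * (t x ^ 8 - I) := by ring
    rw [h2]
    exact mul_ne_zero (pow_ne_zero 4 ht0) h1

/-- **(S')** -/
theorem form_S' (h : Pt C x t d r) (h' : Po C x o e) (hk : k ^ 4 = 8 * I) (hr : r x = 0)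
    (he : e x = 0) (hN : sNto k t d o x = 0) :
    Unt C x (sMto t o) ∧ Frm C x (sNto k t d o) e r 8 8 := by
  have h8 : t x ^ 8 = -I := by
    have := h.er.self_of_nhds
    rw [hr] at this
    linear_combination -this
  have ho8 : o x ^ 8 = 1 := by
    have := h'.ee.self_of_nhds
    rw [he] at this
    linear_combination this
  have hw0 : t x ^ 8 - I ≠ 0 := by
    rw [h8]
    have h1 : -I - I = -2 * I := by ring
    rw [h1]
    exact mul_ne_zero (by norm_num) I_ne_zero
  have ho0 : o x ≠ 0 := by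
    intro h0
    rw [h0] at ho8
    norm_num at ho8
  constructor
  · refine ⟨(h'.ho.pow 2).sub (h.ht.pow 4), ?_⟩
    rw [sMto]
    intro h0
    have h1 : o x ^ 2 = t x ^ 4 := by linear_combination h0
    have h2 : o x ^ 8 = t x ^ 8 * t x ^ 8 := by
      rw [show o x ^ 8 = (o x ^ 2) ^ 4 by ring, h1]
      ring
    rw [ho8, h8] at h2
    have h3 : (-I) * (-I) = -1 := by linear_combination I_mul_I
    rw [h3] at h2
    norm_num at h2
  · have hw := hg_tI h.ht
    refine frm_88 (a := fun y => o y ^ 2)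
      (b := fun y => k * t y ^ 2 * d y ^ 2 * (t y ^ 8 - I)⁻¹) (w := fun y => t y ^ 8 - I)
      (c' := fun y => ((t y ^ 8 - I)⁻¹) ^ 4) (h'.ho.pow 2)
      ((((HG.const k).mul (h.ht.pow 2)).mul (h.hd.pow 2)).mul (hw.inv hw0)) hw
      ((hw.inv hw0).pow 4) hw0 (pow_ne_zero 4 (inv_ne_zero hw0)) ?_ (pow_ne_zero 2 ho0) ?_ ?_
    · rw [sNto] at hN
      have h1 : k * t x ^ 2 * d x ^ 2 = o x ^ 2 * (t x ^ 8 - I) := by linear_combination -hN
      rw [h1, mul_assoc, mul_inv_cancel₀ hw0, mul_one]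
    · filter_upwards [h.ed, h.er, h'.ee, hw.continuousAt.eventually_ne hw0] with y h1 h2 h3 h4
      have e1 : (k * t y ^ 2 * d y ^ 2 * (t y ^ 8 - I)⁻¹) ^ 4 =
          8 * I * t y ^ 8 * (1 - t y ^ 16) * ((t y ^ 8 - I)⁻¹) ^ 4 := by
        rw [← h1, ← hk]
        ring
      have e2 : r y ^ 8 = (t y ^ 8 + I) ^ 4 := by
        rw [← h2]
        ring
      have e3 : (o y ^ 2) ^ 4 = 1 - e y ^ 8 := by
        rw [h3]
        ring
      rw [e1, e2, e3]
      have h5 : ((t y ^ 8 - I)⁻¹) ^ 4 * (t y ^ 8 - I) ^ 4 = 1 := by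
        rw [← mul_pow, inv_mul_cancel₀ h4, one_pow]
      have hI3 : I ^ 3 = -I := by rw [pow_succ, I_sq]; ring
      have hI4 : I ^ 4 = 1 := by rw [show I ^ 4 = (I ^ 2) ^ 2 by ring, I_sq]; ring
      have h6 : 8 * I * t y ^ 8 * (1 - t y ^ 16) =
          (t y ^ 8 - I) ^ 4 - (t y ^ 8 + I) ^ 4 := by
        linear_combination (8 * t y ^ 8) * hI3
      rw [h6]
      linear_combination h5
    · filter_upwards [hw.continuousAt.eventually_ne hw0] with y h4
      rw [sNto]
      field_simp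

end

end Crest.Agent.R272.NF_140
end

-- ▼ part R272/Adp5_409
section

/-!
# R272 (S0414), helper409: conversions `Frm`, `Unt` (140) → `HasForm`, and `CForm` → `IsPQ` (266)
-/

set_option autoImplicit false
set_option linter.unusedSectionVars false

open Set Filter Topology Metric
open scoped ContDiff Manifold

namespace Crest.Agent.R272.Adp_409

open Crest.Agent.R275.Geo Crest.Agent.R275.Core144 Crest.Agent.R275.GC293
open Crest.Agent.R273.Map_835 Crest.Agent.R273.Fam_835 Crest.Agent.R273.PB_835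
open Crest.Agent.R273.Defs_333 Crest.Agent.R272.Refl_246 Crest.Agent.R272.DCov_426
open Crest.Agent.R272.Quot_783 Crest.Agent.R272.Root_83 Crest.Agent.R272.Blup1_102
open Crest.Agent.R272.BlA_266 Crest.Agent.R272.NF_140

noncomputable section

variable {n : ℕ} {M : Type} [TopologicalSpace M] {C : Fam n M} {x : M} {s S T : M → ℂ}

theorem HasForm.of_tac (h : Frm C x s S T 2 4) : HasForm C .tac s T S x := by
  obtain ⟨U, c, hU, hc, hU0, hc0, h1⟩ := h
  refine ⟨U, c, hU, hc, hU0, hc0, ?_⟩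
  filter_upwards [h1] with y hy
  rw [hy, Shape.F, mul_comm (c y)]

theorem HasForm.of_star {k : ℕ} (h : Frm C x s S T (2 * k) (2 * k)) :
    HasForm C (.star k) s T S x := by
  obtain ⟨U, c, hU, hc, hU0, hc0, h1⟩ := h
  refine ⟨U, c, hU, hc, hU0, hc0, ?_⟩
  filter_upwards [h1] with y hy
  rw [hy, Shape.F, mul_comm (c y)]

theorem HasForm.of_star1 (h : Frm C x s S T 2 2) : HasForm C (.star 1) s T S x :=
  HasForm.of_star (k := 1) h

theorem HasForm.of_star4 (h : Frm C x s S T 8 8) : HasForm C (.star 4) s T S x :=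
  HasForm.of_star (k := 4) h

theorem HasForm.of_unt (h : Unt C x s) : HasForm C .unit s T S x := by
  refine ⟨s, fun _ => 1, h.1, HG.const 1, h.2, one_ne_zero, ?_⟩
  exact Eventually.of_forall fun y => by rw [Shape.F, mul_one]



theorem CForm.ne {φ : Cn 2 → ℂ} (h : CForm .unit φ) : φ 0 ≠ 0 := by
  obtain ⟨U, c, hU, hc, hU0, hc0, h1⟩ := h
  rw [h1.self_of_nhds, Shape.F, mul_one]
  exact hU0

end

end Crest.Agent.R272.Adp_409
end

-- ▼ part R272/NlB1_426

/-!
# R272 (S0414), NLOC-ASM (B) (helper426), part 1: the frame dictionary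

* `hg_y`, `hg_pc` : germs of `y a s`, `pc s ∘ p` on a cover of `P1`, for every compatible atlas
* `cr_y`, `cr_pc` : local coordinates (409's `Cr1`)
* `ptC`, `pcC`, `poF`, `pzF` : 140's patches on the product of the curves
-/

set_option autoImplicit false
set_option linter.unusedSectionVars false

open Set Filter Topology Complex

namespace Crest.Agent.R272.NlB_426

open Crest.Agent.R275.Geo Crest.Agent.R275.Core144 Crest.Agent.R275.Prod363
open Crest.Agent.R273.Map_835 Crest.Agent.R273.Fam_835 Crest.Agent.R272.DCov_426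
open Crest.Agent.R272.P1F_54 Crest.Agent.R272.P1L_426
open Crest.Agent.R272.P1S_590 (A1 O1 O u0 u1 O_g u0_false u1_false u0_true u1_true)
open Crest.Agent.R272.Quot_783 Crest.Agent.R272.Root_83 Crest.Agent.R272.Adp_409

noncomputable section

section Gen

variable {ρ : Type} [Fintype ρ] (D : Data A1 ρ) {A' : Atl 1 D.X} (hc : Cmp D.famX A')

include hc in
theorem hg_y {s : Bool} {q : D.X} (hq : D.p q ∈ (A1.e s).source) (a : ρ) :
    HG (fam A') q (D.y a s) := by
  refine ⟨D.p ⁻¹' (A1.e s).source, (A1.e s).open_source.preimage D.continuous_p, hq,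
    fun (i : A'.ι) => ?_⟩
  intro z hz
  have h1 : (A'.e i).symm z ∈ (A'.e i).source := (A'.e i).map_target hz.1
  have h2 : D.p ((A'.e i).symm z) ∈ (A1.e s).source := hz.2
  have h3 := diff_y D hc h1 h2 a
  rw [(A'.e i).right_inv hz.1] at h3
  exact h3.differentiableWithinAt

include hc in
theorem hg_pc {s : Bool} {q : D.X} (hq : D.p q ∈ (A1.e s).source) :
    HG (fam A') q (fun x => pc s (D.p x)) := by
  refine ⟨D.p ⁻¹' (A1.e s).source, (A1.e s).open_source.preimage D.continuous_p, hq,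
    fun (i : A'.ι) => ?_⟩
  intro z hz
  have h1 : (A'.e i).symm z ∈ (A'.e i).source := (A'.e i).map_target hz.1
  have h2 : D.p ((A'.e i).symm z) ∈ (A1.e s).source := hz.2
  have h3 := diff_pcX D hc h1 h2
  rw [(A'.e i).right_inv hz.1] at h3
  exact h3.differentiableWithinAt

theorem cr1_of_inj {f : D.X → ℂ} {q : D.X} (hf : HG (fam A') q f) {i : A'.ι}
    (hi : q ∈ (A'.e i).source)
    (h : Function.Injective (fderiv ℂ (fun w => f ((A'.e i).symm w)) (A'.e i q))) :
    Cr1 A' q f := by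
  refine ⟨hf, i, hi, EuclideanSpace.single 0 1, fun h0 => ?_⟩
  have h1 := h (h0.trans (map_zero _).symm)
  have h2 := congrArg (fun v : Cn 1 => v 0) h1
  simp at h2

include hc in
/-- `y a` is a local coordinate at its zeros -/
theorem cr_y {s : Bool} {q : D.X} (hq : D.p q ∈ (A1.e s).source) {a : ρ} (ha : D.y a s q = 0) :
    Cr1 A' q (D.y a s) := by
  obtain ⟨i, hi⟩ := A'.cover q
  exact cr1_of_inj D (hg_y D hc hq a) hi (coord_y D hc hi hq ha)

include hc in
/-- the base coordinate is a local coordinate where no `y a` vanishes -/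
theorem cr_pc {s : Bool} {q : D.X} (hq : D.p q ∈ (A1.e s).source) (ha : ∀ a, D.y a s q ≠ 0) :
    Cr1 A' q (fun x => pc s (D.p x)) := by
  obtain ⟨i, hi⟩ := A'.cover q
  exact cr1_of_inj D (hg_pc D hc hq) hi (coord_pc D hc hi hq ha)

theorem ev_src {s : Bool} {q : D.X} (hq : D.p q ∈ (A1.e s).source) :
    ∀ᶠ x in 𝓝 q, D.p x ∈ (A1.e s).source :=
  ((A1.e s).open_source.preimage D.continuous_p).mem_nhds hq

end Gen

variable {AC : Atl 1 Ch.X} (hC : Cmp Ch.famX AC) {AF : Atl 1 F8.X} (hF : Cmp F8.famX AF)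
  {a : Ch.X} {b : F8.X}

theorem ev_fst {P : Ch.X → Prop} (h : ∀ᶠ x in 𝓝 a, P x) :
    ∀ᶠ y : Ch.X × F8.X in 𝓝 (a, b), P y.1 := continuousAt_fst.eventually h

theorem ev_snd {P : F8.X → Prop} (h : ∀ᶠ x in 𝓝 b, P x) :
    ∀ᶠ y : Ch.X × F8.X in 𝓝 (a, b), P y.2 := continuousAt_snd.eventually h

include hC in
/-- 140's patch `t` -/
theorem ptC (ha : Ch.p a ∈ (A1.e false).source) : NF_140.Pt (fam (AC.prod AF)) (a, b)
    (fun q => t1 false q.1) (fun q => dl false q.1) (fun q => rh false q.1) where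
  ht := hg_fst (hg_pc Ch hC ha)
  hd := hg_fst (hg_y Ch hC ha 0)
  hr := hg_fst (hg_y Ch hC ha 1)
  ed := by
    refine ev_fst (P := fun x => dl false x ^ 8 = 1 - t1 false x ^ 16) ?_
    filter_upwards [ev_src Ch ha] with x hx
    have h := Ch_y0 hx
    rw [u0_false, one_pow] at h
    exact h
  er := by
    refine ev_fst (P := fun x => rh false x ^ 2 = t1 false x ^ 8 + I) ?_
    filter_upwards [ev_src Ch ha] with x hx
    have h := Ch_y1 hx
    rw [u0_false, one_pow, mul_one] at h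
    exact h

include hC in
/-- 140's patch `c` -/
theorem pcC (ha : Ch.p a ∈ (A1.e true).source) : NF_140.Pc (fam (AC.prod AF)) (a, b)
    (fun q => t0 true q.1) (fun q => dl true q.1) (fun q => rh true q.1) where
  hc := hg_fst (hg_pc Ch hC ha)
  hd := hg_fst (hg_y Ch hC ha 0)
  hr := hg_fst (hg_y Ch hC ha 1)
  ed := by
    refine ev_fst (P := fun x => dl true x ^ 8 = t0 true x ^ 16 - 1) ?_
    filter_upwards [ev_src Ch ha] with x hx
    have h := Ch_y0 hx
    rw [u1_true, one_pow] at h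
    exact h
  er := by
    refine ev_fst (P := fun x => rh true x ^ 2 = 1 + I * t0 true x ^ 8) ?_
    filter_upwards [ev_src Ch ha] with x hx
    have h := Ch_y1 hx
    rw [u1_true, one_pow] at h
    exact h

include hF in
/-- 140's patch `o` -/
theorem poF (hb : F8.p b ∈ (A1.e false).source) : NF_140.Po (fam (AC.prod AF)) (a, b)
    (fun q => om false q.2) (fun q => et false q.2) where
  ho := hg_snd (hg_pc F8 hF hb)
  he := hg_snd (hg_y F8 hF hb 0)
  ee := by
    refine ev_snd (P := fun x => et false x ^ 8 = 1 - om false x ^ 8) ?_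
    filter_upwards [ev_src F8 hb] with x hx
    have h := F8_y hx
    rw [u0_false, one_pow] at h
    exact h

include hF in
/-- 140's patch `z` -/
theorem pzF (hb : F8.p b ∈ (A1.e true).source) : NF_140.Pz (fam (AC.prod AF)) (a, b)
    (fun q => ze true q.2) (fun q => et true q.2) where
  hz := hg_snd (hg_pc F8 hF hb)
  he := hg_snd (hg_y F8 hF hb 0)
  ee := by
    refine ev_snd (P := fun x => et true x ^ 8 = ze true x ^ 8 - 1) ?_
    filter_upwards [ev_src F8 hb] with x hx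
    have h := F8_y hx
    rw [u1_true, one_pow] at h
    exact h

/-! ### local coordinates of the two curves -/

include hC in
theorem cr_t1 (ha : Ch.p a ∈ (A1.e false).source) (hd : dl false a ≠ 0) (hr : rh false a ≠ 0) :
    Cr1 AC a (t1 false) :=
  cr_pc Ch hC ha fun c => by
    fin_cases c
    · exact hd
    · exact hr

include hC in
theorem cr_t0 (ha : Ch.p a ∈ (A1.e true).source) (hd : dl true a ≠ 0) (hr : rh true a ≠ 0) :
    Cr1 AC a (t0 true) :=
  cr_pc Ch hC ha fun c => by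
    fin_cases c
    · exact hd
    · exact hr

include hC in
theorem cr_dl {s : Bool} (ha : Ch.p a ∈ (A1.e s).source) (hd : dl s a = 0) : Cr1 AC a (dl s) :=
  cr_y Ch hC ha hd

include hC in
theorem cr_rh {s : Bool} (ha : Ch.p a ∈ (A1.e s).source) (hr : rh s a = 0) : Cr1 AC a (rh s) :=
  cr_y Ch hC ha hr

include hF in
theorem cr_om (hb : F8.p b ∈ (A1.e false).source) (he : et false b ≠ 0) :
    Cr1 AF b (om false) :=
  cr_pc F8 hF hb fun c => by
    fin_cases c
    exact he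

include hF in
theorem cr_ze (hb : F8.p b ∈ (A1.e true).source) (he : et true b ≠ 0) :
    Cr1 AF b (ze true) :=
  cr_pc F8 hF hb fun c => by
    fin_cases c
    exact he

include hF in
theorem cr_et {s : Bool} (hb : F8.p b ∈ (A1.e s).source) (he : et s b = 0) : Cr1 AF b (et s) :=
  cr_y F8 hF hb he

end

end Crest.Agent.R272.NlB_426
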