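import Crest.Agent.R272.As1_235
import Crest.Agent.R272.Sl1_235
import Crest.Agent.R272.Ne1_595
import Crest.Agent.R272.Cyc5_760
import Crest.Agent.R272.M14c_590
import Crest.Agent.R272.NlB2_426
import Crest.Agent.R272.Ne0_595
import Crest.Agent.R272.Nl3_595
import Crest.Agent.R272.CyB5_894
import Crest.Agent.R272.BlS1_266
import Crest.Agent.R272.CyB3_894
import Crest.Agent.R272.Nl4_595

-- ▼ part R272/Fin14_235
section

/-!
# R272, S14 end game (helper235): the final application of S0414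

`s14_of` : S0414 from a model `M : NLoc ka` with the nodes of 426, the square classes `Sq14`, one cycle of curves
`K : CycD M.D` over `P0` and the four arcs.
-/

set_option autoImplicit false
set_option linter.unusedSectionVars false

open Set Filter Topology Complex

namespace Crest.Agent.R272.Fin14_235

open Crest.Agent.R275.Geo Crest.Agent.R275.Core144
open Crest.Agent.R273.Fam_835 Crest.Agent.R273.Map_835
open Crest.Agent.R272.DCov_426 Crest.Agent.R272.M14_590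
open Crest.Agent.R272.P1L_426 (Ch F8 CC BB)
open Crest.Agent.R272.Root_83 Crest.Agent.R272.Ne_595
open Crest.Agent.R272.Nl_595 Crest.Agent.R272.Mf_839
open Crest.Agent.R272.Sl1_235 Crest.Agent.R272.As1_235 Crest.Agent.R272.Cyc_760
open Dt14_414 Main14_414 G14a_414

noncomputable section

/-- **S0414, the final application** -/
theorem s14_of (M : NLoc ka) (hN : NodeP M)
    (s : Sq14 M.D.famX CC.atlX BB.atlX phi Mf_839.f M14_590.z0 M14_590.w0 (π1 M) (π2 M))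
    (K : CycD M.D) (hK : ∀ x ∈ K.Z, pN M x = P0)
    (hA : ArcsX (g0 ka) (Sf M) (T0 M) (RM M) (RN M) K.Z) : S14 := by
  obtain ⟨z₀, z₁, z₂, z₃, k₁, r₁, k₂, r₂, a1, a2, b1, b2⟩ := hA
  exact s14_mainX M discs14 s K.curvesOn (slD M hN) (nearX M hK) k₁ r₁ k₂ r₂ a1 a2 b1 b2

end

end Crest.Agent.R272.Fin14_235
end

-- ▼ part R272/CycI1_760
section

/-!
# R272 (S0414), the instance of the curves (helper760), part 1: the value of the coefficient of `s_N`

* `cformV`, `node_formV` : 409's centred form of a node with the VALUE of the coefficient;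
* `ty_P0`  : the special centre `P0` (595) has type `P` (426);
* `hN_P0`  : at `P0` the section `s_N` is `U (v₁² - v₀² c)` with `c 0 = g0 k ^ 2`.
-/

set_option autoImplicit false
set_option linter.unusedSectionVars false

open Set Filter Topology Complex

namespace Crest.Agent.R272.CycI_760

open Crest.Agent.R275.Geo Crest.Agent.R275.Core144 Crest.Agent.R275.Prod363
open Crest.Agent.R273.Map_835 Crest.Agent.R273.Fam_835 Crest.Agent.R273.PB_835
open Crest.Agent.R272.DCov_426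
open Crest.Agent.R272.Quot_783 Crest.Agent.R272.Root_83 Crest.Agent.R272.Adp_409
open Crest.Agent.R272.Blup1_102 Crest.Agent.R272.BlA_266 Crest.Agent.R272.Asm2_102
open Crest.Agent.R273.Defs_333 Crest.Agent.R272.Refl_246 Crest.Agent.R275.GC293

noncomputable section

/-- the form `(2, 2)` with the value of the coefficient -/
def FormV (γ : ℂ) (φ : Cn 2 → ℂ) : Prop :=
  ∃ U c : Cn 2 → ℂ, DifferentiableAt ℂ U 0 ∧ DifferentiableAt ℂ c 0 ∧ U 0 ≠ 0 ∧ c 0 = γ ^ 2 ∧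
    ∀ᶠ v in 𝓝 0, φ v = U v * (v 1 ^ 2 - v 0 ^ 2 * c v)

/-- the form `(2, 2)` in the centred coordinates of a chart, with the value of the coefficient -/
theorem cformV {M : Type} [TopologicalSpace M] {C : Fam 2 M} {x : M}
    {φ T S U c : M → ℂ} {γ : ℂ} (hU : HG C x U) (hc : HG C x c) (hU0 : U x ≠ 0)
    (hc0 : c x = γ ^ 2) (h1 : ∀ᶠ y in 𝓝 x, φ y = U y * (S y ^ 2 - T y ^ 2 * c y))
    {e : OpenPartialHomeomorph M (Cn 2)} (he : Cpt C e) (hx : x ∈ e.source) {R : ℂ} (hR : R ≠ 0)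
    (hT : ∀ᶠ y in 𝓝 x, T y = R * (e y - e x) 0) (hS : ∀ᶠ y in 𝓝 x, S y = R * (e y - e x) 1) :
    FormV γ fun v => φ (e.symm (e x + v)) := by
  have ha : AnalyticAt ℂ (fun v : Cn 2 => e x + v) 0 := by fun_prop
  have h0 : e.symm (e x + 0) = x := by rw [add_zero, e.left_inv hx]
  refine ⟨fun v => R ^ 2 * U (e.symm (e x + v)), fun v => c (e.symm (e x + v)), ?_, ?_, ?_, ?_, ?_⟩
  · refine (analyticAt_const.mul ?_).differentiableAt
    have h2 := HG.analyticAt hU he hx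
    exact AnalyticAt.fun_comp (g := fun z => U (e.symm z)) (f := fun v : Cn 2 => e x + v)
      (by rw [add_zero]; exact h2) ha
  · refine AnalyticAt.differentiableAt ?_
    have h2 := HG.analyticAt hc he hx
    exact AnalyticAt.fun_comp (g := fun z => c (e.symm z)) (f := fun v : Cn 2 => e x + v)
      (by rw [add_zero]; exact h2) ha
  · simp only [h0]
    exact mul_ne_zero (pow_ne_zero 2 hR) hU0
  · simp only [h0]
    exact hc0
  · have ht : Tendsto (fun v : Cn 2 => e.symm (e x + v)) (𝓝 0) (𝓝 x) := by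
      have h2 : ContinuousAt e.symm (e x) := e.continuousAt_symm (e.map_source hx)
      have h3 : ContinuousAt (fun v : Cn 2 => e.symm (e x + v)) 0 :=
        ContinuousAt.comp (g := e.symm) (f := fun v : Cn 2 => e x + v)
          (by rw [add_zero]; exact h2) ha.continuousAt
      have h4 := h3.tendsto
      rwa [h0] at h4
    have htt : ∀ᶠ v : Cn 2 in 𝓝 0, e x + v ∈ e.target := by
      refine ha.continuousAt.eventually (e.open_target.mem_nhds ?_)
      show e x + 0 ∈ e.target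
      rw [add_zero]
      exact e.map_source hx
    filter_upwards [ht.eventually h1, ht.eventually hT, ht.eventually hS, htt] with v h2 h3 h4 h5
    rw [h2, h3, h4, e.right_inv h5, add_sub_cancel_left]
    ring

section Node

variable {M : Type} [TopologicalSpace M] [T2Space M] {A : Atl 2 M} {ρ : Type} {P : PD A ρ}
  {Z : Set M} (hZ : Z.Finite) (N : ∀ x : Z, Node P (x : M))

/-- the form at a node in the centred coordinates, with the value of the coefficient -/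
theorem node_formV (s : Z) (a : ρ) {i : A.ι} (hi : (s : M) ∈ (A.e i).source)
    {U c : M → ℂ} {γ : ℂ} (hU : HG (fam A) (s : M) U) (hc : HG (fam A) (s : M) c)
    (hU0 : U (s : M) ≠ 0) (hc0 : c (s : M) = γ ^ 2)
    (h1 : ∀ᶠ y in 𝓝 (s : M), P.s a i y = U y * ((N s).S y ^ 2 - (N s).T y ^ 2 * c y)) :
    FormV γ ((D1 P hZ N).phi (((nodeCen N).pd P).s a) s) := by
  set K := nodeCen N with hK
  have hps : (s : M) ∈ (K.c s).source := K.p_mem s
  have hi0 : (s : M) ∈ (A.e (K.i0 s)).source := K.source_sub s hps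
  have h2 : ∀ᶠ y in 𝓝 (s : M), P.s a (K.i0 s) y =
      ((P.L a ^ P.k a).g (K.i0 s) i y * U y) * ((N s).S y ^ 2 - (N s).T y ^ 2 * c y) := by
    filter_upwards [h1, (A.e i).open_source.mem_nhds hi,
      (A.e (K.i0 s)).open_source.mem_nhds hi0] with y h3 h4 h5
    rw [(P.hs a).tr (K.i0 s) i y ⟨h5, h4⟩ (mem_univ _), h3, mul_assoc]
  have h3 := cformV (T := (N s).T) (S := (N s).S) ((hg_g (P.L a ^ P.k a) hi0 hi).mul hU) hc
    (mul_ne_zero ((P.L a ^ P.k a).ne_zero _ _ _) hU0) hc0 h2 (K.cptc s) hps (nodeR_ne N s) (by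
    filter_upwards [(K.c s).open_source.mem_nhds hps] with x hx
    exact nodeCen_T N s hx) (by
    filter_upwards [(K.c s).open_source.mem_nhds hps] with x hx
    exact nodeCen_S' N s hx)
  obtain ⟨U', c', hU', hc', hU0', hc0', h4⟩ := h3
  refine ⟨U', c', hU', hc', hU0', hc0', ?_⟩
  have h5 : ∀ᶠ v : Cn 2 in 𝓝 0, K.c s (s : M) + v ∈ (K.c s).target := by
    have h6 : ContinuousAt (fun v : Cn 2 => K.c s (s : M) + v) 0 := by fun_prop
    refine h6.eventually ((K.c s).open_target.mem_nhds ?_)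
    show K.c s (s : M) + 0 ∈ (K.c s).target
    have h7 := (K.c s).map_source hps
    rwa [← add_zero (K.c s (s : M))] at h7
  filter_upwards [h4, h5] with v h6 h7
  rw [← h6]
  exact K.up_of_mem (i := Sum.inr s) (P.s a) ((K.c s).map_target h7)

end Node

/-! ### the special centre -/

section P0

open Crest.Agent.R272.P1L_426 (Ch F8)
open Crest.Agent.R272.P1S_590 (A1 u0_false u1_false)
open Crest.Agent.R272.NlB_426 Crest.Agent.R272.Nl_595 Crest.Agent.R272.Ne_595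

variable {k : ℂ}

/-- the special centre as a centre -/
def c0 (k : ℂ) : Z k := ⟨P0, mem_P0 k⟩

theorem not_src_p1 : Ch.p p1 ∉ (A1.e true).source := by
  intro h
  have h1 := P1S_590.mem_src_pt (a0 := 1) (a1 := 0) (Or.inl one_ne_zero) (s := true)
  rw [rep_p1.p] at h
  have h2 := h1.1 h
  simp at h2
  norm_num at h2

/-- the type of the special centre -/
theorem ty_P0 (hk : k ^ 4 = 8 * I) : ty hk (c0 k) = .P := by
  have h := is_ty hk (c0 k)
  have hd : dl false p1 ≠ 0 := by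
    intro h0
    have h1 := dl_p1
    rw [h0] at h1
    norm_num at h1
  have hr : rh false p1 ≠ 0 := by
    intro h0
    have h1 := rh_p1
    rw [h0] at h1
    norm_num at h1
    exact I_ne_zero h1.symm
  have m1 := h.m1
  have t0 := h.T0
  generalize ty hk (c0 k) = y at m1 t0
  cases y
  · rfl
  · exact absurd m1 not_src_p1
  · exact absurd t0 hd
  · exact absurd m1 not_src_p1
  · exact absurd t0 hd
  · exact absurd t0 hr

theorem sh_P0 (hk : k ^ 4 = 8 * I) : (node hk (c0 k)).sh = ![.tac, .star 1] := by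
  rw [node_sh, ty_P0 hk]
  rfl

theorem T_P0 (hk : k ^ 4 = 8 * I) : (node hk (c0 k)).T = fun q => t1 false q.1 := by
  rw [node_T, ty_P0 hk]
  rfl

theorem S_P0 (hk : k ^ 4 = 8 * I) : (node hk (c0 k)).S = fun q => om false q.2 := by
  rw [node_S, ty_P0 hk]
  rfl

/-- **the form of `s_N` at the special centre, with the value `g0 k ^ 2` of the coefficient** -/
theorem hN_P0 (hk : k ^ 4 = 8 * I) (hZ : (Z k).Finite) :
    FormV (g0 k) ((D1 (PN k) hZ (node hk)).phi (((nodeCen (node hk)).pd (PN k)).s 1) (c0 k)) := by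
  obtain ⟨i, hi, hri⟩ := exists_chart Ch src_p1
  obtain ⟨j, hj, hrj⟩ := exists_chart F8 src_p2
  have hP : NF_140.Pt (fam (Ch.atlX.prod F8.atlX)) (p1, p2)
    (fun q => t1 false q.1) (fun q => dl false q.1) (fun q => rh false q.1) :=
      ptC (AC := Ch.atlX) (AF := F8.atlX) Ch.cmp_atlX (b := p2) src_p1
  have hU : HG (fam (Ch.atlX.prod F8.atlX)) (p1, p2)
      (fun q : Ch.X × F8.X => t1 false q.1 ^ 8 - I) := NF_140.hg_tI hP.ht
  have hU0 : (fun q : Ch.X × F8.X => t1 false q.1 ^ 8 - I) (p1, p2) ≠ 0 := by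
    show t1 false p1 ^ 8 - I ≠ 0
    rw [t1_p1]
    norm_num
  have hd : HG (fam (Ch.atlX.prod F8.atlX)) (p1, p2) (fun q : Ch.X × F8.X => dl false q.1) := hP.hd
  have hcc : HG (fam (Ch.atlX.prod F8.atlX)) (p1, p2) (fun q : Ch.X × F8.X =>
      k * dl false q.1 ^ 2 * (t1 false q.1 ^ 8 - I)⁻¹) :=
    ((HG.const k).mul (hd.pow 2)).mul (hU.inv hU0)
  refine node_formV hZ (node hk) (c0 k) 1 (i := (i, j)) ⟨hi, hj⟩ hU hcc hU0 ?_ ?_
  · show k * dl false p1 ^ 2 * (t1 false p1 ^ 8 - I)⁻¹ = _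
    rw [t1_p1, dl_p1, g0_sq]
    have : (0 : ℂ) ^ 8 - I = -I := by norm_num
    rw [this, inv_neg, inv_I]
    ring
  · rw [T_P0 hk, S_P0 hk]
    have h1 : ∀ᶠ y : Ch.X × F8.X in 𝓝 (p1, p2), t1 false y.1 ^ 8 - I ≠ 0 :=
      hU.continuousAt.eventually_ne hU0
    filter_upwards [ev_sN (k := k) hi hj hri hrj, h1] with y hy hy0
    refine hy.trans ?_
    simp only [Tra3_178.sN, t0_false, ze_false]
    field_simp

end P0

end

end Crest.Agent.R272.CycI_760
end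

-- ▼ part R272/CycI2_760
section

/-!
# R272 (S0414), the instance of the curves (helper760), part 2: the cycle on 102's tower

* `cyc`   : `CycD (asm ..)` from the two sheets of helper266;
* `pr_Z`  : the four curves lie over the centre;
* `slopeA`, `slopeB` : the values of `S / T` along the curves (83's (V1), (V2));
* the same for `M : NLoc k` with the node of type `P` at `P0` : `curM`, `pN_curM`, `slopeM`, `slopeM'`.
-/

set_option autoImplicit false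
set_option linter.unusedSectionVars false

open Set Filter Topology Complex

namespace Crest.Agent.R272.CycI_760

open Crest.Agent.R275.Geo Crest.Agent.R275.Core144
open Crest.Agent.R273.Map_835 Crest.Agent.R273.Fam_835 Crest.Agent.R273.PB_835
open Crest.Agent.R272.DCov_426 Crest.Agent.R272.Adp_409
open Crest.Agent.R272.Blup1_102 Crest.Agent.R272.BlA_266 Crest.Agent.R272.Asm2_102
open Crest.Agent.R272.Cyc_760 Crest.Agent.R272.CyB_894 Crest.Agent.R272.Gm3_235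
open Crest.Agent.R272.Top14_414

noncomputable section

section gen

variable {M : Type} [TopologicalSpace M] [T2Space M] {A : Atl 2 M} (P : PD A (Fin 2))
  (hk : ∀ a, P.k a = 2) {Z : Set M} (hZ : Z.Finite) (N : ∀ x : Z, Node P (x : M))
  (hadm : ∀ x, Adm (N x).sh) (hoff : ∀ x, x ∉ Z → P.Snc x)
  (t : (D1 P hZ N).S) (ht : t ∈ tau (D1 P hZ N) (sh1 P hZ N)) {B B' : V2 ≃L[ℂ] V2}
  (Sα : Sheet (asm P hk hZ N hadm hoff) 0 1 ((two14 P hZ N t ht).str.pre B))
  (Sβ : Sheet (asm P hk hZ N hadm hoff) 1 0 ((exc (D2 P hZ N) (two14 P hZ N t ht).s2).pre B'))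

/-- **the cycle on the tower** -/
def cyc : CycD (asm P hk hZ N hadm hoff) := (two14 P hZ N t ht).cycD B B' Sα Sβ


/-- the four curves lie over the centre -/
theorem pr_Z {x : (asm P hk hZ N hadm hoff).X} (hx : x ∈ (cyc P hk hZ N hadm hoff t ht Sα Sβ).Z) :
    piN P hZ N ((asm P hk hZ N hadm hoff).p x) = t.1 := by
  rcases (cyc P hk hZ N hadm hoff t ht Sα Sβ).p_mem_of_Z hx with ⟨w, hw, h⟩ | ⟨w, hw, h⟩
  · rw [← h]
    exact base_str14 P hZ N t ht ((map_ne_zero_iff _ B.injective).2 hw)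
  · rw [← h]
    exact base_exc14 P hZ N t ht (B' w)



end gen

/-! ### the literal model -/

section model

open Crest.Agent.R272.P1L_426 (Ch F8)
open Crest.Agent.R272.NlB_426 Crest.Agent.R272.Nl_595 Crest.Agent.R272.Ne_595

variable {k : ℂ} (M : NLoc k)

/-- the node at `P0` is the one of type `P` -/
structure NodeP0 : Prop where
  T : (M.N (c0 k)).T = fun q => t1 false q.1
  S : (M.N (c0 k)).S = fun q => om false q.2
  sh : (M.N (c0 k)).sh = ![.tac, .star 1]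

variable {M} (h : NodeP0 M)

include h in
theorem tau_P0 : c0 k ∈ tau (D1 (PN k) M.fin M.N) (sh1 (PN k) M.fin M.N) := by
  refine ⟨0, ?_⟩
  show (M.N (c0 k)).sh 0 = .tac
  rw [h.sh]
  rfl

/-- the curves of the base -/
def twoM : Two M.C1 M.C2 := two14 (PN k) M.fin M.N (c0 k) (tau_P0 h)

variable {γ : ℂ} {hγ : γ ≠ 0} {B' : V2 ≃L[ℂ] V2}
  (Sα : Sheet M.D 0 1 ((twoM h).str.pre (BlS_266.Bg γ hγ)))
  (Sβ : Sheet M.D 1 0 ((exc M.C2 (twoM h).s2).pre B'))

/-- **the cycle on the literal model** -/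
def curM : CycD M.D := (twoM h).cycD (BlS_266.Bg γ hγ) B' Sα Sβ




/-- the four curves lie over `P0` -/
theorem pN_Z {x : M.D.X} (hx : x ∈ (curM h Sα Sβ).Z) : pN M x = P0 :=
  pr_Z (PN k) (PN_k k) M.fin M.N M.adm M.off (c0 k) (tau_P0 h) Sα Sβ hx





end model

end

end Crest.Agent.R272.CycI_760
end

-- ▼ part R272/BlS2_266
section

/-!
# R272 (S0414), S14-SHEET (helper266), part 2: frames on the exceptional curve and on its strict
transform

* `excFr`: frame of `bL C L m` along `exc C s`: `κ / (w b) ^ m` in the chart `inr (s, b)`;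
* `strFr`: frame of `bL C₂ (bL C₁ L m₁) m₂` along the strict transform:
  `κ (w 1) ^ m₂ / (w b) ^ m₁` in the chart `inl (inr (s₁, b))`, `κ 5 ^ m₂ / (w 0) ^ (m₁ - m₂)` in the
  chart `inr (s₂, 1)`;
* `val_star`, `val_tac`, `val_unit`: the divided sections along `exc C s`.
-/

set_option autoImplicit false
set_option linter.unusedSectionVars false

open Set Filter Topology

namespace Crest.Agent.R272.BlS_266

open Crest.Agent.R275.Geo Crest.Agent.R275.Core144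
open Crest.Agent.R273.Map_835 Crest.Agent.R273.Fam_835 Crest.Agent.R273.PB_835
open Crest.Agent.R272.CpRat423 Crest.Agent.R272.DCov_426 Crest.Agent.R272.Cyc_760
open Crest.Agent.R272.Blup1_102 Crest.Agent.R272.Blup1_102.Ctr
open Crest.Agent.R272.BlA_266 Crest.Agent.R272.BlA_266.PD Crest.Agent.R272.CyB_894
open Crest.Agent.R272.CyB_894.Two

noncomputable section

/-- where the exceptional curve is in the chart `(s, a)` -/
def Dm (a : Fin 2) : Set V2 := {w | w a ≠ 0 ∧ ∀ b, b ≠ a → ‖w b‖ < 2 * ‖w a‖}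

theorem isOpen_Dm (a : Fin 2) : IsOpen (Dm a) := by
  have h1 : IsOpen {w : V2 | w a ≠ 0} := isOpen_ne_fun (continuous_apply a) continuous_const
  have h2 : IsOpen (⋂ b : Fin 2, {w : V2 | b ≠ a → ‖w b‖ < 2 * ‖w a‖}) := by
    refine isOpen_iInter_of_finite fun b => ?_
    by_cases hb : b = a
    · have : {w : V2 | b ≠ a → ‖w b‖ < 2 * ‖w a‖} = univ := by
        ext w
        simp [hb]
      rw [this]
      exact isOpen_univ
    · have : {w : V2 | b ≠ a → ‖w b‖ < 2 * ‖w a‖} = {w : V2 | ‖w b‖ < 2 * ‖w a‖} := by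
        ext w
        simp [hb]
      rw [this]
      exact isOpen_lt (continuous_apply b).norm (continuous_const.mul (continuous_apply a).norm)
  have h3 : Dm a = {w : V2 | w a ≠ 0} ∩ ⋂ b : Fin 2, {w : V2 | b ≠ a → ‖w b‖ < 2 * ‖w a‖} := by
    ext w
    simp [Dm]
  rw [h3]
  exact h1.inter h2

theorem Dm_smul {a : Fin 2} {c : ℂ} (hc : c ≠ 0) {w : V2} (hw : w ∈ Dm a) : c • w ∈ Dm a := by
  refine ⟨mul_ne_zero hc hw.1, fun b hb => ?_⟩
  have h1 := hw.2 b hb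
  have h2 : 0 < ‖c‖ := norm_pos_iff.2 hc
  simp only [Pi.smul_apply, smul_eq_mul, norm_mul]
  nlinarith

theorem Dm_ne {a : Fin 2} {w : V2} (hw : w ∈ Dm a) : w ≠ 0 := by
  rintro rfl
  exact hw.1 rfl

theorem Dm_cover {w : V2} (hw : w ≠ 0) : ∃ a, w ∈ Dm a := by
  obtain ⟨a, ha, hm⟩ := exists_max (L2_ne hw)
  refine ⟨a, ha, fun b _ => ?_⟩
  have h1 : 0 < ‖w a‖ := norm_pos_iff.2 ha
  have h2 : ‖w b‖ ≤ ‖w a‖ := hm b
  linarith

variable {M : Type} [TopologicalSpace M] [T2Space M] {A : Atl 2 M}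

section Exc

variable (C : Ctr A) (s : C.S)

theorem exc_mem {a : Fin 2} {w : V2} (hw : w ∈ Dm a) : eG C s w ∈ C.V s a :=
  (eG_mem_V C s (Dm_ne hw)).2 ⟨rfl, hw.1, hw.2⟩

theorem dv_ratio {a b : Fin 2} {w : V2} (ha : w ∈ Dm a) (hb : w ∈ Dm b) :
    C.dv s (eG C s w) b / C.dv s (eG C s w) a = w b / w a := by
  rw [C.dv_div (exc_mem C s ha) b, co_eG C s (Dm_ne ha) ha.1, W_apply]
  by_cases h : b = a
  · subst h
    simp [hb.1]
  · simp [h]

theorem bL_g_gen (L : LB A) (m : C.S → ℕ) {i j : C.atl.ι} {y : C.X}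
    (h : y ∈ (C.atl.e i).source ∩ (C.atl.e j).source) :
    (bL C L m).g i j y = L.g (C.refPi.r i) (C.refPi.r j) (C.pi y) *
      (C.fr (-C.kz m) i y / C.fr (-C.kz m) j y) := by
  show (pullLB C.holMap_pi C.refPi L).g i j y * (C.OE (-C.kz m)).g i j y = _
  rw [pullLB_g _ _ _ h, C.OE_g _ h]

theorem fr_inr' (m : C.S → ℕ) (s : C.S) (a : Fin 2) (y : C.X) :
    C.fr (-C.kz m) (Sum.inr (s, a)) y = ((C.dv s y a) ^ m s)⁻¹ := by
  rw [fr_inr, Pi.neg_apply, kz, zpow_neg, zpow_natCast]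

theorem bL_g_exc (L : LB A) (m : C.S → ℕ) {a b : Fin 2} {w : V2} (ha : w ∈ Dm a) (hb : w ∈ Dm b) :
    (bL C L m).g (Sum.inr (s, a)) (Sum.inr (s, b)) (eG C s w) = (w b / w a) ^ m s := by
  have h1 : eG C s w ∈ (C.atl.e (Sum.inr (s, a))).source ∩ (C.atl.e (Sum.inr (s, b))).source :=
    ⟨exc_mem C s ha, exc_mem C s hb⟩
  refine (bL_g_gen C L m h1).trans ?_
  show L.g (C.i s) (C.i s) _ * _ = _
  rw [L.self, one_mul, fr_inr', fr_inr', ← dv_ratio C s ha hb, div_pow]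
  have h4 := pow_ne_zero (m s) (C.dv_ne (exc_mem C s ha))
  have h5 := pow_ne_zero (m s) (C.dv_ne (exc_mem C s hb))
  field_simp

variable (L : LB A) (m : C.S → ℕ) (d : ℕ) (hd : m s = d) (κ₀ : ℂ) (hκ : κ₀ ≠ 0)

/-- the frame on the exceptional curve -/
def excFr : LocFr (bL C L m) (exc C s) d where
  κ := Fin 2
  j b := Sum.inr (s, b)
  O b := Dm b
  f b w := κ₀ * ((w b) ^ d)⁻¹
  hO := isOpen_Dm
  cover w hw := Dm_cover hw
  src b w hw := exc_mem C s hw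
  tr a b w ha hb := by
    rw [exc_G, bL_g_exc C s L m ha hb, hd, div_pow]
    have h4 := pow_ne_zero d ha.1
    have h5 := pow_ne_zero d hb.1
    field_simp
  ne b w hw := mul_ne_zero hκ (inv_ne_zero (pow_ne_zero _ hw.1))
  hol b w hw := by
    have h1 : DifferentiableAt ℂ (fun w : V2 => (w b) ^ d) w := by fun_prop
    exact (h1.fun_inv (pow_ne_zero _ hw.1)).const_mul κ₀
  hom b c hc w hw := by
    refine ⟨Dm_smul hc hw, ?_⟩
    have h4 := pow_ne_zero d hw.1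
    have h5 := pow_ne_zero d hc
    rw [Pi.smul_apply, smul_eq_mul, mul_pow]
    field_simp

end Exc

/-! ### the strict transform -/

section Str

variable {C1 : Ctr A} {C2 : Ctr C1.atl} (t : Two C1 C2)

/-- where the strict transform is in the chart `(s₂, 1)` -/
def Dn : Set V2 := {w | w 0 ≠ 0 ∧ ‖x w‖ < C2.r t.s2}

theorem isOpen_Dn : IsOpen (Dn t) := by
  rw [isOpen_iff_mem_nhds]
  intro w hw
  have h1 : ContinuousAt (fun w : V2 => w 0) w := (continuous_apply 0).continuousAt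
  have h2 : ContinuousAt (fun w : V2 => ‖x w‖) w := (differentiableAt_x hw.1).continuousAt.norm
  filter_upwards [h1.eventually_ne hw.1, h2.eventually (gt_mem_nhds hw.2)] with v h3 h4
  exact ⟨h3, h4⟩

theorem x_smul {c : ℂ} (hc : c ≠ 0) (w : V2) : x (c • w) = x w := by
  rw [x, x, Pi.smul_apply, Pi.smul_apply, smul_eq_mul, smul_eq_mul, mul_div_mul_left _ _ hc]

theorem Dn_smul {c : ℂ} (hc : c ≠ 0) {w : V2} (hw : w ∈ Dn t) : c • w ∈ Dn t := by
  refine ⟨mul_ne_zero hc hw.1, ?_⟩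
  rw [x_smul hc]
  exact hw.2

/-- over the second centre's neighbourhood we are in the chart `(s₁, 0)` -/
theorem Dn_sub {w : V2} (hw : w ∈ Dn t) : w ∈ Dm 0 := by
  have h1 := t.mem_T1 hw.2
  have h2 : ‖w 1 / w 0‖ < 2 := by
    have h3 := h1.2 1 (by decide)
    rw [PiLp.smul_apply, vx_one, smul_eq_mul, x, mul_div_cancel₀ _ (by norm_num : (5 : ℂ) ≠ 0)] at h3
    exact h3
  refine ⟨hw.1, fun b hb => ?_⟩
  have : b = 1 := by
    fin_cases b
    · exact absurd rfl hb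
    · rfl
  rw [this]
  rwa [norm_div, div_lt_iff₀ (norm_pos_iff.2 hw.1)] at h2

theorem str_mem_inl {a : Fin 2} {w : V2} (ha : w ∈ Dm a) (h1 : w 1 ≠ 0) :
    t.sG w ∈ (C2.atl.e (Sum.inl (Sum.inr (t.s1, a)))).source :=
  (t.mem_inl (Dm_ne ha)).2 ⟨h1, exc_mem C1 t.s1 ha⟩

theorem str_mem_inr {w : V2} (hw : w ∈ Dn t) :
    t.sG w ∈ (C2.atl.e (Sum.inr (t.s2, 1))).source := t.sG_mem_V hw.1 hw.2

/-- the coordinate at the second centre -/
theorem z2_eq {w : V2} (hw : w ∈ Dn t) : C2.z t.s2 (eG C1 t.s1 w) 1 = x w := by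
  have hwn : w ≠ 0 := Dm_ne (Dn_sub t hw)
  have h1 := co_apply C2 t.s2 1 (t.sG w) 1
  rw [if_pos rfl, t.co_sG hw.1 hw.2, vx_one, t.pi_sG hwn] at h1
  exact h1.symm

variable (L : LB A) (m₁ : C1.S → ℕ) (m₂ : C2.S → ℕ)

theorem bL2_g_inl {a b : Fin 2} {w : V2} (ha : w ∈ Dm a) (hb : w ∈ Dm b) (h1 : w 1 ≠ 0) :
    (bL C2 (bL C1 L m₁) m₂).g (Sum.inl (Sum.inr (t.s1, a))) (Sum.inl (Sum.inr (t.s1, b)))
      (t.sG w) = (w b / w a) ^ m₁ t.s1 := by
  have h2 : t.sG w ∈ (C2.atl.e (Sum.inl (Sum.inr (t.s1, a)))).source ∩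
      (C2.atl.e (Sum.inl (Sum.inr (t.s1, b)))).source :=
    ⟨str_mem_inl t ha h1, str_mem_inl t hb h1⟩
  refine (bL_g_gen C2 (bL C1 L m₁) m₂ h2).trans ?_
  show (bL C1 L m₁).g (Sum.inr (t.s1, a)) (Sum.inr (t.s1, b)) (C2.pi (t.sG w)) * (1 / 1) = _
  rw [t.pi_sG (Dm_ne ha), bL_g_exc C1 t.s1 L m₁ ha hb, div_one, mul_one]

theorem bL2_g_inr {a : Fin 2} {w : V2} (ha : w ∈ Dm a) (h1 : w 1 ≠ 0) (hw : w ∈ Dn t) :
    (bL C2 (bL C1 L m₁) m₂).g (Sum.inl (Sum.inr (t.s1, a))) (Sum.inr (t.s2, 1)) (t.sG w) =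
      (w 0 / w a) ^ m₁ t.s1 * (x w) ^ m₂ t.s2 := by
  have h2 : t.sG w ∈ (C2.atl.e (Sum.inl (Sum.inr (t.s1, a)))).source ∩
      (C2.atl.e (Sum.inr (t.s2, 1))).source := ⟨str_mem_inl t ha h1, str_mem_inr t hw⟩
  have hZ : C2.pi (t.sG w) ∉ C2.Z := fun h => h1 ((t.mem_Z_iff (Dm_ne ha)).1 h)
  refine (bL_g_gen C2 (bL C1 L m₁) m₂ h2).trans ?_
  show (bL C1 L m₁).g (Sum.inr (t.s1, a)) (C2.i t.s2) (C2.pi (t.sG w)) *
    (1 / C2.fr (-C2.kz m₂) (Sum.inr (t.s2, 1)) (t.sG w)) = _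
  have h3 := bL_g_exc C1 t.s1 L m₁ ha (Dn_sub t hw)
  rw [fr_inr', C2.dv_off hZ, t.pi_sG (Dm_ne ha), z2_eq t hw, one_div, inv_inv, t.hi]
  rw [h3]

theorem tr_symm {n : ℕ} {N : Type} [TopologicalSpace N] {B : Atl n N} (L : LB B) {i j : B.ι}
    {y : N} {u v : ℂ} (h : u = L.g i j y * v) : v = L.g j i y * u := by
  rw [h, ← mul_assoc, L.mul_symm, one_mul]

variable (d : ℕ) (hd : m₁ t.s1 = m₂ t.s2 + d) (κ₀ : ℂ) (hκ : κ₀ ≠ 0)

include hd in
theorem tr_inr {a : Fin 2} {w : V2} (ha : w ∈ Dm a) (h1 : w 1 ≠ 0) (hw : w ∈ Dn t) :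
    κ₀ * (w 1) ^ m₂ t.s2 * ((w a) ^ m₁ t.s1)⁻¹ =
      (bL C2 (bL C1 L m₁) m₂).g (Sum.inl (Sum.inr (t.s1, a))) (Sum.inr (t.s2, 1)) (t.sG w) *
        (κ₀ * 5 ^ m₂ t.s2 * ((w 0) ^ d)⁻¹) := by
  rw [bL2_g_inr t L m₁ m₂ ha h1 hw, x, div_pow, div_pow, div_pow]
  have h2 : (w 0) ^ m₁ t.s1 = (w 0) ^ m₂ t.s2 * (w 0) ^ d := by rw [hd, pow_add]
  rw [h2]
  have h3 := pow_ne_zero (m₂ t.s2) hw.1
  have h4 := pow_ne_zero d hw.1
  have h5 := pow_ne_zero (m₁ t.s1) ha.1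
  have h6 : (5 : ℂ) ^ m₂ t.s2 ≠ 0 := pow_ne_zero _ (by norm_num)
  field_simp

/-- the frame on the strict transform -/
def strFr : LocFr (bL C2 (bL C1 L m₁) m₂) t.str d where
  κ := Option (Fin 2)
  j a := a.elim (Sum.inr (t.s2, 1)) fun a => Sum.inl (Sum.inr (t.s1, a))
  O a := a.elim (Dn t) fun a => Dm a ∩ {w | w 1 ≠ 0}
  f a w := a.elim (κ₀ * 5 ^ m₂ t.s2 * ((w 0) ^ d)⁻¹) fun a =>
    κ₀ * (w 1) ^ m₂ t.s2 * ((w a) ^ m₁ t.s1)⁻¹
  hO a := by
    cases a with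
    | none => exact isOpen_Dn t
    | some a => exact (isOpen_Dm a).inter (isOpen_ne_fun (continuous_apply 1) continuous_const)
  cover w hw := by
    by_cases h1 : w 1 = 0
    · refine ⟨none, ne_zero_of_one hw h1, ?_⟩
      rw [x, h1, zero_div, zero_div, norm_zero]
      exact C2.r_pos _
    · obtain ⟨a, ha⟩ := Dm_cover hw
      exact ⟨some a, ha, h1⟩
  src a w hw := by
    cases a with
    | none => exact str_mem_inr t hw
    | some a => exact str_mem_inl t hw.1 hw.2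
  tr a b w ha hb := by
    cases a with
    | none =>
      cases b with
      | none =>
        show _ = _ * _
        rw [LB.self, one_mul]
      | some b => exact tr_symm _ (tr_inr t L m₁ m₂ d hd κ₀ hb.1 hb.2 ha)
    | some a =>
      cases b with
      | none => exact tr_inr t L m₁ m₂ d hd κ₀ ha.1 ha.2 hb
      | some b =>
        show κ₀ * (w 1) ^ m₂ t.s2 * ((w a) ^ m₁ t.s1)⁻¹ =
          (bL C2 (bL C1 L m₁) m₂).g (Sum.inl (Sum.inr (t.s1, a))) (Sum.inl (Sum.inr (t.s1, b)))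
            (t.sG w) * (κ₀ * (w 1) ^ m₂ t.s2 * ((w b) ^ m₁ t.s1)⁻¹)
        rw [bL2_g_inl t L m₁ m₂ ha.1 hb.1 ha.2, div_pow]
        have h4 := pow_ne_zero (m₁ t.s1) ha.1.1
        have h5 := pow_ne_zero (m₁ t.s1) hb.1.1
        field_simp
  ne a w hw := by
    cases a with
    | none =>
      exact mul_ne_zero (mul_ne_zero hκ (pow_ne_zero _ (by norm_num)))
        (inv_ne_zero (pow_ne_zero _ hw.1))
    | some a =>
      exact mul_ne_zero (mul_ne_zero hκ (pow_ne_zero _ hw.2)) (inv_ne_zero (pow_ne_zero _ hw.1.1))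
  hol a w hw := by
    cases a with
    | none =>
      have h1 : DifferentiableAt ℂ (fun w : V2 => (w 0) ^ d) w := by fun_prop
      exact (h1.fun_inv (pow_ne_zero _ hw.1)).const_mul _
    | some a =>
      have h1 : DifferentiableAt ℂ (fun w : V2 => (w a) ^ m₁ t.s1) w := by fun_prop
      have h2 : DifferentiableAt ℂ (fun w : V2 => κ₀ * (w 1) ^ m₂ t.s2) w := by fun_prop
      exact h2.mul (h1.fun_inv (pow_ne_zero _ hw.1.1))
  hom a c hc w hw := by
    cases a with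
    | none =>
      refine ⟨Dn_smul t hc hw, ?_⟩
      show c ^ d * (κ₀ * 5 ^ m₂ t.s2 * ((c * w 0) ^ d)⁻¹) = κ₀ * 5 ^ m₂ t.s2 * ((w 0) ^ d)⁻¹
      have h4 := pow_ne_zero d hw.1
      have h5 := pow_ne_zero d hc
      rw [mul_pow]
      field_simp
    | some a =>
      refine ⟨⟨Dm_smul hc hw.1, mul_ne_zero hc hw.2⟩, ?_⟩
      show c ^ d * (κ₀ * (c * w 1) ^ m₂ t.s2 * ((c * w a) ^ m₁ t.s1)⁻¹) =
        κ₀ * (w 1) ^ m₂ t.s2 * ((w a) ^ m₁ t.s1)⁻¹
      have h4 := pow_ne_zero (m₁ t.s1) hw.1.1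
      have h5 := pow_ne_zero d hc
      have h6 := pow_ne_zero (m₂ t.s2) hc
      have h7 : c ^ m₁ t.s1 = c ^ m₂ t.s2 * c ^ d := by rw [hd, pow_add]
      rw [mul_pow, mul_pow, h7]
      field_simp

end Str

end

end Crest.Agent.R272.BlS_266
end

-- ▼ part R272/BlS3_266
section

/-!
# R272 (S0414), S14-SHEET (helper266), part 3: the two sheets

* `val_star`, `val_tac`, `val_unit`: the divided sections along `exc C s`;
* `second_form`: the explicit local form at the second centre;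
* `Lf`: the local forms of the two sections at the first centre (with explicit units);
* `Lf.Sa : Sheet D 0 1 (t.str.pre (Bg g hg))`, `Lf.Sb : Sheet D 1 0 ((exc C2 t.s2).pre (Bg g' hg'))`,
  `g ^ 2 = cN 0`, `g' ^ 2 = cM 0`, frames with constants `κM ^ 2 = UM 0`, `κN ^ 2 = UN 0`.
-/

set_option autoImplicit false
set_option linter.unusedSectionVars false

open Set Filter Topology

namespace Crest.Agent.R272.BlS_266

open Crest.Agent.R275.Geo Crest.Agent.R275.Core144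
open Crest.Agent.R273.Map_835 Crest.Agent.R273.Fam_835 Crest.Agent.R273.PB_835
open Crest.Agent.R272.CpRat423 Crest.Agent.R272.DCov_426 Crest.Agent.R272.Cyc_760
open Crest.Agent.R272.Blup1_102 Crest.Agent.R272.Blup1_102.Ctr
open Crest.Agent.R272.BlA_266 Crest.Agent.R272.CyB_894
open Crest.Agent.R272.CyB_894.Two

noncomputable section

variable {M : Type} [TopologicalSpace M] [T2Space M] {A : Atl 2 M}

section Val

variable {C : Ctr A} {s : C.S} {ρ : Type} (P : PD A ρ) {m : ρ → C.S → ℕ}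
  (hm : ∀ a, C.Ord (P.s a) (fun t => P.k a * m a t))

theorem two_cases (b : Fin 2) : b = 0 ∨ b = 1 := by fin_cases b <;> simp

theorem co_self {b : Fin 2} {w : V2} (hw : w ∈ Dm b) : C.co s b (eG C s w) b = 0 := by
  rw [co_eG C s (Dm_ne hw) hw.1]
  simp

theorem co_oth {a b : Fin 2} (hab : a ≠ b) {w : V2} (hw : w ∈ Dm b) :
    C.co s b (eG C s w) a = w a / w b := by
  rw [co_eG C s (Dm_ne hw) hw.1]
  simp [hab]

theorem val_Psi (a : ρ) {b : Fin 2} {w : V2} (hw : w ∈ Dm b) :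
    (P.bl C m hm).s a (Sum.inr (s, b)) (eG C s w) =
      C.Psi (P.hs a) (hm a) s b (C.co s b (eG C s w)) :=
  P.bl_s_inr hm a (exc_mem C s hw)

/-- star form -/
theorem val_star {a : ρ} {p : ℕ} (hma : P.k a * m a s = p) {U c : Cn 2 → ℂ}
    (hU : ContinuousAt U 0) (hc : ContinuousAt c 0)
    (he : ∀ᶠ v in 𝓝 0, C.phi (P.s a) s v = U v * (v 1 ^ p - v 0 ^ p * c v)) {b : Fin 2} {w : V2}
    (hw : w ∈ Dm b) : (P.bl C m hm).s a (Sum.inr (s, b)) (eG C s w) =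
      U 0 * (w 1 ^ p - c 0 * w 0 ^ p) * ((w b) ^ p)⁻¹ := by
  have hu : C.co s b (eG C s w) ∈ C.T s b := C.co_mem (exc_mem C s hw)
  have hub := co_self (C := C) (s := s) hw
  refine (val_Psi P hm a hw).trans ?_
  have hb0 := pow_ne_zero p hw.1
  rcases two_cases b with rfl | rfl
  · have h := (Psi_E0 (P.hs a) (hm a) le_rfl hma hU hc he hu hub).1
    refine h.trans ?_
    rw [co_oth (C := C) (s := s) (a := 1) (b := 0) (by decide) hw, Nat.sub_self, pow_zero, one_mul,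
      div_pow]
    have hb0' : (w 0) ^ p ≠ 0 := hb0
    show _ = _ * (w 0 ^ p)⁻¹
    field_simp
  · have h := (Psi_E1 (P.hs a) (hm a) le_rfl hma hU hc he hu hub).1
    refine h.trans ?_
    rw [co_oth (C := C) (s := s) (a := 0) (b := 1) (by decide) hw, Nat.sub_self, pow_zero, mul_one,
      div_pow]
    have hb0' : (w 1) ^ p ≠ 0 := hb0
    show _ = _ * (w 1 ^ p)⁻¹
    field_simp

/-- tacnode form -/
theorem val_tac {a : ρ} {p q : ℕ} (hpq : p < q) (hma : P.k a * m a s = p) {U c : Cn 2 → ℂ}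
    (hU : ContinuousAt U 0) (hc : ContinuousAt c 0)
    (he : ∀ᶠ v in 𝓝 0, C.phi (P.s a) s v = U v * (v 1 ^ p - v 0 ^ q * c v)) {b : Fin 2} {w : V2}
    (hw : w ∈ Dm b) : (P.bl C m hm).s a (Sum.inr (s, b)) (eG C s w) =
      U 0 * w 1 ^ p * ((w b) ^ p)⁻¹ := by
  have hu : C.co s b (eG C s w) ∈ C.T s b := C.co_mem (exc_mem C s hw)
  have hub := co_self (C := C) (s := s) hw
  have hs : q - p ≠ 0 := Nat.sub_ne_zero_of_lt hpq
  refine (val_Psi P hm a hw).trans ?_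
  have hb0 := pow_ne_zero p hw.1
  rcases two_cases b with rfl | rfl
  · have h := (Psi_E0 (P.hs a) (hm a) hpq.le hma hU hc he hu hub).1
    refine h.trans ?_
    rw [co_oth (C := C) (s := s) (a := 1) (b := 0) (by decide) hw, zero_pow hs, zero_mul, sub_zero,
      div_pow]
    show _ = _ * (w 0 ^ p)⁻¹
    ring
  · have h := (Psi_E1 (P.hs a) (hm a) hpq.le hma hU hc he hu hub).1
    refine h.trans ?_
    rw [zero_pow hs, mul_zero, zero_mul, sub_zero, mul_one]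
    have hb0' : (w 1) ^ p ≠ 0 := hb0
    show _ = _ * (w 1 ^ p)⁻¹
    field_simp

/-- unit form -/
theorem val_unit {a : ρ} (hma : P.k a * m a s = 0) {b : Fin 2} {w : V2} (hw : w ∈ Dm b) :
    (P.bl C m hm).s a (Sum.inr (s, b)) (eG C s w) = C.phi (P.s a) s 0 :=
  (val_Psi P hm a hw).trans (Psi_unit (P.hs a) (hm a) (C.co_mem (exc_mem C s hw))
    (co_self (C := C) (s := s) hw) hma)

end Val

/-! ### the second centre, explicitly -/

section Second

variable {C : Ctr A} {t : C.S} {ρ : Type} (P : PD A ρ) {m : ρ → C.S → ℕ}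
  (hm : ∀ a, C.Ord (P.s a) (fun t => P.k a * m a t))

/-- the point of `A` -/
def bd (v : Cn 2) : Cn 2 := ((5 : ℂ) • v : Cn 2) 0 • W 0 ((5 : ℂ) • v)

theorem bd_zero : bd 0 = 0 := by
  rw [bd, smul_zero, PiLp.zero_apply, zero_smul]

theorem cont_bd {f : Cn 2 → ℂ} (hf : ContinuousAt f 0) : ContinuousAt (fun v => f (bd v)) 0 := by
  have h1 : Continuous bd := by
    have h2 : Continuous fun v : Cn 2 => (5 : ℂ) • v := by fun_prop
    exact (differentiable_blow (0 : Fin 2)).continuous.comp h2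
  have h3 : ContinuousAt f (bd 0) := by rw [bd_zero]; exact hf
  exact ContinuousAt.comp (g := f) (f := bd) h3 h1.continuousAt

theorem second_form {C₂ : Ctr C.atl} {t₂ : C₂.S} (hi : C₂.i t₂ = Sum.inr (t, 0))
    (hp₂ : C₂.p t₂ = C.ci t 0 0) {a : ρ} {p q : ℕ} (hpq : p ≤ q) (hma : P.k a * m a t = p)
    {U c : Cn 2 → ℂ} (hU : ContinuousAt U 0) (hc : ContinuousAt c 0)
    (he : ∀ᶠ v in 𝓝 0, C.phi (P.s a) t v = U v * (v 1 ^ p - v 0 ^ q * c v)) :
    ∀ᶠ v in 𝓝 0, C₂.phi ((P.bl C m hm).s a) t₂ v = (5 ^ p * U (bd v)) *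
      (v 1 ^ p - v 0 ^ (q - p) * (5 ^ (q - p) / 5 ^ p * c (bd v))) := by
  have h5 : (5 : ℂ) ^ p ≠ 0 := pow_ne_zero _ (by norm_num)
  have hg := Psi_germ0 (P.hs a) (hm a) hpq hma hU hc he (PD.zero_mem_T t 0) rfl
  have h1 : Tendsto (fun v : Cn 2 => (5 : ℂ) • v) (𝓝 0) (𝓝 0) := by
    have h : ContinuousAt (fun v : Cn 2 => (5 : ℂ) • v) 0 := by fun_prop
    have h2 := h.tendsto
    simp only [smul_zero] at h2
    exact h2
  filter_upwards [P.phi_second hm hi hp₂ a, h1.eventually hg] with v h2 h3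
  rw [h2, h3]
  have h4 : ∀ j, ((5 : ℂ) • v : Cn 2) j = 5 * v j := fun j => rfl
  rw [h4 1, h4 0, mul_pow, mul_pow]
  show U (bd v) * (5 ^ p * v 1 ^ p - 5 ^ (q - p) * v 0 ^ (q - p) * c (bd v)) = _
  field_simp

end Second

/-! ### the two sheets -/

/-- the local forms of the two sections at the centre `s` -/
structure Lf (P : PD A (Fin 2)) (C : Ctr A) (s : C.S) (UM cM UN cN : Cn 2 → ℂ) : Prop where
  cUM : ContinuousAt UM 0
  ccM : ContinuousAt cM 0
  cUN : ContinuousAt UN 0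
  ccN : ContinuousAt cN 0
  hM : ∀ᶠ v in 𝓝 0, C.phi (P.s 0) s v = UM v * (v 1 ^ 2 - v 0 ^ 4 * cM v)
  hN : ∀ᶠ v in 𝓝 0, C.phi (P.s 1) s v = UN v * (v 1 ^ 2 - v 0 ^ 2 * cN v)

namespace Lf

variable {C1 : Ctr A} {C2 : Ctr C1.atl} {t : Two C1 C2} {P : PD A (Fin 2)}
  {m : Fin 2 → C1.S → ℕ} {hm : ∀ a, C1.Ord (P.s a) (fun t => P.k a * m a t)}
  {m' : Fin 2 → C2.S → ℕ}
  {hm' : ∀ a, C2.Ord ((P.bl C1 m hm).s a) (fun t => (P.bl C1 m hm).k a * m' a t)}
  {UM cM UN cN : Cn 2 → ℂ} (F : Lf P C1 t.s1 UM cM UN cN)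
  (hsnc : ∀ y, ((P.bl C1 m hm).bl C2 m' hm').Snc y)
  (hk : ∀ a, P.k a = 2) (m0 : m 0 t.s1 = 1) (m1 : m 1 t.s1 = 1) (m0' : m' 0 t.s2 = 1)
  (m1' : m' 1 t.s2 = 0) {κM κN g g' : ℂ} (hκM : κM ^ 2 = UM 0) (hκM0 : κM ≠ 0)
  (hκN : κN ^ 2 = UN 0) (hκN0 : κN ≠ 0) (hg : g ^ 2 = cN 0) (hg0 : g ≠ 0)
  (hg' : g' ^ 2 = cM 0) (hg0' : g' ≠ 0)

/-- the divided section on the second blow-up, along the strict transform, off the second centre -/
theorem s_str (a : Fin 2) {b : Fin 2} {w : V2} (hb : w ∈ Dm b) (h1 : w 1 ≠ 0) :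
    ((P.bl C1 m hm).bl C2 m' hm').s a (Sum.inl (Sum.inr (t.s1, b))) (t.sG w) =
      (P.bl C1 m hm).s a (Sum.inr (t.s1, b)) (eG C1 t.s1 w) := by
  refine ((P.bl C1 m hm).bl_s_inl hm' a (str_mem_inl t hb h1)).trans ?_
  rw [t.pi_sG (Dm_ne hb)]

include F hk m0 m0' hκM in
theorem sa_val {b : Fin 2} {w : V2} (hb : w ∈ Dm b) (h1 : w 1 ≠ 0) :
    ((P.bl C1 m hm).bl C2 m' hm').s 0 (Sum.inl (Sum.inr (t.s1, b))) (t.sG w) =
      (κM * (w 1) ^ m' 0 t.s2 * ((w b) ^ m 0 t.s1)⁻¹) ^ 2 := by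
  rw [s_str 0 hb h1, m0, m0', pow_one, pow_one]
  refine (val_tac P hm (by norm_num : 2 < 4) (by rw [hk, m0]) F.cUM F.ccM F.hM hb).trans ?_
  rw [← hκM]
  ring

include F hk m1 m1' hκN hg in
theorem sb_val {b : Fin 2} {w : V2} (hb : w ∈ Dm b) (h1 : w 1 ≠ 0) :
    ((P.bl C1 m hm).bl C2 m' hm').s 1 (Sum.inl (Sum.inr (t.s1, b))) (t.sG w) =
      (κN * (w 1) ^ m' 1 t.s2 * ((w b) ^ m 1 t.s1)⁻¹) ^ 2 * (w 1 ^ 2 - g ^ 2 * w 0 ^ 2) := by
  rw [s_str 1 hb h1, m1, m1', pow_one, pow_zero]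
  refine (val_star P hm (by rw [hk, m1]) F.cUN F.ccN F.hN hb).trans ?_
  rw [← hκN, hg]
  ring

/-- **the sheet over the strict transform of the first exceptional curve** -/
def Sa : Sheet (((P.bl C1 m hm).bl C2 m' hm').toData hsnc) 0 1 (t.str.pre (BlS_266.Bg g hg0)) :=
  mkSheet (D := ((P.bl C1 m hm).bl C2 m' hm').toData hsnc) (Γ := t.str) (by decide) (hk 0) (hk 1)
    (strFr t (P.L 0) (m 0) (m' 0) 0 (by rw [m0, m0']) κM hκM0)
    (strFr t (P.L 1) (m 1) (m' 1) 1 (by rw [m1, m1']) κN hκN0) (BlS_266.Bg g hg0)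
    (q := fun w => w 1 ^ 2 - g ^ 2 * w 0 ^ 2) (by fun_prop) (fun x => Bg_form g hg0 x)
    (fun w h0 h1 => by
      obtain ⟨b, hb⟩ := Dm_cover (w := w) (fun h => h0 (by rw [h]; rfl))
      exact ⟨some b, ⟨hb, h1⟩, sa_val F hk m0 m0' hκM hb h1⟩)
    (fun w h0 h1 => by
      obtain ⟨b, hb⟩ := Dm_cover (w := w) (fun h => h0 (by rw [h]; rfl))
      exact ⟨some b, ⟨hb, h1⟩, sb_val F hk m1 m1' hκN hg hb h1⟩)

include F hk m1 in
theorem phi2_N : C2.phi ((P.bl C1 m hm).s 1) t.s2 0 = - (UN 0 * cN 0) := by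
  rw [(P.phi_second hm t.hi t.hp 1).self_of_nhds, smul_zero]
  refine (Psi_E0 (P.hs 1) (hm 1) le_rfl (by rw [hk, m1]) F.cUN F.ccN F.hN
    (PD.zero_mem_T t.s1 0) rfl).1.trans ?_
  have h2 : ((0 : Cn 2) 1 : ℂ) = 0 := rfl
  rw [h2]
  norm_num

include F hk m1 m1' hκN hg in
theorem ta_val {b : Fin 2} {w : V2} (hb : w ∈ Dm b) :
    ((P.bl C1 m hm).bl C2 m' hm').s 1 (Sum.inr (t.s2, b)) (eG C2 t.s2 w) =
      (Complex.I * κN * g * ((w b) ^ 0)⁻¹) ^ 2 := by
  refine (val_unit (P.bl C1 m hm) hm' (by rw [m1', mul_zero]) hb).trans ?_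
  rw [phi2_N F hk m1, ← hκN, ← hg, pow_zero, inv_one, mul_one, mul_pow, mul_pow, Complex.I_sq]
  ring

include F hk m0 m0' hκM hg' in
theorem tb_val {b : Fin 2} {w : V2} (hb : w ∈ Dm b) :
    ((P.bl C1 m hm).bl C2 m' hm').s 0 (Sum.inr (t.s2, b)) (eG C2 t.s2 w) =
      (5 * κM * ((w b) ^ 1)⁻¹) ^ 2 * (w 1 ^ 2 - g' ^ 2 * w 0 ^ 2) := by
  have h2 := second_form P hm t.hi t.hp (by norm_num : 2 ≤ 4) (by rw [hk, m0]) F.cUM F.ccM F.hM
  refine (val_star (P.bl C1 m hm) hm' (p := 2) (by rw [PD.bl_k, hk, m0'])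
    ((cont_bd F.cUM).const_mul _) ((cont_bd F.ccM).const_mul _) h2 hb).trans ?_
  rw [bd_zero, ← hκM, ← hg']
  norm_num
  ring

/-- **the sheet over the second exceptional curve** -/
def Sb : Sheet (((P.bl C1 m hm).bl C2 m' hm').toData hsnc) 1 0
    ((exc C2 t.s2).pre (BlS_266.Bg g' hg0')) :=
  mkSheet (D := ((P.bl C1 m hm).bl C2 m' hm').toData hsnc) (Γ := exc C2 t.s2) (by decide) (hk 1)
    (hk 0)
    (excFr C2 t.s2 (PD.bL C1 (P.L 1) (m 1)) (m' 1) 0 m1' (Complex.I * κN * g)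
      (mul_ne_zero (mul_ne_zero Complex.I_ne_zero hκN0) hg0))
    (excFr C2 t.s2 (PD.bL C1 (P.L 0) (m 0)) (m' 0) 1 m0' (5 * κM)
      (mul_ne_zero (by norm_num) hκM0)) (BlS_266.Bg g' hg0')
    (q := fun w => w 1 ^ 2 - g' ^ 2 * w 0 ^ 2) (by fun_prop) (fun x => Bg_form g' hg0' x)
    (fun w h0 _ => by
      obtain ⟨b, hb⟩ := Dm_cover (w := w) (fun h => h0 (by rw [h]; rfl))
      exact ⟨b, hb, ta_val F hk m1 m1' hκN hg hb⟩)
    (fun w h0 _ => by
      obtain ⟨b, hb⟩ := Dm_cover (w := w) (fun h => h0 (by rw [h]; rfl))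
      exact ⟨b, hb, tb_val F hk m0 m0' hκM hg' hb⟩)


end Lf

end

end Crest.Agent.R272.BlS_266
end

-- ▼ part R272/CycI3_760

/-!
# R272 (S0414), the instance of the curves (helper760), part 3: existence of the cycle

* `exists_cyc`   : on 102's tower, at a node of shapes `tac`, `star 1` with `FormV γ`;
* `exists_cycM`  : on the literal model `nloc hk`.
-/

set_option autoImplicit false
set_option linter.unusedSectionVars false

open Set Filter Topology Complex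

namespace Crest.Agent.R272.CycI_760

open Crest.Agent.R275.Geo Crest.Agent.R275.Core144
open Crest.Agent.R273.Map_835 Crest.Agent.R273.Fam_835 Crest.Agent.R273.PB_835
open Crest.Agent.R272.DCov_426 Crest.Agent.R272.Adp_409
open Crest.Agent.R272.Blup1_102 Crest.Agent.R272.BlA_266 Crest.Agent.R272.Asm2_102
open Crest.Agent.R272.Cyc_760 Crest.Agent.R272.CyB_894 Crest.Agent.R272.Gm3_235
open Crest.Agent.R272.Top14_414 Crest.Agent.R272.BlS_266

noncomputable section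

section gen

variable {M : Type} [TopologicalSpace M] [T2Space M] {A : Atl 2 M} (P : PD A (Fin 2))
  (hk : ∀ a, P.k a = 2) {Z : Set M} (hZ : Z.Finite) (N : ∀ x : Z, Node P (x : M))
  (hadm : ∀ x, Adm (N x).sh) (hoff : ∀ x, x ∉ Z → P.Snc x)
  (t : (D1 P hZ N).S) (ht : t ∈ tau (D1 P hZ N) (sh1 P hZ N))

theorem exists_sqrt (z : ℂ) : ∃ y : ℂ, y ^ 2 = z := IsAlgClosed.exists_pow_nat_eq z (by norm_num)

theorem sqrt_ne {y z : ℂ} (h : y ^ 2 = z) (hz : z ≠ 0) : y ≠ 0 := by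
  rintro rfl
  exact hz (by rw [← h]; norm_num)

/-- **the two sheets on the tower** -/
theorem exists_sheets (h0 : (N t).sh 0 = .tac) (h1 : (N t).sh 1 = .star 1) {γ : ℂ} (hγ : γ ≠ 0)
    (hF : FormV γ ((D1 P hZ N).phi (((nodeCen N).pd P).s 1) t)) :
    ∃ (γ' : ℂ) (hγ' : γ' ≠ 0),
      Nonempty (Sheet (asm P hk hZ N hadm hoff) 0 1
        ((two14 P hZ N t ht).str.pre (BlS_266.Bg γ hγ))) ∧
      Nonempty (Sheet (asm P hk hZ N hadm hoff) 1 0
        ((exc (D2 P hZ N) (two14 P hZ N t ht).s2).pre (BlS_266.Bg γ' hγ'))) := by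
  have hM := ok1 P hZ N t 0
  have e0 : sh1 P hZ N t 0 = .tac := h0
  have e1 : sh1 P hZ N t 1 = .star 1 := h1
  rw [e0] at hM
  obtain ⟨UM, cM, hUM, hcM, hUM0, hcM0, heM⟩ := hM
  obtain ⟨UN, cN, hUN, hcN, hUN0, hcN0, heN⟩ := hF
  obtain ⟨κM, hκM⟩ := exists_sqrt (UM 0)
  obtain ⟨κN, hκN⟩ := exists_sqrt (UN 0)
  obtain ⟨γ', hγ'⟩ := exists_sqrt (cM 0)
  have m0 : mult (D1 P hZ N) (sh1 P hZ N) 0 t = 1 := by
    show mu (sh1 P hZ N t 0) = 1
    rw [e0]
    rfl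
  have m1 : mult (D1 P hZ N) (sh1 P hZ N) 1 t = 1 := by
    show mu (sh1 P hZ N t 1) = 1
    rw [e1]
    rfl
  have m0' : mult (D2 P hZ N) (sh2 (D1 P hZ N) (sh1 P hZ N)) 0 (two14 P hZ N t ht).s2 = 1 := by
    show mu (sh2 (D1 P hZ N) (sh1 P hZ N) (two14 P hZ N t ht).s2 0) = 1
    have : sh2 (D1 P hZ N) (sh1 P hZ N) (two14 P hZ N t ht).s2 0 = .star 1 := if_pos e0
    rw [this]
    rfl
  have m1' : mult (D2 P hZ N) (sh2 (D1 P hZ N) (sh1 P hZ N)) 1 (two14 P hZ N t ht).s2 = 0 := by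
    show mu (sh2 (D1 P hZ N) (sh1 P hZ N) (two14 P hZ N t ht).s2 1) = 0
    have hne : ¬ (sh1 P hZ N t 1 = .tac) := by
      rw [e1]
      intro h
      cases h
    have : sh2 (D1 P hZ N) (sh1 P hZ N) (two14 P hZ N t ht).s2 1 = .unit := if_neg hne
    rw [this]
    rfl
  have F : Lf ((nodeCen N).pd P) (D1 P hZ N) (two14 P hZ N t ht).s1 UM cM UN cN :=
    ⟨hUM.continuousAt, hcM.continuousAt, hUN.continuousAt, hcN.continuousAt, heM, heN⟩
  have hg : γ ^ 2 = cN 0 := hcN0.symm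
  refine ⟨γ', sqrt_ne hγ' hcM0, ⟨?_⟩, ⟨?_⟩⟩
  · exact F.Sa (snc2 ((nodeCen N).pd P) (D1 P hZ N) (sh1 P hZ N) hk (ok1 P hZ N) hadm
      fun x hx => (nodeCen N).pd_snc P |>.2 (hoff x (by rwa [D1_Z] at hx))) hk m0 m1 m0' m1' hκM
      (sqrt_ne hκM hUM0) hκN (sqrt_ne hκN hUN0) hg hγ
  · exact F.Sb (snc2 ((nodeCen N).pd P) (D1 P hZ N) (sh1 P hZ N) hk (ok1 P hZ N) hadm
      fun x hx => (nodeCen N).pd_snc P |>.2 (hoff x (by rwa [D1_Z] at hx))) hk m0 m1 m0' m1' hκM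
      (sqrt_ne hκM hUM0) hκN (sqrt_ne hκN hUN0) hg hγ hγ' (sqrt_ne hγ' hcM0)

end gen

/-! ### the literal model -/

section model

open Crest.Agent.R272.P1L_426 (Ch F8)
open Crest.Agent.R272.NlB_426 Crest.Agent.R272.Nl_595 Crest.Agent.R272.Ne_595

variable {k : ℂ}

theorem nodeP0 (hk : k ^ 4 = 8 * I) : NodeP0 (nloc hk) := ⟨T_P0 hk, S_P0 hk, sh_P0 hk⟩

/-- **the cycle of four curves on the literal model** -/
theorem exists_cycM (M : NLoc k) (h : NodeP0 M) (hγ : g0 k ≠ 0)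
    (hF : FormV (g0 k) ((D1 (PN k) M.fin M.N).phi (((nodeCen M.N).pd (PN k)).s 1) (c0 k))) :
    ∃ (K : CycD M.D) (B : V2 ≃L[ℂ] V2),
      (∀ w, K.α.G w = ((two14 (PN k) M.fin M.N (c0 k) (tau_P0 h)).str.pre
        (BlS_266.Bg (g0 k) hγ)).G w) ∧
      (∀ w, K.β.G w = ((exc (D2 (PN k) M.fin M.N)
        (two14 (PN k) M.fin M.N (c0 k) (tau_P0 h)).s2).pre B).G w) ∧
      K.w₁ = ![g0 k, -g0 k] ∧ K.w₂ = ![1, 1] ∧ ∀ x ∈ K.Z, pN M x = P0 := by
  have hs0 : (M.N (c0 k)).sh 0 = .tac := by rw [h.sh]; rfl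
  have hs1 : (M.N (c0 k)).sh 1 = .star 1 := by rw [h.sh]; rfl
  obtain ⟨γ', hγ', ⟨Sα⟩, ⟨Sβ⟩⟩ := exists_sheets (PN k) (PN_k k) M.fin M.N M.adm M.off (c0 k)
    (tau_P0 h) hs0 hs1 hγ hF
  exact ⟨curM h Sα Sβ, BlS_266.Bg γ' hγ', fun _ => rfl, fun _ => rfl, bg_symm_e0 _ hγ,
    bg_symm_e1 _ hγ', fun x hx => pN_Z h Sα Sβ hx⟩

/-- **the cycle of four curves on `nloc hk`** -/
theorem exists_cyc14 (hk : k ^ 4 = 8 * I) :
    ∃ (K : CycD (nloc hk).D) (B : V2 ≃L[ℂ] V2),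
      (∀ w, K.α.G w = ((two14 (PN k) (nloc hk).fin (nloc hk).N (c0 k) (tau_P0 (nodeP0 hk))).str.pre
        (BlS_266.Bg (g0 k) (g0_ne hk))).G w) ∧
      (∀ w, K.β.G w = ((exc (D2 (PN k) (nloc hk).fin (nloc hk).N)
        (two14 (PN k) (nloc hk).fin (nloc hk).N (c0 k) (tau_P0 (nodeP0 hk))).s2).pre B).G w) ∧
      K.w₁ = ![g0 k, -g0 k] ∧ K.w₂ = ![1, 1] ∧ ∀ x ∈ K.Z, pN (nloc hk) x = P0 :=
  exists_cycM (nloc hk) (nodeP0 hk) (g0_ne hk) (hN_P0 hk (nloc hk).fin)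

end model

end

end Crest.Agent.R272.CycI_760
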