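import Crest.Agent.R272.Md1_834
import Crest.Agent.R272.LbIn1_936
import Crest.Agent.R272.Act5_302_Mg
import Crest.Agent.R272.Fin2_338
import Crest.Agent.R272.PEndZ_220
import Crest.Agent.R272.PosP10_848
import Crest.Agent.R272.PEnd10_732

-- ▼ part R272/Md2_834
section

/-!
# R272 (S0415), M15: the lower bound over `W : Md M`, and S0415 with 297's arcs (helper834)
-/

set_option autoImplicit false
set_option linter.unusedSectionVars false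

open Set Filter Topology

namespace Crest.Agent.R272.Md_834

open Crest.Agent.R275.Geo Crest.Agent.R273.Fam_835
open Crest.Agent.R272 Crest.Agent.R272.MQ_783 Crest.Agent.R272.Refl_246
open Crest.Agent.R272.HFam_342 Crest.Agent.R272.Sur_342 Crest.Agent.R272.Flop_66
open Crest.Agent.R272.AJ_956 Crest.Agent.R272.Idn_834 Crest.Agent.R272.Ax_834
open Crest.Agent.R272.Cur_297 Crest.Agent.R272.M15_939
open Crest.Agent.R272.LbExt_259 Crest.Agent.R272.As15_338 Crest.Agent.R272.Comp_259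

noncomputable section

/-- existence, with the given germ and zero section, and a small radius -/
theorem exists_md' {M : Ar} (ra : RA M.CX M.G) (Ge : Germ (cur Pz) M.CX M.G M.s)
    {z : Cz × Cz → M.X} (Z : ZSec Ge z) (pz : ∀ x, M.A.pz (z x) = M.p0) {δ : ℝ} (hδ : 0 < δ) :
    ∃ W : Md M, W.Ge = Ge ∧ W.z = z ∧ W.ε ≤ δ := by
  obtain ⟨NN, U, hN⟩ := Crest.Agent.R272.AJg_956.exists_nearE (cur Pz)
  obtain ⟨e, he, he1, he2⟩ := exists_isId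
    (⟨hN, K3E_227.k3P hN, Ge, Um.stdU⟩ : Inp (cur Pz) NN U M.CX M.G M.s Um.fam) ra.hol ra.cov
  obtain ⟨ε, h1, h2, h3, -⟩ := exists_eps_sur e (he.sub_target fun _ => rfl) isOpen_univ
    (fun _ _ => mem_univ _) hδ
  exact ⟨⟨ra, Ge, z, Z, pz, NN, U, hN, e, he, he1, he2, ε, h1, h3⟩, rfl, rfl, h2⟩

namespace Md

variable {M : Ar} (W : Md M)



end Md

end

end Crest.Agent.R272.Md_834
end

-- ▼ part R272/Md3_834
section

/-!
# R272 (S0415), M15: the smooth model is a complex manifold with a good action (302's (B) over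
939's `M : Ar`)
-/

set_option autoImplicit false
set_option linter.unusedSectionVars false

open Set Filter Topology

namespace Crest.Agent.R272.Md_834

open Crest.Agent.R275.Geo Crest.Agent.R273.Fam_835
open Crest.Agent.R272 Crest.Agent.R272.MQ_783 Crest.Agent.R272.Refl_246
open Crest.Agent.R272.M15_939

noncomputable section

theorem hfix (M : Ar) (s : M.G) (z : M.N) (hs : s ≠ 1) (hz : s • z = z) :
    M.A.σ s = Equiv.swap 0 1 := by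
  rcases M.base_st z with h | ⟨s', -, -, h, h', -⟩
  · exact absurd (h s hz) hs
  · rcases h s hz with h1 | h1
    · exact absurd h1 hs
    · rw [h1]; exact h'

/-- **302 (B) over `M : Ar`** -/
theorem raM (M : Ar) : RA M.CX M.G := M.A.ra1 M.ra (hfix M)

end

end Crest.Agent.R272.Md_834
end

-- ▼ part R272/Tq12_916
section

/-!
# R272 (S0415): argument (2) of `s15_W` over 939's `M : Ar` (helper916)

`exists_germM` : 60's germ at `M.p0` with the pens of `M.bpt`; `zsecM`, `zsM` : `ZSec`, 936's `ZS`;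
`exists_mdM` : 834's `Md M` for this germ and this zero section.
-/

set_option autoImplicit false
set_option linter.unusedSectionVars false

open Set Filter Topology OnePoint

namespace Crest.Agent.R272.Tq12_916

open Crest.Agent.R275.Geo Crest.Agent.R273.Fam_835
open Crest.Agent.R272 Crest.Agent.R272.MQ_783 Crest.Agent.R272.Refl_246
open Crest.Agent.R272.M15_939
open Crest.Agent.R272.Tp10_60 (GermE)
open Crest.Agent.R272.Tq10_916 Crest.Agent.R272.Tq11_916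
open Crest.Agent.R272.Cur_297 (Pz Cz cur)
open Crest.Agent.R272.Ax_834 (ZSec)
open Crest.Agent.R272.Md_834 (Md)

noncomputable section

variable (M : Ar)

/-- 60's germ at the base cluster point -/
abbrev GE : Type := GermE (Gr_559.isSl_X1 M.DX) M.A Pz M.s M.p0

theorem sigM : M.A.σ M.s = Equiv.swap 0 1 := Md_834.hfix M M.s M.p0 M.bpt.s_ne M.bpt.s_fix

theorem sigM0 : M.A.σ M.s 0 = 1 := by rw [sigM]; rfl

/-- **the germ at the base cluster point, with the pens of `M.bpt`** -/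
theorem exists_germM {O : Set M.N} (hO : IsOpen O) (hp : M.p0 ∈ O) :
    ∃ Γ : GE M, SymL M.A Γ.L M.s ∧ Γ.L.sh.source ⊆ O ∩ M.bpt.p.U ∩ M.bpt.p'.U ∧
      ∀ z ∈ Γ.L.sh.source, Γ.L.sh z = (M.bpt.p.s0 z, M.bpt.p.s1 z, M.bpt.p'.s1 z) ∧
        Γ.L.a z = M.bpt.p.a z ∧ Γ.L.a z = M.bpt.p'.a z ∧ Γ.L.b 0 z = M.bpt.p.b z ∧
        Γ.L.b 1 z = M.bpt.p'.b z ∧ Γ.L.m 0 z ^ 2 * M.bpt.p.w z = M.bpt.p.u z ∧
        Γ.L.m 1 z ^ 2 * M.bpt.p'.w z = M.bpt.p'.u z :=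
  exists_germE _ M.bpt (sigM M) (pd_of_properly M.p0) hO hp

variable {M}

/-- **834's `ZSec`** -/
theorem zsecM (Γ : GE M) : ZSec Γ.g (zG Γ) := zsec Γ (sigM0 M) M.bpt.stab

theorem pzM (Γ : GE M) (x : Cz × Cz) : M.A.pz (zG Γ x) = M.p0 := pz_zG Γ x

/-- **936's `ZS`** -/
theorem zsM (Γ : GE M) (ha : Γ.L.a M.p0 = M.bpt.p.a M.p0) (hb : Γ.L.b 0 M.p0 = M.bpt.p.b M.p0) :
    LbIn_936.ZS M Γ.L (zG Γ) where
  src := Γ.q_mem
  zero := Γ.sh_q
  a := ha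
  b := hb
  val _ := rfl

/-- **834's model of record over this germ** -/
theorem exists_mdM (M : Ar) (ra : RA M.CX M.G) {O : Set M.N} (hO : IsOpen O) (hp : M.p0 ∈ O) :
    ∃ Γ : GE M, SymL M.A Γ.L M.s ∧ Γ.L.sh.source ⊆ O ∩ M.bpt.p.U ∩ M.bpt.p'.U ∧
      (∀ z ∈ Γ.L.sh.source, Γ.L.sh z = (M.bpt.p.s0 z, M.bpt.p.s1 z, M.bpt.p'.s1 z) ∧
        Γ.L.a z = M.bpt.p.a z ∧ Γ.L.a z = M.bpt.p'.a z ∧ Γ.L.b 0 z = M.bpt.p.b z ∧
        Γ.L.b 1 z = M.bpt.p'.b z ∧ Γ.L.m 0 z ^ 2 * M.bpt.p.w z = M.bpt.p.u z ∧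
        Γ.L.m 1 z ^ 2 * M.bpt.p'.w z = M.bpt.p'.u z) ∧
      ∀ δ : ℝ, 0 < δ → ∃ W : Md M, W.Ge = Γ.g ∧ W.z = zG Γ ∧ W.ε ≤ δ ∧
        LbIn_936.ZS M Γ.L W.z := by
  obtain ⟨Γ, h1, h2, h3⟩ := exists_germM M hO hp
  refine ⟨Γ, h1, h2, h3, fun δ hδ => ?_⟩
  obtain ⟨W, w1, w2, w3⟩ := Md_834.exists_md' ra Γ.g (zsecM Γ) (pzM Γ) hδ
  refine ⟨W, w1, w2, w3, ?_⟩
  obtain ⟨-, k1, -, k2, -⟩ := h3 M.p0 Γ.q_mem
  rw [w2]
  exact zsM Γ k1 k2


end

end Crest.Agent.R272.Tq12_916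
end

-- ▼ part R272/Fin4_338

/-!
# R272, S15-ASM (helper338): S0415 from (K-b), the collar and the three dying arcs

`s15_of` : the last composition over 939's `M : Ar`, 916's `exists_germM`, 732's `exists_YC`, 848's functions,
220's `germ15`.
-/

set_option autoImplicit false
set_option linter.unusedSectionVars false
set_option linter.unusedVariables false

open Set Filter Topology OnePoint

namespace Crest.Agent.R272.Fin_338

open Crest.Agent.R275.Geo Crest.Agent.R273.Fam_835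
open Crest.Agent.R272 Crest.Agent.R272.MQ_783 Crest.Agent.R272.Refl_246
open Crest.Agent.R272.HFam_342 Crest.Agent.R272.Sur_342 Crest.Agent.R272.Flop_66
open Crest.Agent.R272.AJ_956 Crest.Agent.R272.Idn_834 Crest.Agent.R272.Ax_834
open Crest.Agent.R272.Cur_297 Crest.Agent.R272.K3E_227 Crest.Agent.R272.M15_939
open Crest.Agent.R272.LbExt_259 Crest.Agent.R272.As15_338 Crest.Agent.R272.Comp_259
open Crest.Agent.R272.Md_834 Crest.Agent.R272.Tp3_60 Crest.Agent.R272.CB_232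
open Crest.Agent.R272.Tq12_916 Crest.Agent.R272.Tq11_916 Crest.Agent.R272.Lc_220
open Crest.Agent.R272.PEnd8_732 (Swp st)
open Crest.Agent.R272.PosP7_848
open Crest.Agent.R272.Tq1_916 (fm)
open Crest.Agent.R272.Tq3_916 (zst FEij DEij DEm)
open Crest.Agent.R272.Tq4_916 (ib)
open Crest.Agent.R272.Tp6_60 (toA)
open Crest.Agent.R272.Tq10_916 (SymL)
open Crest.Agent.R272.FinCB3_876 (GenAt)
open Crest.Agent.R272.PosP5_848 (UpDat)
open Crest.Agent.R272.PW_92 (IPhi)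
open Crest.Agent.R272.PEndZ_220 (MdE)

noncomputable section

/-- the pens clause of 916's `exists_germM` -/
structure Pens (M : Ar) (Γ : GE M) : Prop where
  sym : SymL M.A Γ.L M.s
  src : Γ.L.sh.source ⊆ M.bpt.p.U ∩ M.bpt.p'.U
  eq : ∀ z ∈ Γ.L.sh.source, Γ.L.sh z = (M.bpt.p.s0 z, M.bpt.p.s1 z, M.bpt.p'.s1 z) ∧
        Γ.L.a z = M.bpt.p.a z ∧ Γ.L.a z = M.bpt.p'.a z ∧ Γ.L.b 0 z = M.bpt.p.b z ∧
        Γ.L.b 1 z = M.bpt.p'.b z ∧ Γ.L.m 0 z ^ 2 * M.bpt.p.w z = M.bpt.p.u z ∧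
        Γ.L.m 1 z ^ 2 * M.bpt.p'.w z = M.bpt.p'.u z

/-- the output of 732's `exists_YC` -/
structure YB (M : Ar) (Γ : GE M) where
  B : BV M.G M.p0
  s : B.s = M.s
  src : B.V ⊆ Γ.L.sh.source
  swp : Swp M.A Γ.L B.s B.V
  T : YC Pz M.CX M.A.pz M.p0 (M.A.pz ⁻¹' B.V)
  st_eq : T.st = st M.A Γ.L Γ.hX
  srcE : ∀ i j, (T.E i j).source = DEij Pz Γ.r i j
  srcM : ∀ b b', (T.M b b').source = DEm (ib Pz b) (ib Pz b') Γ.r
  valE : ∀ i j, ∀ p ∈ (T.E i j).source, M.A.val (T.E i j p) = toA M.N (Γ.L.fro (FEij Pz i j p))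
  valM : ∀ b b', ∀ p ∈ (T.M b b').source,
    M.A.val (T.M b b' p) = toA M.N (Γ.L.fro (fm (ib Pz b) (ib Pz b') p))

/-- **732's `exists_YC`**, over the pens -/
theorem exists_YB {M : Ar} (Γ : GE M) {O : Set M.N} (hO : IsOpen O) (hp : M.p0 ∈ O) :
    ∃ Y : YB M Γ, Y.B.V ⊆ O := by
  obtain ⟨B, h1, h2, h3, h4, T, h5, h6, h7, h8, h9⟩ := PEnd8_732.exists_YC Γ (sigM0 M)
    M.bpt.s_fix M.bpt.s_sq hO hp
  exact ⟨⟨B, h1, h3, h4, T, h5, h6, h7, h8, h9⟩, h2⟩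

/-- **the compatibility (K-b)** -/
def CMP {M : Ar} {Γ : GE M} (Y : YB M Γ) : Prop :=
  ∀ mm, 2 ≤ mm → ∀ y ∈ M.A.pz ⁻¹' Y.B.V, M.A.pz y ≠ M.p0 → ∃ a c,
      pr M.G y ∈ (Pos15_220.JM (raM M)).V a ∧ pr M.G y ∈ (Pos15_220.R (raM M)).V c ∧
      GenAt M.CX (Y.T.ff (10 * mm)) (fun v => (Pos15_220.JM (raM M)).f a (pr M.G v) ^ mm *
        (Pos15_220.R (raM M)).f c (pr M.G v) ^ 4) y

/-- **the collar** -/
def COL {M : Ar} {Γ : GE M} (Y : YB M Γ) (W : Md M) : Prop :=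
  ∃ up : ∀ b, 15 ≤ b → UpDat Up.fam Up.N IPhi,
    ∀ b (hb : 15 ≤ b), ∃ δ > 0, ∀ u : Up, u.N ≠ 0 → u.N < δ → u.N < W.ε →
      ∃ y ∈ M.A.pz ⁻¹' Y.B.V, pr M.G y = W.S.bx u ∧ ∀ j, (up b hb).FB j u = Y.T.ff b j y

/-- **S0415 from (K-b), the collar and the three dying arcs**, variable choices -/
theorem s15_of (M : Ar) {O : Set M.N} (hO : IsOpen O) (hp : M.p0 ∈ O)
    (H : ∀ Γ : GE M, Γ.L.sh.source ⊆ O → Pens M Γ → ∃ Y : YB M Γ, CMP Y ∧
      ∃ δ > 0, ∀ W : Md M, W.Ge = Γ.g → W.z = zG Γ → W.ε ≤ δ →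
        COL Y W ∧ Dies (cur Pz) W.hq.cont W.inc (Cur_297.arc 1) ∧
          Dies (cur Pz) W.hq.cont W.inc (Cur_297.arc 3) ∧
          Dies (cur Pz) W.hq.cont W.inc (Cur_297.arc 4)) : S15 := by
  obtain ⟨Γ, h1, h2, h3, h4⟩ := exists_mdM M (raM M) hO hp
  obtain ⟨Y, hY, δ, δ0, hδ⟩ := H Γ (fun z hz => (h2 hz).1.1)
    ⟨h1, fun z hz => ⟨(h2 hz).1.2, (h2 hz).2⟩, h3⟩
  obtain ⟨W, w1, w2, w3, w4⟩ := h4 δ δ0
  obtain ⟨⟨up, hup⟩, d1, d3, d4⟩ := hδ W w1 w2 w3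
  refine s15_W W w4 4 ?_ d1 d3 d4
  exact (⟨W, Γ, w1, fun x => by rw [w2]; rfl⟩ : MdE M).germ15 Y.T Y.st_eq
    (PEnd8_732.ff_inv Y.src Y.swp Y.T Y.st_eq) Y.T.hol' Y.T.val' Y.T.fin' hY up hup

/-- **S0415 from (K-b), the collar and the three dying arcs** -/
theorem s15_of' (M : Ar)
    (cmp : ∀ Γ : GE M, Pens M Γ → ∀ Y : YB M Γ, CMP Y)
    (col : ∀ Γ : GE M, Pens M Γ → ∀ Y : YB M Γ, ∀ W : Md M, W.Ge = Γ.g → W.z = zG Γ → COL Y W)
    (die : ∀ Γ : GE M, Pens M Γ → ∀ W : Md M, W.Ge = Γ.g → W.z = zG Γ →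
      Dies (cur Pz) W.hq.cont W.inc (Cur_297.arc 1) ∧
        Dies (cur Pz) W.hq.cont W.inc (Cur_297.arc 3) ∧
        Dies (cur Pz) W.hq.cont W.inc (Cur_297.arc 4)) : S15 := by
  refine s15_of M isOpen_univ (mem_univ _) fun Γ _ hΓ => ?_
  obtain ⟨Y, -⟩ := exists_YB Γ isOpen_univ (mem_univ _)
  exact ⟨Y, cmp Γ hΓ Y, 1, one_pos, fun W w1 w2 _ => ⟨col Γ hΓ Y W w1 w2, die Γ hΓ W w1 w2⟩⟩

end

end Crest.Agent.R272.Fin_338
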