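import Crest.Agent.R272.PosGlue2_232
import Crest.Agent.R272.PImm1_102
import Crest.Agent.R272.CB6_232

-- ▼ part R272/FinPos1_876
section

/-!
# R272, model division (helper876), FIN-POS, file 1: local metrics `HMo`, positivity at a point

* `lev_chgO`   : the curvature of a local metric in two charts
* `PosAtO h x` : positive curvature at `x`; `posAtO_of` (one chart is enough);
                 `isOpen_posAtO` (an open condition)
* `powMet`     : the metric `S^{-k} exp (-ψ)` on `L ^ k` over `U`, `S = ∑ |y_a|²`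
-/

set_option autoImplicit false
set_option linter.unusedSectionVars false

open Set Filter Topology Complex
open scoped ContDiff Matrix ComplexConjugate Manifold

namespace Crest.Agent.R272.FinPos1_876

open Crest.Agent.R275.Geo Crest.Agent.R275.Core144 Crest.Agent.R273.Defs_333
open Crest.Agent.R273.Map_835 Crest.Agent.R273
open Crest.Agent.R272.PosGlue_232

noncomputable section

variable {n : ℕ} {M : Type} [TopologicalSpace M] {A : Atl n M} {L : LB A} {U : Set M}

theorem wt_chgO (h : HMo L U) {i j : A.ι} {z : Cn n} (hz : z ∈ A.ov i j)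
    (hzU : (A.e i).symm z ∈ U) :
    h.wt i z = h.wt j (A.e j ((A.e i).symm z)) + Real.log (‖L.g i j ((A.e i).symm z)‖ ^ 2) := by
  have hx : (A.e i).symm z ∈ (A.e i).source ∩ (A.e j).source := ⟨(A.e i).map_target hz.1, hz.2⟩
  simp only [HMo.wt]
  rw [(A.e j).left_inv hx.2, h.tr i j _ hx hzU, Real.log_mul]
  · ring
  · have := L.ne_zero i j ((A.e i).symm z)
    positivity
  · exact (h.pos i _ hx.1 hzU).ne'

theorem chg_analytic {i j : A.ι} {z : Cn n} (hz : z ∈ A.ov i j) :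
    AnalyticAt ℂ (fun y => A.e j ((A.e i).symm y)) z :=
  Crest.Agent.R266.SCV.analyticOnNhd_of_differentiableOn (isOpen_ov i j) (A.holo i j) z hz

theorem isOpen_tU (hU : IsOpen U) (i : A.ι) :
    IsOpen ((A.e i).target ∩ (A.e i).symm ⁻¹' U) :=
  (A.e i).isOpen_inter_preimage_symm hU

/-- the curvature of a local metric in two charts -/
theorem lev_chgO (h : HMo L U) (hU : IsOpen U) {i j : A.ι} {z : Cn n} (hz : z ∈ A.ov i j)
    (hzU : (A.e i).symm z ∈ U) (v : Cn n) :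
    lev (h.wt i) z v = lev (h.wt j) (A.e j ((A.e i).symm z))
      (fderiv ℂ (fun y => A.e j ((A.e i).symm y)) z v) := by
  have hx : (A.e i).symm z ∈ (A.e i).source ∩ (A.e j).source := ⟨(A.e i).map_target hz.1, hz.2⟩
  have hc : AnalyticAt ℂ (fun y => L.g i j ((A.e i).symm y)) z :=
    Crest.Agent.R266.SCV.analyticOnNhd_of_differentiableOn (isOpen_ti (A.e j).open_source)
      (L.hol i j) z ⟨hz.1, hz.2⟩
  have h1 := L.ne_zero i j ((A.e i).symm z)
  have hT := chg_analytic hz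
  have hjm : A.e j ((A.e i).symm z) ∈ (A.e j).target ∩ (A.e j).symm ⁻¹' U := by
    refine ⟨(A.e j).map_source hx.2, ?_⟩
    rw [mem_preimage, (A.e j).left_inv hx.2]
    exact hzU
  have hu : ContDiffAt ℝ 2 (h.wt j) (A.e j ((A.e i).symm z)) :=
    ((h.wt_smooth j).contDiffAt ((isOpen_tU hU j).mem_nhds hjm)).of_le (by norm_cast)
  have hTr : ContDiffAt ℝ 2 (fun y => A.e j ((A.e i).symm y)) z :=
    hT.contDiffAt.restrict_scalars ℝ
  have hcomp : ContDiffAt ℝ 2 (fun y => h.wt j (A.e j ((A.e i).symm y))) z :=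
    ContDiffAt.comp (g := h.wt j) z hu hTr
  have he : h.wt i =ᶠ[𝓝 z] fun y => h.wt j (A.e j ((A.e i).symm y)) +
      Real.log (‖L.g i j ((A.e i).symm y)‖ ^ 2) := by
    filter_upwards [(isOpen_ov (A := A) i j).mem_nhds hz, (isOpen_tU hU i).mem_nhds ⟨hz.1, hzU⟩]
      with y hy hyU
    exact wt_chgO h hy hyU.2
  rw [PB_835.lev_congr' he, PB_835.lev_bridge, Levi_145.lev_add hcomp
    (Levi_145.c2_log_normSq hc h1 2), Levi_145.lev_log_normSq hc h1, add_zero,
    Levi_145.lev_comp hT hu, ← PB_835.lev_bridge]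

/-- positive curvature of a local metric at the point `x` -/
def PosAtO (h : HMo L U) (x : M) : Prop :=
  ∀ i, x ∈ (A.e i).source → ∀ v : Cn n, v ≠ 0 → 0 < lev (h.wt i) (A.e i x) v

theorem posAtO_of {h : HMo L U} (hU : IsOpen U) {x : M} (hxU : x ∈ U) {i : A.ι}
    (hx : x ∈ (A.e i).source)
    (hi : ∀ v : Cn n, v ≠ 0 → 0 < lev (h.wt i) (A.e i x) v) : PosAtO h x := by
  intro j hj v hv
  have hz : A.e j x ∈ A.ov j i := ⟨(A.e j).map_source hj, by rwa [(A.e j).left_inv hj]⟩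
  have hzU : (A.e j).symm (A.e j x) ∈ U := by rwa [(A.e j).left_inv hj]
  rw [lev_chgO h hU hz hzU v, (A.e j).left_inv hj]
  refine hi _ fun h0 => hv (chg_inj hz h0)

/-- positivity at a point is an open condition -/
theorem isOpen_posAtO (h : HMo L U) (hU : IsOpen U) : IsOpen {x | x ∈ U ∧ PosAtO h x} := by
  rw [isOpen_iff_mem_nhds]
  rintro x ⟨hxU, hx⟩
  obtain ⟨i, hi⟩ := A.cover x
  have hz0 : A.e i x ∈ (A.e i).target ∩ (A.e i).symm ⁻¹' U := by
    refine ⟨(A.e i).map_source hi, ?_⟩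
    rw [mem_preimage, (A.e i).left_inv hi]
    exact hxU
  have ho := isOpen_tU hU i
  have hc := lev_continuousOn ho (h.wt_smooth i)
  set S : Set (Cn n) := Metric.sphere 0 1 with hS
  have hSc : IsCompact S := isCompact_sphere 0 1
  -- near `(A.e i x) × S` the Levi form is positive
  have hpos : ∀ v ∈ S, 0 < lev (h.wt i) (A.e i x) v := by
    intro v hv
    refine hx i hi v ?_
    intro h0
    rw [hS, mem_sphere_zero_iff_norm, h0, norm_zero] at hv
    exact zero_ne_one hv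
  have hev : ∀ᶠ z in 𝓝 (A.e i x), ∀ v ∈ S, 0 < lev (h.wt i) z v := by
    have h1 : ∀ v ∈ S, ∀ᶠ q : Cn n × Cn n in 𝓝 (A.e i x, v), 0 < lev (h.wt i) q.1 q.2 := by
      intro v hv
      have h2 : ContinuousAt (fun q : Cn n × Cn n => lev (h.wt i) q.1 q.2) (A.e i x, v) :=
        hc.continuousAt ((ho.prod isOpen_univ).mem_nhds ⟨hz0, mem_univ _⟩)
      exact h2.eventually (lt_mem_nhds (hpos v hv))
    have h3 : ∀ᶠ q : Cn n × Cn n in 𝓝 (A.e i x) ×ˢ 𝓝ˢ S, 0 < lev (h.wt i) q.1 q.2 := by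
      rw [hSc.prod_nhdsSet_eq_biSup]
      simp only [eventually_iSup]
      intro v hv
      rw [← nhds_prod_eq]
      exact h1 v hv
    obtain ⟨a, ha, b, hb, hab⟩ := mem_prod_iff.1 h3
    filter_upwards [ha] with z hz v hv
    exact hab (mk_mem_prod hz (subset_of_mem_nhdsSet hb hv))
  have hev' : ∀ᶠ y in 𝓝 x, ∀ v ∈ S, 0 < lev (h.wt i) (A.e i y) v :=
    ((A.e i).continuousAt hi).eventually hev
  filter_upwards [hev', hU.mem_nhds hxU, (A.e i).open_source.mem_nhds hi] with y hy hyU hyi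
  refine ⟨hyU, posAtO_of hU hyU hyi fun v hv => ?_⟩
  have hvn : (0 : ℝ) < ‖v‖ := norm_pos_iff.2 hv
  have hmem : ((‖v‖⁻¹ : ℝ) : ℂ) • v ∈ S := by
    rw [hS, mem_sphere_zero_iff_norm, norm_smul, Complex.norm_real, norm_inv, norm_norm,
      inv_mul_cancel₀ hvn.ne']
  have h5 := hy _ hmem
  rw [lev_real_smul] at h5
  have h6 : (0 : ℝ) < (‖v‖⁻¹) ^ 2 := by positivity
  exact (pos_iff_pos_of_mul_pos h5).1 h6

end

end Crest.Agent.R272.FinPos1_876
end

-- ▼ part R272/FinPos2_876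
section

/-!
# R272, model division (helper876), FIN-POS, file 2: functions of the projective point

* `dd Y p`      : `∑ |Y_a p_b - Y_b p_a|² / ∑ |p_a|²`, homogeneous of degree `0` in `p`
* `chi Y ε p`   : cut-off function, `1` where `dd ≤ ε/4`, `0` where `dd ≥ ε/2`
* `flat_chi`    : `chi ∘ f` is flat to second order in every direction `v` with `df(v) = c f`
* `exists_theta`: strictly plurisubharmonic function near a finite set
-/

set_option autoImplicit false
set_option linter.unusedSectionVars false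

open Set Filter Topology Complex
open scoped ContDiff Matrix ComplexConjugate Manifold

namespace Crest.Agent.R272.FinPos2_876

open Crest.Agent.R275.Geo Crest.Agent.R275.Core144 Crest.Agent.R273.Defs_333
open Crest.Agent.R273.Map_835 Crest.Agent.R273
open Crest.Agent.R272.PosGlue_232 Crest.Agent.R272.FinPos1_876

noncomputable section

variable {n m : ℕ}

/-! ### the function `dd` -/

def nn (Y p : Fin m → ℂ) : ℝ := ∑ a, ∑ b, ‖Y a * p b - Y b * p a‖ ^ 2

def ss (p : Fin m → ℂ) : ℝ := ∑ a, ‖p a‖ ^ 2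

def dd (Y p : Fin m → ℂ) : ℝ := nn Y p / ss p

theorem ss_pos {p : Fin m → ℂ} (h : ∃ a, p a ≠ 0) : 0 < ss p := by
  obtain ⟨a, ha⟩ := h
  exact Finset.sum_pos' (fun _ _ => by positivity) ⟨a, Finset.mem_univ a, by positivity⟩

theorem nn_nonneg (Y p : Fin m → ℂ) : 0 ≤ nn Y p :=
  Finset.sum_nonneg fun _ _ => Finset.sum_nonneg fun _ _ => by positivity

theorem ss_nonneg (p : Fin m → ℂ) : 0 ≤ ss p := Finset.sum_nonneg fun _ _ => by positivity

theorem dd_nonneg (Y p : Fin m → ℂ) : 0 ≤ dd Y p := div_nonneg (nn_nonneg Y p) (ss_nonneg p)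

theorem ss_smul (c : ℂ) (p : Fin m → ℂ) : ss (fun a => c * p a) = ‖c‖ ^ 2 * ss p := by
  unfold ss
  rw [Finset.mul_sum]
  refine Finset.sum_congr rfl fun a _ => ?_
  rw [norm_mul, mul_pow]

theorem nn_smul (Y : Fin m → ℂ) (c : ℂ) (p : Fin m → ℂ) :
    nn Y (fun a => c * p a) = ‖c‖ ^ 2 * nn Y p := by
  unfold nn
  simp only [Finset.mul_sum]
  refine Finset.sum_congr rfl fun a _ => Finset.sum_congr rfl fun b _ => ?_
  rw [← mul_pow, ← norm_mul]
  congr 2
  ring

theorem dd_smul (Y : Fin m → ℂ) {c : ℂ} (hc : c ≠ 0) (p : Fin m → ℂ) :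
    dd Y (fun a => c * p a) = dd Y p := by
  unfold dd
  rw [ss_smul, nn_smul]
  have : ‖c‖ ^ 2 ≠ 0 := by positivity
  exact mul_div_mul_left _ _ this

theorem dd_self (Y : Fin m → ℂ) : dd Y Y = 0 := by
  have h : nn Y Y = 0 := by
    unfold nn
    refine Finset.sum_eq_zero fun a _ => Finset.sum_eq_zero fun b _ => ?_
    rw [mul_comm (Y a), sub_self, norm_zero]
    norm_num
  rw [dd, h, zero_div]

theorem dd_eq_zero {Y p : Fin m → ℂ} (hp : ∃ a, p a ≠ 0) (h : dd Y p = 0) (a b : Fin m) :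
    Y a * p b = Y b * p a := by
  have h0 := ss_pos hp
  unfold dd at h
  rw [div_eq_zero_iff] at h
  have h1 : nn Y p = 0 := h.resolve_right h0.ne'
  have h2 := (Finset.sum_eq_zero_iff_of_nonneg
    (fun a _ => Finset.sum_nonneg fun b _ => by positivity)).1 h1 a (Finset.mem_univ a)
  have h3 := (Finset.sum_eq_zero_iff_of_nonneg (fun b _ => by positivity)).1 h2 b
    (Finset.mem_univ b)
  have h4 : Y a * p b - Y b * p a = 0 := by simpa using h3
  exact sub_eq_zero.1 h4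

/-- the cut-off function -/
def chi (Y : Fin m → ℂ) (ε : ℝ) (p : Fin m → ℂ) : ℝ := Real.smoothTransition (2 - 4 * dd Y p / ε)

theorem chi_nonneg (Y : Fin m → ℂ) (ε : ℝ) (p : Fin m → ℂ) : 0 ≤ chi Y ε p :=
  Real.smoothTransition.nonneg _

theorem chi_one {Y : Fin m → ℂ} {ε : ℝ} (hε : 0 < ε) {p : Fin m → ℂ} (h : dd Y p ≤ ε / 4) :
    chi Y ε p = 1 := by
  refine Real.smoothTransition.one_of_one_le ?_
  have : 4 * dd Y p / ε ≤ 1 := by
    rw [div_le_one hε]
    linarith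
  linarith

theorem chi_zero {Y : Fin m → ℂ} {ε : ℝ} (hε : 0 < ε) {p : Fin m → ℂ} (h : ε / 2 ≤ dd Y p) :
    chi Y ε p = 0 := by
  refine Real.smoothTransition.zero_of_nonpos ?_
  have : 2 ≤ 4 * dd Y p / ε := by
    rw [le_div_iff₀ hε]
    linarith
  linarith

theorem chi_smul (Y : Fin m → ℂ) (ε : ℝ) {c : ℂ} (hc : c ≠ 0) (p : Fin m → ℂ) :
    chi Y ε (fun a => c * p a) = chi Y ε p := by
  unfold chi
  rw [dd_smul Y hc]

/-! ### smoothness -/

theorem contDiffAt_ss {p : Cn m} {k : ℕ∞ω} : ContDiffAt ℝ k (fun q : Cn m => ss (fun a => q a)) p := by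
  unfold ss
  refine ContDiffAt.sum fun a _ => ContDiffAt.norm_sq ℝ ?_
  exact ((EuclideanSpace.proj a : Cn m →L[ℂ] ℂ).restrictScalars ℝ).contDiff.contDiffAt

theorem contDiffAt_nn (Y : Fin m → ℂ) {p : Cn m} {k : ℕ∞ω} :
    ContDiffAt ℝ k (fun q : Cn m => nn Y (fun a => q a)) p := by
  unfold nn
  refine ContDiffAt.sum fun a _ => ContDiffAt.sum fun b _ => ContDiffAt.norm_sq ℝ ?_
  have h : ∀ a, ContDiffAt ℝ k (fun q : Cn m => q a) p := fun a =>
    ((EuclideanSpace.proj a : Cn m →L[ℂ] ℂ).restrictScalars ℝ).contDiff.contDiffAt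
  exact (contDiffAt_const.mul (h b)).sub (contDiffAt_const.mul (h a))

theorem contDiffAt_dd (Y : Fin m → ℂ) {p : Cn m} (hp : ∃ a, p a ≠ 0) {k : ℕ∞ω} :
    ContDiffAt ℝ k (fun q : Cn m => dd Y (fun a => q a)) p :=
  (contDiffAt_nn Y).div contDiffAt_ss (ss_pos (p := fun a => p a) hp).ne'

theorem contDiffAt_chi (Y : Fin m → ℂ) (ε : ℝ) {p : Cn m} (hp : ∃ a, p a ≠ 0) :
    ContDiffAt ℝ ∞ (fun q : Cn m => chi Y ε (fun a => q a)) p := by
  have h1 : ContDiffAt ℝ ∞ (fun q : Cn m => 2 - 4 * dd Y (fun a => q a) / ε) p :=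
    contDiffAt_const.sub ((contDiffAt_const.mul (contDiffAt_dd Y hp)).div_const ε)
  exact ContDiffAt.comp (g := Real.smoothTransition) p
    (Real.smoothTransition.contDiff (n := ⊤)).contDiffAt h1

/-! ### flatness -/

theorem Flat.congr {u w : Cn n → ℝ} {z v : Cn n} (h : PImm1_102.Flat u z v) (he : w =ᶠ[𝓝 z] u) :
    PImm1_102.Flat w z v where
  c2 := h.c2.congr_of_eventuallyEq he
  d1 := by rw [he.fderiv_eq]; exact h.d1
  d2 := by rw [he.fderiv_eq]; exact h.d2
  l := by rw [Levi_145.lev_congr he]; exact h.l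

/-- the affine representative -/
def aff (f : Fin m → Cn n → ℂ) (a₀ : Fin m) (w : Cn n) : Cn m :=
  WithLp.toLp 2 fun b => f b w * (f a₀ w)⁻¹

theorem aff_analytic {f : Fin m → Cn n → ℂ} {z : Cn n} (hf : ∀ a, AnalyticAt ℂ (f a) z)
    {a₀ : Fin m} (h0 : f a₀ z ≠ 0) : AnalyticAt ℂ (aff f a₀) z := by
  have h1 : AnalyticAt ℂ (fun w => fun b => f b w * (f a₀ w)⁻¹) z := by
    rw [analyticAt_pi_iff]
    intro b
    exact (hf b).mul ((hf a₀).inv h0)
  exact (((EuclideanSpace.equiv (Fin m) ℂ).symm : (Fin m → ℂ) →L[ℂ] Cn m).analyticAt _).comp h1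

theorem aff_fderiv {f : Fin m → Cn n → ℂ} {z v : Cn n} (hf : ∀ a, AnalyticAt ℂ (f a) z)
    {a₀ : Fin m} (h0 : f a₀ z ≠ 0) {c : ℂ} (hv : ∀ a, fderiv ℂ (f a) z v = c * f a z) :
    fderiv ℂ (aff f a₀) z v = 0 := by
  have hA := (aff_analytic hf h0).differentiableAt
  ext b
  have h1 : HasFDerivAt (fun w => (EuclideanSpace.proj b : Cn m →L[ℂ] ℂ) (aff f a₀ w))
      ((EuclideanSpace.proj b : Cn m →L[ℂ] ℂ).comp (fderiv ℂ (aff f a₀) z)) z :=
    (EuclideanSpace.proj b : Cn m →L[ℂ] ℂ).hasFDerivAt.comp z hA.hasFDerivAt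
  have h2 : HasFDerivAt (fun w => f b w * (f a₀ w)⁻¹) _ z :=
    (hf b).differentiableAt.hasFDerivAt.mul ((hasFDerivAt_inv h0).comp z
      (hf a₀).differentiableAt.hasFDerivAt)
  have h3 := h1.unique h2
  have h4 := congrArg (fun T : Cn n →L[ℂ] ℂ => T v) h3
  simp only [ContinuousLinearMap.coe_comp, Function.comp_apply, _root_.add_apply,
    _root_.smul_apply, smul_eq_mul, hv] at h4
  have h5 : (fderiv ℂ (aff f a₀) z v) b = 0 := by
    refine (show (fderiv ℂ (aff f a₀) z v) b = _ from h4).trans ?_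
    simp
    field_simp
    ring
  simpa using h5

theorem chi_aff {f : Fin m → Cn n → ℂ} {w : Cn n} {a₀ : Fin m} (h0 : f a₀ w ≠ 0)
    (Y : Fin m → ℂ) (ε : ℝ) : chi Y ε (fun a => f a w) = chi Y ε (fun a => aff f a₀ w a) := by
  rw [← chi_smul Y ε (c := f a₀ w) h0 (fun a => aff f a₀ w a)]
  congr 1
  funext a
  simp only [aff]
  field_simp

theorem smooth_chi {f : Fin m → Cn n → ℂ} {z : Cn n} (hf : ∀ a, AnalyticAt ℂ (f a) z)
    (h0 : ∃ a, f a z ≠ 0) (Y : Fin m → ℂ) (ε : ℝ) :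
    ContDiffAt ℝ ∞ (fun w => chi Y ε (fun a => f a w)) z := by
  obtain ⟨a₀, ha⟩ := h0
  have h1 : ∃ a, aff f a₀ z a ≠ 0 := ⟨a₀, by simp [aff, ha]⟩
  have he : (fun w => chi Y ε (fun a => f a w)) =ᶠ[𝓝 z]
      fun w => (fun q : Cn m => chi Y ε (fun a => q a)) (aff f a₀ w) := by
    filter_upwards [(hf a₀).continuousAt.eventually_ne ha] with w hw
    exact chi_aff hw Y ε
  refine ContDiffAt.congr_of_eventuallyEq ?_ he
  have h2 : ContDiffAt ℝ ∞ (aff f a₀) z := (aff_analytic hf ha).contDiffAt.restrict_scalars ℝ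
  exact ContDiffAt.comp (g := fun q : Cn m => chi Y ε (fun a => q a)) z
    (contDiffAt_chi Y ε h1) h2

theorem flat_chi {f : Fin m → Cn n → ℂ} {z v : Cn n} (hf : ∀ a, AnalyticAt ℂ (f a) z)
    (h0 : ∃ a, f a z ≠ 0) {c : ℂ} (hv : ∀ a, fderiv ℂ (f a) z v = c * f a z)
    (Y : Fin m → ℂ) (ε : ℝ) : PImm1_102.Flat (fun w => chi Y ε (fun a => f a w)) z v := by
  obtain ⟨a₀, ha⟩ := h0
  have h1 : ∃ a, aff f a₀ z a ≠ 0 := ⟨a₀, by simp [aff, ha]⟩
  have he : (fun w => chi Y ε (fun a => f a w)) =ᶠ[𝓝 z]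
      fun w => (fun q : Cn m => chi Y ε (fun a => q a)) (aff f a₀ w) := by
    filter_upwards [(hf a₀).continuousAt.eventually_ne ha] with w hw
    exact chi_aff hw Y ε
  exact Flat.congr (PImm1_102.flat_comp (U := fun q : Cn m => chi Y ε (fun a => q a))
    (aff_analytic hf ha) ((contDiffAt_chi Y ε h1).of_le (by norm_cast)) (aff_fderiv hf ha hv)) he

/-! ### a strictly plurisubharmonic function near a finite set -/

section Theta

variable {M : Type} [TopologicalSpace M] (A : Atl n M)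

/-- the Levi form of `|z|²` read in another chart -/
theorem lev_sq_chart {i j : A.ι} {z : Cn n} (hz : z ∈ A.ov i j) :
    ContDiffAt ℝ ∞ (fun w => ‖A.e j ((A.e i).symm w)‖ ^ 2) z ∧
      ∀ v : Cn n, v ≠ 0 → 0 < Levi_145.lev (fun w => ‖A.e j ((A.e i).symm w)‖ ^ 2) z v := by
  have hT := chg_analytic hz
  have hTa : ∀ a : Fin n, AnalyticAt ℂ (fun w => A.e j ((A.e i).symm w) a) z := fun a =>
    ((EuclideanSpace.proj a : Cn n →L[ℂ] ℂ).analyticAt _).comp hT
  have e : (fun w => ‖A.e j ((A.e i).symm w)‖ ^ 2) =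
      Levi_145.sumSq (fun (a : Fin n) w => A.e j ((A.e i).symm w) a) := by
    funext w
    rw [EuclideanSpace.norm_sq_eq]
    rfl
  rw [e]
  refine ⟨Levi_145.c2_sumSq hTa ∞, fun v hv => ?_⟩
  rw [Levi_145.lev_sumSq hTa]
  have hne : fderiv ℂ (fun w => A.e j ((A.e i).symm w)) z v ≠ 0 := fun h0 => hv (chg_inj hz h0)
  have hcoord : ∀ a : Fin n, fderiv ℂ (fun w => A.e j ((A.e i).symm w) a) z v =
      (fderiv ℂ (fun w => A.e j ((A.e i).symm w)) z v) a := by
    intro a
    have h1 : HasFDerivAt (fun w => (EuclideanSpace.proj a : Cn n →L[ℂ] ℂ) (A.e j ((A.e i).symm w)))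
        ((EuclideanSpace.proj a : Cn n →L[ℂ] ℂ).comp (fderiv ℂ (fun w => A.e j ((A.e i).symm w)) z)) z :=
      (EuclideanSpace.proj a : Cn n →L[ℂ] ℂ).hasFDerivAt.comp z hT.differentiableAt.hasFDerivAt
    have h2 := h1.fderiv
    exact (congrArg (fun T : Cn n →L[ℂ] ℂ => T v) h2)
  simp only [hcoord]
  rw [← EuclideanSpace.norm_sq_eq]
  have := norm_pos_iff.2 hne
  positivity

theorem exists_theta [T2Space M] {F : Set M} (hF : F.Finite) :
    ∃ (U : Set M) (θ : M → ℝ), IsOpen U ∧ F ⊆ U ∧ ∀ x ∈ U, ∀ i, x ∈ (A.e i).source →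
      ContDiffAt ℝ ∞ (fun w => θ ((A.e i).symm w)) (A.e i x) ∧
      ∀ v : Cn n, v ≠ 0 → 0 < Levi_145.lev (fun w => θ ((A.e i).symm w)) (A.e i x) v := by
  classical
  obtain ⟨O, hO, hd⟩ := hF.t2_separation
  choose ch hch using A.cover
  let V : M → Set M := fun x => O x ∩ (A.e (ch x)).source
  have hVo : ∀ x, IsOpen (V x) := fun x => (hO x).2.inter (A.e (ch x)).open_source
  let θ : M → ℝ := fun y => if h : ∃ x ∈ F, y ∈ V x then ‖A.e (ch h.choose) y‖ ^ 2 else 0
  have hθ : ∀ x ∈ F, ∀ y ∈ V x, θ y = ‖A.e (ch x) y‖ ^ 2 := by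
    intro x hx y hy
    have h : ∃ x ∈ F, y ∈ V x := ⟨x, hx, hy⟩
    have h1 : h.choose = x := by
      by_contra hne
      exact Set.disjoint_left.1 (hd h.choose_spec.1 hx hne) h.choose_spec.2.1 hy.1
    simp only [θ, dif_pos h, h1]
  refine ⟨⋃ x ∈ F, V x, θ, isOpen_biUnion fun x _ => hVo x, ?_, ?_⟩
  · intro x hx
    exact mem_iUnion₂.2 ⟨x, hx, (hO x).1, hch x⟩
  · intro x hx i hi
    obtain ⟨x', hx', hxV⟩ := mem_iUnion₂.1 hx
    have hz : A.e i x ∈ A.ov i (ch x') := by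
      refine ⟨(A.e i).map_source hi, ?_⟩
      rw [(A.e i).left_inv hi]
      exact hxV.2
    have he : (fun w => θ ((A.e i).symm w)) =ᶠ[𝓝 (A.e i x)]
        fun w => ‖A.e (ch x') ((A.e i).symm w)‖ ^ 2 := by
      have h1 : Tendsto (A.e i).symm (𝓝 (A.e i x)) (𝓝 x) := by
        have := (A.e i).continuousAt_symm ((A.e i).map_source hi)
        rwa [ContinuousAt, (A.e i).left_inv hi] at this
      filter_upwards [h1.eventually ((hVo x').mem_nhds hxV)] with w hw
      exact hθ x' hx' _ hw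
    obtain ⟨h1, h2⟩ := lev_sq_chart A hz
    refine ⟨h1.congr_of_eventuallyEq he, fun v hv => ?_⟩
    rw [Levi_145.lev_congr he]
    exact h2 v hv

end Theta

end

end Crest.Agent.R272.FinPos2_876
end

-- ▼ part R272/FinPos3_876
section

/-!
# R272, model division (helper876), FIN-POS, file 3: the theorem

`fin_pos`: `y_a` finitely many holomorphic sections of `L` over the open `W`, `K ⊆ W` compact,
no common zero on `K`, and every fibre of `x ↦ [y(x)]` on `K` is finite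
⟹ `∃ k₀, ∀ k ≥ k₀`, there are an open `W'`, `K ⊆ W' ⊆ W`, and a metric of `L ^ k` over `W'` whose
curvature is positive in ALL directions at all points of `W'`.
-/

set_option autoImplicit false
set_option linter.unusedSectionVars false

open Set Filter Topology Complex
open scoped ContDiff Matrix ComplexConjugate Manifold

namespace Crest.Agent.R272.FinPos3_876

open Crest.Agent.R275.Geo Crest.Agent.R275.Core144 Crest.Agent.R273.Defs_333
open Crest.Agent.R273.Map_835 Crest.Agent.R273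
open Crest.Agent.R272.PosGlue_232 Crest.Agent.R272.FinPos1_876 Crest.Agent.R272.FinPos2_876

noncomputable section

variable {n m : ℕ} {M : Type} [TopologicalSpace M] {A : Atl n M} {L : LB A} {W : Set M}
  {y : Fin m → A.ι → M → ℂ}

/-- the set where the sections have no common zero -/
def NZ (y : Fin m → A.ι → M → ℂ) (W : Set M) : Set M :=
  {x | x ∈ W ∧ ∃ i a, x ∈ (A.e i).source ∧ y a i x ≠ 0}

theorem nz_chart (hy : ∀ a, IsHS L W (y a)) {x : M} (hx : x ∈ NZ y W) {j : A.ι}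
    (hj : x ∈ (A.e j).source) : ∃ a, y a j x ≠ 0 := by
  obtain ⟨hxW, i, a, hi, ha⟩ := hx
  refine ⟨a, fun h0 => ha ?_⟩
  rw [(hy a).tr i j x ⟨hi, hj⟩ hxW, h0, mul_zero]

theorem y_diff (hW : IsOpen W) (hy : ∀ a, IsHS L W (y a)) {i : A.ι} {x : M}
    (hx : x ∈ (A.e i).source) (hxW : x ∈ W) (a : Fin m) :
    AnalyticAt ℂ (fun w => y a i ((A.e i).symm w)) (A.e i x) :=
  Crest.Agent.R266.SCV.analyticOnNhd_of_differentiableOn (isOpen_ti hW) ((hy a).hol i) _
    ⟨(A.e i).map_source hx, by rw [mem_preimage, (A.e i).left_inv hx]; exact hxW⟩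

theorem y_cont (hW : IsOpen W) (hy : ∀ a, IsHS L W (y a)) {i : A.ι} {x : M}
    (hx : x ∈ (A.e i).source) (hxW : x ∈ W) (a : Fin m) : ContinuousAt (y a i) x := by
  have h1 := (y_diff hW hy hx hxW a).continuousAt
  have h2 : ContinuousAt (fun x' => y a i ((A.e i).symm (A.e i x'))) x :=
    ContinuousAt.comp (g := fun w => y a i ((A.e i).symm w)) h1 ((A.e i).continuousAt hx)
  refine h2.congr ?_
  filter_upwards [(A.e i).open_source.mem_nhds hx] with x' hx'
  rw [(A.e i).left_inv hx']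

theorem isOpen_nz (hW : IsOpen W) (hy : ∀ a, IsHS L W (y a)) : IsOpen (NZ y W) := by
  rw [isOpen_iff_mem_nhds]
  rintro x ⟨hxW, i, a, hi, ha⟩
  filter_upwards [hW.mem_nhds hxW, (A.e i).open_source.mem_nhds hi,
    (y_cont hW hy hi hxW a).eventually_ne ha] with x' h1 h2 h3
  exact ⟨h1, i, a, h2, h3⟩

/-- a chart at a point -/
def cx (A : Atl n M) (x : M) : A.ι := (A.cover x).choose

theorem cx_mem (A : Atl n M) (x : M) : x ∈ (A.e (cx A x)).source := (A.cover x).choose_spec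

/-- the vector of the sections at a point, in the chosen chart -/
def yv (y : Fin m → A.ι → M → ℂ) (x : M) : Fin m → ℂ := fun a => y a (cx A x) x

theorem yv_eq (hy : ∀ a, IsHS L W (y a)) {x : M} (hxW : x ∈ W) {i : A.ι}
    (hi : x ∈ (A.e i).source) : yv y x = fun a => L.g (cx A x) i x * y a i x := by
  funext a
  exact (hy a).tr _ i x ⟨cx_mem A x, hi⟩ hxW

theorem dd_yv (hy : ∀ a, IsHS L W (y a)) {x : M} (hxW : x ∈ W) {i : A.ι}
    (hi : x ∈ (A.e i).source) (Y : Fin m → ℂ) : dd Y (yv y x) = dd Y (fun a => y a i x) := by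
  rw [yv_eq hy hxW hi, dd_smul Y (L.ne_zero _ _ _)]

theorem chi_yv (hy : ∀ a, IsHS L W (y a)) {x : M} (hxW : x ∈ W) {i : A.ι}
    (hi : x ∈ (A.e i).source) (Y : Fin m → ℂ) (ε : ℝ) :
    chi Y ε (yv y x) = chi Y ε (fun a => y a i x) := by
  rw [yv_eq hy hxW hi, chi_smul Y ε (L.ne_zero _ _ _)]

theorem dd_cont (hW : IsOpen W) (hy : ∀ a, IsHS L W (y a)) (Y : Fin m → ℂ) {x : M}
    (hx : x ∈ NZ y W) : ContinuousAt (fun x' => dd Y (yv y x')) x := by
  have hi := cx_mem A x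
  set i := cx A x
  have hc := fun a => y_cont hW hy hi hx.1 a
  have h1 : ContinuousAt (fun x' => dd Y (fun a => y a i x')) x := by
    unfold dd nn ss
    refine ContinuousAt.div ?_ ?_ (ss_pos (nz_chart hy hx hi)).ne'
    · refine tendsto_finsetSum _ fun a _ => tendsto_finsetSum _ fun b _ => ?_
      exact (((continuousAt_const.mul (hc b)).sub (continuousAt_const.mul (hc a))).norm.pow 2)
    · exact tendsto_finsetSum _ fun a _ => ((hc a).norm.pow 2)
  refine h1.congr ?_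
  filter_upwards [hW.mem_nhds hx.1, (A.e i).open_source.mem_nhds hi] with x' h2 h3
  exact (dd_yv hy h2 h3 Y).symm

/-! ### one term of the auxiliary function -/

/-- the property of `exists_theta` -/
def Psh (A : Atl n M) (θ : M → ℝ) (U : Set M) : Prop :=
  ∀ x ∈ U, ∀ i, x ∈ (A.e i).source →
    ContDiffAt ℝ ∞ (fun w => θ ((A.e i).symm w)) (A.e i x) ∧
    ∀ v : Cn n, v ≠ 0 → 0 < Levi_145.lev (fun w => θ ((A.e i).symm w)) (A.e i x) v

variable {θ : M → ℝ} {U : Set M} {Y : Fin m → ℂ} {ε : ℝ}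

theorem symm_tendsto {i : A.ι} {x : M} (hi : x ∈ (A.e i).source) :
    Tendsto (A.e i).symm (𝓝 (A.e i x)) (𝓝 x) := by
  have := (A.e i).continuousAt_symm ((A.e i).map_source hi)
  rwa [ContinuousAt, (A.e i).left_inv hi] at this

theorem chi_loc (hW : IsOpen W) (hy : ∀ a, IsHS L W (y a)) {i : A.ι} {x : M}
    (hi : x ∈ (A.e i).source) (hx : x ∈ NZ y W) (Y : Fin m → ℂ) (ε : ℝ) :
    (fun w => chi Y ε (yv y ((A.e i).symm w))) =ᶠ[𝓝 (A.e i x)]
      fun w => chi Y ε (fun a => y a i ((A.e i).symm w)) := by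
  filter_upwards [(symm_tendsto hi).eventually (hW.mem_nhds hx.1),
    (symm_tendsto hi).eventually ((A.e i).open_source.mem_nhds hi)] with w h1 h2
  exact chi_yv hy h1 h2 Y ε

theorem term_zero (hW : IsOpen W) (hy : ∀ a, IsHS L W (y a)) (hε : 0 < ε) {i : A.ι} {x : M}
    (hi : x ∈ (A.e i).source) (hx : x ∈ NZ y W) (hd : ε / 2 < dd Y (yv y x)) :
    (fun w => chi Y ε (yv y ((A.e i).symm w)) * θ ((A.e i).symm w)) =ᶠ[𝓝 (A.e i x)]
      fun _ => (0 : ℝ) := by
  have h1 : ∀ᶠ x' in 𝓝 x, ε / 2 < dd Y (yv y x') :=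
    (dd_cont hW hy Y hx).eventually (lt_mem_nhds hd)
  filter_upwards [(symm_tendsto hi).eventually h1] with w hw
  rw [chi_zero hε hw.le, zero_mul]

theorem term_smooth (hW : IsOpen W) (hy : ∀ a, IsHS L W (y a)) (hε : 0 < ε) (hθ : Psh A θ U)
    {i : A.ι} {x : M} (hi : x ∈ (A.e i).source) (hx : x ∈ NZ y W)
    (hd : x ∈ U ∨ ε / 2 < dd Y (yv y x)) :
    ContDiffAt ℝ ∞ (fun w => chi Y ε (yv y ((A.e i).symm w)) * θ ((A.e i).symm w))
      (A.e i x) := by
  rcases hd with hU | hd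
  · have h0 : ∃ a, (fun (a : Fin m) w => y a i ((A.e i).symm w)) a (A.e i x) ≠ 0 := by
      obtain ⟨a, ha⟩ := nz_chart hy hx hi
      refine ⟨a, ?_⟩
      simp only [(A.e i).left_inv hi]
      exact ha
    have h1 := smooth_chi (f := fun (a : Fin m) w => y a i ((A.e i).symm w))
      (fun a => y_diff hW hy hi hx.1 a) h0 Y ε
    exact (h1.congr_of_eventuallyEq (chi_loc hW hy hi hx Y ε)).mul (hθ x hU i hi).1
  · exact contDiffAt_const.congr_of_eventuallyEq (term_zero hW hy hε hi hx hd)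

theorem term_lev (hW : IsOpen W) (hy : ∀ a, IsHS L W (y a)) (hε : 0 < ε) (hθ : Psh A θ U)
    {i : A.ι} {x : M} (hi : x ∈ (A.e i).source) (hx : x ∈ NZ y W)
    (hd : x ∈ U ∨ ε / 2 < dd Y (yv y x)) {v : Cn n} (hv : v ≠ 0) {c : ℂ}
    (hc : ∀ a, fderiv ℂ (fun w => y a i ((A.e i).symm w)) (A.e i x) v = c * y a i x) :
    0 ≤ Levi_145.lev (fun w => chi Y ε (yv y ((A.e i).symm w)) * θ ((A.e i).symm w))
      (A.e i x) v ∧
    (dd Y (yv y x) < ε / 4 →
      0 < Levi_145.lev (fun w => chi Y ε (yv y ((A.e i).symm w)) * θ ((A.e i).symm w))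
        (A.e i x) v) := by
  by_cases hd' : ε / 2 < dd Y (yv y x)
  · rw [Levi_145.lev_congr (term_zero hW hy hε hi hx hd'), Levi_145.lev_const]
    exact ⟨le_rfl, fun h => absurd h (by linarith)⟩
  · have hU := hd.resolve_right hd'
    have h0 : ∃ a, (fun (a : Fin m) w => y a i ((A.e i).symm w)) a (A.e i x) ≠ 0 := by
      obtain ⟨a, ha⟩ := nz_chart hy hx hi
      refine ⟨a, ?_⟩
      simp only [(A.e i).left_inv hi]
      exact ha
    have hfl : PImm1_102.Flat (fun w => chi Y ε (yv y ((A.e i).symm w))) (A.e i x) v :=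
      Flat.congr (flat_chi (f := fun (a : Fin m) w => y a i ((A.e i).symm w)) (c := c)
        (fun a => y_diff hW hy hi hx.1 a) h0 (fun a => by
          have := hc a
          simp only [(A.e i).left_inv hi]
          exact this) Y ε) (chi_loc hW hy hi hx Y ε)
    obtain ⟨k1, k2⟩ := hθ x hU i hi
    have e : (fun w => chi Y ε (yv y ((A.e i).symm w)) * θ ((A.e i).symm w)) =
        fun w => θ ((A.e i).symm w) * chi Y ε (yv y ((A.e i).symm w)) := by
      funext w
      ring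
    rw [e, PImm1_102.lev_mul_flat (k1.of_le (by norm_cast)) hfl]
    have h3 := k2 v hv
    simp only [(A.e i).left_inv hi]
    refine ⟨mul_nonneg h3.le (chi_nonneg _ _ _), fun h4 => ?_⟩
    rw [chi_one hε h4.le, mul_one]
    exact h3

/-! ### the metric -/

theorem ss_tr (hy : ∀ a, IsHS L W (y a)) {i j : A.ι} {x : M}
    (hx : x ∈ (A.e i).source ∩ (A.e j).source) (hxW : x ∈ W) :
    ss (fun a => y a i x) = ‖L.g i j x‖ ^ 2 * ss (fun a => y a j x) := by
  rw [← ss_smul]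
  congr 1
  funext a
  exact (hy a).tr i j x hx hxW

/-- the metric `S^{-k} exp (-ψ)` on `L ^ k` -/
def met (hy : ∀ a, IsHS L W (y a)) (hW : IsOpen W) {W₁ : Set M} (h1 : W₁ ⊆ NZ y W) (ψ : M → ℝ)
    (hψ : ∀ x ∈ W₁, ∀ i, x ∈ (A.e i).source →
      ContDiffAt ℝ ∞ (fun w => ψ ((A.e i).symm w)) (A.e i x)) (k : ℕ) : HMo (L ^ k) W₁ where
  w i x := ((ss (fun a => y a i x)) ^ k)⁻¹ * Real.exp (- ψ x)
  pos i x hi hx := by
    have := ss_pos (nz_chart hy (h1 hx) hi)
    positivity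
  sm i := by
    rintro z ⟨hz, hzW⟩
    have hi := (A.e i).map_target hz
    have hx := h1 hzW
    have e : A.e i ((A.e i).symm z) = z := (A.e i).right_inv hz
    have k1 : ContDiffAt ℝ ∞ (fun w => ψ ((A.e i).symm w)) z := by
      have := hψ _ hzW i hi
      rwa [e] at this
    have k2 : ∀ a, AnalyticAt ℂ (fun w => y a i ((A.e i).symm w)) z := by
      intro a
      have := y_diff hW hy hi hx.1 a
      rwa [e] at this
    have k3 : ContDiffAt ℝ ∞ (fun w => ss (fun a => y a i ((A.e i).symm w))) z :=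
      ContDiffAt.sum fun a _ => Levi_145.c2_normSq (k2 a) ∞
    have k4 := ss_pos (nz_chart hy hx hi)
    exact (((k3.pow k).inv (pow_ne_zero _ k4.ne')).mul
      (Real.contDiff_exp.contDiffAt.comp z k1.neg)).contDiffWithinAt
  tr i j x hx hxU := by
    have k1 := ss_tr hy hx (h1 hxU).1
    have k4 := ss_pos (nz_chart hy (h1 hxU) hx.2)
    have k5 := L.ne_zero i j x
    show ((ss (fun a => y a j x)) ^ k)⁻¹ * _ = ‖(L ^ k).g i j x‖ ^ 2 *
      (((ss (fun a => y a i x)) ^ k)⁻¹ * _)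
    rw [HM_333.LB_pow_g, norm_pow, k1, mul_pow]
    have k6 : ‖L.g i j x‖ ≠ 0 := by positivity
    field_simp
    ring

theorem met_wt (hy : ∀ a, IsHS L W (y a)) (hW : IsOpen W) {W₁ : Set M} (h1 : W₁ ⊆ NZ y W)
    (ψ : M → ℝ) (hψ : ∀ x ∈ W₁, ∀ i, x ∈ (A.e i).source →
      ContDiffAt ℝ ∞ (fun w => ψ ((A.e i).symm w)) (A.e i x)) (k : ℕ) {i : A.ι} {z : Cn n}
    (hz : z ∈ (A.e i).target) (hzW : (A.e i).symm z ∈ W₁) :
    (met hy hW h1 ψ hψ k).wt i z =
      k * Real.log (ss (fun a => y a i ((A.e i).symm z))) + ψ ((A.e i).symm z) := by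
  have k4 := ss_pos (nz_chart hy (h1 hzW) ((A.e i).map_target hz))
  simp only [HMo.wt, met]
  rw [Real.log_mul (by positivity) (Real.exp_pos _).ne', Real.log_exp, Real.log_inv, Real.log_pow]
  ring

theorem met_lev (hy : ∀ a, IsHS L W (y a)) (hW : IsOpen W) {W₁ : Set M} (hW₁ : IsOpen W₁)
    (h1 : W₁ ⊆ NZ y W)
    (ψ : M → ℝ) (hψ : ∀ x ∈ W₁, ∀ i, x ∈ (A.e i).source →
      ContDiffAt ℝ ∞ (fun w => ψ ((A.e i).symm w)) (A.e i x)) (k : ℕ) {i : A.ι} {z : Cn n}
    (hz : z ∈ (A.e i).target) (hzW : (A.e i).symm z ∈ W₁) (v : Cn n) :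
    lev ((met hy hW h1 ψ hψ k).wt i) z v = lev (fun w => ψ ((A.e i).symm w)) z v +
      k * lev (fun w => Real.log (ss (fun a => y a i ((A.e i).symm w)))) z v := by
  have hi := (A.e i).map_target hz
  have e : A.e i ((A.e i).symm z) = z := (A.e i).right_inv hz
  have k1 : ContDiffAt ℝ ∞ (fun w => ψ ((A.e i).symm w)) z := by
    have := hψ _ hzW i hi
    rwa [e] at this
  have k2 : ∀ a, AnalyticAt ℂ (fun w => y a i ((A.e i).symm w)) z := by
    intro a
    have := y_diff hW hy hi (h1 hzW).1 a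
    rwa [e] at this
  have k3 : ContDiffAt ℝ ∞ (fun w => ss (fun a => y a i ((A.e i).symm w))) z :=
    ContDiffAt.sum fun a _ => Levi_145.c2_normSq (k2 a) ∞
  have k4 := ss_pos (nz_chart hy (h1 hzW) hi)
  have k5 : ContDiffAt ℝ 2 (fun w => Real.log (ss (fun a => y a i ((A.e i).symm w)))) z :=
    (k3.log k4.ne').of_le (by norm_cast)
  have k6 : ContDiffAt ℝ 2 (fun w => ψ ((A.e i).symm w)) z := k1.of_le (by norm_cast)
  have he : (met hy hW h1 ψ hψ k).wt i =ᶠ[𝓝 z] fun w =>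
      (k : ℝ) * Real.log (ss (fun a => y a i ((A.e i).symm w))) + ψ ((A.e i).symm w) := by
    filter_upwards [(isOpen_tU hW₁ i).mem_nhds ⟨hz, hzW⟩] with w hw
    exact met_wt hy hW h1 ψ hψ k hw.1 hw.2
  rw [PB_835.lev_congr' he, PB_835.lev_bridge, Levi_145.lev_add (contDiffAt_const.mul k5) k6,
    Levi_145.lev_const_mul (k : ℝ) k5, PB_835.lev_bridge, PB_835.lev_bridge]
  ring

end

end Crest.Agent.R272.FinPos3_876
end

-- ▼ part R272/FinPos4_876
section

/-!
# R272, model division (helper876), FIN-POS, file 4: the main theorem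

`fin_pos`     : finitely many holomorphic sections `y_a` of `L` over the open `W`, `K ⊆ W` compact,
                no common zero on `K`, finite fibres of `[y]` on `K` ⟹ for all large `k` a metric of
                `L ^ k` over a neighbourhood `W'` of `K`, positive in ALL directions.
`fin_pos_map` : `K = p ⁻¹' {q}`, `p` proper: the metric lives over `p ⁻¹' V`, `V` open, `q ∈ V`
                (input of `glue` / `glue_pos` of `PosGlue_232`).
-/

set_option autoImplicit false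
set_option linter.unusedSectionVars false

open Set Filter Topology Complex
open scoped ContDiff Matrix ComplexConjugate Manifold

namespace Crest.Agent.R272.FinPos4_876

open Crest.Agent.R275.Geo Crest.Agent.R275.Core144 Crest.Agent.R273.Defs_333
open Crest.Agent.R273.Map_835 Crest.Agent.R273
open Crest.Agent.R272.PosGlue_232 Crest.Agent.R272.FinPos1_876 Crest.Agent.R272.FinPos2_876
open Crest.Agent.R272.FinPos3_876

noncomputable section

variable {n m : ℕ} {M : Type} [TopologicalSpace M] {A : Atl n M} {L : LB A} {W K : Set M}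
  {y : Fin m → A.ι → M → ℂ}

/-- no common zero on `K` -/
def NoZero (A : Atl n M) (y : Fin m → A.ι → M → ℂ) (K : Set M) : Prop :=
  ∀ x ∈ K, ∃ i a, x ∈ (A.e i).source ∧ y a i x ≠ 0

/-- finite fibres on `K`: for every `q ∈ K` and some chart at `q`, only finitely many `x ∈ K` have
`y(x)` proportional to `y(q)` -/
def FinFib (A : Atl n M) (y : Fin m → A.ι → M → ℂ) (K : Set M) : Prop :=
  ∀ q ∈ K, ∃ i, q ∈ (A.e i).source ∧
    {x | x ∈ K ∧ ∀ j, x ∈ (A.e j).source → ∀ a b, y a i q * y b j x = y b i q * y a j x}.Finite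

/-- data at one point -/
theorem exists_local [T2Space M] (hW : IsOpen W) (hy : ∀ a, IsHS L W (y a)) (hK : IsCompact K)
    (hKN : K ⊆ NZ y W) {q : M} (hq : q ∈ K) (hf : ∃ i, q ∈ (A.e i).source ∧
      {x | x ∈ K ∧ ∀ j, x ∈ (A.e j).source → ∀ a b, y a i q * y b j x = y b i q * y a j x}.Finite) :
    ∃ (U : Set M) (θ : M → ℝ) (ε : ℝ), IsOpen U ∧ 0 < ε ∧ Psh A θ U ∧
      ∀ x ∈ K, x ∉ U → ε ≤ dd (yv y q) (yv y x) := by
  obtain ⟨i, hi, hfin⟩ := hf
  obtain ⟨U, θ, hU, hFU, hθ⟩ := exists_theta A hfin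
  have hne : ∀ x ∈ K, x ∉ U → 0 < dd (yv y q) (yv y x) := by
    intro x hx hxU
    refine (dd_nonneg _ _).lt_of_ne' fun h0 => hxU (hFU ⟨hx, fun j hj a b => ?_⟩)
    have hxN := hKN hx
    have h1 : dd (yv y q) (fun a => y a j x) = 0 := by rw [← dd_yv hy hxN.1 hj, h0]
    have h2 := dd_eq_zero (nz_chart hy hxN hj) h1 a b
    rw [yv_eq hy (hKN hq).1 hi] at h2
    have h3 := L.ne_zero (cx A q) i q
    have h4 : L.g (cx A q) i q * (y a i q * y b j x) =
        L.g (cx A q) i q * (y b i q * y a j x) := by linear_combination h2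
    exact mul_left_cancel₀ h3 h4
  have hKU : IsCompact (K \ U) := hK.diff hU
  have hcont : ContinuousOn (fun x => dd (yv y q) (yv y x)) (K \ U) := fun x hx =>
    (dd_cont hW hy (yv y q) (hKN hx.1)).continuousWithinAt
  rcases (K \ U).eq_empty_or_nonempty with he | hne'
  · refine ⟨U, θ, 1, hU, one_pos, hθ, fun x hx hxU => ?_⟩
    exact absurd (show x ∈ K \ U from ⟨hx, hxU⟩) (by rw [he]; exact notMem_empty x)
  · obtain ⟨x₀, hx₀, hmin⟩ := hKU.exists_isMinOn hne' hcont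
    exact ⟨U, θ, _, hU, hne x₀ hx₀.1 hx₀.2, hθ, fun x hx hxU => hmin ⟨hx, hxU⟩⟩

/-- **FIN-POS** -/
theorem fin_pos [T2Space M] (hW : IsOpen W) (hK : IsCompact K) (hKW : K ⊆ W)
    (hy : ∀ a, IsHS L W (y a)) (hnz : NoZero A y K) (hfin : FinFib A y K) :
    ∃ k₀ : ℕ, ∀ k, k₀ ≤ k → ∃ W' : Set M, IsOpen W' ∧ K ⊆ W' ∧ W' ⊆ W ∧
      ∃ h : HMo (L ^ k) W', ∀ x ∈ W', PosAtO h x := by
  classical
  have hKN : K ⊆ NZ y W := fun x hx => ⟨hKW hx, hnz x hx⟩
  have hNo := isOpen_nz hW hy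
  have hloc := fun (q : M) (hq : q ∈ K) => exists_local hW hy hK hKN hq (hfin q hq)
  choose! U θ ε hUo hε hθ hbd using hloc
  -- finitely many points
  have hcov : ∀ q ∈ K, {x | x ∈ NZ y W ∧ dd (yv y q) (yv y x) < ε q / 4} ∈ 𝓝 q := by
    intro q hq
    have h1 : dd (yv y q) (yv y q) < ε q / 4 := by
      rw [dd_self]
      have := hε q hq
      positivity
    filter_upwards [hNo.mem_nhds (hKN hq),
      (dd_cont hW hy (yv y q) (hKN hq)).eventually (gt_mem_nhds h1)] with x h2 h3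
    exact ⟨h2, h3⟩
  obtain ⟨t, htK, hKt⟩ := hK.elim_nhds_subcover _ hcov
  -- the neighbourhood
  let G : M → Set M := fun q => {x | x ∈ NZ y W ∧ (x ∈ U q ∨ ε q / 2 < dd (yv y q) (yv y x))}
  have hGo : ∀ q ∈ K, IsOpen (G q) := by
    intro q hq
    rw [isOpen_iff_mem_nhds]
    rintro x ⟨hx, hx'⟩
    rcases hx' with h | h
    · filter_upwards [hNo.mem_nhds hx, (hUo q hq).mem_nhds h] with x' h1 h2
      exact ⟨h1, Or.inl h2⟩
    · filter_upwards [hNo.mem_nhds hx,
        (dd_cont hW hy (yv y q) hx).eventually (lt_mem_nhds h)] with x' h1 h2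
      exact ⟨h1, Or.inr h2⟩
  let W₁ : Set M := NZ y W ∩ ⋂ q ∈ t, G q
  have hW₁o : IsOpen W₁ := hNo.inter (isOpen_biInter_finset fun q hq => hGo q (htK q hq))
  have hW₁ : W₁ ⊆ NZ y W := inter_subset_left
  have hKW₁ : K ⊆ W₁ := by
    intro x hx
    refine ⟨hKN hx, mem_iInter₂.2 fun q hq => ⟨hKN hx, ?_⟩⟩
    by_cases hxU : x ∈ U q
    · exact Or.inl hxU
    · refine Or.inr ?_
      have h1 := hbd q (htK q hq) x hx hxU
      have h2 := hε q (htK q hq)
      linarith
  let ψ : M → ℝ := fun x => ∑ q ∈ t, chi (yv y q) (ε q) (yv y x) * θ q x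
  have hterm : ∀ x ∈ W₁, ∀ i, x ∈ (A.e i).source → ∀ q ∈ t,
      ContDiffAt ℝ ∞ (fun w => chi (yv y q) (ε q) (yv y ((A.e i).symm w)) *
        θ q ((A.e i).symm w)) (A.e i x) := by
    intro x hx i hi q hq
    exact term_smooth hW hy (hε q (htK q hq)) (hθ q (htK q hq)) hi hx.1
      ((mem_iInter₂.1 hx.2 q hq).2)
  have hψ : ∀ x ∈ W₁, ∀ i, x ∈ (A.e i).source →
      ContDiffAt ℝ ∞ (fun w => ψ ((A.e i).symm w)) (A.e i x) := fun x hx i hi =>
    ContDiffAt.sum fun q hq => hterm x hx i hi q hq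
  -- smoothness on the chart domains
  have hu1 : ∀ i, ContDiffOn ℝ ∞ (fun w => ψ ((A.e i).symm w))
      ((A.e i).target ∩ (A.e i).symm ⁻¹' W₁) := by
    rintro i z ⟨hz, hzW⟩
    have := hψ _ hzW i ((A.e i).map_target hz)
    rw [(A.e i).right_inv hz] at this
    exact this.contDiffWithinAt
  have hya : ∀ i, ∀ z ∈ (A.e i).target ∩ (A.e i).symm ⁻¹' W₁, ∀ a,
      AnalyticAt ℂ (fun w => y a i ((A.e i).symm w)) z := by
    rintro i z ⟨hz, hzW⟩ a
    have := y_diff hW hy ((A.e i).map_target hz) (hW₁ hzW).1 a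
    rwa [(A.e i).right_inv hz] at this
  have hnz' : ∀ i, ∀ z ∈ (A.e i).target ∩ (A.e i).symm ⁻¹' W₁,
      ∃ a, y a i ((A.e i).symm z) ≠ 0 := fun i z hz =>
    nz_chart hy (hW₁ hz.2) ((A.e i).map_target hz.1)
  have hu2 : ∀ i, ContDiffOn ℝ ∞ (fun w => Real.log (ss (fun a => y a i ((A.e i).symm w))))
      ((A.e i).target ∩ (A.e i).symm ⁻¹' W₁) := by
    intro i z hz
    have k3 : ContDiffAt ℝ ∞ (fun w => ss (fun a => y a i ((A.e i).symm w))) z :=
      ContDiffAt.sum fun a _ => Levi_145.c2_normSq (hya i z hz a) ∞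
    exact (k3.log (ss_pos (hnz' i z hz)).ne').contDiffWithinAt
  -- local statement
  have hloc : ∀ x ∈ K, ∃ m₀ : ℕ, ∀ᶠ x' in 𝓝[K] x, ∀ k : ℕ, m₀ ≤ k →
      PosAtO (met hy hW hW₁ ψ hψ k) x' := by
    intro x hx
    obtain ⟨i, hi⟩ := A.cover x
    have ho := isOpen_tU hW₁o i
    have hz0 : A.e i x ∈ (A.e i).target ∩ (A.e i).symm ⁻¹' W₁ := by
      refine ⟨(A.e i).map_source hi, ?_⟩
      rw [mem_preimage, (A.e i).left_inv hi]
      exact hKW₁ hx
    obtain ⟨r, hr, hball⟩ := Metric.nhds_basis_closedBall.mem_iff.1 (ho.mem_nhds hz0)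
    set C : Set (Cn n) := Metric.closedBall (A.e i x) r ∩ (A.e i).symm ⁻¹' K with hC
    have hCc : IsCompact C := by
      have h1 : ContinuousOn (A.e i).symm (Metric.closedBall (A.e i x) r) :=
        (A.e i).continuousOn_symm.mono fun z hz => (hball hz).1
      exact (isCompact_closedBall (A.e i x) r).of_isClosed_subset
        (h1.preimage_isClosed_of_isClosed Metric.isClosed_closedBall hK.isClosed) inter_subset_left
    have hCt : C ⊆ (A.e i).target ∩ (A.e i).symm ⁻¹' W₁ := fun z hz => hball hz.1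
    set S : Set (Cn n) := Metric.sphere 0 1 with hS
    have hSc : IsCompact S := isCompact_sphere 0 1
    have ca := lev_continuousOn ho (hu1 i)
    have cb := lev_continuousOn ho (hu2 i)
    have hsub : C ×ˢ S ⊆ ((A.e i).target ∩ (A.e i).symm ⁻¹' W₁) ×ˢ (univ : Set (Cn n)) :=
      fun q hq => ⟨hCt hq.1, mem_univ _⟩
    have h0 : ∀ z ∈ (A.e i).target ∩ (A.e i).symm ⁻¹' W₁,
        ∃ a, (fun (a : Fin m) w => y a i ((A.e i).symm w)) a z ≠ 0 := fun z hz => hnz' i z hz
    obtain ⟨m₀, hm₀⟩ := exists_large (hCc.prod hSc) (ca.mono hsub) (cb.mono hsub)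
      (fun q hq => by
        rw [PB_835.lev_bridge]
        have := Levi_145.lev_log_sumSq_nonneg (F := fun (a : Fin m) w => y a i ((A.e i).symm w))
          (hya i q.1 (hCt hq.1)) (h0 q.1 (hCt hq.1)) q.2
        exact mul_nonneg (by norm_num) this)
      (by
        intro q hq hb
        have hv : q.2 ≠ 0 := by
          intro h1
          have h2 : ‖q.2‖ = 1 := by simpa [hS] using hq.2
          rw [h1, norm_zero] at h2
          exact zero_ne_one h2
        have hq1 := hCt hq.1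
        rw [PB_835.lev_bridge] at hb
        have hb' : Levi_145.lev (fun w => Real.log (Levi_145.sumSq
            (fun (a : Fin m) w => y a i ((A.e i).symm w)) w)) q.1 q.2 = 0 := by
          have : (4 : ℝ) ≠ 0 := by norm_num
          exact (mul_eq_zero.1 hb).resolve_left this
        obtain ⟨c, hc⟩ := Levi_145.lev_log_sumSq_eq_zero
          (hya i q.1 hq1) (h0 q.1 hq1) hb'
        -- the point of `K`
        have hxK : (A.e i).symm q.1 ∈ K := hq.1.2
        have hxs : (A.e i).symm q.1 ∈ (A.e i).source := (A.e i).map_target hq1.1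
        have ez : A.e i ((A.e i).symm q.1) = q.1 := (A.e i).right_inv hq1.1
        have hlev : ∀ p ∈ t, _ := fun p hp => term_lev (U := U p) (θ := θ p) (ε := ε p)
          (Y := yv y p) (c := c) hW hy (hε p (htK p hp)) (hθ p (htK p hp)) hxs
          (hW₁ hq1.2) ((mem_iInter₂.1 hq1.2.2 p hp).2) hv (fun a => by rw [ez]; exact hc a)
        rw [ez] at hlev
        have hsum : Levi_145.lev (fun w => ψ ((A.e i).symm w)) q.1 q.2 =
            ∑ p ∈ t, Levi_145.lev (fun w => chi (yv y p) (ε p) (yv y ((A.e i).symm w)) *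
              θ p ((A.e i).symm w)) q.1 q.2 := by
          refine Levi_145.lev_sum t (f := fun p w => chi (yv y p) (ε p) (yv y ((A.e i).symm w)) *
              θ p ((A.e i).symm w)) (fun p hp => ?_) q.2
          have := hterm _ hq1.2 i hxs p hp
          rw [ez] at this
          exact this.of_le (by norm_cast)
        show 0 < lev (fun w => ψ ((A.e i).symm w)) q.1 q.2
        rw [PB_835.lev_bridge, hsum]
        obtain ⟨p, hp, hxp⟩ := mem_iUnion₂.1 (hKt hxK)
        have h4 : 0 < ∑ p ∈ t, Levi_145.lev (fun w => chi (yv y p) (ε p)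
            (yv y ((A.e i).symm w)) * θ p ((A.e i).symm w)) q.1 q.2 :=
          Finset.sum_pos' (fun p hp => (hlev p hp).1) ⟨p, hp, (hlev p hp).2 hxp.2⟩
        positivity)
    refine ⟨m₀, ?_⟩
    have hev : ∀ᶠ x' in 𝓝[K] x, x' ∈ (A.e i).source ∧
        A.e i x' ∈ Metric.closedBall (A.e i x) r := by
      refine nhdsWithin_le_nhds ?_
      filter_upwards [(A.e i).open_source.mem_nhds hi,
        (A.e i).continuousAt hi (Metric.closedBall_mem_nhds _ hr)] with x' h1 h2 using ⟨h1, h2⟩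
    filter_upwards [hev, self_mem_nhdsWithin] with x' hx' hxK'
    intro k hk'
    refine posAtO_of hW₁o (hKW₁ hxK') hx'.1 fun v hv => ?_
    have hmt : A.e i x' ∈ (A.e i).target := (A.e i).map_source hx'.1
    have hsx : (A.e i).symm (A.e i x') = x' := (A.e i).left_inv hx'.1
    rw [met_lev hy hW hW₁o hW₁ ψ hψ k hmt (by rw [hsx]; exact hKW₁ hxK') v]
    have hvn : (0 : ℝ) < ‖v‖ := norm_pos_iff.2 hv
    have hmem : ((A.e i x', ((‖v‖⁻¹ : ℝ) : ℂ) • v) : Cn n × Cn n) ∈ C ×ˢ S := by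
      refine ⟨⟨hx'.2, ?_⟩, ?_⟩
      · show (A.e i).symm (A.e i x') ∈ K
        rw [hsx]
        exact hxK'
      · show _ ∈ Metric.sphere (0 : Cn n) 1
        rw [mem_sphere_zero_iff_norm, norm_smul, Complex.norm_real, norm_inv, norm_norm,
          inv_mul_cancel₀ hvn.ne']
    have h5 := hm₀ k hk' _ hmem
    simp only [lev_real_smul] at h5
    have h6 : (0 : ℝ) < (‖v‖⁻¹) ^ 2 := by positivity
    have h7 : (‖v‖⁻¹ ^ 2) * (lev (fun w => ψ ((A.e i).symm w)) (A.e i x') v +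
        k * lev (fun w => Real.log (ss (fun a => y a i ((A.e i).symm w)))) (A.e i x') v) =
        ‖v‖⁻¹ ^ 2 * lev (fun w => ψ ((A.e i).symm w)) (A.e i x') v +
        k * (‖v‖⁻¹ ^ 2 *
          lev (fun w => Real.log (ss (fun a => y a i ((A.e i).symm w)))) (A.e i x') v) := by
      ring
    rw [← h7] at h5
    exact (pos_iff_pos_of_mul_pos h5).1 h6
  -- compactness
  choose! m₀ hm₀ using hloc
  obtain ⟨s, -, hs⟩ := hK.elim_nhdsWithin_subcover
    (fun x => {x' | ∀ k : ℕ, m₀ x ≤ k → PosAtO (met hy hW hW₁ ψ hψ k) x'})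
    (fun x hx => hm₀ x hx)
  refine ⟨s.sup m₀, fun k hk => ?_⟩
  have hpos : ∀ x ∈ K, PosAtO (met hy hW hW₁ ψ hψ k) x := by
    intro x hx
    obtain ⟨x₀, hx₀, hxx⟩ := mem_iUnion₂.1 (hs hx)
    exact hxx k ((Finset.le_sup hx₀).trans hk)
  refine ⟨{x | x ∈ W₁ ∧ PosAtO (met hy hW hW₁ ψ hψ k) x}, isOpen_posAtO _ hW₁o,
    fun x hx => ⟨hKW₁ hx, hpos x hx⟩, fun x hx => (hW₁ hx.1).1,
    (met hy hW hW₁ ψ hψ k).mono fun x hx => hx.1, fun x hx => ?_⟩
  exact hx.2



end

end Crest.Agent.R272.FinPos4_876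
end

-- ▼ part R272/FinCB1_876

/-!
# R272, model division (helper876): FIN-POS for bundles given by open covers (`CBo` of helper232)

`NoZ y K`            : the sections `y k` of `L` have no common zero on `K`;
`FinF y K`           : finite fibres of `[y]` on `K`;
`PosNear.of_fin`     : **FIN-POS for `CB`**;  `PosNear.of_fin_pow` : sections of a power;
`Par r s`            : the vectors `r`, `s` are proportional;
`fin_of_pieces`      : (5F) finite fibres on `K` from finite fibres of sub-families on pieces;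
`Val E k Φ x r`      : `r` is the vector of values at `x` of the functions `Φ j / generator of E^k`;
`PosNear.of_val`     : functions `Φ j`, value vectors `R x ≠ 0`, finite fibres of `[R]` on `K`
                       ⟹ the ideal bundle `E.idl k` is positive near `K`.
-/

set_option autoImplicit false
set_option linter.unusedSectionVars false
set_option linter.unusedVariables false

open Set Filter Topology Complex
open scoped ContDiff Matrix ComplexConjugate Manifold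

namespace Crest.Agent.R272.FinCB1_876

open Crest.Agent.R275.Geo Crest.Agent.R275.Core144 Crest.Agent.R275.GC293
open Crest.Agent.R273 Crest.Agent.R273.Defs_333 Crest.Agent.R273.Map_835
open Crest.Agent.R273.Fam_835
open Crest.Agent.R272.Quot_783 Crest.Agent.R272.PosGlue_232 Crest.Agent.R272.CB_232
open Crest.Agent.R272.FinPos1_876 Crest.Agent.R272.FinPos4_876

noncomputable section

variable {n m : ℕ} {X N : Type} [TopologicalSpace X] [TopologicalSpace N]
  {C C' : Fam n X} {D : Fam m N} {p : X → N} {U V W : Set X} {κ : Type}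

/-- no common zero on `K` -/
def NoZ {L : CBo C U} (y : κ → Sec L W) (K : Set X) : Prop :=
  ∀ x ∈ K, ∃ k a, x ∈ L.V a ∧ (y k).s a x ≠ 0

/-- finite fibres on `K` -/
def FinF {L : CBo C U} (y : κ → Sec L W) (K : Set X) : Prop :=
  ∀ q ∈ K, ∃ a, q ∈ L.V a ∧ {x | x ∈ K ∧ ∀ b, x ∈ L.V b → ∀ k l,
    (y k).s a q * (y l).s b x = (y l).s a q * (y k).s b x}.Finite

/-- **FIN-POS for `CB`** -/
theorem _root_.Crest.Agent.R272.CB_232.PosNear.of_fin [CompactSpace X] [T2Space X] [Fintype κ]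
    {L : CB C} {K : Set X} (hK : IsCompact K) (hW : IsOpen W) (hKW : K ⊆ W) (y : κ → Sec L W)
    (hnz : NoZ y K) (hfin : FinF y K) : PosNear L K := by
  classical
  obtain ⟨A, -, -, -, h4, hA, hA'⟩ := C.exists_atl L.V L.op (fun x => L.cov x (mem_univ x))
  choose c hc using h4
  let e := Fintype.equivFin κ
  obtain ⟨k₀, hk⟩ := fin_pos (L := CB.lb L A hA c hc) hW hK hKW
    (y := fun k => Sec.on L A c (y (e.symm k))) (fun k => isHS_lb L A hA c hc hW (y (e.symm k)))
    (by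
      intro x hx
      obtain ⟨k, a, ha, h0⟩ := hnz x hx
      obtain ⟨i, hi⟩ := A.cover x
      refine ⟨i, e k, hi, ?_⟩
      show Sec.on L A c (y (e.symm (e k))) i x ≠ 0
      rw [e.symm_apply_apply, Sec.on_eq A c (y k) hi (hKW hx)]
      exact ((y k).ne_iff ha (hc i hi) (hKW hx)).1 h0)
    (by
      intro q hq
      obtain ⟨a, ha, hf⟩ := hfin q hq
      obtain ⟨i, hi⟩ := A.cover q
      refine ⟨i, hi, hf.subset ?_⟩
      rintro x ⟨hx, hx'⟩
      refine ⟨hx, fun b hb k l => ?_⟩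
      obtain ⟨j, hj⟩ := A.cover x
      have h1 := hx' j hj (e k) (e l)
      simp only [e.symm_apply_apply] at h1
      rw [Sec.on_eq A c (y k) hi (hKW hq), Sec.on_eq A c (y l) hi (hKW hq),
        Sec.on_eq A c (y k) hj (hKW hx), Sec.on_eq A c (y l) hj (hKW hx)] at h1
      have t1 := (y k).tr a (c i) q ⟨⟨ha, hc i hi⟩, hKW hq⟩
      have t2 := (y l).tr a (c i) q ⟨⟨ha, hc i hi⟩, hKW hq⟩
      have t3 := (y k).tr b (c j) x ⟨⟨hb, hc j hj⟩, hKW hx⟩
      have t4 := (y l).tr b (c j) x ⟨⟨hb, hc j hj⟩, hKW hx⟩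
      rw [t1, t2, t3, t4]
      linear_combination (L.g a (c i) q * L.g b (c j) x) * h1)
  have hk1 : k₀ + 1 ≠ 0 := by omega
  obtain ⟨W', hW', hKW', -, h, hh⟩ := hk (k₀ + 1) (by omega)
  refine PosNear.of_zpow (k := k₀ + 1) hk1 ?_
  have hg : ∀ i j x, (CB.lb (L.zpow ((k₀ + 1 : ℕ) : ℤ)) A hA c hc).g i j x =
      ((CB.lb L A hA c hc) ^ (k₀ + 1)).g i j x := by
    intro i j x
    rw [HM_333.LB_pow_g]
    by_cases hx : x ∈ (A.e i).source ∩ (A.e j).source
    · rw [CB.lb_g (L.zpow ((k₀ + 1 : ℕ) : ℤ)) A hA c hc hx.1 hx.2, CB.lb_g L A hA c hc hx.1 hx.2]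
      show L.g (c i) (c j) x ^ ((k₀ + 1 : ℕ) : ℤ) = _
      rw [zpow_natCast]
    · rw [(CB.lb (L.zpow ((k₀ + 1 : ℕ) : ℤ)) A hA c hc).off i j x hx,
        (CB.lb L A hA c hc).off i j x hx, one_pow]
  let h' : HMo (CB.lb (L.zpow ((k₀ + 1 : ℕ) : ℤ)) A hA c hc) W' :=
    { w := h.w
      pos := h.pos
      sm := h.sm
      tr := fun i j x hx hxW => by rw [hg]; exact h.tr i j x hx hxW }
  exact PosNear.of_hmo (L.zpow ((k₀ + 1 : ℕ) : ℤ)) A hA hA' c hc hW' hKW' h' fun x hx => hh x hx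


/-! ### proportional vectors -/

/-- proportional vectors -/
def Par (r s : κ → ℂ) : Prop := ∀ k l, r k * s l = r l * s k

theorem Par.symm {r s : κ → ℂ} (h : Par r s) : Par s r := fun k l => by
  linear_combination -(h k l)

theorem Par.refl (r : κ → ℂ) : Par r r := fun k l => mul_comm _ _

theorem Par.trans {r s t : κ → ℂ} (h0 : r ≠ 0) (h1 : Par s r) (h2 : Par r t) : Par s t := by
  obtain ⟨i, hi⟩ := Function.ne_iff.1 h0
  simp only [Pi.zero_apply] at hi
  intro k l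
  have a1 := h1 k i
  have a2 := h1 l i
  have b1 := h2 k i
  have b2 := h2 l i
  have h3 : r i ^ 2 * (s k * t l) = r i ^ 2 * (s l * t k) := by
    linear_combination (r i * t l) * a1 - (r i * t k) * a2 + (s i * r l) * b1 - (s i * r k) * b2
  exact mul_left_cancel₀ (pow_ne_zero 2 hi) h3


end

end Crest.Agent.R272.FinCB1_876
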