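import Mathlib

-- ▼ part R272/Glue1_342
section

/-!
# R272, GLUE2 (helper342): surgery over a base, topological part

`SD B X0 X1` : `p0 : X0 → B \ Z`, `p1 : X1 → U`, `Z ⊆ U`, and a homeomorphism over `U \ Z`.
`S.X` is the union; `S.il : X0 → S.X`, `S.ir : X1 → S.X` are open embeddings over `B`.
-/

set_option autoImplicit false
set_option linter.unusedSectionVars false
set_option linter.style.haveILetI false

open Set Filter Topology

namespace Crest.Agent.R272.Glue_342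

noncomputable section

universe u v w

/-- surgery data over the base `B` -/
structure SD (B : Type u) (X0 : Type v) (X1 : Type w) [TopologicalSpace B]
    [TopologicalSpace X0] [TopologicalSpace X1] where
  p0 : X0 → B
  p1 : X1 → B
  c0 : Continuous p0
  c1 : Continuous p1
  U : Set B
  Z : Set B
  oU : IsOpen U
  cZ : IsClosed Z
  ZU : Z ⊆ U
  n0 : ∀ x, p0 x ∉ Z
  n1 : ∀ y, p1 y ∈ U
  φ : OpenPartialHomeomorph X0 X1
  φs : ∀ x, x ∈ φ.source ↔ p0 x ∈ U
  φt : ∀ y, y ∈ φ.target ↔ p1 y ∉ Z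
  φp : ∀ x ∈ φ.source, p1 (φ x) = p0 x

variable {B : Type u} {X0 : Type v} {X1 : Type w} [TopologicalSpace B]
  [TopologicalSpace X0] [TopologicalSpace X1]

namespace SD

variable (S : SD B X0 X1)

/-- the glued space -/
def X : Type (max v w) := X0 ⊕ {y : X1 // S.p1 y ∈ S.Z}

/-- the first piece -/
def il (x : X0) : S.X := Sum.inl x

open Classical in
/-- the second piece -/
def ir (y : X1) : S.X := if h : S.p1 y ∈ S.Z then Sum.inr ⟨y, h⟩ else Sum.inl (S.φ.symm y)

theorem ir_mem {y : X1} (h : S.p1 y ∈ S.Z) : S.ir y = Sum.inr ⟨y, h⟩ := dif_pos h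

theorem ir_not {y : X1} (h : S.p1 y ∉ S.Z) : S.ir y = S.il (S.φ.symm y) := dif_neg h

theorem ir_target {y : X1} (h : y ∈ S.φ.target) : S.ir y = S.il (S.φ.symm y) :=
  S.ir_not ((S.φt y).1 h)

theorem ir_φ {x : X0} (h : x ∈ S.φ.source) : S.ir (S.φ x) = S.il x := by
  rw [S.ir_target (S.φ.map_source h), S.φ.left_inv h]

@[elab_as_elim]
theorem ind {P : S.X → Prop} (h0 : ∀ x, P (S.il x)) (h1 : ∀ y, P (S.ir y)) : ∀ z, P z := by
  rintro (x | ⟨y, hy⟩)
  · exact h0 x
  · rw [← S.ir_mem hy]; exact h1 y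

theorem il_inj : Function.Injective S.il := fun _ _ h => Sum.inl_injective h

theorem ir_inj : Function.Injective S.ir := by
  intro y y' h
  by_cases hy : S.p1 y ∈ S.Z <;> by_cases hy' : S.p1 y' ∈ S.Z
  · rw [S.ir_mem hy, S.ir_mem hy'] at h
    exact congrArg Subtype.val (Sum.inr_injective h)
  · rw [S.ir_mem hy, S.ir_not hy'] at h
    exact absurd h (by simp [il])
  · rw [S.ir_not hy, S.ir_mem hy'] at h
    exact absurd h (by simp [il])
  · rw [S.ir_not hy, S.ir_not hy'] at h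
    exact S.φ.symm.injOn ((S.φt y).2 hy) ((S.φt y').2 hy') (S.il_inj h)

instance : TopologicalSpace S.X :=
  TopologicalSpace.coinduced S.il inferInstance ⊔ TopologicalSpace.coinduced S.ir inferInstance

theorem isOpen_iff {W : Set S.X} : IsOpen W ↔ IsOpen (S.il ⁻¹' W) ∧ IsOpen (S.ir ⁻¹' W) :=
  Iff.rfl

theorem continuous_iff {Y : Type*} [TopologicalSpace Y] {f : S.X → Y} :
    Continuous f ↔ Continuous (fun x => f (S.il x)) ∧ Continuous (fun y => f (S.ir y)) := by
  constructor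
  · intro h
    refine ⟨⟨fun V hV => ?_⟩, ⟨fun V hV => ?_⟩⟩
    · exact (S.isOpen_iff.1 (hV.preimage h)).1
    · exact (S.isOpen_iff.1 (hV.preimage h)).2
  · rintro ⟨h0, h1⟩
    exact ⟨fun V hV => S.isOpen_iff.2 ⟨hV.preimage h0, hV.preimage h1⟩⟩

theorem c_il : Continuous S.il := ((S.continuous_iff (f := id)).1 continuous_id).1

theorem c_ir : Continuous S.ir := ((S.continuous_iff (f := id)).1 continuous_id).2

theorem pre_ir_il (W : Set X0) : S.ir ⁻¹' (S.il '' W) = S.φ.target ∩ S.φ.symm ⁻¹' W := by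
  ext y
  constructor
  · rintro ⟨x, hx, h⟩
    by_cases hy : S.p1 y ∈ S.Z
    · rw [S.ir_mem hy] at h
      exact absurd h (by simp [il])
    · rw [S.ir_not hy] at h
      have := S.il_inj h
      exact ⟨(S.φt y).2 hy, by rw [mem_preimage, ← this]; exact hx⟩
  · rintro ⟨hy, hx⟩
    exact ⟨_, hx, (S.ir_target hy).symm⟩

theorem pre_il_ir (V : Set X1) : S.il ⁻¹' (S.ir '' V) = S.φ.source ∩ S.φ ⁻¹' V := by
  ext x
  constructor
  · rintro ⟨y, hy, h⟩
    by_cases hZ : S.p1 y ∈ S.Z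
    · rw [S.ir_mem hZ] at h
      exact absurd h (by simp [il])
    · rw [S.ir_not hZ] at h
      have h2 := S.il_inj h
      have h3 := (S.φt y).2 hZ
      refine ⟨?_, ?_⟩
      · rw [← h2]; exact S.φ.map_target h3
      · rw [mem_preimage, ← h2, S.φ.right_inv h3]; exact hy
  · rintro ⟨hx, hy⟩
    exact ⟨_, hy, S.ir_φ hx⟩

theorem oe_il : IsOpenEmbedding S.il := by
  refine IsOpenEmbedding.of_continuous_injective_isOpenMap S.c_il S.il_inj fun W hW => ?_
  rw [S.isOpen_iff, preimage_image_eq W S.il_inj, S.pre_ir_il]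
  exact ⟨hW, S.φ.isOpen_inter_preimage_symm hW⟩

theorem oe_ir : IsOpenEmbedding S.ir := by
  refine IsOpenEmbedding.of_continuous_injective_isOpenMap S.c_ir S.ir_inj fun W hW => ?_
  rw [S.isOpen_iff, preimage_image_eq W S.ir_inj, S.pre_il_ir]
  exact ⟨S.φ.isOpen_inter_preimage hW, hW⟩

/-! ### maps out of the glued space -/

/-- the map given by compatible maps on the two pieces -/
def desc {Y : Type*} (f0 : X0 → Y) (f1 : X1 → Y) : S.X → Y :=
  Sum.elim f0 (fun y => f1 y.1)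

@[simp] theorem desc_il {Y : Type*} (f0 : X0 → Y) (f1 : X1 → Y) (x : X0) :
    S.desc f0 f1 (S.il x) = f0 x := rfl

theorem desc_ir {Y : Type*} {f0 : X0 → Y} {f1 : X1 → Y} (h : ∀ x ∈ S.φ.source, f1 (S.φ x) = f0 x)
    (y : X1) : S.desc f0 f1 (S.ir y) = f1 y := by
  by_cases hy : S.p1 y ∈ S.Z
  · rw [S.ir_mem hy]; rfl
  · have h3 := (S.φt y).2 hy
    rw [S.ir_not hy, desc_il, ← h _ (S.φ.map_target h3), S.φ.right_inv h3]

theorem c_desc {Y : Type*} [TopologicalSpace Y] {f0 : X0 → Y} {f1 : X1 → Y} (k0 : Continuous f0)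
    (k1 : Continuous f1) (h : ∀ x ∈ S.φ.source, f1 (S.φ x) = f0 x) :
    Continuous (S.desc f0 f1) := by
  rw [S.continuous_iff]
  refine ⟨by simpa using k0, ?_⟩
  simp only [S.desc_ir h]
  exact k1

/-- the projection to the base -/
def p : S.X → B := S.desc S.p0 S.p1

@[simp] theorem p_il (x : X0) : S.p (S.il x) = S.p0 x := rfl

@[simp] theorem p_ir (y : X1) : S.p (S.ir y) = S.p1 y := S.desc_ir S.φp y

theorem c_p : Continuous S.p := S.c_desc S.c0 S.c1 S.φp

theorem range_il : range S.il = S.p ⁻¹' S.Zᶜ := by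
  ext z
  constructor
  · rintro ⟨x, rfl⟩; exact S.n0 x
  · revert z
    refine S.ind (fun x _ => ⟨x, rfl⟩) (fun y hy => ?_)
    have hy' : S.p1 y ∉ S.Z := by simpa using hy
    exact ⟨_, (S.ir_not hy').symm⟩

theorem range_ir : range S.ir = S.p ⁻¹' S.U := by
  ext z
  constructor
  · rintro ⟨y, rfl⟩
    rw [mem_preimage, S.p_ir]; exact S.n1 y
  · revert z
    refine S.ind (fun x hx => ?_) (fun y _ => ⟨y, rfl⟩)
    exact ⟨_, S.ir_φ ((S.φs x).2 hx)⟩

theorem cover (z : S.X) : z ∈ range S.il ∨ z ∈ range S.ir := by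
  revert z
  exact S.ind (fun x => Or.inl ⟨x, rfl⟩) (fun y => Or.inr ⟨y, rfl⟩)

/-! ### topological properties -/

theorem t2 [T2Space B] [T2Space X0] [T2Space X1] : T2Space S.X := by
  refine ⟨fun x y hxy => ?_⟩
  by_cases hb : S.p x = S.p y
  · by_cases hU : S.p x ∈ S.U
    · obtain ⟨x', rfl⟩ : x ∈ range S.ir := by rw [S.range_ir]; exact hU
      obtain ⟨y', rfl⟩ : y ∈ range S.ir := by rw [S.range_ir, mem_preimage, ← hb]; exact hU
      obtain ⟨V, W, hV, hW, hx, hy, hd⟩ := t2_separation (fun h => hxy (by rw [h]) : x' ≠ y')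
      exact ⟨_, _, S.oe_ir.isOpenMap _ hV, S.oe_ir.isOpenMap _ hW, mem_image_of_mem _ hx,
        mem_image_of_mem _ hy, (disjoint_image_iff S.ir_inj).2 hd⟩
    · have hZ : S.p x ∉ S.Z := fun h => hU (S.ZU h)
      obtain ⟨x', rfl⟩ : x ∈ range S.il := by rw [S.range_il]; exact hZ
      obtain ⟨y', rfl⟩ : y ∈ range S.il := by rw [S.range_il, mem_preimage, ← hb]; exact hZ
      obtain ⟨V, W, hV, hW, hx, hy, hd⟩ := t2_separation (fun h => hxy (by rw [h]) : x' ≠ y')
      exact ⟨_, _, S.oe_il.isOpenMap _ hV, S.oe_il.isOpenMap _ hW, mem_image_of_mem _ hx,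
        mem_image_of_mem _ hy, (disjoint_image_iff S.il_inj).2 hd⟩
  · obtain ⟨V, W, hV, hW, hx, hy, hd⟩ := t2_separation hb
    exact ⟨_, _, hV.preimage S.c_p, hW.preimage S.c_p, hx, hy, hd.preimage _⟩









/-! ### group actions -/

/-- compatible actions of `G` -/
structure Act (G : Type*) [Group G] [MulAction G B] [MulAction G X0] [MulAction G X1] :
    Prop where
  a0 : ∀ (g : G) (x : X0), S.p0 (g • x) = g • S.p0 x
  a1 : ∀ (g : G) (y : X1), S.p1 (g • y) = g • S.p1 y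
  aU : ∀ (g : G), ∀ b ∈ S.U, g • b ∈ S.U
  aZ : ∀ (g : G), ∀ b ∈ S.Z, g • b ∈ S.Z
  aφ : ∀ (g : G), ∀ x ∈ S.φ.source, S.φ (g • x) = g • S.φ x

section Action

variable {S} {G : Type*} [Group G] [MulAction G B] [MulAction G X0] [MulAction G X1]
  (h : S.Act G)
include h

theorem Act.src (g : G) {x : X0} (hx : x ∈ S.φ.source) : g • x ∈ S.φ.source := by
  rw [S.φs, h.a0]; exact h.aU g _ ((S.φs x).1 hx)


theorem Act.symm (g : G) {y : X1} (hy : y ∈ S.φ.target) :
    S.φ.symm (g • y) = g • S.φ.symm y := by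
  have h1 := S.φ.map_target hy
  have h2 := h.aφ g _ h1
  rw [S.φ.right_inv hy] at h2
  rw [← h2, S.φ.left_inv (h.src g h1)]

omit h in
/-- the glued action -/
@[reducible] def Act.mulAction (h : S.Act G) : MulAction G S.X where
  smul g z := match z with
    | Sum.inl x => Sum.inl (g • x)
    | Sum.inr y => Sum.inr ⟨g • y.1, by rw [h.a1]; exact h.aZ g _ y.2⟩
  one_smul z := by
    rcases z with x | y
    · exact congrArg Sum.inl (one_smul G x)
    · exact congrArg Sum.inr (Subtype.ext (one_smul G y.1))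
  mul_smul g g' z := by
    rcases z with x | y
    · exact congrArg Sum.inl (mul_smul g g' x)
    · exact congrArg Sum.inr (Subtype.ext (mul_smul g g' y.1))







end Action

end SD

end

end Crest.Agent.R272.Glue_342
end

-- ▼ part R272/Sur1_342

/-!
# R272 (helper342): surgery at one centre, topological part

`Sur X A B` : `e : X ⇀ A` an open partial homeomorphism with a neighbourhood `{NA ≤ ε}` of
`{NA = 0}` in its target, `φ : A ⇀ B` a homeomorphism off the zero sets with `NB ∘ φ = NA`.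
`S.XP` is `X` with `K = e⁻¹{NA = 0}` replaced by `K' = {NB = 0}`.

* `S.nX : X → ℝ`, `S.nf : S.XP → ℝ` the norm functions (cut off at `ε`);
* `S.iota : OpenPartialHomeomorph X S.XP`, source `Kᶜ`, target `K'ᶜ`;
* `S.ep : OpenPartialHomeomorph S.XP B`, source `{nf < ε}`, target `{NB < ε}`;
* `S.ep_iota`, `S.e_iota_symm`: compatibility;
* T2, compact, locally compact, second countable, (pre)connected;
* `S.push f y₀ : S.XP → Y` for `f : X → Y` with `f = y₀` on `K`; `S.desc f0 f1` in general;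
* `S.exists_delta_X`, `S.exists_delta`: the norm functions describe neighbourhoods of `K`, `K'`.
-/

set_option autoImplicit false
set_option linter.unusedSectionVars false
set_option linter.style.haveILetI false

open Set Filter Topology

namespace Crest.Agent.R272.Sur_342

open Crest.Agent.R272.Glue_342

noncomputable section

universe u v w

/-- data of a surgery at one centre -/
structure Sur (X : Type u) (A : Type v) (B : Type w) [TopologicalSpace X] [TopologicalSpace A]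
    [TopologicalSpace B] where
  e : OpenPartialHomeomorph X A
  φ : OpenPartialHomeomorph A B
  NA : A → ℝ
  NB : B → ℝ
  cA : Continuous NA
  cB : Continuous NB
  nA : ∀ a, 0 ≤ NA a
  nB : ∀ b, 0 ≤ NB b
  kA : ∀ r, IsCompact {a | NA a ≤ r}
  kB : ∀ r, IsCompact {b | NB b ≤ r}
  φs : ∀ a, a ∈ φ.source ↔ NA a ≠ 0
  φt : ∀ b, b ∈ φ.target ↔ NB b ≠ 0
  φN : ∀ a, NA a ≠ 0 → NB (φ a) = NA a
  ε : ℝ
  ε0 : 0 < ε
  sub : ∀ a, NA a ≤ ε → a ∈ e.target
  ne : ∃ a, NA a ≠ 0 ∧ NA a < ε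

/-- a compact sublevel set controls the neighbourhoods of the zero set -/
theorem exists_delta_of {Z : Type*} [TopologicalSpace Z] {f : Z → ℝ} (hf : Continuous f)
    {r : ℝ} (hr : 0 < r) (hk : IsCompact {z | f z ≤ r}) {W : Set Z} (hW : IsOpen W)
    (h0 : ∀ z, f z ≤ 0 → z ∈ W) : ∃ δ > 0, δ ≤ r ∧ ∀ z, f z < δ → z ∈ W := by
  have h1 : IsCompact ({z | f z ≤ r} \ W) := hk.diff hW
  rcases ({z | f z ≤ r} \ W).eq_empty_or_nonempty with h2 | h2
  · refine ⟨r, hr, le_rfl, fun z hz => ?_⟩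
    by_contra h3
    have : z ∈ {z | f z ≤ r} \ W := ⟨le_of_lt hz, h3⟩
    rw [h2] at this
    exact this
  · obtain ⟨z0, hz0, hm⟩ := h1.exists_isMinOn h2 hf.continuousOn
    have h3 : 0 < f z0 := by
      by_contra h4
      exact hz0.2 (h0 z0 (not_lt.1 h4))
    refine ⟨min (f z0) r, lt_min h3 hr, min_le_right _ _, fun z hz => ?_⟩
    by_contra h4
    have h5 : z ∈ {z | f z ≤ r} \ W := ⟨le_of_lt (hz.trans_le (min_le_right _ _)), h4⟩
    have h6 : f z0 ≤ f z := hm h5
    exact absurd (hz.trans_le (min_le_left _ _)) (not_lt.2 h6)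

namespace Sur

variable {X : Type u} {A : Type v} {B : Type w} [TopologicalSpace X] [TopologicalSpace A]
  [TopologicalSpace B] (S : Sur X A B)

/-- the centre -/
def K : Set X := S.e.symm '' {a | S.NA a = 0}

open Classical in
/-- the norm function on `X`, cut off at `ε` -/
def nX (x : X) : ℝ := if x ∈ S.e.source then min (S.NA (S.e x)) S.ε else S.ε

theorem nX_of {x : X} (hx : x ∈ S.e.source) : S.nX x = min (S.NA (S.e x)) S.ε := if_pos hx

theorem nX_off {x : X} (hx : x ∉ S.e.source) : S.nX x = S.ε := if_neg hx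


theorem nX_nonneg (x : X) : 0 ≤ S.nX x := by
  by_cases h : x ∈ S.e.source
  · rw [S.nX_of h]; exact le_min (S.nA _) S.ε0.le
  · rw [S.nX_off h]; exact S.ε0.le

theorem nX_lt_iff {x : X} {r : ℝ} (hr : r ≤ S.ε) :
    S.nX x < r ↔ x ∈ S.e.source ∧ S.NA (S.e x) < r := by
  by_cases h : x ∈ S.e.source
  · rw [S.nX_of h, min_lt_iff]
    simp only [h, true_and, or_iff_left_iff_imp]
    intro h1
    exact absurd h1 (not_lt.2 hr)
  · rw [S.nX_off h]
    simp only [h, false_and, iff_false, not_lt]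
    exact hr

theorem nX_le_iff {x : X} {r : ℝ} (hr : r < S.ε) :
    S.nX x ≤ r ↔ x ∈ S.e.source ∧ S.NA (S.e x) ≤ r := by
  by_cases h : x ∈ S.e.source
  · rw [S.nX_of h, min_le_iff]
    simp only [h, true_and, or_iff_left_iff_imp]
    intro h1
    exact absurd h1 (not_le.2 hr)
  · rw [S.nX_off h]
    simp only [h, false_and, iff_false, not_le]
    exact hr

theorem nX_eq {x : X} (hx : x ∈ S.e.source) (h : S.NA (S.e x) ≤ S.ε) :
    S.nX x = S.NA (S.e x) := by
  rw [S.nX_of hx, min_eq_left h]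

theorem mem_K {x : X} : x ∈ S.K ↔ x ∈ S.e.source ∧ S.NA (S.e x) = 0 := by
  constructor
  · rintro ⟨a, ha, rfl⟩
    have ha' : S.NA a = 0 := ha
    have h1 : a ∈ S.e.target := S.sub a (by rw [ha']; exact S.ε0.le)
    exact ⟨S.e.map_target h1, by rw [S.e.right_inv h1]; exact ha⟩
  · rintro ⟨h1, h2⟩
    exact ⟨S.e x, h2, S.e.left_inv h1⟩

theorem nX_eq_zero {x : X} : S.nX x = 0 ↔ x ∈ S.K := by
  rw [S.mem_K]
  have h := S.nX_le_iff (x := x) S.ε0
  constructor
  · intro h0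
    obtain ⟨h1, h2⟩ := h.1 h0.le
    exact ⟨h1, le_antisymm h2 (S.nA _)⟩
  · rintro ⟨h1, h2⟩
    exact le_antisymm (h.2 ⟨h1, h2.le⟩) (S.nX_nonneg x)

theorem nX_ne_zero {x : X} : S.nX x ≠ 0 ↔ x ∉ S.K := not_congr S.nX_eq_zero


/-- the compact neighbourhoods of the centre -/
theorem setOf_le_eq {r : ℝ} (hr : r ≤ S.ε) :
    {x | x ∈ S.e.source ∧ S.NA (S.e x) ≤ r} = S.e.symm '' {a | S.NA a ≤ r} := by
  ext x
  constructor
  · rintro ⟨h1, h2⟩
    exact ⟨S.e x, h2, S.e.left_inv h1⟩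
  · rintro ⟨a, ha, rfl⟩
    have h1 : a ∈ S.e.target := S.sub a (le_trans ha hr)
    exact ⟨S.e.map_target h1, by rw [S.e.right_inv h1]; exact ha⟩

theorem isCompact_ball {r : ℝ} (hr : r ≤ S.ε) :
    IsCompact {x | x ∈ S.e.source ∧ S.NA (S.e x) ≤ r} := by
  rw [S.setOf_le_eq hr]
  refine (S.kA r).image_of_continuousOn (S.e.continuousOn_symm.mono fun a ha => ?_)
  exact S.sub a (le_trans ha hr)

theorem isCompact_nX_le {r : ℝ} (hr : r < S.ε) : IsCompact {x | S.nX x ≤ r} := by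
  have : {x | S.nX x ≤ r} = {x | x ∈ S.e.source ∧ S.NA (S.e x) ≤ r} := by
    ext x
    exact S.nX_le_iff hr
  rw [this]
  exact S.isCompact_ball hr.le

theorem isCompact_K : IsCompact S.K := by
  have h : S.K = {x | S.nX x ≤ 0} := by
    ext x
    rw [← S.nX_eq_zero]
    exact ⟨fun h => h.le, fun h => le_antisymm h (S.nX_nonneg x)⟩
  rw [h]
  exact S.isCompact_nX_le S.ε0

theorem continuous_nX [T2Space X] : Continuous S.nX := by
  have hc : IsClosed {x | x ∈ S.e.source ∧ S.NA (S.e x) ≤ S.ε} :=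
    (S.isCompact_ball le_rfl).isClosed
  rw [continuous_iff_continuousAt]
  intro x
  by_cases hx : x ∈ S.e.source
  · have h1 : ContinuousAt (fun x => min (S.NA (S.e x)) S.ε) x :=
      ((S.cA.continuousAt).comp (S.e.continuousAt hx)).min continuousAt_const
    refine h1.congr ?_
    filter_upwards [S.e.open_source.mem_nhds hx] with y hy
    exact (S.nX_of hy).symm
  · have h2 : x ∈ {x | x ∈ S.e.source ∧ S.NA (S.e x) ≤ S.ε}ᶜ := fun h => hx h.1
    refine (continuousAt_const (y := S.ε)).congr ?_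
    filter_upwards [hc.isOpen_compl.mem_nhds h2] with y hy
    by_cases hy' : y ∈ S.e.source
    · have h3 : ¬ S.NA (S.e y) ≤ S.ε := fun h => hy ⟨hy', h⟩
      rw [S.nX_of hy', min_eq_right (le_of_lt (not_le.1 h3))]
    · rw [S.nX_off hy']

theorem isClosed_K [T2Space X] : IsClosed S.K := S.isCompact_K.isClosed

/-- **norm package on `X`** -/
theorem exists_delta_X [T2Space X] {W : Set X} (hW : IsOpen W) (h0 : S.K ⊆ W) :
    ∃ δ > 0, δ < S.ε ∧ ∀ x, S.nX x < δ → x ∈ W := by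
  obtain ⟨δ, h1, h2, h3⟩ := exists_delta_of S.continuous_nX (half_pos S.ε0)
    (S.isCompact_nX_le (half_lt_self S.ε0)) hW (fun x hx =>
      h0 (S.nX_eq_zero.1 (le_antisymm hx (S.nX_nonneg x))))
  exact ⟨δ, h1, lt_of_le_of_lt h2 (half_lt_self S.ε0), h3⟩

/-! ### the two pieces -/

/-- the first piece -/
abbrev X0 : Type u := {x : X // x ∉ S.K}

/-- the second piece -/
abbrev X1 : Type w := {b : B // S.NB b < S.ε}

theorem not_mem_K_of {x : X} (_hx : x ∈ S.e.source) (h : S.NA (S.e x) ≠ 0) : x ∉ S.K :=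
  fun h1 => h (S.mem_K.1 h1).2

theorem ne_zero_of {x : X} (h : x ∉ S.K) (hx : x ∈ S.e.source) : S.NA (S.e x) ≠ 0 :=
  fun h1 => h (S.mem_K.2 ⟨hx, h1⟩)

theorem NB_φ {a : A} (h : S.NA a ≠ 0) : S.NB (S.φ a) = S.NA a := S.φN a h

theorem φ_source {a : A} (h : S.NA a ≠ 0) : a ∈ S.φ.source := (S.φs a).2 h

theorem φ_target {b : B} (h : S.NB b ≠ 0) : b ∈ S.φ.target := (S.φt b).2 h

theorem NA_symm {b : B} (h : S.NB b ≠ 0) : S.NA (S.φ.symm b) = S.NB b := by
  have h1 : S.φ.symm b ∈ S.φ.source := S.φ.map_target (S.φ_target h)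
  rw [← S.NB_φ ((S.φs _).1 h1), S.φ.right_inv (S.φ_target h)]

theorem symm_target {b : B} (h : S.NB b ≠ 0) (h1 : S.NB b ≤ S.ε) : S.φ.symm b ∈ S.e.target :=
  S.sub _ (by rw [S.NA_symm h]; exact h1)

/-- the point of `X` belonging to a point of `B` -/
def bx (b : B) : X := S.e.symm (S.φ.symm b)

theorem bx_source {b : B} (h : S.NB b ≠ 0) (h1 : S.NB b ≤ S.ε) : S.bx b ∈ S.e.source :=
  S.e.map_target (S.symm_target h h1)

theorem e_bx {b : B} (h : S.NB b ≠ 0) (h1 : S.NB b ≤ S.ε) : S.e (S.bx b) = S.φ.symm b :=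
  S.e.right_inv (S.symm_target h h1)

theorem bx_not_mem {b : B} (h : S.NB b ≠ 0) (h1 : S.NB b ≤ S.ε) : S.bx b ∉ S.K :=
  S.not_mem_K_of (S.bx_source h h1) (by rw [S.e_bx h h1, S.NA_symm h]; exact h)

theorem nX_bx {b : B} (h : S.NB b ≠ 0) (h1 : S.NB b ≤ S.ε) : S.nX (S.bx b) = S.NB b := by
  rw [S.nX_eq (S.bx_source h h1) (by rw [S.e_bx h h1, S.NA_symm h]; exact h1), S.e_bx h h1,
    S.NA_symm h]

instance : Nonempty S.X0 := by
  obtain ⟨a, h1, h2⟩ := S.ne
  have h3 := S.sub a h2.le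
  exact ⟨⟨S.e.symm a, S.not_mem_K_of (S.e.map_target h3) (by rw [S.e.right_inv h3]; exact h1)⟩⟩

instance : Nonempty S.X1 := by
  obtain ⟨a, h1, h2⟩ := S.ne
  exact ⟨⟨S.φ a, by rw [S.NB_φ h1]; exact h2⟩⟩

open Classical in
/-- the gluing map -/
def f0 (x : S.X0) : S.X1 :=
  if h : S.NB (S.φ (S.e x.1)) < S.ε then ⟨S.φ (S.e x.1), h⟩ else Classical.arbitrary _

open Classical in
/-- the inverse of the gluing map -/
def g1 (b : S.X1) : S.X0 :=
  if h : S.bx b.1 ∉ S.K then ⟨S.bx b.1, h⟩ else Classical.arbitrary _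

theorem f0_val {x : S.X0} (hx : S.nX x.1 < S.ε) : (S.f0 x).1 = S.φ (S.e x.1) := by
  obtain ⟨h1, h2⟩ := (S.nX_lt_iff le_rfl).1 hx
  have h3 : S.NB (S.φ (S.e x.1)) < S.ε := by rw [S.NB_φ (S.ne_zero_of x.2 h1)]; exact h2
  rw [f0, dif_pos h3]

theorem g1_val {b : S.X1} (hb : S.NB b.1 ≠ 0) : (S.g1 b).1 = S.bx b.1 := by
  rw [g1, dif_pos (S.bx_not_mem hb b.2.le)]

theorem NB_f0 {x : S.X0} (hx : S.nX x.1 < S.ε) : S.NB (S.f0 x).1 = S.nX x.1 := by
  obtain ⟨h1, h2⟩ := (S.nX_lt_iff le_rfl).1 hx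
  rw [S.f0_val hx, S.NB_φ (S.ne_zero_of x.2 h1), S.nX_eq h1 h2.le]

variable [T2Space X]

/-- the gluing map as a partial homeomorphism -/
def glue : OpenPartialHomeomorph S.X0 S.X1 where
  toFun := S.f0
  invFun := S.g1
  source := {x | S.nX x.1 < S.ε}
  target := {b | S.NB b.1 ≠ 0}
  map_source' x hx := by
    have hx' : S.nX x.1 < S.ε := hx
    show S.NB (S.f0 x).1 ≠ 0
    rw [S.NB_f0 hx', S.nX_ne_zero]
    exact x.2
  map_target' b hb := by
    have hb' : S.NB b.1 ≠ 0 := hb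
    show S.nX (S.g1 b).1 < S.ε
    rw [S.g1_val hb', S.nX_bx hb' b.2.le]
    exact b.2
  left_inv' x hx := by
    have hx' : S.nX x.1 < S.ε := hx
    obtain ⟨h1, h2⟩ := (S.nX_lt_iff le_rfl).1 hx'
    have h3 := S.ne_zero_of x.2 h1
    have h4 : S.NB (S.f0 x).1 ≠ 0 := by
      rw [S.NB_f0 hx', S.nX_ne_zero]
      exact x.2
    refine Subtype.ext ?_
    rw [S.g1_val h4, S.f0_val hx', bx, S.φ.left_inv (S.φ_source h3), S.e.left_inv h1]
  right_inv' b hb := by
    have hb' : S.NB b.1 ≠ 0 := hb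
    have h1 : S.nX (S.g1 b).1 < S.ε := by
      rw [S.g1_val hb', S.nX_bx hb' b.2.le]
      exact b.2
    refine Subtype.ext ?_
    rw [S.f0_val h1, S.g1_val hb', S.e_bx hb' b.2.le, S.φ.right_inv (S.φ_target hb')]
  open_source := isOpen_lt (S.continuous_nX.comp continuous_subtype_val) continuous_const
  open_target := isOpen_ne_fun (S.cB.comp continuous_subtype_val) continuous_const
  continuousOn_toFun := by
    rw [(⟨rfl⟩ : IsInducing (Subtype.val : S.X1 → B)).continuousOn_iff]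
    have h : ContinuousOn (fun x : S.X0 => S.φ (S.e x.1)) {x | S.nX x.1 < S.ε} := by
      refine S.φ.continuousOn.comp (S.e.continuousOn.comp continuous_subtype_val.continuousOn
        fun x hx => ((S.nX_lt_iff le_rfl).1 hx).1) fun x hx => ?_
      exact S.φ_source (S.ne_zero_of x.2 ((S.nX_lt_iff le_rfl).1 hx).1)
    exact h.congr fun x hx => S.f0_val hx
  continuousOn_invFun := by
    rw [(⟨rfl⟩ : IsInducing (Subtype.val : S.X0 → X)).continuousOn_iff]
    have h : ContinuousOn (fun b : S.X1 => S.bx b.1) {b | S.NB b.1 ≠ 0} := by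
      refine S.e.symm.continuousOn.comp (S.φ.symm.continuousOn.comp
        continuous_subtype_val.continuousOn fun b hb => S.φ_target hb) fun b hb => ?_
      exact S.symm_target hb b.2.le
    exact h.congr fun b hb => S.g1_val hb





/-- the surgery data over the base `ℝ` (norm functions) -/
def sd : SD ℝ S.X0 S.X1 where
  p0 x := S.nX x.1
  p1 b := S.NB b.1
  c0 := S.continuous_nX.comp continuous_subtype_val
  c1 := S.cB.comp continuous_subtype_val
  U := Iio S.ε
  Z := {0}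
  oU := isOpen_Iio
  cZ := isClosed_singleton
  ZU := by
    rintro _ rfl
    exact S.ε0
  n0 x := fun h => x.2 (S.nX_eq_zero.1 h)
  n1 b := b.2
  φ := S.glue
  φs _ := Iff.rfl
  φt _ := Iff.rfl
  φp _ hx := S.NB_f0 hx

/-- **the space after the surgery** -/
abbrev XP : Type (max u w) := S.sd.X

/-- the norm function on the new space -/
def nf : S.XP → ℝ := S.sd.p

theorem continuous_nf : Continuous S.nf := S.sd.c_p

/-- the new centre -/
def K' : Set S.XP := {z | S.nf z = 0}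



theorem isOpenEmbedding_val0 : IsOpenEmbedding (Subtype.val : S.X0 → X) :=
  S.isClosed_K.isOpen_compl.isOpenEmbedding_subtypeVal

omit [T2Space X] in
theorem isOpenEmbedding_val1 : IsOpenEmbedding (Subtype.val : S.X1 → B) :=
  (isOpen_Iio.preimage S.cB).isOpenEmbedding_subtypeVal

/-- the old part of the new space -/
def iota : OpenPartialHomeomorph X S.XP :=
  (S.isOpenEmbedding_val0.toOpenPartialHomeomorph _).symm.trans
    (S.sd.oe_il.toOpenPartialHomeomorph _)

/-- the new part of the new space -/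
def ep : OpenPartialHomeomorph S.XP B :=
  (S.sd.oe_ir.toOpenPartialHomeomorph _).symm.trans
    (S.isOpenEmbedding_val1.toOpenPartialHomeomorph _)

theorem iota_val (x : S.X0) : S.iota x.1 = S.sd.il x := by
  have h := (S.isOpenEmbedding_val0.toOpenPartialHomeomorph _).left_inv (mem_univ x)
  show S.sd.il ((S.isOpenEmbedding_val0.toOpenPartialHomeomorph _).symm x.1) = _
  exact congrArg S.sd.il h

theorem iota_of {x : X} (hx : x ∉ S.K) : S.iota x = S.sd.il ⟨x, hx⟩ := S.iota_val ⟨x, hx⟩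

theorem iota_symm_il (x : S.X0) : S.iota.symm (S.sd.il x) = x.1 := by
  have h := (S.sd.oe_il.toOpenPartialHomeomorph _).left_inv (mem_univ x)
  show (((S.sd.oe_il.toOpenPartialHomeomorph _).symm (S.sd.il x) : S.X0) : X) = _
  exact congrArg Subtype.val h

theorem ep_ir (b : S.X1) : S.ep (S.sd.ir b) = b.1 := by
  have h := (S.sd.oe_ir.toOpenPartialHomeomorph _).left_inv (mem_univ b)
  show (((S.sd.oe_ir.toOpenPartialHomeomorph _).symm (S.sd.ir b) : S.X1) : B) = _
  exact congrArg Subtype.val h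

theorem ep_symm_val (b : S.X1) : S.ep.symm b.1 = S.sd.ir b := by
  have h := (S.isOpenEmbedding_val1.toOpenPartialHomeomorph _).left_inv (mem_univ b)
  show S.sd.ir ((S.isOpenEmbedding_val1.toOpenPartialHomeomorph _).symm b.1) = _
  exact congrArg S.sd.ir h

theorem ep_symm_of {b : B} (hb : S.NB b < S.ε) : S.ep.symm b = S.sd.ir ⟨b, hb⟩ :=
  S.ep_symm_val ⟨b, hb⟩

theorem iota_source : S.iota.source = S.Kᶜ := by
  rw [iota, OpenPartialHomeomorph.trans_source, OpenPartialHomeomorph.symm_source,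
    IsOpenEmbedding.toOpenPartialHomeomorph_source, IsOpenEmbedding.toOpenPartialHomeomorph_target,
    preimage_univ, inter_univ]
  exact Subtype.range_coe

theorem mem_iota_source {x : X} : x ∈ S.iota.source ↔ x ∉ S.K := by
  rw [S.iota_source]; rfl

theorem iota_target : S.iota.target = S.K'ᶜ := by
  rw [iota, OpenPartialHomeomorph.trans_target, OpenPartialHomeomorph.symm_target,
    IsOpenEmbedding.toOpenPartialHomeomorph_source, IsOpenEmbedding.toOpenPartialHomeomorph_target,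
    preimage_univ, inter_univ, S.sd.range_il]
  rfl

theorem mem_iota_target {z : S.XP} : z ∈ S.iota.target ↔ S.nf z ≠ 0 := by
  rw [S.iota_target]; rfl

theorem ep_source : S.ep.source = {z | S.nf z < S.ε} := by
  rw [ep, OpenPartialHomeomorph.trans_source, OpenPartialHomeomorph.symm_source,
    IsOpenEmbedding.toOpenPartialHomeomorph_source, IsOpenEmbedding.toOpenPartialHomeomorph_target,
    preimage_univ, inter_univ, S.sd.range_ir]
  rfl

theorem mem_ep_source {z : S.XP} : z ∈ S.ep.source ↔ S.nf z < S.ε := by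
  rw [S.ep_source]; rfl

theorem ep_target : S.ep.target = {b | S.NB b < S.ε} := by
  rw [ep, OpenPartialHomeomorph.trans_target, OpenPartialHomeomorph.symm_target,
    IsOpenEmbedding.toOpenPartialHomeomorph_source, IsOpenEmbedding.toOpenPartialHomeomorph_target,
    preimage_univ, inter_univ]
  exact Subtype.range_coe

theorem mem_ep_target {b : B} : b ∈ S.ep.target ↔ S.NB b < S.ε := by
  rw [S.ep_target]; rfl

@[simp] theorem nf_il (x : S.X0) : S.nf (S.sd.il x) = S.nX x.1 := rfl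

@[simp] theorem nf_ir (b : S.X1) : S.nf (S.sd.ir b) = S.NB b.1 := S.sd.p_ir b

theorem nf_iota {x : X} (hx : x ∉ S.K) : S.nf (S.iota x) = S.nX x := by
  rw [S.iota_of hx, S.nf_il]

theorem NB_ep {z : S.XP} (hz : S.nf z < S.ε) : S.NB (S.ep z) = S.nf z := by
  obtain ⟨b, rfl⟩ : z ∈ range S.sd.ir := by rw [S.sd.range_ir]; exact hz
  rw [S.ep_ir, S.nf_ir]

theorem nf_ep_symm {b : B} (hb : S.NB b < S.ε) : S.nf (S.ep.symm b) = S.NB b := by
  rw [S.ep_symm_of hb, S.nf_ir]

theorem nX_iota_symm {z : S.XP} (hz : S.nf z ≠ 0) : S.nX (S.iota.symm z) = S.nf z := by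
  obtain ⟨x, rfl⟩ : z ∈ range S.sd.il := by rw [S.sd.range_il]; exact hz
  rw [S.iota_symm_il, S.nf_il]

theorem iota_symm_not_mem {z : S.XP} (hz : S.nf z ≠ 0) : S.iota.symm z ∉ S.K := by
  rw [← S.nX_ne_zero, S.nX_iota_symm hz]
  exact hz



/-- every point is in one of the two parts -/
theorem cover (z : S.XP) : z ∈ S.iota.target ∨ z ∈ S.ep.source := by
  rw [S.mem_iota_target, S.mem_ep_source]
  by_cases h : S.nf z = 0
  · exact Or.inr (by rw [h]; exact S.ε0)
  · exact Or.inl h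

/-- **compatibility of the two parts** -/
theorem ep_iota {x : X} (hx : x ∉ S.K) (h1 : S.nX x < S.ε) : S.ep (S.iota x) = S.φ (S.e x) := by
  rw [S.iota_of hx]
  have h2 : (⟨x, hx⟩ : S.X0) ∈ S.sd.φ.source := h1
  rw [← S.sd.ir_φ h2, S.ep_ir]
  exact S.f0_val (x := ⟨x, hx⟩) h1

theorem ep_iota' {x : X} (hx : x ∈ S.e.source) (h0 : S.NA (S.e x) ≠ 0)
    (h1 : S.NA (S.e x) < S.ε) : S.ep (S.iota x) = S.φ (S.e x) :=
  S.ep_iota (S.not_mem_K_of hx h0) ((S.nX_lt_iff le_rfl).2 ⟨hx, h1⟩)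

theorem iota_symm_ep_symm {b : B} (h0 : S.NB b ≠ 0) (h1 : S.NB b < S.ε) :
    S.iota.symm (S.ep.symm b) = S.bx b := by
  rw [S.ep_symm_of h1]
  have h2 : (⟨b, h1⟩ : S.X1) ∈ S.sd.φ.target := h0
  rw [S.sd.ir_target h2, S.iota_symm_il]
  exact S.g1_val (b := ⟨b, h1⟩) h0


theorem e_iota_symm {z : S.XP} (h0 : S.nf z ≠ 0) (h1 : S.nf z < S.ε) :
    S.iota.symm z ∈ S.e.source ∧ S.e (S.iota.symm z) = S.φ.symm (S.ep z) := by
  obtain ⟨b, rfl⟩ : z ∈ range S.sd.ir := by rw [S.sd.range_ir]; exact h1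
  rw [S.nf_ir] at h0 h1
  rw [← S.ep_symm_val b, S.iota_symm_ep_symm h0 h1, S.ep_symm_val b, S.ep_ir]
  exact ⟨S.bx_source h0 h1.le, S.e_bx h0 h1.le⟩


theorem isCompact_nf_le {r : ℝ} (hr : r < S.ε) : IsCompact {z | S.nf z ≤ r} := by
  have h : {z | S.nf z ≤ r} = S.ep.symm '' {b | S.NB b ≤ r} := by
    ext z
    constructor
    · intro hz
      have hz' : S.nf z ≤ r := hz
      have h1 : S.nf z < S.ε := lt_of_le_of_lt hz' hr
      exact ⟨S.ep z, by rw [mem_ofPred_eq, S.NB_ep h1]; exact hz',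
        S.ep.left_inv (S.mem_ep_source.2 h1)⟩
    · rintro ⟨b, hb, rfl⟩
      have hb' : S.NB b ≤ r := hb
      rw [mem_ofPred_eq, S.nf_ep_symm (lt_of_le_of_lt hb' hr)]
      exact hb'
  rw [h]
  refine (S.kB r).image_of_continuousOn (S.ep.continuousOn_symm.mono fun b hb => ?_)
  exact S.mem_ep_target.2 (lt_of_le_of_lt hb hr)



/-! ### topological properties -/

theorem t2 [T2Space B] : T2Space S.XP := S.sd.t2



theorem isCompact_image_iota {C : Set X} (hC : IsCompact C) (h : Disjoint C S.K) :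
    IsCompact (S.iota '' C) := by
  refine hC.image_of_continuousOn (S.iota.continuousOn.mono fun x hx => ?_)
  exact S.mem_iota_source.2 (disjoint_left.1 h hx)

theorem compact [CompactSpace X] : CompactSpace S.XP := by
  refine ⟨?_⟩
  have h1 : IsCompact {x | S.ε / 2 ≤ S.nX x} :=
    (isClosed_le continuous_const S.continuous_nX).isCompact
  have h2 : IsCompact (S.iota '' {x | S.ε / 2 ≤ S.nX x}) := by
    refine S.isCompact_image_iota h1 (disjoint_left.2 fun x hx hK => ?_)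
    have h3 : S.ε / 2 ≤ S.nX x := hx
    rw [S.nX_eq_zero.2 hK] at h3
    exact absurd (half_pos S.ε0) (not_lt.2 h3)
  have h3 : IsCompact {z | S.nf z ≤ S.ε / 2} := S.isCompact_nf_le (half_lt_self S.ε0)
  have h4 : (univ : Set S.XP) = S.iota '' {x | S.ε / 2 ≤ S.nX x} ∪ {z | S.nf z ≤ S.ε / 2} := by
    refine Subset.antisymm (fun z _ => ?_) (subset_univ _)
    rcases le_total (S.nf z) (S.ε / 2) with h | h
    · exact Or.inr h
    · refine Or.inl ?_
      have h5 : S.nf z ≠ 0 := (lt_of_lt_of_le (half_pos S.ε0) h).ne'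
      exact ⟨S.iota.symm z, by rw [mem_ofPred_eq, S.nX_iota_symm h5]; exact h,
        S.iota.right_inv (S.mem_iota_target.2 h5)⟩
  rw [h4]
  exact h2.union h3




/-! ### maps out of the new space -/

/-- compatible maps on the two parts: `f0` used off the new centre, `f1` on it -/
def desc {Y : Type*} (f0 : X → Y) (f1 : B → Y) : S.XP → Y :=
  S.sd.desc (fun x => f0 x.1) (fun b => f1 b.1)

theorem desc_iota {Y : Type*} (f0 : X → Y) (f1 : B → Y) {x : X} (hx : x ∉ S.K) :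
    S.desc f0 f1 (S.iota x) = f0 x := by
  rw [S.iota_of hx]; rfl

theorem desc_of {Y : Type*} (f0 : X → Y) (f1 : B → Y) {z : S.XP} (hz : S.nf z ≠ 0) :
    S.desc f0 f1 z = f0 (S.iota.symm z) := by
  conv_lhs => rw [← S.iota.right_inv (S.mem_iota_target.2 hz)]
  exact S.desc_iota f0 f1 (S.iota_symm_not_mem hz)

/-- the compatibility condition -/
def Cp {Y : Type*} (f0 : X → Y) (f1 : B → Y) : Prop :=
  ∀ x ∈ S.e.source, S.NA (S.e x) ≠ 0 → S.NA (S.e x) < S.ε → f1 (S.φ (S.e x)) = f0 x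

theorem Cp.sd {S : Sur X A B} {Y : Type*} {f0 : X → Y} {f1 : B → Y} (h : S.Cp f0 f1) :
    ∀ x ∈ S.sd.φ.source, f1 (S.sd.φ x).1 = f0 x.1 := by
  intro x hx
  have hx' : S.nX x.1 < S.ε := hx
  have h1 : (S.sd.φ x).1 = S.φ (S.e x.1) := S.f0_val hx'
  obtain ⟨h2, h3⟩ := (S.nX_lt_iff le_rfl).1 hx'
  rw [h1]
  exact h x.1 h2 (S.ne_zero_of x.2 h2) h3

theorem desc_ep_symm {Y : Type*} {f0 : X → Y} {f1 : B → Y} (h : S.Cp f0 f1) {b : B}
    (hb : S.NB b < S.ε) : S.desc f0 f1 (S.ep.symm b) = f1 b := by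
  rw [S.ep_symm_of hb]
  exact S.sd.desc_ir (f0 := fun x => f0 x.1) (f1 := fun b => f1 b.1) h.sd ⟨b, hb⟩

theorem desc_ep {Y : Type*} {f0 : X → Y} {f1 : B → Y} (h : S.Cp f0 f1) {z : S.XP}
    (hz : S.nf z < S.ε) : S.desc f0 f1 z = f1 (S.ep z) := by
  conv_lhs => rw [← S.ep.left_inv (S.mem_ep_source.2 hz)]
  exact S.desc_ep_symm h (by rw [S.NB_ep hz]; exact hz)


/-- a map `f` on `X` (constant on `K`) seen on the new space -/
def push {Y : Type*} (f : X → Y) (y₀ : Y) : S.XP → Y :=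
  S.sd.desc (fun x => f x.1) (fun _ => y₀)

theorem push_iota {Y : Type*} (f : X → Y) (y₀ : Y) {x : X} (hx : x ∉ S.K) :
    S.push f y₀ (S.iota x) = f x := by
  rw [S.iota_of hx]; rfl

theorem push_of {Y : Type*} (f : X → Y) (y₀ : Y) {z : S.XP} (hz : S.nf z ≠ 0) :
    S.push f y₀ z = f (S.iota.symm z) := by
  conv_lhs => rw [← S.iota.right_inv (S.mem_iota_target.2 hz)]
  exact S.push_iota f y₀ (S.iota_symm_not_mem hz)

theorem push_K' {Y : Type*} (f : X → Y) (y₀ : Y) {z : S.XP} (hz : S.nf z = 0) :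
    S.push f y₀ z = y₀ := by
  obtain ⟨b, rfl⟩ : z ∈ range S.sd.ir := by
    rw [S.sd.range_ir, mem_preimage]
    show S.nf z < S.ε
    rw [hz]
    exact S.ε0
  rw [S.nf_ir] at hz
  have h1 : S.sd.p1 b ∈ S.sd.Z := hz
  rw [S.sd.ir_mem h1]
  rfl


theorem continuous_push {Y : Type*} [TopologicalSpace Y] {f : X → Y} {y₀ : Y}
    (hf : Continuous f) (h0 : ∀ x ∈ S.K, f x = y₀) : Continuous (S.push f y₀) := by
  rw [continuous_iff_continuousAt]
  intro z
  by_cases hz : S.nf z = 0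
  · rw [ContinuousAt, S.push_K' f y₀ hz, tendsto_nhds]
    intro W hW hy
    obtain ⟨δ, hδ, -, h1⟩ := S.exists_delta_X (hW.preimage hf) (fun x hx => by
      rw [mem_preimage, h0 x hx]; exact hy)
    have h2 : {z' | S.nf z' < δ} ∈ 𝓝 z :=
      (isOpen_lt S.continuous_nf continuous_const).mem_nhds (by rw [mem_ofPred_eq, hz]; exact hδ)
    filter_upwards [h2] with z' hz'
    rw [mem_preimage]
    by_cases h3 : S.nf z' = 0
    · rw [S.push_K' f y₀ h3]; exact hy
    · rw [S.push_of f y₀ h3]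
      exact h1 _ (by rw [S.nX_iota_symm h3]; exact hz')
  · have h1 : z ∈ S.iota.target := S.mem_iota_target.2 hz
    have h2 : ContinuousAt (fun z => f (S.iota.symm z)) z :=
      hf.continuousAt.comp (S.iota.continuousAt_symm h1)
    refine h2.congr ?_
    filter_upwards [S.iota.open_target.mem_nhds h1] with z' hz'
    exact (S.push_of f y₀ (S.mem_iota_target.1 hz')).symm


end Sur

end

end Crest.Agent.R272.Sur_342
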