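import Crest.Agent.R272.HFam_342
import Crest.Agent.R272.Sur1_342

-- ▼ part R272/Two_342
section

/-!
# R272 (helper342): a `Fam` from two pieces

`g : Z ⇀ M`, `g' : Z ⇀ N` open partial homeomorphisms covering `Z`, with holomorphic transition
maps between the families `C` on `M`, `D` on `N`.  Then `h.fam : Fam n Z` with charts
`g.trans (C.e i)`, `g'.trans (D.e j)`; `g`, `g'` and their inverses are holomorphic;
holomorphy of a map out of `Z` or into `Z` is tested on the pieces.
-/

set_option autoImplicit false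
set_option linter.unusedSectionVars false
set_option linter.style.haveILetI false

open Set Filter Topology

namespace Crest.Agent.R272.Two_342

open Crest.Agent.R275.Geo Crest.Agent.R273.Fam_835 Crest.Agent.R272.HFam_342

noncomputable section

variable {n m k : ℕ} {Z M N P : Type} [TopologicalSpace Z] [TopologicalSpace M]
  [TopologicalSpace N] [TopologicalSpace P]

/-- compatible pieces -/
structure Two (C : Fam n M) (D : Fam n N) (g : OpenPartialHomeomorph Z M)
    (g' : OpenPartialHomeomorph Z N) : Prop where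
  cover : ∀ z, z ∈ g.source ∨ z ∈ g'.source
  h01 : ∀ z, z ∈ g.source → z ∈ g'.source → HC C D (fun m => g' (g.symm m)) (g z)
  h10 : ∀ z, z ∈ g.source → z ∈ g'.source → HC D C (fun m => g (g'.symm m)) (g' z)

namespace Two

variable {C : Fam n M} {D : Fam n N} {g : OpenPartialHomeomorph Z M}
  {g' : OpenPartialHomeomorph Z N}

/-- the family of charts of the union of the two pieces -/
def fam (h : Two C D g g') : Fam n Z where
  ι := C.ι ⊕ D.ι
  e := Sum.elim (fun i => g.trans (C.e i)) (fun j => g'.trans (D.e j))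
  cover z := by
    rcases h.cover z with hz | hz
    · obtain ⟨i, hi⟩ := C.cover (g z)
      exact ⟨Sum.inl i, hz, hi⟩
    · obtain ⟨i, hi⟩ := D.cover (g' z)
      exact ⟨Sum.inr i, hz, hi⟩
  holo := by
    rintro (i | i) (j | j)
    · refine (C.holo i j).congr_mono ?_ ?_
      · rintro z ⟨hz, hz'⟩
        show C.e j (g (g.symm ((C.e i).symm z))) = C.e j ((C.e i).symm z)
        rw [g.right_inv hz.2]
      · rintro z ⟨hz, hz'⟩
        have h1 : g (g.symm ((C.e i).symm z)) ∈ (C.e j).source := hz'.2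
        rw [g.right_inv hz.2] at h1
        exact ⟨hz.1, h1⟩
    · rintro z ⟨hz, hz'⟩
      have h1 : (C.e i).symm z ∈ g.target := hz.2
      have h2 : g.symm ((C.e i).symm z) ∈ g'.source := hz'.1
      have h3 := h.h01 _ (g.map_target h1) h2
      rw [g.right_inv h1] at h3
      have h4 := h3.2 i j ((C.e i).map_target hz.1) hz'.2
      rw [(C.e i).right_inv hz.1] at h4
      exact h4.differentiableWithinAt
    · rintro z ⟨hz, hz'⟩
      have h1 : (D.e i).symm z ∈ g'.target := hz.2
      have h2 : g'.symm ((D.e i).symm z) ∈ g.source := hz'.1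
      have h3 := h.h10 _ h2 (g'.map_target h1)
      rw [g'.right_inv h1] at h3
      have h4 := h3.2 i j ((D.e i).map_target hz.1) hz'.2
      rw [(D.e i).right_inv hz.1] at h4
      exact h4.differentiableWithinAt
    · refine (D.holo i j).congr_mono ?_ ?_
      · rintro z ⟨hz, hz'⟩
        show D.e j (g' (g'.symm ((D.e i).symm z))) = D.e j ((D.e i).symm z)
        rw [g'.right_inv hz.2]
      · rintro z ⟨hz, hz'⟩
        have h1 : g' (g'.symm ((D.e i).symm z)) ∈ (D.e j).source := hz'.2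
        rw [g'.right_inv hz.2] at h1
        exact ⟨hz.1, h1⟩

variable (h : Two C D g g')

/-- chart index of the first piece -/
def il (i : C.ι) : h.fam.ι := Sum.inl i

/-- chart index of the second piece -/
def ir (i : D.ι) : h.fam.ι := Sum.inr i

@[elab_as_elim]
theorem ind {P : h.fam.ι → Prop} (h0 : ∀ i, P (h.il i)) (h1 : ∀ i, P (h.ir i)) : ∀ i, P i := by
  rintro (i | i)
  · exact h0 i
  · exact h1 i



theorem mem_il {i : C.ι} {z : Z} :
    z ∈ (h.fam.e (h.il i)).source ↔ z ∈ g.source ∧ g z ∈ (C.e i).source := Iff.rfl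

theorem mem_ir {i : D.ι} {z : Z} :
    z ∈ (h.fam.e (h.ir i)).source ↔ z ∈ g'.source ∧ g' z ∈ (D.e i).source := Iff.rfl

theorem hC_g {z : Z} (hz : z ∈ g.source) : HC h.fam C g z := by
  obtain ⟨i, hi⟩ := C.cover (g z)
  refine HC.of (g.continuousAt hz) (h.il i) i (h.mem_il.2 ⟨hz, hi⟩) hi ?_
  refine (differentiableAt_id (𝕜 := ℂ)).congr_of_eventuallyEq ?_
  have h1 : h.fam.e (h.il i) z ∈ (h.fam.e (h.il i)).target :=
    (h.fam.e (h.il i)).map_source (h.mem_il.2 ⟨hz, hi⟩)
  filter_upwards [(h.fam.e (h.il i)).open_target.mem_nhds h1] with w hw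
  show C.e i (g (g.symm ((C.e i).symm w))) = w
  rw [g.right_inv hw.2, (C.e i).right_inv hw.1]

theorem hC_g' {z : Z} (hz : z ∈ g'.source) : HC h.fam D g' z := by
  obtain ⟨i, hi⟩ := D.cover (g' z)
  refine HC.of (g'.continuousAt hz) (h.ir i) i (h.mem_ir.2 ⟨hz, hi⟩) hi ?_
  refine (differentiableAt_id (𝕜 := ℂ)).congr_of_eventuallyEq ?_
  have h1 : h.fam.e (h.ir i) z ∈ (h.fam.e (h.ir i)).target :=
    (h.fam.e (h.ir i)).map_source (h.mem_ir.2 ⟨hz, hi⟩)
  filter_upwards [(h.fam.e (h.ir i)).open_target.mem_nhds h1] with w hw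
  show D.e i (g' (g'.symm ((D.e i).symm w))) = w
  rw [g'.right_inv hw.2, (D.e i).right_inv hw.1]

theorem hC_symm {m : M} (hm : m ∈ g.target) : HC C h.fam g.symm m := by
  obtain ⟨i, hi⟩ := C.cover m
  have h0 : g.symm m ∈ (h.fam.e (h.il i)).source :=
    h.mem_il.2 ⟨g.map_target hm, by rw [g.right_inv hm]; exact hi⟩
  refine HC.of (g.continuousAt_symm hm) i (h.il i) hi h0 ?_
  refine (differentiableAt_id (𝕜 := ℂ)).congr_of_eventuallyEq ?_
  have h2 : ∀ᶠ y in 𝓝 m, y ∈ g.target := g.open_target.mem_nhds hm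
  filter_upwards [eventually_chartC hi h2] with w hw
  show C.e i (g (g.symm ((C.e i).symm w))) = w
  rw [g.right_inv hw.2, (C.e i).right_inv hw.1]

theorem hC_symm' {m : N} (hm : m ∈ g'.target) : HC D h.fam g'.symm m := by
  obtain ⟨i, hi⟩ := D.cover m
  have h0 : g'.symm m ∈ (h.fam.e (h.ir i)).source :=
    h.mem_ir.2 ⟨g'.map_target hm, by rw [g'.right_inv hm]; exact hi⟩
  refine HC.of (g'.continuousAt_symm hm) i (h.ir i) hi h0 ?_
  refine (differentiableAt_id (𝕜 := ℂ)).congr_of_eventuallyEq ?_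
  have h2 : ∀ᶠ y in 𝓝 m, y ∈ g'.target := g'.open_target.mem_nhds hm
  filter_upwards [eventually_chartC hi h2] with w hw
  show D.e i (g' (g'.symm ((D.e i).symm w))) = w
  rw [g'.right_inv hw.2, (D.e i).right_inv hw.1]


theorem lC_g' {z : Z} (hz : z ∈ g'.source) : LC h.fam D g' z :=
  LC.of_left_inverse (h.hC_g' hz) (h.hC_symm' (g'.map_source hz))
    (by filter_upwards [g'.open_source.mem_nhds hz] with y hy using g'.left_inv hy)

theorem lC_symm {m : M} (hm : m ∈ g.target) : LC C h.fam g.symm m :=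
  LC.of_left_inverse (h.hC_symm hm) (h.hC_g (g.map_target hm))
    (by filter_upwards [g.open_target.mem_nhds hm] with y hy using g.right_inv hy)


/-! ### maps out of `Z` -/

theorem hC_iff {E : Fam k P} {f : Z → P} {z : Z} (hz : z ∈ g.source) :
    HC h.fam E f z ↔ HC C E (fun m => f (g.symm m)) (g z) := by
  constructor
  · intro hf
    have h1 := h.hC_symm (g.map_source hz)
    refine HC.comp (p := g.symm) ?_ h1
    rw [g.left_inv hz]
    exact hf
  · intro hf
    have h1 := HC.comp (p := g) hf (h.hC_g hz)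
    refine h1.congr ?_
    filter_upwards [g.open_source.mem_nhds hz] with y hy
    rw [g.left_inv hy]

theorem hC_iff' {E : Fam k P} {f : Z → P} {z : Z} (hz : z ∈ g'.source) :
    HC h.fam E f z ↔ HC D E (fun m => f (g'.symm m)) (g' z) := by
  constructor
  · intro hf
    have h1 := h.hC_symm' (g'.map_source hz)
    refine HC.comp (p := g'.symm) ?_ h1
    rw [g'.left_inv hz]
    exact hf
  · intro hf
    have h1 := HC.comp (p := g') hf (h.hC_g' hz)
    refine h1.congr ?_
    filter_upwards [g'.open_source.mem_nhds hz] with y hy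
    rw [g'.left_inv hy]





/-! ### maps into `Z` -/



end Two

end

end Crest.Agent.R272.Two_342
end

-- ▼ part R272/Sur2_342

/-!
# R272 (helper342): surgery at one centre, holomorphic part

`S.Hol C DA DB` : `e` and `φ` are holomorphic both ways;
`S.fam h : Fam n S.XP` with charts `iota.symm.trans (C.e i)`, `ep.trans (DB.e j)`;
`iota`, `ep` are holomorphic both ways (`hC_iota` ...) and locally biholomorphic (`lC_...`);
`hC_iff_off`, `hC_iff_on` : maps out of `S.XP`; `holC_desc`, `holC_push`.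
-/

set_option autoImplicit false
set_option linter.unusedSectionVars false
set_option linter.style.haveILetI false

open Set Filter Topology

namespace Crest.Agent.R272.Sur_342

open Crest.Agent.R275.Geo Crest.Agent.R273.Fam_835 Crest.Agent.R272.HFam_342
  Crest.Agent.R272.Two_342

noncomputable section

namespace Sur

variable {n m : ℕ} {X A B P : Type} [TopologicalSpace X] [TopologicalSpace A]
  [TopologicalSpace B] [TopologicalSpace P] (S : Sur X A B)

/-- `e` and `φ` are holomorphic both ways -/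
structure Hol (C : Fam n X) (DA : Fam n A) (DB : Fam n B) : Prop where
  he : ∀ x ∈ S.e.source, HC C DA S.e x
  he' : ∀ a ∈ S.e.target, HC DA C S.e.symm a
  hφ : ∀ a, S.NA a ≠ 0 → HC DA DB S.φ a
  hφ' : ∀ b, S.NB b ≠ 0 → HC DB DA S.φ.symm b

variable {S} {C : Fam n X} {DA : Fam n A} {DB : Fam n B} (h : S.Hol C DA DB)

include h in
theorem Hol.hC_φe {x : X} (hx : x ∉ S.K) (h1 : x ∈ S.e.source) :
    HC C DB (fun x => S.φ (S.e x)) x :=
  HC.comp (p := S.e) (h.hφ _ (S.ne_zero_of hx h1)) (h.he x h1)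

include h in
theorem Hol.hC_bx {b : B} (h0 : S.NB b ≠ 0) (h1 : S.NB b ≤ S.ε) : HC DB C S.bx b :=
  HC.comp (p := S.φ.symm) (h.he' _ (S.symm_target h0 h1)) (h.hφ' b h0)

variable [T2Space X]

include h in
/-- the two parts are compatible -/
theorem Hol.two : Two C DB S.iota.symm S.ep where
  cover := S.cover
  h01 := by
    intro z hz hz'
    have hz0 : S.nf z ≠ 0 := S.mem_iota_target.1 hz
    have hz1 : S.nf z < S.ε := S.mem_ep_source.1 hz'
    have h1 := S.iota_symm_not_mem hz0
    have h2 : S.nX (S.iota.symm z) < S.ε := by rw [S.nX_iota_symm hz0]; exact hz1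
    refine (h.hC_φe h1 (S.e_iota_symm hz0 hz1).1).congr ?_
    have h3 : ∀ᶠ x in 𝓝 (S.iota.symm z), x ∉ S.K := S.isClosed_K.isOpen_compl.mem_nhds h1
    have h4 : ∀ᶠ x in 𝓝 (S.iota.symm z), S.nX x < S.ε :=
      (isOpen_lt S.continuous_nX continuous_const).mem_nhds h2
    filter_upwards [h3, h4] with x hx hx'
    exact (S.ep_iota hx hx').symm
  h10 := by
    intro z hz hz'
    have hz0 : S.nf z ≠ 0 := S.mem_iota_target.1 hz
    have hz1 : S.nf z < S.ε := S.mem_ep_source.1 hz'
    have h1 : S.NB (S.ep z) ≠ 0 := by rw [S.NB_ep hz1]; exact hz0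
    have h2 : S.NB (S.ep z) < S.ε := by rw [S.NB_ep hz1]; exact hz1
    refine (h.hC_bx h1 h2.le).congr ?_
    have h3 : ∀ᶠ b in 𝓝 (S.ep z), S.NB b ≠ 0 := (isOpen_ne_fun S.cB continuous_const).mem_nhds h1
    have h4 : ∀ᶠ b in 𝓝 (S.ep z), S.NB b < S.ε := (isOpen_lt S.cB continuous_const).mem_nhds h2
    filter_upwards [h3, h4] with b hb hb'
    exact (S.iota_symm_ep_symm hb hb').symm

/-- **the family of charts of the new space** -/
def fam : Fam n S.XP := h.two.fam

/-- chart index of the old part -/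
def cl (i : C.ι) : (fam h).ι := h.two.il i

/-- chart index of the new part -/
def cr (j : DB.ι) : (fam h).ι := h.two.ir j

@[elab_as_elim]
theorem ind {P : (fam h).ι → Prop} (h0 : ∀ i, P (cl h i)) (h1 : ∀ i, P (cr h i)) : ∀ i, P i :=
  h.two.ind h0 h1


theorem e_cr (j : DB.ι) : (fam h).e (cr h j) = S.ep.trans (DB.e j) := rfl


theorem mem_cr {i : DB.ι} {z : S.XP} : z ∈ ((fam h).e (cr h i)).source ↔
    S.nf z < S.ε ∧ S.ep z ∈ (DB.e i).source := by
  rw [← S.mem_ep_source]
  exact h.two.mem_ir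

theorem hC_iota {x : X} (hx : x ∉ S.K) : HC C (fam h) S.iota x :=
  h.two.hC_symm (m := x) (S.mem_iota_source.2 hx)

theorem hC_iota_symm {z : S.XP} (hz : S.nf z ≠ 0) : HC (fam h) C S.iota.symm z :=
  h.two.hC_g (S.mem_iota_target.2 hz)

theorem hC_ep {z : S.XP} (hz : S.nf z < S.ε) : HC (fam h) DB S.ep z :=
  h.two.hC_g' (S.mem_ep_source.2 hz)

theorem hC_ep_symm {b : B} (hb : S.NB b < S.ε) : HC DB (fam h) S.ep.symm b :=
  h.two.hC_symm' (S.mem_ep_target.2 hb)

theorem lC_iota {x : X} (hx : x ∉ S.K) : LC C (fam h) S.iota x :=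
  h.two.lC_symm (m := x) (S.mem_iota_source.2 hx)


theorem lC_ep {z : S.XP} (hz : S.nf z < S.ε) : LC (fam h) DB S.ep z :=
  h.two.lC_g' (S.mem_ep_source.2 hz)


/-! ### maps out of the new space -/

section out

variable {E : Fam m P} {f : S.XP → P} {z : S.XP}

theorem hC_iff_off (hz : S.nf z ≠ 0) :
    HC (fam h) E f z ↔ HC C E (fun x => f (S.iota x)) (S.iota.symm z) :=
  h.two.hC_iff (S.mem_iota_target.2 hz)

theorem hC_iff_on (hz : S.nf z < S.ε) :
    HC (fam h) E f z ↔ HC DB E (fun b => f (S.ep.symm b)) (S.ep z) :=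
  h.two.hC_iff' (S.mem_ep_source.2 hz)

theorem hC_at_iota {x : X} (hx : x ∉ S.K) :
    HC (fam h) E f (S.iota x) ↔ HC C E (fun x => f (S.iota x)) x := by
  rw [hC_iff_off h (by rw [S.nf_iota hx]; exact S.nX_ne_zero.2 hx),
    S.iota.left_inv (S.mem_iota_source.2 hx)]

theorem hC_at_ep_symm {b : B} (hb : S.NB b < S.ε) :
    HC (fam h) E f (S.ep.symm b) ↔ HC DB E (fun b => f (S.ep.symm b)) b := by
  rw [hC_iff_on h (by rw [S.nf_ep_symm hb]; exact hb),
    S.ep.right_inv (S.mem_ep_target.2 hb)]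

/-- holomorphic on the new space iff holomorphic on both parts -/
theorem holC_iff' : HolC (fam h) E f ↔
    (∀ x, x ∉ S.K → HC C E (fun x => f (S.iota x)) x) ∧
      ∀ b, S.NB b < S.ε → HC DB E (fun b => f (S.ep.symm b)) b := by
  rw [holC_iff_hC]
  refine ⟨fun hf => ⟨fun x hx => (hC_at_iota h hx).1 (hf _),
    fun b hb => (hC_at_ep_symm h hb).1 (hf _)⟩, fun hf z => ?_⟩
  rcases S.cover z with hz | hz
  · have h1 := S.mem_iota_target.1 hz
    exact (hC_iff_off h h1).2 (hf.1 _ (S.iota_symm_not_mem h1))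
  · have h1 := S.mem_ep_source.1 hz
    exact (hC_iff_on h h1).2 (hf.2 _ (by rw [S.NB_ep h1]; exact h1))



theorem holC_desc {f0 : X → P} {f1 : B → P} (hc : S.Cp f0 f1)
    (h0 : ∀ x, x ∉ S.K → HC C E f0 x) (h1 : ∀ b, S.NB b < S.ε → HC DB E f1 b) :
    HolC (fam h) E (S.desc f0 f1) := by
  rw [holC_iff' h]
  constructor
  · intro x hx
    refine (h0 x hx).congr ?_
    filter_upwards [S.isClosed_K.isOpen_compl.mem_nhds hx] with y hy
    exact (S.desc_iota f0 f1 hy).symm
  · intro b hb
    refine (h1 b hb).congr ?_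
    filter_upwards [(isOpen_lt S.cB continuous_const).mem_nhds hb] with y hy
    exact (S.desc_ep_symm hc hy).symm

/-- `push` off the new centre -/
theorem hC_push {f : X → P} {y₀ : P} (hz : S.nf z ≠ 0) (hf : HC C E f (S.iota.symm z)) :
    HC (fam h) E (S.push f y₀) z := by
  rw [hC_iff_off h hz]
  refine hf.congr ?_
  filter_upwards [S.isClosed_K.isOpen_compl.mem_nhds (S.iota_symm_not_mem hz)] with y hy
  exact (S.push_iota f y₀ hy).symm

omit h in
theorem push_eq_desc {Y : Type*} {f : X → Y} {y₀ : Y} {f1 : B → Y} (hc : S.Cp f f1)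
    (h1 : ∀ b, S.NB b = 0 → f1 b = y₀) (z : S.XP) : S.push f y₀ z = S.desc f f1 z := by
  by_cases hz : S.nf z = 0
  · have h2 : S.nf z < S.ε := by rw [hz]; exact S.ε0
    rw [S.push_K' f y₀ hz, S.desc_ep hc h2, h1 _ (by rw [S.NB_ep h2, hz])]
  · rw [S.push_of f y₀ hz, S.desc_of f f1 hz]

theorem holC_push {f : X → P} {y₀ : P} {f1 : B → P} (hc : S.Cp f f1)
    (h0 : ∀ x, x ∉ S.K → HC C E f x) (h1 : ∀ b, S.NB b < S.ε → HC DB E f1 b)
    (h2 : ∀ b, S.NB b = 0 → f1 b = y₀) : HolC (fam h) E (S.push f y₀) := by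
  have h3 : S.push f y₀ = S.desc f f1 := funext (push_eq_desc hc h2)
  rw [h3]
  exact holC_desc h hc h0 h1

end out

/-! ### maps into the new space -/

section into

variable {E : Fam m P} {f : P → X} {x : P}



end into

end Sur

end

end Crest.Agent.R272.Sur_342
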