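import Crest.Agent.R272.Flop7_66
import Crest.Agent.R272.Refl1_246
import Crest.Agent.R272.Sur1_342
import Crest.Agent.R272.LbExt2_259
import Crest.Agent.R272.Sur2_342

-- ▼ part R272/Flop8_66
section

/-!
# R272, FLOP-SURG (helper66), part 8: `{N = 0}` is removable

`Up.hC_of_cont`, `Um.hC_of_cont` : a map which is continuous near `x` and holomorphic near `x` off
`{N = 0}` is holomorphic at `x`; `Up.fC_of_cont`, `Um.fC_of_cont` for functions;
`dense_N` : `{N ≠ 0}` is dense.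
-/

set_option autoImplicit false
set_option linter.unusedSectionVars false
set_option linter.style.haveILetI false

open Set Filter Topology Complex
open scoped ComplexConjugate

namespace Crest.Agent.R272.Flop_66

open Crest.Agent.R275.Geo Crest.Agent.R273.Fam_835 Crest.Agent.R272.HFam_342
open Crest.Agent.R272.Refl_246

noncomputable section

/-- `S` is removable for continuous maps -/
def Rem {n : ℕ} (S : Set (Cn n)) : Prop :=
  ∀ (F : Type) [NormedAddCommGroup F] [NormedSpace ℂ F] [CompleteSpace F] (f : Cn n → F)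
    (x : Cn n), (∀ᶠ z in 𝓝 x, ContinuousAt f z) →
    (∀ᶠ z in 𝓝 x, z ∉ S → DifferentiableAt ℂ f z) → DifferentiableAt ℂ f x

theorem rem_coord {n : ℕ} (a : Fin n) : Rem {z : Cn n | z a = 0} := by
  intro F _ _ _ f x hc hd
  exact differentiableAt_of_coord a hc (hd.mono fun z hz h => hz h)

theorem Rem.mono {n : ℕ} {S T : Set (Cn n)} (h : Rem T) (hs : S ⊆ T) : Rem S := by
  intro F _ _ _ f x hc hd
  exact h F f x hc (hd.mono fun z hz h => hz fun h' => h (hs h'))

theorem Rem.union {n : ℕ} {S T : Set (Cn n)} (hS : Rem S) (hT : Rem T) (hTc : IsClosed T) :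
    Rem (S ∪ T) := by
  intro F _ _ _ f x hc hd
  refine hT F f x hc ?_
  filter_upwards [hc.eventually_nhds, hd.eventually_nhds] with y hy hy2 hyT
  refine hS F f y hy ?_
  filter_upwards [hy2, hTc.isOpen_compl.mem_nhds hyT] with z hz hz2 hz3
  exact hz fun h => h.elim hz3 hz2

/-- transfer to charts -/
theorem hC_of_rem {n m : ℕ} {M P : Type} [TopologicalSpace M] [TopologicalSpace P] {A : Fam n M}
    {D : Fam m P} {K : Set M} {f : M → P} {x : M} (i : A.ι) (hi : x ∈ (A.e i).source)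
    (hR : Rem {z | (A.e i).symm z ∈ K}) (hc : ∀ᶠ y in 𝓝 x, ContinuousAt f y)
    (hd : ∀ᶠ y in 𝓝 x, y ∉ K → HC A D f y) : HC A D f x := by
  obtain ⟨j, hj⟩ := D.cover (f x)
  refine HC.of hc.self_of_nhds i j hi hj ?_
  have h1 : ∀ᶠ y in 𝓝 x, y ∈ (A.e i).source ∧ f y ∈ (D.e j).source :=
    ((A.e i).open_source.eventually_mem hi).and
      (hc.self_of_nhds.eventually ((D.e j).open_source.mem_nhds hj))
  have h2 := eventually_chartC hi (hc.and h1)
  have h3 := eventually_chartC hi (hd.and h1)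
  refine hR _ _ _ ?_ ?_
  · filter_upwards [h2] with z hz
    have a1 : ContinuousAt (A.e i).symm z := (A.e i).continuousAt_symm hz.1
    have a2 : ContinuousAt (fun w => f ((A.e i).symm w)) z :=
      ContinuousAt.comp (g := f) hz.2.1 a1
    exact ContinuousAt.comp (g := D.e j) ((D.e j).continuousAt hz.2.2.2) a2
  · filter_upwards [h3] with z hz hzK
    have a1 := (hz.2.1 hzK).2 i j hz.2.2.1 hz.2.2.2
    rw [(A.e i).right_inv hz.1] at a1
    exact a1


theorem Um.rem (b : Um.fam.ι) : Rem {z | (Um.fam.e b).symm z ∈ {x : Um | x.N = 0}} := by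
  rcases b with _ | _
  · refine (rem_coord (1 : Fin 3)).mono ?_
    intro z hz
    exact (Um.N_mk0.1 hz).1
  · refine (rem_coord (1 : Fin 3)).mono ?_
    intro z hz
    exact (Um.N_mk1.1 hz).1

theorem Up.rem (b : Up.fam.ι) : Rem {z | (Up.fam.e b).symm z ∈ {x : Up | x.N = 0}} := by
  revert b
  show ∀ b : Fin 4, _
  intro b
  fin_cases b
  · refine (rem_coord (2 : Fin 3)).mono ?_
    intro z hz
    exact Up.N_mk1.1 hz
  · refine (rem_coord (2 : Fin 3)).mono ?_
    intro z hz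
    exact Up.N_mk2.1 hz
  · refine Rem.mono ((rem_coord (2 : Fin 3)).union (rem_coord (0 : Fin 3)) ?_) ?_
    · exact isClosed_eq (by fun_prop) continuous_const
    · intro z hz
      rcases Up.N_mk3.1 hz with h | h
      · exact Or.inl h
      · exact Or.inr h.1
  · refine (rem_coord (0 : Fin 3)).mono ?_
    intro z hz
    exact (Up.N_mk4.1 hz).1

/-- **`{N = 0}` is removable in `Up`** -/
theorem Up.hC_of_cont {m : ℕ} {P : Type} [TopologicalSpace P] {D : Fam m P} {f : Up → P} {x : Up}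
    (hc : ∀ᶠ y in 𝓝 x, ContinuousAt f y)
    (hd : ∀ᶠ y : Up in 𝓝 x, y.N ≠ 0 → HC Up.fam D f y) : HC Up.fam D f x := by
  obtain ⟨i, hi⟩ := Up.fam.cover x
  exact hC_of_rem (K := {x : Up | x.N = 0}) i hi (Up.rem i) hc hd

/-- **`{N = 0}` is removable in `Um`** -/
theorem Um.hC_of_cont {m : ℕ} {P : Type} [TopologicalSpace P] {D : Fam m P} {f : Um → P} {x : Um}
    (hc : ∀ᶠ y in 𝓝 x, ContinuousAt f y)
    (hd : ∀ᶠ y : Um in 𝓝 x, y.N ≠ 0 → HC Um.fam D f y) : HC Um.fam D f x := by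
  obtain ⟨i, hi⟩ := Um.fam.cover x
  exact hC_of_rem (K := {x : Um | x.N = 0}) i hi (Um.rem i) hc hd



/-! ### density -/

theorem ev_ne (a : ℂ) : ∀ᶠ s : ℂ in 𝓝[≠] 0, a + s ≠ 0 := by
  by_cases ha : a = 0
  · subst ha
    filter_upwards [self_mem_nhdsWithin] with s hs
    simpa using hs
  · refine nhdsWithin_le_nhds ?_
    filter_upwards [isOpen_ne.mem_nhds (show (0 : ℂ) ≠ -a by simpa [eq_comm] using ha)] with s hs h
    exact hs (eq_neg_of_add_eq_zero_right h)

theorem dense_of_chart {n : ℕ} {M : Type} [TopologicalSpace M] (A : Fam n M) {K : Set M}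
    (v : Cn n) (h : ∀ i u, u ∈ (A.e i).target → ∀ᶠ s : ℂ in 𝓝[≠] 0,
      (A.e i).symm (u + s • v) ∉ K) : Dense Kᶜ := by
  intro x
  obtain ⟨i, hi⟩ := A.cover x
  have h0 := (A.e i).map_source hi
  have hc : ContinuousAt (fun s : ℂ => (A.e i).symm (A.e i x + s • v)) 0 := by
    refine ContinuousAt.comp (g := (A.e i).symm) ?_ (by fun_prop)
    simpa using (A.e i).continuousAt_symm h0
  have h1 := hc.tendsto
  simp only [zero_smul, add_zero, (A.e i).left_inv hi] at h1
  exact mem_closure_of_tendsto (h1.mono_left nhdsWithin_le_nhds) (h i _ h0)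

theorem Um.dense_N : Dense {x : Um | x.N ≠ 0} := by
  refine dense_of_chart Um.fam (K := {x : Um | x.N = 0}) !₂[1, 1, 1] ?_
  rintro (_ | _) u -
  · filter_upwards [ev_ne (u 1)] with s hs h
    refine hs ?_
    simpa using (Um.N_mk0.1 h).1
  · filter_upwards [ev_ne (u 1)] with s hs h
    refine hs ?_
    simpa using (Um.N_mk1.1 h).1

theorem Up.dense_N : Dense {x : Up | x.N ≠ 0} := by
  refine dense_of_chart Up.fam (K := {x : Up | x.N = 0}) !₂[1, 1, 1] ?_
  show ∀ i : Fin 4, _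
  intro i u _
  fin_cases i
  · filter_upwards [ev_ne (u 2)] with s hs h
    refine hs ?_
    simpa using Up.N_mk1.1 h
  · filter_upwards [ev_ne (u 2)] with s hs h
    refine hs ?_
    simpa using Up.N_mk2.1 h
  · filter_upwards [ev_ne (u 2), ev_ne (u 0)] with s hs hs2 h
    rcases Up.N_mk3.1 h with h | h
    · refine hs ?_
      simpa using h
    · refine hs2 ?_
      simpa using h.1
  · filter_upwards [ev_ne (u 0)] with s hs h
    refine hs ?_
    simpa using (Up.N_mk4.1 h).1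

end

end Crest.Agent.R272.Flop_66
end

-- ▼ part R272/Flop9_66
section

/-!
# R272, FLOP-SURG (helper66), part 9: the surface `A`, the plane `Pi`, the line `Rl` in `Up`

* `Up.mem_ch1_iff` .. `mem_ch4_iff` : which charts contain a point with `N ≠ 0`;
* `ch1_phi` .. `ch4_phi` : the coordinates of `phi x`;
* `Up.sig z = mk4 z₀ z₁ 0` : the surface `A` near `o`; `phi_of_m` : `phi x = sig x.z` if `m = 0`;
* `Up.A`, `Up.Pi`, `Up.Rl` and their traces in the charts; `{N = 0} = Pi ∪ Rl`.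
-/

set_option autoImplicit false
set_option linter.unusedSectionVars false
set_option linter.style.haveILetI false

open Set Filter Topology Complex
open scoped ComplexConjugate

namespace Crest.Agent.R272.Flop_66

open Crest.Agent.R275.Geo Crest.Agent.R273.Fam_835 Crest.Agent.R272.HFam_342

noncomputable section

/-- cases on the four charts -/
theorem Up.cases {P : Up → Prop} (h1 : ∀ t α μ, P (Up.mk1 t α μ)) (h2 : ∀ t α μ, P (Up.mk2 t α μ))
    (h3 : ∀ g0 g1 r, P (Up.mk3 g0 g1 r)) (h4 : ∀ z0 z1 w, P (Up.mk4 z0 z1 w)) (x : Up) : P x := by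
  obtain ⟨i, hi⟩ := Up.cover x
  fin_cases i
  · rw [← Up.eq_mk1 hi]
    exact h1 _ _ _
  · rw [← Up.eq_mk2 hi]
    exact h2 _ _ _
  · rw [← Up.eq_mk3 hi.1 hi.2]
    exact h3 _ _ _
  · rw [← Up.eq_mk4 hi]
    exact h4 _ _ _

theorem Um.cases {P : Um → Prop} (h0 : ∀ T a μ, P (Um.mk0 T a μ)) (h1 : ∀ T a μ, P (Um.mk1 T a μ))
    (x : Um) : P x := by
  rcases Um.cover x with h | h
  · rw [← Um.eq_mk0 h]
    exact h0 _ _ _
  · rw [← Um.eq_mk1 h]
    exact h1 _ _ _

/-! ### coordinates of the four parametrisations -/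

section co

variable (a b c : ℂ)

@[simp] theorem Up.mk1_z0 : (Up.mk1 a b c).z 0 = b * c := rfl
@[simp] theorem Up.mk1_z1 : (Up.mk1 a b c).z 1 = b * c * a := rfl
@[simp] theorem Up.mk1_m0 : (Up.mk1 a b c).m 0 = c := rfl
@[simp] theorem Up.mk1_m1 : (Up.mk1 a b c).m 1 = c * a := rfl
@[simp] theorem Up.mk1_m2 : (Up.mk1 a b c).m 2 = c * a ^ 2 := rfl
@[simp] theorem Up.mk2_z0 : (Up.mk2 a b c).z 0 = b * c * a := rfl
@[simp] theorem Up.mk2_z1 : (Up.mk2 a b c).z 1 = b * c := rfl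
@[simp] theorem Up.mk2_m0 : (Up.mk2 a b c).m 0 = c * a ^ 2 := rfl
@[simp] theorem Up.mk2_m1 : (Up.mk2 a b c).m 1 = c * a := rfl
@[simp] theorem Up.mk2_m2 : (Up.mk2 a b c).m 2 = c := rfl
@[simp] theorem Up.mk3_z0 : (Up.mk3 a b c).z 0 = c * a := rfl
@[simp] theorem Up.mk3_z1 : (Up.mk3 a b c).z 1 = c * b := rfl
@[simp] theorem Up.mk3_m0 : (Up.mk3 a b c).m 0 = c * a ^ 2 := rfl
@[simp] theorem Up.mk3_m1 : (Up.mk3 a b c).m 1 = c * a * b := rfl
@[simp] theorem Up.mk3_m2 : (Up.mk3 a b c).m 2 = c * b ^ 2 := rfl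
@[simp] theorem Up.mk4_z0 : (Up.mk4 a b c).z 0 = a := rfl
@[simp] theorem Up.mk4_z1 : (Up.mk4 a b c).z 1 = b := rfl
@[simp] theorem Up.mk4_m0 : (Up.mk4 a b c).m 0 = c * a ^ 2 := rfl
@[simp] theorem Up.mk4_m1 : (Up.mk4 a b c).m 1 = c * a * b := rfl
@[simp] theorem Up.mk4_m2 : (Up.mk4 a b c).m 2 = c * b ^ 2 := rfl
@[simp] theorem Um.mk0_z0 : (Um.mk0 a b c).z 0 = b := rfl
@[simp] theorem Um.mk0_z1 : (Um.mk0 a b c).z 1 = b * a := rfl
@[simp] theorem Um.mk0_m0 : (Um.mk0 a b c).m 0 = c := rfl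
@[simp] theorem Um.mk0_m1 : (Um.mk0 a b c).m 1 = c * a := rfl
@[simp] theorem Um.mk0_m2 : (Um.mk0 a b c).m 2 = c * a ^ 2 := rfl
@[simp] theorem Um.mk1_z0 : (Um.mk1 a b c).z 0 = b * a := rfl
@[simp] theorem Um.mk1_z1 : (Um.mk1 a b c).z 1 = b := rfl
@[simp] theorem Um.mk1_m0 : (Um.mk1 a b c).m 0 = c * a ^ 2 := rfl
@[simp] theorem Um.mk1_m1 : (Um.mk1 a b c).m 1 = c * a := rfl
@[simp] theorem Um.mk1_m2 : (Um.mk1 a b c).m 2 = c := rfl

theorem Up.mk4_mem4' : Up.mk4 a b c ∈ Up.ch4.source := Up.ch4.map_target (x := !₂[a, b, c])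
  (mem_univ _)

theorem Up.ch4_mk4 : Up.ch4 (Up.mk4 a b c) = !₂[a, b, c] :=
  Up.ch4.right_inv (x := !₂[a, b, c]) (mem_univ _)

end co

/-! ### which charts contain a point with `N ≠ 0` -/





/-! ### the coordinates of `phi x` -/





/-! ### the surface `A` near `o` -/

/-- the embedding `z ↦ (z, 0)` of the surface in the chart `W4` -/
def Up.sig (z : Fin 2 → ℂ) : Up := Up.mk4 (z 0) (z 1) 0

@[simp] theorem Up.sig_z (z : Fin 2 → ℂ) : (Up.sig z).z = z := by
  funext k
  fin_cases k <;> rfl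

@[simp] theorem Up.sig_m (z : Fin 2 → ℂ) : (Up.sig z).m = 0 := by
  funext k
  fin_cases k <;> simp [Up.sig, Up.mk4]

theorem Up.N_sig (z : Fin 2 → ℂ) : (Up.sig z).N = nsq z := by
  rw [Up.N, Up.sig_z, Up.sig_m, nsq_eq_zero.2 rfl, add_zero]


theorem Up.c_sig : Continuous Up.sig := by
  rw [continuous_iff_continuousAt]
  intro z
  exact contAt_mk Up.c_mk4 (continuous_apply 0).continuousAt (continuous_apply 1).continuousAt
    continuousAt_const

/-- the point `o` -/
def Up.o : Up := Up.mk4 0 0 0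

theorem Up.sig_zero : Up.sig 0 = Up.o := rfl


/-- on the zero section `phi` is `sig ∘ z` -/
theorem phi_of_m {x : Um} (h : x.N ≠ 0) (hm : x.m = 0) : phi x = Up.sig x.z :=
  pu_eq h (Up.sig_z _) ((Up.sig_m _).trans hm.symm)



/-! ### the divisors -/

/-- the surface -/
def Up.A : Set Up := {x | x.R.en 1 1 = 0}

/-- the plane -/
def Up.Pi : Set Up := {x | x.N = 0 ∧ x.R.en 0 0 = 0}





section mem

variable {a b c : ℂ}













end mem






end

end Crest.Agent.R272.Flop_66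
end

-- ▼ part R272/Sur3_342
section

/-!
# R272 (helper342): the surgery of `Sur1_342` in the language of `LbExt2_259.Surg`
-/

set_option autoImplicit false
set_option linter.unusedSectionVars false

open Set Filter Topology

namespace Crest.Agent.R272.Sur_342

open Crest.Agent.R272.LbExt_259

noncomputable section

namespace Sur

variable {X A B N : Type*} [TopologicalSpace X] [TopologicalSpace A]
  [TopologicalSpace B] [TopologicalSpace N] (S : Sur X A B) [T2Space X]

theorem tendsto_iota_symm {k : S.XP} (hk : S.nf k = 0) :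
    Tendsto S.iota.symm (𝓝[{z | S.nf z ≠ 0}] k) (𝓝ˢ S.K) := by
  intro W hW
  obtain ⟨U, hU, hKU, hUW⟩ := mem_nhdsSet_iff_exists.1 hW
  obtain ⟨δ, hδ, -, h1⟩ := S.exists_delta_X hU hKU
  rw [mem_map]
  have h2 : {z | S.nf z < δ} ∈ 𝓝[{z | S.nf z ≠ 0}] k :=
    mem_nhdsWithin_of_mem_nhds
      ((isOpen_lt S.continuous_nf continuous_const).mem_nhds (by rw [mem_ofPred_eq, hk]; exact hδ))
  filter_upwards [h2, self_mem_nhdsWithin] with z hz hz'
  exact hUW (h1 _ (by rw [S.nX_iota_symm hz']; exact hz))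

/-- the surgery over a base `N` (the centre is contracted to a point of `N`) -/
theorem surg {π : X → N} {y₀ : N} (hπ : Continuous π) (h0 : ∀ x ∈ S.K, π x = y₀) :
    Surg π (S.push π y₀) {z | S.nf z ≠ 0} S.iota.symm S.K where
  πc := hπ
  π'c := S.continuous_push hπ h0
  Vo := isOpen_ne_fun S.continuous_nf continuous_const
  ψc := S.iota.continuousOn_symm.mono fun _ hz => S.mem_iota_target.2 hz
  πψ _ hz := (S.push_of π y₀ hz).symm
  lim k hk := S.tendsto_iota_symm (by
    by_contra h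
    exact hk h)

end Sur

end

end Crest.Agent.R272.Sur_342
end

-- ▼ part R272/Flop10_66

/-!
# R272, FLOP-SURG (helper66), part 10: the surgery `X^- ⇝ XP`

`sur e ε ε0 sub : Sur X Um Up` (342's abstract surgery with `phi`), `surHol`;
`exists_eps_sur` : the choice of `ε`;
`hC_of_cont`, `fC_of_cont` : the new centre is removable in `XP`;
`holC_push` : a holomorphic map on `X^-` which is constant on `K` is holomorphic on `XP`;
`iota_eq_sig` : the zero section near `o`.
-/

set_option autoImplicit false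
set_option linter.unusedSectionVars false
set_option linter.style.haveILetI false

open Set Filter Topology Complex
open scoped ComplexConjugate

namespace Crest.Agent.R272.Flop_66

open Crest.Agent.R275.Geo Crest.Agent.R273.Fam_835 Crest.Agent.R272.HFam_342
open Crest.Agent.R272.Sur_342 Crest.Agent.R272.LbExt_259

noncomputable section

section Gen

variable {n m : ℕ} {X A B P : Type} [TopologicalSpace X] [TopologicalSpace A]
  [TopologicalSpace B] [TopologicalSpace P] {S : Sur X A B} {C : Fam n X} {DA : Fam n A}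
  {DB : Fam n B} [T2Space X] (H : S.Hol C DA DB) {D : Fam m P}

/-- the new centre is removable if `{NB = 0}` is removable -/
theorem hC_of_cont_gen (hr : ∀ (g : B → P) (b : B), (∀ᶠ y in 𝓝 b, ContinuousAt g y) →
    (∀ᶠ y in 𝓝 b, S.NB y ≠ 0 → HC DB D g y) → HC DB D g b)
    {f : S.XP → P} {z : S.XP} (hc : ∀ᶠ y in 𝓝 z, ContinuousAt f y)
    (hd : ∀ᶠ y in 𝓝 z, S.nf y ≠ 0 → HC (Sur.fam H) D f y) :
    HC (Sur.fam H) D f z := by
  by_cases hz : S.nf z = 0
  · have hz1 : S.nf z < S.ε := by rw [hz]; exact S.ε0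
    have hzs : z ∈ S.ep.source := S.mem_ep_source.2 hz1
    rw [Sur.hC_iff_on H hz1]
    have hcs : ContinuousAt S.ep.symm (S.ep z) := S.ep.continuousAt_symm (S.ep.map_source hzs)
    have e1 : S.ep.symm (S.ep z) = z := S.ep.left_inv hzs
    have t1 : Tendsto S.ep.symm (𝓝 (S.ep z)) (𝓝 z) := by
      have := hcs.tendsto
      rwa [e1] at this
    have h3 : ∀ᶠ b in 𝓝 (S.ep z), S.NB b < S.ε :=
      (isOpen_lt S.cB continuous_const).mem_nhds (by
        show S.NB (S.ep z) < S.ε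
        rw [S.NB_ep hz1]; exact hz1)
    refine hr _ _ ?_ ?_
    · filter_upwards [t1.eventually hc, h3] with b hb hb'
      exact ContinuousAt.comp (g := f) hb (S.ep.continuousAt_symm (S.mem_ep_target.2 hb'))
    · filter_upwards [t1.eventually hd, h3] with b hb hb' hN
      refine (Sur.hC_at_ep_symm H hb').1 (hb ?_)
      rw [S.nf_ep_symm hb']
      exact hN
  · exact hd.self_of_nhds hz


end Gen

theorem exists_small {ε : ℝ} (h : 0 < ε) : ∃ a : Um, a.N ≠ 0 ∧ a.N < ε := by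
  have h1 : IsOpen {a : Um | a.N < ε} := isOpen_lt Um.c_N continuous_const
  have h2 : (Um.mk0 0 0 0) ∈ {a : Um | a.N < ε} := by
    show (Um.mk0 0 0 0).N < ε
    rw [Um.N_mk0.2 ⟨rfl, rfl⟩]
    exact h
  obtain ⟨a, ha, ha'⟩ := Um.dense_N.inter_open_nonempty _ h1 ⟨_, h2⟩
  exact ⟨a, ha', ha⟩

/-- **the surgery at `{N = 0}`** -/
def sur {X : Type*} [TopologicalSpace X] (e : OpenPartialHomeomorph X Um) (ε : ℝ) (ε0 : 0 < ε)
    (sub : ∀ a : Um, a.N ≤ ε → a ∈ e.target) : Sur X Um Up where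
  e := e
  φ := phi
  NA := Um.N
  NB := Up.N
  cA := Um.c_N
  cB := Up.c_N
  nA := Um.N_nonneg
  nB := Up.N_nonneg
  kA := Um.isCompact_le
  kB := Up.isCompact_le
  φs _ := Iff.rfl
  φt _ := Iff.rfl
  φN _ h := N_pu h
  ε := ε
  ε0 := ε0
  sub := sub
  ne := exists_small ε0

/-- the choice of `ε` -/
theorem exists_eps_sur {X : Type*} [TopologicalSpace X] (e : OpenPartialHomeomorph X Um)
    (h : ∀ a : Um, a.N = 0 → a ∈ e.target) {V : Set Um} (hV : IsOpen V)
    (h0 : ∀ a : Um, a.N = 0 → a ∈ V) {δ : ℝ} (hδ : 0 < δ) :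
    ∃ ε, 0 < ε ∧ ε ≤ δ ∧ (∀ a : Um, a.N ≤ ε → a ∈ e.target) ∧ ∀ a : Um, a.N ≤ ε → a ∈ V := by
  obtain ⟨ε, h1, h2⟩ := Um.exists_eps (e.open_target.inter hV) fun a ha => ⟨h a ha, h0 a ha⟩
  exact ⟨min ε δ, lt_min h1 hδ, min_le_right _ _, fun a ha => (h2 a (ha.trans (min_le_left _ _))).1,
    fun a ha => (h2 a (ha.trans (min_le_left _ _))).2⟩

variable {X : Type} [TopologicalSpace X] {e : OpenPartialHomeomorph X Um} {ε : ℝ} {ε0 : 0 < ε}
  {sub : ∀ a : Um, a.N ≤ ε → a ∈ e.target} {C : Fam 3 X}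

/-- **holomorphy of the surgery data** -/
theorem surHol (he : ∀ x ∈ e.source, HC C Um.fam e x) (he' : ∀ a ∈ e.target, HC Um.fam C e.symm a) :
    (sur e ε ε0 sub).Hol C Um.fam Up.fam where
  he := he
  he' := he'
  hφ _ h := hC_phi h
  hφ' _ h := hC_phi_symm h

section XP

variable [T2Space X] (H : (sur e ε ε0 sub).Hol C Um.fam Up.fam)

/-- **the new centre is removable** -/
theorem hC_of_cont {m : ℕ} {P : Type} [TopologicalSpace P] {D : Fam m P}
    {f : (sur e ε ε0 sub).XP → P} {z : (sur e ε ε0 sub).XP}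
    (hc : ∀ᶠ y in 𝓝 z, ContinuousAt f y)
    (hd : ∀ᶠ y in 𝓝 z, (sur e ε ε0 sub).nf y ≠ 0 → HC (Sur.fam H) D f y) :
    HC (Sur.fam H) D f z :=
  hC_of_cont_gen H (fun _ _ h1 h2 => Up.hC_of_cont h1 h2) hc hd


/-- **a holomorphic map which is constant on the centre is holomorphic on the new space** -/
theorem holC_push {m : ℕ} {P : Type} [TopologicalSpace P] {D : Fam m P} {f : X → P} {y₀ : P}
    (hf : HolC C D f) (h0 : ∀ x ∈ (sur e ε ε0 sub).K, f x = y₀) :
    HolC (Sur.fam H) D ((sur e ε ε0 sub).push f y₀) := by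
  rw [holC_iff_hC]
  intro z
  have hc := (sur e ε ε0 sub).continuous_push hf.cont h0
  refine hC_of_cont H (Eventually.of_forall fun y => hc.continuousAt)
    (Eventually.of_forall fun y hy => ?_)
  exact Sur.hC_push H hy (hf.hC _)


end XP

section XP2

variable [T2Space X]

/-- **the zero section near `o`** -/
theorem iota_eq_sig {x : X} (hx : x ∈ e.source) (h0 : (e x).N ≠ 0) (h1 : (e x).N < ε)
    (hm : (e x).m = 0) :
    (sur e ε ε0 sub).iota x = (sur e ε ε0 sub).ep.symm (Up.sig (e x).z) := by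
  have h2 : (sur e ε ε0 sub).ep ((sur e ε ε0 sub).iota x) = phi (e x) :=
    (sur e ε ε0 sub).ep_iota' hx h0 h1
  rw [phi_of_m h0 hm] at h2
  rw [← h2, (sur e ε ε0 sub).ep.left_inv]
  rw [(sur e ε ε0 sub).mem_ep_source, (sur e ε ε0 sub).nf_iota
    ((sur e ε ε0 sub).not_mem_K_of hx h0), (sur e ε ε0 sub).nX_eq hx h1.le]
  exact h1

instance XP_t2 : T2Space (sur e ε ε0 sub).XP := (sur e ε ε0 sub).t2

instance XP_compact [CompactSpace X] : CompactSpace (sur e ε ε0 sub).XP :=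
  (sur e ε ε0 sub).compact


theorem mem_K_iff {x : X} : x ∈ (sur e ε ε0 sub).K ↔ x ∈ e.source ∧ (e x).N = 0 :=
  (sur e ε ε0 sub).mem_K

end XP2

end

end Crest.Agent.R272.Flop_66
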