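import Crest.Agent.R272.MQ3_783
import Crest.Agent.R272.Quot3_783
import Crest.Agent.R272.Refl4_246
import Crest.Agent.R272.Refl5_246
import Crest.Agent.R273.FS_333
import Crest.Agent.R273.PB_835
import Crest.Agent.R272.MQ2_783
import Crest.Agent.R272.Kod8_410
import Crest.Agent.R272.GInG2_502

-- ▼ part R272/MQ4_783
section

/-!
# R272, leaf MQ (helper783), part 4: the ball, and the projection to the base

`ρ : Γ →* UG n` acting on the ball (`BX ρ`, `ballFam ρ` of `Quot3_783`).
* `IsPR g R c`     : `g v = v - (c * hh v R) • R`, `c * hh R R = 2` (a unitary reflection);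
* `act_of_isPR`, `reflAt_ball` : fixed points and the derivative there;
* `pds_ball`       : proper discontinuity from the finiteness condition `proper` of `EDat`;
* `ra_ball`        : `RA (ballFam ρ) Γ` from the description of the stabilisers;
* `compact_ball`   : the orbit space is compact;
* `holC_orbMap`    : the projection `Orb G X → Orb G B` is holomorphic.
-/

set_option autoImplicit false
set_option linter.unusedSectionVars false

open Set Filter Topology
open scoped ComplexConjugate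

namespace Crest.Agent.R272.MQ_783

open Crest.Agent.R275.Geo Crest.Agent.R273.Fam_835 Crest.Agent.R273.Map_835
  Crest.Agent.R272.Refl_246 Crest.Agent.R272.RQ1_302 Crest.Agent.R272.EBase_641
  Crest.Agent.R272.Quot_783

noncomputable section

variable {n m : ℕ} {Γ : Type} [Group Γ]

/-- unitary reflections of the Hermitian space of signature `(n,1)` -/
def IsPR (g : UG n) (R : V1 n) (c : ℂ) : Prop :=
  c * hh R R = 2 ∧ ∀ v, g.1 v = v - (c * hh v R) • R

theorem IsPR.sq {g : UG n} {R : V1 n} {c : ℂ} (h : IsPR g R c) : g * g = 1 := by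
  apply Subtype.ext
  apply LinearEquiv.ext
  intro v
  change g.1 (g.1 v) = v
  rw [h.2 (g.1 v), h.2 v]
  have h1 : hh (v - (c * hh v R) • R) R = hh v R - c * hh v R * hh R R := by
    have h2 : v - (c * hh v R) • R = v + (-(c * hh v R)) • R := by
      rw [neg_smul, sub_eq_add_neg]
    rw [h2, hh_add_left, hh_smul_left]
    ring
  rw [h1]
  have h3 : c * (hh v R - c * hh v R * hh R R) = -(c * hh v R) := by
    have : c * (hh v R - c * hh v R * hh R R) = c * hh v R - c * hh v R * (c * hh R R) := by ring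
    rw [this, h.1]
    ring
  rw [h3, neg_smul]
  abel

theorem IsPR.jj_eq {g : UG n} {R : V1 n} {c : ℂ} (h : IsPR g R c) {z : E n} (hz : lin R z = 0) :
    jj g z = 1 := by
  have h1 : g.1 (z, 1) = (z, 1) := by
    rw [h.2, ← lin_eq_hh, hz, mul_zero, zero_smul, sub_zero]
  rw [jj, h1]

theorem IsPR.act_eq {g : UG n} {R : V1 n} {c : ℂ} (h : IsPR g R c) {z : E n} (hz : lin R z = 0) :
    act g z = z := by
  have h1 : g.1 (z, 1) = (z, 1) := by
    rw [h.2, ← lin_eq_hh, hz, mul_zero, zero_smul, sub_zero]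
  rw [act, h.jj_eq hz, h1, inv_one, one_smul]

/-- the derivative of the action of a reflection at a fixed point -/
theorem IsPR.fderiv_act {g : UG n} {R : V1 n} {c : ℂ} (h : IsPR g R c) {z : E n}
    (hzB : z ∈ Ball n) (hz : lin R z = 0) (X : E n) :
    fderiv ℂ (act g) z X = X - (c * inner ℂ R.1 X) • (R.1 - R.2 • z) := by
  set Gc : V1 n →L[ℂ] V1 n := LinearMap.toContinuousLinearMap (g.1 : V1 n →ₗ[ℂ] V1 n) with hGc
  have hG : ∀ v, Gc v = g.1 v := fun v => rfl
  have hj := jj_ne_zero g hzB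
  have h0 : HasFDerivAt (fun y : E n => ((y, 1) : V1 n)) (ContinuousLinearMap.inl ℂ (E n) ℂ) z :=
    (hasFDerivAt_id (𝕜 := ℂ) z).prodMk (hasFDerivAt_const (1 : ℂ) z)
  have h1 : HasFDerivAt (fun y : E n => g.1 (y, 1)) (Gc ∘L ContinuousLinearMap.inl ℂ (E n) ℂ) z :=
    Gc.hasFDerivAt.comp z h0
  have h2 : HasFDerivAt (fun y : E n => (g.1 (y, 1)).2)
      ((ContinuousLinearMap.snd ℂ (E n) ℂ) ∘L (Gc ∘L ContinuousLinearMap.inl ℂ (E n) ℂ)) z :=
    (ContinuousLinearMap.snd ℂ (E n) ℂ).hasFDerivAt.comp z h1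
  have h3 : HasFDerivAt (fun y : E n => (g.1 (y, 1)).1)
      ((ContinuousLinearMap.fst ℂ (E n) ℂ) ∘L (Gc ∘L ContinuousLinearMap.inl ℂ (E n) ℂ)) z :=
    (ContinuousLinearMap.fst ℂ (E n) ℂ).hasFDerivAt.comp z h1
  have h4 := (hasDerivAt_inv (show (g.1 (z, 1)).2 ≠ 0 from hj)).comp_hasFDerivAt z h2
  have h5 := h4.smul h3
  have h6 : HasFDerivAt (act g) _ z := h5
  rw [h6.fderiv]
  have e0 : g.1 (z, 1) = (z, 1) := by
    rw [h.2, ← lin_eq_hh, hz, mul_zero, zero_smul, sub_zero]
  have e1 : g.1 (X, 0) = (X - (c * inner ℂ R.1 X) • R.1, -((c * inner ℂ R.1 X) * R.2)) := by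
    rw [h.2]
    have : hh (X, 0) R = inner ℂ R.1 X := by simp [hh]
    rw [this]
    ext1
    · rfl
    · simp
  simp only [Function.comp, add_apply, smul_apply,
    ContinuousLinearMap.comp_apply, ContinuousLinearMap.smulRight_apply,
    ContinuousLinearMap.inl_apply, ContinuousLinearMap.coe_fst', ContinuousLinearMap.coe_snd', hG,
    e0, e1, smul_eq_mul, smul_sub, smul_smul]
  norm_num
  abel

theorem reflAt_ball (ρ : Γ →* UG n) {s : Γ} {R : V1 n} {c : ℂ} (h : IsPR (ρ s) R c) {x : BX ρ}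
    (hx : lin R x.val = 0) : ReflAt (ballFam ρ) (fun y => s • y) x := by
  obtain ⟨i, hi⟩ := (ballFam ρ).cover x
  refine reflAt_iff_isRefl.2 ⟨(ballFam ρ).e i, cpt_e (C := ballFam ρ) i, hi,
    c • (innerSL ℂ R.1), R.1 - R.2 • x.val, ?_, fun w => ?_⟩
  · change c * inner ℂ R.1 (R.1 - R.2 • x.val) = 2
    have h1 : inner ℂ R.1 x.val = conj R.2 := by
      have := hx
      rw [lin, sub_eq_zero] at this
      exact this
    rw [inner_sub_right, inner_smul_right, h1, ← h.1]
    rfl
  · have h1 : dC ((ballFam ρ).e i) ((ballFam ρ).e i) (fun y => s • y) x =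
        fderiv ℂ (act (ρ s)) x.val := by
      unfold dC
      rw [ballFam_apply]
      refine Filter.EventuallyEq.fderiv_eq ?_
      filter_upwards [Metric.isOpen_ball.mem_nhds x.mem] with z hz
      rw [ballFam_apply, BX.val_smul, ballFam_symm ρ i hz]
    rw [h1, h.fderiv_act x.mem hx]
    rfl

theorem pds_ball (ρ : Γ →* UG n)
    (hp : ∀ r : ℝ, r < 1 → {g | ∃ z, ‖z‖ ≤ r ∧ ‖act (ρ g) z‖ ≤ r}.Finite) :
    ProperlyDiscontinuousSMul Γ (BX ρ) := by
  refine ⟨fun {K L} hK hL => ?_⟩
  obtain ⟨r1, h1, h1'⟩ := exists_radius hK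
  obtain ⟨r2, h2, h2'⟩ := exists_radius hL
  refine (hp (max r1 r2) (max_lt h1 h2)).subset ?_
  rintro g ⟨x, ⟨y, hy, rfl⟩, hx⟩
  exact ⟨y.val, (h1' y hy).trans (le_max_left _ _), by
    have := h2' _ hx
    exact this.trans (le_max_right _ _)⟩

theorem ccs_ball (ρ : Γ →* UG n) : ContinuousConstSMul Γ (BX ρ) :=
  ⟨fun g => continuous_smul_ball ρ g⟩

/-- **the hypotheses of MQ for the ball** -/
theorem ra_ball (ρ : Γ →* UG n) [ProperlyDiscontinuousSMul Γ (BX ρ)]
    (hst : ∀ x : BX ρ, (∀ g : Γ, g • x = x → g = 1) ∨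
      ∃ (s : Γ) (R : V1 n) (c : ℂ), s * s = 1 ∧ IsPR (ρ s) R c ∧ lin R x.val = 0 ∧
        ∀ g : Γ, g • x = x → g = 1 ∨ g = s) : RA (ballFam ρ) Γ where
  hol g := holC_smul ρ g
  pd x := by
    have := ccs_ball ρ
    exact pd_of_properly x
  st x := by
    rcases hst x with h | ⟨s, R, c, hs, hR, hx, h⟩
    · exact Or.inl h
    · exact Or.inr ⟨s, hs, BX.ext (hR.act_eq hx), h, reflAt_ball ρ hR hx⟩

/-- compactness of the orbit space of the ball -/
theorem compact_ball (ρ : Γ →* UG n)
    (hc : ∃ r : ℝ, r < 1 ∧ ∀ z ∈ Ball n, ∃ g, ‖act (ρ g) z‖ ≤ r) :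
    CompactSpace (Orb Γ (BX ρ)) := by
  obtain ⟨r, hr, hcov⟩ := hc
  have hK : IsCompact {x : BX ρ | ‖x.val‖ ≤ r} := by
    rw [BX.isOpenEmbedding_val.isEmbedding.isCompact_iff]
    have h1 : (BX.val : BX ρ → E n) '' {x : BX ρ | ‖x.val‖ ≤ r} = Metric.closedBall (0 : E n) r := by
      ext z
      simp only [mem_image, Set.mem_ofPred_eq, Metric.mem_closedBall, dist_zero_right]
      constructor
      · rintro ⟨x, hx, rfl⟩
        exact hx
      · intro hz
        exact ⟨BX.mk ρ z (mem_Ball.2 (lt_of_le_of_lt hz hr)), hz, rfl⟩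
    rw [h1]
    exact isCompact_closedBall _ _
  exact compact_orb_of hK fun x => hcov x.val x.mem

/-! ### the projection to the base -/

section Base

variable {k : ℕ} {G : Type} [Group G] {X : Type} [TopologicalSpace X] [MulAction G X]
  {C : Fam n X} {B : Type} [TopologicalSpace B] [MulAction G B] {D : Fam m B} {P : X → B}



end Base

end

end Crest.Agent.R272.MQ_783
end

-- ▼ part R272/Refl6_246
section

/-!
# R272, leaf MOD-REFL (helper246), part 6: projectivity of the quotient by a reflection-like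
involution

Immersion criteria for `S(u) = sm (v u) (v (s u))`, `v` an immersion to a projective space.
-/

set_option autoImplicit false
set_option linter.unusedSectionVars false

open Set Filter Topology Matrix
open scoped ContDiff

namespace Crest.Agent.R272.Refl_246

open Crest.Agent.R275.Geo Crest.Agent.R273.Fam_835

noncomputable section

variable {n : ℕ} {κ : Type} [Fintype κ] [DecidableEq κ]

/-- projective immersion at a point, in coordinates -/
def ImmAt (f : Cn n → κ → ℂ) (z : Cn n) : Prop :=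
  ∀ v : Cn n, (∃ c : ℂ, fderiv ℂ f z v = c • f z) → v = 0

/-- derivative of a symmetric product -/
theorem hasFDerivAt_sm {f g : Cn n → κ → ℂ} {z : Cn n} (hf : DifferentiableAt ℂ f z)
    (hg : DifferentiableAt ℂ g z) :
    DifferentiableAt ℂ (fun w => sm (f w) (g w)) z ∧
      ∀ v, fderiv ℂ (fun w => sm (f w) (g w)) z v =
        sm (fderiv ℂ f z v) (g z) + sm (f z) (fderiv ℂ g z v) := by
  have hf' : ∀ k, HasFDerivAt (fun w => f w k)
      ((ContinuousLinearMap.proj k).comp (fderiv ℂ f z)) z := fun k =>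
    (ContinuousLinearMap.proj k : (κ → ℂ) →L[ℂ] ℂ).hasFDerivAt.comp z hf.hasFDerivAt
  have hg' : ∀ k, HasFDerivAt (fun w => g w k)
      ((ContinuousLinearMap.proj k).comp (fderiv ℂ g z)) z := fun k =>
    (ContinuousLinearMap.proj k : (κ → ℂ) →L[ℂ] ℂ).hasFDerivAt.comp z hg.hasFDerivAt
  have h1 : HasFDerivAt (fun w => sm (f w) (g w))
      (ContinuousLinearMap.pi fun p : κ × κ =>
        (f z p.1 • ((ContinuousLinearMap.proj p.2).comp (fderiv ℂ g z)) +
          g z p.2 • ((ContinuousLinearMap.proj p.1).comp (fderiv ℂ f z))) +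
        (f z p.2 • ((ContinuousLinearMap.proj p.1).comp (fderiv ℂ g z)) +
          g z p.1 • ((ContinuousLinearMap.proj p.2).comp (fderiv ℂ f z)))) z := by
    rw [hasFDerivAt_pi]
    intro p
    exact ((hf' p.1).mul (hg' p.2)).add ((hf' p.2).mul (hg' p.1))
  refine ⟨h1.differentiableAt, fun v => ?_⟩
  rw [h1.fderiv]
  funext p
  simp only [ContinuousLinearMap.coe_pi', Pi.add_apply, sm]
  simp only [_root_.add_apply, _root_.smul_apply, ContinuousLinearMap.comp_apply,
    ContinuousLinearMap.proj_apply, smul_eq_mul]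
  ring


/-- free point: `v`, `v'` not proportional -/
theorem immAt_sm {f g : Cn n → κ → ℂ} {z : Cn n} (hf : DifferentiableAt ℂ f z)
    (hg : DifferentiableAt ℂ g z) (hfi : ImmAt f z) (hf0 : f z ≠ 0)
    (hfg : ¬ ∃ a : ℂ, g z = a • f z) : ImmAt (fun w => sm (f w) (g w)) z := by
  rintro v ⟨c, hc⟩
  obtain ⟨_, h1⟩ := hasFDerivAt_sm hf hg
  rw [h1] at hc
  refine hfi v ?_
  refine (prop_or_prop (v := f z) (x := fderiv ℂ f z v) (y := g z) hf0 fun t ht => ?_).resolve_right
    hfg
  have h2 := congrArg (qf t) hc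
  rw [qf_add, qf_smul, qf_sm, qf_sm, qf_sm, ht] at h2
  have h3 : 2 * ((fderiv ℂ f z v ⬝ᵥ t) * (g z ⬝ᵥ t)) = 0 := by linear_combination h2
  rcases mul_eq_zero.1 h3 with h4 | h4
  · norm_num at h4
  · exact h4

/-- change of coordinates: if `h ∘ q` is immersive at `w` and `dq` is onto, so is `h` at `q w` -/
theorem immAt_of_comp {h : Cn n → κ → ℂ} {q : Cn n → Cn n} {w : Cn n}
    (hh : DifferentiableAt ℂ h (q w)) (hq : DifferentiableAt ℂ q w)
    (hs : Function.Surjective (fderiv ℂ q w)) (hi : ImmAt (fun x => h (q x)) w) :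
    ImmAt h (q w) := by
  rintro v ⟨c, hc⟩
  obtain ⟨x, rfl⟩ := hs v
  have h1 : fderiv ℂ (fun x => h (q x)) w = (fderiv ℂ h (q w)).comp (fderiv ℂ q w) :=
    fderiv_comp w hh hq
  have h2 : x = 0 := hi x ⟨c, by rw [h1]; exact hc⟩
  rw [h2, map_zero]

/-- change of coordinates: if `h` is immersive at `q w` and `dq` is injective, so is `h ∘ q` -/
theorem immAt_comp {h : Cn n → κ → ℂ} {q : Cn n → Cn n} {w : Cn n}
    (hh : DifferentiableAt ℂ h (q w)) (hq : DifferentiableAt ℂ q w)
    (hs : Function.Injective (fderiv ℂ q w)) (hi : ImmAt h (q w)) :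
    ImmAt (fun x => h (q x)) w := by
  rintro v ⟨c, hc⟩
  have h1 : fderiv ℂ (fun x => h (q x)) w = (fderiv ℂ h (q w)).comp (fderiv ℂ q w) :=
    fderiv_comp w hh hq
  have h2 : fderiv ℂ q w v = 0 := hi _ ⟨c, by rw [h1] at hc; exact hc⟩
  exact hs (by rw [h2, map_zero])

theorem ImmAt.congr {f g : Cn n → κ → ℂ} {z : Cn n} (h : f =ᶠ[𝓝 z] g) (hf : ImmAt f z) :
    ImmAt g z := by
  rintro v ⟨c, hc⟩
  refine hf v ⟨c, ?_⟩
  rw [h.fderiv_eq, hc, h.eq_of_nhds]

/-- the differential of `sq a` off the mirror is onto -/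
theorem surjective_fderiv_sq (a : Fin n) {w : Cn n} (hw : w a ≠ 0) :
    Function.Surjective (fderiv ℂ (sq a) w) := by
  obtain ⟨r, hr1, hr2, hr3⟩ := exists_sqrt a hw
  have h1 : fderiv ℂ (fun z => sq a (r z)) (sq a w) = ContinuousLinearMap.id ℂ (Cn n) := by
    have : (fun z => sq a (r z)) =ᶠ[𝓝 (sq a w)] id := hr3
    rw [this.fderiv_eq, fderiv_id]
  have h2 : fderiv ℂ (fun z => sq a (r z)) (sq a w) =
      (fderiv ℂ (sq a) (r (sq a w))).comp (fderiv ℂ r (sq a w)) :=
    fderiv_comp _ (differentiable_sq a _) hr2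
  intro v
  refine ⟨fderiv ℂ r (sq a w) v, ?_⟩
  have h3 := congrArg (fun T : Cn n →L[ℂ] Cn n => T v) (h2.symm.trans h1)
  simp only [ContinuousLinearMap.comp_apply, hr1] at h3
  exact h3

/-- derivative of a scalar function along a line -/
theorem hasDerivAt_line {f : Cn n → ℂ} {w : Cn n} (hf : DifferentiableAt ℂ f w) (v : Cn n) :
    HasDerivAt (fun τ : ℂ => f (w + τ • v)) (fderiv ℂ f w v) 0 := by
  have h1 : HasFDerivAt f (fderiv ℂ f w) (w + (0 : ℂ) • v) := by simpa using hf.hasFDerivAt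
  have h2 : HasDerivAt (fun τ : ℂ => w + τ • v) v 0 := by
    simpa using ((hasDerivAt_id (0 : ℂ)).smul_const v).const_add w
  exact h1.comp_hasDerivAt (0 : ℂ) h2

theorem tendsto_slope {f : ℂ → ℂ} {f' : ℂ} (h : HasDerivAt f f' 0) :
    Tendsto (fun τ => τ⁻¹ * (f τ - f 0)) (𝓝[≠] 0) (𝓝 f') := by
  have := h.tendsto_slope_zero
  simpa using this

/-- **mirror point** -/
theorem immAt_mirror {f : Cn n → κ → ℂ} {h : Cn n → κ × κ → ℂ} {a : Fin n} {w : Cn n}
    (hw : w a = 0) (hf : DifferentiableAt ℂ f w) (hfi : ImmAt f w) (hf0 : f w ≠ 0)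
    (hh : DifferentiableAt ℂ h (sq a w))
    (he : ∀ᶠ x in 𝓝 w, h (sq a x) = sm (f x) (f (rf a x))) :
    ∀ v : Cn n, (∃ c : ℂ, fderiv ℂ h (sq a w) v = c • h (sq a w)) → v = 0 := by
  rintro v ⟨c, hc⟩
  have hrw : rf a w = w := by
    rw [rf, hw, neg_zero, ← hw, up_self]
  have hsw : sq a w = w := by
    rw [sq, hw]
    have : (0 : ℂ) ^ 2 = w a := by rw [hw]; norm_num
    rw [this, up_self]
  have hh' : DifferentiableAt ℂ h w := by rwa [hsw] at hh
  have hval : h w = sm (f w) (f w) := by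
    have := he.self_of_nhds
    rwa [hsw, hrw] at this
  -- the scalar functions
  have hqd : ∀ t : κ → ℂ, DifferentiableAt ℂ (fun z => qf t (h z)) w := by
    intro t
    have h1 : ∀ p : κ × κ, DifferentiableAt ℂ (fun z => h z p) w := fun p =>
      (differentiableAt_pi.1 hh') p
    unfold qf
    refine DifferentiableAt.fun_sum fun p _ => (h1 p).const_mul _
  have hqf : ∀ (t : κ → ℂ) (x : Cn n), fderiv ℂ (fun z => qf t (h z)) w x =
      qf t (fderiv ℂ h w x) := by
    intro t x
    let Q : (κ × κ → ℂ) →L[ℂ] ℂ := ∑ p : κ × κ, (t p.1 * t p.2) • ContinuousLinearMap.proj p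
    have hQ : ∀ m, Q m = qf t m := by
      intro m
      simp [Q, qf]
    have h1 : (fun z => qf t (h z)) = fun z => Q (h z) := by
      funext z
      rw [hQ]
    have h2 : fderiv ℂ (fun z => Q (h z)) w = Q.comp (fderiv ℂ h w) :=
      (Q.hasFDerivAt.comp w hh'.hasFDerivAt).fderiv
    rw [h1, h2, ContinuousLinearMap.comp_apply, hQ]
  have hfd : ∀ t : κ → ℂ, DifferentiableAt ℂ (fun z => f z ⬝ᵥ t) w := by
    intro t
    have h1 : ∀ k : κ, DifferentiableAt ℂ (fun z => f z k) w := fun k =>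
      (differentiableAt_pi.1 hf) k
    unfold dotProduct
    refine DifferentiableAt.fun_sum fun k _ => (h1 k).mul_const _
  have hfdd : ∀ (t : κ → ℂ) (x : Cn n), fderiv ℂ (fun z => f z ⬝ᵥ t) w x =
      fderiv ℂ f w x ⬝ᵥ t := by
    intro t x
    let Q : (κ → ℂ) →L[ℂ] ℂ := ∑ k : κ, t k • ContinuousLinearMap.proj k
    have hQ : ∀ m, Q m = m ⬝ᵥ t := by
      intro m
      simp [Q, dotProduct, mul_comm]
    have h1 : (fun z => f z ⬝ᵥ t) = fun z => Q (f z) := by
      funext z
      rw [hQ]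
    have h2 : fderiv ℂ (fun z => Q (f z)) w = Q.comp (fderiv ℂ f w) :=
      (Q.hasFDerivAt.comp w hf.hasFDerivAt).fderiv
    rw [h1, h2, ContinuousLinearMap.comp_apply, hQ]
  -- the value on curves
  have hcurve : ∀ (t : κ → ℂ) (x : Cn n) , ∀ᶠ τ in 𝓝 (0 : ℂ),
      qf t (h (sq a (w + τ • x))) = 2 * ((f (w + τ • x) ⬝ᵥ t) * (f (rf a (w + τ • x)) ⬝ᵥ t)) := by
    intro t x
    have h1 : Tendsto (fun τ : ℂ => w + τ • x) (𝓝 0) (𝓝 w) := by
      have : Continuous fun τ : ℂ => w + τ • x := by fun_prop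
      simpa using this.tendsto 0
    filter_upwards [h1.eventually he] with τ hτ
    rw [hτ, qf_sm]
  set ea : Cn n := EuclideanSpace.single a (1 : ℂ) with hea
  -- direction `ea`
  have hdir : ∀ t : κ → ℂ, f w ⬝ᵥ t = 0 →
      qf t (fderiv ℂ h w ea) = -2 * (fderiv ℂ f w ea ⬝ᵥ t) ^ 2 := by
    intro t ht
    have h1 := tendsto_slope (hasDerivAt_line (hqd t) ea)
    rw [hqf] at h1
    simp only [zero_smul, add_zero] at h1
    have h0 : qf t (h w) = 0 := by rw [hval, qf_sm, ht]; ring
    rw [h0] at h1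
    simp only [sub_zero] at h1
    have hsqt : Tendsto (fun τ : ℂ => τ ^ 2) (𝓝[≠] 0) (𝓝[≠] 0) := by
      rw [tendsto_nhdsWithin_iff]
      constructor
      · have : Tendsto (fun τ : ℂ => τ ^ 2) (𝓝 0) (𝓝 (0 ^ 2)) := (continuous_pow 2).tendsto 0
        rw [zero_pow two_ne_zero] at this
        exact this.mono_left nhdsWithin_le_nhds
      · filter_upwards [self_mem_nhdsWithin] with τ hτ
        exact pow_ne_zero 2 hτ
    have h2 := h1.comp hsqt
    have h3 := tendsto_slope (hasDerivAt_line (hfd t) ea)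
    have h4 := tendsto_slope (hasDerivAt_line (hfd t) (-ea))
    rw [hfdd] at h3 h4
    simp only [zero_smul, add_zero, ht, sub_zero] at h3 h4
    have h5 := (h3.mul h4).const_mul 2
    have h6 : (fun τ : ℂ => 2 * (τ⁻¹ * (f (w + τ • ea) ⬝ᵥ t) * (τ⁻¹ * (f (w + τ • -ea) ⬝ᵥ t))))
        =ᶠ[𝓝[≠] 0] ((fun τ => τ⁻¹ * qf t (h (w + τ • ea))) ∘ fun τ => τ ^ 2) := by
      filter_upwards [(hcurve t ea).filter_mono nhdsWithin_le_nhds, self_mem_nhdsWithin] with τ hτ hτ0
      have e1 : sq a (w + τ • ea) = w + τ ^ 2 • ea := by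
        ext b
        rcases eq_or_ne b a with rfl | hb
        · simp [hea, hw]
        · rw [sq_ne hb]
          simp [hea, hb]
      have e2 : rf a (w + τ • ea) = w + τ • -ea := by
        ext b
        rcases eq_or_ne b a with rfl | hb
        · simp [hea, hw]
        · rw [rf_ne hb]
          simp [hea, hb]
      rw [e1, e2] at hτ
      simp only [Function.comp]
      rw [hτ]
      have hτ0' : τ ≠ 0 := hτ0
      field_simp
    have h7 := tendsto_nhds_unique (h2.congr' h6.symm) h5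
    rw [h7, map_neg, neg_dotProduct]
    ring
  -- directions in the mirror
  have hmir : ∀ (t : κ → ℂ) (x : Cn n), x a = 0 →
      qf t (fderiv ℂ h w x) = 4 * ((f w ⬝ᵥ t) * (fderiv ℂ f w x ⬝ᵥ t)) := by
    intro t x hx
    have h1 := hasDerivAt_line (hqd t) x
    have h2 := hasDerivAt_line (hfd t) x
    rw [hqf] at h1
    rw [hfdd] at h2
    have h3 := (h2.mul h2).const_mul 2
    have h4 : (fun τ : ℂ => qf t (h (w + τ • x))) =ᶠ[𝓝 0]
        fun τ : ℂ => 2 * ((f (w + τ • x) ⬝ᵥ t) * (f (w + τ • x) ⬝ᵥ t)) := by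
      filter_upwards [hcurve t x] with τ hτ
      have e0 : (w + τ • x) a = 0 := by simp [hw, hx]
      have e1 : sq a (w + τ • x) = w + τ • x := by
        rw [sq]
        have : (w + τ • x) a ^ 2 = (w + τ • x) a := by rw [e0]; norm_num
        rw [this, up_self]
      have e2 : rf a (w + τ • x) = w + τ • x := by
        rw [rf]
        have : -(w + τ • x) a = (w + τ • x) a := by rw [e0]; norm_num
        rw [this, up_self]
      rw [e1, e2] at hτ
      exact hτ
    have h5 := (h1.congr_of_eventuallyEq h4.symm).unique h3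
    rw [h5]
    simp only [zero_smul, add_zero]
    ring
  -- decompose `v`
  rw [hsw] at hc
  set x : Cn n := v - v a • ea with hx
  have hxa : x a = 0 := by simp [hx, hea]
  have hvx : v = v a • ea + x := by rw [hx]; abel
  have hva : v a = 0 := by
    by_contra hne
    have hprop : ∃ b : ℂ, fderiv ℂ f w ea = b • f w := by
      refine prop_of_perp hf0 fun t ht => ?_
      have h1 := congrArg (qf t) hc
      rw [qf_smul, hval, qf_sm, ht] at h1
      rw [hvx, map_add, map_smul, qf_add, qf_smul, hdir t ht, hmir t x hxa, ht] at h1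
      have h2 : v a * (fderiv ℂ f w ea ⬝ᵥ t) ^ 2 = 0 := by linear_combination (-1 / 2 : ℂ) * h1
      rcases mul_eq_zero.1 h2 with h3 | h3
      · exact absurd h3 hne
      · exact pow_eq_zero_iff (two_ne_zero) |>.1 h3
    obtain ⟨b, hb⟩ := hprop
    have h1 := hfi ea ⟨b, hb⟩
    have h2 := congrArg (fun z : Cn n => z a) h1
    simp [hea] at h2
  have hvx' : v = x := by rw [hvx, hva, zero_smul, zero_add]
  refine hfi v ?_
  have h1 : ∀ t : κ → ℂ, (f w ⬝ᵥ t) * (((2 : ℂ) • fderiv ℂ f w v - c • f w) ⬝ᵥ t) = 0 := by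
    intro t
    have h2 := congrArg (qf t) hc
    rw [qf_smul, hval, qf_sm, hvx', hmir t x hxa] at h2
    rw [sub_dotProduct, smul_dotProduct, smul_dotProduct, hvx']
    simp only [smul_eq_mul]
    linear_combination (1 / 2 : ℂ) * h2
  rcases zero_or_zero h1 with h2 | h2
  · exact absurd h2 hf0
  · refine ⟨c / 2, ?_⟩
    rw [sub_eq_zero] at h2
    have h3 : fderiv ℂ f w v = (1 / 2 : ℂ) • ((2 : ℂ) • fderiv ℂ f w v) := by
      rw [smul_smul]; norm_num
    rw [h3, h2, smul_smul]
    congr 1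
    ring

end

end Crest.Agent.R272.Refl_246
end

-- ▼ part R272/Refl7_246
section

/-!
# R272, leaf MOD-REFL (helper246), part 7: the quotient of a projective manifold by an involution
with reflection-like fixed points is projective

`exists_quot_projD` : main result.
-/

set_option autoImplicit false
set_option linter.unusedSectionVars false

open Set Filter Topology Matrix
open scoped ContDiff

namespace Crest.Agent.R272.Refl_246

open Crest.Agent.R275.Geo Crest.Agent.R275.GC293 Crest.Agent.R275.Core144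
open Crest.Agent.R273.Fam_835 Crest.Agent.R273.Map_835 Crest.Agent.R273.Defs_333

noncomputable section

variable {n : ℕ}

/-- a map with a differentiable left inverse has injective differential -/
theorem injective_fderiv_of_inv {E F : Type} [NormedAddCommGroup E] [NormedSpace ℂ E]
    [NormedAddCommGroup F] [NormedSpace ℂ F] {q : E → F} {r : F → E} {w : E}
    (hq : DifferentiableAt ℂ q w) (hr : DifferentiableAt ℂ r (q w))
    (h : ∀ᶠ x in 𝓝 w, r (q x) = x) : Function.Injective (fderiv ℂ q w) := by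
  have h1 : fderiv ℂ (fun z => r (q z)) w = ContinuousLinearMap.id ℂ E := by
    have : (fun z => r (q z)) =ᶠ[𝓝 w] id := h
    rw [this.fderiv_eq, fderiv_id]
  have h2 : fderiv ℂ (fun z => r (q z)) w = (fderiv ℂ r (q w)).comp (fderiv ℂ q w) :=
    fderiv_comp _ hr hq
  intro x y hxy
  have h3 := congrArg (fun T : E →L[ℂ] E => T x) (h2.symm.trans h1)
  have h4 := congrArg (fun T : E →L[ℂ] E => T y) (h2.symm.trans h1)
  simp only [ContinuousLinearMap.comp_apply, ContinuousLinearMap.coe_id', id_eq] at h3 h4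
  rw [← h3, ← h4, hxy]

variable {Y : Type} [TopologicalSpace Y] {G : Type} [Group G] [MulAction G Y]

/-- local data for the symmetric sections -/
structure LD (A : Atl n Y) (s : G) where
  i : A.ι
  j : A.ι
  U : Set Y
  hU : IsOpen U
  hi : ∀ u ∈ U, u ∈ (A.e i).source
  hj : ∀ u ∈ U, s • u ∈ (A.e j).source
  hs : (i = j ∧ ∀ u ∈ U, s • u ∈ U) ∨ ∀ u ∈ U, s • u ∉ U

theorem exists_LD [T2Space Y] [ContinuousConstSMul G Y] (A : Atl n Y) {s : G} (hss : s * s = 1)
    (y : Y) : ∃ D : LD A s, y ∈ D.U := by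
  have hss' : ∀ u : Y, s • s • u = u := fun u => by rw [smul_smul, hss, one_smul]
  have hcs : Continuous fun u : Y => s • u := continuous_const_smul s
  by_cases hy : s • y = y
  · obtain ⟨i, hi⟩ := A.cover y
    refine ⟨⟨i, i, (A.e i).source ∩ (fun u => s • u) ⁻¹' (A.e i).source,
      (A.e i).open_source.inter ((A.e i).open_source.preimage hcs), fun u hu => hu.1,
      fun u hu => hu.2, Or.inl ⟨rfl, fun u hu => ⟨hu.2, ?_⟩⟩⟩, hi, ?_⟩
    · rw [mem_preimage]
      simp only [hss']
      exact hu.1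
    · rw [mem_preimage]
      simp only [hy]
      exact hi
  · obtain ⟨i, hi⟩ := A.cover y
    obtain ⟨j, hj⟩ := A.cover (s • y)
    obtain ⟨V, W, hV, hW, hyV, hyW, hVW⟩ := t2_separation (Ne.symm hy)
    refine ⟨⟨i, j, (A.e i).source ∩ (fun u => s • u) ⁻¹' (A.e j).source ∩
      (V ∩ (fun u => s • u) ⁻¹' W),
      ((A.e i).open_source.inter ((A.e j).open_source.preimage hcs)).inter
        (hV.inter (hW.preimage hcs)), fun u hu => hu.1.1,
      fun u hu => hu.1.2, Or.inr fun u hu hsu => ?_⟩, ⟨⟨hi, hj⟩, hyV, hyW⟩⟩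
    exact disjoint_left.1 hVW hsu.2.1 hu.2.2

namespace LD

variable {A : Atl n Y} {s : G} (D : LD A s) (P : ProjD A)

/-- the symmetric matrix upstairs -/
def M (u : Y) : Fin (P.N + 1) × Fin (P.N + 1) → ℂ := sm (P.F D.i u) (P.F D.j (s • u))

theorem M_smul (hss : s * s = 1) (hs : D.i = D.j) (u : Y) : D.M P (s • u) = D.M P u := by
  have hss' : s • s • u = u := by rw [smul_smul, hss, one_smul]
  rw [M, M, hss', hs, sm_comm]

theorem M_congr (hss : s * s = 1) (hG : ∀ g : G, g = 1 ∨ g = s) {u u' : Y} (hu : u ∈ D.U)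
    (hu' : u' ∈ D.U) (h : pr G u = pr G u') : D.M P u = D.M P u' := by
  obtain ⟨g, hg⟩ := pr_eq_iff.1 h
  rcases hG g with rfl | rfl
  · rw [one_smul] at hg
    rw [hg]
  · rcases D.hs with h1 | h1
    · rw [← hg, D.M_smul P hss h1.1]
    · exact absurd (hg ▸ hu') (h1 u hu)

open Classical in
/-- the section downstairs -/
def S (m : Orb G Y) : Fin (P.N + 1) × Fin (P.N + 1) → ℂ :=
  if h : ∃ u ∈ D.U, pr G u = m then D.M P h.choose else 0

theorem S_pr (hss : s * s = 1) (hG : ∀ g : G, g = 1 ∨ g = s) {u : Y} (hu : u ∈ D.U) :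
    D.S P (pr G u) = D.M P u := by
  have h : ∃ u' ∈ D.U, pr G u' = pr G u := ⟨u, hu, rfl⟩
  rw [S, dif_pos h]
  exact D.M_congr P hss hG h.choose_spec.1 hu h.choose_spec.2

variable [ContinuousConstSMul G Y] [Nonempty Y]

/-- holomorphy of the two vectors in adapted charts -/
theorem diff_f (c : RC G (fam A)) {u : Y} (hu : u ∈ D.U) (hc : u ∈ c.e.source) :
    DifferentiableAt ℂ (fun w => P.F D.i (c.e.symm w)) (c.e u) := by
  rw [differentiableAt_pi]
  intro k
  have h0 := P.hol D.i k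
  have h1 : DifferentiableAt ℂ (fun z => P.F D.i ((A.e D.i).symm z) k) (A.e D.i (c.e.symm (c.e u))) := by
    rw [c.e.left_inv hc]
    have h2 := (A.e D.i).map_source (D.hi u hu)
    exact h0.differentiableAt (((A.e D.i).isOpen_inter_preimage_symm isOpen_univ).mem_nhds
      ⟨h2, mem_univ _⟩)
  have h2 : DifferentiableAt ℂ (fun w => A.e D.i (c.e.symm w)) (c.e u) :=
    c.diffAt (HolC.id (fam A)) (j := D.i) hc (D.hi u hu)
  have h3 := DifferentiableAt.comp (c.e u) (g := fun z => P.F D.i ((A.e D.i).symm z) k) h1 h2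
  refine h3.congr_of_eventuallyEq ?_
  have h4 : ∀ᶠ w in 𝓝 (c.e u), c.e.symm w ∈ (A.e D.i).source := by
    refine (c.e.continuousAt_symm (c.e.map_source hc)).preimage_mem_nhds ?_
    rw [c.e.left_inv hc]
    exact (A.e D.i).open_source.mem_nhds (D.hi u hu)
  filter_upwards [h4] with w hw
  simp only [Function.comp]
  rw [(A.e D.i).left_inv hw]

theorem diff_g (hG : ∀ g : G, HolC (fam A) (fam A) (fun y => g • y)) (c : RC G (fam A)) {u : Y}
    (hu : u ∈ D.U) (hc : u ∈ c.e.source) :
    DifferentiableAt ℂ (fun w => P.F D.j (s • c.e.symm w)) (c.e u) := by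
  rw [differentiableAt_pi]
  intro k
  have h0 := P.hol D.j k
  have h1 : DifferentiableAt ℂ (fun z => P.F D.j ((A.e D.j).symm z) k)
      (A.e D.j (s • c.e.symm (c.e u))) := by
    rw [c.e.left_inv hc]
    have h2 := (A.e D.j).map_source (D.hj u hu)
    exact h0.differentiableAt (((A.e D.j).isOpen_inter_preimage_symm isOpen_univ).mem_nhds
      ⟨h2, mem_univ _⟩)
  have h2 : DifferentiableAt ℂ (fun w => A.e D.j (s • c.e.symm w)) (c.e u) :=
    c.diffAt (hG s) (j := D.j) hc (D.hj u hu)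
  have h3 := DifferentiableAt.comp (c.e u) (g := fun z => P.F D.j ((A.e D.j).symm z) k) h1 h2
  refine h3.congr_of_eventuallyEq ?_
  have h4 : ∀ᶠ w in 𝓝 (c.e u), s • c.e.symm w ∈ (A.e D.j).source := by
    have h5 : ContinuousAt (fun w => s • c.e.symm w) (c.e u) :=
      (c.e.continuousAt_symm (c.e.map_source hc)).const_smul s
    refine h5.preimage_mem_nhds ?_
    rw [c.e.left_inv hc]
    exact (A.e D.j).open_source.mem_nhds (D.hj u hu)
  filter_upwards [h4] with w hw
  simp only [Function.comp]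
  rw [(A.e D.j).left_inv hw]

theorem imm_f (c : RC G (fam A)) {u : Y} (hu : u ∈ D.U) (hc : u ∈ c.e.source) :
    ImmAt (fun w => P.F D.i (c.e.symm w)) (c.e u) := by
  have hui := D.hi u hu
  have h0 : ImmAt (fun z => P.F D.i ((A.e D.i).symm z)) (A.e D.i (c.e.symm (c.e u))) := by
    rw [c.e.left_inv hc]
    exact P.imm D.i _ ((A.e D.i).map_source hui)
  have h1 : DifferentiableAt ℂ (fun z => P.F D.i ((A.e D.i).symm z))
      (A.e D.i (c.e.symm (c.e u))) := by
    rw [differentiableAt_pi]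
    intro k
    rw [c.e.left_inv hc]
    exact (P.hol D.i k).differentiableAt (((A.e D.i).isOpen_inter_preimage_symm
      isOpen_univ).mem_nhds ⟨(A.e D.i).map_source hui, mem_univ _⟩)
  have h2 : DifferentiableAt ℂ (fun w => A.e D.i (c.e.symm w)) (c.e u) :=
    c.diffAt (HolC.id (fam A)) (j := D.i) hc hui
  have h3 : DifferentiableAt ℂ (fun w => c.e ((A.e D.i).symm w)) (A.e D.i (c.e.symm (c.e u))) := by
    rw [c.e.left_inv hc]
    exact c.diffAt' (HolC.id (fam A)) (j := D.i) hui hc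
  have h4 : ∀ᶠ w in 𝓝 (c.e u), c.e.symm w ∈ (A.e D.i).source := by
    refine (c.e.continuousAt_symm (c.e.map_source hc)).preimage_mem_nhds ?_
    rw [c.e.left_inv hc]
    exact (A.e D.i).open_source.mem_nhds hui
  have h5 : Function.Injective (fderiv ℂ (fun w => A.e D.i (c.e.symm w)) (c.e u)) := by
    refine injective_fderiv_of_inv h2 h3 ?_
    filter_upwards [h4, c.e.open_target.mem_nhds (c.e.map_source hc)] with w hw hw2
    rw [(A.e D.i).left_inv hw, c.e.right_inv hw2]
  refine (immAt_comp h1 h2 h5 h0).congr ?_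
  filter_upwards [h4] with w hw
  rw [(A.e D.i).left_inv hw]

/-- the section downstairs in the chart `c.eM` -/
theorem continuousOn_S (hss : s * s = 1) (hs : ∀ g : G, g = 1 ∨ g = s)
    (hG : ∀ g : G, HolC (fam A) (fam A) (fun y => g • y))
    (hcov : ∀ y : Y, ∃ c : RC G (fam A), y ∈ c.e.source) :
    ContinuousOn (D.S P) (pr G '' D.U) := by
  have hM : ContinuousOn (D.M P) D.U := by
    intro u hu
    obtain ⟨c, hc⟩ := hcov u
    have h1 : ContinuousAt (fun w => sm (P.F D.i (c.e.symm w)) (P.F D.j (s • c.e.symm w)))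
        (c.e u) := (hasFDerivAt_sm (D.diff_f P c hu hc) (D.diff_g P hG c hu hc)).1.continuousAt
    have h2 : ContinuousAt (fun x => D.M P (c.e.symm (c.e x))) u :=
      h1.comp (f := c.e) (c.e.continuousAt hc)
    refine (h2.congr ?_).continuousWithinAt
    filter_upwards [c.e.open_source.mem_nhds hc] with x hx
    rw [c.e.left_inv hx]
  refine continuousOn_iff'.2 fun t ht => ?_
  obtain ⟨V, hV, hV2⟩ := continuousOn_iff'.1 hM t ht
  refine ⟨pr G '' (V ∩ D.U), isOpenQuotientMap_pr.isOpenMap _ (hV.inter D.hU), ?_⟩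
  ext m
  constructor
  · rintro ⟨h1, u, hu, rfl⟩
    refine ⟨⟨u, ?_, rfl⟩, u, hu, rfl⟩
    rw [← hV2]
    refine ⟨?_, hu⟩
    rw [mem_preimage, ← D.S_pr P hss hs hu]
    exact h1
  · rintro ⟨⟨u, hu, rfl⟩, _⟩
    refine ⟨?_, u, hu.2, rfl⟩
    rw [mem_preimage, D.S_pr P hss hs hu.2]
    rw [← hV2] at hu
    exact hu.1

/-- near an adapted chart `S ∘ pr ∘ c.e.symm` is the symmetric product -/
theorem S_eventually (hss : s * s = 1) (hs : ∀ g : G, g = 1 ∨ g = s) (c : RC G (fam A)) {u : Y}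
    (hu : u ∈ D.U) (hc : u ∈ c.e.source) : ∀ᶠ w in 𝓝 (c.e u), D.S P (pr G (c.e.symm w)) =
      sm (P.F D.i (c.e.symm w)) (P.F D.j (s • c.e.symm w)) := by
  have h4 : ∀ᶠ w in 𝓝 (c.e u), c.e.symm w ∈ D.U := by
    refine (c.e.continuousAt_symm (c.e.map_source hc)).preimage_mem_nhds ?_
    rw [c.e.left_inv hc]
    exact D.hU.mem_nhds hu
  filter_upwards [h4] with w hw
  exact D.S_pr P hss hs hw

theorem diff_S (hss : s * s = 1) (hs : ∀ g : G, g = 1 ∨ g = s)
    (hG : ∀ g : G, HolC (fam A) (fam A) (fun y => g • y))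
    (hcov : ∀ y : Y, ∃ c : RC G (fam A), y ∈ c.e.source) (c : RC G (fam A)) {z : Cn n}
    (hz : z ∈ c.eM.target) (hzU : c.eM.symm z ∈ pr G '' D.U) :
    DifferentiableAt ℂ (fun z => D.S P (c.eM.symm z)) z := by
  refine c.desc (isOpenQuotientMap_pr.isOpenMap _ D.hU) (D.continuousOn_S P hss hs hG hcov)
    (fun u hu huU => ?_) hz hzU
  obtain ⟨u', hu', hu'u⟩ := huU
  obtain ⟨g, hg⟩ := pr_eq_iff.1 hu'u.symm
  have hgu : g • u ∈ D.U := by rw [hg]; exact hu'
  -- pass to an adapted chart at `g • u`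
  obtain ⟨c', hc'⟩ := hcov (g • u)
  have h1 := D.S_eventually P hss hs c' hgu hc'
  have h2 : DifferentiableAt ℂ (fun w => D.S P (pr G (c'.e.symm w))) (c'.e (g • u)) :=
    (hasFDerivAt_sm (D.diff_f P c' hgu hc') (D.diff_g P hG c' hgu hc')).1.congr_of_eventuallyEq h1
  have h3 := RC.diffAt_smul hG c c' g hu hc'
  have h2' : DifferentiableAt ℂ (fun w => D.S P (pr G (c'.e.symm w)))
      (c'.e (g • c.e.symm (c.e u))) := by
    rw [c.e.left_inv hu]; exact h2
  have h4 := DifferentiableAt.comp (c.e u) (g := fun w => D.S P (pr G (c'.e.symm w))) h2' h3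
  refine h4.congr_of_eventuallyEq ?_
  have h5 : ∀ᶠ w in 𝓝 (c.e u), g • c.e.symm w ∈ c'.e.source := by
    have h5 : ContinuousAt (fun w => g • c.e.symm w) (c.e u) :=
      (c.e.continuousAt_symm (c.e.map_source hu)).const_smul g
    refine h5.preimage_mem_nhds ?_
    rw [c.e.left_inv hu]
    exact c'.e.open_source.mem_nhds hc'
  filter_upwards [h5] with w hw
  simp only [Function.comp]
  rw [c'.e.left_inv hw, pr_smul]

/-- **the section is immersive downstairs** -/
theorem imm_S (hs1 : s ≠ 1) (hss : s * s = 1) (hs : ∀ g : G, g = 1 ∨ g = s)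
    (hG : ∀ g : G, HolC (fam A) (fam A) (fun y => g • y))
    (hcov : ∀ y : Y, ∃ c : RC G (fam A), y ∈ c.e.source) (c : RC G (fam A)) {u : Y}
    (hu : u ∈ D.U) (hc : u ∈ c.e.source) :
    ImmAt (fun z => D.S P (c.eM.symm z)) (c.eM (pr G u)) := by
  have hf := D.diff_f P c hu hc
  have hg := D.diff_g P hG c hu hc
  have hfi := D.imm_f P c hu hc
  have hf0 : P.F D.i (c.e.symm (c.e u)) ≠ 0 := by
    rw [c.e.left_inv hc]
    exact P.ne D.i u (D.hi u hu)
  have hS := D.S_eventually P hss hs c hu hc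
  have hdS := D.diff_S P hss hs hG hcov c (z := c.eM (pr G u))
    (c.eM.map_source (c.mem_eM_source hc)) (by
      rw [c.eM.left_inv (c.mem_eM_source hc)]
      exact mem_image_of_mem _ hu)
  have hnp : s • u ≠ u → ¬ ∃ a : ℂ, P.F D.j (s • c.e.symm (c.e u)) =
      a • P.F D.i (c.e.symm (c.e u)) := by
    rintro hne ⟨a, ha⟩
    rw [c.e.left_inv hc] at ha
    exact hne (P.inj D.j D.i _ (D.hj u hu) _ (D.hi u hu) ⟨a, ha⟩)
  have htgt : ∀ᶠ w in 𝓝 (c.e u), w ∈ c.e.target :=
    c.e.open_target.mem_nhds (c.e.map_source hc)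
  rw [c.eM_apply hc] at hdS ⊢
  rcases hk : c.k with _ | ⟨s', a⟩
  · simp only [qk_none, id]
    have hne : s • u ≠ u := fun h => hs1 (c.free hk s u hc (by rw [h]; exact hc))
    refine (immAt_sm hf hg hfi hf0 (hnp hne)).congr ?_
    filter_upwards [hS, htgt] with w hw hw2
    have h2 := c.eM_symm (c.e.map_target hw2)
    rw [c.e.right_inv hw2, hk, qk_none, id] at h2
    rw [h2, hw]
  · have hq : qk c.k = sq a := by rw [hk, qk_some]
    rw [hk] at hdS
    simp only [qk_some] at hdS ⊢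
    have hs' : s' = s := by
      rcases hs s' with h | h
      · exfalso
        -- `rf a` would be the identity on an open set
        have h1 : ∀ᶠ w in 𝓝 (c.e u), rf a w = w := by
          filter_upwards [htgt] with w hw
          have h2 := c.ref s' a hk _ (c.e.map_target hw)
          rw [h, one_smul, c.e.right_inv hw] at h2
          exact h2.symm
        have h2 : ∀ᶠ w in 𝓝 (c.e u), w a = 0 := by
          filter_upwards [h1] with w hw
          have h3 := congrArg (fun z : Cn n => z a) hw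
          simp only [rf_same] at h3
          have h4 : (2 : ℂ) * w a = 0 := by linear_combination -h3
          rcases mul_eq_zero.1 h4 with h5 | h5
          · norm_num at h5
          · exact h5
        have h3 : Tendsto (fun τ : ℂ => c.e u + τ • (EuclideanSpace.single a (1 : ℂ) : Cn n))
            (𝓝 0) (𝓝 (c.e u)) := by
          have : Continuous fun τ : ℂ => c.e u + τ • (EuclideanSpace.single a (1 : ℂ) : Cn n) := by
            fun_prop
          simpa using this.tendsto 0
        have h4 := h3.eventually h2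
        have h5 : (c.e u) a = 0 := h2.self_of_nhds
        have h6 : ∀ᶠ τ : ℂ in 𝓝 0, τ = 0 := by
          filter_upwards [h4] with τ hτ
          simpa [h5] using hτ
        have h7 : ∀ᶠ τ : ℂ in 𝓝[≠] 0, τ = 0 := h6.filter_mono nhdsWithin_le_nhds
        obtain ⟨τ, hτ, hτ0⟩ := (h7.and self_mem_nhdsWithin).exists
        exact hτ0 hτ
      · exact h
    subst hs'
    have hcomp : ∀ᶠ w in 𝓝 (c.e u), D.S P (c.eM.symm (sq a w)) =
        sm (P.F D.i (c.e.symm w)) (P.F D.j (s' • c.e.symm w)) := by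
      filter_upwards [hS, htgt] with w hw hw2
      have h2 := c.eM_symm (c.e.map_target hw2)
      rw [c.e.right_inv hw2, hq] at h2
      rw [h2, hw]
    by_cases hua : (c.e u) a = 0
    · have hfix : s' • u = u := by
        refine c.e.injOn (c.inv s' a hk u hc) hc ?_
        rw [c.ref s' a hk u hc, rf, hua, neg_zero, ← hua, up_self]
      have hij : D.i = D.j := by
        rcases D.hs with h1 | h1
        · exact h1.1
        · exact absurd (by rw [hfix]; exact hu) (h1 u hu)
      refine immAt_mirror hua hf hfi hf0 hdS ?_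
      filter_upwards [hcomp, htgt] with w hw hw2
      rw [hw, ← hij]
      congr 2
      have h3 : c.e.symm (rf a w) = s' • c.e.symm w := by
        have h4 := c.ref s' a hk _ (c.e.map_target hw2)
        rw [c.e.right_inv hw2] at h4
        rw [← h4, c.e.left_inv (c.inv s' a hk _ (c.e.map_target hw2))]
      rw [h3]
    · have hne : s' • u ≠ u := by
        intro h
        have h1 := c.ref s' a hk u hc
        rw [h] at h1
        have h3 := congrArg (fun z : Cn n => z a) h1
        simp only [rf_same] at h3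
        have h4 : (2 : ℂ) * (c.e u) a = 0 := by linear_combination h3
        rcases mul_eq_zero.1 h4 with h5 | h5
        · norm_num at h5
        · exact hua h5
      refine immAt_of_comp (q := sq a) hdS (differentiable_sq a _) (surjective_fderiv_sq a hua) ?_
      refine (immAt_sm hf hg hfi hf0 (hnp hne)).congr ?_
      filter_upwards [hcomp] with w hw
      exact hw.symm

end LD

end

end Crest.Agent.R272.Refl_246
end

-- ▼ part R272/Refl8_246
section

/-!
# R272, leaf MOD-REFL (helper246), part 8: the quotient of a projective manifold by a group of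
order two with reflection-like fixed points is projective

`exists_quot_projD` : `G = {1, s}`, adapted charts everywhere, `ProjD` upstairs ⟹ the orbit space
has a finite good atlas `B`, compatible with `qFam`, with `ProjD B`;
`exists_quot_involution` : the same for a holomorphic involution `σ : Y → Y`, the hypothesis at the
fixed points being on the derivative only (a reflection `w ↦ w - ℓ w • v`, `ℓ v = 2`).
-/

set_option autoImplicit false
set_option linter.unusedSectionVars false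

open Set Filter Topology Matrix
open scoped ContDiff

namespace Crest.Agent.R272.Refl_246

open Crest.Agent.R275.Geo Crest.Agent.R275.GC293 Crest.Agent.R275.Core144
open Crest.Agent.R273.Fam_835 Crest.Agent.R273.Map_835 Crest.Agent.R273.Defs_333

noncomputable section

variable {n : ℕ}

/-! ### transfer between compatible families -/

section transfer

variable {Q : Type} [TopologicalSpace Q] {B D : Fam n Q}



theorem ImmAt.reindex {κ κ' : Type} [Fintype κ] [DecidableEq κ] [Fintype κ'] [DecidableEq κ']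
    (e : κ' ≃ κ) {f : Cn n → κ → ℂ} {z : Cn n} (hf : DifferentiableAt ℂ f z) (h : ImmAt f z) :
    ImmAt (fun w a => f w (e a)) z := by
  rintro v ⟨c, hc⟩
  have h1 : HasFDerivAt (fun w (a : κ') => f w (e a))
      (ContinuousLinearMap.pi fun a : κ' =>
        (ContinuousLinearMap.proj (e a)).comp (fderiv ℂ f z)) z := by
    rw [hasFDerivAt_pi]
    intro a
    exact (ContinuousLinearMap.proj (e a) : (κ → ℂ) →L[ℂ] ℂ).hasFDerivAt.comp z hf.hasFDerivAt
  rw [h1.fderiv] at hc
  refine h v ⟨c, funext fun k => ?_⟩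
  have h2 := congrFun hc (e.symm k)
  simp only [ContinuousLinearMap.coe_pi', ContinuousLinearMap.comp_apply,
    ContinuousLinearMap.proj_apply, Equiv.apply_symm_apply, Pi.smul_apply] at h2
  exact h2

end transfer

/-- pairs as an interval -/
def idx (N : ℕ) : Fin (N * (N + 2) + 1) ≃ Fin (N + 1) × Fin (N + 1) :=
  (finCongr (by ring)).trans finProdFinEquiv.symm

variable {Y : Type} [TopologicalSpace Y] {G : Type} [Group G] [MulAction G Y]
  [ContinuousConstSMul G Y] [Nonempty Y]


end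

end Crest.Agent.R272.Refl_246
end

-- ▼ part R272/Refl9_246
section

/-!
# R272, leaf MOD-REFL (helper246), part 9: the quotient by a holomorphic involution

`exists_quot_involution` : `Y` compact Hausdorff, `A : Atl n Y`, `P : ProjD A`, `σ` a holomorphic
involution which is not the identity and whose derivative at every fixed point is a reflection
`w ↦ w - ℓ w • v` (`ℓ v = 2`) ⟹ the quotient `Q = Y/σ` is a compact Hausdorff complex manifold with
a finite good atlas `B`, `ProjD B`, open holomorphic quotient map `q`; invariant holomorphic maps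
descend; `q` is locally biholomorphic off the fixed points.
-/

set_option autoImplicit false
set_option linter.unusedSectionVars false

open Set Filter Topology
open scoped ContDiff

namespace Crest.Agent.R272.Refl_246

open Crest.Agent.R275.Geo Crest.Agent.R275.GC293 Crest.Agent.R275.Core144
open Crest.Agent.R273.Fam_835 Crest.Agent.R273.Map_835 Crest.Agent.R273.Defs_333

noncomputable section

variable {n : ℕ}

/-- finiteness -/
theorem finite_of_two {G : Type} [Group G] {s : G} (hs : ∀ g : G, g = 1 ∨ g = s) : Finite G := by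
  refine Finite.of_surjective (fun b : Bool => if b then (1 : G) else s) fun g => ?_
  rcases hs g with h | h
  · exact ⟨true, by simp [h]⟩
  · exact ⟨false, by simp [h]⟩

section loc

variable {Y : Type} [TopologicalSpace Y] {G : Type} [Group G] [MulAction G Y]
  [ContinuousConstSMul G Y] [Nonempty Y] {C : Fam n Y}


end loc


end

end Crest.Agent.R272.Refl_246
namespace Crest.Agent.R272.Refl_246.RC
end Crest.Agent.R272.Refl_246.RC
end

-- ▼ part R272/Refl10_246
section

/-!
# R272, leaf MOD-QLB (helper246), part 10: the quotient by a holomorphic involution, with the line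
bundle

`exists_projD_quot` : `(Z, B, q)` any quotient of `Y` by `σ` (open quotient map, fibres `{y, σ y}`,
holomorphic, universal property), `P : ProjD A`, `Q : LB B`, `T : PB q (lb P) Q` ⟹
`∃ P' : ProjD B, lb P' = Q ^ 2`;  `exists_pos_quot` : `∃ h : HM (Q ^ 2), h.Pos`.
-/

set_option autoImplicit false
set_option linter.unusedSectionVars false

open Set Filter Topology
open scoped ContDiff

namespace Crest.Agent.R272.Refl_246

open Crest.Agent.R275.Geo Crest.Agent.R275.GC293 Crest.Agent.R275.Core144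
open Crest.Agent.R273.Fam_835 Crest.Agent.R273.Map_835 Crest.Agent.R273.Defs_333
open Crest.Agent.R273.FS_333 Crest.Agent.R273.PB_835

noncomputable section

variable {n : ℕ}

/-! ### more transfer lemmas -/

section transfer

variable {Q Q' : Type} [TopologicalSpace Q] [TopologicalSpace Q'] {B : Fam n Q} {D : Fam n Q'}
  {k : Q → Q'} {h : Q' → Q}

theorem diffAt_pull {F : Type} [NormedAddCommGroup F] [NormedSpace ℂ F] (hk : HolC B D k)
    {f : Q' → F} {m : Q} {b : B.ι} {c : D.ι} (hb : m ∈ (B.e b).source)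
    (hc : k m ∈ (D.e c).source)
    (hd : DifferentiableAt ℂ (fun z => f ((D.e c).symm z)) (D.e c (k m))) :
    DifferentiableAt ℂ (fun z => f (k ((B.e b).symm z))) (B.e b m) := by
  have h1 : DifferentiableAt ℂ (fun z => D.e c (k ((B.e b).symm z))) (B.e b m) :=
    hk.diffAt (i := b) (j := c) ((B.e b).map_source hb) (by rw [(B.e b).left_inv hb]; exact hc)
  have h2 : DifferentiableAt ℂ (fun z => f ((D.e c).symm z))
      (D.e c (k ((B.e b).symm (B.e b m)))) := by
    rw [(B.e b).left_inv hb]; exact hd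
  have h3 := DifferentiableAt.comp (B.e b m) (g := fun z => f ((D.e c).symm z)) h2 h1
  refine h3.congr_of_eventuallyEq ?_
  have h4 : ∀ᶠ w in 𝓝 (B.e b m), k ((B.e b).symm w) ∈ (D.e c).source := by
    have h5 : ContinuousAt (fun w => k ((B.e b).symm w)) (B.e b m) :=
      hk.cont.continuousAt.comp ((B.e b).continuousAt_symm ((B.e b).map_source hb))
    refine h5.preimage_mem_nhds ?_
    rw [(B.e b).left_inv hb]
    exact (D.e c).open_source.mem_nhds hc
  filter_upwards [h4] with w hw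
  simp only [Function.comp]
  rw [(D.e c).left_inv hw]

theorem immAt_pull {κ : Type} [Fintype κ] [DecidableEq κ] (hk : HolC B D k) (hh : HolC D B h)
    (hhk : ∀ m, h (k m) = m)
    {f : Q' → κ → ℂ} {m : Q} {b : B.ι} {c : D.ι} (hb : m ∈ (B.e b).source)
    (hc : k m ∈ (D.e c).source)
    (hd : DifferentiableAt ℂ (fun z => f ((D.e c).symm z)) (D.e c (k m)))
    (hi : ImmAt (fun z => f ((D.e c).symm z)) (D.e c (k m))) :
    ImmAt (fun z => f (k ((B.e b).symm z))) (B.e b m) := by
  have h1 : DifferentiableAt ℂ (fun z => D.e c (k ((B.e b).symm z))) (B.e b m) :=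
    hk.diffAt (i := b) (j := c) ((B.e b).map_source hb) (by rw [(B.e b).left_inv hb]; exact hc)
  have h1' : DifferentiableAt ℂ (fun z => B.e b (h ((D.e c).symm z)))
      (D.e c (k ((B.e b).symm (B.e b m)))) := by
    rw [(B.e b).left_inv hb]
    refine hh.diffAt (i := c) (j := b) ((D.e c).map_source hc) ?_
    rw [(D.e c).left_inv hc, hhk]
    exact hb
  have h2 : DifferentiableAt ℂ (fun z => f ((D.e c).symm z))
      (D.e c (k ((B.e b).symm (B.e b m)))) := by
    rw [(B.e b).left_inv hb]; exact hd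
  have h4 : ∀ᶠ w in 𝓝 (B.e b m), k ((B.e b).symm w) ∈ (D.e c).source := by
    have h5 : ContinuousAt (fun w => k ((B.e b).symm w)) (B.e b m) :=
      hk.cont.continuousAt.comp ((B.e b).continuousAt_symm ((B.e b).map_source hb))
    refine h5.preimage_mem_nhds ?_
    rw [(B.e b).left_inv hb]
    exact (D.e c).open_source.mem_nhds hc
  have h5 : Function.Injective (fderiv ℂ (fun z => D.e c (k ((B.e b).symm z))) (B.e b m)) := by
    refine injective_fderiv_of_inv h1 h1' ?_
    filter_upwards [h4, (B.e b).open_target.mem_nhds ((B.e b).map_source hb)] with w hw hw2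
    rw [(D.e c).left_inv hw, hhk, (B.e b).right_inv hw2]
  have hi' : ImmAt (fun z => f ((D.e c).symm z)) (D.e c (k ((B.e b).symm (B.e b m)))) := by
    rw [(B.e b).left_inv hb]; exact hi
  refine (immAt_comp h2 h1 h5 hi').congr ?_
  filter_upwards [h4] with w hw
  rw [(D.e c).left_inv hw]

/-- multiplication by a nonvanishing function -/
theorem ImmAt.smul {κ : Type} [Fintype κ] [DecidableEq κ] {f : Cn n → κ → ℂ} {a : Cn n → ℂ}
    {z : Cn n} (ha : DifferentiableAt ℂ a z) (ha0 : a z ≠ 0) (hf : DifferentiableAt ℂ f z)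
    (hi : ImmAt f z) : ImmAt (fun w => a w • f w) z := by
  rintro v ⟨c, hc⟩
  have h1 := (ha.hasFDerivAt.smul hf.hasFDerivAt).fderiv
  have h2 : fderiv ℂ (fun w => a w • f w) z v = a z • fderiv ℂ f z v + fderiv ℂ a z v • f z := by
    change fderiv ℂ (a • f) z v = _
    rw [h1]
    rfl
  rw [h2] at hc
  refine hi v ⟨c - (a z)⁻¹ * fderiv ℂ a z v, ?_⟩
  have h3 : a z • fderiv ℂ f z v = (c * a z - fderiv ℂ a z v) • f z := by
    rw [sub_smul, mul_smul, ← hc]
    abel
  have h4 : fderiv ℂ f z v = (a z)⁻¹ • (a z • fderiv ℂ f z v) := by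
    rw [smul_smul, inv_mul_cancel₀ ha0, one_smul]
  rw [h4, h3, smul_smul]
  congr 1
  field_simp

end transfer

/-! ### sections over stable open sets -/

variable {Y : Type} [TopologicalSpace Y] {G : Type} [Group G] [MulAction G Y]

/-- data for the symmetric sections over an `s`-stable open set -/
structure SD (A : Atl n Y) (s : G) (κ : Type) [Fintype κ] [DecidableEq κ] where
  f : Y → κ → ℂ
  U : Set Y
  hU : IsOpen U
  st : ∀ u ∈ U, s • u ∈ U
  hol : ∀ i, ∀ u ∈ U, u ∈ (A.e i).source →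
    DifferentiableAt ℂ (fun z => f ((A.e i).symm z)) (A.e i u)
  imm : ∀ i, ∀ u ∈ U, u ∈ (A.e i).source → ImmAt (fun z => f ((A.e i).symm z)) (A.e i u)
  ne : ∀ u ∈ U, f u ≠ 0
  inj : ∀ u ∈ U, ∀ u' ∈ U, (∃ c : ℂ, f u = c • f u') → u = u'

namespace SD

variable {A : Atl n Y} {s : G} {κ : Type} [Fintype κ] [DecidableEq κ] (D : SD A s κ)

/-- the symmetric matrix upstairs -/
def M (u : Y) : κ × κ → ℂ := sm (D.f u) (D.f (s • u))

theorem M_smul (hss : s * s = 1) (u : Y) : D.M (s • u) = D.M u := by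
  have hss' : s • s • u = u := by rw [smul_smul, hss, one_smul]
  rw [M, M, hss', sm_comm]

/-- the section downstairs -/
def S (m : Orb G Y) : κ × κ → ℂ := D.M (Quotient.out m)

theorem S_pr (hss : s * s = 1) (hG : ∀ g : G, g = 1 ∨ g = s) (u : Y) : D.S (pr G u) = D.M u := by
  have h1 : pr G (Quotient.out (pr G u)) = pr G u := Quotient.out_eq (pr G u)
  obtain ⟨g, hg⟩ := pr_eq_iff.1 h1
  rw [S]
  rcases hG g with h | h
  · rw [h, one_smul] at hg
    rw [hg]
  · rw [h] at hg
    rw [← hg, D.M_smul hss]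
    congr 1
    rw [hg]

variable [ContinuousConstSMul G Y] [Nonempty Y]

theorem diff_f (c : RC G (fam A)) {u : Y} (hu : u ∈ D.U) (hc : u ∈ c.e.source) :
    DifferentiableAt ℂ (fun w => D.f (c.e.symm w)) (c.e u) := by
  obtain ⟨i, hi⟩ := A.cover u
  have h1 : DifferentiableAt ℂ (fun z => D.f ((A.e i).symm z)) (A.e i (c.e.symm (c.e u))) := by
    rw [c.e.left_inv hc]
    exact D.hol i u hu hi
  have h2 : DifferentiableAt ℂ (fun w => A.e i (c.e.symm w)) (c.e u) :=
    c.diffAt (HolC.id (fam A)) (j := i) hc hi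
  have h3 := DifferentiableAt.comp (c.e u) (g := fun z => D.f ((A.e i).symm z)) h1 h2
  refine h3.congr_of_eventuallyEq ?_
  have h4 : ∀ᶠ w in 𝓝 (c.e u), c.e.symm w ∈ (A.e i).source := by
    refine (c.e.continuousAt_symm (c.e.map_source hc)).preimage_mem_nhds ?_
    rw [c.e.left_inv hc]
    exact (A.e i).open_source.mem_nhds hi
  filter_upwards [h4] with w hw
  simp only [Function.comp]
  rw [(A.e i).left_inv hw]

theorem diff_g (hG : ∀ g : G, HolC (fam A) (fam A) (fun y => g • y)) (c : RC G (fam A)) {u : Y}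
    (hu : u ∈ D.U) (hc : u ∈ c.e.source) :
    DifferentiableAt ℂ (fun w => D.f (s • c.e.symm w)) (c.e u) := by
  obtain ⟨j, hj⟩ := A.cover (s • u)
  have h1 : DifferentiableAt ℂ (fun z => D.f ((A.e j).symm z))
      (A.e j (s • c.e.symm (c.e u))) := by
    rw [c.e.left_inv hc]
    exact D.hol j _ (D.st u hu) hj
  have h2 : DifferentiableAt ℂ (fun w => A.e j (s • c.e.symm w)) (c.e u) :=
    c.diffAt (hG s) (j := j) hc hj
  have h3 := DifferentiableAt.comp (c.e u) (g := fun z => D.f ((A.e j).symm z)) h1 h2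
  refine h3.congr_of_eventuallyEq ?_
  have h4 : ∀ᶠ w in 𝓝 (c.e u), s • c.e.symm w ∈ (A.e j).source := by
    have h5 : ContinuousAt (fun w => s • c.e.symm w) (c.e u) :=
      (c.e.continuousAt_symm (c.e.map_source hc)).const_smul s
    refine h5.preimage_mem_nhds ?_
    rw [c.e.left_inv hc]
    exact (A.e j).open_source.mem_nhds hj
  filter_upwards [h4] with w hw
  simp only [Function.comp]
  rw [(A.e j).left_inv hw]

theorem imm_f (c : RC G (fam A)) {u : Y} (hu : u ∈ D.U) (hc : u ∈ c.e.source) :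
    ImmAt (fun w => D.f (c.e.symm w)) (c.e u) := by
  obtain ⟨i, hi⟩ := A.cover u
  have h0 : ImmAt (fun z => D.f ((A.e i).symm z)) (A.e i (c.e.symm (c.e u))) := by
    rw [c.e.left_inv hc]
    exact D.imm i u hu hi
  have h1 : DifferentiableAt ℂ (fun z => D.f ((A.e i).symm z)) (A.e i (c.e.symm (c.e u))) := by
    rw [c.e.left_inv hc]
    exact D.hol i u hu hi
  have h2 : DifferentiableAt ℂ (fun w => A.e i (c.e.symm w)) (c.e u) :=
    c.diffAt (HolC.id (fam A)) (j := i) hc hi
  have h3 : DifferentiableAt ℂ (fun w => c.e ((A.e i).symm w)) (A.e i (c.e.symm (c.e u))) := by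
    rw [c.e.left_inv hc]
    exact c.diffAt' (HolC.id (fam A)) (j := i) hi hc
  have h4 : ∀ᶠ w in 𝓝 (c.e u), c.e.symm w ∈ (A.e i).source := by
    refine (c.e.continuousAt_symm (c.e.map_source hc)).preimage_mem_nhds ?_
    rw [c.e.left_inv hc]
    exact (A.e i).open_source.mem_nhds hi
  have h5 : Function.Injective (fderiv ℂ (fun w => A.e i (c.e.symm w)) (c.e u)) := by
    refine injective_fderiv_of_inv h2 h3 ?_
    filter_upwards [h4, c.e.open_target.mem_nhds (c.e.map_source hc)] with w hw hw2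
    rw [(A.e i).left_inv hw, c.e.right_inv hw2]
  refine (immAt_comp h1 h2 h5 h0).congr ?_
  filter_upwards [h4] with w hw
  rw [(A.e i).left_inv hw]

theorem continuousOn_S (hss : s * s = 1) (hs : ∀ g : G, g = 1 ∨ g = s)
    (hG : ∀ g : G, HolC (fam A) (fam A) (fun y => g • y))
    (hcov : ∀ y : Y, ∃ c : RC G (fam A), y ∈ c.e.source) :
    ContinuousOn D.S (pr G '' D.U) := by
  have hM : ContinuousOn D.M D.U := by
    intro u hu
    obtain ⟨c, hc⟩ := hcov u
    have h1 : ContinuousAt (fun w => sm (D.f (c.e.symm w)) (D.f (s • c.e.symm w)))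
        (c.e u) := (hasFDerivAt_sm (D.diff_f c hu hc) (D.diff_g hG c hu hc)).1.continuousAt
    have h2 : ContinuousAt (fun x => D.M (c.e.symm (c.e x))) u :=
      h1.comp (f := c.e) (c.e.continuousAt hc)
    refine (h2.congr ?_).continuousWithinAt
    filter_upwards [c.e.open_source.mem_nhds hc] with x hx
    rw [c.e.left_inv hx]
  refine continuousOn_iff'.2 fun t ht => ?_
  obtain ⟨V, hV, hV2⟩ := continuousOn_iff'.1 hM t ht
  refine ⟨pr G '' (V ∩ D.U), isOpenQuotientMap_pr.isOpenMap _ (hV.inter D.hU), ?_⟩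
  ext m
  constructor
  · rintro ⟨h1, u, hu, rfl⟩
    refine ⟨⟨u, ?_, rfl⟩, u, hu, rfl⟩
    rw [← hV2]
    refine ⟨?_, hu⟩
    rw [mem_preimage, ← D.S_pr hss hs u]
    exact h1
  · rintro ⟨⟨u, hu, rfl⟩, _⟩
    refine ⟨?_, u, hu.2, rfl⟩
    rw [mem_preimage, D.S_pr hss hs u]
    rw [← hV2] at hu
    exact hu.1

theorem S_eventually (hss : s * s = 1) (hs : ∀ g : G, g = 1 ∨ g = s) (c : RC G (fam A)) (u : Y) :
    ∀ᶠ w in 𝓝 (c.e u), D.S (pr G (c.e.symm w)) =
      sm (D.f (c.e.symm w)) (D.f (s • c.e.symm w)) :=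
  Eventually.of_forall fun _ => D.S_pr hss hs _

theorem diff_S (hss : s * s = 1) (hs : ∀ g : G, g = 1 ∨ g = s)
    (hG : ∀ g : G, HolC (fam A) (fam A) (fun y => g • y))
    (hcov : ∀ y : Y, ∃ c : RC G (fam A), y ∈ c.e.source) (c : RC G (fam A)) {z : Cn n}
    (hz : z ∈ c.eM.target) (hzU : c.eM.symm z ∈ pr G '' D.U) :
    DifferentiableAt ℂ (fun z => D.S (c.eM.symm z)) z := by
  refine c.desc (isOpenQuotientMap_pr.isOpenMap _ D.hU) (D.continuousOn_S hss hs hG hcov)
    (fun u hu huU => ?_) hz hzU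
  obtain ⟨u', hu', hu'u⟩ := huU
  obtain ⟨g, hg⟩ := pr_eq_iff.1 hu'u
  have huU : u ∈ D.U := by
    rcases hs g with h | h
    · rw [h, one_smul] at hg
      rw [← hg]; exact hu'
    · rw [← hg, h]
      exact D.st _ hu'
  exact (hasFDerivAt_sm (D.diff_f c huU hu) (D.diff_g hG c huU hu)).1.congr_of_eventuallyEq
    (D.S_eventually hss hs c u)

/-- the chart of type `some (s', a)` has `s' = s` -/
theorem eq_of_some (hs : ∀ g : G, g = 1 ∨ g = s) (c : RC G (fam A)) {u : Y}
    (hc : u ∈ c.e.source) {s' : G} {a : Fin n} (hk : c.k = some (s', a)) : s' = s := by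
  have htgt : ∀ᶠ w in 𝓝 (c.e u), w ∈ c.e.target :=
    c.e.open_target.mem_nhds (c.e.map_source hc)
  rcases hs s' with h | h
  · exfalso
    have h1 : ∀ᶠ w in 𝓝 (c.e u), rf a w = w := by
      filter_upwards [htgt] with w hw
      have h2 := c.ref s' a hk _ (c.e.map_target hw)
      rw [h, one_smul, c.e.right_inv hw] at h2
      exact h2.symm
    have h2 : ∀ᶠ w in 𝓝 (c.e u), w a = 0 := by
      filter_upwards [h1] with w hw
      have h3 := congrArg (fun z : Cn n => z a) hw
      simp only [rf_same] at h3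
      have h4 : (2 : ℂ) * w a = 0 := by linear_combination -h3
      rcases mul_eq_zero.1 h4 with h5 | h5
      · norm_num at h5
      · exact h5
    have h3 : Tendsto (fun τ : ℂ => c.e u + τ • (EuclideanSpace.single a (1 : ℂ) : Cn n))
        (𝓝 0) (𝓝 (c.e u)) := by
      have : Continuous fun τ : ℂ => c.e u + τ • (EuclideanSpace.single a (1 : ℂ) : Cn n) := by
        fun_prop
      simpa using this.tendsto 0
    have h4 := h3.eventually h2
    have h5 : (c.e u) a = 0 := h2.self_of_nhds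
    have h6 : ∀ᶠ τ : ℂ in 𝓝 0, τ = 0 := by
      filter_upwards [h4] with τ hτ
      simpa [h5] using hτ
    have h7 : ∀ᶠ τ : ℂ in 𝓝[≠] 0, τ = 0 := h6.filter_mono nhdsWithin_le_nhds
    obtain ⟨τ, hτ, hτ0⟩ := (h7.and self_mem_nhdsWithin).exists
    exact hτ0 hτ
  · exact h

theorem imm_S (hs1 : s ≠ 1) (hss : s * s = 1) (hs : ∀ g : G, g = 1 ∨ g = s)
    (hG : ∀ g : G, HolC (fam A) (fam A) (fun y => g • y))
    (hcov : ∀ y : Y, ∃ c : RC G (fam A), y ∈ c.e.source) (c : RC G (fam A)) {u : Y}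
    (hu : u ∈ D.U) (hc : u ∈ c.e.source) :
    ImmAt (fun z => D.S (c.eM.symm z)) (c.eM (pr G u)) := by
  have hf := D.diff_f c hu hc
  have hg := D.diff_g hG c hu hc
  have hfi := D.imm_f c hu hc
  have hf0 : D.f (c.e.symm (c.e u)) ≠ 0 := by
    rw [c.e.left_inv hc]
    exact D.ne u hu
  have hS := D.S_eventually hss hs c u
  have hdS := D.diff_S hss hs hG hcov c (z := c.eM (pr G u))
    (c.eM.map_source (c.mem_eM_source hc)) (by
      rw [c.eM.left_inv (c.mem_eM_source hc)]
      exact mem_image_of_mem _ hu)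
  have hnp : s • u ≠ u → ¬ ∃ a : ℂ, D.f (s • c.e.symm (c.e u)) =
      a • D.f (c.e.symm (c.e u)) := by
    rintro hne ⟨a, ha⟩
    rw [c.e.left_inv hc] at ha
    exact hne (D.inj _ (D.st u hu) _ hu ⟨a, ha⟩)
  have htgt : ∀ᶠ w in 𝓝 (c.e u), w ∈ c.e.target :=
    c.e.open_target.mem_nhds (c.e.map_source hc)
  rw [c.eM_apply hc] at hdS ⊢
  rcases hk : c.k with _ | ⟨s', a⟩
  · simp only [qk_none, id]
    have hne : s • u ≠ u := fun h => hs1 (c.free hk s u hc (by rw [h]; exact hc))
    refine (immAt_sm hf hg hfi hf0 (hnp hne)).congr ?_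
    filter_upwards [hS, htgt] with w hw hw2
    have h2 := c.eM_symm (c.e.map_target hw2)
    rw [c.e.right_inv hw2, hk, qk_none, id] at h2
    rw [h2, hw]
  · have hq : qk c.k = sq a := by rw [hk, qk_some]
    rw [hk] at hdS
    simp only [qk_some] at hdS ⊢
    have hs' : s' = s := eq_of_some hs c hc hk
    subst hs'
    have hcomp : ∀ᶠ w in 𝓝 (c.e u), D.S (c.eM.symm (sq a w)) =
        sm (D.f (c.e.symm w)) (D.f (s' • c.e.symm w)) := by
      filter_upwards [hS, htgt] with w hw hw2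
      have h2 := c.eM_symm (c.e.map_target hw2)
      rw [c.e.right_inv hw2, hq] at h2
      rw [h2, hw]
    by_cases hua : (c.e u) a = 0
    · refine immAt_mirror hua hf hfi hf0 hdS ?_
      filter_upwards [hcomp, htgt] with w hw hw2
      rw [hw]
      have h3 : c.e.symm (rf a w) = s' • c.e.symm w := by
        have h4 := c.ref s' a hk _ (c.e.map_target hw2)
        rw [c.e.right_inv hw2] at h4
        rw [← h4, c.e.left_inv (c.inv s' a hk _ (c.e.map_target hw2))]
      rw [h3]
    · have hne : s' • u ≠ u := by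
        intro h
        have h1 := c.ref s' a hk u hc
        rw [h] at h1
        have h3 := congrArg (fun z : Cn n => z a) h1
        simp only [rf_same] at h3
        have h4 : (2 : ℂ) * (c.e u) a = 0 := by linear_combination h3
        rcases mul_eq_zero.1 h4 with h5 | h5
        · norm_num at h5
        · exact hua h5
      refine immAt_of_comp (q := sq a) hdS (differentiable_sq a _) (surjective_fderiv_sq a hua) ?_
      refine (immAt_sm hf hg hfi hf0 (hnp hne)).congr ?_
      filter_upwards [hcomp] with w hw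
      exact hw.symm

end SD

end

end Crest.Agent.R272.Refl_246
end

-- ▼ part R272/BBase1_246
section

/-!
# R272, leaf B-BASE (helper246), part 1: quotients by an involution, `Fam` language

`exists_atl_projD` : `Y` (T2) with an atlas `A` and `P : ProjD A`, `σ` a holomorphic involution with
`ReflAt` at every fixed point, `(Z, CZ, q)` any quotient of `Y` by `σ` with the universal property,
`Z` compact T2 ⟹ a finite good atlas `B` of `Z`, compatible with `CZ`, with `ProjD B`.
-/

set_option autoImplicit false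
set_option linter.unusedSectionVars false

open Set Filter Topology
open scoped ContDiff

namespace Crest.Agent.R272.BBase_246

open Crest.Agent.R275.Geo Crest.Agent.R275.GC293 Crest.Agent.R275.Core144
open Crest.Agent.R273.Fam_835 Crest.Agent.R273.Map_835 Crest.Agent.R273.Defs_333
open Crest.Agent.R272.Refl_246 Crest.Agent.R272.MQ_783

noncomputable section

variable {n : ℕ}

section cpt

variable {M : Type} [TopologicalSpace M] {C D : Fam n M}



end cpt

/-- the group of order two generated by an involution -/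
theorem exists_group' {Y : Type} [TopologicalSpace Y] [T2Space Y] [Nonempty Y] {C : Fam n Y}
    {σ : Y → Y} (hσ : HolC C C σ) (hσσ : ∀ y, σ (σ y) = y) (hne : ∃ y, σ y ≠ y)
    (hfix : ∀ y, σ y = y → ReflAt C σ y) :
    ∃ (G : Type) (_ : Group G) (_ : MulAction G Y) (_ : ContinuousConstSMul G Y) (s : G), s ≠ 1 ∧
      s * s = 1 ∧ (∀ g : G, g = 1 ∨ g = s) ∧ (∀ y : Y, s • y = σ y) ∧
      (∀ g : G, HolC C C (fun y => g • y)) ∧ ∀ y : Y, ∃ c : RC G C, y ∈ c.e.source := by
  classical
  let τ : Equiv.Perm Y := ⟨σ, σ, hσσ, hσσ⟩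
  have hτ : τ ^ (2 : ℤ) = 1 := by
    ext y
    rw [zpow_ofNat, pow_two]
    exact hσσ y
  let G := Subgroup.zpowers τ
  let s : G := ⟨τ, Subgroup.mem_zpowers τ⟩
  have hsm : ∀ y : Y, s • y = σ y := fun y => rfl
  have hs : ∀ g : G, g = 1 ∨ g = s := by
    rintro ⟨g, hg⟩
    obtain ⟨k, rfl⟩ := Subgroup.mem_zpowers_iff.1 hg
    rcases Int.even_or_odd' k with ⟨j, rfl | rfl⟩
    · left
      apply Subtype.ext
      change τ ^ (2 * j) = 1
      rw [zpow_mul, hτ, one_zpow]
    · right
      apply Subtype.ext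
      change τ ^ (2 * j + 1) = τ
      rw [zpow_add, zpow_mul, hτ, one_zpow, one_mul, zpow_one]
  have hs1 : s ≠ 1 := by
    intro h
    obtain ⟨y, hy⟩ := hne
    exact hy (by rw [← hsm, h, one_smul])
  have hss : s * s = 1 := by
    rcases hs (s * s) with h | h
    · exact h
    · exact absurd (mul_eq_left.1 h) hs1
  have _ := finite_of_two hs
  have hcc : ContinuousConstSMul G Y := ⟨fun g => by
    rcases hs g with h | h
    · rw [h]
      simp only [one_smul]
      exact continuous_id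
    · rw [h]
      exact hσ.cont⟩
  have hG : ∀ g : G, HolC C C (fun y => g • y) := by
    intro g
    rcases hs g with h | h
    · rw [h]
      simp only [one_smul]
      exact HolC.id _
    · rw [h]
      exact hσ
  refine ⟨G, inferInstance, inferInstance, hcc, s, hs1, hss, hs, hsm, hG, fun y => ?_⟩
  have hpd : PD G y := pd_of_finite y univ_mem (Set.toFinite _)
  by_cases hy : σ y = y
  · obtain ⟨φ, hφ, hi, ℓ, v, hv, hd⟩ := hfix y hy
    exact exists_RC_deriv hpd hss (fun g _ => hs g) hy (hG s) hφ hi ℓ v hv hd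
  · refine exists_RC_free hpd fun g hg => ?_
    rcases hs g with h | h
    · exact h
    · exact absurd (by rw [h] at hg; exact hg) hy

/-- **quotient by an involution** -/
theorem exists_atl_projD {Y Z : Type} [TopologicalSpace Y] [T2Space Y] [Nonempty Y]
    [TopologicalSpace Z] [T2Space Z] [CompactSpace Z] {A : Atl n Y} (P : ProjD A) {σ : Y → Y}
    (hσ : HolC (fam A) (fam A) σ) (hσσ : ∀ y, σ (σ y) = y) (hne : ∃ y, σ y ≠ y)
    (hfix : ∀ y, σ y = y → ReflAt (fam A) σ y)
    {q : Y → Z} (hq : IsOpenQuotientMap q) (hfib : ∀ y y', q y = q y' ↔ y = y' ∨ σ y = y')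
    {CZ : Fam n Z} (hqh : HolC (fam A) CZ q)
    (huniv : ∀ {m : ℕ} {N : Type} [TopologicalSpace N] {D : Fam m N} {f : Z → N},
      HolC (fam A) D (fun y => f (q y)) → HolC CZ D f) :
    ∃ B : Atl n Z, Finite B.ι ∧ GoodA B ∧ Nonempty (Part B) ∧ HolC (fam B) CZ id ∧
      HolC CZ (fam B) id ∧ Nonempty (ProjD B) := by
  classical
  obtain ⟨G, _, _, _, s, hs1, hss, hs, hsm, hG, hcov⟩ := exists_group' hσ hσσ hne hfix
  have hss' : ∀ u : Y, s • s • u = u := fun u => by rw [smul_smul, hss, one_smul]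
  have hqs : ∀ u : Y, q (s • u) = q u := fun u => ((hfib u (s • u)).2 (Or.inr (hsm u).symm)).symm
  have hpr : ∀ y y' : Y, pr G y = pr G y' ↔ q y = q y' := by
    intro y y'
    rw [pr_eq_iff, hfib]
    constructor
    · rintro ⟨g, hg⟩
      rcases hs g with h | h
      · left
        rw [← hg, h, one_smul]
      · right
        rw [← hg, h, hsm]
    · rintro (h | h)
      · exact ⟨1, by rw [one_smul, h]⟩
      · exact ⟨s, by rw [hsm, h]⟩
  let κ : Z → Orb G Y := fun m => pr G (Function.surjInv hq.surjective m)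
  have hκq : ∀ y, κ (q y) = pr G y := fun y =>
    (hpr _ _).2 (Function.surjInv_eq hq.surjective (q y))
  let h : Orb G Y → Z := fun m => q (Quotient.out m)
  have hhpr : ∀ y, h (pr G y) = q y := fun y => by
    have : pr G (Quotient.out (pr G y)) = pr G y := Quotient.out_eq (pr G y)
    exact (hpr _ _).1 this
  have hhκ : ∀ m, h (κ m) = m := by
    intro m
    obtain ⟨y, rfl⟩ := hq.surjective m
    rw [hκq, hhpr]
  have hκC : HolC CZ (qFam hG hcov) κ := by
    refine huniv ?_
    have : (fun y => κ (q y)) = pr G := funext hκq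
    rw [this]
    exact holC_pi hG hcov
  have hhC : HolC (qFam hG hcov) CZ h := by
    refine holC_desc hG hcov ?_
    have : (fun y => h (pr G y)) = q := funext hhpr
    rw [this]
    exact hqh
  choose D hD using fun y : Y => exists_LD A hss y
  obtain ⟨B, hfin, hgood, hpart, hsub, h5, h6⟩ := CZ.exists_atl
    (fun y => q '' (D y).U) (fun y => hq.isOpenMap _ (D y).hU)
    (fun m => by
      obtain ⟨y, rfl⟩ := hq.surjective m
      exact ⟨y, mem_image_of_mem _ (hD y)⟩)
  choose k hk using hsub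
  refine ⟨B, hfin, hgood, hpart, h5, h6, ⟨?_⟩⟩
  have hκB : HolC (fam B) (qFam hG hcov) κ := hκC.comp h5
  have hhB : HolC (qFam hG hcov) (fam B) h := h6.comp hhC
  have hd0 : ∀ b, ∀ m ∈ (B.e b).source, ∀ c : RC G (fam A), κ m ∈ c.eM.source →
      DifferentiableAt ℂ (fun z => (D (k b)).S P (c.eM.symm z)) (c.eM (κ m)) := by
    intro b m hm c hc
    refine (D (k b)).diff_S P hss hs hG hcov c (c.eM.map_source hc) ?_
    rw [c.eM.left_inv hc]
    obtain ⟨u, hu, rfl⟩ := hk b hm
    rw [hκq]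
    exact mem_image_of_mem _ hu
  have hdB : ∀ b, ∀ m ∈ (B.e b).source,
      DifferentiableAt ℂ (fun z => (D (k b)).S P (κ ((B.e b).symm z))) (B.e b m) := by
    intro b m hm
    obtain ⟨c, hc⟩ := (qFam hG hcov).cover (κ m)
    exact diffAt_pull (B := fam B) (D := qFam hG hcov) (b := b) (c := c) hκB hm hc
      (hd0 b m hm c hc)
  have hinj : ∀ {κ κ' : Type} (e : κ' ≃ κ) (f g : κ → ℂ) (c : ℂ),
      (fun a => f (e a)) = c • (fun a => g (e a)) → f = c • g := by
    intro κ κ' e f g c h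
    funext a
    have := congrFun h (e.symm a)
    simpa using this
  refine ⟨P.N * (P.N + 2), fun b m a => (D (k b)).S P (κ m) (idx P.N a), ?_, ?_, ?_, ?_, ?_⟩
  · intro b a z hz
    have h1 := hdB b _ ((B.e b).map_target hz.1)
    rw [(B.e b).right_inv hz.1] at h1
    exact (differentiableAt_pi.1 h1 (idx P.N a)).differentiableWithinAt
  · intro b m hm
    obtain ⟨u, hu, rfl⟩ := hk b hm
    intro h0
    have h1 : (D (k b)).S P (κ (q u)) = 0 := by
      have := hinj (idx P.N) ((D (k b)).S P (κ (q u))) 0 0 (by rw [zero_smul]; exact h0)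
      rw [zero_smul] at this
      exact this
    rw [hκq, (D (k b)).S_pr P hss hs hu] at h1
    exact sm_ne_zero (P.ne _ u ((D (k b)).hi u hu)) (P.ne _ _ ((D (k b)).hj u hu)) h1
  · intro b b' m hm
    obtain ⟨u, hu, hum⟩ := hk b hm.1
    obtain ⟨u', hu', hum'⟩ := hk b' hm.2
    have h1 : ∃ c : ℂ, (D (k b)).S P (κ m) = c • (D (k b')).S P (κ m) := by
      rw [← hum, hκq, (D (k b)).S_pr P hss hs hu, ← hκq, hum, ← hum', hκq,
        (D (k b')).S_pr P hss hs hu']
      have hsc : ∀ (v w v' w' : Fin (P.N + 1) → ℂ), (∃ c : ℂ, v = c • v') → (∃ c : ℂ, w = c • w') →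
          ∃ c : ℂ, sm v w = c • sm v' w' := by
        rintro v w v' w' ⟨c, rfl⟩ ⟨c', rfl⟩
        refine ⟨c * c', funext fun p => ?_⟩
        simp only [sm, Pi.smul_apply, smul_eq_mul]
        ring
      rcases (hfib u u').1 (hum.trans hum'.symm) with hg | hg
      · subst hg
        exact hsc _ _ _ _ (P.tr _ _ _ ⟨(D (k b)).hi _ hu, (D (k b')).hi _ hu'⟩)
          (P.tr _ _ _ ⟨(D (k b)).hj _ hu, (D (k b')).hj _ hu'⟩)
      · rw [← hsm] at hg
        subst hg
        have h2 := (D (k b')).hj _ hu'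
        rw [hss'] at h2
        unfold LD.M
        rw [hss', sm_comm (P.F (D (k b')).i (s • u))]
        exact hsc _ _ _ _ (P.tr _ _ _ ⟨(D (k b)).hi _ hu, h2⟩)
          (P.tr _ _ _ ⟨(D (k b)).hj _ hu, (D (k b')).hi _ hu'⟩)
    obtain ⟨c, hc⟩ := h1
    exact ⟨c, funext fun a => congrFun hc (idx P.N a)⟩
  · rintro b b' m hm m' hm' ⟨c, hc⟩
    obtain ⟨u, hu, rfl⟩ := hk b hm
    obtain ⟨u', hu', rfl⟩ := hk b' hm'
    have h1 := hinj (idx P.N) _ _ c hc
    rw [hκq, hκq, (D (k b)).S_pr P hss hs hu, (D (k b')).S_pr P hss hs hu'] at h1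
    rcases prop_of_sm (P.ne _ _ ((D (k b')).hi _ hu')) h1 with h2 | h2
    · rw [P.inj _ _ _ ((D (k b)).hi _ hu) _ ((D (k b')).hi _ hu') h2]
    · rw [← P.inj _ _ _ ((D (k b)).hj _ hu) _ ((D (k b')).hi _ hu') h2, hqs]
  · intro b z hz
    have hm := (B.e b).map_target hz
    set m := (B.e b).symm z with hmz
    have hz' : B.e b m = z := (B.e b).right_inv hz
    obtain ⟨u0, hu0, hum⟩ := hk b hm
    obtain ⟨c, hc⟩ := hcov u0
    have hκm : κ m = pr G u0 := by rw [← hum, hκq]
    have hmc : κ m ∈ c.eM.source := by rw [hκm]; exact c.mem_eM_source hc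
    have hi : ImmAt (fun z => (D (k b)).S P (c.eM.symm z)) (c.eM (κ m)) := by
      rw [hκm]
      exact (D (k b)).imm_S P hs1 hss hs hG hcov c hu0 hc
    have h7 := immAt_pull (B := fam B) (D := qFam hG hcov) (b := b) (c := c) hκB hhB hhκ hm
      hmc (hd0 b m hm c hmc) hi
    have h8 := ImmAt.reindex (idx P.N) (hdB b m hm) h7
    have h9 : ImmAt (fun w a => (D (k b)).S P (κ ((B.e b).symm w)) (idx P.N a)) z := by
      rw [← hz']; exact h8
    exact h9

end

end Crest.Agent.R272.BBase_246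
end

-- ▼ part R272/BBase2_246
section

/-!
# R272, leaf B-BASE (helper246), part 2: the base `N' = B/G^`

`exists_trivial_stab` : a point with trivial stabiliser;
`kPos`, `exists_projD_K`: `K\B` (free cocompact) has a finite good atlas with `ProjD`;
`exists_base` : `G^ ⊇ K` normal of index two, `K` free, cocompact, `RA (ballFam ρ) G^` ⟹
`Orb G^ B` is compact, T2, connected, with a finite good atlas `B` with partition of unity,
compatible with `RA.fam`, and `ProjD B` (hence a positive line bundle, `fs`);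
`holC_orbMap` : the projection `X^- = Orb G^ X₁ → Orb G^ B` is holomorphic.
-/

set_option autoImplicit false
set_option linter.unusedSectionVars false

open Set Filter Topology
open scoped ContDiff

namespace Crest.Agent.R272.BBase_246

open Crest.Agent.R275.Geo Crest.Agent.R275.GC293 Crest.Agent.R275.Core144
open Crest.Agent.R273.Fam_835 Crest.Agent.R273.Map_835 Crest.Agent.R273.Defs_333
open Crest.Agent.R273.FS_333
open Crest.Agent.R272.Refl_246 Crest.Agent.R272.MQ_783 Crest.Agent.R272.Quot_783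
open Crest.Agent.R272.EBase_641

noncomputable section

variable {n : ℕ}

/-! ### a point with trivial stabiliser -/

theorem exists_trivial_stab {X : Type} [TopologicalSpace X] [Nonempty X] {C : Fam n X} {G : Type}
    [Group G] [MulAction G X] (h : RA C G) : ∃ x : X, ∀ g : G, g • x = x → g = 1 := by
  have _ := h.ccs
  obtain ⟨x0⟩ := (inferInstance : Nonempty X)
  obtain ⟨c, hc⟩ := h.cov x0
  rcases hk : c.k with _ | ⟨s, a⟩
  · exact ⟨x0, fun g hg => c.free hk g x0 hc (by rw [hg]; exact hc)⟩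
  · have h3 : Tendsto (fun τ : ℂ => c.e x0 + τ • (EuclideanSpace.single a (1 : ℂ) : Cn n))
        (𝓝 0) (𝓝 (c.e x0)) := by
      have : Continuous fun τ : ℂ => c.e x0 + τ • (EuclideanSpace.single a (1 : ℂ) : Cn n) := by
        fun_prop
      simpa using this.tendsto 0
    have h4 : ∀ᶠ τ : ℂ in 𝓝 0,
        c.e x0 + τ • (EuclideanSpace.single a (1 : ℂ) : Cn n) ∈ c.e.target :=
      h3.eventually (c.e.open_target.mem_nhds (c.e.map_source hc))
    -- choose `τ` with non zero coordinate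
    have h5 : ∃ τ : ℂ, c.e x0 + τ • (EuclideanSpace.single a (1 : ℂ) : Cn n) ∈ c.e.target ∧
        (c.e x0 + τ • (EuclideanSpace.single a (1 : ℂ) : Cn n)) a ≠ 0 := by
      by_cases h0 : (c.e x0) a = 0
      · have h7 : ∀ᶠ τ : ℂ in 𝓝[≠] 0,
            c.e x0 + τ • (EuclideanSpace.single a (1 : ℂ) : Cn n) ∈ c.e.target :=
          h4.filter_mono nhdsWithin_le_nhds
        obtain ⟨τ, hτ, hτ0⟩ := (h7.and self_mem_nhdsWithin).exists
        refine ⟨τ, hτ, ?_⟩
        simp only [PiLp.add_apply, PiLp.smul_apply, PiLp.single_apply, if_true, smul_eq_mul,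
          mul_one, h0, zero_add]
        exact hτ0
      · refine ⟨0, ?_, ?_⟩
        · rw [zero_smul, add_zero]
          exact c.e.map_source hc
        · rw [zero_smul, add_zero]
          exact h0
    obtain ⟨τ, hτ, hτ0⟩ := h5
    refine ⟨c.e.symm (c.e x0 + τ • EuclideanSpace.single a (1 : ℂ)), fun g hg => ?_⟩
    have hu := c.e.map_target hτ
    rcases c.two s a hk g _ hu (by rw [hg]; exact hu) with h6 | h6
    · exact h6
    · exfalso
      have h7 := c.ref s a hk _ hu
      rw [← h6, hg, c.e.right_inv hτ] at h7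
      have h8 := congrArg (fun z : Cn n => z a) h7
      simp only [rf_same] at h8
      have h9 : (2 : ℂ) * (c.e x0 + τ • (EuclideanSpace.single a (1 : ℂ) : Cn n)) a = 0 := by
        linear_combination h8
      rcases mul_eq_zero.1 h9 with h10 | h10
      · norm_num at h10
      · exact hτ0 h10

/-! ### the free cocompact subgroup -/

section K

variable {Gh : Type} [Group Gh] {ρ : Gh →* UG n} (K : Subgroup Gh)

theorem cancel_of_free (hfree : ∀ g ∈ K, ∀ x : BX ρ, g • x = x → g = 1) :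
    IsCancelSMul K (BX ρ) := by
  refine ⟨fun g g' x h => ?_⟩
  have h1 : ((g' : Gh)⁻¹ * (g : Gh)) • x = x := by
    rw [mul_smul]
    have h2 : (g : Gh) • x = (g' : Gh) • x := h
    rw [h2, inv_smul_smul]
  have h2 := hfree _ (K.mul_mem (K.inv_mem g'.2) g.2) x h1
  rw [inv_mul_eq_one] at h2
  exact (Subtype.ext h2).symm

theorem qd_K (hpd : ProperlyDiscontinuousSMul Gh (BX ρ))
    (hfree : ∀ g ∈ K, ∀ x : BX ρ, g • x = x → g = 1) :
    QD (ballFam ρ) K (pr K : BX ρ → Orb K (BX ρ)) := by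
  have _ := pds_sub (X := BX ρ) K
  have _ := cancel_of_free K hfree
  exact QD.ofPD fun g => holC_smul ρ (g : Gh)

variable (ρ) in
/-- the automorphy factor `jj` restricted to `K` -/
def jjK : AutF (ballFam ρ) K where
  J g x := (jjF ρ).J (g : Gh) x
  hol g := (jjF ρ).hol (g : Gh)
  ne g x := (jjF ρ).ne (g : Gh) x
  mul g g' x := (jjF ρ).mul (g : Gh) (g' : Gh) x

/-- compactness of a cocompact orbit space of the ball -/
theorem compact_orb {r : ℝ} (hr : r < 1)
    (hcov : ∀ z ∈ Ball n, ∃ g ∈ K, ‖act (ρ g) z‖ ≤ r) : CompactSpace (Orb K (BX ρ)) := by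
  have hKc : IsCompact {x : BX ρ | ‖x.val‖ ≤ r} := by
    rw [BX.isOpenEmbedding_val.isEmbedding.isCompact_iff]
    have h1 : (BX.val : BX ρ → E n) '' {x : BX ρ | ‖x.val‖ ≤ r} =
        Metric.closedBall (0 : E n) r := by
      ext z
      simp only [mem_image, Set.mem_ofPred_eq, Metric.mem_closedBall, dist_zero_right]
      constructor
      · rintro ⟨x, hx, rfl⟩
        exact hx
      · intro hz
        exact ⟨BX.mk ρ z (mem_Ball.2 (lt_of_le_of_lt hz hr)), hz, rfl⟩
    rw [h1]
    exact isCompact_closedBall _ _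
  refine compact_orb_of (G := K) hKc fun x => ?_
  obtain ⟨g, hg, hgr⟩ := hcov x.val x.mem
  exact ⟨⟨g, hg⟩, hgr⟩

theorem t2_K (hpd : ProperlyDiscontinuousSMul Gh (BX ρ)) : T2Space (Orb K (BX ρ)) := by
  have _ := pds_sub (X := BX ρ) K
  have : ContinuousConstSMul K (BX ρ) := ⟨fun g => continuous_smul_ball ρ (g : Gh)⟩
  exact t2_orb K (BX ρ)

/-- **the free quotient is projective** -/
theorem exists_projD_K (hpd : ProperlyDiscontinuousSMul Gh (BX ρ))
    (hfree : ∀ g ∈ K, ∀ x : BX ρ, g • x = x → g = 1) {r : ℝ} (hr : r < 1)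
    (hcov : ∀ z ∈ Ball n, ∃ g ∈ K, ‖act (ρ g) z‖ ≤ r) (h : RA (ballFam ρ) Gh)
    [ContinuousConstSMul K (BX ρ)] :
    ∃ A : Atl n (Orb K (BX ρ)), Finite A.ι ∧ GoodA A ∧ Nonempty (Part A) ∧
      HolC (fam A) (h.sub K).fam id ∧ HolC (h.sub K).fam (fam A) id ∧ Nonempty (ProjD A) := by
  have _ := t2_K K hpd
  have _ := compact_orb K hr hcov
  have hq := qd_K K hpd hfree
  obtain ⟨A, h1, h2, ⟨PA⟩, -, ⟨S⟩⟩ := hq.exists_sheets (κ := Unit) (fun _ => univ)
    (fun _ => isOpen_univ) (fun _ => ⟨(), mem_univ _⟩)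
  have hf : ∀ (g : K) (x : BX ρ), g • x = x → g = 1 := fun g x hg =>
    Subtype.ext (hfree g g.2 x hg)
  have hpos := S.hm_pos hf (jjK ρ K) wB_pos wB_sm (fun g x => wB_smul (ρ := ρ) (g : Gh) x) wB_lev
  obtain ⟨m, -, P, -⟩ := Kod8_410.exists_projD PA hpos
  refine ⟨A, h1, h2, ⟨PA⟩, ?_, ?_, ⟨P⟩⟩
  · -- `A → hq.fam → (h.sub K).fam`
    have e1 : HolC hq.fam (h.sub K).fam id := hq.holC_iff'.2 (h.sub K).holC_pr
    exact e1.comp S.toF
  · have e1 : HolC (h.sub K).fam hq.fam id := (h.sub K).holC_iff.2 hq.holC_p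
    exact S.frF.comp e1

end K

/-! ### the base -/

/-- **B-BASE** -/
theorem exists_base {Gh : Type} [Group Gh] {ρ : Gh →* UG n} (h : RA (ballFam ρ) Gh)
    (hpd : ProperlyDiscontinuousSMul Gh (BX ρ)) [ContinuousConstSMul Gh (BX ρ)]
    (K : Subgroup Gh) [K.Normal] (hfree : ∀ g ∈ K, ∀ x : BX ρ, g • x = x → g = 1)
    {s₀ : Gh} (hs0 : s₀ ∉ K) (hss : s₀ * s₀ ∈ K) (hidx : ∀ g : Gh, g ∈ K ∨ s₀⁻¹ * g ∈ K)
    {r : ℝ} (hr : r < 1) (hcov : ∀ z ∈ Ball n, ∃ g ∈ K, ‖act (ρ g) z‖ ≤ r) :
    T2Space (Orb Gh (BX ρ)) ∧ CompactSpace (Orb Gh (BX ρ)) ∧ ConnectedSpace (Orb Gh (BX ρ)) ∧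
    ∃ B : Atl n (Orb Gh (BX ρ)), Finite B.ι ∧ GoodA B ∧ Nonempty (Part B) ∧
      HolC (fam B) h.fam id ∧ HolC h.fam (fam B) id ∧ Nonempty (ProjD B) := by
  have _ : ContinuousConstSMul K (BX ρ) := ccs_sub K
  have _ := t2_K K hpd
  have _ := compact_orb K hr hcov
  have hT2 : T2Space (Orb Gh (BX ρ)) := t2_orb Gh (BX ρ)
  have hcp : CompactSpace (Orb Gh (BX ρ)) := by
    refine ⟨?_⟩
    have h1 : range (up (sub_orb K) : Orb K (BX ρ) → Orb Gh (BX ρ)) = univ :=
      (surjective_up (sub_orb K)).range_eq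
    rw [← h1]
    exact isCompact_range (continuous_up _)
  refine ⟨hT2, hcp, connected_orb Gh (BX ρ), ?_⟩
  obtain ⟨A, -, -, -, hA, hA', ⟨P⟩⟩ := exists_projD_K K hpd hfree hr hcov h
  obtain ⟨x, hx⟩ := exists_trivial_stab h
  have hσ : HolC (fam A) (fam A) (sig K s₀) := holC_iff.2 (holMap_sig h hA hA')
  refine exists_atl_projD P hσ (fun y => sig_sig hss y) ⟨pr K x, sig_ne hs0 hx⟩ (fun y hy => ?_)
    (isOpenQuotientMap_up (sub_orb K)) (fun y y' => up_eq_iff hidx)
    ((holC_up h (h.sub K) (sub_orb K)).comp hA) (fun {m N} _ {D f} hf => ?_)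
  · exact (reflAt_sig h hfree hs0 hy).of_equiv hA' hA
  · exact holC_iff_up h |>.2 (hf.comp hA')



end

end Crest.Agent.R272.BBase_246
end

-- ▼ part R272/Gi1_295

set_option autoImplicit false
set_option linter.unusedSectionVars false
set_option linter.unusedVariables false

open scoped ComplexConjugate
open Matrix

namespace Crest.Agent.R272.Gi_295

open Crest.Agent.R275.Geo Crest.Agent.R275.GC293 Crest.Agent.R275.Core144
open Crest.Agent.R273.Fam_835 Crest.Agent.R273.Map_835 Crest.Agent.R273.Defs_333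
open Crest.Agent.R272.Refl_246
open Crest.Agent.R272.EBase_641 Crest.Agent.R272.In_68 Crest.Agent.R272.GInG_502
open Crest.Agent.R272.O5_74 Crest.Agent.R272.MQ_783 Crest.Agent.R272.Quot_783
open Crest.Agent.R272.RQ1_302

noncomputable section

variable {O : Subring (Fin 2 → ℂ)} {z : Fin 2 → ℂ}

/-- a matrix reflection acts as a unitary reflection of `V1 3` -/
theorem isPR_of_rf (h : Z5r O z) {g : GU O z} {r : Fin 4 → Fin 2 → ℂ}
    (h2 : Cls_620.hh (Cls_620.HH z) r r = 2)
    (hact : ∀ v, ((g : Mtˣ) : Mt) *ᵥ v = Cls_620.rf (Cls_620.HH z) r v) :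
    IsPR (rho h g) (io h r).1 ((dd z 0 : ℂ)⁻¹) := by
  have hd : (dd z 0 : ℂ) ≠ 0 := by exact_mod_cast (dd_pos h 0).ne'
  constructor
  · rw [hh_io, h2]
    show (dd z 0 : ℂ)⁻¹ * ((dd z 0 : ℂ) * 2) = 2
    field_simp
  · intro v
    obtain ⟨x, rfl⟩ := (P0 h).surjective v
    have h1 := io_mulVec h g (fun i _ => x i)
    rw [hact] at h1
    have h3 := congrArg Prod.fst h1
    have h4 : (io h (fun i _ => x i)).1 = P0 h x := rfl
    simp only [h4] at h3
    rw [← h3, io_fst]
    have h5 : hh (P0 h x) (io h r).1 = (dd z 0 : ℂ) * Cls_620.hh (Cls_620.HH z) (fun i _ => x i) r 0 := by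
      rw [← h4, hh_io]
    rw [h5, io_fst, ← map_smul, ← map_sub]
    congr 1
    funext i
    show (Cls_620.rf (Cls_620.HH z) r (fun i _ => x i)) i 0 = _
    simp only [Cls_620.rf, Pi.sub_apply, Pi.smul_apply, smul_eq_mul, at']
    rw [inv_mul_cancel_left₀ hd]
    rfl

/-- the hypotheses on `K` and the level -/
structure KD (h : Z5r O z) (μ : Fin 2 → ℂ) (K : Subgroup (GU O z)) : Prop where
  mem : μ ∈ O
  big : 64 < ∏ t, ‖(Cls_620.pz z * μ) t‖
  two : ∃ c ∈ O, μ = 2 * c
  nrm : K.Normal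
  fin : K.FiniteIndex
  lev : ∀ g ∈ K, (g : Mtˣ) ∈ GC O z (Cls_620.pz z * μ)

/-- the swap datum -/
theorem KD.swD {h : Z5r O z} {μ : Fin 2 → ℂ} {K : Subgroup (GU O z)} (H : KD h μ K) :
    SwD K (swG h) :=
  GInG_502.swD h H.nrm H.lev (by linarith [H.big])

/-- the representation of `Gh` -/
abbrev rhG (h : Z5r O z) {K : Subgroup (GU O z)} (D : SwD K (swG h)) : D.Gh →* UG 3 :=
  (rho h).comp D.Gh.subtype

section main

variable {h : Z5r O z} {μ : Fin 2 → ℂ} {K : Subgroup (GU O z)} (H : KD h μ K)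
  (D : SwD K (swG h))

include H

/-- **freeness of `K`** on the ball -/
theorem free_K {g : GU O z} (hg : g ∈ K) {q : E 3} (hq : q ∈ Ball 3) (hf : act (rho h g) q = q) :
    g = 1 :=
  gc_free h (O.mul_mem h.toZ5.pz_mem H.mem) H.big g (H.lev g hg) hq hf

/-- **stabilisers** -/
theorem stab_Gh {q : E 3} (hq : q ∈ Ball 3) :
    (∀ g : D.Gh, act (rhG h D g) q = q → g = 1) ∨
      ∃ (s : D.Gh) (r : Fin 4 → Fin 2 → ℂ), s * s = 1 ∧ s.1 ∉ K ∧
        Cls_620.Mir O z μ r ∧
        (∀ v, (((s.1 : GU O z) : Mtˣ) : Mt) *ᵥ v = Cls_620.rf (Cls_620.HH z) r v) ∧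
        IsPR (rhG h D s) (io h r).1 ((dd z 0 : ℂ)⁻¹) ∧ lin (io h r).1 q = 0 ∧
        jj (rhG h D s) q = 1 ∧ act (rhG h D s) q = q ∧
        ∀ g : D.Gh, act (rhG h D g) q = q → g = 1 ∨ g = s := by
  by_cases hall : ∀ g : D.Gh, act (rhG h D g) q = q → g = 1
  · exact Or.inl hall
  · right
    push Not at hall
    obtain ⟨s, hs, hs1⟩ := hall
    rcases fix_Gh h D H.mem H.big H.two H.lev s.2 hq hs with h1 | ⟨h1, h2, r, hr, hact, hlin, hjj⟩
    · exact absurd (Subtype.ext h1) hs1
    · refine ⟨s, r, Subtype.ext h2, h1, hr, hact, isPR_of_rf h hr.two hact, hlin, hjj, hs, ?_⟩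
      intro g hg
      rcases fix_Gh h D H.mem H.big H.two H.lev g.2 hq hg with h3 | ⟨h3, -, -⟩
      · exact Or.inl (Subtype.ext h3)
      · exact Or.inr (Subtype.ext (fix_unique h D H.mem H.big H.lev s.2 g.2 h1 h3 hq hs hg))

omit H in
theorem pds : ProperlyDiscontinuousSMul D.Gh (BX (rhG h D)) :=
  pds_ball _ (proper_sub h D.Gh)

omit H in
instance ccs : ContinuousConstSMul D.Gh (BX (rhG h D)) := ccs_ball _

/-- **`RA` for the ball** -/
theorem ra : RA (ballFam (rhG h D)) D.Gh := by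
  have := pds (h := h) D
  refine ra_ball (rhG h D) fun x => ?_
  rcases stab_Gh H D x.mem with h1 | ⟨s, r, h1, h2, h3, h4, h5, h6, h7, h8, h9⟩
  · exact Or.inl fun g hg => h1 g (congrArg BX.val hg)
  · exact Or.inr ⟨s, _, _, h1, h5, h6, fun g hg => h9 g (congrArg BX.val hg)⟩

/-- stabilisers of points of the ball, literal input of 302's ACTION (B) -/
theorem base_st (x : BX (rhG h D)) : (∀ g : D.Gh, g • x = x → g = 1) ∨
    ∃ s : D.Gh, s * s = 1 ∧ s • x = x ∧ (∀ g : D.Gh, g • x = x → g = 1 ∨ g = s) ∧ s.1 ∉ K ∧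
      ReflAt (ballFam (rhG h D)) (fun y => s • y) x := by
  rcases stab_Gh H D x.mem with h1 | ⟨s, r, h1, h2, h3, h4, h5, h6, h7, h8, h9⟩
  · exact Or.inl fun g hg => h1 g (congrArg BX.val hg)
  · exact Or.inr ⟨s, h1, BX.ext h8, fun g hg => h9 g (congrArg BX.val hg), h2,
      reflAt_ball (rhG h D) h5 h6⟩

/-- cocompactness with elements of `K` -/
theorem cocpt_K : ∃ r : ℝ, r < 1 ∧ ∀ q ∈ Ball 3, ∃ g : D.Gh, g.1 ∈ K ∧
    ‖act (rhG h D g) q‖ ≤ r := by
  obtain ⟨r, hr, hc⟩ := cocpt_sub h K H.fin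
  refine ⟨r, hr, fun q hq => ?_⟩
  obtain ⟨g, hg⟩ := hc q hq
  exact ⟨⟨g.1, D.K_le g.2⟩, g.2, hg⟩

theorem compactSpace_orb : CompactSpace (Orb D.Gh (BX (rhG h D))) := by
  refine compact_ball _ ?_
  obtain ⟨r, hr, hc⟩ := cocpt_K H D
  exact ⟨r, hr, fun q hq => by
    obtain ⟨g, -, hg⟩ := hc q hq
    exact ⟨g, hg⟩⟩

omit H in
/-- `K` inside `Gh` -/
def KG (D : SwD K (swG h)) : Subgroup D.Gh := K.subgroupOf D.Gh


theorem KG_normal : (KG D).Normal := by
  have := H.nrm
  exact Subgroup.Normal.subgroupOf this _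

omit H in
/-- the swap inside `Gh` -/
def s0 (D : SwD K (swG h)) : D.Gh := ⟨swG h, D.s_mem⟩

omit H in
theorem s0_not : s0 D ∉ KG D := D.nmem

omit H in
theorem s0_sq : s0 D * s0 D = 1 := Subtype.ext (swG_sq h)

omit H in
theorem s0_inv : (s0 D)⁻¹ = s0 D := inv_eq_of_mul_eq_one_left (s0_sq D)

theorem idx (g : D.Gh) : g ∈ KG D ∨ (s0 D)⁻¹ * g ∈ KG D := by
  rcases D.mem_Gh.1 g.2 with h1 | h1
  · exact Or.inl h1
  · right
    rw [s0_inv]
    show swG h * g.1 ∈ K
    have h2 := H.nrm.conj_mem _ h1 (swG h)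
    have e : swG h * (g.1 * swG h) * (swG h)⁻¹ = swG h * g.1 := by group
    rwa [e] at h2

theorem free_KG : ∀ g ∈ KG D, ∀ x : BX (rhG h D), g • x = x → g = 1 := by
  intro g hg x hx
  apply Subtype.ext
  exact free_K H hg x.mem (congrArg BX.val hx)

/-- **the base `N' = Orb Gh B`** (246's `exists_base`) -/
theorem base : T2Space (Orb D.Gh (BX (rhG h D))) ∧ CompactSpace (Orb D.Gh (BX (rhG h D))) ∧
    ConnectedSpace (Orb D.Gh (BX (rhG h D))) ∧
    ∃ B : Atl 3 (Orb D.Gh (BX (rhG h D))), Finite B.ι ∧ GoodA B ∧ Nonempty (Part B) ∧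
      HolC (fam B) (ra H D).fam id ∧ HolC (ra H D).fam (fam B) id ∧ Nonempty (ProjD B) := by
  have h1 := pds (h := h) D
  have h2 := ccs (h := h) D
  have h3 := KG_normal H D
  obtain ⟨r, hr, hc⟩ := cocpt_K H D
  exact Crest.Agent.R272.BBase_246.exists_base (ra H D) h1 (KG D) (free_KG H D) (s0_not D)
    (by rw [s0_sq]; exact (KG D).one_mem) (idx H D) hr hc

end main

end

end Crest.Agent.R272.Gi_295
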