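import Crest.Agent.R272.P1S3_590
import Crest.Agent.R272.P1L2_426

-- ▼ part R272/Hom1_839
section

/-!
# R272 (S0414), HOM (helper839), part 1: homogeneous coordinates on covers of `P¹`

`D : Data A1 ρ` a cover of the projective line by roots `y_a ^ k_a = F_a (a0, a1)` of binary forms
(`L a = O (d a)`, `F a` homogeneous of degree `d a * k a`).  `IsHom D d F` records this.
`Rep D d q a0 a1 v` : the point `q : D.X` has homogeneous coordinates `(a0, a1; v)`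
(weights `1, 1, d a`).
-/

set_option autoImplicit false
set_option linter.unusedSectionVars false

open Set Filter Topology Complex OnePoint

namespace Crest.Agent.R272.Hom_839

open Crest.Agent.R275.Geo Crest.Agent.R275.Core144
open Crest.Agent.R273.Fam_835 Crest.Agent.R273.Map_835
open Crest.Agent.R272.FamP_54 Crest.Agent.R272.P1F_54 Crest.Agent.R272.DCov_426
open Crest.Agent.R272.P1S_590

noncomputable section

variable {ρ : Type} [Fintype ρ]

/-- `D` is the cover of `P¹` given by the binary forms `F a` of degree `d a * k a` -/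
structure IsHom (D : DCov_426.Data A1 ρ) (d : ρ → ℕ) (F : ρ → ℂ → ℂ → ℂ) : Prop where
  g : ∀ a s s' a0 a1, (a0 ≠ 0 ∨ a1 ≠ 0) → pt a0 a1 ∈ (ch1 s).source → pt a0 a1 ∈ (ch1 s').source →
    (D.L a).g s s' (pt a0 a1) = (sel s' a0 a1 / sel s a0 a1) ^ d a
  hom : ∀ a c x y, F a (c * x) (c * y) = c ^ (d a * D.k a) * F a x y
  s : ∀ a s a0 a1, (a0 ≠ 0 ∨ a1 ≠ 0) → pt a0 a1 ∈ (ch1 s).source →
    D.s a s (pt a0 a1) = F a a0 a1 / sel s a0 a1 ^ (d a * D.k a)

theorem sel_smul (s : Bool) (c a0 a1 : ℂ) : sel s (c * a0) (c * a1) = c * sel s a0 a1 := by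
  cases s <;> rfl

/-- `q` has homogeneous coordinates `(a0, a1; v)` -/
structure Rep (D : DCov_426.Data A1 ρ) (d : ρ → ℕ) (q : D.X) (a0 a1 : ℂ) (v : ρ → ℂ) : Prop where
  ne : a0 ≠ 0 ∨ a1 ≠ 0
  p : D.p q = pt a0 a1
  y : ∀ a s, pt a0 a1 ∈ (ch1 s).source → D.y a s q = v a / sel s a0 a1 ^ d a

variable {D : DCov_426.Data A1 ρ} {d : ρ → ℕ} {F : ρ → ℂ → ℂ → ℂ}

namespace IsHom

variable (h : IsHom D d F)

include h

/-- the normalised homogeneous coordinates of a point -/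
theorem rep_norm {q : D.X} {s : Bool} (hq : D.p q ∈ (ch1 s).source) :
    Rep D d q (u0 s (pc s (D.p q))) (u1 s (pc s (D.p q))) (fun a => D.y a s q) := by
  have hp : D.p q = pt (u0 s (pc s (D.p q))) (u1 s (pc s (D.p q))) := by
    rw [← pinv_eq, pinv_pc (mem_ch1.1 hq).1]
  refine ⟨u_ne _ _, hp, fun a s' hs' => ?_⟩
  have hs : pt (u0 s (pc s (D.p q))) (u1 s (pc s (D.p q))) ∈ (ch1 s).source := by rwa [← hp]
  have h1 : D.y a s' q = (D.L a).g s' s (D.p q) * D.y a s q := by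
    refine D.y_tr a (i := s') (j := s) ?_ hq
    rw [hp]; exact hs'
  have h2 := h.g a s' s _ _ (u_ne _ _) hs' hs
  rw [← hp] at h2
  rw [h1, h2, sel_u, one_div, inv_pow, inv_mul_eq_div]

theorem exists_rep (q : D.X) : ∃ a0 a1 v, Rep D d q a0 a1 v := by
  obtain ⟨s, hs⟩ := cover_ch1 (D.p q)
  exact ⟨_, _, _, h.rep_norm hs⟩

theorem rep_eqn {q : D.X} {a0 a1 : ℂ} {v : ρ → ℂ} (r : Rep D d q a0 a1 v) (a : ρ) :
    v a ^ D.k a = F a a0 a1 := by
  obtain ⟨s, hs⟩ := cover_ch1 (pt a0 a1)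
  have h0 := sel_ne r.ne hs
  have h1 : D.y a s q ^ D.k a = D.s a s (D.p q) := D.y_pow a (i := s) (by rw [r.p]; exact hs)
  rw [r.p, h.s a s a0 a1 r.ne hs, r.y a s hs, div_pow, ← pow_mul] at h1
  exact (div_left_inj' (pow_ne_zero _ h0)).1 h1

omit h in
theorem rep_smul {q : D.X} {a0 a1 : ℂ} {v : ρ → ℂ} (r : Rep D d q a0 a1 v) {c : ℂ} (hc : c ≠ 0) :
    Rep D d q (c * a0) (c * a1) (fun a => c ^ d a * v a) := by
  refine ⟨?_, ?_, fun a s hs => ?_⟩
  · rcases r.ne with h1 | h1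
    · exact Or.inl (mul_ne_zero hc h1)
    · exact Or.inr (mul_ne_zero hc h1)
  · rw [pt_smul hc, r.p]
  · rw [pt_smul hc] at hs
    have h0 := sel_ne r.ne hs
    rw [r.y a s hs, sel_smul, mul_pow, mul_div_mul_left _ _ (pow_ne_zero _ hc)]

omit h in
theorem rep_unique {q q' : D.X} {a0 a1 : ℂ} {v : ρ → ℂ} (r : Rep D d q a0 a1 v)
    (r' : Rep D d q' a0 a1 v) : q = q' := by
  obtain ⟨s, hs⟩ := cover_ch1 (pt a0 a1)
  refine D.ext_X (i := s) (by rw [r.p, r'.p]) (by rw [r.p]; exact hs) fun a => ?_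
  rw [r.y a s hs, r'.y a s hs]

/-- every solution of the equations is a point -/
theorem rep_exists {a0 a1 : ℂ} {v : ρ → ℂ} (hne : a0 ≠ 0 ∨ a1 ≠ 0)
    (hv : ∀ a, v a ^ D.k a = F a a0 a1) : ∃ q : D.X, Rep D d q a0 a1 v := by
  obtain ⟨s, hs⟩ := cover_ch1 (pt a0 a1)
  have h0 := sel_ne hne hs
  have hv' : ∀ a, (fun a => v a / sel s a0 a1 ^ d a) a ^ D.k a = D.s a s (pt a0 a1) := by
    intro a
    rw [h.s a s a0 a1 hne hs, div_pow, ← pow_mul, hv a]
  refine ⟨D.mkX (i := s) (pt a0 a1) hs _ hv', hne, rfl, fun a s' hs' => ?_⟩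
  have h1 : D.y a s' (D.mkX (i := s) (pt a0 a1) hs _ hv') =
      (D.L a).g s' s (pt a0 a1) * D.y a s (D.mkX (i := s) (pt a0 a1) hs _ hv') :=
    D.y_tr a (i := s') (j := s) hs' hs
  rw [h1, D.y_mkX (i := s) hs hv', h.g a s' s a0 a1 hne hs' hs]
  have h0' := sel_ne hne hs'
  rw [div_pow]
  field_simp

/-- two systems of homogeneous coordinates of a point are proportional -/
theorem rep_rel {q : D.X} {a0 a1 b0 b1 : ℂ} {v w : ρ → ℂ} (r : Rep D d q a0 a1 v)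
    (r' : Rep D d q b0 b1 w) :
    ∃ c : ℂ, c ≠ 0 ∧ b0 = c * a0 ∧ b1 = c * a1 ∧ ∀ a, w a = c ^ d a * v a := by
  have h1 : pt a0 a1 = pt b0 b1 := by rw [← r.p, r'.p]
  obtain ⟨c, hc, e0, e1⟩ := (pt_eq_iff r.ne r'.ne).1 h1
  refine ⟨c, hc, e0, e1, fun a => ?_⟩
  obtain ⟨s, hs⟩ := cover_ch1 (pt a0 a1)
  have h2 := r.y a s hs
  have h3 := r'.y a s (by rw [← h1]; exact hs)
  have h0 := sel_ne r.ne hs
  rw [h3, e0, e1, sel_smul, mul_pow] at h2
  field_simp at h2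
  linear_combination h2

theorem rep_eq_iff {q q' : D.X} {a0 a1 b0 b1 : ℂ} {v w : ρ → ℂ} (r : Rep D d q a0 a1 v)
    (r' : Rep D d q' b0 b1 w) :
    q = q' ↔ ∃ c : ℂ, c ≠ 0 ∧ b0 = c * a0 ∧ b1 = c * a1 ∧ ∀ a, w a = c ^ d a * v a := by
  constructor
  · rintro rfl
    exact h.rep_rel r r'
  · rintro ⟨c, hc, e0, e1, e2⟩
    have h1 := rep_smul r hc
    have h2 : (fun a => c ^ d a * v a) = w := by
      funext a; exact (e2 a).symm
    rw [← e0, ← e1, h2] at h1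
    exact rep_unique h1 r'

end IsHom

end

end Crest.Agent.R272.Hom_839
end

-- ▼ part R272/Hom2_839
section

/-!
# R272 (S0414), HOM (helper839), part 2: holomorphy in homogeneous coordinates, homogeneous maps
-/

set_option autoImplicit false
set_option linter.unusedSectionVars false

open Set Filter Topology Complex OnePoint

namespace Crest.Agent.R272.Hom_839

open Crest.Agent.R275.Geo Crest.Agent.R275.Core144
open Crest.Agent.R273.Fam_835 Crest.Agent.R273.Map_835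
open Crest.Agent.R272.FamP_54 Crest.Agent.R272.P1F_54 Crest.Agent.R272.DCov_426
open Crest.Agent.R272.P1S_590

noncomputable section

variable {ρ : Type} [Fintype ρ] {D : DCov_426.Data A1 ρ} {d : ρ → ℕ} {F : ρ → ℂ → ℂ → ℂ}

/-! ### holomorphic functions -/

/-- the affine coordinate of `P¹` -/
theorem hfa_pc {s : Bool} {t : P1} (ht : t ∈ (ch1 s).source) : HFA (fam A1) (pc s) t := by
  refine HFA.of (F := fam A1) (i := s) ht ?_
  have h1 : DifferentiableAt ℂ kap ((fam A1).e s t) := differentiable_kap.differentiableAt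
  refine h1.congr_of_eventuallyEq (Eventually.of_forall fun z => ?_)
  show pc s ((ch1 s).symm z) = kap z
  rw [ch1_symm, pc_pinv]

theorem hfa_y {q : D.X} {s : Bool} (hq : D.p q ∈ (ch1 s).source) (a : ρ) :
    HFA D.famX (D.y a s) q := by
  intro c hc
  refine D.y_diffAt a (j := s) ((D.famX.e c).map_source hc) ?_
  show D.p ((D.famX.e c).symm (D.famX.e c q)) ∈ _
  rw [(D.famX.e c).left_inv hc]
  exact hq

theorem hfa_pcp {q : D.X} {s : Bool} (hq : D.p q ∈ (ch1 s).source) :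
    HFA D.famX (fun q => pc s (D.p q)) q :=
  HFA.comp_right (hfa_pc hq) D.holC_p

variable {m : ℕ} {Y : Type} [TopologicalSpace Y] {E : Fam m Y}

theorem hfa_sel {f0 f1 : Y → ℂ} {y : Y} (h0 : HFA E f0 y) (h1 : HFA E f1 y) (s : Bool) :
    HFA E (fun y => sel s (f0 y) (f1 y)) y := by
  cases s
  · exact h0
  · exact h1


/-- **maps into the cover given locally by homogeneous coordinates** -/
theorem holC_of_rep {G : Y → D.X}
    (hG : ∀ y0, ∃ (f0 f1 : Y → ℂ) (w : ρ → Y → ℂ), HFA E f0 y0 ∧ HFA E f1 y0 ∧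
      (∀ a, HFA E (w a) y0) ∧ ∀ᶠ y in 𝓝 y0, Rep D d (G y) (f0 y) (f1 y) (fun a => w a y)) :
    HolC E D.famX G := by
  have h1 : HolC E (fam A1) (fun y => D.p (G y)) := by
    refine holC_A1_of fun y0 => ?_
    obtain ⟨f0, f1, w, h0, h1, -, hev⟩ := hG y0
    exact ⟨f0, f1, h0, h1, hev.self_of_nhds.ne, hev.mono fun y hy => hy.p⟩
  have h2 : ∀ (y0 : Y) (s : Bool), D.p (G y0) ∈ (ch1 s).source → ∀ a,
      HFA E (fun y => D.y a s (G y)) y0 := by
    intro y0 s hs a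
    obtain ⟨f0, f1, w, h0, h1', h2, hev⟩ := hG y0
    have hr := hev.self_of_nhds
    have hsel : sel s (f0 y0) (f1 y0) ≠ 0 := sel_ne hr.ne (by rw [← hr.p]; exact hs)
    have h3 : HFA E (fun y => w a y / sel s (f0 y) (f1 y) ^ d a) y0 :=
      (h2 a).div ((hfa_sel h0 h1' s).pow _) (pow_ne_zero _ hsel)
    refine h3.congr ?_
    have h4 : ∀ᶠ y in 𝓝 y0, D.p (G y) ∈ (ch1 s).source :=
      h1.cont.continuousAt.preimage_mem_nhds ((ch1 s).open_source.mem_nhds hs)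
    filter_upwards [hev, h4] with y hy hy'
    exact hy.y a s (by rw [← hy.p]; exact hy')
  have hc : Continuous G := by
    rw [continuous_iff_continuousAt]
    intro y0
    obtain ⟨s, hs⟩ := cover_ch1 (D.p (G y0))
    exact D.continuousAt_X (i := s) hs h1.cont.continuousAt fun a => (h2 y0 s hs a).continuousAt
  refine D.holC_X hc h1 fun a e s z hz hs => ?_
  have h5 := h2 ((E.e e).symm z) s hs a e ((E.e e).map_target hz)
  rwa [(E.e e).right_inv hz] at h5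

/-! ### homogeneous maps -/

variable {ρ' : Type} [Fintype ρ'] {D' : DCov_426.Data A1 ρ'} {d' : ρ' → ℕ} {F' : ρ' → ℂ → ℂ → ℂ}

/-- a map of covers of `P¹` given by weighted homogeneous functions -/
structure HMap (D : DCov_426.Data A1 ρ) (d : ρ → ℕ) (F : ρ → ℂ → ℂ → ℂ)
    (D' : DCov_426.Data A1 ρ') (d' : ρ' → ℕ) (F' : ρ' → ℂ → ℂ → ℂ) where
  e : ℕ
  b0 : ℂ → ℂ → (ρ → ℂ) → ℂ
  b1 : ℂ → ℂ → (ρ → ℂ) → ℂ
  w : ρ' → ℂ → ℂ → (ρ → ℂ) → ℂ
  diff0 : Differentiable ℂ (fun x : ℂ × ℂ × (ρ → ℂ) => b0 x.1 x.2.1 x.2.2)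
  diff1 : Differentiable ℂ (fun x : ℂ × ℂ × (ρ → ℂ) => b1 x.1 x.2.1 x.2.2)
  diffw : ∀ β, Differentiable ℂ (fun x : ℂ × ℂ × (ρ → ℂ) => w β x.1 x.2.1 x.2.2)
  hom0 : ∀ c a0 a1 v, b0 (c * a0) (c * a1) (fun a => c ^ d a * v a) = c ^ e * b0 a0 a1 v
  hom1 : ∀ c a0 a1 v, b1 (c * a0) (c * a1) (fun a => c ^ d a * v a) = c ^ e * b1 a0 a1 v
  homw : ∀ β c a0 a1 v, w β (c * a0) (c * a1) (fun a => c ^ d a * v a) =
    (c ^ e) ^ d' β * w β a0 a1 v
  ne : ∀ a0 a1 v, (a0 ≠ 0 ∨ a1 ≠ 0) → (∀ a, v a ^ D.k a = F a a0 a1) →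
    b0 a0 a1 v ≠ 0 ∨ b1 a0 a1 v ≠ 0
  eqn : ∀ a0 a1 v, (a0 ≠ 0 ∨ a1 ≠ 0) → (∀ a, v a ^ D.k a = F a a0 a1) → ∀ β,
    w β a0 a1 v ^ D'.k β = F' β (b0 a0 a1 v) (b1 a0 a1 v)

namespace HMap

variable (T : HMap D d F D' d' F') (h : IsHom D d F) (h' : IsHom D' d' F')

include h h' in
theorem exists_img (q : D.X) : ∃ q' : D'.X, ∀ a0 a1 v, Rep D d q a0 a1 v →
    Rep D' d' q' (T.b0 a0 a1 v) (T.b1 a0 a1 v) (fun β => T.w β a0 a1 v) := by
  obtain ⟨a0, a1, v, r⟩ := h.exists_rep q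
  obtain ⟨q', r'⟩ := h'.rep_exists (T.ne a0 a1 v r.ne (h.rep_eqn r))
    (T.eqn a0 a1 v r.ne (h.rep_eqn r))
  refine ⟨q', fun b0 b1 w r1 => ?_⟩
  obtain ⟨c, hc, rfl, rfl, e2⟩ := h.rep_rel r r1
  have e3 : w = fun a => c ^ d a * v a := funext e2
  subst e3
  rw [T.hom0, T.hom1]
  have h3 := IsHom.rep_smul r' (pow_ne_zero T.e hc)
  have h4 : (fun β => T.w β (c * a0) (c * a1) (fun a => c ^ d a * v a)) =
      fun β => (c ^ T.e) ^ d' β * T.w β a0 a1 v := funext fun β => T.homw β c a0 a1 v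
  rw [h4]
  exact h3

/-- the map -/
def map (q : D.X) : D'.X := (T.exists_img h h' q).choose

theorem map_rep {q : D.X} {a0 a1 : ℂ} {v : ρ → ℂ} (r : Rep D d q a0 a1 v) :
    Rep D' d' (T.map h h' q) (T.b0 a0 a1 v) (T.b1 a0 a1 v) (fun β => T.w β a0 a1 v) :=
  (T.exists_img h h' q).choose_spec a0 a1 v r

/-- holomorphic homogeneous coordinates of the image, locally -/
theorem holC_map : HolC D.famX D'.famX (T.map h h') := by
  refine holC_of_rep (d := d') fun q0 => ?_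
  obtain ⟨s, hs⟩ := cover_ch1 (D.p q0)
  have hx : HFA D.famX (fun q => ((u0 s (pc s (D.p q)), u1 s (pc s (D.p q)),
      fun a => D.y a s q) : ℂ × ℂ × (ρ → ℂ))) q0 := by
    intro i hi
    refine DifferentiableAt.prodMk ?_ (DifferentiableAt.prodMk ?_ (differentiableAt_pi.2 ?_))
    · exact HFA.comp_left (g := u0 s) (differentiable_u0 s).differentiableAt (hfa_pcp hs) i hi
    · exact HFA.comp_left (g := u1 s) (differentiable_u1 s).differentiableAt (hfa_pcp hs) i hi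
    · intro a
      exact hfa_y hs a i hi
  refine ⟨fun q => T.b0 (u0 s (pc s (D.p q))) (u1 s (pc s (D.p q))) (fun a => D.y a s q),
    fun q => T.b1 (u0 s (pc s (D.p q))) (u1 s (pc s (D.p q))) (fun a => D.y a s q),
    fun β q => T.w β (u0 s (pc s (D.p q))) (u1 s (pc s (D.p q))) (fun a => D.y a s q),
    ?_, ?_, ?_, ?_⟩
  · exact HFA.comp_left (g := fun x : ℂ × ℂ × (ρ → ℂ) => T.b0 x.1 x.2.1 x.2.2)
      T.diff0.differentiableAt hx
  · exact HFA.comp_left (g := fun x : ℂ × ℂ × (ρ → ℂ) => T.b1 x.1 x.2.1 x.2.2)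
      T.diff1.differentiableAt hx
  · intro β
    exact HFA.comp_left (g := fun x : ℂ × ℂ × (ρ → ℂ) => T.w β x.1 x.2.1 x.2.2)
      (T.diffw β).differentiableAt hx
  · have h4 : ∀ᶠ q in 𝓝 q0, D.p q ∈ (ch1 s).source :=
      D.continuous_p.continuousAt.preimage_mem_nhds ((ch1 s).open_source.mem_nhds hs)
    filter_upwards [h4] with q hq
    exact T.map_rep h h' (h.rep_norm hq)

theorem continuous_map : Continuous (T.map h h') := (T.holC_map h h').cont

end HMap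

end

end Crest.Agent.R272.Hom_839
end

-- ▼ part R272/Hom3_839

/-!
# R272 (S0414), HOM (helper839), part 3: homogeneous coordinates on the four curves
-/

set_option autoImplicit false
set_option linter.unusedSectionVars false

open Set Filter Topology Complex OnePoint

namespace Crest.Agent.R272.Hom_839

open Crest.Agent.R275.Geo Crest.Agent.R275.Core144
open Crest.Agent.R273.Fam_835 Crest.Agent.R273.Map_835
open Crest.Agent.R272.FamP_54 Crest.Agent.R272.P1F_54 Crest.Agent.R272.DCov_426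
open Crest.Agent.R272.P1S_590
open Crest.Agent.R272.P1L_426 (Ch F8 CC BB f16 f8 f4 g8)

noncomputable section

variable {ρ : Type} [Fintype ρ]

theorem IsHom.of {D : DCov_426.Data A1 ρ} {d : ρ → ℕ} {F : ρ → ℂ → ℂ → ℂ}
    (hL : ∀ a, D.L a = O (d a)) (hF : ∀ a, Hom (d a * D.k a) (F a))
    (hs : ∀ a, D.s a = sec (F a)) : IsHom D d F where
  g a s s' a0 a1 h h1 h2 := by
    rw [hL]
    exact O_g_pt h (d a) ⟨h1, h2⟩
  hom a := (hF a).hom
  s a s a0 a1 h h1 := by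
    rw [hs]
    exact sec_pt (hF a) h h1

theorem hom_f16 : Hom 16 f16 := (Hom.pow_fst 16).sub (Hom.pow_snd 16)
theorem hom_f8 : Hom 8 f8 := (Hom.pow_fst 8).sub (Hom.pow_snd 8)
theorem hom_f4 : Hom 4 f4 := (Hom.pow_fst 4).sub (Hom.pow_snd 4)
theorem hom_g8 : Hom 8 g8 := (Hom.pow_snd 8).add ((Hom.pow_fst 8).const_mul I)

/-- `C^` : `(t0, t1; δ, ρ)`, weights `1, 1, 2, 4` -/
theorem isHom_Ch : IsHom Ch ![2, 4] ![f16, g8] := by
  refine IsHom.of (fun a => ?_) (fun a => ?_) (fun a => ?_)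
  · fin_cases a <;> rfl
  · fin_cases a
    · exact hom_f16
    · exact hom_g8
  · fin_cases a <;> rfl

theorem isHom_F8 : IsHom F8 (fun _ => 1) (fun _ => f8) :=
  IsHom.of (fun _ => rfl) (fun _ => hom_f8) fun _ => rfl

theorem isHom_CC : IsHom CC (fun _ => 2) (fun _ => f8) :=
  IsHom.of (fun _ => rfl) (fun _ => hom_f8) fun _ => rfl

theorem isHom_BB : IsHom BB (fun _ => 1) (fun _ => f4) :=
  IsHom.of (fun _ => rfl) (fun _ => hom_f4) fun _ => rfl

end

end Crest.Agent.R272.Hom_839
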