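import Crest.Agent.R272.Gm3_235
import Crest.Agent.R272.As1_235
import Crest.Agent.R272.Cyc5_760
import Crest.Agent.R272.Ne1_595
import Crest.Agent.R272.Nl4_595
import Crest.Agent.R272.Sl1_235
import Crest.Agent.R272.CyB5_894
import Crest.Agent.R272.Sq4a_771
import Crest.Agent.R272.Lc1_771
import Crest.Agent.R272.Hom3_839
import Crest.Agent.R272.UnB8_894
import Crest.Agent.R272.Root4_83
import Crest.Agent.R272.SlB_140
import Crest.Agent.R272.Tow_102
import Crest.Agent.R272.M14a_590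
import Crest.Agent.R272.Nl3_595
import Crest.Agent.R272.NlB1_426
import Crest.Agent.R272.M14c_590
import Crest.Agent.R272.Cv14_414

-- ▼ part R272/Val1_83
section

/-!
# R272, leaf S14-CYC-VAL (helper83), part 1: values of quotients along a curve, without signs

`RatH`: 235's `Rat` (the quotient `b / a` has the value `m` at `x`) with a holomorphic quotient.
`VP`: the local shape of `T, S, RM, RN` at a point of the special fibre;
`VC`: a curve `z ↦ a z` along which `S / T = γ0 (1 + z²) / (1 - z²)`.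
Then `RN / T = sg γ0 2 z / (1 - z²)` and `RM / S = l` with constant signs `sg, l`.
`exists_cycle`: the closed 4-gon and its arcs.
-/

set_option autoImplicit false

open Set Topology Filter
open scoped unitInterval

namespace Crest.Agent.R272.Val_83

open Crest.Agent.R275.Geo Crest.Agent.R273.Fam_835 Crest.Agent.R272.Quot_783
open Crest.Agent.R273.Map_835
open Crest.Agent.R272.Root_83 Crest.Agent.R272.Gm1_235
open Crest.Agent.R272.Gm3_235 (Rat ArcX)

noncomputable section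

variable {n : ℕ} {X : Type} [TopologicalSpace X] {C : Fam n X}

/-- the quotient `b / a` is holomorphic near `x` and has the value `m` at `x` -/
def RatH (C : Fam n X) (a b : X → ℂ) (x : X) (m : ℂ) : Prop :=
  ∃ u : X → ℂ, HG C x u ∧ u x = m ∧ ∀ᶠ z in 𝓝 x, b z = a z * u z

section ratH

variable {a b : X → ℂ} {x : X} {m m' : ℂ}

theorem RatH.rat (h : RatH C a b x m) : Rat a b x m := by
  obtain ⟨u, h1, h2, h3⟩ := h
  exact ⟨u, h1.continuousAt, h2, h3⟩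

theorem RatH.near (h : RatH C a b x m) :
    ∃ u, HG C x u ∧ u x = m ∧ ∀ᶠ z in 𝓝 x, RatH C a b z (u z) := by
  obtain ⟨u, h1, h2, h3⟩ := h
  refine ⟨u, h1, h2, ?_⟩
  filter_upwards [h1.eventually, eventually_eventually_nhds.2 h3] with z h4 h5
  exact ⟨u, h4, rfl, h5⟩

theorem RatH.unique (ha : ∃ᶠ z in 𝓝 x, a z ≠ 0) (h : RatH C a b x m) (h' : RatH C a b x m') :
    m = m' := by
  obtain ⟨u, h1, rfl, h3⟩ := h
  obtain ⟨v, h1', rfl, h3'⟩ := h'
  have h4 : ContinuousAt (fun z => u z - v z) x := h1.continuousAt.sub h1'.continuousAt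
  have h5 : ∃ᶠ z in 𝓝 x, u z - v z = 0 := by
    refine (ha.and_eventually (h3.and h3')).mono ?_
    rintro z ⟨hz, e1, e2⟩
    exact sub_eq_zero.2 (mul_left_cancel₀ hz (e1.symm.trans e2))
  by_contra h6
  exact h5 (h4.eventually_ne (sub_ne_zero.2 h6))

/-- the value is a continuous function along a curve -/
theorem continuousOn_val {V : Type*} [TopologicalSpace V] {Ω : Set V} (hΩ : IsOpen Ω) {c : V → X}
    (hc : ContinuousOn c Ω) {k : V → ℂ} (hk : ∀ t ∈ Ω, RatH C a b (c t) (k t))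
    (ha : ∀ t ∈ Ω, ∃ᶠ z in 𝓝 (c t), a z ≠ 0) : ContinuousOn k Ω := by
  intro t ht
  apply ContinuousAt.continuousWithinAt
  obtain ⟨u, h1, h2, h3⟩ := (hk t ht).near
  have hct : ContinuousAt c t := hc.continuousAt (hΩ.mem_nhds ht)
  have h4 : ∀ᶠ t' in 𝓝 t, k t' = u (c t') := by
    filter_upwards [hct.eventually h3, hΩ.mem_nhds ht] with t' h5 h6
    exact RatH.unique (ha t' h6) (hk t' h6) h5
  exact (ContinuousAt.comp (g := u) (f := c) h1.continuousAt hct).congr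
    (h4.mono fun _ h => h.symm)

/-- transfer by an involution -/
theorem RatH.tr {τ : X → X} (hτ : HolC C C τ) (h : RatH C a b x m) {y : X} (hy : τ y = x)
    {c : ℂ} (hc : c ^ 2 = 1) (ea : ∀ᶠ z in 𝓝 y, a (τ z) = a z)
    (eb : ∀ᶠ z in 𝓝 y, b (τ z) = c * b z) : RatH C a b y (c * m) := by
  obtain ⟨u, h1, h2, h3⟩ := h
  refine ⟨fun z => c * u (τ z), (HG.const c).mul (HG.comp (p := τ) (hy ▸ h1) hτ), ?_, ?_⟩
  · show c * u (τ y) = c * m
    rw [hy, h2]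
  · have h4 : ∀ᶠ z in 𝓝 y, b (τ z) = a (τ z) * u (τ z) :=
      hτ.cont.continuousAt.eventually (by rw [hy]; exact h3)
    filter_upwards [h4, ea, eb] with z e1 e2 e3
    rw [e2, e3] at e1
    linear_combination c * e1 - b z * hc

end ratH

/-- the local shape at a point of the special fibre -/
structure VP (C : Fam n X) (T S RM RN : X → ℂ) (γ0 : ℂ) (x : X) : Prop where
  hT : HG C x T
  hS : HG C x S
  hM : HG C x RM
  hN : HG C x RN
  T0 : T x = 0
  nT : ∃ᶠ z in 𝓝 x, T z ≠ 0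
  nS : ∃ᶠ z in 𝓝 x, S z ≠ 0
  eN : ∃ e, HG C x e ∧ e x = γ0 ^ 2 ∧ ∀ᶠ z in 𝓝 x, RN z ^ 2 = S z ^ 2 - T z ^ 2 * e z
  eM : ∃ e, HG C x e ∧ ∀ᶠ z in 𝓝 x, RM z ^ 2 = S z ^ 2 - T z ^ 4 * e z

section VPs

variable {T S RM RN : X → ℂ} {γ0 : ℂ} {x : X} {m : ℂ}

theorem VP.k (h : VP C T S RM RN γ0 x) (hm : RatH C T S x m) :
    ∃ k, RatH C T RN x k ∧ k ^ 2 = m ^ 2 - γ0 ^ 2 := by
  obtain ⟨u, h1, h2, h3⟩ := hm
  obtain ⟨e, e1, e2, e3⟩ := h.eN
  obtain ⟨r, hr, hr2, hra⟩ := root_germ (C := C) (y := x) (f := fun z => u z ^ 2 - e z)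
    ((h1.pow 2).sub e1) h.hT h.hN (by
      filter_upwards [h3, e3] with z e4 e5
      rw [e5, e4]; ring) h.nT
  refine ⟨r x, ⟨r, hr, rfl, hra⟩, ?_⟩
  rw [hr2.self_of_nhds, h2, e2]

theorem VP.l (h : VP C T S RM RN γ0 x) (hm : RatH C T S x m) (hm0 : m ≠ 0) :
    ∃ l, RatH C S RM x l ∧ l ^ 2 = 1 := by
  obtain ⟨u, h1, h2, h3⟩ := hm
  have hu : u x ≠ 0 := by rwa [h2]
  obtain ⟨e, e1, e3⟩ := h.eM
  obtain ⟨r, hr, hr2, hra⟩ := root_germ (C := C) (y := x)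
    (f := fun z => 1 - T z ^ 2 * (e z * (u z ^ 2)⁻¹))
    ((HG.const 1).sub ((h.hT.pow 2).mul (e1.mul ((h1.pow 2).inv (pow_ne_zero 2 hu))))) h.hS h.hM (by
      filter_upwards [h3, e3, h1.continuousAt.eventually_ne hu] with z e4 e5 e6
      rw [e5, e4]
      field_simp) h.nS
  refine ⟨r x, ⟨r, hr, rfl, hra⟩, ?_⟩
  rw [hr2.self_of_nhds, h.T0]
  ring

end VPs

/-- a curve along which the slope is `γ0 (1 + z²) / (1 - z²)` -/
structure VC (C : Fam n X) (T S RM RN : X → ℂ) (γ0 : ℂ) (a : ℂ → X) : Prop where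
  cont : Continuous a
  vp : ∀ z, VP C T S RM RN γ0 (a z)
  sl : ∀ z : ℂ, z ^ 2 ≠ 1 → RatH C T S (a z) (γ0 * (1 + z ^ 2) / (1 - z ^ 2))

theorem preconn_compl {F : Set ℂ} (hF : F.Finite) : IsPreconnected Fᶜ := by
  have h : 1 < Module.rank ℝ ℂ := by
    rw [Complex.rank_real_complex]
    exact Nat.one_lt_ofNat
  exact (hF.countable.isConnected_compl_of_one_lt_rank h).isPreconnected

section VCs

variable {T S RM RN : X → ℂ} {γ0 : ℂ} {a : ℂ → X}

theorem sub_ne {z : ℂ} (h : z ^ 2 ≠ 1) : 1 - z ^ 2 ≠ 0 := fun h0 => h (sub_eq_zero.1 h0).symm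

/-- the sign of `RN / T` is constant -/
theorem VC.exists_sigma (h : VC C T S RM RN γ0 a) (hγ : γ0 ≠ 0) : ∃ sg : ℂ, sg ^ 2 = 1 ∧
    ∀ z : ℂ, z ^ 2 ≠ 1 → RatH C T RN (a z) (sg * γ0 * (2 * z) / (1 - z ^ 2)) := by
  have h1 : ∀ z : ℂ, ∃ k, z ^ 2 ≠ 1 → RatH C T RN (a z) k ∧ k ^ 2 = (γ0 * (2 * z) / (1 - z ^ 2)) ^ 2 := by
    intro z
    by_cases hz : z ^ 2 = 1
    · exact ⟨0, fun h2 => absurd hz h2⟩
    · obtain ⟨k, hk, hk2⟩ := (h.vp z).k (h.sl z hz)
      refine ⟨k, fun _ => ⟨hk, ?_⟩⟩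
      have h3 := sub_ne hz
      rw [hk2]
      field_simp
      ring
  choose k hk using h1
  set F : Set ℂ := {0, 1, -1} with hF
  have hFf : F.Finite := by rw [hF]; exact Set.toFinite _
  have hm : ∀ {z : ℂ}, z ∈ Fᶜ → z ≠ 0 ∧ z ^ 2 ≠ 1 := by
    intro z hz
    rw [hF, mem_compl_iff, mem_insert_iff, mem_insert_iff, mem_singleton_iff] at hz
    push Not at hz
    refine ⟨hz.1, fun h2 => ?_⟩
    rcases sq_eq_sq_iff_eq_or_eq_neg.1 (h2.trans (one_pow 2).symm) with h3 | h3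
    · exact hz.2.1 h3
    · exact hz.2.2 h3
  have hc : ContinuousOn k Fᶜ :=
    continuousOn_val (C := C) (a := T) (b := RN) hFf.isClosed.isOpen_compl h.cont.continuousOn
      (fun z hz => (hk z (hm hz).2).1) (fun z _ => (h.vp z).nT)
  have hg : ContinuousOn (fun z : ℂ => γ0 * (2 * z) / (1 - z ^ 2)) Fᶜ := by
    intro z hz
    have h3 := sub_ne (hm hz).2
    have h4 : ContinuousAt (fun z : ℂ => γ0 * (2 * z)) z := by fun_prop
    have h5 : ContinuousAt (fun z : ℂ => 1 - z ^ 2) z := by fun_prop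
    exact (h4.div h5 h3).continuousWithinAt
  have key := (preconn_compl hFf).eq_or_eq_neg_of_sq_eq hc hg (fun z hz => (hk z (hm hz).2).2)
    (fun {z} hz => div_ne_zero (mul_ne_zero hγ (mul_ne_zero two_ne_zero (hm hz).1))
      (sub_ne (hm hz).2))
  have hfin : ∀ sg : ℂ, sg ^ 2 = 1 → (∀ z ∈ Fᶜ, k z = sg * (γ0 * (2 * z) / (1 - z ^ 2))) →
      ∃ sg : ℂ, sg ^ 2 = 1 ∧
        ∀ z : ℂ, z ^ 2 ≠ 1 → RatH C T RN (a z) (sg * γ0 * (2 * z) / (1 - z ^ 2)) := by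
    intro sg hsg he
    refine ⟨sg, hsg, fun z hz => ?_⟩
    have h5 := (hk z hz).1
    have h6 : k z = sg * γ0 * (2 * z) / (1 - z ^ 2) := by
      by_cases hz0 : z = 0
      · subst hz0
        have h7 := (hk 0 hz).2
        have h8 : k 0 = 0 := by
          have h9 : k 0 ^ 2 = 0 := by rw [h7]; simp
          exact pow_eq_zero_iff two_ne_zero |>.1 h9
        rw [h8]; simp
      · have h7 : z ∈ Fᶜ := by
          rw [hF, mem_compl_iff, mem_insert_iff, mem_insert_iff, mem_singleton_iff]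
          rintro (h8 | h8 | h8)
          · exact hz0 h8
          · exact hz (by rw [h8]; norm_num)
          · exact hz (by rw [h8]; norm_num)
        rw [he z h7]
        ring
    rwa [h6] at h5
  rcases key with key | key
  · exact hfin 1 (by norm_num) fun z hz => by rw [key hz, one_mul]
  · exact hfin (-1) (by norm_num) fun z hz => by
      rw [key hz, Pi.neg_apply]
      ring

/-- the sign of `RM / S` is constant -/
theorem VC.exists_lam (h : VC C T S RM RN γ0 a) (hγ : γ0 ≠ 0) : ∃ l : ℂ, l ^ 2 = 1 ∧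
    ∀ z : ℂ, z ^ 2 ≠ 1 → z ^ 2 ≠ -1 → RatH C S RM (a z) l := by
  have h1 : ∀ z : ℂ, ∃ k, z ^ 2 ≠ 1 → z ^ 2 ≠ -1 → RatH C S RM (a z) k ∧ k ^ 2 = 1 := by
    intro z
    by_cases hz : z ^ 2 = 1
    · exact ⟨0, fun h2 => absurd hz h2⟩
    by_cases hz' : z ^ 2 = -1
    · exact ⟨0, fun _ h2 => absurd hz' h2⟩
    · have h3 : γ0 * (1 + z ^ 2) / (1 - z ^ 2) ≠ 0 := by
        refine div_ne_zero (mul_ne_zero hγ fun h0 => hz' ?_) (sub_ne hz)
        linear_combination h0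
      obtain ⟨k, hk, hk2⟩ := (h.vp z).l (h.sl z hz) h3
      exact ⟨k, fun _ _ => ⟨hk, hk2⟩⟩
  choose k hk using h1
  set F : Set ℂ := {1, -1, Complex.I, -Complex.I} with hF
  have hFf : F.Finite := by rw [hF]; exact Set.toFinite _
  have hm : ∀ {z : ℂ}, z ∈ Fᶜ → z ^ 2 ≠ 1 ∧ z ^ 2 ≠ -1 := by
    intro z hz
    rw [hF, mem_compl_iff, mem_insert_iff, mem_insert_iff, mem_insert_iff, mem_singleton_iff] at hz
    push Not at hz
    refine ⟨fun h2 => ?_, fun h2 => ?_⟩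
    · rcases sq_eq_sq_iff_eq_or_eq_neg.1 (h2.trans (one_pow 2).symm) with h3 | h3
      · exact hz.1 h3
      · exact hz.2.1 h3
    · rw [← Complex.I_sq] at h2
      rcases sq_eq_sq_iff_eq_or_eq_neg.1 h2 with h3 | h3
      · exact hz.2.2.1 h3
      · exact hz.2.2.2 h3
  have hc : ContinuousOn k Fᶜ :=
    continuousOn_val (C := C) (a := S) (b := RM) hFf.isClosed.isOpen_compl h.cont.continuousOn
      (fun z hz => (hk z (hm hz).1 (hm hz).2).1) (fun z _ => (h.vp z).nS)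
  have key := (preconn_compl hFf).eq_or_eq_neg_of_sq_eq (g := fun _ => (1 : ℂ)) hc
    continuousOn_const (fun z hz => by
      show k z ^ 2 = 1 ^ 2
      rw [(hk z (hm hz).1 (hm hz).2).2, one_pow])
    (fun {z} _ => one_ne_zero)
  have hfin : ∀ l : ℂ, l ^ 2 = 1 → (∀ z ∈ Fᶜ, k z = l) → ∃ l : ℂ, l ^ 2 = 1 ∧
      ∀ z : ℂ, z ^ 2 ≠ 1 → z ^ 2 ≠ -1 → RatH C S RM (a z) l := by
    intro l hl he
    refine ⟨l, hl, fun z hz hz' => ?_⟩
    have h5 := (hk z hz hz').1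
    have h7 : z ∈ Fᶜ := by
      rw [hF, mem_compl_iff, mem_insert_iff, mem_insert_iff, mem_insert_iff, mem_singleton_iff]
      rintro (h8 | h8 | h8 | h8)
      · exact hz (by rw [h8]; norm_num)
      · exact hz (by rw [h8]; norm_num)
      · exact hz' (by rw [h8, Complex.I_sq])
      · exact hz' (by rw [h8, neg_sq, Complex.I_sq])
    rwa [he z h7] at h5
  rcases key with key | key
  · exact hfin 1 (by norm_num) fun z hz => key hz
  · exact hfin (-1) (by norm_num) fun z hz => key hz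

end VCs

/-! ### the arcs -/

section arcs

variable {T S RM RN : X → ℂ} {γ0 sg l : ℂ} {a : ℂ → X} {Z : Set X}

/-- the parameter of the arc -/
def zp (e : ℂ) (t : I) : ℂ := e * Complex.I * ((1 - 2 * (t : ℝ) : ℝ) : ℂ)

theorem continuous_zp (e : ℂ) : Continuous (zp e) := by
  unfold zp
  fun_prop

theorem zp_zero (e : ℂ) : zp e 0 = e * Complex.I := by simp [zp]

theorem zp_one (e : ℂ) : zp e 1 = -(e * Complex.I) := by
  simp only [zp, Set.Icc.coe_one]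
  push_cast
  ring

theorem zp_sq {e : ℂ} (he : e ^ 2 = 1) (t : I) :
    zp e t ^ 2 = -(((1 - 2 * (t : ℝ)) ^ 2 : ℝ) : ℂ) := by
  rw [zp, mul_pow, mul_pow, he, Complex.I_sq]
  push_cast
  ring

/-- the arc -/
def pth (ha : Continuous a) (hZ : ∀ z, a z ∈ Z) (e : ℂ) :
    Path (⟨a (e * Complex.I), hZ _⟩ : Z) ⟨a (-(e * Complex.I)), hZ _⟩ where
  toFun t := ⟨a (zp e t), hZ _⟩
  continuous_toFun := Continuous.subtype_mk (ha.comp (continuous_zp e)) _
  source' := by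
    apply Subtype.ext
    show a (zp e 0) = a (e * Complex.I)
    rw [zp_zero]
  target' := by
    apply Subtype.ext
    show a (zp e 1) = a (-(e * Complex.I))
    rw [zp_one]


theorem arcX_pth (ha : Continuous a) (hZ : ∀ z, a z ∈ Z)
    (hm : ∀ z : ℂ, z ^ 2 ≠ 1 → RatH C T S (a z) (γ0 * (1 + z ^ 2) / (1 - z ^ 2)))
    (hk : ∀ z : ℂ, z ^ 2 ≠ 1 → RatH C T RN (a z) (sg * γ0 * (2 * z) / (1 - z ^ 2)))
    (hl : ∀ z : ℂ, z ^ 2 ≠ 1 → z ^ 2 ≠ -1 → RatH C S RM (a z) l)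
    {e : ℂ} (he : e ^ 2 = 1) (hel : l * sg = e) : ArcX γ0 S T RM RN (pth ha hZ e) := by
  have hden : ∀ x : ℝ, (0 : ℝ) < 1 + x ^ 2 := fun x => by positivity
  have hz1 : ∀ t : I, zp e t ^ 2 ≠ 1 := by
    intro t h
    rw [zp_sq he] at h
    have h1 : -((1 - 2 * (t : ℝ)) ^ 2) = 1 := by exact_mod_cast h
    nlinarith [sq_nonneg (1 - 2 * (t : ℝ))]
  have key : ∀ t : I, (1 : ℂ) - zp e t ^ 2 = ((1 + (1 - 2 * (t : ℝ)) ^ 2 : ℝ) : ℂ) := by
    intro t
    rw [zp_sq he]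
    push_cast
    ring
  have key2 : ∀ t : I, (1 : ℂ) + zp e t ^ 2 = ((1 - (1 - 2 * (t : ℝ)) ^ 2 : ℝ) : ℂ) := by
    intro t
    rw [zp_sq he]
    push_cast
    ring
  have hne : ∀ t : I, ((1 + (1 - 2 * (t : ℝ)) ^ 2 : ℝ) : ℂ) ≠ 0 := fun t =>
    Complex.ofReal_ne_zero.2 (hden _).ne'
  refine ⟨fun t => 2 * (1 - 2 * (t : ℝ)) / (1 + (1 - 2 * (t : ℝ)) ^ 2),
    ⟨1 / 2, by norm_num, by norm_num⟩, ?_, ?_, ?_, ?_, ?_, ?_, ?_, ?_⟩
  · simp only [Set.Icc.coe_zero]; norm_num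
  · simp only [Set.Icc.coe_one]; norm_num
  · show 2 * (1 - 2 * (1 / 2 : ℝ)) / (1 + (1 - 2 * (1 / 2 : ℝ)) ^ 2) = 0
    norm_num
  · intro t
    rw [abs_le, le_div_iff₀ (hden _), div_le_iff₀ (hden _)]
    constructor
    · nlinarith [sq_nonneg (1 + (1 - 2 * (t : ℝ)))]
    · nlinarith [sq_nonneg (1 - (1 - 2 * (t : ℝ)))]
  · intro t ht
    have h1 : (t : ℝ) ≤ 1 / 2 := ht
    exact div_nonneg (by linarith) (hden _).le
  · intro t ht
    have h1 : 1 / 2 ≤ (t : ℝ) := ht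
    exact div_nonpos_of_nonpos_of_nonneg (by linarith) (hden _).le
  · intro t
    refine ⟨_, (hm _ (hz1 t)).rat, ?_⟩
    rw [key, key2]
    have h1 := hne t
    push_cast at h1 ⊢
    field_simp
    ring
  · intro t hs0 hs1
    have hz2 : zp e t ^ 2 ≠ -1 := by
      intro h
      rw [zp_sq he] at h
      have h1 : (1 - 2 * (t : ℝ)) ^ 2 = 1 := by
        have h2 : -((1 - 2 * (t : ℝ)) ^ 2) = -1 := by exact_mod_cast h
        linarith
      have h3 : |2 * (1 - 2 * (t : ℝ)) / (1 + (1 - 2 * (t : ℝ)) ^ 2)| = 1 := by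
        rw [h1]
        have h4 : |1 - 2 * (t : ℝ)| = 1 := by
          rw [← sq_eq_sq₀ (abs_nonneg _) zero_le_one, sq_abs, h1, one_pow]
        rw [show 2 * (1 - 2 * (t : ℝ)) / (1 + 1) = 1 - 2 * (t : ℝ) by ring, h4]
      exact absurd h3 hs1.ne
    refine ⟨_, _, (hk _ (hz1 t)).rat, (hl _ (hz1 t) hz2).rat, ?_⟩
    rw [key, zp]
    have h1 := hne t
    push_cast at h1 ⊢
    field_simp
    linear_combination ((1 - 2 * (t : ℂ)) * γ0 * e) * hel + ((1 - 2 * (t : ℂ)) * γ0) * he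

theorem exists_path {P : X → Prop} {x y : X} (hx : x ∈ Z) (hy : y ∈ Z)
    (h : JoinedIn {x | x ∈ Z ∧ P x} x y) :
    ∃ r : Path (⟨x, hx⟩ : Z) ⟨y, hy⟩, ∀ t, P (r t : X) := by
  obtain ⟨γ, hγ⟩ := h
  refine ⟨{ toFun := fun t => ⟨γ t, (hγ t).1⟩
            continuous_toFun := Continuous.subtype_mk γ.continuous _
            source' := Subtype.ext γ.source
            target' := Subtype.ext γ.target }, fun t => (hγ t).2⟩

/-- **the closed 4-gon**: `a` and `τ ∘ a` are the two sheets of the curve, joined at `± I` by curves of slope `0` -/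
theorem exists_cycle {τ : X → X} (h : VC C T S RM RN γ0 a) (hγ : γ0 ≠ 0) (hτ : HolC C C τ)
    (hττ : ∀ x, τ (τ x) = x) (hZ : ∀ z, a z ∈ Z) (hZ' : ∀ z, τ (a z) ∈ Z)
    (eT : ∀ x ∈ Z, ∀ᶠ z in 𝓝 x, T (τ z) = T z) (eS : ∀ x ∈ Z, ∀ᶠ z in 𝓝 x, S (τ z) = S z)
    (eN : ∀ x ∈ Z, ∀ᶠ z in 𝓝 x, RN (τ z) = RN z) (eM : ∀ x ∈ Z, ∀ᶠ z in 𝓝 x, RM (τ z) = -RM z)
    (hB : ∀ e : ℂ, e ^ 2 = -1 → JoinedIn {x | x ∈ Z ∧ Rat T S x 0} (a e) (τ (a e))) :
    ∃ (z₀ z₁ z₂ z₃ : Z) (k₁ : Path z₀ z₁) (r₁ : Path z₁ z₂) (k₂ : Path z₂ z₃) (r₂ : Path z₃ z₀),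
      ArcX γ0 S T RM RN k₁ ∧ ArcX γ0 S T RM RN k₂ ∧ (∀ t, Rat T S (r₁ t : X) 0) ∧
        ∀ t, Rat T S (r₂ t : X) 0 := by
  obtain ⟨sg, hsg, hk⟩ := h.exists_sigma hγ
  obtain ⟨l, hl1, hl⟩ := h.exists_lam hγ
  set e := l * sg with he
  have he2 : e ^ 2 = 1 := by rw [he, mul_pow, hl1, hsg, one_mul]
  have hm' : ∀ z : ℂ, z ^ 2 ≠ 1 →
      RatH C T S (τ (a z)) (γ0 * (1 + z ^ 2) / (1 - z ^ 2)) := by
    intro z hz
    have h1 := (h.sl z hz).tr hτ (hττ (a z)) (one_pow 2) (eT _ (hZ' z)) (by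
      filter_upwards [eS _ (hZ' z)] with x hx
      rw [hx, one_mul])
    rwa [one_mul] at h1
  have hk' : ∀ z : ℂ, z ^ 2 ≠ 1 →
      RatH C T RN (τ (a z)) (sg * γ0 * (2 * z) / (1 - z ^ 2)) := by
    intro z hz
    have h1 := (hk z hz).tr hτ (hττ (a z)) (one_pow 2) (eT _ (hZ' z)) (by
      filter_upwards [eN _ (hZ' z)] with x hx
      rw [hx, one_mul])
    rwa [one_mul] at h1
  have hl' : ∀ z : ℂ, z ^ 2 ≠ 1 → z ^ 2 ≠ -1 → RatH C S RM (τ (a z)) (-l) := by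
    intro z hz hz'
    have h1 := (hl z hz hz').tr hτ (hττ (a z)) (c := -1) (by norm_num) (eS _ (hZ' z)) (by
      filter_upwards [eM _ (hZ' z)] with x hx
      rw [hx, neg_one_mul])
    rwa [neg_one_mul] at h1
  have hk₁ := arcX_pth (C := C) h.cont hZ h.sl hk hl he2 he.symm
  have hk₂ := arcX_pth (C := C) (a := fun z => τ (a z)) (hτ.cont.comp h.cont) hZ' hm' hk' hl'
    (e := -e) (by rw [neg_sq, he2]) (by rw [neg_mul, he])
  have hI : ∀ c : ℂ, c ^ 2 = 1 → (c * Complex.I) ^ 2 = -1 := fun c hc => by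
    rw [mul_pow, hc, Complex.I_sq, one_mul]
  have e1 : -(e * Complex.I) = -e * Complex.I := by ring
  have e3 : -(-e * Complex.I) = e * Complex.I := by ring
  have j₁ : JoinedIn {x | x ∈ Z ∧ Rat T S x 0} (a (-(e * Complex.I)))
      (τ (a (-e * Complex.I))) := by
    rw [e1]
    exact hB _ (hI _ (by rw [neg_sq, he2]))
  have j₂ : JoinedIn {x | x ∈ Z ∧ Rat T S x 0} (τ (a (-(-e * Complex.I))))
      (a (e * Complex.I)) := by
    rw [e3]
    exact (hB _ (hI _ he2)).symm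
  obtain ⟨r₁, hr₁⟩ := exists_path (hZ _) (hZ' _) j₁
  obtain ⟨r₂, hr₂⟩ := exists_path (hZ' _) (hZ _) j₂
  exact ⟨_, _, _, _, pth h.cont hZ e, r₁, pth (a := fun z => τ (a z)) (hτ.cont.comp h.cont) hZ' (-e),
    r₂, hk₁, hk₂, hr₁, hr₂⟩

end arcs

end

end Crest.Agent.R272.Val_83
end

-- ▼ part R272/Val2_83
section

/-!
# R272, leaf S14-CYC-VAL (helper83), part 2: 235's `ArcsX` from 760's `CycD`

`CycD.fl`: the deck transformation `y_0 ↦ - y_0`; `Sheet.exists_pt`: every point over `Γ` is on a sheet;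
`vp_of_near`: 235's `NearX` gives the local shapes `VP`; `ratH_of`: a quotient with a value is holomorphic;
`arcsX`: **the four paths**.
-/

set_option autoImplicit false
set_option linter.unusedSectionVars false

open Set Topology Filter
open scoped unitInterval

namespace Crest.Agent.R272.Val_83

open Crest.Agent.R275.Geo Crest.Agent.R275.Core144 Crest.Agent.R273.Fam_835
open Crest.Agent.R272.Quot_783 Crest.Agent.R273.Map_835
open Crest.Agent.R272.Root_83 Crest.Agent.R272.Gm1_235 Crest.Agent.R272.Gm2_235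
open Crest.Agent.R272.Gm3_235 (Rat ArcX)
open Crest.Agent.R272.As1_235
open Crest.Agent.R272.DCov_426 Crest.Agent.R272.Cyc_760

noncomputable section

/-! ### holomorphy of quotients -/

section quot

variable {n : ℕ} {X B C : Type} [TopologicalSpace X] [TopologicalSpace B] [TopologicalSpace C]
  {CX : Fam n X} {AB : Atl 1 B} {AC : Atl 1 C} {h g : B → C} {z0 : B} {w0 : C}
  {π1 : X → B} {π2 : X → C} {f1 : B → ℂ} {f2 : C → ℂ} {γ0 : ℂ} {Z : Set X} {S T0 RM RN : X → ℂ}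
  {x : X} {m : ℂ}

theorem freq_lc {K : Type} [TopologicalSpace K] {AK : Atl 1 K} {P : X → K} {c : K} {f : K → ℂ}
    {F : X → ℂ} (hP : ContinuousAt P x) (hx : P x = c) (hf : UnB_894.LC AK c f) (hc : f c = 0)
    (hne : ∃ᶠ z in 𝓝 x, P z ≠ c) (hF : ∀ᶠ z in 𝓝 x, F z ^ 2 = f (P z)) :
    ∃ᶠ z in 𝓝 x, F z ≠ 0 := by
  obtain ⟨-, N, hN, hinj⟩ := hf
  have h1 : ∀ᶠ z in 𝓝 x, P z ∈ N := hP.eventually (by rw [hx]; exact hN)
  refine (hne.and_eventually (h1.and hF)).mono ?_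
  rintro z ⟨hz, hzN, hz2⟩ h0
  apply hz
  apply hinj hzN (mem_of_mem_nhds hN)
  rw [← hz2, h0, hc]
  simp

/-- the local shapes from 235's `NearX` -/
theorem vp_of_near (N : NearX CX AB AC h g z0 w0 π1 π2 f1 f2 γ0 Z S T0 RM RN)
    (he2 : ∃ e : B → ℂ, HG (fam AB) z0 e ∧ ∀ᶠ z in 𝓝 z0, f2 (h z) = f1 z ^ 2 * e z)
    (h1 : HolC CX (fam AB) π1) (h2 : HolC CX (fam AC) π2)
    (ne1 : ∀ x, ∃ᶠ z in 𝓝 x, π2 z ≠ w0) (ne3 : ∀ x, ∃ᶠ z in 𝓝 x, π1 z ≠ z0) (hx : x ∈ Z) :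
    VP CX T0 S RM RN γ0 x := by
  have hp1 := N.hZ1 x hx
  have hp2 := N.hZ2 x hx
  have c1 : ContinuousAt π1 x := h1.cont.continuousAt
  refine ⟨N.hT x hx, N.hS x hx, N.hM x hx, N.hN x hx, ?_, ?_, ?_, ?_, ?_⟩
  · have h3 := (N.sT x hx).self_of_nhds
    rw [hp1, N.f1z] at h3
    exact pow_eq_zero_iff two_ne_zero |>.1 h3
  · exact freq_lc c1 hp1 N.lc1 N.f1z (ne3 x) (N.sT x hx)
  · exact freq_lc h2.cont.continuousAt hp2 N.lc2 N.f2w (ne1 x) (N.sS x hx)
  · obtain ⟨e, he, he0, hee⟩ := N.he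
    refine ⟨fun z => e (π1 z), HG.comp (p := π1) (hp1 ▸ he) h1, by
      show e (π1 x) = _
      rw [hp1, he0], ?_⟩
    filter_upwards [N.sN x hx, N.sS x hx, N.sT x hx, c1.eventually (by rw [hp1]; exact hee)]
      with z e1 e2 e3 e4
    rw [e1, e2, e3, e4]
  · obtain ⟨e, he, hee⟩ := he2
    refine ⟨fun z => e (π1 z), HG.comp (p := π1) (hp1 ▸ he) h1, ?_⟩
    filter_upwards [N.sM x hx, N.sS x hx, N.sT x hx, c1.eventually (by rw [hp1]; exact hee)]
      with z e1 e2 e3 e4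
    rw [e1, e2, e4, ← e3]
    ring

theorem rat_unique {a b : X → ℂ} {m' : ℂ} (ha : ∃ᶠ z in 𝓝 x, a z ≠ 0) (h : Rat a b x m)
    (h' : Rat a b x m') : m = m' := by
  obtain ⟨u, h1, rfl, h3⟩ := h
  obtain ⟨v, h1', rfl, h3'⟩ := h'
  have h4 : ContinuousAt (fun z => u z - v z) x := h1.sub h1'
  have h5 : ∃ᶠ z in 𝓝 x, u z - v z = 0 := by
    refine (ha.and_eventually (h3.and h3')).mono ?_
    rintro z ⟨hz, e1, e2⟩
    exact sub_eq_zero.2 (mul_left_cancel₀ hz (e1.symm.trans e2))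
  by_contra h6
  exact h5 (h4.eventually_ne (sub_ne_zero.2 h6))

/-- a quotient with a value is holomorphic -/
theorem ratH_of (L : SlD CX AB AC (fun x => (π1 x, π2 x)) z0 w0 f1 f2)
    (N : NearX CX AB AC h g z0 w0 π1 π2 f1 f2 γ0 Z S T0 RM RN) (hx : x ∈ Z)
    (hV : VP CX T0 S RM RN γ0 x) (hr : Rat T0 S x m) : RatH CX T0 S x m := by
  have hp1 := N.hZ1 x hx
  have hp2 := N.hZ2 x hx
  rcases L.dich x (by rw [hp1, hp2]) with ⟨q, hq, hqe⟩ | ⟨q, hq, hq0, hqe⟩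
  · obtain ⟨r, hr1, -, hr3⟩ := root_germ (C := CX) (y := x) hq hV.hT hV.hS (by
      filter_upwards [hqe, N.sS x hx, N.sT x hx] with z e1 e2 e3
      rw [e2, e3, e1]; ring) hV.nT
    have h1 : RatH CX T0 S x (r x) := ⟨r, hr1, rfl, hr3⟩
    rwa [rat_unique hV.nT h1.rat hr] at h1
  · exfalso
    obtain ⟨r, hr1, hr2, hr3⟩ := root_germ (C := CX) (y := x) hq hV.hS hV.hT (by
      filter_upwards [hqe, N.sS x hx, N.sT x hx] with z e1 e2 e3
      rw [e2, e3, e1]; ring) hV.nS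
    have hr0 : r x = 0 := by
      have h2 := hr2.self_of_nhds
      rw [hq0] at h2
      exact pow_eq_zero_iff two_ne_zero |>.1 h2
    obtain ⟨u, hu, -, hue⟩ := hr
    have h3 : ContinuousAt (fun z => u z * r z) x := hu.mul hr1.continuousAt
    have h4 : ∀ᶠ z in 𝓝 x, u z * r z ≠ 1 := by
      refine h3.eventually_ne ?_
      rw [hr0, mul_zero]
      exact zero_ne_one
    refine hV.nT ?_
    filter_upwards [h4, hue, hr3] with z e1 e2 e3 h0
    apply e1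
    have h5 : T0 z * (u z * r z) = T0 z * 1 := by
      rw [mul_one, ← mul_assoc, ← e2, ← e3]
    exact mul_left_cancel₀ h0 h5

end quot

/-! ### sheets -/

section sheets

variable {n : ℕ} {M : Type} [TopologicalSpace M] {A : Atl n M} {D : Data A (Fin 2)}

/-- every point over `Γ` is on a sheet -/
theorem exists_pt {a b : Fin 2} {Γ : HCur (fam A)} (S : Sheet D a b Γ) {x : D.X} {w : V2}
    (hw : w ≠ 0) (hx : D.p x = Γ.G w) :
    ∃ (ε : ℂ) (hε : ε ^ 2 = 1) (ζ : V2), ζ ≠ 0 ∧ S.F hε ζ = x := by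
  obtain ⟨i, hi⟩ := A.cover (Γ.G w)
  have hi' : D.p x ∈ (A.e i).source := hx ▸ hi
  have ha := D.y_pow a hi'
  have hb := D.y_pow b hi'
  rw [S.ka, hx, S.sa w hw i hi] at ha
  rw [S.kb, hx, S.sb w hw i hi] at hb
  obtain ⟨ζ, hζ, e1⟩ := exists_sqv hw
  have hfa := S.fa.ne w hw i hi
  obtain ⟨η, hη, k1, k2⟩ := Sheet.flip hζ (r := S.fb.r i w) (x := D.y b i x) (by
    rw [hb, mul_pow, ← e1]
    simp only [sqv_zero, sqv_one]
    ring)
  have f1 : sqv η = w := k1.trans e1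
  refine ⟨D.y a i x / S.fa.r i w, by rw [div_pow, ha, div_self (pow_ne_zero 2 hfa)], η, hη, ?_⟩
  have hi1 : Γ.G (sqv η) ∈ (A.e i).source := by rw [f1]; exact hi
  refine D.ext_X (i := i) (by rw [S.p_F _ hη, f1, hx]) (by rw [S.p_F _ hη]; exact hi1) fun c => ?_
  rw [S.y_F _ hη hi1]
  rcases S.eq_ab c with rfl | rfl
  · rw [S.t_a, f1, div_mul_cancel₀ _ hfa]
  · rw [S.t_b, f1, k2]

theorem isPathConnected_sheet {a b : Fin 2} {Γ : HCur (fam A)} (S : Sheet D a b Γ) {ε : ℂ}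
    (hε : ε ^ 2 = 1) : IsPathConnected (S.F hε '' {ζ : V2 | ζ ≠ 0}) := by
  have h1 : 1 < Module.rank ℝ V2 := by
    have h2 : Module.rank ℝ V2 = Module.finrank ℝ V2 := (Module.finrank_eq_rank ℝ V2).symm
    have h3 : Module.finrank ℝ V2 = 4 := by
      have := Module.finrank_mul_finrank ℝ ℂ V2
      rw [Complex.finrank_real_complex] at this
      have h4 : Module.finrank ℂ V2 = 2 := by simp
      omega
    rw [h2, h3]
    exact Nat.one_lt_ofNat
  have h2 := isPathConnected_compl_singleton_of_one_lt_rank h1 (0 : V2)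
  exact h2.image' fun ζ hζ => (S.continuousAt_F hε hζ).continuousWithinAt

end sheets

/-! ### the deck transformation and the cycle -/

section cyc

variable {n : ℕ} {M : Type} [TopologicalSpace M] {A : Atl n M} {D : Data A (Fin 2)} (K : CycD D)

/-- the signs `(-1, 1)` -/
def sgn (a : Fin 2) : ℂ := if a = 0 then -1 else 1

@[simp] theorem sgn_zero : sgn 0 = -1 := rfl
@[simp] theorem sgn_one : sgn 1 = 1 := rfl

include K in
theorem sgn_pow (a : Fin 2) : sgn a ^ D.k a = 1 := by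
  fin_cases a
  · show sgn 0 ^ D.k 0 = 1
    rw [K.Sα.ka, sgn_zero]
    norm_num
  · show sgn 1 ^ D.k 1 = 1
    rw [sgn_one, one_pow]

/-- the deck transformation `y_0 ↦ - y_0` -/
def fl (x : D.X) : D.X := D.deck sgn (sgn_pow K) x

theorem p_fl (x : D.X) : D.p (fl K x) = D.p x := rfl

theorem holC_fl : HolC D.famX D.famX (fl K) := D.holC_deck sgn (sgn_pow K)

theorem y_fl {x : D.X} {i : A.ι} (hi : D.p x ∈ (A.e i).source) (a : Fin 2) :
    D.y a i (fl K x) = sgn a * D.y a i x := D.y_deck _ _ hi a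

theorem fl_fl (x : D.X) : fl K (fl K x) = x := by
  obtain ⟨i, hi⟩ := A.cover (D.p x)
  refine D.ext_X (i := i) rfl hi fun a => ?_
  rw [y_fl K (x := fl K x) hi, y_fl K hi, ← mul_assoc]
  have h : sgn a * sgn a = 1 := by
    fin_cases a
    · show sgn 0 * sgn 0 = 1
      simp
    · show sgn 1 * sgn 1 = 1
      simp
  rw [h, one_mul]

theorem fl_α {ζ : V2} (hζ : ζ ≠ 0) : fl K (K.Sα.F CycD.one_sq ζ) = K.Sα.F CycD.neg_sq' ζ := by
  obtain ⟨i, hi⟩ := A.cover (K.α.G (sqv ζ))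
  have e1 : D.p (K.Sα.F CycD.one_sq ζ) = K.α.G (sqv ζ) := K.Sα.p_F _ hζ
  refine D.ext_X (i := i) (by rw [p_fl, e1, K.Sα.p_F _ hζ]) (by rw [p_fl, e1]; exact hi)
    fun a => ?_
  rw [y_fl K (by rw [e1]; exact hi), K.Sα.y_F _ hζ hi, K.Sα.y_F _ hζ hi]
  rcases K.Sα.eq_ab a with rfl | rfl
  · rw [K.Sα.t_a, K.Sα.t_a, sgn_zero]; ring
  · rw [K.Sα.t_b, K.Sα.t_b, sgn_one]; ring

theorem fl_β {δ : ℂ} (hδ : δ ^ 2 = 1) {ζ : V2} (hζ : ζ ≠ 0) :
    fl K (K.Sβ.F hδ ζ) = K.Sβ.F hδ ![-ζ 0, ζ 1] := by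
  obtain ⟨i, hi⟩ := A.cover (K.β.G (sqv ζ))
  have e1 : D.p (K.Sβ.F hδ ζ) = K.β.G (sqv ζ) := K.Sβ.p_F _ hζ
  have e2 : sqv ![-ζ 0, ζ 1] = sqv ζ := v2_ext (by simp) (by simp)
  have hζ' : (![-ζ 0, ζ 1] : V2) ≠ 0 := by
    intro h0
    apply sqv_ne hζ
    rw [← e2, h0]
    exact v2_ext (by simp) (by simp)
  have e3 : D.p (K.Sβ.F hδ ![-ζ 0, ζ 1]) = K.β.G (sqv ζ) := by rw [K.Sβ.p_F _ hζ', e2]
  have hi' : K.β.G (sqv ![-ζ 0, ζ 1]) ∈ (A.e i).source := by rw [e2]; exact hi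
  refine D.ext_X (i := i) (by rw [p_fl, e1, e3]) (by rw [p_fl, e1]; exact hi) fun a => ?_
  rw [y_fl K (by rw [e1]; exact hi), K.Sβ.y_F _ hζ hi, K.Sβ.y_F _ hζ' hi']
  rcases K.Sβ.eq_ab a with rfl | rfl
  · rw [K.Sβ.t_a, K.Sβ.t_a, e2, sgn_one]; ring
  · rw [K.Sβ.t_b, K.Sβ.t_b, e2, sgn_zero]
    simp only [Matrix.cons_val_zero, Matrix.cons_val_one]
    ring

theorem mem_Zα {ε : ℂ} (hε : ε ^ 2 = 1) {ζ : V2} (hζ : ζ ≠ 0) :
    K.Sα.F hε ζ ∈ ⋃ i, (K.γ i).img := by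
  have h : ε = 1 ∨ ε = -1 := by
    have h1 := hε.trans (one_pow 2).symm
    exact sq_eq_sq_iff_eq_or_eq_neg.1 h1
  rcases h with rfl | rfl
  · exact mem_iUnion.2 ⟨0, ζ, hζ, rfl⟩
  · exact mem_iUnion.2 ⟨2, ζ, hζ, rfl⟩

theorem mem_Zβ {ε : ℂ} (hε : ε ^ 2 = 1) {ζ : V2} (hζ : ζ ≠ 0) :
    K.Sβ.F hε ζ ∈ ⋃ i, (K.γ i).img := by
  have h : ε = 1 ∨ ε = -1 := by
    have h1 := hε.trans (one_pow 2).symm
    exact sq_eq_sq_iff_eq_or_eq_neg.1 h1
  rcases h with rfl | rfl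
  · exact mem_iUnion.2 ⟨1, ζ, hζ, rfl⟩
  · exact mem_iUnion.2 ⟨3, ζ, hζ, rfl⟩

/-- the affine parameter -/
def v1 (z : ℂ) : V2 := ![1, z]

theorem v1_ne (z : ℂ) : v1 z ≠ 0 := fun h => one_ne_zero (congrFun h 0)

theorem continuous_v1 : Continuous v1 := by
  refine continuous_pi fun i => ?_
  fin_cases i
  · exact continuous_const
  · exact continuous_id

/-- the first sheet over `α` -/
def aα (z : ℂ) : D.X := K.Sα.F CycD.one_sq (v1 z)

theorem continuous_aα : Continuous (aα K) := by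
  rw [continuous_iff_continuousAt]
  intro z
  exact ContinuousAt.comp (g := K.Sα.F CycD.one_sq) (f := v1)
    (K.Sα.continuousAt_F _ (v1_ne z)) continuous_v1.continuousAt

/-- at `z² = -1` the two sheets over `α` are joined in a sheet over `β` -/
theorem joined {P : D.X → Prop} (hw : K.w₁ 0 + K.w₁ 1 = 0)
    (hP : ∀ (δ : ℂ) (hδ : δ ^ 2 = 1) (ζ : V2), ζ ≠ 0 → P (K.Sβ.F hδ ζ)) {e : ℂ} (he : e ^ 2 = -1) :
    JoinedIn {x | x ∈ (⋃ i, (K.γ i).img) ∧ P x} (aα K e) (fl K (aα K e)) := by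
  have h0 : K.w₁ 0 ≠ 0 := by
    intro h0
    apply K.hw₁
    refine v2_ext h0 ?_
    rw [h0, zero_add] at hw
    exact hw
  have e1 : sqv (v1 e) = (K.w₁ 0)⁻¹ • K.w₁ := by
    refine v2_ext ?_ ?_
    · simp [v1, h0]
    · have : K.w₁ 1 = -K.w₁ 0 := by linear_combination hw
      simp [v1, this, he, h0]
  have e2 : D.p (aα K e) = K.β.G K.w₂ := by
    rw [aα, K.Sα.p_F _ (v1_ne e), e1, K.α.smul _ (inv_ne_zero h0) _ K.hw₁, K.meet]
  obtain ⟨δ, hδ, ζ, hζ, hx⟩ := exists_pt K.Sβ K.hw₂ e2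
  have hζ' : (![-ζ 0, ζ 1] : V2) ≠ 0 := by
    intro h1
    apply hζ
    have h2 := congrFun h1 0
    have h3 := congrFun h1 1
    simp at h2 h3
    exact v2_ext h2 h3
  have h1 := (isPathConnected_sheet K.Sβ hδ).joinedIn _ ⟨ζ, hζ, rfl⟩ _ ⟨_, hζ', rfl⟩
  rw [← fl_β K hδ hζ, hx] at h1
  refine h1.mono ?_
  rintro x ⟨ζ, hζ, rfl⟩
  exact ⟨mem_Zβ K hδ hζ, hP δ hδ ζ hζ⟩

theorem fl_mem {x : D.X} (hx : x ∈ ⋃ i, (K.γ i).img) : fl K x ∈ ⋃ i, (K.γ i).img := by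
  obtain ⟨i, hi⟩ := mem_iUnion.1 hx
  have hn : ∀ ζ : V2, ζ ≠ 0 → (![-ζ 0, ζ 1] : V2) ≠ 0 := by
    intro ζ hζ h1
    apply hζ
    have h2 := congrFun h1 0
    have h3 := congrFun h1 1
    simp at h2 h3
    exact v2_ext h2 h3
  fin_cases i
  · obtain ⟨ζ, hζ, rfl⟩ := hi
    show fl K (K.Sα.F CycD.one_sq ζ) ∈ _
    rw [fl_α K hζ]
    exact mem_Zα K _ hζ
  · obtain ⟨ζ, hζ, rfl⟩ := hi
    show fl K (K.Sβ.F CycD.one_sq ζ) ∈ _
    rw [fl_β K _ hζ]
    exact mem_Zβ K _ (hn ζ hζ)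
  · obtain ⟨ζ, hζ, rfl⟩ := hi
    show fl K (K.Sα.F CycD.neg_sq' ζ) ∈ _
    rw [← fl_α K hζ, fl_fl]
    exact mem_Zα K _ hζ
  · obtain ⟨ζ, hζ, rfl⟩ := hi
    show fl K (K.Sβ.F CycD.neg_sq' ζ) ∈ _
    rw [fl_β K _ hζ]
    exact mem_Zβ K _ (hn ζ hζ)

end cyc

/-! ### the four paths -/

section main

variable {M B C : Type} [TopologicalSpace M] [TopologicalSpace B] [TopologicalSpace C]
  {A : Atl 2 M} {D : Data A (Fin 2)} (K : CycD D)
  {AB : Atl 1 B} {AC : Atl 1 C} {h g : B → C} {z0 : B} {w0 : C}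
  {π1 : D.X → B} {π2 : D.X → C} {f1 : B → ℂ} {f2 : C → ℂ} {γ0 : ℂ} {S T0 RM RN : D.X → ℂ}

/-- **235's `ArcsX`**; V1, V2 on the curve `D.X` -/
theorem arcsX (N : NearX D.famX AB AC h g z0 w0 π1 π2 f1 f2 γ0 K.Z S T0 RM RN)
    (L : SlD D.famX AB AC (fun x => (π1 x, π2 x)) z0 w0 f1 f2)
    (he2 : ∃ e : B → ℂ, HG (fam AB) z0 e ∧ ∀ᶠ z in 𝓝 z0, f2 (h z) = f1 z ^ 2 * e z)
    (h1 : HolC D.famX (fam AB) π1) (h2 : HolC D.famX (fam AC) π2)
    (ne1 : ∀ x, ∃ᶠ z in 𝓝 x, π2 z ≠ w0) (ne3 : ∀ x, ∃ᶠ z in 𝓝 x, π1 z ≠ z0)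
    (hw : K.w₁ 0 + K.w₁ 1 = 0)
    (V1 : ∀ z : ℂ, z ^ 2 ≠ 1 → Rat T0 S (aα K z) (γ0 * (1 + z ^ 2) / (1 - z ^ 2)))
    (V2 : ∀ (δ : ℂ) (hδ : δ ^ 2 = 1) (ζ : V2), ζ ≠ 0 → Rat T0 S (K.Sβ.F hδ ζ) 0)
    (eT : ∀ x ∈ K.Z, ∀ᶠ z in 𝓝 x, T0 (fl K z) = T0 z)
    (eS : ∀ x ∈ K.Z, ∀ᶠ z in 𝓝 x, S (fl K z) = S z)
    (eN : ∀ x ∈ K.Z, ∀ᶠ z in 𝓝 x, RN (fl K z) = RN z)
    (eM : ∀ x ∈ K.Z, ∀ᶠ z in 𝓝 x, RM (fl K z) = -RM z) : ArcsX γ0 S T0 RM RN K.Z := by
  have hVP : ∀ x ∈ K.Z, VP D.famX T0 S RM RN γ0 x := fun x hx =>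
    vp_of_near N he2 h1 h2 ne1 ne3 hx
  have hZ : ∀ z, aα K z ∈ K.Z := fun z => mem_Zα K _ (v1_ne z)
  have hVC : VC D.famX T0 S RM RN γ0 (aα K) :=
    ⟨continuous_aα K, fun z => hVP _ (hZ z), fun z hz =>
      ratH_of L N (hZ z) (hVP _ (hZ z)) (V1 z hz)⟩
  exact exists_cycle hVC N.ne (holC_fl K) (fl_fl K) hZ (fun z => fl_mem K (hZ z)) eT eS eN eM
    fun e he => joined K hw V2 he

/-- the same with `S`, `T0` functions of the base -/
theorem arcsX_base (N : NearX D.famX AB AC h g z0 w0 π1 π2 f1 f2 γ0 K.Z S T0 RM RN)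
    (L : SlD D.famX AB AC (fun x => (π1 x, π2 x)) z0 w0 f1 f2)
    (he2 : ∃ e : B → ℂ, HG (fam AB) z0 e ∧ ∀ᶠ z in 𝓝 z0, f2 (h z) = f1 z ^ 2 * e z)
    (h1 : HolC D.famX (fam AB) π1) (h2 : HolC D.famX (fam AC) π2)
    (ne1 : ∀ x, ∃ᶠ z in 𝓝 x, π2 z ≠ w0) (ne3 : ∀ x, ∃ᶠ z in 𝓝 x, π1 z ≠ z0)
    (hw : K.w₁ 0 + K.w₁ 1 = 0) {Tb Sb : M → ℂ}
    (hT : ∀ x ∈ K.Z, ∀ᶠ z in 𝓝 x, T0 z = Tb (D.p z))
    (hS : ∀ x ∈ K.Z, ∀ᶠ z in 𝓝 x, S z = Sb (D.p z))
    (V1 : ∀ w : V2, w ≠ 0 → w 0 ≠ w 1 →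
      Rat Tb Sb (K.α.G w) (γ0 * (w 0 + w 1) / (w 0 - w 1)))
    (V2 : ∀ w : V2, w ≠ 0 → Rat Tb Sb (K.β.G w) 0)
    (eN : ∀ x ∈ K.Z, ∀ᶠ z in 𝓝 x, RN (fl K z) = RN z)
    (eM : ∀ x ∈ K.Z, ∀ᶠ z in 𝓝 x, RM (fl K z) = -RM z) : ArcsX γ0 S T0 RM RN K.Z := by
  have hup : ∀ x ∈ K.Z, ∀ m, Rat Tb Sb (D.p x) m → Rat T0 S x m := by
    rintro x hx m ⟨u, hu, hm, he⟩
    refine ⟨fun z => u (D.p z), ContinuousAt.comp (f := D.p) hu D.continuous_p.continuousAt, hm, ?_⟩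
    filter_upwards [hT x hx, hS x hx, D.continuous_p.continuousAt.eventually he] with z e1 e2 e3
    rw [e1, e2, e3]
  have hfl : ∀ {F : D.X → ℂ} {Fb : M → ℂ}, (∀ x ∈ K.Z, ∀ᶠ z in 𝓝 x, F z = Fb (D.p z)) →
      ∀ x ∈ K.Z, ∀ᶠ z in 𝓝 x, F (fl K z) = F z := by
    intro F Fb hF x hx
    have h3 := (holC_fl K).cont.continuousAt (x := x) |>.eventually (hF _ (fl_mem K hx))
    filter_upwards [h3, hF x hx] with z e1 e2
    rw [e1, e2, p_fl]
  refine arcsX K N L he2 h1 h2 ne1 ne3 hw ?_ ?_ (hfl hT) (hfl hS) eN eM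
  · intro z hz
    refine hup _ (mem_Zα K _ (v1_ne z)) _ ?_
    have h4 : D.p (K.Sα.F CycD.one_sq (v1 z)) = K.α.G (sqv (v1 z)) := K.Sα.p_F _ (v1_ne z)
    have h5 : sqv (v1 z) 0 ≠ sqv (v1 z) 1 := by
      show (1 : ℂ) ^ 2 ≠ z ^ 2
      rw [one_pow]
      exact fun h0 => hz h0.symm
    have h6 := V1 (sqv (v1 z)) (sqv_ne (v1_ne z)) h5
    rw [h4]
    have h7 : γ0 * (sqv (v1 z) 0 + sqv (v1 z) 1) / (sqv (v1 z) 0 - sqv (v1 z) 1) =
        γ0 * (1 + z ^ 2) / (1 - z ^ 2) := by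
      show γ0 * ((1 : ℂ) ^ 2 + z ^ 2) / ((1 : ℂ) ^ 2 - z ^ 2) = _
      rw [one_pow]
    rwa [h7] at h6
  · intro δ hδ ζ hζ
    refine hup _ (mem_Zβ K hδ hζ) _ ?_
    rw [K.Sβ.p_F hδ hζ]
    exact V2 _ (sqv_ne hζ)

end main

end

end Crest.Agent.R272.Val_83
end

-- ▼ part R272/Ne2_595
section

/-!
# R272 (S0414), NEAR (helper595), part 2: helper235's `NearX` for the literal model
-/

set_option autoImplicit false

open Set Filter Topology Complex

namespace Crest.Agent.R272.Ne_595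

open Crest.Agent.R272.M14_590
open Crest.Agent.R272.P1L_426 (Ch F8 CC BB)
open Crest.Agent.R272.Nl_595
open Crest.Agent.R272.Mf_839 (ka ka_pow f)

noncomputable section

/-- helper235's form of `nearX` -/
theorem nearX' (M : NLoc ka) {Z : Set M.D.X} (hZ : ∀ x ∈ Z, pN M x = P0) :
    As1_235.NearX M.D.famX CC.atlX BB.atlX phi f M14_590.z0 M14_590.w0 (π1 M) (π2 M) f1 f2 (g0 ka)
      Z (Sf M) (T0 M) (RM M) (RN M) := by
  have h := nearX M hZ
  exact ⟨h.lc1, h.lc2, h.f1z, h.f2w, h.ne, h.he, fun x hx => (h.hZ x hx).1,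
    fun x hx => (h.hZ x hx).2, h.hS, h.hT, h.hM, h.hN, h.sS, h.sT, h.sM, h.sN⟩


end

end Crest.Agent.R272.Ne_595
end

-- ▼ part R272/Val3_83
section

/-!
# R272, leaf S14-CYC-VAL (helper83), part 3: the four paths on the literal model `M : NLoc ka`

`mm_deck`: the coherent roots of the tower under the deck transformations;
`arcs14`: 235's `ArcsX` for every cycle `K : CycD M.D` over the special centre with the slopes V1, V2;
`arcs14'`: the same for a cycle whose base curves are 894's `str`, `exc` with 266's parameters.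
-/

set_option autoImplicit false
set_option linter.unusedSectionVars false

open Set Topology Filter

namespace Crest.Agent.R272.Val_83

open Crest.Agent.R275.Geo Crest.Agent.R275.Core144 Crest.Agent.R273.Fam_835
open Crest.Agent.R272.Quot_783 Crest.Agent.R273.Map_835
open Crest.Agent.R272.Root_83 Crest.Agent.R272.Gm1_235 Crest.Agent.R272.Gm2_235
open Crest.Agent.R272.Gm3_235 (Rat ArcX)
open Crest.Agent.R272.As1_235
open Crest.Agent.R272.DCov_426 Crest.Agent.R272.Cyc_760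
open Crest.Agent.R272.Blup1_102 Crest.Agent.R272.BlA_266 Crest.Agent.R272.Adp_409
open Crest.Agent.R272.Asm2_102 Crest.Agent.R272.Tow_102 Crest.Agent.R272.CyB_894

noncomputable section

section gen

variable {M : Type} [TopologicalSpace M] [T2Space M] {A : Atl 2 M} {ρ : Type} [Fintype ρ]
  {P : PD A ρ} {hk : ∀ a, P.k a = 2} {Z : Set M} {hZ : Z.Finite} {N : ∀ x : Z, Node P (x : M)}
  {hadm : ∀ x, Adm (N x).sh} {hoff : ∀ x, x ∉ Z → P.Snc x}

/-- **the coherent roots under the deck transformations** -/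
theorem mm_deck (ζ : ρ → ℂ) (hζ : ∀ a, ζ a ^ (asm P hk hZ N hadm hoff).k a = 1) (a : ρ) {i : A.ι}
    {x : TX P hk hZ N hadm hoff} (hi : pr P hk hZ N hadm hoff x ∈ (A.e i).source) :
    (mm P hk hZ N hadm hoff).R a i ((asm P hk hZ N hadm hoff).deck ζ hζ x) =
      ζ a * (mm P hk hZ N hadm hoff).R a i x := by
  obtain ⟨j₂, h₂⟩ := (D2 P hZ N).atl.cover ((asm P hk hZ N hadm hoff).p x)
  obtain ⟨j₁, h₁⟩ := (D1 P hZ N).atl.cover ((D2 P hZ N).pi ((asm P hk hZ N hadm hoff).p x))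
  rw [mm_R a hi h₁ h₂, mm_R (x := (asm P hk hZ N hadm hoff).deck ζ hζ x) a hi h₁ h₂,
    (asm P hk hZ N hadm hoff).y_deck ζ hζ h₂ a]
  have hA : ∀ a b c d y z : ℂ, a * b * (c * d * (z * y)) = z * (a * b * (c * d * y)) := by
    intros
    ring
  exact hA _ _ _ _ _ _

end gen

open Crest.Agent.R272.P1S_590 Crest.Agent.R272.Hom_839 Crest.Agent.R272.M14_590
open Crest.Agent.R272.P1L_426 (Ch F8 CC BB)
open Crest.Agent.R272.Nl_595 Crest.Agent.R272.Ne_595
open Crest.Agent.R272.Mf_839 (ka)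

section model

variable {k : ℂ} {M : NLoc k}

theorem RM_fl (K : CycD M.D) {x : M.D.X} (h1 : pC M x ∈ (Ch.atlX.e i0).source)
    (h2 : pF M x ∈ (F8.atlX.e j0).source) : RM M (fl K x) = -RM M x := by
  have h := mm_deck (P := TW.pd k) (hk := TW.pd_k k) (hZ := M.fin) (N := M.N) (hadm := M.adm)
    (hoff := M.off) sgn (sgn_pow K) 0 (i := (i0, j0)) (x := x) ⟨h1, h2⟩
  refine h.trans ?_
  rw [sgn_zero, neg_one_mul]
  rfl

theorem RN0_fl (K : CycD M.D) {x : M.D.X} (h1 : pC M x ∈ (Ch.atlX.e i0).source)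
    (h2 : pF M x ∈ (F8.atlX.e j0).source) : RN0 M (fl K x) = RN0 M x := by
  have h := mm_deck (P := TW.pd k) (hk := TW.pd_k k) (hZ := M.fin) (N := M.N) (hadm := M.adm)
    (hoff := M.off) sgn (sgn_pow K) 1 (i := (i0, j0)) (x := x) ⟨h1, h2⟩
  refine h.trans ?_
  rw [sgn_one, one_mul]
  rfl

theorem RN_fl (K : CycD M.D) {x : M.D.X} (h1 : pC M x ∈ (Ch.atlX.e i0).source)
    (h2 : pF M x ∈ (F8.atlX.e j0).source) : RN M (fl K x) = RN M x := by
  show RN0 M (fl K x) * cN (T0 M (fl K x)) = RN0 M x * cN (T0 M x)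
  rw [RN0_fl K h1 h2]
  rfl

end model

theorem he2 : ∃ e : CC.X → ℂ, HG (fam CC.atlX) M14_590.z0 e ∧
    ∀ᶠ z in 𝓝 M14_590.z0, f2 (phi z) = f1 z ^ 2 * e z := by
  refine ⟨fun _ => 1, HG.const 1, ?_⟩
  filter_upwards [NlB_426.ev_src CC (src_of_rep M14_590.rep_z0)] with z hz
  rw [f2_phi hz, mul_one]

/-- **the four paths on the literal model** -/
theorem arcs14 (M : NLoc ka) (hN : Sl1_235.NodeP M) (K : CycD M.D)
    (hK : ∀ x ∈ K.Z, pN M x = P0)
    (ne1 : ∀ x, ∃ᶠ z in 𝓝 x, π2 M z ≠ M14_590.w0) (ne3 : ∀ x, ∃ᶠ z in 𝓝 x, π1 M z ≠ M14_590.z0)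
    (hw : K.w₁ 0 + K.w₁ 1 = 0)
    (V1 : ∀ w : V2, w ≠ 0 → w 0 ≠ w 1 →
      Rat (fun y => NlB_426.t1 false (piN (PN ka) M.fin M.N y).1)
        (fun y => NlB_426.om false (piN (PN ka) M.fin M.N y).2)
        (K.α.G w) (g0 ka * (w 0 + w 1) / (w 0 - w 1)))
    (V2 : ∀ w : V2, w ≠ 0 → Rat (fun y => NlB_426.t1 false (piN (PN ka) M.fin M.N y).1)
        (fun y => NlB_426.om false (piN (PN ka) M.fin M.N y).2) (K.β.G w) 0) :
    ArcsX (g0 ka) (Sf M) (T0 M) (RM M) (RN M) K.Z := by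
  refine arcsX_base K (nearX' M hK) (Sl1_235.slD M hN) he2 (holC_π1 M) (holC_π2 M) ne1 ne3 hw
    (Tb := fun y => NlB_426.t1 false (piN (PN ka) M.fin M.N y).1)
    (Sb := fun y => NlB_426.om false (piN (PN ka) M.fin M.N y).2)
    (fun _ _ => Eventually.of_forall fun _ => rfl) (fun _ _ => Eventually.of_forall fun _ => rfl)
    V1 V2 ?_ ?_
  · intro x hx
    filter_upwards [ev_pC (hK x hx), ev_pF (hK x hx)] with z h1 h2
    exact RN_fl K h1 h2
  · intro x hx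
    filter_upwards [ev_pC (hK x hx), ev_pF (hK x hx)] with z h1 h2
    exact RM_fl K h1 h2

/-- the four paths for a cycle with base curves `str.pre (Bg (g0 ka))`, `exc.pre B` of 894 / 266 -/
theorem arcs14' (M : NLoc ka) (hN : Sl1_235.NodeP M) (K : CycD M.D)
    (hK : ∀ x ∈ K.Z, pN M x = P0)
    (ne1 : ∀ x, ∃ᶠ z in 𝓝 x, π2 M z ≠ M14_590.w0) (ne3 : ∀ x, ∃ᶠ z in 𝓝 x, π1 M z ≠ M14_590.z0)
    (hw : K.w₁ 0 + K.w₁ 1 = 0)
    (t : (D1 (PN ka) M.fin M.N).S) (ht : t ∈ tau (D1 (PN ka) M.fin M.N) (sh1 (PN ka) M.fin M.N))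
    (ht0 : t.1 = P0) (hγ : g0 ka ≠ 0) (B : V2 ≃L[ℂ] V2)
    (hα : ∀ w, K.α.G w =
      (((two14 (PN ka) M.fin M.N t ht).str.pre (BlS_266.Bg (g0 ka) hγ)).G w))
    (hβ : ∀ w, K.β.G w =
      (((exc (D2 (PN ka) M.fin M.N) (two14 (PN ka) M.fin M.N t ht).s2).pre B).G w)) :
    ArcsX (g0 ka) (Sf M) (T0 M) (RM M) (RN M) K.Z := by
  have hP : NlB_426.Is ka .P t.1 := by
    rw [ht0]
    exact ⟨src_p1, src_p2, t1_p1, om_p2, trivial⟩
  obtain ⟨e1, e2⟩ := hN t hP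
  refine arcs14 M hN K hK ne1 ne3 hw (fun w hw0 hw1 => ?_) fun w hw0 => ?_
  · have h := rat_strG (PN ka) M.fin M.N t ht (γ := g0 ka) (hγ := hγ) hw1
    rw [← hα w] at h
    rw [e1, e2] at h
    exact h
  · have h := rat_excB (PN ka) M.fin M.N t ht B w
    rw [← hβ w] at h
    rw [e1, e2] at h
    exact h

end

end Crest.Agent.R272.Val_83
end

-- ▼ part R272/Sq4b_771
section

/-!
Row 272 (S0414), leaf S14-SQ4 (helper771), part b: local coordinates of the curves over `P1` in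
homogeneous coordinates (839's `Rep`), and the square classes (H1), (H3), (H4) for maps to `BB`,
`CC` given by germs of homogeneous coordinates.
-/

set_option autoImplicit false
set_option linter.unusedSectionVars false

open Set Topology Filter Complex

namespace Crest.Agent.R272.Sq4_771

open Crest.Agent.R275.Geo Crest.Agent.R275.Core144 Crest.Agent.R273.Fam_835
open Crest.Agent.R273.Map_835 Crest.Agent.R272.Quot_783
open Crest.Agent.R272.Root_83 Crest.Agent.R272.DCov_426 Crest.Agent.R272.P1F_54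
open Crest.Agent.R272.P1S_590 Crest.Agent.R272.Hom_839 Crest.Agent.R272.Lc_771
open Crest.Agent.R272.P1L_426 (Ch F8 CC BB f16 f8 f4 g8)

noncomputable section

/-! ### local coordinates in homogeneous form -/

section rep

variable {ρ : Type} [Fintype ρ] {D : DCov_426.Data A1 ρ} {d : ρ → ℕ} {F : ρ → ℂ → ℂ → ℂ}
  {q : D.X} {a0 a1 : ℂ} {v : ρ → ℂ} {A' : Atl 1 D.X}

theorem pc_rep (r : Rep D d q a0 a1 v) {s : Bool} (hs : sel s a0 a1 ≠ 0) :
    pc s (D.p q) = oth s a0 a1 / sel s a0 a1 := by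
  rw [r.p, pc_pt hs]

/-- off the branch points the affine coordinates are local coordinates -/
theorem lc_pc_rep (hc : Cmp D.famX A') (r : Rep D d q a0 a1 v) {s : Bool}
    (hs : sel s a0 a1 ≠ 0) (hv : ∀ a, v a ≠ 0) : LC A' q (fun x => pc s (D.p x)) := by
  obtain ⟨s', hs'⟩ := cover_ch1 (D.p q)
  refine lc_base D hc (j := s') hs' (fun a => ?_) (lc_pc ?_)
  · have h1 : D.y a s' q ≠ 0 := by
      rw [r.y a s' (by rw [← r.p]; exact hs')]
      exact div_ne_zero (hv a) (pow_ne_zero _ (sel_ne r.ne (by rw [← r.p]; exact hs')))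
    have h2 : D.y a s' q ^ D.k a = D.s a s' (D.p q) := D.y_pow a (i := s') hs'
    rw [← h2]
    exact pow_ne_zero _ h1
  · rw [r.p]
    exact (mem_ps_pt r.ne s).2 hs

/-- at a branch point the function `y a` is a local coordinate -/
theorem lc_y_rep (hc : Cmp D.famX A') (r : Rep D d q a0 a1 v) {s : Bool}
    (hs : pt a0 a1 ∈ (ch1 s).source) {a : ρ} (hv : v a = 0) : LC A' q (D.y a s) := by
  have hq : D.p q ∈ (A1.e s).source := by rw [r.p]; exact hs
  refine lc_y D hc (j := s) hq ?_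
  have h2 : D.y a s q ^ D.k a = D.s a s (D.p q) := D.y_pow a (i := s) hq
  rw [← h2, r.y a s hs, hv, zero_div, zero_pow (D.kpos a).ne']

end rep

/-! ### germs -/

section germs

variable {n : ℕ} {X : Type} [TopologicalSpace X] {C : Fam n X} {x : X}

theorem HG.div {f g : X → ℂ} (hf : HG C x f) (hg : HG C x g) (hne : g x ≠ 0) :
    HG C x (fun z => f z / g z) := by
  have := hf.mul (hg.inv hne)
  exact this.congr (Eventually.of_forall fun z => (div_eq_mul_inv _ _).symm)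

/-- (H1), (H3): the point `P y` has homogeneous coordinates `(a², b², *)`, the fixed point is
`(1, 0; *)` -/
theorem sq_const {D : DCov_426.Data A1 (Fin 1)} {d : Fin 1 → ℕ} {F : Fin 1 → ℂ → ℂ → ℂ}
    {A' : Atl 1 D.X} (h : IsHom D d F) (hc : Cmp D.famX A')
    {P : X → D.X} {w : D.X} {c0 : ℂ} {c : Fin 1 → ℂ} (hw : Rep D d w c0 0 c) (hcne : c 0 ≠ 0)
    {a b : X → ℂ} {v : X → Fin 1 → ℂ} (ha : HG C x a) (hb : HG C x b)
    (hbf : ∃ᶠ z in 𝓝 x, b z ≠ 0)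
    (hP : ∀ᶠ y in 𝓝 x, Rep D d (P y) (a y ^ 2) (b y ^ 2) (v y)) (hx : P x = w) :
    ∃ f, LC A' (P x) f ∧ SqE C x (fun z => f (P z) - f w) (fun _ => 1) := by
  have hc0 : c0 ≠ 0 := hw.ne.resolve_right (fun h => h rfl)
  refine ⟨fun q => pc false (D.p q), ?_, ?_⟩
  · rw [hx]
    exact lc_pc_rep hc hw (s := false) hc0 (fun a => by rw [Subsingleton.elim a 0]; exact hcne)
  · have hPx := hP.self_of_nhds
    rw [hx] at hPx
    obtain ⟨e, he, e0, -, -⟩ := h.rep_rel hw hPx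
    have hax : a x ≠ 0 := by
      intro h0
      rw [h0] at e0
      apply mul_ne_zero he hc0
      rw [← e0]; ring
    have hw0 : pc false (D.p w) = 0 := by
      rw [pc_rep hw (s := false) hc0]
      simp
    refine SqE.of_sq (a := fun z => b z / a z) (HG.div hb ha hax) ?_ ?_
    · refine (hbf.and_eventually (ha.continuousAt.eventually_ne hax)).mono ?_
      rintro z ⟨h1, h2⟩
      exact div_ne_zero h1 h2
    · filter_upwards [hP, ha.continuousAt.eventually_ne hax] with z h1 h2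
      rw [hw0, sub_zero, pc_rep h1 (s := false) (pow_ne_zero 2 h2)]
      simp only [oth_false, sel_false]
      rw [div_pow]

/-- (H4) in germs: two maps `P`, `H` to `BB` -/
theorem sq_pair {A' : Atl 1 BB.X} (hc : Cmp BB.famX A') {P H : X → BB.X}
    {Z₁ X₁ Y₁ Z₂ X₂ Y₂ : X → ℂ}
    (hZ₁ : HG C x Z₁) (hZ₂ : HG C x Z₂) (hX₁ : HG C x X₁) (hX₂ : HG C x X₂)
    (hP : ∀ᶠ y in 𝓝 x, Rep BB (fun _ => 1) (P y) (Z₂ y) (X₂ y) (fun _ => Y₂ y))
    (hH : ∀ᶠ y in 𝓝 x, Rep BB (fun _ => 1) (H y) (Z₁ y) (X₁ y) (fun _ => Y₁ y))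
    (hs : Y₂ x = 0 → Y₁ x = 0 → Z₁ x ≠ 0 → Z₂ x ≠ 0 → ∃ e₁ e₂ : X → ℂ, HG C x e₁ ∧ HG C x e₂ ∧
      (∃ᶠ z in 𝓝 x, e₁ z ≠ 0) ∧ (∃ᶠ z in 𝓝 x, e₂ z ≠ 0) ∧
      (∀ᶠ z in 𝓝 x, Y₁ z = Z₁ z * e₁ z ^ 2) ∧ (∀ᶠ z in 𝓝 x, Y₂ z = Z₂ z * e₂ z ^ 2) ∧
      Slope C x e₂ e₁)
    (hN : SqE C x (fun z => X₂ z * Z₁ z - Z₂ z * X₁ z) (fun _ => 1)) (hx : P x = H x) :
    ∃ f, LC A' (P x) f ∧ SqE C x (fun z => f (P z) - f (H z)) (fun _ => 1) := by
  have rP := hP.self_of_nhds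
  have rH := hH.self_of_nhds
  rw [← hx] at rH
  obtain ⟨c, hc0, eZ, eX, eY⟩ := isHom_BB.rep_rel rH rP
  have eY : Y₂ x = c ^ 1 * Y₁ x := eY 0
  have eqP : Y₂ x ^ 4 = Z₂ x ^ 4 - X₂ x ^ 4 := isHom_BB.rep_eqn rP 0
  have evP : ∀ᶠ y in 𝓝 x, Y₂ y ^ 4 = Z₂ y ^ 4 - X₂ y ^ 4 := by
    filter_upwards [hP] with y hy using isHom_BB.rep_eqn hy 0
  have evH : ∀ᶠ y in 𝓝 x, Y₁ y ^ 4 = Z₁ y ^ 4 - X₁ y ^ 4 := by
    filter_upwards [hH] with y hy using isHom_BB.rep_eqn hy 0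
  by_cases hY : Y₂ x = 0
  · -- `Y = 0`
    have hZX : Z₂ x ^ 4 = X₂ x ^ 4 := by
      rw [hY] at eqP; linear_combination -eqP
    have hZ2 : Z₂ x ≠ 0 := by
      intro h0
      rw [h0, zero_pow four_ne_zero] at hZX
      have hX0 : X₂ x = 0 := pow_eq_zero_iff four_ne_zero |>.1 hZX.symm
      exact rP.ne.elim (fun h => h h0) (fun h => h hX0)
    have hX2 : X₂ x ≠ 0 := by
      intro h0
      rw [h0, zero_pow four_ne_zero] at hZX
      exact hZ2 (pow_eq_zero_iff four_ne_zero |>.1 hZX)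
    have hZ1 : Z₁ x ≠ 0 := fun h0 => hZ2 (by rw [eZ, h0, mul_zero])
    have hX1 : X₁ x ≠ 0 := fun h0 => hX2 (by rw [eX, h0, mul_zero])
    have hnorm : ∀ {a b : ℂ}, a ^ 4 = b ^ 4 → ‖a‖ = ‖b‖ := by
      intro a b hab
      have := congrArg norm hab
      rw [norm_pow, norm_pow] at this
      exact (pow_left_inj₀ (norm_nonneg _) (norm_nonneg _) four_ne_zero).1 this
    have key : ∀ {Z X' : X → ℂ}, HG C x Z → HG C x X' → Z x ≠ 0 → Z x ^ 4 = X' x ^ 4 →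
        ∀ᶠ y in 𝓝 x, ‖X' y‖ < 2 * ‖Z y‖ := by
      intro Z X' hZ hX' hne heq
      have h1 : ContinuousAt (fun y => ‖X' y‖) x := hX'.continuousAt.norm
      have h2 : ContinuousAt (fun y => 2 * ‖Z y‖) x := hZ.continuousAt.norm.const_mul 2
      refine h1.eventually_lt h2 ?_
      rw [← hnorm heq]
      have : 0 < ‖Z x‖ := norm_pos_iff.2 hne
      linarith
    have hZX1 : Z₁ x ^ 4 = X₁ x ^ 4 := by
      have := hZX
      rw [eZ, eX, mul_pow, mul_pow] at this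
      exact mul_left_cancel₀ (pow_ne_zero _ hc0) this
    have srcP : pt (Z₂ x) (X₂ x) ∈ (ch1 false).source := by
      have := (key hZ₂ hX₂ hZ2 hZX).self_of_nhds
      exact (mem_src_pt rP.ne (s := false)).2 this
    have hY1 : Y₁ x = 0 := by
      rw [hY, pow_one] at eY
      exact (mul_eq_zero.1 eY.symm).resolve_left hc0
    obtain ⟨e₁, e₂, he₁, he₂, hf₁, hf₂, s1, s2, hsl⟩ := hs hY hY1 hZ1 hZ2
    refine ⟨BB.y 0 false, lc_y_rep hc rP srcP hY, ?_⟩
    refine (SqE.of_eq ?_).trans (h_Y hZ₁ hZ₂ hX₁ hX₂ hZ1 hZ2 hX1 (by rw [eZ, eX]; ring) evH evP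
      he₁ he₂ hf₁ hf₂ s1 s2 hsl hN)
    filter_upwards [hP, hH, key hZ₂ hX₂ hZ2 hZX, key hZ₁ hX₁ hZ1 hZX1] with y h1 h2 h3 h4
    have k1 : BB.y 0 false (P y) = Y₂ y / Z₂ y ^ 1 :=
      h1.y 0 false ((mem_src_pt h1.ne (s := false)).2 h3)
    have k2 : BB.y 0 false (H y) = Y₁ y / Z₁ y ^ 1 :=
      h2.y 0 false ((mem_src_pt h2.ne (s := false)).2 h4)
    rw [k1, k2, pow_one, pow_one]
  · by_cases hZ : Z₂ x = 0
    · -- `Z = 0`
      have hX2 : X₂ x ≠ 0 := rP.ne.resolve_left (fun h => h hZ)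
      have hX1 : X₁ x ≠ 0 := fun h0 => hX2 (by rw [eX, h0, mul_zero])
      refine ⟨fun q => pc true (BB.p q), lc_pc_rep hc rP (s := true) hX2
        (fun _ => hY), ?_⟩
      refine (SqE.of_eq ?_).trans (h_X hX₁ hX₂ hX1 hX2 hN)
      filter_upwards [hP, hH, hX₂.continuousAt.eventually_ne hX2,
        hX₁.continuousAt.eventually_ne hX1] with y h1 h2 h3 h4
      rw [pc_rep h1 (s := true) h3, pc_rep h2 (s := true) h4]
      rfl
    · -- `Y, Z ≠ 0`
      have hZ1 : Z₁ x ≠ 0 := fun h0 => hZ (by rw [eZ, h0, mul_zero])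
      refine ⟨fun q => pc false (BB.p q), lc_pc_rep hc rP (s := false) hZ
        (fun _ => hY), ?_⟩
      refine (SqE.of_eq ?_).trans (h_Z hZ₁ hZ₂ hZ1 hZ hN)
      filter_upwards [hP, hH, hZ₂.continuousAt.eventually_ne hZ,
        hZ₁.continuousAt.eventually_ne hZ1] with y h1 h2 h3 h4
      rw [pc_rep h1 (s := false) h3, pc_rep h2 (s := false) h4]
      rfl

end germs

end

end Crest.Agent.R272.Sq4_771
end

-- ▼ part R272/Sq4c_771
section

/-!
Row 272 (S0414), leaf S14-SQ4 (helper771), part c: (H1), (H3), (H4) on a surface over `C^ × F8`.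
-/

set_option autoImplicit false
set_option linter.unusedSectionVars false

open Set Topology Filter Complex

namespace Crest.Agent.R272.Sq4_771

open Crest.Agent.R275.Geo Crest.Agent.R275.Core144 Crest.Agent.R273.Fam_835
open Crest.Agent.R273.Map_835 Crest.Agent.R272.Quot_783
open Crest.Agent.R272.Root_83 Crest.Agent.R272.DCov_426 Crest.Agent.R272.P1F_54
open Crest.Agent.R272.P1S_590 Crest.Agent.R272.Hom_839 Crest.Agent.R272.Lc_771
open Crest.Agent.R272.P1L_426 (Ch F8 CC BB f16 f8 f4 g8)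

noncomputable section

/-! ### non-vanishing germs on curves -/

section freq

variable {K : Type} [TopologicalSpace K] {A : Atl 1 K} {c : K} {f : K → ℂ}

/-- no isolated points -/
theorem freq_ne (A : Atl 1 K) (c : K) : ∃ᶠ z in 𝓝 c, z ≠ c := by
  obtain ⟨i, hi⟩ := A.cover c
  have h1 : ∃ᶠ w in 𝓝 (A.e i c), w ≠ A.e i c := by
    have h2 : (𝓝[≠] (A.e i c)).NeBot := Module.punctured_nhds_neBot ℂ (Cn 1) (A.e i c)
    exact frequently_mem_iff_neBot.2 h2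
  intro h
  apply h1
  have h2 : ContinuousAt (A.e i).symm (A.e i c) :=
    (A.e i).continuousAt_symm ((A.e i).map_source hi)
  have h3 : ∀ᶠ w in 𝓝 (A.e i c), ¬ (A.e i).symm w ≠ c :=
    h2.eventually (by rw [(A.e i).left_inv hi]; exact h)
  filter_upwards [h3, (A.e i).open_target.mem_nhds ((A.e i).map_source hi)] with w h4 h5 h6
  apply h6
  rw [← (A.e i).right_inv h5, not_not.1 h4]

theorem lc_freq (h : LC A c f) : ∃ᶠ z in 𝓝 c, f z ≠ 0 := by
  obtain ⟨h1, N, hN, hinj⟩ := h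
  by_cases h0 : f c = 0
  · refine ((freq_ne A c).and_eventually hN).mono ?_
    rintro z ⟨h2, h3⟩ h4
    exact h2 (hinj h3 (mem_of_mem_nhds hN) (by rw [h4, h0]))
  · exact freq_of_ne h1 h0

end freq

section dcov

variable {ρ : Type} [Fintype ρ] {D : DCov_426.Data A1 ρ} {A' : Atl 1 D.X} (hc : Cmp D.famX A')
  {q : D.X} {s : Bool}

include hc in
theorem freq_y (a : ρ) (hq : D.p q ∈ (A1.e s).source) : ∃ᶠ z in 𝓝 q, D.y a s z ≠ 0 := by
  by_cases h0 : D.y a s q = 0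
  · refine lc_freq (lc_y D hc (j := s) hq ?_)
    have h2 : D.y a s q ^ D.k a = D.s a s (D.p q) := D.y_pow a (i := s) hq
    rw [← h2, h0, zero_pow (D.kpos a).ne']
  · exact freq_of_ne (hg_y D hc a (j := s) hq) h0

include hc in
theorem dom_p : Dom (fam A') (fam A1) D.p q := dom_of_open D.isOpenMap_p D.continuous_p

include hc in
theorem freq_u1 (hq : D.p q ∈ (A1.e s).source) : ∃ᶠ z in 𝓝 q, u1 s (pc s (D.p z)) ≠ 0 := by
  cases s
  · have h1 : LC A1 (D.p q) (pc false) := lc_pc (mem_ch1.1 hq).1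
    exact (dom_p hc).freq h1.1 (lc_freq h1)
  · exact (Filter.Eventually.of_forall fun _ => one_ne_zero).frequently

include hc in
theorem hg_pcp (hq : D.p q ∈ (A1.e s).source) : HG (fam A') q (fun z => pc s (D.p z)) :=
  (hg_pc (mem_ch1.1 hq).1).comp (holC_p' D hc)

include hc in
theorem hg_u0 (hq : D.p q ∈ (A1.e s).source) : HG (fam A') q (fun z => u0 s (pc s (D.p z))) := by
  cases s
  · exact HG.const 1
  · exact hg_pcp hc hq

include hc in
theorem hg_u1 (hq : D.p q ∈ (A1.e s).source) : HG (fam A') q (fun z => u1 s (pc s (D.p z))) := by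
  cases s
  · exact hg_pcp hc hq
  · exact HG.const 1

end dcov

/-! ### the section `s_N` in the patches -/

/-- `s_N = o² (t1⁸ - i t0⁸) - k t0² t1² δ² z²` in the frames `s`, `s'` -/
def sNf (k : ℂ) (s s' : Bool) (q : Ch.X) (q' : F8.X) : ℂ :=
  u1 s' (pc s' (F8.p q')) ^ 2 *
      (u1 s (pc s (Ch.p q)) ^ 8 - I * u0 s (pc s (Ch.p q)) ^ 8) -
    k * (u0 s (pc s (Ch.p q)) ^ 2 * u1 s (pc s (Ch.p q)) ^ 2 * Ch.y 0 s q ^ 2 *
      u0 s' (pc s' (F8.p q')) ^ 2)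

section surface

variable {n : ℕ} {X : Type} [TopologicalSpace X] {CX : Fam n X} {πC : X → Ch.X} {πF : X → F8.X}
  {AC : Atl 1 Ch.X} {AF : Atl 1 F8.X} (hC : Cmp Ch.famX AC) (hF : Cmp F8.famX AF)
  (hπC : HolC CX (fam AC) πC) (hπF : HolC CX (fam AF) πF) {x : X}
  (dC : Dom CX (fam AC) πC x) (dF : Dom CX (fam AF) πF x)
  {ψ : Ch.X → CC.X} {χ : F8.X → BB.X} {f : CC.X → BB.X} {k : ℂ}
  (hψ : ∀ q t0 t1 v, Rep Ch ![2, 4] q t0 t1 v →
    Rep CC (fun _ => 2) (ψ q) (t0 ^ 2) (t1 ^ 2) (fun _ => v 0 ^ 2))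
  (hχ : ∀ q z o v, Rep F8 (fun _ => 1) q z o v →
    Rep BB (fun _ => 1) (χ q) (z ^ 2) (o ^ 2) (fun _ => v 0 ^ 2))
  (hf : ∀ q a0 a1 v, Rep CC (fun _ => 2) q a0 a1 v →
    Rep BB (fun _ => 1) (f q) (a1 ^ 4 - I * a0 ^ 4) (k * a0 * a1 * v 0)
      (fun _ => a1 ^ 4 + I * a0 ^ 4))
  {AC' : Atl 1 CC.X} {AB' : Atl 1 BB.X} (hCC : Cmp CC.famX AC') (hBB : Cmp BB.famX AB')

include hπC in
theorem ev_C {s : Bool} (hs : Ch.p (πC x) ∈ (A1.e s).source) :
    ∀ᶠ y in 𝓝 x, Rep Ch ![2, 4] (πC y) (u0 s (pc s (Ch.p (πC y))))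
      (u1 s (pc s (Ch.p (πC y)))) (fun a => Ch.y a s (πC y)) := by
  have h1 : ContinuousAt (fun y => Ch.p (πC y)) x :=
    (Ch.continuous_p.comp hπC.cont).continuousAt
  filter_upwards [h1.preimage_mem_nhds ((A1.e s).open_source.mem_nhds hs)] with y hy
  exact isHom_Ch.rep_norm hy

include hπF in
theorem ev_F {s : Bool} (hs : F8.p (πF x) ∈ (A1.e s).source) :
    ∀ᶠ y in 𝓝 x, Rep F8 (fun _ => 1) (πF y) (u0 s (pc s (F8.p (πF y))))
      (u1 s (pc s (F8.p (πF y)))) (fun a => F8.y a s (πF y)) := by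
  have h1 : ContinuousAt (fun y => F8.p (πF y)) x :=
    (F8.continuous_p.comp hπF.cont).continuousAt
  filter_upwards [h1.preimage_mem_nhds ((A1.e s).open_source.mem_nhds hs)] with y hy
  exact isHom_F8.rep_norm hy

include hF hπF dF hχ hBB in
/-- (H1) -/
theorem sq1 {w0 : BB.X} (hw : ∃ c0 c, Rep BB (fun _ => 1) w0 c0 0 c) (hx : χ (πF x) = w0) :
    ∃ g, LC AB' (χ (πF x)) g ∧ SqE CX x (fun z => g (χ (πF z)) - g w0) (fun _ => 1) := by
  obtain ⟨c0, c, hw⟩ := hw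
  obtain ⟨s, hs⟩ := cover_ch1 (F8.p (πF x))
  have hcne : c 0 ≠ 0 := by
    intro h0
    have h1 := isHom_BB.rep_eqn hw 0
    have h1 : c 0 ^ 4 = c0 ^ 4 - 0 ^ 4 := h1
    rw [h0] at h1
    exact hw.ne.elim (fun h => h (pow_eq_zero_iff four_ne_zero |>.1 (by linear_combination -h1)))
      (fun h => h rfl)
  refine sq_const (P := fun y => χ (πF y)) (a := fun y => u0 s (pc s (F8.p (πF y))))
    (b := fun y => u1 s (pc s (F8.p (πF y)))) (v := fun y _ => F8.y 0 s (πF y) ^ 2)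
    isHom_BB hBB hw hcne ((hg_u0 hF hs).comp hπF) ((hg_u1 hF hs).comp hπF)
    (dF.freq (hg_u1 hF hs) (freq_u1 hF hs)) ?_ hx
  filter_upwards [ev_F hπF hs] with y hy
  exact hχ _ _ _ _ hy

include hC hπC dC hψ hCC in
/-- (H3) -/
theorem sq3 {z0 : CC.X} (hz : ∃ c0 c, Rep CC (fun _ => 2) z0 c0 0 c) (hx : ψ (πC x) = z0) :
    ∃ g, LC AC' (ψ (πC x)) g ∧ SqE CX x (fun z => g (ψ (πC z)) - g z0) (fun _ => 1) := by
  obtain ⟨c0, c, hz⟩ := hz
  obtain ⟨s, hs⟩ := cover_ch1 (Ch.p (πC x))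
  have hcne : c 0 ≠ 0 := by
    intro h0
    have h1 := isHom_CC.rep_eqn hz 0
    have h1 : c 0 ^ 4 = c0 ^ 8 - 0 ^ 8 := h1
    rw [h0] at h1
    exact hz.ne.elim (fun h => h (pow_eq_zero_iff (by norm_num : (8 : ℕ) ≠ 0) |>.1
      (by linear_combination -h1))) (fun h => h rfl)
  refine sq_const (P := fun y => ψ (πC y)) (a := fun y => u0 s (pc s (Ch.p (πC y))))
    (b := fun y => u1 s (pc s (Ch.p (πC y)))) (v := fun y _ => Ch.y 0 s (πC y) ^ 2)
    isHom_CC hCC hz hcne ((hg_u0 hC hs).comp hπC) ((hg_u1 hC hs).comp hπC)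
    (dC.freq (hg_u1 hC hs) (freq_u1 hC hs)) ?_ hx
  filter_upwards [ev_C hπC hs] with y hy
  exact hψ _ _ _ _ hy

include hC hF hπC hπF dC dF hψ hχ hf hBB in
/-- (H4) -/
theorem sq4 {s s' : Bool} (hs : Ch.p (πC x) ∈ (A1.e s).source)
    (hs' : F8.p (πF x) ∈ (A1.e s').source)
    (hN : SqE CX x (fun y => sNf k s s' (πC y) (πF y)) (fun _ => 1))
    (hsl : Ch.y 1 s (πC x) = 0 → F8.y 0 s' (πF x) = 0 → sNf k s s' (πC x) (πF x) = 0 →
      Slope CX x (fun y => F8.y 0 s' (πF y)) (fun y => Ch.y 1 s (πC y)))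
    (hx : χ (πF x) = f (ψ (πC x))) :
    ∃ g, LC AB' (χ (πF x)) g ∧
      SqE CX x (fun z => g (χ (πF z)) - g (f (ψ (πC z)))) (fun _ => 1) := by
  have gt0 := (hg_u0 hC hs).comp hπC
  have gt1 := (hg_u1 hC hs).comp hπC
  have gd := (hg_y Ch hC 0 (j := s) hs).comp hπC
  have gr := (hg_y Ch hC 1 (j := s) hs).comp hπC
  have gz := (hg_u0 hF hs').comp hπF
  have go := (hg_u1 hF hs').comp hπF
  have ge := (hg_y F8 hF 0 (j := s') hs').comp hπF
  set t0 : X → ℂ := fun y => u0 s (pc s (Ch.p (πC y))) with ht0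
  set t1 : X → ℂ := fun y => u1 s (pc s (Ch.p (πC y))) with ht1
  set d : X → ℂ := fun y => Ch.y 0 s (πC y) with hd
  set r : X → ℂ := fun y => Ch.y 1 s (πC y) with hr
  set z : X → ℂ := fun y => u0 s' (pc s' (F8.p (πF y))) with hz
  set o : X → ℂ := fun y => u1 s' (pc s' (F8.p (πF y))) with ho
  set e : X → ℂ := fun y => F8.y 0 s' (πF y) with he
  have hP : ∀ᶠ y in 𝓝 x, Rep BB (fun _ => 1) (χ (πF y)) (z y ^ 2) (o y ^ 2)
      (fun _ => e y ^ 2) := by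
    filter_upwards [ev_F hπF hs'] with y hy using hχ _ _ _ _ hy
  have hH : ∀ᶠ y in 𝓝 x, Rep BB (fun _ => 1) (f (ψ (πC y)))
      ((t1 y ^ 2) ^ 4 - I * (t0 y ^ 2) ^ 4) (k * t0 y ^ 2 * t1 y ^ 2 * d y ^ 2)
      (fun _ => (t1 y ^ 2) ^ 4 + I * (t0 y ^ 2) ^ 4) := by
    filter_upwards [ev_C hπC hs] with y hy using hf _ _ _ _ (hψ _ _ _ _ hy)
  have hrr : ∀ᶠ y in 𝓝 x, r y ^ 2 = (t1 y ^ 2) ^ 4 + I * (t0 y ^ 2) ^ 4 := by
    filter_upwards [ev_C hπC hs] with y hy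
    have h1 : r y ^ 2 = t1 y ^ 8 + I * t0 y ^ 8 := isHom_Ch.rep_eqn hy 1
    rw [h1]; ring
  have gZ₁ : HG CX x (fun y => (t1 y ^ 2) ^ 4 - I * (t0 y ^ 2) ^ 4) :=
    ((gt1.pow 2).pow 4).sub ((HG.const I).mul ((gt0.pow 2).pow 4))
  have gX₁ : HG CX x (fun y => k * t0 y ^ 2 * t1 y ^ 2 * d y ^ 2) :=
    (((HG.const k).mul (gt0.pow 2)).mul (gt1.pow 2)).mul (gd.pow 2)
  refine sq_pair hBB gZ₁ (gz.pow 2) gX₁ (go.pow 2) hP hH ?_ ?_ hx
  · intro hY₂ hY₁ hZ₁ hZ₂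
    have hex : e x = 0 := pow_eq_zero_iff two_ne_zero |>.1 hY₂
    have hrx : r x = 0 := by
      have := hrr.self_of_nhds
      rw [hY₁] at this
      exact pow_eq_zero_iff two_ne_zero |>.1 this
    have hzx : z x ≠ 0 := fun h => hZ₂ (by simp [h])
    obtain ⟨w, hw⟩ := (SqE.of_ne (gZ₁.inv hZ₁) (inv_ne_zero hZ₁)).root (gZ₁.inv hZ₁)
    obtain ⟨U, hU, hxU, hwU, hw2⟩ := hw
    have gw : HG CX x w := ⟨U, hU, hxU, hwU⟩
    have hw2' : ∀ᶠ y in 𝓝 x, w y ^ 2 = ((t1 y ^ 2) ^ 4 - I * (t0 y ^ 2) ^ 4)⁻¹ := by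
      filter_upwards [hU.mem_nhds hxU] with y hy using hw2 y hy
    have hwx : w x ≠ 0 := by
      intro h0
      have := hw2'.self_of_nhds
      rw [h0, zero_pow two_ne_zero] at this
      exact inv_ne_zero hZ₁ this.symm
    have fr : ∃ᶠ y in 𝓝 x, r y ≠ 0 :=
      dC.freq (hg_y Ch hC 1 (j := s) hs) (freq_y hC 1 hs)
    have fe : ∃ᶠ y in 𝓝 x, e y ≠ 0 :=
      dF.freq (hg_y F8 hF 0 (j := s') hs') (freq_y hF 0 hs')
    have hN0 : sNf k s s' (πC x) (πF x) = 0 := by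
      have rP := hP.self_of_nhds
      have rH := hH.self_of_nhds
      rw [← hx] at rH
      obtain ⟨c, hc0, eZ, eX, -⟩ := isHom_BB.rep_rel rH rP
      show o x ^ 2 * (t1 x ^ 8 - I * t0 x ^ 8) -
        k * (t0 x ^ 2 * t1 x ^ 2 * d x ^ 2 * z x ^ 2) = 0
      rw [eZ, eX]; ring
    refine ⟨fun y => r y * w y, fun y => e y / z y, gr.mul gw, HG.div ge gz hzx, ?_, ?_, ?_, ?_, ?_⟩
    · refine (fr.and_eventually (gw.continuousAt.eventually_ne hwx)).mono ?_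
      rintro y ⟨h1, h2⟩
      exact mul_ne_zero h1 h2
    · refine (fe.and_eventually (gz.continuousAt.eventually_ne hzx)).mono ?_
      rintro y ⟨h1, h2⟩
      exact div_ne_zero h1 h2
    · filter_upwards [hrr, hw2', gZ₁.continuousAt.eventually_ne hZ₁] with y h1 h2 h3
      show (t1 y ^ 2) ^ 4 + I * (t0 y ^ 2) ^ 4 =
        ((t1 y ^ 2) ^ 4 - I * (t0 y ^ 2) ^ 4) * (r y * w y) ^ 2
      rw [mul_pow, h2, h1, mul_left_comm, mul_inv_cancel₀ h3, mul_one]
    · filter_upwards [gz.continuousAt.eventually_ne hzx] with y h1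
      show e y ^ 2 = z y ^ 2 * (e y / z y) ^ 2
      rw [← mul_pow, mul_div_cancel₀ _ h1]
    · have hsl' := hsl hrx hex hN0
      refine Slope.units hsl' (gz.inv hzx) gw (inv_ne_zero hzx) hwx ?_ ?_
      · filter_upwards with y
        rw [div_eq_mul_inv, mul_comm]
      · filter_upwards with y
        rw [mul_comm]
  · refine (SqE.of_eq ?_).trans hN
    filter_upwards with y
    show o y ^ 2 * ((t1 y ^ 2) ^ 4 - I * (t0 y ^ 2) ^ 4) -
      z y ^ 2 * (k * t0 y ^ 2 * t1 y ^ 2 * d y ^ 2) =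
      o y ^ 2 * (t1 y ^ 8 - I * t0 y ^ 8) - k * (t0 y ^ 2 * t1 y ^ 2 * d y ^ 2 * z y ^ 2)
    ring

end surface

end

end Crest.Agent.R272.Sq4_771
end

-- ▼ part R272/Evb1_140
section

/-!
# R272 (S0414), S14-EVB (helper140), part 1: the parity lemma in `ℂⁿ`

* `exists_zero_near`, `div_smooth`: division by a holomorphic function with non vanishing
  differential on its zero set;
* `parity_ne`, `exists_unit_cn`: if `h P² = h' Q²` and `h`, `h'` are both *reduced and smooth*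
  then `Q = t P` with a nowhere vanishing holomorphic function `t`.
-/

set_option autoImplicit false

open Set Filter Topology Metric

namespace Crest.Agent.R272.Evb_140

open Crest.Agent.R275.Geo Crest.Agent.R266.SCV

noncomputable section

variable {n : ℕ}

/-- near a zero with non vanishing differential the distance to the zero set is bounded by the
value -/
theorem exists_zero_near {g : Cn n → ℂ} {z0 : Cn n} (hg : AnalyticAt ℂ g z0) (h0 : g z0 = 0)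
    (hd : fderiv ℂ g z0 ≠ 0) {W : Set (Cn n)} (hW : W ∈ 𝓝 z0) :
    ∃ C : ℝ, 0 ≤ C ∧ ∀ᶠ z in 𝓝 z0, ∃ w ∈ W, g w = 0 ∧ ‖z - w‖ ≤ C * ‖g z‖ := by
  have hs : HasStrictFDerivAt g (fderiv ℂ g z0) z0 := hg.hasStrictFDerivAt
  have hsurj : (fderiv ℂ g z0).range = ⊤ := by
    rw [LinearMap.range_eq_top]
    intro c
    obtain ⟨v, hv⟩ : ∃ v, fderiv ℂ g z0 v ≠ 0 := by
      by_contra hcon
      push Not at hcon
      exact hd (ContinuousLinearMap.ext fun v => by simpa using hcon v)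
    refine ⟨(c / fderiv ℂ g z0 v) • v, ?_⟩
    show fderiv ℂ g z0 ((c / fderiv ℂ g z0 v) • v) = c
    rw [map_smul, smul_eq_mul, div_mul_cancel₀ _ hv]
  set S := (fderiv ℂ g z0).nonlinearRightInverseOfSurjective hsurj with hSdef
  have hSpos : 0 < S.nnnorm :=
    (fderiv ℂ g z0).nonlinearRightInverseOfSurjective_nnnorm_pos hsurj
  have hSpos' : (0 : ℝ) < (S.nnnorm : ℝ)⁻¹ := inv_pos.2 (by exact_mod_cast hSpos)
  obtain ⟨s, hs1, hs2⟩ := hs.approximates_deriv_on_nhds (c := S.nnnorm⁻¹ / 2)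
    (Or.inr (half_pos (inv_pos.2 hSpos)))
  obtain ⟨δ, hδ, hball⟩ := Metric.mem_nhds_iff.1 (inter_mem hs1 hW)
  set K : ℝ := (S.nnnorm : ℝ)⁻¹ / 2 with hK
  have hKpos : 0 < K := half_pos hSpos'
  refine ⟨K⁻¹, (inv_pos.2 hKpos).le, ?_⟩
  have h1 : ∀ᶠ z in 𝓝 z0, ‖g z‖ < K * (δ / 2) := by
    have hc : ContinuousAt (fun z => ‖g z‖) z0 := hg.continuousAt.norm
    refine hc.eventually_lt continuousAt_const ?_
    simp only [h0, norm_zero]
    positivity
  filter_upwards [h1, ball_mem_nhds z0 (half_pos hδ)] with z hz1 hz2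
  have hε : K⁻¹ * ‖g z‖ < δ / 2 := by
    rw [inv_mul_lt_iff₀ hKpos]
    exact hz1
  have hsub : closedBall z (K⁻¹ * ‖g z‖) ⊆ s ∩ W := by
    intro w hw
    apply hball
    rw [mem_ball] at hz2 ⊢
    rw [mem_closedBall] at hw
    calc dist w z0 ≤ dist w z + dist z z0 := dist_triangle _ _ _
      _ < δ := by linarith
  have h2 := hs2.surjOn_closedBall_of_nonlinearRightInverse S (b := z) (ε := K⁻¹ * ‖g z‖)
    (by positivity) (hsub.trans inter_subset_left)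
  have h3 : (0 : ℂ) ∈ closedBall (g z) (((S.nnnorm : ℝ)⁻¹ - ((S.nnnorm⁻¹ / 2 : NNReal) : ℝ)) *
      (K⁻¹ * ‖g z‖)) := by
    have h4 : ((S.nnnorm : ℝ)⁻¹ - ((S.nnnorm⁻¹ / 2 : NNReal) : ℝ)) = K := by
      rw [hK]
      push_cast
      ring
    rw [h4, ← mul_assoc, mul_inv_cancel₀ hKpos.ne', one_mul, mem_closedBall, dist_eq_norm,
      zero_sub, norm_neg]
  obtain ⟨w, hw, hgw⟩ := h2 h3
  refine ⟨w, (hsub hw).2, hgw, ?_⟩
  rw [← dist_eq_norm, dist_comm]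
  exact hw

theorem frequently_ne_of_smooth {U : Set (Cn n)} {g : Cn n → ℂ}
    (hg : ∀ z ∈ U, ContinuousAt g z) (hd : ∀ z ∈ U, g z = 0 → fderiv ℂ g z ≠ 0) {z : Cn n}
    (hz : z ∈ U) : ∃ᶠ w in 𝓝 z, g w ≠ 0 := by
  by_cases h0 : g z = 0
  · intro hcon
    apply hd z hz h0
    have h1 : g =ᶠ[𝓝 z] fun _ => 0 := by
      filter_upwards [hcon] with w hw
      by_contra h
      exact hw h
    rw [h1.fderiv_eq, fderiv_fun_const]
    rfl
  · exact ((hg z hz).eventually_ne h0).frequently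

/-- **division by a smooth equation** -/
theorem div_smooth {U : Set (Cn n)} (hU : IsOpen U) {r g : Cn n → ℂ} (hr : DifferentiableOn ℂ r U)
    (hg : DifferentiableOn ℂ g U) (hd : ∀ z ∈ U, g z = 0 → fderiv ℂ g z ≠ 0)
    (hv : ∀ z ∈ U, g z = 0 → r z = 0) :
    ∃ u : Cn n → ℂ, DifferentiableOn ℂ u U ∧ ∀ z ∈ U, r z = u z * g z := by
  have hgc : ∀ z ∈ U, ContinuousAt g z := fun z hz =>
    (hg.differentiableAt (hU.mem_nhds hz)).continuousAt
  have hrc : ∀ z ∈ U, ContinuousAt r z := fun z hz =>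
    (hr.differentiableAt (hU.mem_nhds hz)).continuousAt
  refine Crest.Agent.R273.Cic769.exists_quot hU hr hg
    (fun a ha => frequently_ne_of_smooth hgc hd ha) fun a ha => ?_
  by_cases h0 : g a = 0
  · have hA : AnalyticAt ℂ g a := analyticOnNhd_of_differentiableOn hU hg a ha
    have hR : AnalyticAt ℂ r a := analyticOnNhd_of_differentiableOn hU hr a ha
    obtain ⟨K, s, hs, hK⟩ := hR.hasStrictFDerivAt.exists_lipschitzOnWith
    obtain ⟨C, hC, hev⟩ := exists_zero_near hA h0 (hd a ha h0) (W := U ∩ s)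
      (inter_mem (hU.mem_nhds ha) hs)
    refine ⟨K * C, ?_⟩
    filter_upwards [hev, hs] with z hz hzs
    obtain ⟨w, hw, hgw, hzw⟩ := hz
    have h1 := hK.norm_sub_le hzs hw.2
    rw [hv w hw.1 hgw, sub_zero] at h1
    calc ‖r z‖ ≤ K * ‖z - w‖ := h1
      _ ≤ K * (C * ‖g z‖) := by gcongr
      _ = K * C * ‖g z‖ := by ring
  · have h1 : ∀ᶠ z in 𝓝 a, ‖g a‖ / 2 < ‖g z‖ :=
      continuousAt_const.eventually_lt (hgc a ha).norm (half_lt_self (norm_pos_iff.2 h0))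
    have h2 : ∀ᶠ z in 𝓝 a, ‖r z‖ < ‖r a‖ + 1 :=
      (hrc a ha).norm.eventually_lt continuousAt_const (by linarith)
    refine ⟨(‖r a‖ + 1) / (‖g a‖ / 2), ?_⟩
    filter_upwards [h1, h2] with z hz1 hz2
    have h3 : 0 < ‖g a‖ / 2 := half_pos (norm_pos_iff.2 h0)
    rw [div_mul_eq_mul_div, le_div_iff₀ h3]
    calc ‖r z‖ * (‖g a‖ / 2) ≤ (‖r a‖ + 1) * ‖g z‖ := by
          have := norm_nonneg (r a)
          gcongr



end

end Crest.Agent.R272.Evb_140
end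

-- ▼ part R272/SlC_140
section

/-!
# R272 (S0414), helper140: holomorphic slopes on the blow-up, for ANY local coordinates

* `hg_div`    : division of holomorphic germs by a germ with non-zero differential;
* `slope_crd` : over a centre `s` of `K : Ctr A` any two functions which are local coordinates at
                `K.p s` and vanish there have a holomorphic slope;
* `slope_crd1`, `slope_crdN` : the same over 102's first and second blow-up (`Crd A s u` in the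
                ORIGINAL atlas `A`; no reference to the functions `T`, `S` of the node).
-/

set_option autoImplicit false
set_option linter.unusedSectionVars false

open Set Filter Topology Complex

namespace Crest.Agent.R272.SlB_140

open Crest.Agent.R275.Geo Crest.Agent.R275.Core144
open Crest.Agent.R273.Fam_835 Crest.Agent.R273.Map_835
open Crest.Agent.R272.Quot_783 Crest.Agent.R272.Root_83 Crest.Agent.R272.Blup1_102
open Crest.Agent.R272.BL_366 Crest.Agent.R272.Sq4_771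
open Crest.Agent.R272.BlA_266 Crest.Agent.R272.Adp_409 Crest.Agent.R272.Asm2_102

noncomputable section

section Div

variable {n : ℕ} {X : Type} [TopologicalSpace X] {C : Fam n X} {x : X} {f g : X → ℂ}

/-- a holomorphic germ is differentiable in every chart -/
theorem hg_diffAt (hf : HG C x f) {i : C.ι} (hi : x ∈ (C.e i).source) :
    DifferentiableAt ℂ (fun z => f ((C.e i).symm z)) (C.e i x) := by
  obtain ⟨U, hU, hxU, h⟩ := hf
  refine (h i).differentiableAt (((C.e i).isOpen_inter_preimage_symm hU).mem_nhds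
    ⟨(C.e i).map_source hi, ?_⟩)
  show (C.e i).symm (C.e i x) ∈ U
  rw [(C.e i).left_inv hi]
  exact hxU

/-- **division by a germ with non-zero differential** -/
theorem hg_div (hf : HG C x f) (hg : HG C x g) {i : C.ι} (hi : x ∈ (C.e i).source)
    (hd : fderiv ℂ (fun z => g ((C.e i).symm z)) (C.e i x) ≠ 0)
    (hv : ∀ᶠ y in 𝓝 x, g y = 0 → f y = 0) :
    ∃ q, HG C x q ∧ ∀ᶠ y in 𝓝 x, f y = q y * g y := by
  obtain ⟨U1, hU1, hx1, hf⟩ := hf
  obtain ⟨U2, hU2, hx2, hg⟩ := hg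
  obtain ⟨U3, h3, hU3, hx3⟩ := _root_.eventually_nhds_iff.1 hv
  have hO : IsOpen ((C.e i).target ∩ (C.e i).symm ⁻¹' (U1 ∩ U2 ∩ U3)) :=
    (C.e i).isOpen_inter_preimage_symm ((hU1.inter hU2).inter hU3)
  have hxO : C.e i x ∈ (C.e i).target ∩ (C.e i).symm ⁻¹' (U1 ∩ U2 ∩ U3) := by
    refine ⟨(C.e i).map_source hi, ?_⟩
    rw [mem_preimage, (C.e i).left_inv hi]
    exact ⟨⟨hx1, hx2⟩, hx3⟩
  have hgO : DifferentiableOn ℂ (fun z => g ((C.e i).symm z))
      ((C.e i).target ∩ (C.e i).symm ⁻¹' (U1 ∩ U2 ∩ U3)) :=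
    (hg i).mono fun z hz => ⟨hz.1, hz.2.1.2⟩
  have hA : AnalyticAt ℂ (fun z => g ((C.e i).symm z)) (C.e i x) :=
    Crest.Agent.R266.SCV.analyticOnNhd_of_differentiableOn hO hgO _ hxO
  have hne : ∀ᶠ z in 𝓝 (C.e i x), fderiv ℂ (fun z => g ((C.e i).symm z)) z ≠ 0 :=
    hA.fderiv.continuousAt.eventually_ne hd
  obtain ⟨O, hO1, hOo, hxO'⟩ := _root_.mem_nhds_iff.1 (Filter.inter_mem (hO.mem_nhds hxO) hne)
  obtain ⟨u, hu, he⟩ := Evb_140.div_smooth hOo (r := fun z => f ((C.e i).symm z))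
    (g := fun z => g ((C.e i).symm z))
    ((hf i).mono fun z hz => ⟨(hO1 hz).1.1, (hO1 hz).1.2.1.1⟩)
    (hgO.mono fun z hz => (hO1 hz).1) (fun z hz _ => (hO1 hz).2)
    (fun z hz h0 => h3 _ (hO1 hz).1.2.2 h0)
  have hW : IsOpen ((C.e i).source ∩ C.e i ⁻¹' O) := (C.e i).isOpen_inter_preimage hOo
  refine ⟨fun y => u (C.e i y), ⟨(C.e i).source ∩ C.e i ⁻¹' O, hW, ⟨hi, hxO'⟩,
    holF_of_chart C i hu fun y hy => ⟨hy.1, hy.2⟩⟩, ?_⟩
  filter_upwards [hW.mem_nhds ⟨hi, hxO'⟩] with y hy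
  have h1 := he _ hy.2
  simp only [(C.e i).left_inv hy.1] at h1
  exact h1

end Div

section Crd

variable {M : Type} [TopologicalSpace M] {A : Atl 2 M}

/-- coordinates are coordinates in every chart -/
theorem crd_all {x : M} {u : Fin 2 → M → ℂ} (h : Crd A x u) {j : A.ι}
    (hj : x ∈ (A.e j).source) {v : Cn 2}
    (hv : ∀ b, fderiv ℂ (fun z => u b ((A.e j).symm z)) (A.e j x) v = 0) : v = 0 := by
  obtain ⟨i, hi, h1⟩ := h.ind
  have hz : A.e i x ∈ A.ov i j := ⟨(A.e i).map_source hi, by rw [(A.e i).left_inv hi]; exact hj⟩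
  have hz' : A.e j x ∈ A.ov j i := ⟨(A.e j).map_source hj, by rw [(A.e j).left_inv hj]; exact hi⟩
  have d1 : DifferentiableAt ℂ (fun z => A.e j ((A.e i).symm z)) (A.e i x) :=
    (A.holo i j).differentiableAt ((Crest.Agent.R275.GC293.isOpen_ov A i j).mem_nhds hz)
  have d2 : DifferentiableAt ℂ (fun z => A.e i ((A.e j).symm z)) (A.e j x) :=
    (A.holo j i).differentiableAt ((Crest.Agent.R275.GC293.isOpen_ov A j i).mem_nhds hz')
  have e1 : A.e j ((A.e i).symm (A.e i x)) = A.e j x := by rw [(A.e i).left_inv hi]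
  have e2 : A.e i ((A.e j).symm (A.e j x)) = A.e i x := by rw [(A.e j).left_inv hj]
  -- the derivative of the change of charts
  set L := fderiv ℂ (fun z => A.e i ((A.e j).symm z)) (A.e j x) with hL
  have hu : ∀ b, fderiv ℂ (fun z => u b ((A.e i).symm z)) (A.e i x) (L v) = 0 := by
    intro b
    have h2 : (fun z => u b ((A.e j).symm z)) =ᶠ[𝓝 (A.e j x)]
        fun z => u b ((A.e i).symm (A.e i ((A.e j).symm z))) := by
      filter_upwards [(Crest.Agent.R275.GC293.isOpen_ov A j i).mem_nhds hz'] with w hw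
      rw [(A.e i).left_inv hw.2]
    have h3 := fderiv_comp (A.e j x) (g := fun z => u b ((A.e i).symm z))
      (f := fun z => A.e i ((A.e j).symm z)) (by rw [e2]; exact hg_diffAt (h.hol b) hi) d2
    have h4 := hv b
    rw [h2.fderiv_eq] at h4
    have h5 : fderiv ℂ (fun z => u b ((A.e i).symm (A.e i ((A.e j).symm z)))) (A.e j x) =
      (fderiv ℂ (fun z => u b ((A.e i).symm z)) (A.e i ((A.e j).symm (A.e j x)))).comp L := h3
    rw [h5, e2] at h4
    exact h4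
  have hLv : L v = 0 := h1 _ hu
  -- the inverse
  have h6 : (fun z => A.e j ((A.e i).symm (A.e i ((A.e j).symm z)))) =ᶠ[𝓝 (A.e j x)] id := by
    filter_upwards [(Crest.Agent.R275.GC293.isOpen_ov A j i).mem_nhds hz'] with w hw
    rw [(A.e i).left_inv hw.2, (A.e j).right_inv hw.1]
    rfl
  have h7 := fderiv_comp (A.e j x) (g := fun z => A.e j ((A.e i).symm z))
    (f := fun z => A.e i ((A.e j).symm z)) (by rw [e2]; exact d1) d2
  have h8 : fderiv ℂ (fun z => A.e j ((A.e i).symm (A.e i ((A.e j).symm z)))) (A.e j x) =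
    (fderiv ℂ (fun z => A.e j ((A.e i).symm z)) (A.e i ((A.e j).symm (A.e j x)))).comp L := h7
  rw [h6.fderiv_eq, fderiv_id] at h8
  have h9 := congrArg (fun T : Cn 2 →L[ℂ] Cn 2 => T v) h8
  have h10 : v = fderiv ℂ (fun z => A.e j ((A.e i).symm z)) (A.e i ((A.e j).symm (A.e j x)))
    (L v) := h9
  rw [hLv, map_zero] at h10
  exact h10

end Crd

section Blow

variable {M : Type} [TopologicalSpace M] [T2Space M] {A : Atl 2 M} (K : Ctr A)

/-- one factor: `u ∘ pi = q * (equation of E)`, value of `q` = derivative of `u` -/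
theorem exists_fac {s : K.S} {a : Fin 2} {y : K.X} (hy : K.pi y = K.p s) (ha : y ∈ K.V s a)
    {u : M → ℂ} (hu : HG (fam A) (K.p s) u) (h0 : u (K.p s) = 0) :
    ∃ q, HG (fam K.atl) y q ∧ (∀ᶠ y' in 𝓝 y, u (K.pi y') = q y' * K.co s a y' a) ∧
      q y = fderiv ℂ (fun z => u ((A.e (K.i s)).symm z)) (A.e (K.i s) (K.p s))
        (Ctr.W a (K.co s a y)) := by
  have hf : HG (fam K.atl) y (fun y => u (K.pi y)) :=
    HG.comp (by rw [hy]; exact hu) (holC_pi K)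
  have hg : HG (fam K.atl) y (fun y => K.co s a y a) := hg_co K ha a
  have hcoa : K.co s a y a = 0 := (K.mem_E_iff ha).1 (mem_E_of hy)
  have hiy : y ∈ ((fam K.atl).e (Sum.inr (s, a))).source := ha
  -- derivative of the equation of `E`
  have hd1 : fderiv ℂ (fun z => K.co s a (((fam K.atl).e (Sum.inr (s, a))).symm z) a)
      ((fam K.atl).e (Sum.inr (s, a)) y) ((1 / 5 : ℂ) • EuclideanSpace.single a 1) = 1 := by
    refine fderiv_line K ha (b := a) hg (g := fun t => K.co s a y a + t)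
      ((hasDerivAt_id (0 : ℂ)).const_add _) ?_
    filter_upwards [line_mem K ha (b := a)] with t ht
    rw [K.co_ci ht]
    simp
  obtain ⟨q, hq, he⟩ := hg_div hf hg hiy (by
    intro h
    rw [h] at hd1
    exact zero_ne_one hd1) (by
    filter_upwards [(K.isOpen_V s a).mem_nhds ha] with y' h1 h2
    obtain ⟨t, ht⟩ := (K.mem_E_iff h1).2 h2
    have hts : t = s := K.U_unique (by rw [← ht]; exact K.p_mem t) h1.1
    rw [← ht, hts, h0])
  refine ⟨q, hq, he, ?_⟩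
  -- the derivative of `u ∘ pi` along the line, computed twice
  have hb : HasDerivAt (fun t : ℂ => u (K.pt s (t • Ctr.W a (K.co s a y))))
      (fderiv ℂ (fun z => u ((A.e (K.i s)).symm z)) (A.e (K.i s) (K.p s))
        (Ctr.W a (K.co s a y))) 0 := by
    have h1 : HasFDerivAt (fun z => u ((A.e (K.i s)).symm z))
        (fderiv ℂ (fun z => u ((A.e (K.i s)).symm z)) (A.e (K.i s) (K.p s)))
        (A.e (K.i s) (K.p s) + (0 : ℂ) • Ctr.W a (K.co s a y)) := by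
      rw [zero_smul, add_zero]
      exact (hg_diffAt hu (K.hp s)).hasFDerivAt
    have h2 : HasDerivAt (fun t : ℂ => A.e (K.i s) (K.p s) + t • Ctr.W a (K.co s a y))
        (Ctr.W a (K.co s a y)) 0 := by
      have := ((hasDerivAt_id (0 : ℂ)).smul_const (Ctr.W a (K.co s a y))).const_add
        (A.e (K.i s) (K.p s))
      simpa using this
    exact h1.comp_hasDerivAt (0 : ℂ) h2
  have hW : ∀ t : ℂ, Ctr.W a (K.co s a y + t • EuclideanSpace.single a 1) =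
      Ctr.W a (K.co s a y) := by
    intro t
    ext b
    rw [Ctr.W_apply, Ctr.W_apply]
    split_ifs with hb
    · rfl
    · simp [hb]
  have hD2 := fderiv_line K ha (b := a) hf hb (by
    filter_upwards [line_mem K ha (b := a)] with t ht
    rw [K.pi_ci ht, hW]
    congr 3
    simp [hcoa])
  have hD1 : fderiv ℂ (fun z => u (K.pi (((fam K.atl).e (Sum.inr (s, a))).symm z)))
      ((fam K.atl).e (Sum.inr (s, a)) y) ((1 / 5 : ℂ) • EuclideanSpace.single a 1) = q y := by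
    have h1 : (fun z => u (K.pi (((fam K.atl).e (Sum.inr (s, a))).symm z))) =ᶠ[
        𝓝 ((fam K.atl).e (Sum.inr (s, a)) y)] fun z =>
        q (((fam K.atl).e (Sum.inr (s, a))).symm z) *
          K.co s a (((fam K.atl).e (Sum.inr (s, a))).symm z) a := by
      have h2 : Tendsto ((fam K.atl).e (Sum.inr (s, a))).symm
          (𝓝 ((fam K.atl).e (Sum.inr (s, a)) y)) (𝓝 y) := by
        have := (((fam K.atl).e (Sum.inr (s, a))).continuousAt_symm
          (((fam K.atl).e (Sum.inr (s, a))).map_source hiy)).tendsto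
        rwa [((fam K.atl).e (Sum.inr (s, a))).left_inv hiy] at this
      exact h2.eventually he
    rw [h1.fderiv_eq, fderiv_fun_mul (hg_diffAt hq hiy) (hg_diffAt hg hiy)]
    simp only [_root_.add_apply, _root_.smul_apply, smul_eq_mul]
    rw [hd1, ((fam K.atl).e (Sum.inr (s, a))).left_inv hiy, hcoa]
    ring
  rw [← hD1, hD2]

/-- **over a centre any two coordinates have a holomorphic slope** -/
theorem slope_crd {s : K.S} {y : K.X} (hy : K.pi y = K.p s) {u : Fin 2 → M → ℂ}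
    (hu : Crd A (K.p s) u) (h0 : u 0 (K.p s) = 0) (h1 : u 1 (K.p s) = 0) :
    Slope (fam K.atl) y (fun y => u 0 (K.pi y)) (fun y => u 1 (K.pi y)) := by
  obtain ⟨a, ha⟩ := exists_chart hy
  obtain ⟨q0, hq0, e0, v0⟩ := exists_fac K hy ha (hu.hol 0) h0
  obtain ⟨q1, hq1, e1, v1⟩ := exists_fac K hy ha (hu.hol 1) h1
  have key : ∀ {p r : K.X → ℂ} {f g : K.X → ℂ}, HG (fam K.atl) y p → HG (fam K.atl) y r →
      p y ≠ 0 → (∀ᶠ y' in 𝓝 y, f y' = p y' * K.co s a y' a) →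
      (∀ᶠ y' in 𝓝 y, g y' = r y' * K.co s a y' a) →
      ∃ w, HG (fam K.atl) y w ∧ ∀ᶠ y' in 𝓝 y, g y' = f y' * w y' := by
    intro p r f g hp hr hp0 hf hg
    refine ⟨fun y' => r y' * (p y')⁻¹, hr.mul (hp.inv hp0), ?_⟩
    filter_upwards [hf, hg, hp.continuousAt.eventually_ne hp0] with y' h2 h3 h4
    rw [h2, h3]
    field_simp
  by_cases hz : q0 y = 0
  · have hz1 : q1 y ≠ 0 := by
      intro hz1
      have hW := crd_all hu (K.hp s) (v := Ctr.W a (K.co s a y)) (by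
        intro b
        fin_cases b
        · exact v0.symm.trans hz
        · exact v1.symm.trans hz1)
      exact Ctr.W_ne a _ hW
    exact Or.inl (key hq1 hq0 hz1 e1 e0)
  · exact Or.inr (key hq0 hq1 hz e0 e1)

end Blow

section Nodes

variable {M : Type} [TopologicalSpace M] [T2Space M] {A : Atl 2 M} {ρ : Type} (P : PD A ρ)
  {Z : Set M} (hZ : Z.Finite) (N : ∀ x : Z, Node P (x : M))

theorem crd_adp {x : M} {u : Fin 2 → M → ℂ} (K : Cen A) (h : Crd A x u) : Crd K.adp x u := by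
  obtain ⟨i, hi, h1⟩ := h.ind
  refine ⟨fun b => ?_, Sum.inl i, hi, h1⟩
  exact HG.comp (p := id) (h.hol b) (holC_iff.2 K.hol)

/-- **on the first blow-up, any coordinates at the centre** -/
theorem slope_crd1 {s : M} (hs : s ∈ Z) {y : (D1 P hZ N).X} (hy : (D1 P hZ N).pi y = s)
    {u : Fin 2 → M → ℂ} (hu : Crd A s u) (h0 : u 0 s = 0) (h1 : u 1 s = 0) :
    Slope (fam (D1 P hZ N).atl) y (fun y => u 0 ((D1 P hZ N).pi y))
      (fun y => u 1 ((D1 P hZ N).pi y)) :=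
  slope_crd (D1 P hZ N) (s := (⟨s, hs⟩ : Z)) hy (crd_adp (nodeCen N) hu) h0 h1

variable {n : ℕ} {X : Type} [TopologicalSpace X] {CX : Fam n X}

/-- **on every space over the second blow-up, any coordinates at the centre** -/
theorem slope_crdN {f : X → (D2 P hZ N).X} (hf : HolC CX (fam (D2 P hZ N).atl) f) {s : M}
    (hs : s ∈ Z) {x : X} (hx : piN P hZ N (f x) = s) {u : Fin 2 → M → ℂ} (hu : Crd A s u)
    (h0 : u 0 s = 0) (h1 : u 1 s = 0) :
    Slope CX x (fun x => u 0 (piN P hZ N (f x))) (fun x => u 1 (piN P hZ N (f x))) := by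
  have h2 := slope_crd1 P hZ N hs (y := (D2 P hZ N).pi (f x)) hx hu h0 h1
  have h3 : HolC CX (fam (D1 P hZ N).atl) (fun x => (D2 P hZ N).pi (f x)) :=
    (holC_iff.2 (D2 P hZ N).holMap_pi).comp hf
  exact Slope.comp (p := fun x => (D2 P hZ N).pi (f x)) h2 h3

end Nodes

end

end Crest.Agent.R272.SlB_140
end

-- ▼ part R272/DomT_140
section

/-!
# R272 (S0414), helper140: the projection of the tower is dominant, sections are nowhere locally zero

* `freq_off`  : the complement of a finite set is dense (positive dimension);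
* `freq_s`    : `P : PD A ρ` with normal crossings off a finite set: no `s a` is locally zero;
* `dom_pr`    : `Dom tfam (fam A) pr x` for 102's tower;
* `mm_freq`   : 102's roots `mm` are nowhere locally zero;
* `sqE_s`     : `s a ∘ pr` is a square class everywhere.
-/

set_option autoImplicit false
set_option linter.unusedSectionVars false

open Set Filter Topology Complex

namespace Crest.Agent.R272.DomT_140

open Crest.Agent.R275.Geo Crest.Agent.R275.Core144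
open Crest.Agent.R273.Fam_835 Crest.Agent.R273.Map_835
open Crest.Agent.R272.Quot_783 Crest.Agent.R272.Root_83 Crest.Agent.R272.Blup1_102
open Crest.Agent.R272.BL_366 Crest.Agent.R272.Sq4_771
open Crest.Agent.R272.BlA_266 Crest.Agent.R272.Adp_409 Crest.Agent.R272.Asm2_102
open Crest.Agent.R272.Tow_102 Crest.Agent.R272.SlB_140

noncomputable section

section Gen

variable {n : ℕ} [NeZero n] {M : Type} [TopologicalSpace M] {A : Atl n M}

/-- no isolated points -/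
theorem neBot_ne (A : Atl n M) (x : M) : (𝓝[≠] x).NeBot := by
  obtain ⟨i, hi⟩ := A.cover x
  have : Nontrivial (Cn n) := by
    refine ⟨0, EuclideanSpace.single 0 1, fun h => ?_⟩
    have h1 := congrArg (fun v : Cn n => v 0) h
    simp at h1
  have h1 : (𝓝[≠] (A.e i x)).NeBot := Module.punctured_nhds_neBot ℂ (Cn n) (A.e i x)
  rw [← mem_closure_iff_nhdsWithin_neBot, mem_closure_iff_frequently] at h1 ⊢
  have h2 : Tendsto (A.e i).symm (𝓝 (A.e i x)) (𝓝 x) := by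
    have := ((A.e i).continuousAt_symm ((A.e i).map_source hi)).tendsto
    rwa [(A.e i).left_inv hi] at this
  refine h2.frequently ((h1.and_eventually
    ((A.e i).open_target.mem_nhds ((A.e i).map_source hi))).mono fun z hz h3 => ?_)
  rw [mem_singleton_iff] at h3
  apply hz.1
  rw [mem_singleton_iff, ← h3, (A.e i).right_inv hz.2]

/-- the complement of a finite set is dense -/
theorem freq_off [T1Space M] (A : Atl n M) {Z : Set M} (hZ : Z.Finite) (x : M) :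
    ∃ᶠ y in 𝓝 x, y ∉ Z := by
  have h1 : ∀ x : M, (𝓝[≠] x).NeBot := neBot_ne A
  have h2 : Dense (univ \ Z) := dense_univ.sdiff_finite hZ
  have h3 := mem_closure_iff_frequently.1 (h2 x)
  exact h3.mono fun y hy => hy.2

/-- **no section is locally zero** -/
theorem freq_s [T1Space M] {ρ : Type} (P : PD A ρ) {Z : Set M} (hZ : Z.Finite)
    (hoff : ∀ x, x ∉ Z → P.Snc x) (a : ρ) {i : A.ι} {x : M} (hi : x ∈ (A.e i).source) :
    ∃ᶠ y in 𝓝 x, P.s a i y ≠ 0 := by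
  intro hcon
  obtain ⟨O, hO1, hO, hxO⟩ := _root_.mem_nhds_iff.1
    (Filter.inter_mem hcon ((A.e i).open_source.mem_nhds hi))
  obtain ⟨y, hyZ, hyO⟩ := ((freq_off A hZ x).and_eventually (hO.mem_nhds hxO)).exists
  have hyi : y ∈ (A.e i).source := (hO1 hyO).2
  obtain ⟨v, hv⟩ := (hoff y hyZ).all P hyi fun _ => 1
  have h0 : P.rd i a =ᶠ[𝓝 (A.e i y)] fun _ => 0 := by
    have h2 : Tendsto (A.e i).symm (𝓝 (A.e i y)) (𝓝 y) := by
      have := ((A.e i).continuousAt_symm ((A.e i).map_source hyi)).tendsto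
      rwa [(A.e i).left_inv hyi] at this
    filter_upwards [h2.eventually (hO.mem_nhds hyO)] with z hz
    by_contra h
    exact (hO1 hz).1 h
  have h1 := hv a h0.self_of_nhds
  rw [h0.fderiv_eq] at h1
  simp at h1

end Gen

section Tower

variable {M : Type} [TopologicalSpace M] [T2Space M] {A : Atl 2 M} {ρ : Type} [Fintype ρ]
  (P : PD A ρ) (hk : ∀ a, P.k a = 2) {Z : Set M} (hZ : Z.Finite) (N : ∀ x : Z, Node P (x : M))
  (hadm : ∀ x, Adm (N x).sh) (hoff : ∀ x, x ∉ Z → P.Snc x)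

/-- **the projection of the tower is dominant** -/
theorem dom_pr (x : TX P hk hZ N hadm hoff) :
    Dom (tfam P hk hZ N hadm hoff) (fam A) (pr P hk hZ N hadm hoff) x := by
  have d0 : Dom (tfam P hk hZ N hadm hoff) (fam (D2 P hZ N).atl) (asm P hk hZ N hadm hoff).p x :=
    dom_of_open (asm P hk hZ N hadm hoff).isOpenMap_p (asm P hk hZ N hadm hoff).continuous_p
  have d2 := dom_pi (D2 P hZ N) ((asm P hk hZ N hadm hoff).p x)
  have d1 := dom_pi (D1 P hZ N) ((D2 P hZ N).pi ((asm P hk hZ N hadm hoff).p x))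
  have d12 := Dom.comp (holC_pi (D2 P hZ N)) d2 d0
  have d11 := Dom.comp (p := (D1 P hZ N).pi)
    (r := fun w => (D2 P hZ N).pi ((asm P hk hZ N hadm hoff).p w)) (holC_pi (D1 P hZ N)) d1 d12
  intro a ha hf
  refine d11 a ?_ hf
  exact HG.comp (p := id) (y := pr P hk hZ N hadm hoff x) ha (holC_iff.2 (nodeCen N).hol)

/-- **the roots are nowhere locally zero** -/
theorem mm_freq (a : ρ) {i : A.ι} {x : TX P hk hZ N hadm hoff}
    (hi : pr P hk hZ N hadm hoff x ∈ (A.e i).source) :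
    ∃ᶠ y in 𝓝 x, (mm P hk hZ N hadm hoff).R a i y ≠ 0 := by
  have h1 := freq_s P hZ hoff a hi
  have h2 : HG (fam A) (pr P hk hZ N hadm hoff x) (P.s a i) :=
    hg_of_holAt ((P.hs a).hol i) isOpen_univ (mem_univ _) hi
  have h3 := dom_pr P hk hZ N hadm hoff x _ h2 h1
  have h4 : ∀ᶠ y in 𝓝 x, pr P hk hZ N hadm hoff y ∈ (A.e i).source :=
    (continuous_pr P hk hZ N hadm hoff).continuousAt.eventually ((A.e i).open_source.mem_nhds hi)
  refine (h3.and_eventually h4).mono fun y hy h5 => hy.1 ?_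
  exact (mm_zero a hy.2).1 h5

/-- **the sections are square classes on the tower** -/
theorem sqE_s (a : ρ) {i : A.ι} {x : TX P hk hZ N hadm hoff}
    (hi : pr P hk hZ N hadm hoff x ∈ (A.e i).source) :
    SqE (tfam P hk hZ N hadm hoff) x (fun y => P.s a i (pr P hk hZ N hadm hoff y))
      (fun _ => 1) := by
  have h4 : ∀ᶠ y in 𝓝 x, pr P hk hZ N hadm hoff y ∈ (A.e i).source :=
    (continuous_pr P hk hZ N hadm hoff).continuousAt.eventually ((A.e i).open_source.mem_nhds hi)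
  refine SqE.of_sq (mm_hg a hi) (mm_freq P hk hZ N hadm hoff a hi) ?_
  filter_upwards [h4] with y hy
  exact (mm_sq a hy).symm

/-- **slopes on the tower**: any coordinates at a centre -/
theorem slope_pr {s : M} (hs : s ∈ Z) {x : TX P hk hZ N hadm hoff}
    (hx : pr P hk hZ N hadm hoff x = s) {u : Fin 2 → M → ℂ} (hu : Crd A s u)
    (h0 : u 0 s = 0) (h1 : u 1 s = 0) :
    Slope (tfam P hk hZ N hadm hoff) x (fun y => u 0 (pr P hk hZ N hadm hoff y))
      (fun y => u 1 (pr P hk hZ N hadm hoff y)) :=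
  slope_crdN P hZ N (holC_p2 P hk hZ N hadm hoff) hs hx hu h0 h1

end Tower

end

end Crest.Agent.R272.DomT_140
end

-- ▼ part R272/H2b_140
section

/-!
# R272 (S0414), leaf S14-H2 (helper140), part 2: the square class `sq2` (coincidence with `φ`)

* `sMf s s'` : `s_M = o² t0⁴ - z² t1⁴` in the frames `s`, `s' : Bool`;
* `sq2`      : generic (any surface over `C^ × F8`), in the style of 771's `sq4`;
* `prCM`, `prFM`, `pi1`, `pi2` : the maps of `M : NLoc k` (595) to `C^`, `F8`, `CC`, `BB`;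
* `sq2M`     : the field `sq2` of 414's `Sq14` for `M : NLoc k`.
-/

set_option autoImplicit false
set_option linter.unusedSectionVars false

open Set Topology Filter Complex

namespace Crest.Agent.R272.H2_140

open Crest.Agent.R275.Geo Crest.Agent.R275.Core144 Crest.Agent.R273.Fam_835
open Crest.Agent.R273.Map_835 Crest.Agent.R272.Quot_783
open Crest.Agent.R272.Root_83 Crest.Agent.R272.DCov_426 Crest.Agent.R272.P1F_54
open Crest.Agent.R272.P1S_590 Crest.Agent.R272.Hom_839 Crest.Agent.R272.Lc_771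
open Crest.Agent.R272.P1L_426 (Ch F8 CC BB f16 f8 f4 g8)
open Crest.Agent.R272.Sq4_771 Crest.Agent.R272.M14_590 Crest.Agent.R272.Nl_595
open Crest.Agent.R272.Adp_409 Crest.Agent.R272.Asm2_102 Crest.Agent.R272.BlA_266
open Crest.Agent.R272.Tow_102

noncomputable section

/-- `s_M = o² t0⁴ - z² t1⁴` in the frames `s`, `s'` -/
def sMf (s s' : Bool) (q : Ch.X) (q' : F8.X) : ℂ :=
  u1 s' (pc s' (F8.p q')) ^ 2 * u0 s (pc s (Ch.p q)) ^ 4 -
    u0 s' (pc s' (F8.p q')) ^ 2 * u1 s (pc s (Ch.p q)) ^ 4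

section surface

variable {n : ℕ} {X : Type} [TopologicalSpace X] {CX : Fam n X} {πC : X → Ch.X} {πF : X → F8.X}
  {AC : Atl 1 Ch.X} {AF : Atl 1 F8.X} (hC : Cmp Ch.famX AC) (hF : Cmp F8.famX AF)
  (hπC : HolC CX (fam AC) πC) (hπF : HolC CX (fam AF) πF) {x : X}
  (dC : Dom CX (fam AC) πC x) (dF : Dom CX (fam AF) πF x)
  {AB' : Atl 1 BB.X} (hBB : Cmp BB.famX AB')

include hC hF hπC hπF dC dF hBB in
/-- **(H2)** -/
theorem sq2 {s s' : Bool} (hs : Ch.p (πC x) ∈ (A1.e s).source)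
    (hs' : F8.p (πF x) ∈ (A1.e s').source)
    (hM : SqE CX x (fun y => sMf s s' (πC y) (πF y)) (fun _ => 1))
    (hsl : Ch.y 0 s (πC x) = 0 → F8.y 0 s' (πF x) = 0 → sMf s s' (πC x) (πF x) = 0 →
      Slope CX x (fun y => F8.y 0 s' (πF y)) (fun y => Ch.y 0 s (πC y)))
    (hx : kF (πF x) = phi (kC (πC x))) :
    ∃ g, LC AB' (kF (πF x)) g ∧
      SqE CX x (fun z => g (kF (πF z)) - g (phi (kC (πC z)))) (fun _ => 1) := by
  have gt0 := (hg_u0 hC hs).comp hπC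
  have gt1 := (hg_u1 hC hs).comp hπC
  have gd := (hg_y Ch hC 0 (j := s) hs).comp hπC
  have gz := (hg_u0 hF hs').comp hπF
  have go := (hg_u1 hF hs').comp hπF
  have ge := (hg_y F8 hF 0 (j := s') hs').comp hπF
  set t0 : X → ℂ := fun y => u0 s (pc s (Ch.p (πC y))) with ht0
  set t1 : X → ℂ := fun y => u1 s (pc s (Ch.p (πC y))) with ht1
  set d : X → ℂ := fun y => Ch.y 0 s (πC y) with hd
  set z : X → ℂ := fun y => u0 s' (pc s' (F8.p (πF y))) with hz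
  set o : X → ℂ := fun y => u1 s' (pc s' (F8.p (πF y))) with ho
  set e : X → ℂ := fun y => F8.y 0 s' (πF y) with he
  have hP : ∀ᶠ y in 𝓝 x, Rep BB (fun _ => 1) (kF (πF y)) (z y ^ 2) (o y ^ 2)
      (fun _ => e y ^ 2) := by
    filter_upwards [ev_F hπF hs'] with y hy using rep_kF hy
  have hH : ∀ᶠ y in 𝓝 x, Rep BB (fun _ => 1) (phi (kC (πC y)))
      ((t0 y ^ 2) ^ 2) ((t1 y ^ 2) ^ 2) (fun _ => d y ^ 2) := by
    filter_upwards [ev_C hπC hs] with y hy using rep_phi (rep_kC hy)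
  refine sq_pair hBB ((gt0.pow 2).pow 2) (gz.pow 2) ((gt1.pow 2).pow 2) (go.pow 2) hP hH ?_ ?_ hx
  · intro hY₂ hY₁ hZ₁ hZ₂
    have hex : e x = 0 := pow_eq_zero_iff two_ne_zero |>.1 hY₂
    have hdx : d x = 0 := pow_eq_zero_iff two_ne_zero |>.1 hY₁
    have hzx : z x ≠ 0 := fun h => hZ₂ (by simp [h])
    have htx : t0 x ≠ 0 := fun h => hZ₁ (by simp [h])
    have fd : ∃ᶠ y in 𝓝 x, d y ≠ 0 :=
      dC.freq (hg_y Ch hC 0 (j := s) hs) (freq_y hC 0 hs)
    have fe : ∃ᶠ y in 𝓝 x, e y ≠ 0 :=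
      dF.freq (hg_y F8 hF 0 (j := s') hs') (freq_y hF 0 hs')
    have hM0 : sMf s s' (πC x) (πF x) = 0 := by
      have rP := hP.self_of_nhds
      have rH := hH.self_of_nhds
      rw [← hx] at rH
      obtain ⟨c, hc0, eZ, eX, -⟩ := isHom_BB.rep_rel rH rP
      show o x ^ 2 * t0 x ^ 4 - z x ^ 2 * t1 x ^ 4 = 0
      rw [eZ, eX]; ring
    refine ⟨fun y => d y / t0 y ^ 2, fun y => e y / z y, HG.div gd (gt0.pow 2)
      (pow_ne_zero _ htx), HG.div ge gz hzx, ?_, ?_, ?_, ?_, ?_⟩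
    · refine (fd.and_eventually (gt0.continuousAt.eventually_ne htx)).mono ?_
      rintro y ⟨h1, h2⟩
      exact div_ne_zero h1 (pow_ne_zero _ h2)
    · refine (fe.and_eventually (gz.continuousAt.eventually_ne hzx)).mono ?_
      rintro y ⟨h1, h2⟩
      exact div_ne_zero h1 h2
    · filter_upwards [gt0.continuousAt.eventually_ne htx] with y h1
      show d y ^ 2 = (t0 y ^ 2) ^ 2 * (d y / t0 y ^ 2) ^ 2
      rw [← mul_pow, mul_div_cancel₀ _ (pow_ne_zero 2 h1)]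
    · filter_upwards [gz.continuousAt.eventually_ne hzx] with y h1
      show e y ^ 2 = z y ^ 2 * (e y / z y) ^ 2
      rw [← mul_pow, mul_div_cancel₀ _ h1]
    · have hsl' := hsl hdx hex hM0
      refine Slope.units hsl' (gz.inv hzx) ((gt0.pow 2).inv (pow_ne_zero 2 htx))
        (inv_ne_zero hzx) (inv_ne_zero (pow_ne_zero 2 htx)) ?_ ?_
      · filter_upwards with y
        rw [div_eq_mul_inv, mul_comm]
      · filter_upwards with y
        rw [div_eq_mul_inv, mul_comm]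
  · refine (SqE.of_eq ?_).trans hM
    filter_upwards with y
    show o y ^ 2 * (t0 y ^ 2) ^ 2 - z y ^ 2 * (t1 y ^ 2) ^ 2 =
      o y ^ 2 * t0 y ^ 4 - z y ^ 2 * t1 y ^ 4
    ring

end surface

/-! ### the instance -/

section inst

variable {k : ℂ} (M : NLoc k)

/-- the projection to `C^` -/
def prCM (x : M.D.X) : Ch.X :=
  prC (P := PN k) (hk := PN_k k) (hZ := M.fin) (N := M.N) (hadm := M.adm) (hoff := M.off) x

/-- the projection to `F8` -/
def prFM (x : M.D.X) : F8.X :=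
  prF (P := PN k) (hk := PN_k k) (hZ := M.fin) (N := M.N) (hadm := M.adm) (hoff := M.off) x

/-- `π1 : X → CC` -/
def pi1 (x : M.D.X) : CC.X := kC (prCM M x)

/-- `π2 : X → BB` -/
def pi2 (x : M.D.X) : BB.X := kF (prFM M x)

theorem holC_prCM : HolC M.D.famX (fam Ch.atlX) (prCM M) :=
  holC_prC (P := PN k) (hk := PN_k k) (hZ := M.fin) (N := M.N) (hadm := M.adm) (hoff := M.off)

theorem holC_prFM : HolC M.D.famX (fam F8.atlX) (prFM M) :=
  holC_prF (P := PN k) (hk := PN_k k) (hZ := M.fin) (N := M.N) (hadm := M.adm) (hoff := M.off)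

theorem holC_pi1 : HolC M.D.famX (fam CC.atlX) (pi1 M) :=
  (holC_iff.2 holMap_kC).comp (holC_prCM M)

theorem holC_pi2 : HolC M.D.famX (fam BB.atlX) (pi2 M) :=
  (holC_iff.2 holMap_kF).comp (holC_prFM M)


/-- the projection to `C^` is dominant -/
theorem dom_prCM (x : M.D.X) : Dom M.D.famX (fam Ch.atlX) (prCM M) x := by
  have h1 := DomT_140.dom_pr (PN k) (PN_k k) M.fin M.N M.adm M.off x
  have h2 : Dom (fam AN) (fam Ch.atlX) Prod.fst
      (pr (PN k) (PN_k k) M.fin M.N M.adm M.off x) := dom_of_open isOpenMap_fst continuous_fst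
  exact Dom.comp (p := Prod.fst) (r := pr (PN k) (PN_k k) M.fin M.N M.adm M.off)
    (holC_iff.2 (Crest.Agent.R272.Pr_414.fst Ch.atlX F8.atlX)) h2 h1

/-- the projection to `F8` is dominant -/
theorem dom_prFM (x : M.D.X) : Dom M.D.famX (fam F8.atlX) (prFM M) x := by
  have h1 := DomT_140.dom_pr (PN k) (PN_k k) M.fin M.N M.adm M.off x
  have h2 : Dom (fam AN) (fam F8.atlX) Prod.snd
      (pr (PN k) (PN_k k) M.fin M.N M.adm M.off x) := dom_of_open isOpenMap_snd continuous_snd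
  exact Dom.comp (p := Prod.snd) (r := pr (PN k) (PN_k k) M.fin M.N M.adm M.off)
    (holC_iff.2 (Crest.Agent.R272.Pr_414.snd Ch.atlX F8.atlX)) h2 h1

/-- the frames at a point: charts of the canonical atlases over the frames of `P1` -/
theorem exists_frames (x : M.D.X) : ∃ (i : Ch.atlX.ι) (j : F8.atlX.ι),
    prCM M x ∈ (Ch.atlX.e i).source ∧ prFM M x ∈ (F8.atlX.e j).source ∧
    Ch.p (prCM M x) ∈ (A1.e (Ch.refX.r i)).source ∧
    F8.p (prFM M x) ∈ (A1.e (F8.refX.r j)).source := by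
  obtain ⟨i, hi⟩ := Ch.atlX.cover (prCM M x)
  obtain ⟨j, hj⟩ := F8.atlX.cover (prFM M x)
  exact ⟨i, j, hi, hj, Ch.refX.sub i _ hi, F8.refX.sub j _ hj⟩

/-- `s_M` is a square class -/
theorem sqE_sM {x : M.D.X} {i : Ch.atlX.ι} {j : F8.atlX.ι} (hi : prCM M x ∈ (Ch.atlX.e i).source)
    (hj : prFM M x ∈ (F8.atlX.e j).source) :
    SqE M.D.famX x (fun y => sMf (Ch.refX.r i) (F8.refX.r j) (prCM M y) (prFM M y))
      (fun _ => 1) := by
  have h1 := DomT_140.sqE_s (PN k) (PN_k k) M.fin M.N M.adm M.off 0 (i := (i, j)) (x := x)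
    ⟨hi, hj⟩
  refine (SqE.of_eq ?_).trans h1
  have h2 : ∀ᶠ y in 𝓝 x, prCM M y ∈ (Ch.atlX.e i).source :=
    (holC_prCM M).cont.continuousAt.eventually ((Ch.atlX.e i).open_source.mem_nhds hi)
  have h3 : ∀ᶠ y in 𝓝 x, prFM M y ∈ (F8.atlX.e j).source :=
    (holC_prFM M).cont.continuousAt.eventually ((F8.atlX.e j).open_source.mem_nhds hj)
  filter_upwards [h2, h3] with y h4 h5
  exact (two14_sM Ch.cmp_atlX Ch.refX F8.cmp_atlX F8.refX h4 h5).symm

/-- **the field `sq2` of `Sq14`** -/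
theorem sq2M (x : M.D.X) (hx : pi2 M x = phi (pi1 M x)) :
    ∃ f, LC BB.atlX (pi2 M x) f ∧
      SqE M.D.famX x (fun z => f (pi2 M z) - f (phi (pi1 M z))) (fun _ => 1) := by
  obtain ⟨i, j, hi, hj, hs, hs'⟩ := exists_frames M x
  refine sq2 Ch.cmp_atlX F8.cmp_atlX (holC_prCM M) (holC_prFM M) (dom_prCM M x) (dom_prFM M x)
    BB.cmp_atlX hs hs' (sqE_sM M hi hj) ?_ hx
  intro hd he h0
  have hZ : (prCM M x, prFM M x) ∈ NlB_426.Z k :=
    (NlB_426.mem_Z (q := (prCM M x, prFM M x)) hs hs').2 (Or.inr (Or.inr (Or.inr (Or.inl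
      ⟨hd, he, h0⟩))))
  have hcrd := crd_prod (NlB_426.cr_dl Ch.cmp_atlX hs hd) (NlB_426.cr_et F8.cmp_atlX hs' he)
  exact (DomT_140.slope_pr (PN k) (PN_k k) M.fin M.N M.adm M.off hZ (x := x) rfl hcrd hd
    he).symm

end inst

end

end Crest.Agent.R272.H2_140
end

-- ▼ part R272/H2c_140

/-!
# R272 (S0414), leaf S14-H2 (helper140), part 3: the structure `Sq14` of 414 on the literal model

`sq14 (M : NLoc k)` (for `k = ka`): all four square classes for `π1 = kC ∘ prC`, `π2 = kF ∘ prF`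
(`sq1`, `sq3`, `sq4` from 771's generic theorems of `Sq4c`, `sq2` from `H2b`).
-/

set_option autoImplicit false
set_option linter.unusedSectionVars false

open Set Topology Filter Complex

namespace Crest.Agent.R272.H2_140

open Crest.Agent.R275.Geo Crest.Agent.R275.Core144 Crest.Agent.R273.Fam_835
open Crest.Agent.R273.Map_835 Crest.Agent.R272.Quot_783
open Crest.Agent.R272.Root_83 Crest.Agent.R272.DCov_426 Crest.Agent.R272.P1F_54
open Crest.Agent.R272.P1S_590 Crest.Agent.R272.Hom_839 Crest.Agent.R272.Lc_771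
open Crest.Agent.R272.P1L_426 (Ch F8 CC BB f16 f8 f4 g8)
open Crest.Agent.R272.Sq4_771 Crest.Agent.R272.M14_590 Crest.Agent.R272.Nl_595
open Crest.Agent.R272.Adp_409 Crest.Agent.R272.Asm2_102 Crest.Agent.R272.BlA_266
open Crest.Agent.R272.Tow_102 Crest.Agent.R272.Dt14_414
open Crest.Agent.R272.Mf_839 (ka ka_pow f_rep)

noncomputable section

variable {k : ℂ} (M : NLoc k)

/-- `s_N` is a square class -/
theorem sqE_sN {x : M.D.X} {i : Ch.atlX.ι} {j : F8.atlX.ι} (hi : prCM M x ∈ (Ch.atlX.e i).source)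
    (hj : prFM M x ∈ (F8.atlX.e j).source) :
    SqE M.D.famX x (fun y => sNf k (Ch.refX.r i) (F8.refX.r j) (prCM M y) (prFM M y))
      (fun _ => 1) := by
  have h1 := DomT_140.sqE_s (PN k) (PN_k k) M.fin M.N M.adm M.off 1 (i := (i, j)) (x := x)
    ⟨hi, hj⟩
  refine (SqE.of_eq ?_).trans h1
  have h2 : ∀ᶠ y in 𝓝 x, prCM M y ∈ (Ch.atlX.e i).source :=
    (holC_prCM M).cont.continuousAt.eventually ((Ch.atlX.e i).open_source.mem_nhds hi)
  have h3 : ∀ᶠ y in 𝓝 x, prFM M y ∈ (F8.atlX.e j).source :=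
    (holC_prFM M).cont.continuousAt.eventually ((F8.atlX.e j).open_source.mem_nhds hj)
  filter_upwards [h2, h3] with y h4 h5
  exact (two14_sN Ch.cmp_atlX Ch.refX F8.cmp_atlX F8.refX k h4 h5).symm

/-- the field `sq1` -/
theorem sq1M (x : M.D.X) (hx : pi2 M x = w0) :
    ∃ f, LC BB.atlX (pi2 M x) f ∧ SqE M.D.famX x (fun z => f (pi2 M z) - f w0) (fun _ => 1) :=
  sq1 F8.cmp_atlX (holC_prFM M) (dom_prFM M x) (fun _ _ _ _ r => rep_kF r) BB.cmp_atlX
    ⟨_, _, rep_w0⟩ hx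

/-- the field `sq3` -/
theorem sq3M (x : M.D.X) (hx : pi1 M x = z0) :
    ∃ f, LC CC.atlX (pi1 M x) f ∧ SqE M.D.famX x (fun z => f (pi1 M z) - f z0) (fun _ => 1) :=
  sq3 Ch.cmp_atlX (holC_prCM M) (dom_prCM M x) (fun _ _ _ _ r => rep_kC r) CC.cmp_atlX
    ⟨_, _, rep_z0⟩ hx

/-- the field `sq4` -/
theorem sq4M (M : NLoc ka) (x : M.D.X) (hx : pi2 M x = Mf_839.f (pi1 M x)) :
    ∃ f, LC BB.atlX (pi2 M x) f ∧
      SqE M.D.famX x (fun z => f (pi2 M z) - f (Mf_839.f (pi1 M z))) (fun _ => 1) := by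
  obtain ⟨i, j, hi, hj, hs, hs'⟩ := exists_frames M x
  refine sq4 (k := ka) (f := Mf_839.f) Ch.cmp_atlX F8.cmp_atlX (holC_prCM M) (holC_prFM M)
    (dom_prCM M x)
    (dom_prFM M x) (fun _ _ _ _ r => rep_kC r) (fun _ _ _ _ r => rep_kF r)
    (fun _ _ _ _ r => f_rep r) BB.cmp_atlX hs hs' (sqE_sN M hi hj) ?_ hx
  intro hr he h0
  have hZ : (prCM M x, prFM M x) ∈ NlB_426.Z ka :=
    (NlB_426.mem_Z (q := (prCM M x, prFM M x)) hs hs').2 (Or.inr (Or.inr (Or.inr (Or.inr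
      ⟨hr, he, by
        refine Eq.trans ?_ h0
        simp only [Tra3_178.sN, sNf, NlB_426.om, NlB_426.t1, NlB_426.t0, NlB_426.dl, NlB_426.ze]
        ring⟩))))
  have hcrd := crd_prod (NlB_426.cr_rh Ch.cmp_atlX hs hr) (NlB_426.cr_et F8.cmp_atlX hs' he)
  exact (DomT_140.slope_pr (PN ka) (PN_k ka) M.fin M.N M.adm M.off hZ (x := x) rfl hcrd hr
    he).symm

/-- **414's `Sq14` on the literal model** -/
theorem sq14 (M : NLoc ka) : Sq14 M.D.famX CC.atlX BB.atlX phi Mf_839.f z0 w0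
    (Ne_595.π1 M) (Ne_595.π2 M) :=
  Sq14.of (holC_pi1 M) (holC_pi2 M) (Tphi.continuous_map isHom_CC isHom_BB)
    Mf_839.continuous_f (sq1M M) (sq2M M) (sq3M M) (sq4M M)

end

end Crest.Agent.R272.H2_140
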