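import Crest.Agent.R273.ThmD2A_505
import Crest.Agent.R273.LimB_505
import Crest.Agent.R273.SerE_945
import Crest.Agent.R272.Kod3_410
import Crest.Agent.R273.SteinM_794

-- ▼ part R272/Kod1_410
section

/-!
# R272, KOD-EMB (helper410), part 1: the abstract `L²` estimate

Setting of `R273.AbsStep392`: a pre-Hilbert space `S`, `d`, its formal adjoint `ds`, `d d = 0`,
mollifiers `J`. From `‖E u‖ ≤ ‖d u‖ + ‖ds u‖` (`E` a map with `⟪z, u⟫ = ⟪z, E u⟫`) and the limit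
property `LIM` :

* `near_closed` : every `u` is approximated, weakly against closed elements, by `c m` with
  `d (c m) → 0` and `ds (c m) → ds u`;
* `apriori`     : `‖⟪z, u⟫‖ ≤ ‖z‖ * ‖ds u‖` for `z` closed, `z = E z`;
* `abs_bound`   : `d y0 = z`, `ds y0 = 0` ⟹ there is `y` with `d y = z`, `‖y‖ ≤ ‖z‖`.
-/

set_option autoImplicit false
set_option linter.style.haveILetI false

open Filter Topology
open scoped InnerProductSpace

namespace Crest.Agent.R272.Kod1_410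

open Crest.Agent.R273.AbsStep392

section normed

variable {S : Type*} [NormedAddCommGroup S] [InnerProductSpace ℂ S]
  (d ds : S →ₗ[ℂ] S) (hadj : ∀ u w, ⟪d u, w⟫_ℂ = ⟪u, ds w⟫_ℂ)

include hadj in
theorem hadj' (u w : S) : ⟪ds u, w⟫_ℂ = ⟪u, d w⟫_ℂ := by
  rw [← inner_conj_symm, ← hadj, inner_conj_symm]

include hadj in
theorem dsds (hdd : ∀ u, d (d u) = 0) (u : S) : ds (ds u) = 0 := by
  have h : ⟪ds (ds u), ds (ds u)⟫_ℂ = 0 := by
    rw [hadj' d ds hadj (ds u), hadj' d ds hadj u, hdd, inner_zero_right]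
  exact inner_self_eq_zero.1 h

/-- a bounded linear family, null along every fixed vector, is null along Cauchy sequences -/
theorem tc {X : Type*} [NormedAddCommGroup X] [NormedSpace ℂ X] (A : ℕ → S →ₗ[ℂ] X) (C : ℝ)
    (hC : ∀ N u, ‖A N u‖ ≤ C * ‖u‖) (h0 : ∀ u, Tendsto (fun N => A N u) atTop (𝓝 0))
    (b : ℕ → S) (hb : CauchySeq b) : Tendsto (fun N => A N (b N)) atTop (𝓝 0) :=
  tendsto_of_cauchy A C hC h0 b hb

variable (hdd : ∀ u, d (d u) = 0) (J : ℕ → S →ₗ[ℂ] S) (C : ℝ)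
    (F1b : ∀ N u, ‖J N u‖ ≤ C * ‖u‖) (F1 : ∀ u, Tendsto (fun N => J N u) atTop (𝓝 u))
    (F2b : ∀ N u, ‖d (J N u) - J N (d u)‖ ≤ C * ‖u‖)
    (F2 : ∀ u, Tendsto (fun N => d (J N u) - J N (d u)) atTop (𝓝 0))
    (F2sb : ∀ N u, ‖ds (J N u) - J N (ds u)‖ ≤ C * ‖u‖)
    (F2s : ∀ u, Tendsto (fun N => ds (J N u) - J N (ds u)) atTop (𝓝 0))
    (F3 : ∀ N, ∃ (m : ℕ) (s e : Fin m → S), ∀ v, J N v = ∑ k, ⟪s k, v⟫_ℂ • e k)

include hadj hdd F1b F1 F2b F2 F2sb F2s F3 in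
theorem near_closed (u : S) : ∃ c : ℕ → S, Tendsto (fun N => d (c N)) atTop (𝓝 0) ∧
    Tendsto (fun N => ds (c N)) atTop (𝓝 (ds u)) ∧
    ∀ z, d z = 0 → Tendsto (fun N => ⟪z, c N⟫_ℂ) atTop (𝓝 ⟪z, u⟫_ℂ) := by
  obtain ⟨y', hc', hw'⟩ := exists_min_seq ds u
  have hfix : ∀ N, Tendsto (fun n => J N (d (u - ds (y' n)))) atTop (𝓝 0) := by
    intro N
    obtain ⟨m, s, e, hse⟩ := F3 N
    have h1 : (fun n => J N (d (u - ds (y' n)))) =
        fun n => ∑ k, ⟪ds (s k), u - ds (y' n)⟫_ℂ • e k := by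
      funext n
      rw [hse]
      exact Finset.sum_congr rfl fun k _ => by rw [hadj' d ds hadj]
    rw [h1]
    have h2 : Tendsto (fun n => ∑ k, ⟪ds (s k), u - ds (y' n)⟫_ℂ • e k) atTop
        (𝓝 (∑ k, (0 : ℂ) • e k)) :=
      tendsto_finsetSum _ fun k _ => (hw' (s k)).smul_const (e k)
    simpa using h2
  have hch : ∀ N : ℕ, ∃ n ≥ N, ‖J N (d (u - ds (y' n)))‖ < 1 / ((N : ℝ) + 1) := by
    intro N
    obtain ⟨n0, hn0⟩ := Metric.tendsto_atTop.1 (hfix N) (1 / ((N : ℝ) + 1)) (by positivity)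
    refine ⟨max N n0, le_max_left _ _, ?_⟩
    have := hn0 (max N n0) (le_max_right _ _)
    rwa [dist_zero_right] at this
  choose φ hφ1 hφ2 using hch
  have hφ : Tendsto φ atTop atTop := tendsto_atTop_mono hφ1 tendsto_id
  have hb : CauchySeq (fun N => u - ds (y' (φ N))) := hc'.comp_tendsto hφ
  set b : ℕ → S := fun N => u - ds (y' (φ N)) with hbdef
  have hdb : ∀ N, ds (b N) = ds u := fun N => by
    simp only [hbdef, map_sub, dsds d ds hadj hdd, sub_zero]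
  refine ⟨fun N => J N (b N), ?_, ?_, ?_⟩
  · have h := tc (fun N => d ∘ₗ J N - J N ∘ₗ d) C
      (fun N u => by simpa using F2b N u) (fun u => by simpa using F2 u) b hb
    have h2 : Tendsto (fun N => J N (d (b N))) atTop (𝓝 0) := by
      refine squeeze_zero_norm (fun N => (hφ2 N).le) ?_
      exact tendsto_one_div_add_atTop_nhds_zero_nat
    have h3 := h.add h2
    rw [add_zero] at h3
    refine h3.congr fun N => ?_
    simp
  · have h := tc (fun N => ds ∘ₗ J N - J N ∘ₗ ds) C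
      (fun N u => by simpa using F2sb N u) (fun u => by simpa using F2s u) b hb
    have h3 := h.add (F1 (ds u))
    rw [zero_add] at h3
    refine h3.congr fun N => ?_
    simp [hdb]
  · intro z hz
    have h := tc (fun N => J N - LinearMap.id) (C + 1)
      (fun N u => by
        have h1 : ‖(J N - LinearMap.id : S →ₗ[ℂ] S) u‖ ≤ ‖J N u‖ + ‖u‖ := by
          simpa using norm_sub_le (J N u) u
        have h2 := F1b N u
        linarith)
      (fun u => by
        have h1 : Tendsto (fun N => J N u - u) atTop (𝓝 (u - u)) := (F1 u).sub_const u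
        simpa using h1)
      b hb
    have h1 : Tendsto (fun N => ⟪z, J N (b N) - b N⟫_ℂ + ⟪z, u⟫_ℂ) atTop
        (𝓝 (⟪z, (0 : S)⟫_ℂ + ⟪z, u⟫_ℂ)) :=
      ((tendsto_const_nhds (x := z)).inner (by simpa using h)).add_const _
    rw [inner_zero_right, zero_add] at h1
    refine h1.congr fun N => ?_
    have h2 : ⟪z, ds (y' (φ N))⟫_ℂ = 0 := by rw [← hadj, hz, inner_zero_left]
    have h3 : ⟪z, u⟫_ℂ = ⟪z, b N⟫_ℂ := by
      simp only [hbdef]
      rw [inner_sub_right, h2, sub_zero]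
    rw [h3, ← inner_add_right, sub_add_cancel]

include hadj hdd F1b F1 F2b F2 F2sb F2s F3 in
/-- **a priori estimate** -/
theorem apriori (E : S → S) (hE : ∀ u, ‖E u‖ ≤ ‖d u‖ + ‖ds u‖) {z : S} (hz : d z = 0)
    (hzE : ∀ u, ⟪z, u⟫_ℂ = ⟪z, E u⟫_ℂ) (u : S) : ‖⟪z, u⟫_ℂ‖ ≤ ‖z‖ * ‖ds u‖ := by
  obtain ⟨c, h1, h2, h3⟩ := near_closed d ds hadj hdd J C F1b F1 F2b F2 F2sb F2s F3 u
  have h4 : Tendsto (fun N => ‖z‖ * (‖d (c N)‖ + ‖ds (c N)‖)) atTop
      (𝓝 (‖z‖ * (‖(0 : S)‖ + ‖ds u‖))) := (h1.norm.add h2.norm).const_mul _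
  rw [norm_zero, zero_add] at h4
  refine le_of_tendsto_of_tendsto (h3 z hz).norm h4 (Eventually.of_forall fun N => ?_)
  show ‖⟪z, c N⟫_ℂ‖ ≤ _
  rw [hzE]
  exact (norm_inner_le_norm _ _).trans (mul_le_mul_of_nonneg_left (hE _) (norm_nonneg _))

/-- harmonic elements -/
def har : Submodule ℂ S := LinearMap.ker d ⊓ LinearMap.ker ds

theorem mem_har {v : S} : v ∈ har d ds ↔ d v = 0 ∧ ds v = 0 := Iff.rfl

variable (LIM : ∀ u : ℕ → S, CauchySeq u → Tendsto (fun N => d (u N)) atTop (𝓝 0) →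
  Tendsto (fun N => ds (u N)) atTop (𝓝 0) → ∃ v, d v = 0 ∧ Tendsto u atTop (𝓝 v))

include hadj LIM in
theorem lim_har (u : ℕ → S) (hc : CauchySeq u) (h1 : Tendsto (fun N => d (u N)) atTop (𝓝 0))
    (h2 : Tendsto (fun N => ds (u N)) atTop (𝓝 0)) :
    ∃ v ∈ har d ds, Tendsto u atTop (𝓝 v) := by
  obtain ⟨v, hv, hu⟩ := LIM u hc h1 h2
  refine ⟨v, (mem_har d ds).2 ⟨hv, ?_⟩, hu⟩
  have h3 : Tendsto (fun N => ⟪ds (u N), ds v⟫_ℂ) atTop (𝓝 ⟪(0 : S), ds v⟫_ℂ) :=
    h2.inner tendsto_const_nhds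
  have h4 : Tendsto (fun N => ⟪u N, d (ds v)⟫_ℂ) atTop (𝓝 ⟪v, d (ds v)⟫_ℂ) :=
    hu.inner tendsto_const_nhds
  have h5 : (fun N => ⟪ds (u N), ds v⟫_ℂ) = fun N => ⟪u N, d (ds v)⟫_ℂ := by
    funext N
    rw [hadj' d ds hadj]
  rw [h5] at h3
  have h6 := tendsto_nhds_unique h4 h3
  rw [inner_zero_left, ← hadj' d ds hadj] at h6
  exact inner_self_eq_zero.1 h6

include hadj LIM in
/-- projection to the orthogonal of the harmonic space -/
theorem exists_proj (y0 : S) : ∃ k ∈ har d ds, ∀ w ∈ har d ds, ⟪w, y0 - k⟫_ℂ = 0 := by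
  obtain ⟨k, hk, hw⟩ := exists_min_seq (har d ds).subtype y0
  have hc : CauchySeq (fun n => ((k n : S))) := by
    have h1 : CauchySeq (fun n => y0 - (y0 - (k n : S))) := by
      rw [Metric.cauchySeq_iff] at hk ⊢
      intro ε hε
      obtain ⟨N, hN⟩ := hk ε hε
      refine ⟨N, fun m hm n hn => ?_⟩
      have := hN m hm n hn
      rw [dist_eq_norm] at this ⊢
      rw [sub_sub_sub_cancel_left, ← norm_neg, neg_sub]
      exact this
    simpa using h1
  obtain ⟨v, hv, hlim⟩ := lim_har d ds hadj LIM (fun n => (k n : S)) hc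
    (by
      have : (fun n => d (k n : S)) = fun _ => 0 := funext fun n => ((mem_har d ds).1 (k n).2).1
      rw [this]; exact tendsto_const_nhds)
    (by
      have : (fun n => ds (k n : S)) = fun _ => 0 := funext fun n => ((mem_har d ds).1 (k n).2).2
      rw [this]; exact tendsto_const_nhds)
  refine ⟨v, hv, fun w hw' => ?_⟩
  have h1 : Tendsto (fun n => ⟪w, y0 - (k n : S)⟫_ℂ) atTop (𝓝 ⟪w, y0 - v⟫_ℂ) :=
    tendsto_const_nhds.inner (tendsto_const_nhds.sub hlim)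
  exact tendsto_nhds_unique h1 (hw ⟨w, hw'⟩)

include hadj hdd F1b F1 F2b F2 F2sb F2s F3 LIM in
/-- **the bound of the solution orthogonal to the harmonic elements** -/
theorem bound (E : S → S) (hE : ∀ u, ‖E u‖ ≤ ‖d u‖ + ‖ds u‖) {z y : S} (hz : d z = 0)
    (hzE : ∀ u, ⟪z, u⟫_ℂ = ⟪z, E u⟫_ℂ) (hy : d y = z) (hys : ds y = 0)
    (hperp : ∀ w ∈ har d ds, ⟪w, y⟫_ℂ = 0) : ‖y‖ ≤ ‖z‖ := by
  obtain ⟨a, c, hb, hc, hcb, -, h1, h2, -, -⟩ := exists_seq_one ds d
    (hadj' d ds hadj) (dsds d ds hadj hdd) J C F1b F1 F2sb F2s F2b F2 F3 y hys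
  obtain ⟨v, hv, hcv⟩ := lim_har d ds hadj LIM c hc h2 h1
  have hbv : Tendsto (fun N => y - ds (a N)) atTop (𝓝 v) := by
    have h3 := hcv.sub hcb
    rw [sub_zero] at h3
    refine h3.congr fun N => ?_
    abel
  have hv0 : v = 0 := by
    have h3 : Tendsto (fun N => ⟪v, y - ds (a N)⟫_ℂ) atTop (𝓝 ⟪v, v⟫_ℂ) :=
      tendsto_const_nhds.inner hbv
    have h4 : (fun N => ⟪v, y - ds (a N)⟫_ℂ) = fun _ => 0 := by
      funext N
      rw [inner_sub_right, hperp v hv, ← hadj, ((mem_har d ds).1 hv).1, inner_zero_left, sub_zero]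
    rw [h4] at h3
    exact inner_self_eq_zero.1 (tendsto_nhds_unique h3 tendsto_const_nhds)
  have hsa : Tendsto (fun N => ds (a N)) atTop (𝓝 y) := by
    have h3 : Tendsto (fun N => y - (y - ds (a N))) atTop (𝓝 (y - v)) :=
      tendsto_const_nhds.sub hbv
    rw [hv0, sub_zero] at h3
    refine h3.congr fun N => ?_
    abel
  have h5 : Tendsto (fun N => ‖⟪ds (a N), y⟫_ℂ‖) atTop (𝓝 ‖⟪y, y⟫_ℂ‖) :=
    (hsa.inner tendsto_const_nhds).norm
  have h6 : Tendsto (fun N => ‖z‖ * ‖ds (a N)‖) atTop (𝓝 (‖z‖ * ‖y‖)) := hsa.norm.const_mul _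
  have h7 : ‖⟪y, y⟫_ℂ‖ ≤ ‖z‖ * ‖y‖ := by
    refine le_of_tendsto_of_tendsto h5 h6 (Eventually.of_forall fun N => ?_)
    show ‖⟪ds (a N), y⟫_ℂ‖ ≤ _
    rw [hadj' d ds hadj, hy, ← inner_conj_symm, RCLike.norm_conj]
    exact apriori d ds hadj hdd J C F1b F1 F2b F2 F2sb F2s F3 E hE hz hzE (a N)
  have h8 : ‖⟪y, y⟫_ℂ‖ = ‖y‖ * ‖y‖ := by
    rw [inner_self_eq_norm_sq_to_K, norm_pow]
    simp [sq]
  rw [h8] at h7
  rcases (norm_nonneg y).eq_or_lt with h | h
  · rw [← h]; exact norm_nonneg z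
  · exact le_of_mul_le_mul_right h7 h

end normed

/-- **the abstract `L²` estimate**, inner products given by `InnerProductSpace.Core` -/
theorem abs_bound {S : Type*} [AddCommGroup S] [Module ℂ S] (c : InnerProductSpace.Core ℂ S)
    (d ds : S →ₗ[ℂ] S) (hadj : ∀ u w, c.inner (d u) w = c.inner u (ds w))
    (hdd : ∀ u, d (d u) = 0) (J : ℕ → S →ₗ[ℂ] S) (C : ℝ)
    (F1b : ∀ N u, nrm c (J N u) ≤ C * nrm c u)
    (F1 : ∀ u, Tendsto (fun N => nrm c (J N u - u)) atTop (𝓝 0))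
    (F2b : ∀ N u, nrm c (d (J N u) - J N (d u)) ≤ C * nrm c u)
    (F2 : ∀ u, Tendsto (fun N => nrm c (d (J N u) - J N (d u))) atTop (𝓝 0))
    (F2sb : ∀ N u, nrm c (ds (J N u) - J N (ds u)) ≤ C * nrm c u)
    (F2s : ∀ u, Tendsto (fun N => nrm c (ds (J N u) - J N (ds u))) atTop (𝓝 0))
    (F3 : ∀ N, ∃ (m : ℕ) (s e : Fin m → S), ∀ v, J N v = ∑ k, c.inner (s k) v • e k)
    (LIM : ∀ u : ℕ → S, (∀ ε > 0, ∃ N, ∀ m ≥ N, ∀ n ≥ N, nrm c (u m - u n) < ε) →
      Tendsto (fun N => nrm c (d (u N))) atTop (𝓝 0) →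
      Tendsto (fun N => nrm c (ds (u N))) atTop (𝓝 0) →
      ∃ v, d v = 0 ∧ Tendsto (fun N => nrm c (u N - v)) atTop (𝓝 0))
    (E : S → S) (hE : ∀ u, nrm c (E u) ≤ nrm c (d u) + nrm c (ds u))
    (z : S) (hz : d z = 0) (hzE : ∀ u, c.inner z u = c.inner z (E u))
    (y0 : S) (hy0 : d y0 = z) (hys : ds y0 = 0) :
    ∃ y, d y = z ∧ nrm c y ≤ nrm c z := by
  letI : NormedAddCommGroup S := c.toNormedAddCommGroup
  letI : InnerProductSpace ℂ S := .ofCore c.toCore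
  have n1 : ∀ u : S, nrm c u = ‖u‖ := fun u => rfl
  simp only [n1] at *
  have LIM' : ∀ u : ℕ → S, CauchySeq u → Tendsto (fun N => d (u N)) atTop (𝓝 0) →
      Tendsto (fun N => ds (u N)) atTop (𝓝 0) → ∃ v, d v = 0 ∧ Tendsto u atTop (𝓝 v) := by
    intro u h1 h2 h3
    obtain ⟨v, hv, hlim⟩ := LIM u (fun ε hε => by
      obtain ⟨N, hN⟩ := Metric.cauchySeq_iff.1 h1 ε hε
      exact ⟨N, fun m hm n hn => by simpa [dist_eq_norm] using hN m hm n hn⟩)
      (tendsto_zero_iff_norm_tendsto_zero.1 h2) (tendsto_zero_iff_norm_tendsto_zero.1 h3)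
    exact ⟨v, hv, tendsto_iff_norm_sub_tendsto_zero.2 hlim⟩
  obtain ⟨k, hk, hperp⟩ := exists_proj d ds hadj LIM' y0
  refine ⟨y0 - k, by rw [map_sub, hy0, ((mem_har d ds).1 hk).1, sub_zero], ?_⟩
  exact bound d ds hadj hdd J C F1b
    (fun u => tendsto_iff_norm_sub_tendsto_zero.2 (F1 u)) F2b
    (fun u => tendsto_zero_iff_norm_tendsto_zero.2 (F2 u)) F2sb
    (fun u => tendsto_zero_iff_norm_tendsto_zero.2 (F2s u)) F3 LIM' E hE hz hzE
    (by rw [map_sub, hy0, ((mem_har d ds).1 hk).1, sub_zero])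
    (by rw [map_sub, hys, ((mem_har d ds).1 hk).2, sub_zero]) hperp

end Crest.Agent.R272.Kod1_410
end

-- ▼ part R272/Kod2_410
section

/-!
# R272, KOD-EMB (helper410), part 2: the `L²` estimate with the constant of the curvature

`K : Kah A`, `h : HM ((KB A)⁻¹ * N)` with `K.g ≤ cur h`.

* `Cv_ge` : `⟨v₁, v₁⟩ ≤ Cv(Γ(gᵀ), θ; v, v)` if `g ≤ θ` (`v₁` = component of degree one);
* `sn_E_le` : `‖E u‖ ≤ ‖∇ u‖ + ‖∇* u‖`, `E` = component of degree one;
* `solv_bound` : closed `z` of degree one is `∇ y` with `‖y‖ ≤ ‖z‖`, `y` of degree zero.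
-/

set_option autoImplicit false
set_option linter.unusedSectionVars false

open Set Filter Topology Complex
open scoped ContDiff Matrix ComplexConjugate Kronecker ComplexOrder

namespace Crest.Agent.R272.Kod2_410

open Crest.Agent.R275 Crest.Agent.R275.Geo Crest.Agent.R275.Core144
open Crest.Agent.R273.Defs_333 Crest.Agent.R273.HM_333 Crest.Agent.R273.Kah_333
open Crest.Agent.R273.Fock_243 Crest.Agent.R273.Calc_243 Crest.Agent.R273.Bkn_243
open Crest.Agent.R273.Pos_243 Crest.Agent.R273.Berezin_505 Crest.Agent.R273.L2K_774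
open Crest.Agent.R273.LamN127 Crest.Agent.R273.NormC_505 Crest.Agent.R273.DnInt_505
open Crest.Agent.R273.DVec_733 Crest.Agent.R273.DMet_733 Crest.Agent.R273.DMetB_733
open Crest.Agent.R273.StV_37 Crest.Agent.R273.BKNa_37
open Crest.Agent.R273.BKNb_37 Crest.Agent.R273.BKNc_37 Crest.Agent.R273.BKNd_37
open Crest.Agent.R273.BKNe_37 Crest.Agent.R273.Mol_106
open Crest.Agent.R273.HDN_505 (EV B0 B0_α Kl Ku HB HB_pos H0 H0_pos HC HTm HTm_form HT Kl_posDef
  Ku_posDef Ku_mul_Kl Kl_mul_Ku)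
open Crest.Agent.R273.Lim_505
open Crest.Agent.R273.SerA_945 Crest.Agent.R273.SerB_945 Crest.Agent.R273.SerE_945
open Crest.Agent.R273.TD3_733
open Crest.Agent.R275.Kos798 (sgn)

noncomputable section

/-! ### linear algebra -/

section linear

variable {n : ℕ}

/-- the component of degree `q` -/
def dg (q : ℕ) (v : FI n → ℂ) : FI n → ℂ := fun S => if S.card = q then v S else 0

theorem dg_Gam (m : Matrix (Fin n) (Fin n) ℂ) (q : ℕ) (v : FI n → ℂ) :
    Gam m *ᵥ dg q v = dg q (Gam m *ᵥ v) := by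
  funext S
  show ∑ T, Gam m S T * dg q v T = if S.card = q then ∑ T, Gam m S T * v T else 0
  by_cases hS : S.card = q
  · rw [if_pos hS]
    refine Finset.sum_congr rfl fun T _ => ?_
    by_cases hT : T.card = q
    · rw [dg, if_pos hT]
    · rw [dg, if_neg hT, Gam_of_ne m (by rw [hS]; exact fun h => hT h.symm), zero_mul, zero_mul]
  · rw [if_neg hS]
    refine Finset.sum_eq_zero fun T _ => ?_
    by_cases hT : T.card = q
    · rw [Gam_of_ne m (by rw [hT]; exact hS), zero_mul]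
    · rw [dg, if_neg hT, mul_zero]

theorem dot_dg (q : ℕ) (a b : FI n → ℂ) : star (dg q a) ⬝ᵥ b = star a ⬝ᵥ dg q b := by
  refine Finset.sum_congr rfl fun S _ => ?_
  show star (dg q a S) * b S = star (a S) * dg q b S
  unfold dg
  by_cases hS : S.card = q
  · rw [if_pos hS, if_pos hS]
  · rw [if_neg hS, if_neg hS, star_zero, zero_mul, mul_zero]

theorem dg_dg (q : ℕ) (a : FI n → ℂ) : dg q (dg q a) = dg q a := by
  funext S
  unfold dg
  split_ifs <;> rfl

theorem dg_one (v : FI n → ℂ) : dg 1 v = ∑ k, v {k} • (Pi.single {k} 1 : FI n → ℂ) := by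
  funext S
  rw [Finset.sum_apply]
  unfold dg
  by_cases hS : S.card = 1
  · rw [if_pos hS]
    obtain ⟨a, rfl⟩ := Finset.card_eq_one.1 hS
    rw [Finset.sum_eq_single a]
    · simp
    · intro b _ hb
      have : ({a} : FI n) ≠ {b} := by
        intro h
        exact hb (Finset.singleton_injective h).symm
      simp [this]
    · intro h
      exact absurd (Finset.mem_univ a) h
  · rw [if_neg hS]
    symm
    refine Finset.sum_eq_zero fun b _ => ?_
    have : S ≠ {b} := by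
      rintro rfl
      exact hS (Finset.card_singleton b)
    simp [this]

/-- the form of `Γ(m)` in degree one -/
theorem form_one (m : Matrix (Fin n) (Fin n) ℂ) (v : FI n → ℂ) :
    star (dg 1 v) ⬝ᵥ (Gam m *ᵥ dg 1 v) = ∑ k, ∑ l, m l k * (star (v {l}) * v {k}) := by
  rw [dg_one, Matrix.mulVec_sum, dotProduct_sum]
  refine Finset.sum_congr rfl fun k _ => ?_
  rw [star_sum, sum_dotProduct]
  refine Finset.sum_congr rfl fun l _ => ?_
  rw [star_smul, smul_dotProduct, Matrix.mulVec_smul, dotProduct_smul, form_single, Gam_single]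
  simp only [smul_eq_mul]
  ring

theorem Gam_row_vac (m : Matrix (Fin n) (Fin n) ℂ) (T : FI n) :
    Gam m ∅ T = if T = ∅ then 1 else 0 := by
  by_cases hT : T = ∅
  · rw [if_pos hT, hT, Gam_vac, if_pos rfl]
  · rw [if_neg hT]
    refine Gam_of_ne m ?_
    rw [Finset.card_empty]
    intro h
    exact hT (Finset.card_eq_zero.1 h.symm)

/-- the projection on the vacuum -/
def vac (n : ℕ) : Matrix (FI n) (FI n) ℂ := Matrix.of fun S T => if S = ∅ ∧ T = ∅ then 1 else 0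

theorem vac_mulVec (v : FI n → ℂ) : vac n *ᵥ v = v ∅ • (Pi.single ∅ 1 : FI n → ℂ) := by
  funext S
  show ∑ T, (if S = ∅ ∧ T = ∅ then (1 : ℂ) else 0) * v T = v ∅ * (Pi.single ∅ 1 : FI n → ℂ) S
  by_cases hS : S = ∅
  · subst hS
    simp
  · simp [hS]

theorem vac_psd : (vac n).PosSemidef := by
  have h : vac n = (Matrix.of fun (_ : Unit) (T : FI n) => if T = ∅ then (1 : ℂ) else 0)ᴴ *
      (Matrix.of fun (_ : Unit) (T : FI n) => if T = ∅ then (1 : ℂ) else 0) := by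
    ext S T
    rw [Matrix.mul_apply]
    simp only [vac, Matrix.of_apply, Matrix.conjTranspose_apply, Finset.univ_unique,
      Finset.sum_singleton]
    by_cases hS : S = ∅ <;> by_cases hT : T = ∅ <;> simp [hS, hT]
  rw [h]
  exact Matrix.posSemidef_conjTranspose_mul_self _

theorem Gam_sub_vac_psd {m : Matrix (Fin n) (Fin n) ℂ} (hm : m.PosSemidef) :
    (Gam m - vac n).PosSemidef := by
  have h : Gam m - vac n = (1 - vac n)ᴴ * Gam m * (1 - vac n) := by
    have h1 : (1 - vac n)ᴴ = 1 - vac n := by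
      rw [Matrix.conjTranspose_sub, Matrix.conjTranspose_one, vac_psd.1.eq]
    have h2 : Gam m * vac n = vac n := by
      ext S T
      rw [Matrix.mul_apply]
      simp only [vac, Matrix.of_apply]
      rw [Finset.sum_eq_single (∅ : FI n)]
      · rw [Gam_vac]
        by_cases hS : S = ∅ <;> by_cases hT : T = ∅ <;> simp [hS, hT]
      · intro b _ hb
        simp [hb]
      · intro h
        exact absurd (Finset.mem_univ _) h
    have h3 : vac n * Gam m = vac n := by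
      ext S T
      rw [Matrix.mul_apply]
      simp only [vac, Matrix.of_apply]
      rw [Finset.sum_eq_single (∅ : FI n)]
      · rw [Gam_row_vac]
        by_cases hS : S = ∅ <;> by_cases hT : T = ∅ <;> simp [hS, hT]
      · intro b _ hb
        simp [hb]
      · intro h
        exact absurd (Finset.mem_univ _) h
    have h4 : vac n * vac n = vac n := by
      ext S T
      rw [Matrix.mul_apply]
      simp only [vac, Matrix.of_apply]
      rw [Finset.sum_eq_single (∅ : FI n)]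
      · by_cases hS : S = ∅ <;> by_cases hT : T = ∅ <;> simp [hS, hT]
      · intro b _ hb
        simp [hb]
      · intro h
        exact absurd (Finset.mem_univ _) h
    rw [h1, Matrix.sub_mul, Matrix.one_mul, h3, Matrix.mul_sub, Matrix.mul_one, Matrix.sub_mul, h2,
      h4]
    abel
  rw [h]
  exact (Gam_posSemidef hm).conjTranspose_mul_mul_same _

theorem T1_add_left (G G' : Matrix (FI n) (FI n) ℂ) (Ki : Matrix (Fin n) (Fin n) ℂ)
    (a b : Fin n → FI n → ℂ) : T1 (G + G') Ki a b = T1 G Ki a b + T1 G' Ki a b := by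
  unfold T1
  rw [← Finset.sum_add_distrib]
  refine Finset.sum_congr rfl fun k _ => ?_
  rw [← Finset.sum_add_distrib]
  refine Finset.sum_congr rfl fun l _ => ?_
  rw [Matrix.add_mulVec, dotProduct_add, mul_add]

theorem Cv_add (G : Matrix (FI n) (FI n) ℂ) (t t' : Matrix (Fin n) (Fin n) ℂ) (a b : FI n → ℂ) :
    Cv G (t + t') a b = Cv G t a b + Cv G t' a b := by
  unfold Cv
  rw [← Finset.sum_add_distrib]
  refine Finset.sum_congr rfl fun k _ => ?_
  rw [← Finset.sum_add_distrib]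
  refine Finset.sum_congr rfl fun l _ => ?_
  rw [Matrix.add_apply, add_mul]

theorem iW_vac (j : Fin n) (v : FI n → ℂ) :
    ((iW (ep j) : Matrix (FI n) (FI n) ℂ) *ᵥ v) ∅ = v {j} := by
  rw [iW_apply j v (Finset.notMem_empty j)]
  have h1 : sgn ℂ j (∅ : FI n) = 1 := by simp [sgn]
  rw [h1, one_mul]
  rfl

/-- **lower bound of the curvature term** -/
theorem Cv_ge {g t : Matrix (Fin n) (Fin n) ℂ} (hg : g.PosSemidef) (ht : (t - g).PosSemidef)
    (v : FI n → ℂ) :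
    (star (dg 1 v) ⬝ᵥ (Gam gᵀ *ᵥ dg 1 v)).re ≤ (Cv (Gam gᵀ) t v v).re := by
  have hG : (Gam gᵀ).PosSemidef := Gam_posSemidef hg.transpose
  have e1 : t = (t - g) + g := (sub_add_cancel t g).symm
  have h1 : 0 ≤ (Cv (Gam gᵀ) (t - g) v v).re := (Complex.le_def.1 (Cv_nonneg hG ht v)).1
  have e2 : Cv (Gam gᵀ) g v v = T1 (vac n) gᵀ (fun k => iW (ep k) *ᵥ v) (fun k => iW (ep k) *ᵥ v) +
      T1 (Gam gᵀ - vac n) gᵀ (fun k => iW (ep k) *ᵥ v) (fun k => iW (ep k) *ᵥ v) := by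
    rw [Cv_eq_T1, ← T1_add_left, add_sub_cancel]
  have h2 : 0 ≤ (T1 (Gam gᵀ - vac n) gᵀ (fun k => iW (ep k) *ᵥ v)
      (fun k => iW (ep k) *ᵥ v)).re :=
    (Complex.le_def.1 (T1_nonneg (Gam_sub_vac_psd hg.transpose) hg.transpose _)).1
  have h3 : T1 (vac n) gᵀ (fun k => iW (ep k) *ᵥ v) (fun k => iW (ep k) *ᵥ v) =
      star (dg 1 v) ⬝ᵥ (Gam gᵀ *ᵥ dg 1 v) := by
    rw [form_one]
    unfold T1
    refine Finset.sum_congr rfl fun k _ => Finset.sum_congr rfl fun l _ => ?_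
    congr 1
    rw [vac_mulVec, dotProduct_smul, dotProduct_single, mul_one, smul_eq_mul, Pi.star_apply]
    show ((iW (ep k) : Matrix (FI n) (FI n) ℂ) *ᵥ v) ∅ *
      star (((iW (ep l) : Matrix (FI n) (FI n) ℂ) *ᵥ v) ∅) = star (v {l}) * v {k}
    rw [iW_vac, iW_vac, mul_comm]
  rw [e1, Cv_add, Complex.add_re, e2, Complex.add_re, h3]
  linarith

end linear

variable {n : ℕ} {M : Type} [TopologicalSpace M] {A : Atl n M} {N : LB A}

/-! ### degrees -/

section deg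

variable (K : Kah A) (h : HM ((KB A)⁻¹ * N))

theorem oB_pq (q : ℕ) (u : A.ι → M → (BN N).κ → ℂ) (i : A.ι) (x : M) :
    oB (pq (BN N) q u i x) = dg q (oB (u i x)) := by
  funext S
  exact pq_apply (B := BN N) q u i x (S, ())

/-- different degrees are orthogonal -/
theorem hd_pq (q : ℕ) (u w : A.ι → M → (BN N).κ → ℂ) (i : A.ι) (x : M) :
    (HB K h).hd (pq (BN N) q u) w i x = (HB K h).hd (pq (BN N) q u) (pq (BN N) q w) i x := by
  rw [HB_hd_iB, HB_hd_iB, oB_pq, oB_pq]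
  congr 1
  show _ = star (dg q (oB (u i x))) ⬝ᵥ (Gam (((K.g i x)ᵀ)⁻¹) *ᵥ dg q (oB (w i x)))
  rw [dg_Gam, ← dot_dg, dg_dg]
  rfl

theorem hd_pq_le (q : ℕ) (u : A.ι → M → (BN N).κ → ℂ) {i : A.ι} {x : M}
    (hx : x ∈ (A.e i).source) :
    ((HB K h).hd (pq (BN N) q u) (pq (BN N) q u) i x).re ≤ ((HB K h).hd u u i x).re := by
  have h1 : (HB K h).hd u u i x = (HB K h).hd (pq (BN N) q u) (pq (BN N) q u) i x +
      (HB K h).hd (u - pq (BN N) q u) (u - pq (BN N) q u) i x := by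
    have e1 : (HB K h).hd (pq (BN N) q u) u i x =
        (HB K h).hd (pq (BN N) q u) (pq (BN N) q u) i x := hd_pq K h q u u i x
    have e2 : (HB K h).hd u (pq (BN N) q u) i x =
        (HB K h).hd (pq (BN N) q u) (pq (BN N) q u) i x := by
      rw [← (HB K h).hd_conj _ _ hx, e1, (HB K h).hd_conj _ _ hx]
    have e3 : (HB K h).hd (u - pq (BN N) q u) (u - pq (BN N) q u) i x =
        (HB K h).hd u u i x - (HB K h).hd u (pq (BN N) q u) i x -
        (HB K h).hd (pq (BN N) q u) u i x + (HB K h).hd (pq (BN N) q u) (pq (BN N) q u) i x := by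
      unfold HDen.hd
      simp only [Pi.sub_apply, star_sub, Matrix.mulVec_sub, sub_dotProduct, dotProduct_sub]
      ring
    rw [e3, e1, e2]
    ring
  rw [h1, Complex.add_re]
  have h2 := (Complex.le_def.1 ((HB K h).hd_self_nonneg (u - pq (BN N) q u) hx)).1
  simp only [Complex.zero_re] at h2
  linarith

/-- the curvature density dominates the component of degree one -/
theorem hd_HT_ge (hs : h.Semipos) (hLB : ∀ i, ∀ x ∈ (A.e i).source,
    (cur h i x - K.g i x).PosSemidef) (u : A.ι → M → (BN N).κ → ℂ) {i : A.ι} {x : M}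
    (hx : x ∈ (A.e i).source) :
    ((HB K h).hd (pq (BN N) 1 u) (pq (BN N) 1 u) i x).re ≤ ((HT K h hs).hd u u i x).re := by
  have e0 : (HT K h hs).hd u u i x =
      (h.w i x : ℂ) * (star (oB (u i x)) ⬝ᵥ (HTm K h i x *ᵥ oB (u i x))) :=
    form_iB (h.w i x : ℂ) (HTm K h i x) (oB (u i x)) (oB (u i x))
  rw [e0, HB_hd_iB, HTm_form, oB_pq, Complex.re_ofReal_mul, Complex.re_ofReal_mul]
  refine mul_le_mul_of_nonneg_left ?_ (h.pos i x hx).le
  have h1 := Cv_ge (K.pos i x hx).posSemidef (hLB i x hx) (Gam (Ku K i x) *ᵥ oB (u i x))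
  refine le_trans (le_of_eq ?_) h1
  congr 1
  have hKu : (Gam (Ku K i x))ᴴ = Gam (Ku K i x) := (Gam_posDef (Ku_posDef K hx)).1.eq
  have hKl : Gam (Kl K i x) * Gam (Ku K i x) = 1 := by
    rw [← Gam_mul, Kl_mul_Ku K hx, Gam_one]
  rw [← dg_Gam]
  show _ = star (Gam (Ku K i x) *ᵥ dg 1 (oB (u i x))) ⬝ᵥ
    (Gam (Kl K i x) *ᵥ (Gam (Ku K i x) *ᵥ dg 1 (oB (u i x))))
  rw [Matrix.mulVec_mulVec, hKl, Matrix.one_mulVec, Matrix.star_mulVec, hKu,
    ← Matrix.dotProduct_mulVec]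
  rfl

end deg

/-! ### the estimate -/

section compact

variable [T2Space M] [CompactSpace M] [Finite A.ι] (P : Part A) (K : Kah A)
  (h : HM ((KB A)⁻¹ * N))

theorem ip_pqL (q : ℕ) (u w : Sec (BN N)) :
    (HB K h).ip P (pqL (BN N) q u).1 w.1 = (HB K h).ip P (pqL (BN N) q u).1 (pqL (BN N) q w).1 :=
  IntP_congr P fun i x _ => hd_pq K h q u.1 w.1 i x

theorem sn_pqL_le (q : ℕ) (u : Sec (BN N)) :
    (HB K h).sn P (pqL (BN N) q u) ≤ (HB K h).sn P u := by
  refine Real.sqrt_le_sqrt ?_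
  exact IntP_re_mono P ((HB K h).isDn (pqL (BN N) q u).2 (pqL (BN N) q u).2)
    ((HB K h).isDn u.2 u.2) fun i x hx => hd_pq_le K h q u.1 hx

variable (hLB : ∀ i, ∀ x ∈ (A.e i).source, (cur h i x - K.g i x).PosSemidef)

include hLB in
theorem cur_pd (i : A.ι) (x : M) (hx : x ∈ (A.e i).source) : (cur h i x).PosDef := by
  have := (K.pos i x hx).add_posSemidef (hLB i x hx)
  rwa [add_sub_cancel] at this

include hLB in
theorem pos_of_LB : h.Pos := pos_of_cur (cur_pd K h hLB)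

include hLB in
theorem sn_E_le (u : Sec (BN N)) : (HB K h).sn P (pqL (BN N) 1 u) ≤
    (HB K h).sn P (nabL (BN N) u) + (HB K h).sn P (dsL K h u) := by
  have hs := R273.Kah_333.Pos.semipos (pos_of_LB K h hLB)
  obtain ⟨v, rfl⟩ := (low K N).surjective u
  refine le_trans (Real.sqrt_le_sqrt ?_) (sn_nab_up P K h hs v).2
  exact IntP_re_mono P ((HB K h).isDn (pqL (BN N) 1 (low K N v)).2 (pqL (BN N) 1 (low K N v)).2)
    ((HT K h hs).isDn (low K N v).2 (low K N v).2) fun i x hx => hd_HT_ge K h hs hLB _ hx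

include P in
/-- `∇*` vanishes in degree zero -/
theorem ds_zero {y : Sec (BN N)} (hy : pqL (BN N) 0 y = y) : dsL K h y = 0 := by
  refine (HB K h).eq_zero_of_pos P (HB_pos K h) _ ?_
  have h1 : (HB K h).ip P (dsL K h y).1 (dsL K h y).1 = 0 := by
    rw [← (HB K h).ip_conj, ← hadj P K h, (HB K h).ip_conj, ← hy, ip_pqL]
    have h2 : pqL (BN N) 0 (nabL (BN N) (dsL K h (pqL (BN N) 0 y))) = 0 :=
      LinearMap.congr_fun (pqL_zero_nabL (B := BN N)) _
    rw [h2]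
    have h3 : (HB K h).ip P (pqL (BN N) 0 y).1 ((0 : ℂ) • (0 : Sec (BN N)).1) = 0 := by
      rw [HDen.ip_smul_right, zero_mul]
    rwa [zero_smul] at h3
  rw [h1]
  rfl

include hLB in
/-- **`∂̄` with the `L²` estimate** -/
theorem solv_bound (hD : D2 A) (z : Sec (BN N)) (hz : nabL (BN N) z = 0)
    (hz1 : pqL (BN N) 1 z = z) :
    ∃ y : Sec (BN N), nabL (BN N) y = z ∧ pqL (BN N) 0 y = y ∧
      (HB K h).sn P y ≤ (HB K h).sn P z := by
  have hp := pos_of_LB K h hLB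
  have hs := R273.Kah_333.Pos.semipos hp
  -- a solution
  have hdeg : IsDeg (BN N) 1 z.1 := by
    intro i x k hk
    by_contra hne
    have h1 : z.1 i x k = pq (BN N) 1 z.1 i x k := by
      conv_lhs => rw [← hz1]
      rfl
    rw [pq_apply, if_neg hne] at h1
    exact hk h1
  obtain ⟨w, hw, hw1⟩ := solv_pos P hD hp (le_refl 1) z.1 ⟨z.2, hdeg⟩ (congrArg Subtype.val hz)
  have hy0 : nabL (BN N) ⟨w, hw.1⟩ = z := Subtype.ext hw1
  have hw0 : pqL (BN N) 0 ⟨w, hw.1⟩ = ⟨w, hw.1⟩ := Subtype.ext (pq_of_isDeg hw.2)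
  obtain ⟨C1, h10, h1⟩ := sn_JN_le P (HB K h) (HB_pos K h)
  obtain ⟨C2, h20, h2⟩ := (FOp.nab (BN N)).sn_comm_le P (HB K h) (HB_pos K h) (HB K h)
  obtain ⟨C3, h30, h3⟩ := (dsF K h).sn_comm_le P (HB K h) (HB_pos K h) (HB K h)
  have hmax : ∀ {C a b : ℝ}, a ≤ C * b → 0 ≤ b → C ≤ max C1 (max C2 C3) →
      a ≤ max C1 (max C2 C3) * b := fun hab hb hC => hab.trans (mul_le_mul_of_nonneg_right hC hb)
  obtain ⟨y, hy, hyn⟩ := Kod1_410.abs_bound ((HB K h).core P (HB_pos K h)) (nabL (BN N)) (dsL K h)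
    (hadj P K h) (nab_nab_BN N) (JN P (BN N)) (max C1 (max C2 C3))
    (fun N u => hmax (h1 N u) ((HB K h).sn_nonneg P u) (le_max_left _ _))
    (fun u => tendsto_sn_JN P (HB K h) u)
    (fun N u => hmax (h2 N u) ((HB K h).sn_nonneg P u)
      ((le_max_left _ _).trans (le_max_right _ _)))
    (fun u => (FOp.nab (BN N)).tendsto_sn_comm P (HB K h) u)
    (fun N u => hmax (h3 N u) ((HB K h).sn_nonneg P u)
      ((le_max_right _ _).trans (le_max_right _ _)))
    (fun u => (dsF K h).tendsto_sn_comm P (HB K h) u)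
    (fun N => JN_finite P (HB K h) (HB_pos K h) N)
    (fun u hc hu1 hu2 => by
      obtain ⟨v, hv, hlim⟩ := lim P K h hs u hc hu1 hu2
      exact ⟨v, hQd K h v hv, hlim⟩)
    (fun u => pqL (BN N) 1 u) (fun u => sn_E_le P K h hLB u) z hz
    (fun u => by
      show (HB K h).ip P z.1 u.1 = (HB K h).ip P z.1 (pqL (BN N) 1 u).1
      conv_lhs => rw [← hz1]
      rw [ip_pqL, hz1])
    ⟨w, hw.1⟩ hy0 (ds_zero P K h hw0)
  refine ⟨pqL (BN N) 0 y, ?_, ?_, (sn_pqL_le P K h 0 y).trans hyn⟩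
  · refine Subtype.ext ?_
    have h4 := nab_pq (B := BN N) 0 y.2
    have h5 : nab (BN N) y.1 = z.1 := congrArg Subtype.val hy
    rw [h5] at h4
    have h6 : pq (BN N) (0 + 1) z.1 = z.1 := congrArg Subtype.val hz1
    rw [h6] at h4
    exact h4
  · exact LinearMap.congr_fun (pqL_idem (B := BN N) 0) y

end compact

end

end Crest.Agent.R272.Kod2_410
end

-- ▼ part R272/Kod5_410

/-!
# R272, KOD-EMB (helper410), part 5: the weighted norms

* `lower` : `∫_{B(ζ_p,s)} |y|² ≤ c⁻¹ (n s² + e)^m ‖y‖²_e` for small `s` (chart `i0`);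
* `upper` : `‖z‖_e ≤ C` uniformly in `e` if `z` vanishes near `p`.
-/

set_option autoImplicit false
set_option linter.unusedSectionVars false

open Set Filter Topology Complex MeasureTheory Metric
open scoped ContDiff Matrix ComplexConjugate Kronecker ComplexOrder ENNReal

namespace Crest.Agent.R272.Kod5_410

open Crest.Agent.R275 Crest.Agent.R275.Geo Crest.Agent.R275.Core144 Crest.Agent.R275.Dg199
open Crest.Agent.R275.C1d194 Crest.Agent.R275.Pai323
open Crest.Agent.R275.SerG398 (lint dens)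
open Crest.Agent.R273.Defs_333 Crest.Agent.R273.HM_333 Crest.Agent.R273.Kah_333
open Crest.Agent.R273.Fock_243 Crest.Agent.R273.Pos_243
open Crest.Agent.R273.LamN127 Crest.Agent.R273.NormC_505 Crest.Agent.R273.DnInt_505
open Crest.Agent.R273.DVec_733 Crest.Agent.R273.DMet_733 Crest.Agent.R273.Mol_106
open Crest.Agent.R273.HDN_505 (HB HB_pos)
open Crest.Agent.R273.Lim_505
open Crest.Agent.R273.SteinM_794 (kap kap_eq mp_kap me_kap)
open Crest.Agent.R272.Kod2_410 Crest.Agent.R272.Kod3_410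

noncomputable section

variable {n : ℕ} {M : Type} [TopologicalSpace M] {A : Atl n M} {N : LB A}

/-- the component of degree zero -/
theorem hd_zero_le (K : Kah A) (h : HM ((KB A)⁻¹ * N)) (u : A.ι → M → (BN N).κ → ℂ) {i : A.ι}
    {x : M} (hx : x ∈ (A.e i).source) :
    h.w i x * ‖oB (u i x) ∅‖ ^ 2 ≤ ((HB K h).hd u u i x).re := by
  refine le_trans (le_of_eq ?_) (hd_pq_le K h 0 u hx)
  rw [HB_hd_iB, oB_pq, Complex.re_ofReal_mul]
  congr 1
  have h1 : dg 0 (oB (u i x)) = (oB (u i x) ∅) • (Pi.single ∅ 1 : FI n → ℂ) := by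
    funext S
    unfold dg
    by_cases hS : S = ∅
    · subst hS
      simp
    · have : S.card ≠ 0 := fun h => hS (Finset.card_eq_zero.1 h)
      rw [if_neg this]
      simp [hS]
  rw [h1, star_smul, smul_dotProduct, Matrix.mulVec_smul, dotProduct_smul, form_single]
  have h2 : GI K i x ∅ ∅ = 1 := by
    show Gam _ ∅ ∅ = 1
    rw [Gam_vac, if_pos rfl]
  rw [h2, smul_eq_mul, smul_eq_mul, mul_one, Complex.star_def, Complex.conj_mul']
  norm_cast

/-- the chart function of a section in degree zero -/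
def Yf (i0 : A.ι) (y : A.ι → M → (BN N).κ → ℂ) (ζ : Fin n → ℂ) : ℂ :=
  oB (y i0 ((A.e i0).symm (WithLp.toLp 2 ζ))) ∅

variable [T2Space M] [CompactSpace M] [Finite A.ι] (P : Part A) (K : Kah A)
  (hb : HM ((KB A)⁻¹ * N)) {p : M} {i0 : A.ι}

theorem lower (T : Wgt A p i0) (hp : p ∈ (A.e i0).source) {W' : Set M} (hW' : IsOpen W')
    (hpW' : p ∈ W') :
    ∃ r c : ℝ, 0 < r ∧ 0 < c ∧
      (∀ ζ ∈ closedBall (WithLp.ofLp (A.e i0 p)) r, WithLp.toLp 2 ζ ∈ (A.e i0).target ∧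
        (A.e i0).symm (WithLp.toLp 2 ζ) ∈ W') ∧
      ∀ (m : ℕ) (e : ℝ), 0 < e → ∀ h : HM ((KB A)⁻¹ * N),
        (∀ i x, h.w i x = hb.w i x * ((T.θ x + e) ^ m)⁻¹) → ∀ s : ℝ, 0 < s → s ≤ r →
        ∀ y : Sec (BN N), ∫⁻ ζ in closedBall (WithLp.ofLp (A.e i0 p)) s, ‖Yf i0 y.1 ζ‖ₑ ^ 2 ≤
          ENNReal.ofReal (c⁻¹ * (n * s ^ 2 + e) ^ m * (HB K h).sn P y ^ 2) := by
  obtain ⟨χ, hχ, hχ1, hχs, hχc, hχ0, hχ2⟩ := exists_bump A ((A.e i0).open_source.mem_nhds hp)
  have hwp := hb.pos i0 p hp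
  have hwc : ContinuousAt (hb.w i0) p :=
    (Dg199.SmAt.smN (hb.sm i0) hp).continuousAt
  have ev : ∀ᶠ q in 𝓝 p, χ q = 1 ∧ q ∈ W' ∧ q ∈ T.W ∧ hb.w i0 p / 2 < hb.w i0 q := by
    refine hχ1.and ((hW'.eventually_mem hpW').and ((T.oW.eventually_mem T.pW).and ?_))
    exact hwc.eventually (lt_mem_nhds (by linarith))
  have ev2 : ∀ᶠ ζ in 𝓝 (WithLp.ofLp (A.e i0 p)), WithLp.toLp 2 ζ ∈ (A.e i0).target ∧
      (χ ((A.e i0).symm (WithLp.toLp 2 ζ)) = 1 ∧ (A.e i0).symm (WithLp.toLp 2 ζ) ∈ W' ∧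
        (A.e i0).symm (WithLp.toLp 2 ζ) ∈ T.W ∧
        hb.w i0 p / 2 < hb.w i0 ((A.e i0).symm (WithLp.toLp 2 ζ))) := by
    have h1 : Tendsto (fun ζ : Fin n → ℂ => (WithLp.toLp 2 ζ : Cn n))
        (𝓝 (WithLp.ofLp (A.e i0 p))) (𝓝 (A.e i0 p)) := by
      have := (PiLp.continuous_toLp 2 (fun _ : Fin n => ℂ)).continuousAt
        (x := WithLp.ofLp (A.e i0 p))
      exact this
    exact h1.eventually (((A.e i0).open_target.eventually_mem ((A.e i0).map_source hp)).and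
      (ev_symm hp ev))
  obtain ⟨r, hr, hrb⟩ := Metric.eventually_nhds_iff_ball.1 ev2
  have hcb : closedBall (WithLp.ofLp (A.e i0 p)) (r / 2) ⊆ ball (WithLp.ofLp (A.e i0 p)) r :=
    closedBall_subset_ball (by linarith)
  refine ⟨r / 2, hb.w i0 p / 2, by positivity, by positivity, fun ζ hζ =>
    ⟨(hrb ζ (hcb hζ)).1, (hrb ζ (hcb hζ)).2.2.1⟩, ?_⟩
  intro m e he h hw s hs hsr y
  set c : ℝ := hb.w i0 p / 2 with hc
  have hc0 : 0 < c := by positivity
  have hsub : closedBall (WithLp.ofLp (A.e i0 p)) s ⊆ ball (WithLp.ofLp (A.e i0 p)) r :=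
    (closedBall_subset_closedBall hsr).trans hcb
  -- the localised density
  have hdn : IsDn A ((HB K h).hd y.1 y.1) := (HB K h).isDn y.2 y.2
  have hχC : A.Sm (fun x => (χ x : ℂ)) := sm_iff.2 fun q => (hχ q).ofReal
  have hf : IsDn A (fun i x => (χ x : ℂ) * (HB K h).hd y.1 y.1 i x) := hdn.fmul hχC
  have hnn : ∀ i, ∀ x ∈ (A.e i).source, 0 ≤ ((HB K h).hd y.1 y.1 i x).re := fun i x hx =>
    (Complex.le_def.1 ((HB K h).hd_self_nonneg y.1 hx)).1
  have hmono : (IntP P (fun i x => (χ x : ℂ) * (HB K h).hd y.1 y.1 i x)).re ≤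
      (HB K h).sn P y ^ 2 := by
    rw [HDen.sn_sq]
    refine IntP_re_mono P hf hdn fun i x hx => ?_
    rw [Complex.re_ofReal_mul]
    have := mul_le_mul_of_nonneg_right (hχ2 x) (hnn i x hx)
    linarith
  have hz0 : ∀ i, ∀ x ∈ (A.e i).source, x ∉ tsupport χ →
      (χ x : ℂ) * (HB K h).hd y.1 y.1 i x = 0 := fun i x _ hx => by
    rw [image_eq_zero_of_notMem_tsupport hx, Complex.ofReal_zero, zero_mul]
  rw [IntP_loc P hf hχc hχs hz0] at hmono
  have hcc : CC A i0 (fun x => (χ x : ℂ) * (HB K h).hd y.1 y.1 i0 x) :=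
    CC.of_zero_off (hf.sm i0) hχc hχs fun x hx => by
      rw [image_eq_zero_of_notMem_tsupport hx, Complex.ofReal_zero, zero_mul]
  rw [lint_re i0 hcc.integrable] at hmono
  set G : (RI n → ℝ) → ℂ := rd A i0 (fun x => (χ x : ℂ) * (HB K h).hd y.1 y.1 i0 x) with hG
  have hGnn : ∀ x, 0 ≤ (G x).re := by
    intro x
    by_cases hx : x ∈ Ui A i0
    · rw [hG, C1d194.rd_of_mem hx, Complex.re_ofReal_mul]
      exact mul_nonneg (hχ0 _) (hnn i0 _ ((A.e i0).map_target hx))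
    · rw [hG, C1d194.rd_off hx]
      simp
  have hGint : Integrable (fun x => (G x).re) := hcc.integrable.re
  have h1 : ENNReal.ofReal (∫ x, (G x).re) = ∫⁻ x, ENNReal.ofReal (G x).re :=
    ofReal_integral_eq_lintegral_ofReal hGint (Eventually.of_forall hGnn)
  set D : ℝ := c * ((n * s ^ 2 + e) ^ m)⁻¹ with hD
  have hse : 0 < n * s ^ 2 + e := by positivity
  have hD0 : 0 < D := by positivity
  have h2 : ENNReal.ofReal D * ∫⁻ ζ in closedBall (WithLp.ofLp (A.e i0 p)) s,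
      ‖Yf i0 y.1 ζ‖ₑ ^ 2 ≤ ENNReal.ofReal (∫ x, (G x).re) := by
    rw [h1, ← lintegral_const_mul' _ _ ENNReal.ofReal_ne_top,
      ← (mp_kap n).setLIntegral_comp_preimage_emb (me_kap n)]
    refine (setLIntegral_mono' ?_ fun x hx => ?_).trans (setLIntegral_le_lintegral _ _)
    · exact (mp_kap n).measurable measurableSet_closedBall
    · have hx' : kap x ∈ closedBall (WithLp.ofLp (A.e i0 p)) s := hx
      obtain ⟨hxt, hx1, hx2, hx3, hx4⟩ := hrb (kap x) (hsub hx')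
      have hcx : (WithLp.toLp 2 (kap x) : Cn n) = cc x := by
        rw [kap_eq]
      rw [hcx] at hxt hx1 hx2 hx3 hx4
      have hxU : x ∈ Ui A i0 := hxt
      rw [hG, C1d194.rd_of_mem hxU, Complex.re_ofReal_mul, hx1, one_mul]
      have hsrc := (A.e i0).map_target hxt
      have h3 := hd_zero_le K h y.1 hsrc
      have hθ : T.θ ((A.e i0).symm (cc x)) ≤ n * s ^ 2 := by
        rw [T.eq _ hx3, (A.e i0).right_inv hxt]
        have h4 : ∀ a : Fin n, ‖cc x a - A.e i0 p a‖ ^ 2 ≤ s ^ 2 := by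
          intro a
          have h5 : ‖kap x a - (WithLp.ofLp (A.e i0 p)) a‖ ≤ s := by
            have h6 : ‖kap x - WithLp.ofLp (A.e i0 p)‖ ≤ s := by
              rw [← dist_eq_norm]; exact mem_closedBall.1 hx'
            exact (norm_le_pi_norm (kap x - WithLp.ofLp (A.e i0 p)) a).trans h6
          exact pow_le_pow_left₀ (norm_nonneg _) h5 2
        refine (Finset.sum_le_sum fun a _ => h4 a).trans ?_
        rw [Finset.sum_const, Finset.card_univ, Fintype.card_fin, nsmul_eq_mul]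
      have h7 : D ≤ h.w i0 ((A.e i0).symm (cc x)) := by
        rw [hw, hD]
        refine mul_le_mul hx4.le ?_ (by positivity) (le_trans (by positivity) hx4.le)
        refine inv_anti₀ (pow_pos (T.tpos he _) m) ?_
        exact pow_le_pow_left₀ (T.tpos he _).le (by linarith) m
      have h8 : ‖Yf i0 y.1 (kap x)‖ₑ ^ 2 =
          ENNReal.ofReal (‖oB (y.1 i0 ((A.e i0).symm (cc x))) ∅‖ ^ 2) := by
        rw [← hcx, ENNReal.ofReal_pow (norm_nonneg _), ofReal_norm]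
        rfl
      rw [h8, ← ENNReal.ofReal_mul hD0.le]
      refine ENNReal.ofReal_le_ofReal (le_trans ?_ h3)
      exact mul_le_mul_of_nonneg_right h7 (sq_nonneg _)
  have h3 : ENNReal.ofReal D * ∫⁻ ζ in closedBall (WithLp.ofLp (A.e i0 p)) s,
      ‖Yf i0 y.1 ζ‖ₑ ^ 2 ≤ ENNReal.ofReal ((HB K h).sn P y ^ 2) :=
    h2.trans (ENNReal.ofReal_le_ofReal hmono)
  have h4 : ∫⁻ ζ in closedBall (WithLp.ofLp (A.e i0 p)) s, ‖Yf i0 y.1 ζ‖ₑ ^ 2 =
      ENNReal.ofReal D⁻¹ * (ENNReal.ofReal D *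
        ∫⁻ ζ in closedBall (WithLp.ofLp (A.e i0 p)) s, ‖Yf i0 y.1 ζ‖ₑ ^ 2) := by
    rw [← mul_assoc, ← ENNReal.ofReal_mul (by positivity), inv_mul_cancel₀ hD0.ne',
      ENNReal.ofReal_one, one_mul]
  rw [h4]
  refine (mul_le_mul_right h3 _).trans ?_
  rw [← ENNReal.ofReal_mul (by positivity)]
  refine ENNReal.ofReal_le_ofReal (le_of_eq ?_)
  rw [hD, _root_.mul_inv, inv_inv]

theorem upper (T : Wgt A p i0) {W' : Set M} (hW' : IsOpen W') (hpW' : p ∈ W') (z : Sec (BN N))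
    (hz : ∀ i, ∀ x ∈ W', z.1 i x = 0) (m : ℕ) :
    ∃ C : ℝ, 0 ≤ C ∧ ∀ e : ℝ, 0 < e → ∀ h : HM ((KB A)⁻¹ * N),
      (∀ i x, h.w i x = hb.w i x * ((T.θ x + e) ^ m)⁻¹) → (HB K h).sn P z ≤ C := by
  obtain ⟨c, hc, hcW⟩ : ∃ c : ℝ, 0 < c ∧ ∀ x ∉ W', c ≤ T.θ x := by
    have hcont : Continuous T.θ := by
      rw [continuous_iff_continuousAt]
      exact fun x => (sm_iff.1 T.sm x).continuousAt
    rcases (W'ᶜ).eq_empty_or_nonempty with h | h
    · exact ⟨1, one_pos, fun x hx => by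
        have : x ∈ W'ᶜ := hx
        rw [h] at this
        exact this.elim⟩
    · obtain ⟨y, hy, hmin⟩ := (hW'.isClosed_compl.isCompact).exists_isMinOn h hcont.continuousOn
      refine ⟨T.θ y, T.pos y ?_, fun x hx => hmin hx⟩
      rintro rfl
      exact hy hpW'
  refine ⟨Real.sqrt ((c ^ m)⁻¹ * (HB K hb).sn P z ^ 2), Real.sqrt_nonneg _, fun e he h hw => ?_⟩
  refine Real.sqrt_le_sqrt ?_
  rw [HDen.sn_sq]
  have h1 : (c ^ m)⁻¹ * ((HB K hb).ip P z.1 z.1).re =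
      (IntP P (fun i x => (((c ^ m)⁻¹ : ℝ) : ℂ) * (HB K hb).hd z.1 z.1 i x)).re := by
    rw [IntP_const_mul, Complex.re_ofReal_mul]
    rfl
  rw [h1]
  refine IntP_re_mono P ((HB K h).isDn z.2 z.2) (((HB K hb).isDn z.2 z.2).const_mul _)
    fun i x hx => ?_
  have hnn : 0 ≤ ((HB K hb).hd z.1 z.1 i x).re :=
    (Complex.le_def.1 ((HB K hb).hd_self_nonneg z.1 hx)).1
  by_cases hxW : x ∈ W'
  · have h2 : (HB K h).hd z.1 z.1 i x = 0 := by
      unfold HDen.hd
      rw [hz i x hxW, star_zero, zero_dotProduct]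
    rw [h2, Complex.zero_re, Complex.re_ofReal_mul]
    exact mul_nonneg (by positivity) hnn
  · have h2 : (HB K h).hd z.1 z.1 i x =
        ((((T.θ x + e) ^ m)⁻¹ : ℝ) : ℂ) * (HB K hb).hd z.1 z.1 i x := by
      rw [HB_hd_iB, HB_hd_iB, hw]
      push_cast
      ring
    rw [h2, Complex.re_ofReal_mul, Complex.re_ofReal_mul]
    refine mul_le_mul_of_nonneg_right ?_ hnn
    have h3 := hcW x hxW
    exact inv_anti₀ (by positivity) (pow_le_pow_left₀ hc.le (by linarith) m)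

end

end Crest.Agent.R272.Kod5_410
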