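import Mathlib

/-!
# LB-PER (1): periodisation of a compactly varying function under a group with separated translates

`Y` a topological space with a continuous action of a (discrete) group `G`, `th : Y → M` continuous with
values in a commutative topological group (for us `M = ℝ/ℤ`), zero off the preimage of a set `O`
whose translates are locally finite (separated).  Then `per th y = ∑ᶠ g, th (g⁻¹ • y)` is
continuous and invariant.
-/

set_option linter.unusedSectionVars false

open Set Topology Filter

noncomputable section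

namespace Crest.Agent.R272.Per_939

variable {G Y M : Type*} [Group G] [TopologicalSpace Y] [MulAction G Y]
  [TopologicalSpace M] [AddCommGroup M] [IsTopologicalAddGroup M]

/-- The periodisation. -/
def per (G : Type*) {Y M : Type*} [Group G] [MulAction G Y] [AddCommGroup M] (th : Y → M) (y : Y) :
    M := ∑ᶠ g : G, th (g⁻¹ • y)

/-- invariance of the periodisation (no hypothesis at all). -/
theorem per_smul (th : Y → M) (h : G) (y : Y) : per G th (h • y) = per G th y := by
  unfold per
  have e : (fun g : G => th (g⁻¹ • h • y)) = (fun g : G => (fun k : G => th (k⁻¹ • y)) (h⁻¹ * g)) := by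
    funext g
    simp [mul_smul]
  rw [e]
  exact finsum_comp_equiv (Equiv.mulLeft h⁻¹) (f := fun k : G => th (k⁻¹ • y))

/-- local finiteness of the translates of `O`. -/
def LocFin (G : Type*) {Y : Type*} [Group G] [TopologicalSpace Y] [MulAction G Y] (O : Set Y) :
    Prop :=
  ∀ y : Y, ∃ N ∈ 𝓝 y, {g : G | ∃ x ∈ O, g • x ∈ N}.Finite


theorem locallyFinite_of_locFin {O : Set Y} (hO : LocFin G O) {th : Y → M}
    (h0 : ∀ y, th y ≠ 0 → y ∈ O) :
    LocallyFinite (fun g : G => Function.support fun y => th (g⁻¹ • y)) := by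
  intro y
  obtain ⟨N, hN, hf⟩ := hO y
  refine ⟨N, hN, hf.subset ?_⟩
  rintro g ⟨x, hx, hxN⟩
  refine ⟨g⁻¹ • x, h0 _ hx, by simpa using hxN⟩

/-- **(P1)** continuity of the periodisation. -/
theorem continuous_per [ContinuousConstSMul G Y] {O : Set Y} (hO : LocFin G O) {th : Y → M}
    (hc : Continuous th) (h0 : ∀ y, th y ≠ 0 → y ∈ O) : Continuous (per G th) := by
  unfold per
  exact continuous_finsum (fun g => hc.comp (continuous_const_smul _))
    (locallyFinite_of_locFin hO h0)

/-- If the translates of `O` are pairwise disjoint, the value on `g • O` is the value of one term. -/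
theorem per_eq_of_mem {O : Set Y} (hd : ∀ g : G, ∀ x ∈ O, g • x ∈ O → g = 1) {th : Y → M}
    (h0 : ∀ y, th y ≠ 0 → y ∈ O) {g : G} {y : Y} (hy : g⁻¹ • y ∈ O) :
    per G th y = th (g⁻¹ • y) := by
  unfold per
  refine finsum_eq_single _ g ?_
  intro k hk
  by_contra hne
  have h1 := h0 _ hne
  have h2 : (k⁻¹ * g) • (g⁻¹ • y) ∈ O := by simpa [mul_smul] using h1
  have h3 := hd _ _ hy h2
  exact hk (inv_mul_eq_one.mp h3)

theorem per_eq_self {O : Set Y} (hd : ∀ g : G, ∀ x ∈ O, g • x ∈ O → g = 1) {th : Y → M}
    (h0 : ∀ y, th y ≠ 0 → y ∈ O) {y : Y} (hy : y ∈ O) : per G th y = th y := by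
  have := per_eq_of_mem (g := (1 : G)) hd h0 (y := y) (by simpa using hy)
  simpa using this



section Separated

variable {B : Type*} [TopologicalSpace B] [MulAction G B]

/-- separation of the translates of `O'` in the base: every point has a neighbourhood meeting at
most one translate. -/
def Sep (G : Type*) {B : Type*} [Group G] [TopologicalSpace B] [MulAction G B] (O' : Set B) : Prop :=
  ∀ b : B, ∃ N ∈ 𝓝 b, ∀ g g' : G, ∀ x ∈ O', ∀ y ∈ O', g • x ∈ N → g' • y ∈ N → g = g'


theorem Sep.disj {O' : Set B} (h : Sep G O') {q : Y → B}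
    (he : ∀ (g : G) y, q (g • y) = g • q y) :
    ∀ g : G, ∀ x ∈ q ⁻¹' O', g • x ∈ q ⁻¹' O' → g = 1 := by
  intro g x hx hgx
  obtain ⟨N, hN, hs⟩ := h (g • q x)
  have hm : g • q x ∈ N := mem_of_mem_nhds hN
  have h1 : (1 : G) • q (g • x) ∈ N := by simpa [he] using hm
  exact hs g 1 (q x) hx (q (g • x)) hgx hm h1





end Separated

end Crest.Agent.R272.Per_939
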