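import Crest.Agent.R272.Flop7_66
import Crest.Agent.R272.IdnDefs_834
import Crest.Agent.R272.Ax4_834
import Crest.Agent.R272.AJd_956
import Crest.Agent.R272.Flop10_66
import Crest.Agent.R272.As152_338
import Crest.Agent.R272.Ins1_939
import Crest.Agent.R272.K3F_227
import Crest.Agent.R272.As156_338
import Crest.Agent.R272.Lc11_220

-- ▼ part R272/Flop7b_66
section

/-!
# R272, FLOP-SURG (helper66), part 7b: `Um` is the standard germ of helper834 (`StdU`)
-/

set_option autoImplicit false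
set_option linter.unusedSectionVars false
set_option linter.style.haveILetI false

open Set Filter Topology Complex
open scoped ComplexConjugate

namespace Crest.Agent.R272.Flop_66

open Crest.Agent.R275.Geo Crest.Agent.R273.Fam_835 Crest.Agent.R272.HFam_342
open Crest.Agent.R272.Idn_834

noncomputable section

/-- the index of the chart -/
def Um.dix (i : Fin 2) : Um.fam.ι := ![false, true] i




theorem Um.ch1_mk0 {T a μ : ℂ} : Um.ch1 (Um.mk0 T a μ) = !₂[T⁻¹, T * a, T ^ 2 * μ] := by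
  rw [Um.ch1_apply]
  ext k
  fin_cases k
  · simp [Um.mk0]
  · simp [Um.mk0]; ring
  · simp [Um.mk0]; ring

theorem Um.ch0_mk1 {T a μ : ℂ} : Um.ch0 (Um.mk1 T a μ) = !₂[T⁻¹, T * a, T ^ 2 * μ] := by
  rw [Um.ch0_apply]
  ext k
  fin_cases k
  · simp [Um.mk1]
  · simp [Um.mk1]; ring
  · simp [Um.mk1]; ring

/-- **`Um` is the standard germ** -/
def Um.stdU : StdU Um.fam where
  d := Um.dix
  tgt i := by fin_cases i <;> rfl
  cov u := by
    rcases Um.cover u with h | h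
    · exact ⟨0, h⟩
    · exact ⟨1, h⟩
  ov i u hu := by
    fin_cases i
    · have hu' : u ∈ Um.ch0.source := hu
      show u ∈ Um.ch1.source ↔ Um.ch0 u 0 ≠ 0
      have e : u = Um.mk0 (u.L.rat 1 0) (u.z 0) (u.m 0) := (Um.eq_mk0 hu').symm
      have e2 : Um.ch0 u 0 = u.L.rat 1 0 := rfl
      rw [e2]
      conv_lhs => rw [e]
      exact Um.mk0_mem1
    · have hu' : u ∈ Um.ch1.source := hu
      show u ∈ Um.ch0.source ↔ Um.ch1 u 0 ≠ 0
      have e : u = Um.mk1 (u.L.rat 0 1) (u.z 1) (u.m 2) := (Um.eq_mk1 hu').symm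
      have e2 : Um.ch1 u 0 = u.L.rat 0 1 := rfl
      rw [e2]
      conv_lhs => rw [e]
      exact Um.mk1_mem0
  tr i u hu _ := by
    fin_cases i
    · have hu' : u ∈ Um.ch0.source := hu
      show Um.ch1 u = h3 (((Um.ch0 u 0)⁻¹, Um.ch0 u 0 * Um.ch0 u 1), (Um.ch0 u 0) ^ 2 * Um.ch0 u 2)
      have e : u = Um.mk0 (u.L.rat 1 0) (u.z 0) (u.m 0) := (Um.eq_mk0 hu').symm
      have e0 : Um.ch0 u 0 = u.L.rat 1 0 := rfl
      have e1 : Um.ch0 u 1 = u.z 0 := rfl
      have e2 : Um.ch0 u 2 = u.m 0 := rfl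
      rw [e0, e1, e2]
      conv_lhs => rw [e]
      rw [Um.ch1_mk0]
      rfl
    · have hu' : u ∈ Um.ch1.source := hu
      show Um.ch0 u = h3 (((Um.ch1 u 0)⁻¹, Um.ch1 u 0 * Um.ch1 u 1), (Um.ch1 u 0) ^ 2 * Um.ch1 u 2)
      have e : u = Um.mk1 (u.L.rat 0 1) (u.z 1) (u.m 2) := (Um.eq_mk1 hu').symm
      have e0 : Um.ch1 u 0 = u.L.rat 0 1 := rfl
      have e1 : Um.ch1 u 1 = u.z 1 := rfl
      have e2 : Um.ch1 u 2 = u.m 2 := rfl
      rw [e0, e1, e2]
      conv_lhs => rw [e]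
      rw [Um.ch0_mk1]
      rfl

end

end Crest.Agent.R272.Flop_66
end

-- ▼ part R272/Ax5_834
section

/-!
# R272, leaf D4 (helper834), part 5: the surface after the surgery

`IsId I e` : the conclusion of `Inp.ident`;
`near_sig` : the zero section near `Γ` in the coordinates of `Um`
`not_zero` : off `Γ` it misses the centre
-/

set_option autoImplicit false
set_option linter.unusedSectionVars false

open Set Filter Topology
open scoped ContDiff

namespace Crest.Agent.R272.Ax_834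

open Crest.Agent.R275.Geo Crest.Agent.R273.Fam_835 Crest.Agent.R272.Refl_246
open Crest.Agent.R272.AJ_956 Crest.Agent.R272.Idn_834 Crest.Agent.R272.HFam_342
open Crest.Agent.R272.Flop_66 Crest.Agent.R272.Sur_342

noncomputable section

variable {C : Type} [TopologicalSpace C] {𝒞 : Cur C} {N : Set (C × C)} {U : C × C → E2}
  {Y : Type} [TopologicalSpace Y] {CY : Fam 3 Y} {G : Type} [Group G] [MulAction G Y] {s : G}

/-- the conclusion of `Inp.ident` -/
structure IsId (I : Inp 𝒞 N U CY G s Um.fam) (e : OpenPartialHomeomorph (Orb G Y) Um) : Prop where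
  src : e.source = pr G '' I.OO
  form : ∀ i, ∀ p ∈ I.Dm i, I.Ge.E i p ∈ I.OO →
    e (pr G (I.Ge.E i p)) = (Um.fam.e (I.S.d i)).symm (h3 (I.co I i p))
  zero : ∀ i, ∀ u ∈ (Um.fam.e (I.S.d i)).source, Um.fam.e (I.S.d i) u 1 = 0 →
    Um.fam.e (I.S.d i) u 2 = 0 →
      u ∈ e.target ∧ ∃ c ∈ Ci 𝒞 i, u = e (pr G (I.Ge.E i ((c, 𝒞.iv c), 0)))

theorem exists_isId (I : Inp 𝒞 N U CY G s Um.fam) [ContinuousConstSMul G Y] [Nonempty Y]
    (hG : ∀ g : G, HolC CY CY (fun y => g • y)) (hcov : ∀ y : Y, ∃ c : RC G CY, y ∈ c.e.source) :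
    ∃ e : OpenPartialHomeomorph (Orb G Y) Um, IsId I e ∧
      (∀ x ∈ e.source, HC (qFam hG hcov) Um.fam e x) ∧
      (∀ u ∈ e.target, HC Um.fam (qFam hG hcov) e.symm u) := by
  have : Nonempty Um := ⟨Um.mk0 0 0 0⟩
  obtain ⟨e, h1, h2, -, h4, h5, h6⟩ := I.ident hG hcov
  exact ⟨e, ⟨h1, h2, h6⟩, h4, h5⟩

/-- the whole zero fibre is in the target -/
theorem IsId.sub_target {I : Inp 𝒞 N U CY G s Um.fam} {e : OpenPartialHomeomorph (Orb G Y) Um}
    (h : IsId I e) (hd : ∀ i, I.S.d i = Um.dix i) (u : Um) (hu : u.N = 0) : u ∈ e.target := by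
  obtain ⟨h1, h2⟩ := Um.N_eq_zero.1 hu
  obtain ⟨i, hi⟩ := I.S.cov u
  refine (h.zero i u hi ?_ ?_).1
  · rw [hd]
    fin_cases i
    · exact congrFun h1 0
    · exact congrFun h1 1
  · rw [hd]
    fin_cases i
    · exact congrFun h2 0
    · exact congrFun h2 2

section zero

variable {I : Inp 𝒞 N U CY G s Um.fam} {e : OpenPartialHomeomorph (Orb G Y) Um} (hI : IsId I e)
  (hd : ∀ i, I.S.d i = Um.dix i) {z : C × C → Y} (Z : ZSec I.Ge z)

include hI hd in
/-- points over the centre come from `Γ` -/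
theorem IsId.exists_c {y : Orb G Y} (hy : y ∈ e.source) (hN : (e y).N = 0) :
    ∃ i, ∃ c ∈ Ci 𝒞 i, y = pr G (I.Ge.E i ((c, 𝒞.iv c), 0)) := by
  obtain ⟨h1, h2⟩ := Um.N_eq_zero.1 hN
  obtain ⟨i, hi⟩ := I.S.cov (e y)
  have h3 := hI.zero i (e y) hi (by
    rw [hd]
    fin_cases i
    · exact congrFun h1 0
    · exact congrFun h1 1) (by
    rw [hd]
    fin_cases i
    · exact congrFun h2 0
    · exact congrFun h2 2)
  obtain ⟨-, c, hc, h4⟩ := h3
  refine ⟨i, c, hc, ?_⟩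
  have h5 : pr G (I.Ge.E i ((c, 𝒞.iv c), 0)) ∈ e.source := by
    rw [hI.src]
    exact mem_image_of_mem _ (I.y0_OO hc)
  exact e.injOn hy h5 h4

include Z in
theorem z_gam {i : Fin 2} {c : C} (hc : c ∈ Ci 𝒞 i) :
    I.Ge.E i ((c, 𝒞.iv c), 0) = z (c, 𝒞.iv c) := Z.germ i _ (I.Ge.mem i c hc)

include hI hd Z in
/-- off `Γ` the zero section misses the centre -/
theorem not_zero {x : C × C} (hx : x ∉ 𝒞.Gam) (h : pr G (z x) ∈ e.source) :
    (e (pr G (z x))).N ≠ 0 := by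
  intro h0
  obtain ⟨i, c, hc, h1⟩ := hI.exists_c hd h h0
  rw [z_gam Z hc, Z.pr_eq] at h1
  have hg : ((c, 𝒞.iv c) : C × C) ∈ 𝒞.Gam := rfl
  rcases h1 with h1 | h1
  · rw [h1] at hg
    exact hx hg
  · rw [h1] at hg
    exact hx (mem_Gam_swap.1 hg)

include hI hd Z in
/-- the zero section near `Γ` -/
theorem near_sig (c : C) : ∀ᶠ x in 𝓝 ((c, 𝒞.iv c) : C × C), x ∈ N ∧
    pr G (z x) ∈ e.source ∧ (e (pr G (z x))).z = U x ∧ (e (pr G (z x))).m = 0 := by
  obtain ⟨i, hc⟩ := exists_Ci (𝒞 := 𝒞) c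
  have hg : ((c, 𝒞.iv c) : C × C) ∈ 𝒞.Gam := rfl
  have hcy : ContinuousAt (fun y : C × C => ((y, 0) : (C × C) × ℂ)) (c, 𝒞.iv c) := by fun_prop
  have h1 : ∀ᶠ x in 𝓝 ((c, 𝒞.iv c) : C × C), ((x, 0) : (C × C) × ℂ) ∈ (I.Ge.E i).source :=
    hcy.eventually ((I.Ge.E i).open_source.mem_nhds (I.Ge.mem i c hc))
  have h2 : ∀ᶠ x in 𝓝 ((c, 𝒞.iv c) : C × C), x ∈ N ∧ x ∈ I.K.N i :=
    inter_mem (I.hN.open_N.mem_nhds (I.hN.sub hg)) ((I.K.open_N i).mem_nhds (I.K.sub i c hc))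
  have h3 : ∀ᶠ x in 𝓝 ((c, 𝒞.iv c) : C × C), I.Ge.E i (x, 0) ∈ I.OO := by
    have h4 : ContinuousAt (fun x : C × C => I.Ge.E i (x, 0)) (c, 𝒞.iv c) :=
      ContinuousAt.comp (f := fun y : C × C => ((y, 0) : (C × C) × ℂ)) (g := I.Ge.E i)
        ((I.Ge.E i).continuousAt (I.Ge.mem i c hc)) hcy
    exact h4.eventually (I.isOpen_OO.mem_nhds (I.y0_OO hc))
  filter_upwards [h1, h2, h3] with x hx1 hx2 hx3
  have hz : I.Ge.E i (x, 0) = z x := Z.germ i x hx1
  have hD : ((x, 0) : (C × C) × ℂ) ∈ I.Dm i := ⟨hx1, hx2.1, hx2.2⟩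
  have hf := hI.form i _ hD hx3
  rw [hz] at hf
  refine ⟨hx2.1, ?_, ?_⟩
  · rw [hI.src, ← hz]
    exact mem_image_of_mem _ hx3
  rw [hf, hd]
  have hT : ∀ i, x ∈ I.K.N i → U x i * 𝒞.TT U i x = U x (1 - i) := by
    intro i hi
    by_cases hg : x ∈ 𝒞.Gam
    · rw [U_gam I.hN hg]
      simp
    · have h5 : U x i ≠ 0 := (I.K.dom i x hi).2.2.resolve_left hg
      rw [TT_off hg]
      field_simp
  fin_cases i
  · have h6 := hT 0 hx2.2
    constructor
    · funext k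
      fin_cases k
      · rfl
      · exact h6
    · funext k
      fin_cases k
      · exact zero_mul _
      · show (0 * I.K.g 0 x) * 𝒞.TT U 0 x = 0
        ring
      · show (0 * I.K.g 0 x) * 𝒞.TT U 0 x ^ 2 = 0
        ring
  · have h6 := hT 1 hx2.2
    constructor
    · funext k
      fin_cases k
      · exact h6
      · rfl
    · funext k
      fin_cases k
      · show (0 * I.K.g 1 x) * 𝒞.TT U 1 x ^ 2 = 0
        ring
      · show (0 * I.K.g 1 x) * 𝒞.TT U 1 x = 0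
        ring
      · exact zero_mul _

end zero

end

end Crest.Agent.R272.Ax_834
end

-- ▼ part R272/Ax6_834
section

/-!
# R272, leaf D4 (helper834), part 6: `QHol` for the surface after the surgery

`qP` : the map `C × C → XP`, `iota ∘ pr ∘ z` off `Γ`, the point `o` on `Γ`;
`qHol` : `QHol 𝒞 (Sur.fam H) qP`.
-/

set_option autoImplicit false
set_option linter.unusedSectionVars false

open Set Filter Topology
open scoped ContDiff

namespace Crest.Agent.R272.Ax_834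

open Crest.Agent.R275.Geo Crest.Agent.R273.Fam_835 Crest.Agent.R272.Refl_246
open Crest.Agent.R272.AJ_956 Crest.Agent.R272.Idn_834 Crest.Agent.R272.HFam_342
open Crest.Agent.R272.Flop_66 Crest.Agent.R272.Sur_342

noncomputable section

variable {C : Type} [TopologicalSpace C] {𝒞 : Cur C} {N : Set (C × C)} {U : C × C → E2}
  {Y : Type} [TopologicalSpace Y] {CY : Fam 3 Y} {G : Type} [Group G] [MulAction G Y] {s : G}
  {e : OpenPartialHomeomorph (Orb G Y) Um} {ε : ℝ} {ε0 : 0 < ε}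
  {sub : ∀ a : Um, a.N ≤ ε → a ∈ e.target}

variable (𝒞) [T2Space (Orb G Y)]

open Classical in
/-- the map `C × C → XP` -/
def qP (e : OpenPartialHomeomorph (Orb G Y) Um) (ε : ℝ) (ε0 : 0 < ε)
    (sub : ∀ a : Um, a.N ≤ ε → a ∈ e.target) (z : C × C → Y) (x : C × C) :
    (sur e ε ε0 sub).XP :=
  if x ∈ 𝒞.Gam then (sur e ε ε0 sub).ep.symm Up.o else (sur e ε ε0 sub).iota (pr G (z x))

variable {𝒞}

theorem qP_gam {z : C × C → Y} {x : C × C} (hx : x ∈ 𝒞.Gam) :
    qP 𝒞 e ε ε0 sub z x = (sur e ε ε0 sub).ep.symm Up.o := if_pos hx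

theorem qP_off {z : C × C → Y} {x : C × C} (hx : x ∉ 𝒞.Gam) :
    qP 𝒞 e ε ε0 sub z x = (sur e ε ε0 sub).iota (pr G (z x)) := if_neg hx

/-- the index of the fourth chart -/
def ix4 : Up.fam.ι := (3 : Fin 4)

theorem fam_ix4 : Up.fam.e ix4 = Up.ch4 := rfl

theorem N_o : Up.o.N = 0 := by
  rw [← Up.sig_zero, Up.N_sig, nsq_eq_zero]

theorem nf_gam {z : C × C → Y} {x : C × C} (hx : x ∈ 𝒞.Gam) :
    (sur e ε ε0 sub).nf (qP 𝒞 e ε ε0 sub z x) = 0 := by
  rw [qP_gam hx, (sur e ε ε0 sub).nf_ep_symm (by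
    show Up.o.N < ε
    rw [N_o]; exact ε0)]
  exact N_o

section

variable {I : Inp 𝒞 N U CY G s Um.fam} (hI : IsId I e) (hd : ∀ i, I.S.d i = Um.dix i)
  {z : C × C → Y} (Z : ZSec I.Ge z)

include hI hd Z

theorem not_mem_K {x : C × C} (hx : x ∉ 𝒞.Gam) : pr G (z x) ∉ (sur e ε ε0 sub).K := by
  intro h
  rw [mem_K_iff] at h
  exact not_zero hI hd Z hx h.1 h.2

theorem nf_off {x : C × C} (hx : x ∉ 𝒞.Gam) :
    (sur e ε ε0 sub).nf (qP 𝒞 e ε ε0 sub z x) ≠ 0 := by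
  rw [qP_off hx, (sur e ε ε0 sub).nf_iota (not_mem_K hI hd Z hx)]
  exact (sur e ε ε0 sub).nX_ne_zero.2 (not_mem_K hI hd Z hx)

theorem qP_fib (x x' : C × C) : qP 𝒞 e ε ε0 sub z x = qP 𝒞 e ε ε0 sub z x' ↔
    x' = x ∨ x' = x.swap ∨ (x ∈ 𝒞.Gam ∧ x' ∈ 𝒞.Gam) := by
  by_cases hx : x ∈ 𝒞.Gam
  · by_cases hx' : x' ∈ 𝒞.Gam
    · simp only [qP_gam hx, qP_gam hx', hx, hx', and_self, or_true]
    · constructor
      · intro h
        exfalso
        have h1 := nf_off (ε0 := ε0) (sub := sub) hI hd Z hx'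
        rw [← h, nf_gam hx] at h1
        exact h1 rfl
      · rintro (h | h | h)
        · rw [h] at hx'; exact absurd hx hx'
        · rw [h] at hx'; exact absurd (mem_Gam_swap.2 hx) hx'
        · exact absurd h.2 hx'
  · by_cases hx' : x' ∈ 𝒞.Gam
    · constructor
      · intro h
        exfalso
        have h1 := nf_off (ε0 := ε0) (sub := sub) hI hd Z hx
        rw [h, nf_gam hx'] at h1
        exact h1 rfl
      · rintro (h | h | h)
        · rw [h] at hx'; exact absurd hx' hx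
        · rw [h] at hx'; exact absurd (mem_Gam_swap.1 hx') hx
        · exact absurd h.1 hx
    · rw [qP_off hx, qP_off hx']
      constructor
      · intro h
        have h1 := (sur e ε ε0 sub).iota.injOn
          ((sur e ε ε0 sub).mem_iota_source.2 (not_mem_K hI hd Z hx))
          ((sur e ε ε0 sub).mem_iota_source.2 (not_mem_K hI hd Z hx')) h
        rcases Z.pr_eq.1 h1 with h2 | h2
        · exact Or.inl h2
        · exact Or.inr (Or.inl h2)
      · rintro (h | h | h)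
        · rw [h]
        · rw [Z.pr_eq.2 (Or.inr h)]
        · exact absurd h.1 hx

/-- near `Γ` the map is `sig ∘ U` -/
theorem qP_near (c : C) : ∀ᶠ x in 𝓝 ((c, 𝒞.iv c) : C × C),
    nsq (U x) < ε ∧ qP 𝒞 e ε ε0 sub z x = (sur e ε ε0 sub).ep.symm (Up.sig (U x)) := by
  have hg : ((c, 𝒞.iv c) : C × C) ∈ 𝒞.Gam := rfl
  have hUc : ContinuousAt U (c, 𝒞.iv c) :=
    Crest.Agent.R272.AJd_956.Basic.LP.continuousAt 𝒞 I.hN.lp (I.hN.sub hg)
  have h1 : ∀ᶠ x in 𝓝 ((c, 𝒞.iv c) : C × C), nsq (U x) < ε := by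
    have h2 : ContinuousAt (fun x => nsq (U x)) (c, 𝒞.iv c) :=
      ContinuousAt.comp (f := U) (g := nsq) continuous_nsq.continuousAt hUc
    refine h2.eventually_lt continuousAt_const ?_
    rw [U_gam I.hN hg, nsq_eq_zero.2 rfl]
    exact ε0
  filter_upwards [h1, near_sig hI hd Z c] with x hx hx2
  refine ⟨hx, ?_⟩
  obtain ⟨hxN, he, h3, h4⟩ := hx2
  by_cases hgx : x ∈ 𝒞.Gam
  · rw [qP_gam hgx, U_gam I.hN hgx, Up.sig_zero]
  · have hU : U x ≠ 0 := fun h => hgx ((I.hN.zero x hxN).1 h)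
    have hNn : (e (pr G (z x))).N = nsq (U x) := by
      rw [Um.N, h3, h4, nsq_eq_zero.2 rfl, add_zero]
    rw [qP_off hgx, iota_eq_sig he (not_zero hI hd Z hgx he) (by rw [hNn]; exact hx) h4, h3]

theorem qP_cont [T2Space C] : Continuous (qP 𝒞 e ε ε0 sub z) := by
  rw [continuous_iff_continuousAt]
  intro x
  by_cases hx : x ∈ 𝒞.Gam
  · obtain ⟨c, c'⟩ := x
    have hc' : c' = 𝒞.iv c := hx
    subst hc'
    have h1 := qP_near (ε0 := ε0) (sub := sub) hI hd Z c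
    have hUc : ContinuousAt U (c, 𝒞.iv c) :=
      Crest.Agent.R272.AJd_956.Basic.LP.continuousAt 𝒞 I.hN.lp (I.hN.sub hx)
    have h2 : ContinuousAt (fun x => (sur e ε ε0 sub).ep.symm (Up.sig (U x))) (c, 𝒞.iv c) := by
      have h3 : ContinuousAt (fun x => Up.sig (U x)) (c, 𝒞.iv c) :=
        ContinuousAt.comp (f := U) (g := Up.sig) Up.c_sig.continuousAt hUc
      refine ContinuousAt.comp (f := fun x => Up.sig (U x))
        (g := (sur e ε ε0 sub).ep.symm) ?_ h3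
      refine (sur e ε ε0 sub).ep.continuousAt_symm ((sur e ε ε0 sub).mem_ep_target.2 ?_)
      show (Up.sig (U (c, 𝒞.iv c))).N < ε
      rw [Up.N_sig]
      exact h1.self_of_nhds.1
    exact h2.congr (h1.mono fun y hy => hy.2.symm)
  · have hcl : ∀ᶠ y in 𝓝 x, y ∉ 𝒞.Gam := by
      exact (Crest.Agent.R272.AJd_956.Basic.isClosed_Gam 𝒞).isOpen_compl.mem_nhds hx
    have h2 : ContinuousAt (fun x => (sur e ε ε0 sub).iota (pr G (z x))) x := by
      have h3 : ContinuousAt (fun x => pr G (z x)) x :=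
        (continuous_quotient_mk'.comp Z.cont).continuousAt
      refine ContinuousAt.comp (f := fun x => pr G (z x)) (g := (sur e ε ε0 sub).iota) ?_ h3
      exact (sur e ε ε0 sub).iota.continuousAt
        ((sur e ε ε0 sub).mem_iota_source.2 (not_mem_K hI hd Z hx))
    exact h2.congr (hcl.mono fun y hy => (qP_off hy).symm)

/-- **the surface after the surgery is holomorphically parametrised by `C × C`** -/
theorem qHol [T2Space C] [ContinuousConstSMul G Y] [Nonempty Y]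
    (hG : ∀ g : G, HolC CY CY (fun y => g • y))
    (hcov : ∀ y : Y, ∃ c : RC G CY, y ∈ c.e.source)
    (H : (sur e ε ε0 sub).Hol (qFam hG hcov) Um.fam Up.fam) :
    QHol 𝒞 (Sur.fam H) (qP 𝒞 e ε ε0 sub z) := by
  have hcont := qP_cont (ε0 := ε0) (sub := sub) hI hd Z
  have hK : ∀ {x : C × C}, x ∉ 𝒞.Gam → pr G (z x) ∉ (sur e ε ε0 sub).K := fun hx =>
    not_mem_K hI hd Z hx
  have hpz : Continuous fun x => pr G (z x) := continuous_quotient_mk'.comp Z.cont
  have hev : ∀ {x : C × C}, x ∉ 𝒞.Gam → ∀ᶠ y in 𝓝 x,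
      qP 𝒞 e ε ε0 sub z y = (sur e ε ε0 sub).iota (pr G (z y)) := by
    intro x hx
    filter_upwards [(Crest.Agent.R272.AJd_956.Basic.isClosed_Gam 𝒞).isOpen_compl.mem_nhds hx]
      with y hy
    exact qP_off hy
  have hKev : ∀ {x : C × C}, x ∉ 𝒞.Gam →
      ∀ᶠ y in 𝓝 (pr G (z x)), HC (qFam hG hcov) (Sur.fam H) (sur e ε ε0 sub).iota y := by
    intro x hx
    filter_upwards [(sur e ε ε0 sub).isClosed_K.isOpen_compl.mem_nhds (hK hx)] with y hy
    exact Sur.hC_iota H hy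
  refine ⟨hcont, qP_fib hI hd Z, ?_, ?_, ?_⟩
  · intro x hx hxd
    obtain ⟨j, hj, Q, hQ, hQe⟩ := (Z.off hG hcov hxd).comp_LC (F' := Sur.fam H)
      (by simp only [𝒞.k_zero]; rfl) hpz.continuousAt (hKev hx) (Sur.lC_iota H (hK hx))
    refine ⟨j, by rw [qP_off hx]; exact hj, Q, hQ, ?_⟩
    filter_upwards [hQe, hev hx] with y h1 h2
    rw [h2]
    exact h1
  · intro c hc
    have hx : ((c, c) : C × C) ∉ 𝒞.Gam := fun h => hc (show c = 𝒞.iv c from h).symm
    obtain ⟨j, hj, Q, hQ, hQe⟩ := (Z.diag hG hcov hc).comp_LC (F' := Sur.fam H)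
      (by simp only [𝒞.k_zero]; ext <;> simp) hpz.continuousAt (hKev hx)
      (Sur.lC_iota H (hK hx))
    refine ⟨j, by rw [qP_off hx]; exact hj, Q, hQ, ?_⟩
    filter_upwards [hQe, hev hx] with y h1 h2
    rw [h2]
    exact h1
  · intro N' U' hN'
    have hcs : ∀ v : E2, nsq v < ε → (sur e ε ε0 sub).ep.symm (Up.sig v) ∈
        ((Sur.fam H).e (Sur.cr H ix4)).source ∧
        (Sur.fam H).e (Sur.cr H ix4) ((sur e ε ε0 sub).ep.symm (Up.sig v)) =
          !₂[v 0, v 1, 0] := by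
      intro v hv
      have h1 : Up.sig v ∈ (sur e ε ε0 sub).ep.target := by
        rw [(sur e ε ε0 sub).mem_ep_target]
        show (Up.sig v).N < ε
        rw [Up.N_sig]; exact hv
      have h2 : (sur e ε ε0 sub).ep ((sur e ε ε0 sub).ep.symm (Up.sig v)) = Up.sig v :=
        (sur e ε ε0 sub).ep.right_inv h1
      constructor
      · rw [Sur.mem_cr, h2, fam_ix4]
        refine ⟨?_, Up.mk4_mem4' _ _ _⟩
        have h3 := (sur e ε ε0 sub).ep.map_target h1
        rwa [(sur e ε ε0 sub).mem_ep_source] at h3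
      · rw [Sur.e_cr, OpenPartialHomeomorph.trans_apply, h2, fam_ix4]
        exact Up.ch4_mk4 _ _ _
    refine ⟨Sur.cr H ix4, fun c => ?_, fun v => !₂[v 0, v 1, 0], ?_, ?_⟩
    · have hg : ((c, 𝒞.iv c) : C × C) ∈ 𝒞.Gam := rfl
      rw [qP_gam hg, ← Up.sig_zero]
      exact (hcs 0 (by rw [nsq_eq_zero.2 rfl]; exact ε0)).1
    · -- the linear map
      let Lc : E2 →L[ℂ] Cn 3 := (h3 : ((ℂ × ℂ) × ℂ) →L[ℂ] Cn 3).comp
        (((ContinuousLinearMap.proj (R := ℂ) (φ := fun _ : Fin 2 => ℂ) 0).prod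
          (ContinuousLinearMap.proj (R := ℂ) (φ := fun _ : Fin 2 => ℂ) 1)).prod 0)
      have hL : (fun v : E2 => (!₂[v 0, v 1, 0] : Cn 3)) = fun v => Lc v := by
        funext v
        rfl
      rw [hL]
      refine ⟨Lc.analyticAt 0, fun v hv => ?_⟩
      rw [Lc.fderiv] at hv
      have h0 : Lc v 0 = 0 := by rw [hv]; rfl
      have h1 : Lc v 1 = 0 := by rw [hv]; rfl
      funext k
      fin_cases k
      · exact h0
      · exact h1
    · rw [eventually_nhdsSet_iff_forall]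
      rintro ⟨c, c'⟩ hg
      have hc' : c' = 𝒞.iv c := hg
      subst hc'
      filter_upwards [qP_near (ε0 := ε0) (sub := sub) hI hd Z c, I.hN.near c, hN'.near c]
        with x h1 h2 h3
      rw [h1.2, h3, ← h2]
      exact (hcs _ h1.1).2

end

end

end Crest.Agent.R272.Ax_834
end

-- ▼ part R272/Ax7_834
section

/-!
# R272, leaf D4 (helper834), part 7: output in the language of 338's `s15_model`

`FF J : C(E2, M)`, `FF J z = (π z).1`; `immF : ImmF FM (FF J)`; `per : Per (FF J) Λ`;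
`val_injective`; `qP_mem`, `qP_psi` : off `Γ` the point `qP x` is `iota (pr (z x))`.
-/

set_option autoImplicit false
set_option linter.unusedSectionVars false

open Set Filter Topology
open scoped ContDiff

namespace Crest.Agent.R272.Ax_834

open Crest.Agent.R275.Geo Crest.Agent.R273.Fam_835 Crest.Agent.R272.Refl_246
open Crest.Agent.R272.AJ_956 Crest.Agent.R272.Idn_834 Crest.Agent.R272.HFam_342
open Crest.Agent.R272.Flop_66 Crest.Agent.R272.Sur_342
open Crest.Agent.R272.As15_338 TLoop_463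

noncomputable section

section gen

variable {C : Type} [TopologicalSpace C] {𝒞 : Cur C} {m : ℕ} {M : Type} [TopologicalSpace M]
  {FM : Fam m M} {q : C × C → M} {Λ : AddSubgroup E2} {π : E2 → range q}

/-- the map `ℂ² → M` -/
def FF (J : 𝒞.IsJac (rq q) Λ π) : C(E2, M) :=
  ⟨fun z => (π z).1, continuous_subtype_val.comp J.cont⟩


/-- **`FF` is an immersion** -/
theorem immF (h : QHol 𝒞 FM q) (J : 𝒞.IsJac (rq q) Λ π) {N : Set (C × C)} {U : C × C → E2}
    (hN : 𝒞.NearE N U) : ImmF FM (FF J) := by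
  intro z
  obtain ⟨j, hj, h1, h2⟩ := h.good J hN z
  exact ⟨j, hj, h1.differentiableAt, h2⟩


end gen

variable {C : Type} [TopologicalSpace C] {𝒞 : Cur C} {N : Set (C × C)} {U : C × C → E2}
  {Y : Type} [TopologicalSpace Y] {CY : Fam 3 Y} {G : Type} [Group G] [MulAction G Y] {s : G}
  {e : OpenPartialHomeomorph (Orb G Y) Um} {ε : ℝ} {ε0 : 0 < ε}
  {sub : ∀ a : Um, a.N ≤ ε → a ∈ e.target} [T2Space (Orb G Y)]
  {I : Inp 𝒞 N U CY G s Um.fam} (hI : IsId I e) (hd : ∀ i, I.S.d i = Um.dix i)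
  {z : C × C → Y} (Z : ZSec I.Ge z)

include hI hd Z

/-- off `Γ` : the point is in the old part and comes from the zero section -/
theorem qP_psi (x : C × C) (hx : x ∉ 𝒞.Gam) :
    qP 𝒞 e ε ε0 sub z x ∈ {y : (sur e ε ε0 sub).XP | (sur e ε ε0 sub).nf y ≠ 0} ∧
      (sur e ε ε0 sub).iota.symm (qP 𝒞 e ε ε0 sub z x) = pr G (z x) := by
  refine ⟨nf_off hI hd Z hx, ?_⟩
  rw [qP_off hx]
  exact (sur e ε ε0 sub).iota.left_inv
    ((sur e ε ε0 sub).mem_iota_source.2 (not_mem_K hI hd Z hx))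


end

end Crest.Agent.R272.Ax_834
end

-- ▼ part R272/Md1_834

/-!
# R272 (S0415), the blocks `X⁻`, `X⁺`, `T` of M15 over 939's `M : Ar` (helper834)

`Md M` : the smooth model is a complex manifold with a good group action (`ra`, 302), the germ of
the model at the cluster point (`Ge`, 60), the zero section (`z`, `Z`, `pz`, 916), and the chosen
identification `e` with 66's standard germ; `exists_md`.

Over `W : Md M`: `W.I`, `W.S` (66's `sur`), `W.H`, `W.XP`, `W.CXP`, `W.h0`, `W.surg`, `W.heX`,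
`W.T`, `W.q`, `W.hq`, `W.inc`, `W.himm`, `W.hpsi`, and `W.s15`.
-/

set_option autoImplicit false
set_option linter.unusedSectionVars false

open Set Filter Topology

namespace Crest.Agent.R272.Md_834

open Crest.Agent.R275.Geo Crest.Agent.R273.Fam_835
open Crest.Agent.R272 Crest.Agent.R272.MQ_783 Crest.Agent.R272.Refl_246
open Crest.Agent.R272.HFam_342 Crest.Agent.R272.Sur_342 Crest.Agent.R272.Flop_66
open Crest.Agent.R272.AJ_956 Crest.Agent.R272.Idn_834 Crest.Agent.R272.Ax_834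
open Crest.Agent.R272.Cur_297 Crest.Agent.R272.K3E_227 Crest.Agent.R272.M15_939
open Crest.Agent.R272.LbExt_259 Crest.Agent.R272.As15_338 Crest.Agent.R272.Comp_259

noncomputable section

/-- the blocks `X⁻`, `X⁺`, `T` of M15 -/
structure Md (M : Ar) where
  /-- 302 (B) -/
  ra : RA M.CX M.G
  /-- 60 -/
  Ge : Germ (cur Pz) M.CX M.G M.s
  /-- 916 -/
  z : Cz × Cz → M.X
  Z : ZSec Ge z
  pz : ∀ x, M.A.pz (z x) = M.p0
  /-- 956 -/
  NN : Set (Cz × Cz)
  U : Cz × Cz → E2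
  hN : (cur Pz).NearE NN U
  /-- 834 -/
  e : OpenPartialHomeomorph (Orb M.G M.X) Um
  isId : IsId (⟨hN, k3P hN, Ge, Um.stdU⟩ : Inp (cur Pz) NN U M.CX M.G M.s Um.fam) e
  he : ∀ x ∈ e.source, HC ra.fam Um.fam e x
  he' : ∀ u ∈ e.target, HC Um.fam ra.fam e.symm u
  ε : ℝ
  ε0 : 0 < ε
  sub : ∀ a : Um, a.N ≤ ε → a ∈ e.target


namespace Md

variable {M : Ar} (W : Md M)


/-- the input of IDENT-E -/
abbrev I : Inp (cur Pz) W.NN W.U M.CX M.G M.s Um.fam := ⟨W.hN, k3P W.hN, W.Ge, Um.stdU⟩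

/-- the surgery -/
abbrev S : Sur (Orb M.G M.X) Um Up := sur W.e W.ε W.ε0 W.sub

theorem H : W.S.Hol W.ra.fam Um.fam Up.fam := surHol W.he W.he'

instance : T2Space (Orb M.G M.X) := Pos15_220.t2_Xm M

instance : CompactSpace (Orb M.G M.X) := Pos15_220.compact_Xm M

/-- **the manifold of S0415** -/
abbrev XP : Type := W.S.XP

/-- its complex structure -/
abbrev CXP : Fam 3 W.XP := Sur.fam W.H

theorem hd (i : Fin 2) : W.I.S.d i = Um.dix i := rfl

/-- **the centre** -/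
theorem mem_K {x : Orb M.G M.X} :
    x ∈ W.S.K ↔ ∃ c, x = pr M.G (W.z (c, (cur Pz).iv c)) := by
  rw [mem_K_iff]
  constructor
  · rintro ⟨h1, h2⟩
    obtain ⟨i, c, hc, h3⟩ := W.isId.exists_c (fun _ => rfl) h1 h2
    exact ⟨c, by rw [h3, z_gam (I := W.I) W.Z hc]⟩
  · rintro ⟨c, rfl⟩
    have h1 := (near_sig (I := W.I) W.isId (fun _ => rfl) W.Z c).self_of_nhds
    obtain ⟨-, h2, h3, h4⟩ := h1
    refine ⟨h2, Um.N_eq_zero.2 ⟨?_, h4⟩⟩
    rw [h3]
    exact U_gam W.hN rfl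

/-- `heX` -/
theorem mem_K_pr {y : M.X} : pr M.G y ∈ W.S.K ↔
    ∃ (g : M.G) (c : Cz), y = g • W.z (c, (cur Pz).iv c) := by
  rw [W.mem_K]
  constructor
  · rintro ⟨c, h⟩
    obtain ⟨g, hg⟩ := pr_eq_iff.1 h
    exact ⟨g⁻¹, c, by rw [← hg, inv_smul_smul]⟩
  · rintro ⟨g, c, rfl⟩
    exact ⟨c, pr_smul g _⟩

theorem h0 : ∀ x ∈ W.S.K, piM M.A x = Pos15_220.q0 M := by
  intro x hx
  obtain ⟨c, rfl⟩ := W.mem_K.1 hx
  rw [piM_pr, W.pz]

/-- the projection to the base -/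
def piP : W.XP → Orb M.G M.N := W.S.push (piM M.A) (Pos15_220.q0 M)

/-- the old part -/
abbrev V : Set W.XP := {y | W.S.nf y ≠ 0}

/-- **259's surgery** -/
theorem surg : Surg (piM M.A) W.piP W.V W.S.iota.symm W.S.K :=
  W.S.surg (continuous_piM M.A) W.h0


/-! ### the surface -/

/-- the map `C × C → XP` -/
abbrev qq : Cz × Cz → W.XP := qP (cur Pz) W.e W.ε W.ε0 W.sub W.z

theorem qHol : QHol (cur Pz) W.CXP W.qq :=
  Ax_834.qHol (I := W.I) W.isId (fun _ => rfl) W.Z W.ra.hol W.ra.cov W.H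

/-- the torus -/
abbrev T : Type := range W.qq

/-- the map onto the torus -/
abbrev q : Cz × Cz → W.T := rq W.qq

theorem hq : (cur Pz).IsQ W.q := W.qHol.isQ

/-- the inclusion of the torus -/
abbrev inc : W.T → W.XP := Subtype.val

theorem himm (Λ : AddSubgroup E2) (π : E2 → W.T) (J : (cur Pz).IsJac W.q Λ π) :
    ImmF W.CXP fun z => W.inc (π z) := immF W.qHol J W.hN

theorem hpsi (x : Cz × Cz) (hx : x ∉ (cur Pz).Gam) :
    W.inc (W.q x) ∈ W.V ∧ W.S.iota.symm (W.inc (W.q x)) = pr M.G (W.z x) :=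
  qP_psi (I := W.I) W.isId (fun _ => rfl) W.Z x hx

theorem inc_q (x : Cz × Cz) (hx : x ∉ (cur Pz).Gam) :
    W.inc (W.q x) = W.S.iota (pr M.G (W.z x)) := qP_off hx

/-- **S0415** -/
theorem s15 (hz : Lc_220.NzX M.A) (k : ℕ)
    (germ : ∀ m₀ : ℕ, ∃ mm : ℕ, m₀ ≤ mm ∧ Nonempty (PEnd_732.PhiS W.S W.ra.fam Up.fam (piM M.A)
      (Pos15_220.q0 M) (Pos15_220.J W.ra hz) (Pos15_220.R W.ra) mm k))
    (g : C(unitInterval, Cz)) (hs : (cur Pz).iv (g 0) = g 0) (he : (cur Pz).iv (g 1) = g 1)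
    (die0 : Dies (cur Pz) W.hq.cont W.inc g)
    (live : Lives (cur Pz) W.hq.cont W.inc (alC.comp g))
    (die2 : Dies (cur Pz) W.hq.cont W.inc (alC.comp (alC.comp g)))
    (die3 : Dies (cur Pz) W.hq.cont W.inc (alC.comp (alC.comp (alC.comp g)))) : S15 :=
  s15_z (posF_of_gen2 (Pos15_220.pos15 W.ra hz W.H W.h0 k germ)) W.hq continuous_subtype_val
    Subtype.val_injective W.himm g hs he die0 live die2 die3

end Md

end

end Crest.Agent.R272.Md_834
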