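import Crest.Agent.R272.CB6_232

/-!
# R272, task POS-END (helper732), part 2: products and powers of local equations, ideals from generators

`Eqs.mul`, `Eqs.pow` (holomorphic equations), isomorphisms of the ideals; `Eqs.ofGen`: the invertible ideal
generated by finitely many functions `Φ i = γ * ψ i`.
-/

set_option autoImplicit false
set_option linter.unusedSectionVars false
set_option linter.unusedVariables false

open Set Filter Topology Complex
open scoped ContDiff Matrix ComplexConjugate Manifold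

namespace Crest.Agent.R272.PEnd_732

open Crest.Agent.R275.Geo Crest.Agent.R275.Core144 Crest.Agent.R275.GC293
open Crest.Agent.R273 Crest.Agent.R273.Defs_333 Crest.Agent.R273.Map_835
open Crest.Agent.R273.Fam_835
open Crest.Agent.R272.Quot_783 Crest.Agent.R272.PosGlue_232 Crest.Agent.R272.CB_232

noncomputable section

variable {n m : ℕ} {X N : Type} [TopologicalSpace X] [TopologicalSpace N]
  {C : Fam n X} {U V W : Set X}



theorem holF_contOn (hU : IsOpen U) {F : X → ℂ} (hF : HolF C U F) : ContinuousOn F U :=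
  fun _ hx => (holF_contAt hU hF hx).continuousWithinAt








/-! ### ideals generated by functions -/

/-- `Φ i = γ * ψ i` on `O`, `ψ` without common zero -/
structure Gen {κ : Type} (C : Fam n X) (Φ : κ → X → ℂ) (O : Set X) (γ : X → ℂ) (ψ : κ → X → ℂ) :
    Prop where
  op : IsOpen O
  hol : ∀ i, HolF C O (ψ i)
  nz : ∀ y ∈ O, ∃ i, ψ i y ≠ 0
  eq : ∀ i, ∀ y ∈ O, Φ i y = γ y * ψ i y
  dense : O ⊆ closure {y | γ y ≠ 0}

/-- two generators differ by a unit -/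
theorem Gen.unit {κ : Type} {Φ : κ → X → ℂ} {O O' : Set X} {γ γ' : X → ℂ} {ψ ψ' : κ → X → ℂ}
    (h : Gen C Φ O γ ψ) (h' : Gen C Φ O' γ' ψ') {x : X} (hx : x ∈ O ∩ O') :
    ∃ W, IsOpen W ∧ x ∈ W ∧ ∃ u, HolF C W u ∧ (∀ y ∈ W, u y ≠ 0) ∧ ∀ y ∈ W, γ y = u y * γ' y := by
  obtain ⟨i, hi⟩ := h.nz x hx.1
  obtain ⟨k, hk⟩ := h'.nz x hx.2
  have c1 := holF_contOn h.op (h.hol i)
  have c2 := holF_contOn h'.op (h'.hol k)
  set W : Set X := (O ∩ ψ i ⁻¹' {z | z ≠ 0}) ∩ (O' ∩ ψ' k ⁻¹' {z | z ≠ 0}) with hWd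
  have hW : IsOpen W := (c1.isOpen_inter_preimage h.op isOpen_ne).inter
    (c2.isOpen_inter_preimage h'.op isOpen_ne)
  have hWO : W ⊆ O := fun y hy => hy.1.1
  have hWO' : W ⊆ O' := fun y hy => hy.2.1
  have hu : HolF C W fun y => ψ' i y * (ψ i y)⁻¹ :=
    holF_mul (holF_mono (h'.hol i) hWO') (holF_inv (holF_mono (h.hol i) hWO) fun y hy => hy.1.2)
  have hu' : HolF C W fun y => ψ k y * (ψ' k y)⁻¹ :=
    holF_mul (holF_mono (h.hol k) hWO) (holF_inv (holF_mono (h'.hol k) hWO') fun y hy => hy.2.2)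
  have e1 : ∀ y ∈ W, γ y = (ψ' i y * (ψ i y)⁻¹) * γ' y := by
    intro y hy
    have h1 := h.eq i y (hWO hy)
    have h2 := h'.eq i y (hWO' hy)
    have h3 : ψ i y ≠ 0 := hy.1.2
    rw [h1] at h2
    field_simp
    linear_combination h2
  have e2 : ∀ y ∈ W, γ' y = (ψ k y * (ψ' k y)⁻¹) * γ y := by
    intro y hy
    have h1 := h.eq k y (hWO hy)
    have h2 := h'.eq k y (hWO' hy)
    have h3 : ψ' k y ≠ 0 := hy.2.2
    rw [h1] at h2
    field_simp
    linear_combination -h2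
  have e3 : ∀ y ∈ W, (ψ' i y * (ψ i y)⁻¹) * (ψ k y * (ψ' k y)⁻¹) = 1 := by
    intro y hy
    by_contra hne
    have hc : ContinuousOn (fun y => (ψ' i y * (ψ i y)⁻¹) * (ψ k y * (ψ' k y)⁻¹)) W :=
      holF_contOn hW (holF_mul hu hu')
    have ho : IsOpen (W ∩ (fun y => (ψ' i y * (ψ i y)⁻¹) * (ψ k y * (ψ' k y)⁻¹)) ⁻¹' {z | z ≠ 1}) :=
      hc.isOpen_inter_preimage hW isOpen_ne
    obtain ⟨z, hz, hz0⟩ := mem_closure_iff.1 (h.dense (hWO hy)) _ ho ⟨hy, hne⟩
    have h1 := e1 z hz.1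
    rw [e2 z hz.1, ← mul_assoc] at h1
    exact hz.2 (mul_right_cancel₀ hz0 (by rw [one_mul]; exact h1.symm))
  exact ⟨W, hW, ⟨⟨hx.1, hi⟩, hx.2, hk⟩, _, hu, fun y hy => left_ne_zero_of_mul
    (a := ψ' i y * (ψ i y)⁻¹) (b := ψ k y * (ψ' k y)⁻¹) (by rw [e3 y hy]; exact one_ne_zero), e1⟩




end

end Crest.Agent.R272.PEnd_732
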