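import Crest.Agent.R272.CB7_232
import Crest.Agent.R272.Kod8_410
import Crest.Agent.R272.PEnd2_732
import Crest.Agent.R272.FinCB3_876

-- ▼ part R272/CB8_232
section

/-!
# R272, task CB (helper232), part 8: products and powers of local equations

`Eqs.mul`, `Eqs.npow`; `isoMul`, `isoPow`, `isoZpow`, `isoTens` : comparison with `tens` and `zpow`;
`PosNear.mul`, `PosNear.npow_iff`.
-/

set_option autoImplicit false
set_option linter.unusedSectionVars false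
set_option linter.unusedVariables false

open Set Filter Topology Complex
open scoped ContDiff Matrix ComplexConjugate Manifold

namespace Crest.Agent.R272.CB_232

open Crest.Agent.R275.Geo Crest.Agent.R275.Core144 Crest.Agent.R275.GC293
open Crest.Agent.R273 Crest.Agent.R273.Defs_333 Crest.Agent.R273.Map_835
open Crest.Agent.R273.Fam_835
open Crest.Agent.R272.Quot_783 Crest.Agent.R272.PosGlue_232

noncomputable section

variable {n m : ℕ} {X Y N : Type} [TopologicalSpace X] [TopologicalSpace Y] [TopologicalSpace N]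
  {C : Fam n X} {U U' V W : Set X}

namespace Eqs

/-- product of local equations (one of the two families continuous) -/
def mul (E E' : Eqs C U) (hf : ∀ a, HolF C (E.V a) (E.f a)) : Eqs C U where
  α := E.α × E'.α
  V a := E.V a.1 ∩ E'.V a.2
  op a := (E.op a.1).inter (E'.op a.2)
  cov x hx := by
    obtain ⟨a, ha⟩ := E.cov x hx
    obtain ⟨b, hb⟩ := E'.cov x hx
    exact ⟨(a, b), ha, hb⟩
  f a x := E.f a.1 x * E'.f a.2 x
  dense a x hx := by
    rw [mem_closure_iff]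
    intro O hO hxO
    obtain ⟨y, ⟨hyO, hyV⟩, hy0⟩ := mem_closure_iff.1 (E.dense a.1 hx.1) _
      (hO.inter ((E.op a.1).inter (E'.op a.2))) ⟨hxO, hx⟩
    have h1 : ∀ᶠ z in 𝓝 y, E.f a.1 z ≠ 0 :=
      (holF_contAt (E.op a.1) (hf a.1) hyV.1).eventually_ne hy0
    obtain ⟨O', hO', hO'o, hyO'⟩ := eventually_nhds_iff.1 h1
    obtain ⟨z, hz, hz0⟩ := mem_closure_iff.1 (E'.dense a.2 hyV.2) _ (hO.inter hO'o) ⟨hyO, hyO'⟩
    exact ⟨z, hz.1, mul_ne_zero (hO' z hz.2) hz0⟩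
  loc a b x hx := by
    obtain ⟨W₁, hW₁, hx₁, u, hu, hu0, he⟩ := E.loc a.1 b.1 x ⟨hx.1.1, hx.2.1⟩
    obtain ⟨W₂, hW₂, hx₂, v, hv, hv0, he'⟩ := E'.loc a.2 b.2 x ⟨hx.1.2, hx.2.2⟩
    refine ⟨W₁ ∩ W₂, hW₁.inter hW₂, ⟨hx₁, hx₂⟩, fun y => u y * v y,
      holF_mul (holF_mono hu inter_subset_left) (holF_mono hv inter_subset_right),
      fun y hy => mul_ne_zero (hu0 y hy.1) (hv0 y hy.2), fun y hy => ?_⟩
    rw [he y hy.1, he' y hy.2]
    ring

/-- powers of local equations -/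
def npow (E : Eqs C U) (k : ℕ) : Eqs C U where
  α := E.α
  V := E.V
  op := E.op
  cov := E.cov
  f a x := E.f a x ^ k
  dense := E.dense_pow k
  loc a b x hx := by
    obtain ⟨W₁, hW₁, hx₁, u, hu, hu0, he⟩ := E.loc a b x hx
    refine ⟨W₁, hW₁, hx₁, fun y => u y ^ k, holF_pow hu k, fun y hy => pow_ne_zero k (hu0 y hy),
      fun y hy => ?_⟩
    rw [he y hy]
    ring

theorem npow_hol {E : Eqs C U} (hf : ∀ a, HolF C (E.V a) (E.f a)) (k : ℕ) (a : E.α) :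
    HolF C ((E.npow k).V a) ((E.npow k).f a) := holF_pow (hf a) k


theorem mul_g {E E' : Eqs C U} (hf : ∀ a, HolF C (E.V a) (E.f a)) (a b : E.α × E'.α) {x : X}
    (hx : x ∈ (E.V a.1 ∩ E'.V a.2) ∩ (E.V b.1 ∩ E'.V b.2)) :
    (E.mul E' hf).cb.g a b x = E.cb.g a.1 b.1 x * E'.cb.g a.2 b.2 x := by
  obtain ⟨W₁, hW₁, hx₁, u, hu, hu0, he⟩ := E.loc a.1 b.1 x ⟨hx.1.1, hx.2.1⟩
  obtain ⟨W₂, hW₂, hx₂, v, hv, hv0, he'⟩ := E'.loc a.2 b.2 x ⟨hx.1.2, hx.2.2⟩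
  rw [E.g_eq ⟨hx.1.1, hx.2.1⟩ hW₁ hx₁ hu he, E'.g_eq ⟨hx.1.2, hx.2.2⟩ hW₂ hx₂ hv he']
  refine (E.mul E' hf).g_eq (a := a) (b := b) hx (hW₁.inter hW₂) ⟨hx₁, hx₂⟩
    (u := fun y => u y * v y)
    (holF_mul (holF_mono hu inter_subset_left) (holF_mono hv inter_subset_right)) ?_
  intro y hy
  show E.f a.1 y * E'.f a.2 y = u y * v y * (E.f b.1 y * E'.f b.2 y)
  rw [he y hy.1, he' y hy.2]
  ring

theorem npow_g {E : Eqs C U} (k : ℕ) {a b : E.α} {x : X} (hx : x ∈ E.V a ∩ E.V b) :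
    (E.npow k).cb.g a b x = E.cb.g a b x ^ k := by
  obtain ⟨W₁, hW₁, hx₁, u, hu, hu0, he⟩ := E.loc a b x hx
  rw [E.g_eq hx hW₁ hx₁ hu he]
  refine (E.npow k).g_eq (a := a) (b := b) hx hW₁ hx₁ (u := fun y => u y ^ k) (holF_pow hu k) ?_
  intro y hy
  show E.f a y ^ k = u y ^ k * E.f b y ^ k
  rw [he y hy]
  ring

end Eqs




/-- tensor products of isomorphisms -/
def IsoOn.tens {L₁ L₂ : CBo C U} {L₁' L₂' : CBo C U'} (I₁ : IsoOn L₁ L₁' W) (I₂ : IsoOn L₂ L₂' W) :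
    IsoOn (L₁.tens L₂) (L₁'.tens L₂') W where
  h a b x := I₁.h a.1 b.1 x * I₂.h a.2 b.2 x
  hol a b := holF_mul
    (holF_mono (I₁.hol a.1 b.1) fun x hx => ⟨⟨hx.1.1.1, hx.1.2.1⟩, hx.2⟩)
    (holF_mono (I₂.hol a.2 b.2) fun x hx => ⟨⟨hx.1.1.2, hx.1.2.2⟩, hx.2⟩)
  ne a b x hx := mul_ne_zero (I₁.ne a.1 b.1 x ⟨⟨hx.1.1.1, hx.1.2.1⟩, hx.2⟩)
    (I₂.ne a.2 b.2 x ⟨⟨hx.1.1.2, hx.1.2.2⟩, hx.2⟩)
  left a a' b x hx := by
    rw [← I₁.left a.1 a'.1 b.1 x ⟨⟨⟨hx.1.1.1.1, hx.1.1.2.1⟩, hx.1.2.1⟩, hx.2⟩,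
      ← I₂.left a.2 a'.2 b.2 x ⟨⟨⟨hx.1.1.1.2, hx.1.1.2.2⟩, hx.1.2.2⟩, hx.2⟩]
    show L₁.g a.1 a'.1 x * L₂.g a.2 a'.2 x * _ = _
    ring
  right a b b' x hx := by
    rw [← I₁.right a.1 b.1 b'.1 x ⟨⟨⟨hx.1.1.1.1, hx.1.1.2.1⟩, hx.1.2.1⟩, hx.2⟩,
      ← I₂.right a.2 b.2 b'.2 x ⟨⟨⟨hx.1.1.1.2, hx.1.1.2.2⟩, hx.1.2.2⟩, hx.2⟩]
    show _ * (L₁'.g b.1 b'.1 x * L₂'.g b.2 b'.2 x) = _
    ring

/-- composition of isomorphisms (the middle bundle covers `W`) -/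
def IsoOn.trans {U'' : Set X} {L : CBo C U} {L' : CBo C U'} {L'' : CBo C U''}
    (I : IsoOn L L' W) (J : IsoOn L' L'' W) (b₀ : L'.α) (hW : W ⊆ U')
    (hWo : IsOpen W) : IsoOn L L'' W where
  h a c x := I.h a (L'.ix b₀ x) x * J.h (L'.ix b₀ x) c x
  hol a c := by
    refine holF_of_local fun x hx => ?_
    obtain ⟨b, hb⟩ := L'.cov x (hW hx.2)
    have hO : IsOpen (L.V a ∩ L''.V c ∩ W) := ((L.op a).inter (L''.op c)).inter hWo
    refine ⟨(L.V a ∩ L''.V c ∩ W) ∩ L'.V b, hO.inter (L'.op b), ⟨hx, hb⟩, ?_⟩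
    refine holF_congr (F := fun y => I.h a b y * J.h b c y)
      (holF_mul (holF_mono (I.hol a b) fun y hy => ⟨⟨hy.1.1.1, hy.2⟩, hy.1.2⟩)
        (holF_mono (J.hol b c) fun y hy => ⟨⟨hy.2, hy.1.1.2⟩, hy.1.2⟩)) ?_
    intro y hy
    have hix := L'.mem_ix b₀ hy.2
    have h1 := I.right a b (L'.ix b₀ y) y ⟨⟨⟨hy.1.1.1, hy.2⟩, hix⟩, hy.1.2⟩
    have h2 := J.left b (L'.ix b₀ y) c y ⟨⟨⟨hy.2, hix⟩, hy.1.1.2⟩, hy.1.2⟩
    rw [← h1, ← h2]
    ring
  ne a c x hx := by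
    obtain ⟨b, hb⟩ := L'.cov x (hW hx.2)
    have hix := L'.mem_ix b₀ hb
    exact mul_ne_zero (I.ne a _ x ⟨⟨hx.1.1, hix⟩, hx.2⟩) (J.ne _ c x ⟨⟨hix, hx.1.2⟩, hx.2⟩)
  left a a' c x hx := by
    obtain ⟨b, hb⟩ := L'.cov x (hW hx.2)
    have hix := L'.mem_ix b₀ hb
    rw [← mul_assoc, I.left a a' _ x ⟨⟨hx.1.1, hix⟩, hx.2⟩]
  right a c c' x hx := by
    obtain ⟨b, hb⟩ := L'.cov x (hW hx.2)
    have hix := L'.mem_ix b₀ hb
    rw [mul_assoc, J.right _ c c' x ⟨⟨⟨hix, hx.1.1.2⟩, hx.1.2⟩, hx.2⟩]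

end

end Crest.Agent.R272.CB_232
end

-- ▼ part R272/PEnd4_732
section

/-!
# R272, task POS-END (helper732), part 4: the composition

`pos_top` : positivity of the glued ideal on `Y = X⁺` from the ideal `J^mm R^k` on `X = X⁻` (positive near all
fibres for `mm ≥ m₀`), a biholomorphic `ι : X ⇀ Y` over `N ∖ q₀`, and an ideal near the fibre over `q₀` with
the same equations up to units and positive near this fibre; output = a projective embedding of `Y`.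
-/

set_option autoImplicit false
set_option linter.unusedSectionVars false
set_option linter.unusedVariables false

open Set Filter Topology Complex
open scoped ContDiff Matrix ComplexConjugate Manifold

namespace Crest.Agent.R272.PEnd_732

open Crest.Agent.R275.Geo Crest.Agent.R275.Core144 Crest.Agent.R275.GC293
open Crest.Agent.R273 Crest.Agent.R273.Defs_333 Crest.Agent.R273.Map_835
open Crest.Agent.R273.Fam_835
open Crest.Agent.R272.Quot_783 Crest.Agent.R272.PosGlue_232 Crest.Agent.R272.HFam_342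
open Crest.Agent.R272.CB_232

noncomputable section

variable {n m : ℕ} {X Y N : Type} [TopologicalSpace X] [TopologicalSpace Y] [TopologicalSpace N]
  {C : Fam n X} {C' : Fam n Y} {p : X → N} {p' : Y → N} {U V W : Set X}

theorem lC_symm {ι : OpenPartialHomeomorph X Y} (hι : ∀ x ∈ ι.source, LC C C' ι x) :
    ∀ y ∈ ι.symm.source, LC C' C ι.symm y := by
  intro y hy
  have hy' : y ∈ ι.target := hy
  have hx := ι.map_target hy'
  have h1 : HC C' C ι.symm y := by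
    have := LC.symm ι hx (hι _ hx)
    rwa [ι.right_inv hy'] at this
  refine LC.of_left_inverse (q := ι) h1 (hι _ hx).1 ?_
  filter_upwards [ι.open_target.mem_nhds hy'] with z hz
  exact ι.right_inv hz

/-- the equations `J^mm R^k` -/
def eqJR (J R : Eqs C univ) (hJ : ∀ a, HolF C (J.V a) (J.f a)) (mm k : ℕ) : Eqs C univ :=
  (J.npow mm).mul (R.npow k) (Eqs.npow_hol hJ mm)

/-- the ideal of `J^mm R^k` -/
def isoJR (J R : Eqs C univ) (hJ : ∀ a, HolF C (J.V a) (J.f a)) (mm k : ℕ) (W : Set X) :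
    IsoOn ((eqJR J R hJ mm k).idl 1) (((J.idl 1).zpow mm).tens (R.idl k)) W :=
  IsoOn.ofSub (L := (eqJR J R hJ mm k).idl 1) (L' := ((J.idl 1).zpow mm).tens (R.idl k))
    (fun a => a) (fun a x hx => hx.1) (fun a b x hx => by
      show (eqJR J R hJ mm k).cb.g a b x ^ (-((1 : ℕ) : ℤ)) =
        (J.cb.g a.1 b.1 x ^ (-((1 : ℕ) : ℤ))) ^ (mm : ℤ) * R.cb.g a.2 b.2 x ^ (-(k : ℤ))
      have h1 : (eqJR J R hJ mm k).cb.g a b x =
          J.cb.g a.1 b.1 x ^ mm * R.cb.g a.2 b.2 x ^ k := by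
        have h2 := Eqs.mul_g (E := J.npow mm) (E' := R.npow k) (Eqs.npow_hol hJ mm) a b
          (x := x) hx.1
        rw [Eqs.npow_g (E := J) mm (a := a.1) (b := b.1) ⟨hx.1.1.1, hx.1.2.1⟩,
          Eqs.npow_g (E := R) k (a := a.2) (b := b.2) ⟨hx.1.1.2, hx.1.2.2⟩] at h2
        exact h2
      rw [h1, ← zpow_mul, mul_zpow, ← zpow_natCast, ← zpow_mul, ← zpow_natCast, ← zpow_mul]
      congr 2
      · push_cast; ring
      · push_cast; ring)

/-- the ideal of the transported equations -/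
def isoPush {U : Set Y} (φ : OpenPartialHomeomorph X Y) (hφ : ∀ x ∈ φ.source, LC C C' φ x)
    (E : Eqs C' U) (k : ℕ) (W : Set X) :
    IsoOn ((E.push φ hφ).idl k) ((E.idl k).push φ hφ) W :=
  IsoOn.ofSub (L := (E.push φ hφ).idl k) (L' := (E.idl k).push φ hφ)
    (fun a => a) (fun a x hx => hx.1) (fun a b x hx => by
      show (E.push φ hφ).cb.g a b x ^ (-(k : ℤ)) = E.cb.g a b (φ x) ^ (-(k : ℤ))
      congr 1
      obtain ⟨T, hT, hxT, u, hu, hu0, he⟩ := E.loc a b (φ x) ⟨hx.1.1.2, hx.1.2.2⟩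
      rw [E.g_eq (a := a) (b := b) ⟨hx.1.1.2, hx.1.2.2⟩ hT hxT hu he]
      refine (E.push φ hφ).g_eq (a := a) (b := b) hx.1 (isOpen_pre φ hT) ⟨hx.1.1.1, hxT⟩
        (u := fun y => u (φ y)) ?_ (fun y hy => he _ hy.2)
      exact holF_compHC (isOpen_pre φ hT) (fun x hx => (hφ x hx.1).1) hT (fun x hx => hx.2) hu)

/-- local equations on an open set which is everything -/
def eUniv (E : Eqs C U) (h : ∀ x, x ∈ U) : Eqs C univ where
  α := E.α
  V := E.V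
  op := E.op
  cov x _ := E.cov x (h x)
  f := E.f
  dense := E.dense
  loc := E.loc

theorem posNear_univ {E : Eqs C U} (h : ∀ x, x ∈ U) {k : ℕ} {K : Set X}
    (hK : PosNear (E.idl k) K) : PosNear ((eUniv E h).idl k) K :=
  PosNear.ofIso isOpen_univ Subset.rfl (fun x _ => h x) (subset_univ _)
    (IsoOn.ofSub (L := (eUniv E h).idl k) (L' := E.idl k) (fun a => a) (fun a x hx => hx.1)
      (fun a b x hx => rfl)) hK

/-- the equations `J^mm R^k` transported to `Y` -/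
def eqY (J R : Eqs C univ) (hJ : ∀ a, HolF C (J.V a) (J.f a)) (ι : OpenPartialHomeomorph X Y)
    (hι : ∀ x ∈ ι.source, LC C C' ι x) (mm k : ℕ) :
    Eqs C' (ι.symm.source ∩ ι.symm ⁻¹' univ) :=
  (eqJR J R hJ mm k).push ι.symm (lC_symm hι)


end

end Crest.Agent.R272.PEnd_732
end

-- ▼ part R272/PEnd5_732

/-!
# R272, task POS-END (helper732), part 5: the composition with functions `Φ` near the bad fibre

`pos_top'`  : the composition with ONE family of local equations `E` on `Y`;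
`pos_gen`   : the composition with finitely many functions `Φ` near `p'⁻¹(q₀)` (helper848's form #7179).
-/

set_option autoImplicit false
set_option linter.unusedSectionVars false
set_option linter.unusedVariables false

open Set Filter Topology Complex
open scoped ContDiff Matrix ComplexConjugate Manifold

namespace Crest.Agent.R272.PEnd_732

open Crest.Agent.R275.Geo Crest.Agent.R275.Core144 Crest.Agent.R275.GC293
open Crest.Agent.R273 Crest.Agent.R273.Defs_333 Crest.Agent.R273.Map_835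
open Crest.Agent.R273.Fam_835
open Crest.Agent.R272.Quot_783 Crest.Agent.R272.PosGlue_232 Crest.Agent.R272.HFam_342
open Crest.Agent.R272.CB_232

noncomputable section

variable {n m : ℕ} {X Y N : Type} [TopologicalSpace X] [TopologicalSpace Y] [TopologicalSpace N]
  {C : Fam n X} {C' : Fam n Y} {p : X → N} {p' : Y → N} {U U' V W : Set X} {κ : Type}




/-! ### the ideal generated by `Φ` near the bad fibre -/

theorem valC_gen {Φ : κ → X → ℂ} {y : X} {c : κ → ℂ} (h : FinCB3_876.ValC C Φ y c) :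
    ∃ O γ ψ, y ∈ O ∧ Gen C Φ O γ ψ := by
  obtain ⟨hc, W, hW, hy, e, hed, u, hu, he, huy⟩ := h
  obtain ⟨j, hj⟩ := Function.ne_iff.1 hc
  have h1 : IsOpen (W ∩ u j ⁻¹' {z | z ≠ 0}) := (holF_contOn hW (hu j)).isOpen_inter_preimage hW
    isOpen_ne
  refine ⟨W ∩ u j ⁻¹' {z | z ≠ 0}, e, u, ⟨hy, ?_⟩, h1, fun i => holF_mono (hu i) inter_subset_left,
    fun z hz => ⟨j, hz.2⟩, fun i z hz => ?_, inter_subset_left.trans hed⟩
  · show u j y ≠ 0
    rw [huy j]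
    exact hj
  · rw [he z hz.1 i, mul_comm]

theorem genAt_gen {Φ : κ → X → ℂ} {y : X} {e : X → ℂ} (h : FinCB3_876.GenAt C Φ e y) {V : Set X}
    (hV : IsOpen V) (hyV : y ∈ V) (hd : V ⊆ closure {z | e z ≠ 0}) :
    ∃ O ψ, y ∈ O ∧ Gen C Φ O e ψ := by
  obtain ⟨W, hW, hy, u, hu, he, j, hj⟩ := h
  have h1 : IsOpen (W ∩ u j ⁻¹' {z | z ≠ 0}) := (holF_contOn hW (hu j)).isOpen_inter_preimage hW
    isOpen_ne
  refine ⟨(W ∩ u j ⁻¹' {z | z ≠ 0}) ∩ V, u, ⟨⟨hy, hj⟩, hyV⟩, h1.inter hV,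
    fun i => holF_mono (hu i) fun z hz => hz.1.1, fun z hz => ⟨j, hz.1.2⟩, fun i z hz => ?_,
    inter_subset_right.trans hd⟩
  rw [he z hz.1.1 i, mul_comm]

/-- the ideal generated by `Φ`, on an open set -/
def genE (C : Fam n X) (Φ : κ → X → ℂ) (U : Set X) (hU : IsOpen U)
    (h : ∀ x ∈ U, ∃ O γ ψ, x ∈ O ∧ Gen C Φ O γ ψ) : Eqs C U where
  α := {t : Set X × (X → ℂ) × (κ → X → ℂ) // Gen C Φ t.1 t.2.1 t.2.2}
  V t := t.1.1 ∩ U
  op t := t.2.op.inter hU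
  cov x hx := by
    obtain ⟨O, γ, ψ, hxO, hG⟩ := h x hx
    exact ⟨⟨(O, γ, ψ), hG⟩, hxO, hx⟩
  f t := t.1.2.1
  dense t := inter_subset_left.trans t.2.dense
  loc a b x hx := a.2.unit b.2 ⟨hx.1.1, hx.2.1⟩

theorem isOpen_genSet (C : Fam n X) (Φ : κ → X → ℂ) :
    IsOpen {x | ∃ O γ ψ, x ∈ O ∧ Gen C Φ O γ ψ} := by
  rw [isOpen_iff_mem_nhds]
  rintro x ⟨O, γ, ψ, hx, hG⟩
  filter_upwards [hG.op.mem_nhds hx] with y hy using ⟨O, γ, ψ, hy, hG⟩

/-- transport of generators along `ι` -/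
theorem genAt_push {ι : OpenPartialHomeomorph X Y} (hι : ∀ x ∈ ι.source, LC C C' ι x)
    {Φ : κ → Y → ℂ} {e : X → ℂ} {y : Y} (hy : y ∈ ι.target)
    (h : FinCB3_876.GenAt C (fun j z => Φ j (ι z)) e (ι.symm y)) :
    FinCB3_876.GenAt C' Φ (fun z => e (ι.symm z)) y := by
  obtain ⟨W, hW, hyW, u, hu, he, j, hj⟩ := h
  have hO : IsOpen (ι.symm.source ∩ ι.symm ⁻¹' W) := ι.symm.isOpen_inter_preimage hW
  refine ⟨ι.symm.source ∩ ι.symm ⁻¹' W, hO, ⟨hy, hyW⟩, fun i z => u i (ι.symm z), fun i => ?_, ?_,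
    j, hj⟩
  · exact holF_compHC hO (fun x hx => (lC_symm hι x hx.1).1) hW (fun x hx => hx.2) (hu i)
  · intro z hz i
    have h1 := he (ι.symm z) hz.2 i
    have h2 : z ∈ ι.target := hz.1
    simp only [ι.right_inv h2] at h1
    exact h1

/-- **data near the bad fibre**: functions `Φ j` which generate an invertible ideal near `p'⁻¹(q₀)`, with
finite fibres there, and which generate `J^mm R^k` off the exceptional set -/
structure PhiData (C : Fam n X) (C' : Fam n Y) (p' : Y → N) (q₀ : N)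
    (ι : OpenPartialHomeomorph X Y) (J R : Eqs C univ) (mm k : ℕ) where
  κ : Type
  fin : Fintype κ
  Φ : κ → Y → ℂ
  W : Set Y
  hW : IsOpen W
  sub : p' ⁻¹' {q₀} ⊆ W
  gen : ∀ y ∈ p' ⁻¹' {q₀}, ∃ c, FinCB3_876.ValC C' Φ y c
  cmp : ∀ x ∈ ι.source, ι x ∈ W → ∃ a b, x ∈ J.V a ∧ x ∈ R.V b ∧
    FinCB3_876.GenAt C (fun j z => Φ j (ι z)) (fun z => J.f a z ^ mm * R.f b z ^ k) x
  ff : ∀ q ∈ p' ⁻¹' {q₀}, {x | x ∈ p' ⁻¹' {q₀} ∧ ∃ c c', FinCB3_876.ValC C' Φ q c ∧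
    FinCB3_876.ValC C' Φ x c' ∧ ∀ i j, c i * c' j = c j * c' i}.Finite


end

end Crest.Agent.R272.PEnd_732
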