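import Crest.Agent.R272.Root1_83
import Crest.Agent.R272.Quot2_783

/-!
# R272, leaf ROOTCOV (helper83), part 2: the two instances

* `RS.ofCont`: continuous roots, the complement of the zero set dense and locally connected;
* `RS.ofHol` : holomorphic roots on a complex manifold (`Fam n Y`), `g a` nowhere locally zero.
-/

set_option autoImplicit false

open Set Topology Filter

namespace Crest.Agent.R272.Root_83

open Crest.Agent.R275.Geo Crest.Agent.R273.Fam_835 Crest.Agent.R272.Quot_783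

noncomputable section

universe u v




/-! ### holomorphic roots -/

/-- two holomorphic functions on a ball whose product vanishes: one of them vanishes -/
theorem eq_zero_of_mul {n : ℕ} {V : Set (Cn n)} (hV : IsOpen V) (hpc : IsPreconnected V)
    {F G : Cn n → ℂ} (hF : DifferentiableOn ℂ F V) (hG : DifferentiableOn ℂ G V)
    (h : ∀ z ∈ V, F z * G z = 0) : (∀ z ∈ V, F z = 0) ∨ (∀ z ∈ V, G z = 0) := by
  by_cases h1 : ∀ z ∈ V, F z = 0
  · exact Or.inl h1
  · push Not at h1
    obtain ⟨z0, hz0, hne⟩ := h1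
    right
    have hG' := Crest.Agent.R266.SCV.analyticOnNhd_of_differentiableOn hV hG
    have h2 : G =ᶠ[𝓝 z0] 0 := by
      have h3 : ∀ᶠ z in 𝓝 z0, F z ≠ 0 :=
        (hF.differentiableAt (hV.mem_nhds hz0)).continuousAt.eventually_ne hne
      filter_upwards [h3, hV.mem_nhds hz0] with z hz hzV
      exact (mul_eq_zero.1 (h z hzV)).resolve_left hz
    exact fun z hz => hG'.eqOn_zero_of_preconnected_of_eventuallyEq_zero hpc hz0 h2 hz

variable {n : ℕ} {Y : Type} [TopologicalSpace Y]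

/-- a holomorphic root near a point -/
def HRt (C : Fam n Y) (g r : Y → ℂ) (x : Y) : Prop :=
  ∃ U, IsOpen U ∧ x ∈ U ∧ HolF C U r ∧ ∀ z ∈ U, r z ^ 2 = g z

theorem HolF.mono {C : Fam n Y} {U V : Set Y} {r : Y → ℂ} (h : HolF C U r) (hV : V ⊆ U) :
    HolF C V r := fun j => (h j).mono fun _ hz => ⟨hz.1, hV hz.2⟩

theorem HolF.continuousOn {C : Fam n Y} {U : Set Y} (hU : IsOpen U) {r : Y → ℂ}
    (h : HolF C U r) : ContinuousOn r U := by
  intro x hx
  obtain ⟨i, hi⟩ := C.cover x
  have h1 : ContinuousAt (fun z => r ((C.e i).symm z)) (C.e i x) := (h.diffAt hU hi hx).continuousAt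
  have h2 : ContinuousAt (fun y => r ((C.e i).symm (C.e i y))) x :=
    ContinuousAt.comp (f := C.e i) (g := fun z => r ((C.e i).symm z)) h1 ((C.e i).continuousAt hi)
  refine (h2.congr ?_).continuousWithinAt
  filter_upwards [(C.e i).open_source.mem_nhds hi] with y hy
  rw [(C.e i).left_inv hy]

theorem HRt.dich {C : Fam n Y} {g r r' : Y → ℂ} {x : Y} (h : HRt C g r x) (h' : HRt C g r' x) :
    r' =ᶠ[𝓝 x] r ∨ r' =ᶠ[𝓝 x] -r := by
  obtain ⟨U, hU, hxU, hr, hs⟩ := h
  obtain ⟨U', hU', hxU', hr', hs'⟩ := h'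
  obtain ⟨i, hi⟩ := C.cover x
  set z0 := C.e i x with hz0
  have hΩ : IsOpen ((C.e i).target ∩ (C.e i).symm ⁻¹' (U ∩ U')) :=
    (C.e i).isOpen_inter_preimage_symm (hU.inter hU')
  have hz0Ω : z0 ∈ (C.e i).target ∩ (C.e i).symm ⁻¹' (U ∩ U') :=
    ⟨(C.e i).map_source hi, by
      rw [mem_preimage, hz0, (C.e i).left_inv hi]; exact ⟨hxU, hxU'⟩⟩
  obtain ⟨ε, hε, hball⟩ := Metric.isOpen_iff.1 hΩ z0 hz0Ω
  have hd : DifferentiableOn ℂ (fun z => r ((C.e i).symm z)) (Metric.ball z0 ε) :=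
    (hr i).mono fun z hz => ⟨(hball hz).1, (hball hz).2.1⟩
  have hd' : DifferentiableOn ℂ (fun z => r' ((C.e i).symm z)) (Metric.ball z0 ε) :=
    (hr' i).mono fun z hz => ⟨(hball hz).1, (hball hz).2.2⟩
  have hpc : IsPreconnected (Metric.ball z0 ε) := (convex_ball z0 ε).isPreconnected
  have hmem : ∀ᶠ y in 𝓝 x, y ∈ (C.e i).source ∧ C.e i y ∈ Metric.ball z0 ε := by
    filter_upwards [(C.e i).open_source.mem_nhds hi,
      (C.e i).continuousAt hi |>.preimage_mem_nhds (Metric.ball_mem_nhds z0 hε)] with y hy1 hy2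
    exact ⟨hy1, hy2⟩
  rcases eq_zero_of_mul Metric.isOpen_ball hpc (hd'.sub hd) (hd'.add hd) (by
      intro z hz
      have e1 := hs _ (hball hz).2.1
      have e2 := hs' _ (hball hz).2.2
      show (r' _ - r _) * (r' _ + r _) = 0
      linear_combination e2 - e1) with h1 | h1
  · left
    filter_upwards [hmem] with y hy
    have := h1 _ hy.2
    simp only [Pi.sub_apply, (C.e i).left_inv hy.1] at this
    exact sub_eq_zero.1 this
  · right
    filter_upwards [hmem] with y hy
    have := h1 _ hy.2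
    simp only [Pi.add_apply, (C.e i).left_inv hy.1] at this
    show r' y = - r y
    exact eq_neg_of_add_eq_zero_left this

/-- **Instance: holomorphic roots on a complex manifold.** -/
def RS.ofHol (C : Fam n Y) {ι : Type v} (g : ι → Y → ℂ)
    (hne : ∀ a x, ∃ᶠ z in 𝓝 x, g a z ≠ 0) (hr : ∀ a x, ∃ r : Y → ℂ, HRt C (g a) r x) :
    RS Y ι g where
  Rt a r x := HRt C (g a) r x
  opn := by
    rintro a r x ⟨U, hU, hx, h1, h2⟩
    filter_upwards [hU.mem_nhds hx] with z hz
    exact ⟨U, hU, hz, h1, h2⟩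
  sq := by
    rintro a r x ⟨U, hU, hx, h1, h2⟩
    exact h2 x hx
  cont := by
    rintro a r x ⟨U, hU, hx, h1, h2⟩
    exact (HolF.continuousOn hU h1).continuousAt (hU.mem_nhds hx)
  ex := hr
  ne := hne
  dich h h' := HRt.dich h h'

end

end Crest.Agent.R272.Root_83
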