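import Crest.Agent.R272.Root2_83
import Crest.Agent.R272.LbExt1_259

/-!
# R272, leaf ROOTCOV (helper83), part 3: root systems on pulled back coverings

* `pullFam C q hq` : the complex structure on `X'` pulled back along a local homeomorphism `q : X' → X`;
* `RS.ofPB`        : `X̂ = PB q π = {(x,w) | π x = q w}` (`q : P → N` a local homeomorphism, `π : X → N`
                     continuous), `g a : P → ℂ`; if near every point of `X̂` the function `g a (w)` is the
                     square of a holomorphic function of `x`, this is a root system on `X̂`.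
* `exists_root_unit` : a holomorphic function without zero has local holomorphic square roots.
-/

set_option autoImplicit false

open Set Topology Filter

namespace Crest.Agent.R272.Root_83

open Crest.Agent.R275.Geo Crest.Agent.R273.Fam_835 Crest.Agent.R272.Quot_783
open Crest.Agent.R272.LbExt_259

noncomputable section

universe v

section pull

variable {n : ℕ} {X X' : Type} [TopologicalSpace X] [TopologicalSpace X']

/-- the pulled back family of charts -/
def pullFam (C : Fam n X) {q : X' → X} (hq : IsLocalHomeomorph q) : Fam n X' where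
  ι := X' × C.ι
  e p := (hq p.1).choose.trans (C.e p.2)
  cover x := by
    obtain ⟨i, hi⟩ := C.cover (q x)
    refine ⟨(x, i), ?_⟩
    rw [OpenPartialHomeomorph.trans_source]
    refine ⟨(hq x).choose_spec.1, ?_⟩
    rw [mem_preimage, ← (hq x).choose_spec.2]
    exact hi
  holo := by
    rintro ⟨x, i⟩ ⟨y, j⟩
    set ex := (hq x).choose with hex
    set ey := (hq y).choose with hey
    have hx : q = ex := (hq x).choose_spec.2
    have hy : q = ey := (hq y).choose_spec.2
    refine (C.holo i j).congr_mono (f := fun z => C.e j ((C.e i).symm z)) ?_ ?_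
    · rintro z ⟨hz1, hz2⟩
      simp only [OpenPartialHomeomorph.trans_target, OpenPartialHomeomorph.coe_trans,
        OpenPartialHomeomorph.coe_trans_symm, Function.comp, mem_inter_iff, mem_preimage,
        OpenPartialHomeomorph.trans_source] at hz1 hz2 ⊢
      congr 1
      have h1 : ey (ex.symm ((C.e i).symm z)) = (C.e i).symm z := by
        rw [← hy, hx, ex.right_inv hz1.2]
      exact h1
    · rintro z ⟨hz1, hz2⟩
      simp only [OpenPartialHomeomorph.trans_target,
        OpenPartialHomeomorph.coe_trans_symm, Function.comp, mem_inter_iff, mem_preimage,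
        OpenPartialHomeomorph.trans_source] at hz1 hz2 ⊢
      refine ⟨hz1.1, ?_⟩
      have h1 : ey (ex.symm ((C.e i).symm z)) = (C.e i).symm z := by
        rw [← hy, hx, ex.right_inv hz1.2]
      have h2 := hz2.2
      rw [h1] at h2
      exact h2

variable {C : Fam n X} {q : X' → X} (hq : IsLocalHomeomorph q)

theorem pullFam_symm (p : X' × C.ι) {z : Cn n} (hz : z ∈ ((pullFam C hq).e p).target) :
    z ∈ (C.e p.2).target ∧ q (((pullFam C hq).e p).symm z) = (C.e p.2).symm z := by
  have h1 : z ∈ ((hq p.1).choose.trans (C.e p.2)).target := hz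
  rw [OpenPartialHomeomorph.trans_target] at h1
  refine ⟨h1.1, ?_⟩
  have hx : ∀ y, q y = (hq p.1).choose y := congrFun (hq p.1).choose_spec.2
  exact (hx _).trans ((hq p.1).choose.right_inv h1.2)

/-- the local homeomorphism is holomorphic for the pulled back structure -/
theorem holC_pull : HolC (pullFam C hq) C q := by
  refine ⟨hq.continuous, fun p j => ?_⟩
  refine (C.holo p.2 j).congr_mono ?_ ?_
  · rintro z ⟨hz, -⟩
    exact congrArg (C.e j) (pullFam_symm hq p hz).2
  · rintro z ⟨hz, hz2⟩
    refine ⟨(pullFam_symm hq p hz).1, ?_⟩
    have h2 : q (((pullFam C hq).e p).symm z) ∈ (C.e j).source := hz2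
    rw [(pullFam_symm hq p hz).2] at h2
    exact h2

/-- pull back of a holomorphic function -/
theorem holF_pull {U : Set X} {f : X → ℂ} (hf : HolF C U f) {U' : Set X'} (hU : U' ⊆ q ⁻¹' U) :
    HolF (pullFam C hq) U' (fun x => f (q x)) := by
  intro p
  refine (hf p.2).congr_mono ?_ ?_
  · rintro z ⟨hz, -⟩
    exact congrArg f (pullFam_symm hq p hz).2
  · rintro z ⟨hz, hz2⟩
    refine ⟨(pullFam_symm hq p hz).1, ?_⟩
    have h2 : q (((pullFam C hq).e p).symm z) ∈ U := hU hz2
    rw [(pullFam_symm hq p hz).2] at h2
    exact h2

end pull

section PB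

variable {n : ℕ} {X N P : Type} [TopologicalSpace X] [TopologicalSpace N] [TopologicalSpace P]

/-- the projection of the pull back of a local homeomorphism is a local homeomorphism -/
theorem isLocalHomeomorph_pbFst {q : P → N} {π : X → N} (hq : IsCoveringMap q)
    (hπ : Continuous π) : IsLocalHomeomorph (pbFst q π) :=
  (isCoveringMap_fst hq hπ).isLocalHomeomorph


end PB

/-! ### square roots of units -/



end

end Crest.Agent.R272.Root_83
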