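import Crest.Agent.R272.SupDefs_528
import Crest.Agent.R272.Lat_368

-- ▼ part R272/Sup1_528
section

/-!
R272, division E, road B (helper528), part 1: Gaussian integrals and the generating kernel.
-/

set_option autoImplicit false

open scoped ComplexConjugate Topology Real
open MeasureTheory

namespace Crest.Agent.R272.Sup_528

open Crest.Agent.R272.EBase_641 Crest.Agent.R272.EBase2_641 Crest.Agent.R272.EThDefs_445

noncomputable section

variable {n m : ℕ}

/-! ### one variable -/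

theorem gauss1_comp {s : ℂ} (a b : ℂ) (v : Fin 2 → ℝ) :
    Complex.exp (π * (-s * (‖Complex.measurableEquivPi.symm v‖ : ℂ) ^ 2
        + a * Complex.measurableEquivPi.symm v + b * conj (Complex.measurableEquivPi.symm v)))
      = Complex.exp (-(π * s) * ∑ i, ((v i : ℝ) : ℂ) ^ 2
        + ∑ i, (![π * (a + b), π * Complex.I * (a - b)] : Fin 2 → ℂ) i * v i) := by
  have h1 : ((‖Complex.measurableEquivPi.symm v‖ : ℝ) : ℂ) ^ 2 = (v 0 : ℂ) ^ 2 + (v 1 : ℂ) ^ 2 := by
    rw [← Complex.ofReal_pow, ← Complex.normSq_eq_norm_sq, Complex.measurableEquivPi_symm_apply,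
      Complex.normSq_add_mul_I]
    push_cast; ring
  rw [h1, Complex.measurableEquivPi_symm_apply, Fin.sum_univ_two, Fin.sum_univ_two]
  simp only [map_add, map_mul, Complex.conj_ofReal, Complex.conj_I, Matrix.cons_val_zero,
    Matrix.cons_val_one]
  congr 1
  ring

theorem integrable_gauss1 {s : ℂ} (hs : 0 < s.re) (a b : ℂ) :
    Integrable fun α : ℂ => Complex.exp (π * (-s * (‖α‖ : ℂ) ^ 2 + a * α + b * conj α)) := by
  have hπs : 0 < ((π : ℂ) * s).re := by
    rw [Complex.re_ofReal_mul]; positivity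
  rw [← (Complex.volume_preserving_equiv_pi.symm).integrable_comp_emb
    Complex.measurableEquivPi.symm.measurableEmbedding]
  have := GaussianFourier.integrable_cexp_neg_mul_sum_add hπs
    (![π * (a + b), π * Complex.I * (a - b)] : Fin 2 → ℂ)
  refine this.congr (Filter.Eventually.of_forall fun v => ?_)
  exact (gauss1_comp a b v).symm

theorem integral_gauss1 {s : ℂ} (hs : 0 < s.re) (a b : ℂ) :
    ∫ α : ℂ, Complex.exp (π * (-s * (‖α‖ : ℂ) ^ 2 + a * α + b * conj α))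
      = s⁻¹ * Complex.exp (π * (a * b / s)) := by
  have hs0 : s ≠ 0 := by rintro rfl; simp at hs
  have hπ : (π : ℂ) ≠ 0 := by exact_mod_cast Real.pi_ne_zero
  have hπs : 0 < ((π : ℂ) * s).re := by
    rw [Complex.re_ofReal_mul]; positivity
  rw [← (Complex.volume_preserving_equiv_pi.symm).integral_comp'
    (fun α : ℂ => Complex.exp (π * (-s * (‖α‖ : ℂ) ^ 2 + a * α + b * conj α)))]
  simp only [gauss1_comp]
  rw [GaussianFourier.integral_cexp_neg_mul_sum_add hπs]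
  have h1 : ((Fintype.card (Fin 2) : ℂ) / 2) = 1 := by simp
  rw [h1, Complex.cpow_one, Fin.sum_univ_two]
  simp only [Matrix.cons_val_zero, Matrix.cons_val_one]
  congr 1
  · field_simp
  · congr 1
    have : (π * (a + b)) ^ 2 + (π * Complex.I * (a - b)) ^ 2 = 4 * (π : ℂ) ^ 2 * (a * b) := by
      have hI : Complex.I ^ 2 = -1 := Complex.I_sq
      calc (π * (a + b)) ^ 2 + (π * Complex.I * (a - b)) ^ 2
          = (π : ℂ) ^ 2 * (a + b) ^ 2 + (π : ℂ) ^ 2 * Complex.I ^ 2 * (a - b) ^ 2 := by ring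
        _ = _ := by rw [hI]; ring
    rw [this]
    field_simp

/-! ### the key bound -/

/-- weight of the superposition -/
def gw (α : ℂ) : ℂ := Complex.exp (-π * (‖α‖ : ℂ) ^ 2)

/-- the point of the superposition -/
def pt (z p : E n) (α : ℂ) : Co n m := (α, conj α • z + p, 0)

theorem comp_bound {H : Type*} [NormedAddCommGroup H] [InnerProductSpace ℂ H] {η : ℝ} (hη : 0 < η)
    (x y u : H) : (inner ℂ y x - inner ℂ u x + inner ℂ y u : ℂ).re
      ≤ 1 / 2 * (1 + η)⁻¹ * ‖u‖ ^ 2 + 1 / 2 * (1 + 2 * η) * (‖x‖ ^ 2 + ‖y‖ ^ 2) := by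
  have h1 : (inner ℂ u x : ℂ).re = (inner ℂ x u : ℂ).re := by
    rw [← inner_conj_symm, Complex.conj_re]
  have h2 : (inner ℂ y x - inner ℂ u x + inner ℂ y u : ℂ).re
      = (inner ℂ y x : ℂ).re + (inner ℂ (y - x) u : ℂ).re := by
    rw [inner_sub_left]
    simp only [Complex.add_re, Complex.sub_re, h1]
    ring
  have h3 : (inner ℂ (y - x) u : ℂ).re ≤ ‖y - x‖ * ‖u‖ :=
    (Complex.re_le_norm _).trans (norm_inner_le_norm _ _)
  have h4 : ‖y - x‖ ^ 2 = ‖y‖ ^ 2 - 2 * (inner ℂ y x : ℂ).re + ‖x‖ ^ 2 :=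
    norm_sub_sq (𝕜 := ℂ) y x
  have h5 : ‖y - x‖ * ‖u‖ ≤ 1 / 2 * (1 + η)⁻¹ * ‖u‖ ^ 2 + 1 / 2 * (1 + η) * ‖y - x‖ ^ 2 := by
    have h : 0 < 1 + η := by linarith
    have hsq := mul_nonneg (inv_nonneg.2 h.le) (sq_nonneg ((1 + η) * ‖y - x‖ - ‖u‖))
    have e : (1 + η)⁻¹ * ((1 + η) * ‖y - x‖ - ‖u‖) ^ 2
        = (1 + η) * ‖y - x‖ ^ 2 - 2 * (‖y - x‖ * ‖u‖) + (1 + η)⁻¹ * ‖u‖ ^ 2 := by
      field_simp
      ring
    rw [e] at hsq
    linarith
  have h6 : -(inner ℂ y x : ℂ).re ≤ 1 / 2 * (‖x‖ ^ 2 + ‖y‖ ^ 2) := by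
    have h7 : |(inner ℂ y x : ℂ).re| ≤ ‖y‖ * ‖x‖ :=
      (Complex.abs_re_le_norm _).trans (norm_inner_le_norm _ _)
    have h8 := neg_abs_le (inner ℂ y x : ℂ).re
    nlinarith [sq_nonneg (‖x‖ - ‖y‖)]
  rw [h2]
  nlinarith [mul_le_mul_of_nonneg_left h6 hη.le]

theorem her_bound {η : ℝ} (hη : 0 < η) (A B U : Co n m) :
    (her A B - her A U + her U B).re
      ≤ 1 / 2 * (1 + η)⁻¹ * nsq U + 1 / 2 * (1 + 2 * η) * (nsq A + nsq B) := by
  have h1 := comp_bound hη A.1 B.1 U.1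
  have h2 := comp_bound hη A.2.1 B.2.1 U.2.1
  have h3 := comp_bound hη A.2.2 B.2.2 U.2.2
  have e : ∀ x y : ℂ, inner ℂ y x = x * conj y := by
    intro x y; simp
  rw [e, e, e] at h1
  have h4 : (her A B - her A U + her U B).re
      = (A.1 * conj B.1 - A.1 * conj U.1 + U.1 * conj B.1 : ℂ).re
        + (inner ℂ B.2.1 A.2.1 - inner ℂ U.2.1 A.2.1 + inner ℂ B.2.1 U.2.1 : ℂ).re
        + (inner ℂ B.2.2 A.2.2 - inner ℂ U.2.2 A.2.2 + inner ℂ B.2.2 U.2.2 : ℂ).re := by
    simp only [her, Complex.add_re, Complex.sub_re]; ring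
  rw [h4]
  simp only [nsq]
  linarith

theorem nsq_pt_le {η : ℝ} (hη : 0 < η) (z p : E n) (α : ℂ) :
    nsq (pt z p α : Co n m) ≤ (1 + (1 + η) * ‖z‖ ^ 2) * ‖α‖ ^ 2 + (1 + η⁻¹) * ‖p‖ ^ 2 := by
  have h1 : ‖conj α • z + p‖ ≤ ‖α‖ * ‖z‖ + ‖p‖ := by
    refine (norm_add_le _ _).trans ?_
    rw [norm_smul, Complex.norm_conj]
  have h2 : ‖conj α • z + p‖ ^ 2 ≤ (‖α‖ * ‖z‖ + ‖p‖) ^ 2 :=
    pow_le_pow_left₀ (norm_nonneg _) h1 2
  have h3 : (‖α‖ * ‖z‖ + ‖p‖) ^ 2 ≤ (1 + η) * (‖α‖ * ‖z‖) ^ 2 + (1 + η⁻¹) * ‖p‖ ^ 2 := by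
    have hsq := mul_nonneg (inv_nonneg.2 hη.le) (sq_nonneg (η * (‖α‖ * ‖z‖) - ‖p‖))
    have e : η⁻¹ * (η * (‖α‖ * ‖z‖) - ‖p‖) ^ 2
        = η * (‖α‖ * ‖z‖) ^ 2 - 2 * ((‖α‖ * ‖z‖) * ‖p‖) + η⁻¹ * ‖p‖ ^ 2 := by
      field_simp
      ring
    rw [e] at hsq
    nlinarith
  have h4 : nsq (pt z p α : Co n m) = ‖α‖ ^ 2 + ‖conj α • z + p‖ ^ 2 := by
    simp [nsq, pt]
  rw [h4]
  nlinarith

theorem nsq_nonneg (A : Co n m) : 0 ≤ nsq A := by
  simp only [nsq]; positivity

theorem norm_G (v : V1 n × W m) (A B : Co n m) : ‖G v A B‖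
    = Real.exp (π * (-(nsq (uu v)) / 2 + (her A B - her A (uu v) + her (uu v) B).re)) := by
  rw [G, Complex.norm_exp, Complex.re_ofReal_mul]
  congr 2
  have : (-(nsq (uu v) : ℂ) / 2) = ((-(nsq (uu v)) / 2 : ℝ) : ℂ) := by push_cast; ring
  rw [this]
  simp only [Complex.add_re, Complex.sub_re, Complex.ofReal_re]
  ring

theorem norm_gw (α : ℂ) : ‖gw α‖ = Real.exp (-π * ‖α‖ ^ 2) := by
  rw [gw, Complex.norm_exp]
  congr 1
  rw [show (-π * (‖α‖ : ℂ) ^ 2 : ℂ) = ((-π * ‖α‖ ^ 2 : ℝ) : ℂ) by push_cast; ring,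
    Complex.ofReal_re]

/-- **the key bound** -/
theorem key_bound {ρ : ℝ} (hρ0 : 0 ≤ ρ) (hρ : ρ < 1) (R : ℝ) :
    ∃ c : ℝ, 0 < c ∧ ∃ C : ℝ, 0 < C ∧ ∀ z w p q : E n, ‖z‖ ^ 2 ≤ ρ → ‖w‖ ^ 2 ≤ ρ → ‖p‖ ≤ R →
      ‖q‖ ≤ R → ∀ (v : V1 n × W m) (α β : ℂ),
      ‖gw α * gw β * G v (pt z p α) (pt w q β)‖
        ≤ C * Real.exp (-c * nsq (uu v)) * (Real.exp (-c * ‖α‖ ^ 2) * Real.exp (-c * ‖β‖ ^ 2)) := by
  set η : ℝ := (1 - ρ) / 8 with hη
  have hη0 : 0 < η := by rw [hη]; linarith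
  have hη1 : η ≤ 1 / 8 := by rw [hη]; linarith
  have hρη : ρ = 1 - 8 * η := by rw [hη]; ring
  refine ⟨π * (η / 4), by positivity, Real.exp (π * (1 / 2 * (1 + 2 * η) * (2 * (1 + η⁻¹) * R ^ 2))),
    Real.exp_pos _, ?_⟩
  intro z w p q hz hw hp hq v α β
  rw [norm_mul, norm_mul, norm_gw, norm_gw, norm_G, ← Real.exp_add, ← Real.exp_add, ← Real.exp_add,
    ← Real.exp_add, ← Real.exp_add]
  refine Real.exp_le_exp.2 ?_
  have hπ := Real.pi_pos
  have hb := her_bound hη0 (pt z p α) (pt w q β) (uu v)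
  have hA := nsq_pt_le (m := m) hη0 z p α
  have hB := nsq_pt_le (m := m) hη0 w q β
  have hp2 : ‖p‖ ^ 2 ≤ R ^ 2 := pow_le_pow_left₀ (norm_nonneg _) hp 2
  have hq2 : ‖q‖ ^ 2 ≤ R ^ 2 := pow_le_pow_left₀ (norm_nonneg _) hq 2
  have hcoef : ∀ x : ℝ, x ≤ ρ → 1 / 2 * (1 + 2 * η) * (1 + (1 + η) * x) ≤ 1 - η := by
    intro x hx
    have h1 : 1 / 2 * (1 + 2 * η) * (1 + (1 + η) * x)
        ≤ 1 / 2 * (1 + 2 * η) * (1 + (1 + η) * ρ) := by
      have : (1 + η) * x ≤ (1 + η) * ρ := mul_le_mul_of_nonneg_left hx (by linarith)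
      have h2 : 0 ≤ 1 / 2 * (1 + 2 * η) := by linarith
      exact mul_le_mul_of_nonneg_left (by linarith) h2
    refine h1.trans ?_
    rw [hρη]
    nlinarith [mul_pos hη0 hη0, mul_nonneg hη0.le (by linarith : (0:ℝ) ≤ 1 / 8 - η),
      mul_nonneg (mul_pos hη0 hη0).le (by linarith : (0:ℝ) ≤ 1 / 8 - η)]
  have hcz := hcoef _ hz
  have hcw := hcoef _ hw
  have hα : 1 / 2 * (1 + 2 * η) * ((1 + (1 + η) * ‖z‖ ^ 2) * ‖α‖ ^ 2) ≤ (1 - η) * ‖α‖ ^ 2 := by
    have := mul_le_mul_of_nonneg_right hcz (sq_nonneg ‖α‖)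
    linarith
  have hβ : 1 / 2 * (1 + 2 * η) * ((1 + (1 + η) * ‖w‖ ^ 2) * ‖β‖ ^ 2) ≤ (1 - η) * ‖β‖ ^ 2 := by
    have := mul_le_mul_of_nonneg_right hcw (sq_nonneg ‖β‖)
    linarith
  have hinv : (0:ℝ) < 1 + η⁻¹ := by positivity
  have hP : (1 + η⁻¹) * ‖p‖ ^ 2 ≤ (1 + η⁻¹) * R ^ 2 := mul_le_mul_of_nonneg_left hp2 hinv.le
  have hQ : (1 + η⁻¹) * ‖q‖ ^ 2 ≤ (1 + η⁻¹) * R ^ 2 := mul_le_mul_of_nonneg_left hq2 hinv.le
  have hAB : 1 / 2 * (1 + 2 * η) * (nsq (pt z p α : Co n m) + nsq (pt w q β : Co n m))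
      ≤ (1 - η) * ‖α‖ ^ 2 + (1 - η) * ‖β‖ ^ 2
        + 1 / 2 * (1 + 2 * η) * (2 * (1 + η⁻¹) * R ^ 2) := by
    have h0 : 0 ≤ 1 / 2 * (1 + 2 * η) := by linarith
    have := mul_le_mul_of_nonneg_left (add_le_add (hA.trans (add_le_add_right hP _))
      (hB.trans (add_le_add_right hQ _))) h0
    linarith
  have hU : 1 / 2 * (1 + η)⁻¹ * nsq (uu v) ≤ (1 / 2 - η / 4) * nsq (uu v) := by
    refine mul_le_mul_of_nonneg_right ?_ (nsq_nonneg _)
    have h : (0:ℝ) < 1 + η := by linarith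
    rw [mul_inv_le_iff₀ h]
    nlinarith [mul_pos hη0 hη0]
  have hα2 := mul_nonneg hη0.le (sq_nonneg ‖α‖)
  have hβ2 := mul_nonneg hη0.le (sq_nonneg ‖β‖)
  have key : -‖α‖ ^ 2 + -‖β‖ ^ 2 + (-(nsq (uu v)) / 2
      + (her (pt z p α : Co n m) (pt w q β) - her (pt z p α : Co n m) (uu v)
        + her (uu v) (pt w q β)).re)
      ≤ 1 / 2 * (1 + 2 * η) * (2 * (1 + η⁻¹) * R ^ 2) + -(η / 4) * nsq (uu v)
        + (-(η / 4) * ‖α‖ ^ 2 + -(η / 4) * ‖β‖ ^ 2) := by
    linarith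
  have := mul_le_mul_of_nonneg_left key hπ.le
  linarith

/-! ### the double integral -/

theorem integrable_gauss_real {c : ℝ} (hc : 0 < c) :
    Integrable fun α : ℂ => Real.exp (-c * ‖α‖ ^ 2) := by
  have hs : (0:ℝ) < ((c / π : ℝ) : ℂ).re := by
    rw [Complex.ofReal_re]; positivity
  have h := (integrable_gauss1 hs 0 0).norm
  refine h.congr (Filter.Eventually.of_forall fun α => ?_)
  change ‖Complex.exp (π * (-((c / π : ℝ) : ℂ) * (‖α‖ : ℂ) ^ 2 + 0 * α + 0 * conj α))‖ = _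
  have e : (π * (-((c / π : ℝ) : ℂ) * (‖α‖ : ℂ) ^ 2 + 0 * α + 0 * conj α) : ℂ)
      = ((-c * ‖α‖ ^ 2 : ℝ) : ℂ) := by
    have hπ : (π : ℂ) ≠ 0 := by exact_mod_cast Real.pi_ne_zero
    push_cast
    field_simp
    ring
  rw [e, Complex.norm_exp, Complex.ofReal_re]

theorem continuous_pt (z p : E n) : Continuous (pt z p : ℂ → Co n m) := by
  unfold pt
  fun_prop

theorem continuous_her {X : Type*} [TopologicalSpace X] {f g : X → Co n m} (hf : Continuous f)
    (hg : Continuous g) : Continuous fun x => her (f x) (g x) := by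
  unfold her
  have h1 : Continuous fun x => (g x).1 := continuous_fst.comp hg
  have h2 : Continuous fun x => (g x).2.1 := continuous_fst.comp (continuous_snd.comp hg)
  have h3 : Continuous fun x => (g x).2.2 := continuous_snd.comp (continuous_snd.comp hg)
  have h4 : Continuous fun x => (f x).1 := continuous_fst.comp hf
  have h5 : Continuous fun x => (f x).2.1 := continuous_fst.comp (continuous_snd.comp hf)
  have h6 : Continuous fun x => (f x).2.2 := continuous_snd.comp (continuous_snd.comp hf)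
  exact ((h4.mul (Complex.continuous_conj.comp h1)).add (h2.inner h5)).add (h3.inner h6)

theorem continuous_G {X : Type*} [TopologicalSpace X] {f g : X → Co n m} (hf : Continuous f)
    (hg : Continuous g) (v : V1 n × W m) : Continuous fun x => G v (f x) (g x) := by
  unfold G
  refine Complex.continuous_exp.comp (continuous_const.mul ?_)
  exact ((continuous_const.add (continuous_her hf hg)).sub (continuous_her hf continuous_const)).add
    (continuous_her continuous_const hg)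

theorem continuous_gw : Continuous gw := by
  unfold gw
  refine Complex.continuous_exp.comp (continuous_const.mul ?_)
  exact (Complex.continuous_ofReal.comp continuous_norm).pow 2

theorem integrable_bound {c : ℝ} (hc : 0 < c) (K : ℝ) :
    Integrable (fun x : ℂ × ℂ =>
      K * (Real.exp (-c * ‖x.1‖ ^ 2) * Real.exp (-c * ‖x.2‖ ^ 2))) := by
  have := (integrable_gauss_real hc).mul_prod (integrable_gauss_real hc)
  exact this.const_mul K

theorem integrable_G (v : V1 n × W m) {z w : E n} (hz : z ∈ Ball n) (hw : w ∈ Ball n) (p q : E n) :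
    Integrable (fun x : ℂ × ℂ => gw x.1 * gw x.2 * G v (pt z p x.1) (pt w q x.2)) := by
  have hz' : ‖z‖ < 1 := mem_Ball.1 hz
  have hw' : ‖w‖ < 1 := mem_Ball.1 hw
  have hρ : max (‖z‖ ^ 2) (‖w‖ ^ 2) < 1 := by
    refine max_lt ?_ ?_
    · nlinarith [norm_nonneg z]
    · nlinarith [norm_nonneg w]
  obtain ⟨c, hc, C, hC, h⟩ := key_bound (n := n) (m := m) (ρ := max (‖z‖ ^ 2) (‖w‖ ^ 2))
    (le_max_of_le_left (sq_nonneg _)) hρ (max ‖p‖ ‖q‖)
  refine (integrable_bound hc (C * Real.exp (-c * nsq (uu v)))).mono' ?_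
    (Filter.Eventually.of_forall fun x => ?_)
  · refine Continuous.aestronglyMeasurable ?_
    refine ((continuous_gw.comp continuous_fst).mul (continuous_gw.comp continuous_snd)).mul ?_
    exact continuous_G ((continuous_pt z p).comp continuous_fst)
      ((continuous_pt w q).comp continuous_snd) v
  · exact h z w p q (le_max_left _ _) (le_max_right _ _) (le_max_left _ _) (le_max_right _ _) v _ _

theorem her_pt_pt (z p w q : E n) (α β : ℂ) : her (pt z p α : Co n m) (pt w q β)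
    = α * conj β + conj α * β * inner ℂ w z + β * inner ℂ w p + conj α * inner ℂ q z
      + inner ℂ q p := by
  simp only [her, pt, inner_add_left, inner_add_right, inner_smul_left, inner_smul_right,
    Complex.conj_conj, inner_zero_left, add_zero]
  ring

theorem her_pt_uu (z p : E n) (α : ℂ) (v : V1 n × W m) : her (pt z p α) (uu v)
    = α * v.1.2 + conj α * inner ℂ v.1.1 z + inner ℂ v.1.1 p := by
  simp only [her, pt, uu, inner_add_right, inner_smul_right, Complex.conj_conj, inner_zero_right,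
    add_zero]
  ring

theorem her_uu_pt (w q : E n) (β : ℂ) (v : V1 n × W m) : her (uu v) (pt w q β)
    = conj v.1.2 * conj β + β * inner ℂ w v.1.1 + inner ℂ q v.1.1 := by
  simp only [her, pt, uu, inner_add_left, inner_smul_left, Complex.conj_conj, inner_zero_left,
    add_zero]
  ring

theorem ss_re_pos {z w : E n} (hz : z ∈ Ball n) (hw : w ∈ Ball n) : 0 < (ss z w).re := by
  have hz' : ‖z‖ < 1 := mem_Ball.1 hz
  have hw' : ‖w‖ < 1 := mem_Ball.1 hw
  have h : ‖inner ℂ w z‖ < 1 := by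
    refine (norm_inner_le_norm w z).trans_lt ?_
    nlinarith [norm_nonneg z, norm_nonneg w]
  have h2 := (Complex.re_le_norm (inner ℂ w z)).trans_lt h
  simp only [ss, Complex.sub_re, Complex.one_re]
  linarith

theorem integral_G (v : V1 n × W m) {z w : E n} (hz : z ∈ Ball n) (hw : w ∈ Ball n) (p q : E n) :
    ∫ x : ℂ × ℂ, gw x.1 * gw x.2 * G v (pt z p x.1) (pt w q x.2) = psi2 v z p w q := by
  have hs := ss_re_pos hz hw
  have hs0 : ss z w ≠ 0 := by intro h; rw [h] at hs; simp at hs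
  rw [Measure.volume_eq_prod, integral_prod_symm _ (by
    have := integrable_G v hz hw p q
    rwa [Measure.volume_eq_prod] at this)]
  -- inner integral
  have h1 : ∀ β : ℂ, ∫ α : ℂ, gw α * gw β * G v (pt z p α) (pt w q β)
      = Complex.exp (π * (-(nsq (uu v) : ℂ) / 2 + inner ℂ q p - inner ℂ v.1.1 p
          + inner ℂ q v.1.1 - v.1.2 * (inner ℂ q z - inner ℂ v.1.1 z)))
        * Complex.exp (π * (-(ss z w) * (‖β‖ : ℂ) ^ 2
          + (inner ℂ w p + inner ℂ w v.1.1 - v.1.2 * inner ℂ w z) * β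
          + (inner ℂ q z - inner ℂ v.1.1 z + conj v.1.2) * conj β)) := by
    intro β
    have e : ∀ α : ℂ, gw α * gw β * G v (pt z p α) (pt w q β)
        = Complex.exp (π * (-(nsq (uu v) : ℂ) / 2 - (‖β‖ : ℂ) ^ 2 + β * inner ℂ w p + inner ℂ q p
            - inner ℂ v.1.1 p + conj v.1.2 * conj β + β * inner ℂ w v.1.1 + inner ℂ q v.1.1))
          * Complex.exp (π * (-1 * (‖α‖ : ℂ) ^ 2 + (conj β - v.1.2) * α
            + (β * inner ℂ w z + inner ℂ q z - inner ℂ v.1.1 z) * conj α)) := by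
      intro α
      rw [gw, gw, G, her_pt_pt, her_pt_uu, her_uu_pt, ← Complex.exp_add, ← Complex.exp_add,
        ← Complex.exp_add]
      congr 1
      ring
    simp only [e]
    rw [integral_const_mul, integral_gauss1 (by simp)]
    rw [inv_one, one_mul, ← Complex.exp_add, ← Complex.exp_add]
    congr 1
    have hββ : β * conj β = (‖β‖ : ℂ) ^ 2 := by
      rw [Complex.mul_conj, Complex.normSq_eq_norm_sq]; push_cast; rfl
    simp only [ss, div_one]
    linear_combination (π : ℂ) * inner ℂ w z * hββ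
  simp only [h1]
  rw [integral_const_mul, integral_gauss1 hs, psi2]
  rw [mul_left_comm, ← Complex.exp_add, mul_assoc]
  congr 1
  have hwt : ((wt v : ℝ) : ℂ) = Complex.exp (-(π / 2) * ((‖v.1.1‖ : ℂ) ^ 2 - (‖v.1.2‖ : ℂ) ^ 2
      + (‖v.2‖ : ℂ) ^ 2)) := by
    rw [wt]; push_cast; rfl
  rw [hwt, ← Complex.exp_add]
  congr 1
  have hvv : v.1.2 * conj v.1.2 = (‖v.1.2‖ : ℂ) ^ 2 := by
    rw [Complex.mul_conj, Complex.normSq_eq_norm_sq]; push_cast; rfl
  have hn : (nsq (uu v) : ℂ) = (‖v.1.2‖ : ℂ) ^ 2 + (‖v.1.1‖ : ℂ) ^ 2 + (‖v.2‖ : ℂ) ^ 2 := by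
    simp only [nsq, uu, Complex.norm_conj]; push_cast; rfl
  have hl1 : lin v.1 z = inner ℂ v.1.1 z - conj v.1.2 := rfl
  have hl2 : conj (lin v.1 w) = inner ℂ w v.1.1 - v.1.2 := by
    simp only [lin, map_sub, Complex.conj_conj, inner_conj_symm]
  have hss : ss z w = 1 - inner ℂ w z := rfl
  rw [hn, hl1, hl2]
  have hwz : (inner ℂ w z : ℂ) = 1 - ss z w := by rw [hss]; ring
  rw [hwz]
  field_simp
  linear_combination 2 * (ss z w) * hvv

end

end Crest.Agent.R272.Sup_528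
end

-- ▼ part R272/Sup2_528
section

/-!
R272, division E, road B (helper528), part 2: shifts and Fubini.
-/

set_option autoImplicit false

open scoped ComplexConjugate Topology Real
open MeasureTheory

namespace Crest.Agent.R272.Sup_528

open Crest.Agent.R272.EBase_641 Crest.Agent.R272.EBase2_641 Crest.Agent.R272.EThDefs_445

noncomputable section

variable {n m : ℕ}

/-! ### algebra of `her` -/

theorem her_add_left (A B C : Co n m) : her (A + B) C = her A C + her B C := by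
  simp only [her, Prod.fst_add, Prod.snd_add, inner_add_right]; ring

theorem her_add_right (A B C : Co n m) : her A (B + C) = her A B + her A C := by
  simp only [her, Prod.fst_add, Prod.snd_add, inner_add_left, map_add]; ring

theorem her_sub_left (A B C : Co n m) : her (A - B) C = her A C - her B C := by
  simp only [her, Prod.fst_sub, Prod.snd_sub, inner_sub_right]; ring

theorem her_sub_right (A B C : Co n m) : her A (B - C) = her A B - her A C := by
  simp only [her, Prod.fst_sub, Prod.snd_sub, inner_sub_left, map_sub]; ring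

theorem her_conj (A B : Co n m) : conj (her A B) = her B A := by
  simp only [her, map_add, map_mul, Complex.conj_conj, inner_conj_symm]; ring

theorem her_self (A : Co n m) : her A A = (nsq A : ℂ) := by
  simp only [her, nsq]
  rw [Complex.mul_conj, Complex.normSq_eq_norm_sq, inner_self_eq_norm_sq_to_K,
    inner_self_eq_norm_sq_to_K]
  push_cast; rfl

theorem uu_add (v w : V1 n × W m) : uu (v + w) = uu v + uu w := by
  simp [uu, map_add]

theorem uu_sub (v w : V1 n × W m) : uu (v - w) = uu v - uu w := by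
  simp [uu, map_sub]

theorem ee_eq (v w : V1 n × W m) : ee v w = (her (uu v) (uu w)).im := by
  simp only [ee, hh, her, uu, Complex.conj_conj, Complex.add_im, Complex.sub_im]
  have : (conj v.1.2 * w.1.2).im = -(v.1.2 * conj w.1.2).im := by
    rw [← Complex.conj_im]; simp
  rw [this]; ring

theorem I_ee (v w : V1 n × W m) : Complex.I * ((ee v w : ℝ) : ℂ)
    = (her (uu v) (uu w) - her (uu w) (uu v)) / 2 := by
  rw [ee_eq, ← her_conj (uu v) (uu w)]
  apply Complex.ext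
  · simp
  · simp

theorem norm_sq_le_nsq (v : V1 n × W m) : ‖v‖ ^ 2 ≤ nsq (uu v) := by
  have h : ‖v‖ = max (max ‖v.1.1‖ ‖v.1.2‖) ‖v.2‖ := rfl
  have h1 : nsq (uu v) = ‖v.1.2‖ ^ 2 + ‖v.1.1‖ ^ 2 + ‖v.2‖ ^ 2 := by simp [nsq, uu]
  rw [h, h1]
  rcases max_choice (max ‖v.1.1‖ ‖v.1.2‖) ‖v.2‖ with e | e
  · rw [e]
    rcases max_choice ‖v.1.1‖ ‖v.1.2‖ with e | e <;> rw [e] <;>
      nlinarith [sq_nonneg ‖v.1.1‖, sq_nonneg ‖v.1.2‖, sq_nonneg ‖v.2‖]
  · rw [e]; nlinarith [sq_nonneg ‖v.1.1‖, sq_nonneg ‖v.1.2‖, sq_nonneg ‖v.2‖]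

/-! ### shifts -/

/-- the factor of `π(a) e_A = Ea a A e_{A + uu a}` -/
def Ea (a : V1 n × W m) (A : Co n m) : ℂ :=
  Complex.exp (π * (-(nsq (uu a) : ℂ) / 2 - her A (uu a)))

theorem ph_add (x y : ℝ) : ph (x + y) = ph x * ph y := by
  simp only [ph]
  rw [← Complex.exp_add]
  congr 1
  push_cast; ring

theorem ph_neg_mul (x : ℝ) : ph (-x) * ph x = 1 := by
  rw [← ph_add, neg_add_cancel]; simp [ph]

theorem ph_ne (x : ℝ) : ph x ≠ 0 := Complex.exp_ne_zero _

theorem norm_ph (x : ℝ) : ‖ph x‖ = 1 := by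
  rw [ph, show (Real.pi * Complex.I * (x : ℂ) : ℂ) = ((π * x : ℝ) : ℂ) * Complex.I by
    push_cast; ring]
  exact Complex.norm_exp_ofReal_mul_I _

theorem ee_add_right (v a b : V1 n × W m) : ee v (a + b) = ee v a + ee v b := by
  rw [ee_eq, ee_eq, ee_eq, uu_add, her_add_right, Complex.add_im]

theorem ee_add_left (v a b : V1 n × W m) : ee (a + b) v = ee a v + ee b v := by
  rw [ee_eq, ee_eq, ee_eq, uu_add, her_add_left, Complex.add_im]




theorem ee_symm (v w : V1 n × W m) : ee v w = -ee w v := by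
  rw [ee_eq, ee_eq, ← her_conj, Complex.conj_im]

/-- `⟨π(l) π(a) e_A, π(b) e_B⟩` in two ways -/
theorem G_shift (v a b : V1 n × W m) (A B : Co n m) :
    G v (A + uu a) (B + uu b) * Ea a A * conj (Ea b B)
      = ph (ee v (a + b)) * ph (-ee b a) * G (v + a - b) A B := by
  have h1 := I_ee v a
  have h2 := I_ee v b
  have h3 := I_ee b a
  have e1 : conj (Ea b B) = Complex.exp (π * (-(nsq (uu b) : ℂ) / 2 - her (uu b) B)) := by
    rw [Ea, ← Complex.exp_conj]
    congr 1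
    simp only [map_mul, map_sub, map_div₀, map_neg, Complex.conj_ofReal, her_conj, map_ofNat]
  rw [e1, G, Ea, G, ph, ph, ← Complex.exp_add, ← Complex.exp_add, ← Complex.exp_add,
    ← Complex.exp_add]
  congr 1
  have n1 : ∀ x : V1 n × W m, (nsq (uu x) : ℂ) = her (uu x) (uu x) := fun x => (her_self _).symm
  rw [n1, n1, n1, n1, uu_sub, uu_add, ee_add_right]
  simp only [her_add_left, her_add_right, her_sub_left, her_sub_right]
  push_cast
  linear_combination (-(π : ℂ)) * h1 - (π : ℂ) * h2 + (π : ℂ) * h3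

/-! ### summability -/

variable {L : AddSubgroup (V1 n × W m)}

/-- the finiteness hypothesis of `T2` -/
abbrev Disc (L : AddSubgroup (V1 n × W m)) : Prop :=
  ∀ r : ℝ, {v : V1 n × W m | v ∈ L ∧ ‖v‖ ≤ r}.Finite

theorem summable_lat (hL : Disc L) {c : ℝ} (hc : 0 < c) (N : ℕ) (x : V1 n × W m) :
    Summable fun l : L => (1 + ‖(l : V1 n × W m) + x‖) ^ N
      * Real.exp (-c * nsq (uu ((l : V1 n × W m) + x))) := by
  have h := Lat_368.summable_gauss_of_finite (W := V1 n × W m) L (hL 1) hc N x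
    (fun l : L => (l : V1 n × W m) + x) (fun a b hab => Subtype.ext (add_right_cancel hab))
    (fun l => by simp)
  refine Summable.of_nonneg_of_le (fun l => by positivity) (fun l => ?_) h
  refine mul_le_mul_of_nonneg_left (Real.exp_le_exp.2 ?_) (by positivity)
  have := norm_sq_le_nsq ((l : V1 n × W m) + x)
  nlinarith

theorem summable_lat0 (hL : Disc L) {c : ℝ} (hc : 0 < c) (x : V1 n × W m) :
    Summable fun l : L => Real.exp (-c * nsq (uu ((l : V1 n × W m) + x))) := by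
  simpa using summable_lat hL hc 0 x

theorem countable_lat (hL : Disc L) : Countable L := by
  have h : (⋃ k : ℕ, {v : V1 n × W m | v ∈ L ∧ ‖v‖ ≤ (k : ℝ)}).Countable :=
    Set.countable_iUnion fun k => (hL k).countable
  have h2 : ((L : Set (V1 n × W m))).Countable := by
    refine h.mono fun v hv => ?_
    obtain ⟨k, hk⟩ := exists_nat_ge ‖v‖
    exact Set.mem_iUnion.2 ⟨k, hv, hk⟩
  exact h2.to_subtype

/-- uniform Gaussian bound of the generating kernel -/
theorem psi2_bound {z w : E n} (hz : z ∈ Ball n) (hw : w ∈ Ball n) (R : ℝ) :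
    ∃ c : ℝ, 0 < c ∧ ∃ C : ℝ, 0 < C ∧ ∀ p q : E n, ‖p‖ ≤ R → ‖q‖ ≤ R → ∀ v : V1 n × W m,
      (∫ x : ℂ × ℂ, ‖gw x.1 * gw x.2 * G v (pt z p x.1) (pt w q x.2)‖)
        ≤ C * Real.exp (-c * nsq (uu v)) := by
  have hz' : ‖z‖ < 1 := mem_Ball.1 hz
  have hw' : ‖w‖ < 1 := mem_Ball.1 hw
  have hρ : max (‖z‖ ^ 2) (‖w‖ ^ 2) < 1 := by
    refine max_lt ?_ ?_
    · nlinarith [norm_nonneg z]
    · nlinarith [norm_nonneg w]
  obtain ⟨c, hc, C, hC, h⟩ := key_bound (n := n) (m := m) (ρ := max (‖z‖ ^ 2) (‖w‖ ^ 2))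
    (le_max_of_le_left (sq_nonneg _)) hρ R
  set J : ℝ := ∫ x : ℂ × ℂ, Real.exp (-c * ‖x.1‖ ^ 2) * Real.exp (-c * ‖x.2‖ ^ 2) with hJ
  have hJ0 : 0 ≤ J := integral_nonneg fun x => by positivity
  refine ⟨c, hc, C * (J + 1), by positivity, fun p q hp hq v => ?_⟩
  have h1 : (∫ x : ℂ × ℂ, ‖gw x.1 * gw x.2 * G v (pt z p x.1) (pt w q x.2)‖)
      ≤ ∫ x : ℂ × ℂ, C * Real.exp (-c * nsq (uu v))
        * (Real.exp (-c * ‖x.1‖ ^ 2) * Real.exp (-c * ‖x.2‖ ^ 2)) := by
    refine integral_mono (integrable_G v hz hw p q).norm (integrable_bound hc _) fun x => ?_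
    exact h z w p q (le_max_left _ _) (le_max_right _ _) hp hq v _ _
  rw [integral_const_mul] at h1
  refine h1.trans ?_
  have : 0 ≤ C * Real.exp (-c * nsq (uu v)) := by positivity
  nlinarith

theorem norm_psi2_le {z w : E n} (hz : z ∈ Ball n) (hw : w ∈ Ball n) (R : ℝ) :
    ∃ c : ℝ, 0 < c ∧ ∃ C : ℝ, 0 < C ∧ ∀ p q : E n, ‖p‖ ≤ R → ‖q‖ ≤ R → ∀ v : V1 n × W m,
      ‖psi2 v z p w q‖ ≤ C * Real.exp (-c * nsq (uu v)) := by
  obtain ⟨c, hc, C, hC, h⟩ := psi2_bound (m := m) hz hw R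
  refine ⟨c, hc, C, hC, fun p q hp hq v => ?_⟩
  rw [← integral_G v hz hw p q]
  exact (norm_integral_le_integral_norm _).trans (h p q hp hq v)

/-! ### Fubini -/

theorem hasSum_of_eq {ι : Type*} {f g : ι → ℂ} {a b : ℂ} (h : HasSum f a) (hf : ∀ i, g i = f i)
    (ha : b = a) : HasSum g b := by
  rw [ha, show g = f from funext hf]
  exact h

/-- the theta functional on `π(a) vac_{z,p}` -/
def tt (T : Co n m → ℂ) (a : V1 n × W m) (z p : E n) : ℂ :=
  ∫ α : ℂ, gw α * (Ea a (pt z p α) * T (pt z p α + uu a))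

theorem conj_gw (α : ℂ) : conj (gw α) = gw α := by
  rw [gw, ← Complex.exp_conj]
  congr 1
  simp

theorem hasSum_shift (K : Core L) (a b : V1 n × W m) (A B : Co n m) :
    HasSum (fun l : L => K.ε l * ph (ee (l : V1 n × W m) (a + b))
        * G ((l : V1 n × W m) + a - b) A B)
      (ph (ee b a) * ((Ea a A * K.T (A + uu a)) * conj (Ea b B * K.T (B + uu b)))) := by
  have h := (K.core (A + uu a) (B + uu b)).mul_left (ph (ee b a) * (Ea a A * conj (Ea b B)))
  refine hasSum_of_eq h (fun l => ?_) ?_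
  · have := G_shift (l : V1 n × W m) a b A B
    have h2 : ph (ee b a) * ph (-ee b a) = 1 := by rw [mul_comm]; exact ph_neg_mul _
    have h3 : ph (ee b a) * (Ea a A * conj (Ea b B)) * (K.ε l * G l (A + uu a) (B + uu b))
        = K.ε l * ph (ee b a) * (G l (A + uu a) (B + uu b) * Ea a A * conj (Ea b B)) := by ring
    rw [h3, this]
    linear_combination (-(K.ε l) * ph (ee (l : V1 n × W m) (a + b))
      * G ((l : V1 n × W m) + a - b) A B) * h2
  · rw [map_mul]; ring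

theorem norm_ε (K : Core L) (l : L) : ‖K.ε l‖ = 1 := by
  rcases K.ε_pm l l.2 with h | h <;> rw [h] <;> simp

/-- **the generating rank one identity** -/
theorem hasSum_psi2 (hL : Disc L) (K : Core L) (a b : V1 n × W m) {z w : E n} (hz : z ∈ Ball n)
    (hw : w ∈ Ball n) (p q : E n) :
    HasSum (fun l : L => K.ε l * ph (ee (l : V1 n × W m) (a + b))
        * psi2 ((l : V1 n × W m) + a - b) z p w q)
      (ph (ee b a) * (tt K.T a z p * conj (tt K.T b w q))) := by
  have := countable_lat hL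
  set F : L → ℂ × ℂ → ℂ := fun l x => (K.ε l * ph (ee (l : V1 n × W m) (a + b)))
    * (gw x.1 * gw x.2 * G ((l : V1 n × W m) + a - b) (pt z p x.1) (pt w q x.2)) with hF
  have hint : ∀ l, Integrable (F l) := fun l => (integrable_G _ hz hw p q).const_mul _
  have hnorm : ∀ l, (∫ x, ‖F l x‖) = ∫ x : ℂ × ℂ,
      ‖gw x.1 * gw x.2 * G ((l : V1 n × W m) + a - b) (pt z p x.1) (pt w q x.2)‖ := by
    intro l
    refine integral_congr_ae (Filter.Eventually.of_forall fun x => ?_)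
    simp only [hF, norm_mul, norm_ε, norm_ph, one_mul]
  have hsum : Summable fun l => ∫ x, ‖F l x‖ := by
    obtain ⟨c, hc, C, hC, h⟩ := psi2_bound (m := m) hz hw (max ‖p‖ ‖q‖)
    have h1 := (summable_lat0 hL hc (a - b)).mul_left C
    refine Summable.of_nonneg_of_le (fun l => integral_nonneg fun x => norm_nonneg _)
      (fun l => ?_) h1
    rw [hnorm l]
    have := h p q (le_max_left _ _) (le_max_right _ _) ((l : V1 n × W m) + a - b)
    rwa [add_sub_assoc] at this ⊢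
  have h := hasSum_integral_of_summable_integral_norm hint hsum
  refine hasSum_of_eq h (fun l => ?_) ?_
  · simp only [hF]
    rw [integral_const_mul, integral_G _ hz hw]
  · have hpt : ∀ x : ℂ × ℂ, ∑' l, F l x = ph (ee b a)
        * ((gw x.1 * (Ea a (pt z p x.1) * K.T (pt z p x.1 + uu a)))
          * conj (gw x.2 * (Ea b (pt w q x.2) * K.T (pt w q x.2 + uu b)))) := by
      intro x
      have h1 := (hasSum_shift K a b (pt z p x.1) (pt w q x.2)).mul_left (gw x.1 * gw x.2)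
      have h2 : HasSum (fun l => F l x) _ :=
        hasSum_of_eq h1 (fun l => by simp only [hF]; ring) rfl
      rw [h2.tsum_eq, map_mul (starRingEnd ℂ) (gw x.2), conj_gw]
      ring
    simp only [hpt]
    rw [integral_const_mul, Measure.volume_eq_prod]
    have hp := integral_prod_mul (μ := (volume : Measure ℂ)) (ν := (volume : Measure ℂ))
      (fun α : ℂ => gw α * (Ea a (pt z p α) * K.T (pt z p α + uu a)))
      (fun β : ℂ => conj (gw β * (Ea b (pt w q β) * K.T (pt w q β + uu b))))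
    rw [hp, integral_conj, tt, tt]

end

end Crest.Agent.R272.Sup_528
end

-- ▼ part R272/Sup3_528
section

/-!
R272, division E, road B (helper528), part 3: `Core L → TData L`.
-/

set_option autoImplicit false

open scoped ComplexConjugate Topology Real
open MeasureTheory

namespace Crest.Agent.R272.Sup_528

open Crest.Agent.R272.EBase_641 Crest.Agent.R272.EBase2_641 Crest.Agent.R272.EThDefs_445

noncomputable section

variable {n m : ℕ} {L : AddSubgroup (V1 n × W m)}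

/-! ### non-vanishing -/

theorem zero_mem_Ball : (0 : E n) ∈ Ball n := by simp [Ball]

theorem psi2_base (v : V1 n × W m) (z p : E n) : psi2 v z p 0 0
    = Complex.exp (-(π / 2) * (nsq (uu v) : ℂ)) * Complex.exp (π * (v.1.2 * inner ℂ v.1.1 z))
      * Complex.exp (-(π * inner ℂ v.1.1 p)) := by
  have hwt : ((wt v : ℝ) : ℂ) = Complex.exp (-(π / 2) * ((‖v.1.1‖ : ℂ) ^ 2 - (‖v.1.2‖ : ℂ) ^ 2
      + (‖v.2‖ : ℂ) ^ 2)) := by
    rw [wt]; push_cast; rfl
  have hvv : v.1.2 * conj v.1.2 = (‖v.1.2‖ : ℂ) ^ 2 := by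
    rw [Complex.mul_conj, Complex.normSq_eq_norm_sq]; push_cast; rfl
  have hn : (nsq (uu v) : ℂ) = (‖v.1.2‖ : ℂ) ^ 2 + (‖v.1.1‖ : ℂ) ^ 2 + (‖v.2‖ : ℂ) ^ 2 := by
    simp only [nsq, uu, Complex.norm_conj]; push_cast; rfl
  rw [psi2, hwt, hn, ← Complex.exp_add, ← Complex.exp_add]
  simp only [ss, lin, inner_zero_left, inner_zero_right, sub_zero, inv_one, one_mul, zero_sub,
    zero_add, add_zero, div_one, map_neg, Complex.conj_conj]
  rw [← Complex.exp_add]
  congr 1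
  linear_combination (-(π : ℂ)) * hvv

theorem exists_tt_ne (hL : Disc L) (K : Core L) : ∃ b, tt K.T b 0 0 ≠ 0 := by
  obtain ⟨A, hA⟩ := K.T_ne
  refine ⟨((A.2.1, conj A.1), A.2.2), fun h0 => ?_⟩
  set a : V1 n × W m := ((A.2.1, conj A.1), A.2.2) with ha
  have hu : uu a = A := by simp [uu, ha]
  have h1 := hasSum_psi2 hL K a a (zero_mem_Ball (n := n)) zero_mem_Ball 0 0
  have h2 := hasSum_shift K a a 0 0
  have h3 : ∀ v : V1 n × W m, psi2 v 0 0 0 0 = G v 0 0 := by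
    intro v
    rw [psi2_base, G]
    simp only [inner_zero_right, mul_zero, Complex.exp_zero, mul_one, neg_zero]
    congr 1
    simp only [her, Prod.fst_zero, Prod.snd_zero, inner_zero_left, inner_zero_right, map_zero,
      mul_zero, zero_mul]
    ring
  have h4 := h1.unique (hasSum_of_eq h2 (fun l => by rw [h3]) rfl)
  rw [h0, zero_mul, mul_zero, zero_add, hu] at h4
  have h5 : Ea a 0 * K.T A ≠ 0 := mul_ne_zero (Complex.exp_ne_zero _) hA
  have h6 : ph (ee a a) * (Ea a 0 * K.T A * conj (Ea a 0 * K.T A)) ≠ 0 :=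
    mul_ne_zero (ph_ne _) (mul_ne_zero h5 ((map_ne_zero _).2 h5))
  exact h6 h4.symm

/-! ### the generic series -/

/-- the normalised series with kernel `κ` -/
def Ser (K : Core L) (b0 : V1 n × W m) (κ : V1 n × W m → ℂ) (a : V1 n × W m) : ℂ :=
  (conj (tt K.T b0 0 0))⁻¹ * ph (-ee b0 a) * ∑' l : L, K.ε l * ph (ee (l : V1 n × W m) (a + b0))
    * κ ((l : V1 n × W m) + a - b0)

theorem tt_eq (hL : Disc L) (K : Core L) {b0 : V1 n × W m} (hb : tt K.T b0 0 0 ≠ 0)
    (a : V1 n × W m) {z : E n} (hz : z ∈ Ball n) (p : E n) :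
    tt K.T a z p = Ser K b0 (fun v => psi2 v z p 0 0) a := by
  have h := (hasSum_psi2 hL K a b0 hz (zero_mem_Ball (n := n)) p 0).tsum_eq
  rw [Ser, h]
  have h1 := ph_neg_mul (ee b0 a)
  have h2 : conj (tt K.T b0 0 0) ≠ 0 := (map_ne_zero _).2 hb
  field_simp
  rw [mul_assoc, h1, mul_one]

theorem Ser_add (K : Core L) (b0 : V1 n × W m) (κ : V1 n × W m → ℂ) {l0 : V1 n × W m}
    (hl0 : l0 ∈ L) (a : V1 n × W m) :
    Ser K b0 κ (l0 + a) = K.ε l0 * ph (-ee l0 a) * Ser K b0 κ a := by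
  have hε : K.ε l0 * K.ε l0 = 1 := by
    rcases K.ε_pm l0 hl0 with h | h <;> rw [h] <;> norm_num
  have h1 : ∀ l : L, K.ε l * ph (ee (l : V1 n × W m) (l0 + a + b0))
      * κ ((l : V1 n × W m) + (l0 + a) - b0)
      = K.ε l0 * ph (-ee l0 (a + b0)) * (K.ε (l + ⟨l0, hl0⟩ : L)
        * ph (ee ((l + ⟨l0, hl0⟩ : L) : V1 n × W m) (a + b0))
        * κ (((l + ⟨l0, hl0⟩ : L) : V1 n × W m) + a - b0)) := by
    intro l
    have e1 : (((l + ⟨l0, hl0⟩ : L) : V1 n × W m)) = (l : V1 n × W m) + l0 := rfl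
    have e2 : K.ε ((l : V1 n × W m) + l0) = K.ε l * K.ε l0 * ph (ee (l : V1 n × W m) l0) :=
      K.ε_add l l.2 l0 hl0
    have e3 : (l : V1 n × W m) + (l0 + a) - b0 = (l : V1 n × W m) + l0 + a - b0 := by abel
    have e4 : ee (l : V1 n × W m) (l0 + a + b0) = ee (l : V1 n × W m) l0
        + ee (l : V1 n × W m) (a + b0) := by rw [← ee_add_right]; congr 1; abel
    rw [e1, e2, e3, e4, ee_add_left, ph_add, ph_add]
    have h5 := ph_neg_mul (ee l0 (a + b0))
    linear_combination (-(K.ε l) * ph (ee (l : V1 n × W m) l0)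
        * ph (ee (l : V1 n × W m) (a + b0)) * κ ((l : V1 n × W m) + l0 + a - b0)) *
        (ph (-ee l0 (a + b0)) * ph (ee l0 (a + b0)) * hε + h5)
  have h2 := (Equiv.addRight (⟨l0, hl0⟩ : L)).tsum_eq (fun l : L => K.ε l
        * ph (ee (l : V1 n × W m) (a + b0)) * κ ((l : V1 n × W m) + a - b0))
  simp only [Equiv.coe_addRight] at h2
  rw [Ser, Ser, ← h2, tsum_congr h1, tsum_mul_left]
  have e5 : ph (-ee b0 (l0 + a)) * ph (-ee l0 (a + b0)) = ph (-ee b0 a) * ph (-ee l0 a) := by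
    rw [← ph_add, ← ph_add, ee_add_right, ee_add_right, ee_symm b0 l0]
    congr 1; ring
  linear_combination ((conj (tt K.T b0 0 0))⁻¹ * K.ε l0 * ∑' l : L, (K.ε (l + ⟨l0, hl0⟩ : L)
        * ph (ee ((l + ⟨l0, hl0⟩ : L) : V1 n × W m) (a + b0))
        * κ (((l + ⟨l0, hl0⟩ : L) : V1 n × W m) + a - b0))) * e5

/-! ### holomorphy of the series -/

theorem exp_bound {r : ℝ} (v : V1 n × W m) {z : E n} (hz : ‖z‖ ≤ r) :
    ‖Complex.exp (-(π / 2) * (nsq (uu v) : ℂ)) * Complex.exp (π * (v.1.2 * inner ℂ v.1.1 z))‖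
      ≤ Real.exp (-(π / 2 * (1 - r)) * nsq (uu v)) := by
  rw [← Complex.exp_add, Complex.norm_exp]
  refine Real.exp_le_exp.2 ?_
  have hr0 : 0 ≤ r := (norm_nonneg z).trans hz
  have h1 : (v.1.2 * inner ℂ v.1.1 z : ℂ).re ≤ ‖v.1.2‖ * (‖v.1.1‖ * r) := by
    refine (Complex.re_le_norm _).trans ?_
    rw [norm_mul]
    refine mul_le_mul_of_nonneg_left ((norm_inner_le_norm _ _).trans ?_) (norm_nonneg _)
    exact mul_le_mul_of_nonneg_left hz (norm_nonneg _)
  have hn : nsq (uu v) = ‖v.1.2‖ ^ 2 + ‖v.1.1‖ ^ 2 + ‖v.2‖ ^ 2 := by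
    simp only [nsq, uu, Complex.norm_conj]
  have h2 : ‖v.1.2‖ * (‖v.1.1‖ * r) ≤ r / 2 * nsq (uu v) := by
    rw [hn]
    nlinarith [sq_nonneg (‖v.1.2‖ - ‖v.1.1‖), sq_nonneg ‖v.2‖,
      mul_nonneg hr0 (sq_nonneg (‖v.1.2‖ - ‖v.1.1‖)), mul_nonneg hr0 (sq_nonneg ‖v.2‖)]
  have h3 : (-(π / 2) * (nsq (uu v) : ℂ) + π * (v.1.2 * inner ℂ v.1.1 z) : ℂ).re
      = -(π / 2) * nsq (uu v) + π * (v.1.2 * inner ℂ v.1.1 z : ℂ).re := by
    rw [Complex.add_re, Complex.re_ofReal_mul]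
    congr 1
    have : (-(π / 2) * (nsq (uu v) : ℂ) : ℂ) = ((-(π / 2) * nsq (uu v) : ℝ) : ℂ) := by
      push_cast; ring
    rw [this, Complex.ofReal_re]
  rw [h3]
  have h4 := mul_le_mul_of_nonneg_left (h1.trans h2) Real.pi_pos.le
  linarith

theorem norm_coe_le (v : V1 n × W m) : ‖v.1.1‖ ≤ ‖v‖ ∧ ‖v.1.2‖ ≤ ‖v‖ := by
  have h : ‖v‖ = max (max ‖v.1.1‖ ‖v.1.2‖) ‖v.2‖ := rfl
  rw [h]
  exact ⟨(le_max_left _ _).trans (le_max_left _ _), (le_max_right _ _).trans (le_max_left _ _)⟩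

/-- termwise differentiation of `Ser` -/
theorem hasFDerivAt_Ser (hL : Disc L) (K : Core L) (b0 a : V1 n × W m)
    {f : V1 n × W m → E n → ℂ} {f' : V1 n × W m → E n → (E n →L[ℂ] ℂ)}
    (hf : ∀ v z, HasFDerivAt (f v) (f' v z) z) {N : ℕ}
    (hb : ∀ r < 1, ∃ c : ℝ, 0 < c ∧ ∃ C : ℝ, ∀ v z, ‖z‖ ≤ r →
      ‖f' v z‖ ≤ C * ((1 + ‖v‖) ^ N * Real.exp (-c * nsq (uu v))))
    (h0 : ∃ c : ℝ, 0 < c ∧ ∃ C : ℝ, ∀ v, ‖f v 0‖ ≤ C * Real.exp (-c * nsq (uu v)))
    {z : E n} (hz : z ∈ Ball n) :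
    (Summable fun l : L => (K.ε l * ph (ee (l : V1 n × W m) (a + b0)))
        • f' ((l : V1 n × W m) + a - b0) z) ∧
    HasFDerivAt (fun z => Ser K b0 (fun v => f v z) a)
      (((conj (tt K.T b0 0 0))⁻¹ * ph (-ee b0 a)) • ∑' l : L,
        (K.ε l * ph (ee (l : V1 n × W m) (a + b0))) • f' ((l : V1 n × W m) + a - b0) z) z := by
  obtain ⟨r, hr1, hr2⟩ := exists_between (mem_Ball.1 hz)
  obtain ⟨c, hc, C, hC⟩ := hb r hr2
  have hsum := (summable_lat hL hc N (a - b0)).mul_left C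
  have hbd : ∀ l : L, ∀ x ∈ Metric.ball (0 : E n) r,
      ‖(K.ε l * ph (ee (l : V1 n × W m) (a + b0))) • f' ((l : V1 n × W m) + a - b0) x‖
        ≤ C * ((1 + ‖(l : V1 n × W m) + (a - b0)‖) ^ N
          * Real.exp (-c * nsq (uu ((l : V1 n × W m) + (a - b0))))) := by
    intro l x hx
    rw [norm_smul, norm_mul, norm_ε, norm_ph, one_mul, one_mul, add_sub_assoc]
    exact hC _ _ (by simpa using (mem_ball_zero_iff.1 hx).le)
  have hzr : z ∈ Metric.ball (0 : E n) r := by simpa using hr1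
  refine ⟨Summable.of_norm_bounded hsum fun l => hbd l z hzr, ?_⟩
  have hmain := hasFDerivAt_tsum_of_isPreconnected (𝕜 := ℂ) hsum
    (f := fun (l : L) x => (K.ε l * ph (ee (l : V1 n × W m) (a + b0)))
      * f ((l : V1 n × W m) + a - b0) x)
    (f' := fun (l : L) x => (K.ε l * ph (ee (l : V1 n × W m) (a + b0)))
      • f' ((l : V1 n × W m) + a - b0) x)
    (x₀ := 0) (x := z)
    (Metric.isOpen_ball (x := (0 : E n)) (ε := r)) ?_ ?_ hbd ?_ ?_ hzr
  · exact hmain.const_mul _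
  · let _ : NormedSpace ℝ (E n) := NormedSpace.complexToReal
    exact (convex_ball (0 : E n) r).isPreconnected
  · intro l x _
    exact (hf _ x).const_mul _
  · rw [Metric.mem_ball, dist_self]
    exact (norm_nonneg z).trans_lt hr1
  · obtain ⟨c, hc, C, hC⟩ := h0
    refine Summable.of_norm_bounded ((summable_lat0 hL hc (a - b0)).mul_left C) fun l => ?_
    rw [norm_mul, norm_mul, norm_ε, norm_ph, one_mul, one_mul, add_sub_assoc]
    exact hC _

end

end Crest.Agent.R272.Sup_528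
end

-- ▼ part R272/Sup4_528

/-!
R272, division E, road B (helper528), part 4: derivatives, primitive, `Core L → TData L`.
-/

set_option autoImplicit false

open scoped ComplexConjugate Topology Real
open MeasureTheory

namespace Crest.Agent.R272.Sup_528

open Crest.Agent.R272.EBase_641 Crest.Agent.R272.EBase2_641 Crest.Agent.R272.EThDefs_445

noncomputable section

variable {n m : ℕ} {L : AddSubgroup (V1 n × W m)}

/-! ### the kernel of the primitive -/

/-- `(e^{xy} - 1)/x` -/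
def E1 (x y : ℂ) : ℂ := if x = 0 then y else (Complex.exp (x * y) - 1) / x

@[simp] theorem E1_zero (x : ℂ) : E1 x 0 = 0 := by
  simp only [E1]; split_ifs <;> simp

theorem hasDerivAt_E1 (x y : ℂ) : HasDerivAt (E1 x) (Complex.exp (x * y)) y := by
  by_cases hx : x = 0
  · subst hx
    have : E1 0 = id := by funext y; simp [E1]
    rw [this]; simpa using hasDerivAt_id y
  · have : E1 x = fun y => (Complex.exp (x * y) - 1) / x := by funext y; simp [E1, hx]
    rw [this]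
    have h := (((hasDerivAt_id y).const_mul x).cexp.sub_const 1).div_const x
    simp only [id_eq, mul_one] at h
    have e : Complex.exp (x * y) * x / x = Complex.exp (x * y) := by field_simp
    rw [e] at h
    exact h

/-- kernel of the primitive at the base point `w = 0` -/
def kA (v : V1 n × W m) (z : E n) : ℂ :=
  Complex.exp (-(π / 2) * (nsq (uu v) : ℂ)) * E1 (π * v.1.2) (inner ℂ v.1.1 z)

/-- `z ↦ ⟨z, v'⟩` as a continuous linear map -/
def lv (v : V1 n × W m) : E n →L[ℂ] ℂ := innerSL ℂ v.1.1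

theorem lv_apply (v : V1 n × W m) (z : E n) : lv v z = inner ℂ v.1.1 z := rfl

theorem norm_lv (v : V1 n × W m) : ‖lv v‖ = ‖v.1.1‖ := innerSL_apply_norm ℂ v.1.1

/-- the common exponential factor -/
def ex (v : V1 n × W m) (z : E n) : ℂ :=
  Complex.exp (-(π / 2) * (nsq (uu v) : ℂ)) * Complex.exp (π * (v.1.2 * inner ℂ v.1.1 z))

theorem hasFDerivAt_kA (v : V1 n × W m) (z : E n) : HasFDerivAt (kA v) (ex v z • lv v) z := by
  have h1 : HasFDerivAt (fun z : E n => (inner ℂ v.1.1 z : ℂ)) (lv v) z := (lv v).hasFDerivAt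
  have h2 := ((hasDerivAt_E1 (π * v.1.2) (inner ℂ v.1.1 z)).comp_hasFDerivAt z h1).const_mul
    (Complex.exp (-(π / 2) * (nsq (uu v) : ℂ)))
  have h3 : ex v z • lv v = Complex.exp (-(π / 2) * (nsq (uu v) : ℂ)) •
      Complex.exp (π * v.1.2 * inner ℂ v.1.1 z) • lv v := by
    rw [smul_smul, ex, mul_assoc]
  rw [h3]
  exact h2

theorem hasFDerivAt_ex (v : V1 n × W m) (z : E n) :
    HasFDerivAt (ex v) ((ex v z * (π * v.1.2)) • lv v) z := by
  have h1 : HasFDerivAt (fun z : E n => (inner ℂ v.1.1 z : ℂ)) (lv v) z := (lv v).hasFDerivAt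
  have h2 := (((h1.const_mul v.1.2).const_mul (π : ℂ)).cexp).const_mul
    (Complex.exp (-(π / 2) * (nsq (uu v) : ℂ)))
  have h3 : (ex v z * (π * v.1.2)) • lv v = Complex.exp (-(π / 2) * (nsq (uu v) : ℂ)) •
      Complex.exp (π * (v.1.2 * inner ℂ v.1.1 z)) • ((π : ℂ) • (v.1.2 • lv v)) := by
    rw [smul_smul, smul_smul, smul_smul, ex]
    congr 1; ring
  rw [h3]
  exact h2

theorem ex_eq_psi2 (v : V1 n × W m) (z : E n) : ex v z = psi2 v z 0 0 0 := by
  rw [psi2_base, ex]; simp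

theorem ex_bound (r : ℝ) (v : V1 n × W m) (z : E n) (hz : ‖z‖ ≤ r) :
    ‖ex v z‖ ≤ Real.exp (-(π / 2 * (1 - r)) * nsq (uu v)) := exp_bound v hz

/-- derivative data of the primitive series -/
theorem primitive (hL : Disc L) (K : Core L) (b0 a : V1 n × W m) {z : E n} (hz : z ∈ Ball n) :
    (Summable fun l : L => (K.ε l * ph (ee (l : V1 n × W m) (a + b0)))
        • (ex ((l : V1 n × W m) + a - b0) z • lv ((l : V1 n × W m) + a - b0))) ∧
    HasFDerivAt (fun z => Ser K b0 (fun v => kA v z) a)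
      (((conj (tt K.T b0 0 0))⁻¹ * ph (-ee b0 a)) • ∑' l : L,
        (K.ε l * ph (ee (l : V1 n × W m) (a + b0)))
        • (ex ((l : V1 n × W m) + a - b0) z • lv ((l : V1 n × W m) + a - b0))) z := by
  refine hasFDerivAt_Ser hL K b0 a (f := kA) (f' := fun v z => ex v z • lv v) (N := 1)
    (fun v z => hasFDerivAt_kA v z) (fun r hr => ⟨π / 2 * (1 - r), ?_, 1, fun v z hz => ?_⟩)
    ⟨1, one_pos, 0, fun v => ?_⟩ hz
  · have := Real.pi_pos
    have : 0 < 1 - r := by linarith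
    positivity
  · rw [norm_smul, norm_lv, one_mul, pow_one, mul_comm]
    exact mul_le_mul (by linarith [(norm_coe_le v).1]) (ex_bound r v z hz) (norm_nonneg _)
      (by positivity)
  · simp [kA]

theorem differentiableOn_Ser_ex (hL : Disc L) (K : Core L) (b0 a : V1 n × W m) :
    DifferentiableOn ℂ (fun z => Ser K b0 (fun v => ex v z) a) (Ball n) := by
  intro z hz
  refine DifferentiableAt.differentiableWithinAt (HasFDerivAt.differentiableAt
    (hasFDerivAt_Ser hL K b0 a (f := ex) (f' := fun v z => (ex v z * (π * v.1.2)) • lv v) (N := 2)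
    (fun v z => hasFDerivAt_ex v z) (fun r hr => ⟨π / 2 * (1 - r), ?_, π, fun v z hz => ?_⟩)
    ⟨π / 2, by positivity, 1, fun v => ?_⟩ hz).2)
  · have := Real.pi_pos
    have : 0 < 1 - r := by linarith
    positivity
  · rw [norm_smul, norm_lv, norm_mul, norm_mul, Complex.norm_real, Real.norm_of_nonneg
      Real.pi_pos.le]
    have h1 := ex_bound r v z hz
    have h2 := norm_coe_le v
    have h3 : ‖v.1.2‖ * ‖v.1.1‖ ≤ (1 + ‖v‖) ^ 2 := by
      have := mul_le_mul h2.2 h2.1 (norm_nonneg _) (norm_nonneg _)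
      nlinarith [norm_nonneg v]
    calc ‖ex v z‖ * (π * ‖v.1.2‖) * ‖v.1.1‖ = π * ((‖v.1.2‖ * ‖v.1.1‖) * ‖ex v z‖) := by ring
      _ ≤ π * ((1 + ‖v‖) ^ 2 * Real.exp (-(π / 2 * (1 - r)) * nsq (uu v))) := by
        refine mul_le_mul_of_nonneg_left ?_ Real.pi_pos.le
        exact mul_le_mul h3 h1 (norm_nonneg _) (by positivity)
  · have := ex_bound 0 v 0 (by simp)
    simpa using this

/-! ### first derivative -/

/-- the logarithmic derivative of `psi2` in `p` in direction `X`, divided by `π` -/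
def kk (v : V1 n × W m) (z w q X : E n) : ℂ :=
  inner ℂ q X - inner ℂ v.1.1 X + inner ℂ w X * (inner ℂ q z - lin v.1 z) / ss z w

theorem psi2_line (v : V1 n × W m) (z w q X : E n) (γ : ℂ) :
    psi2 v z (γ • X) w q = psi2 v z 0 w q * Complex.exp (π * (γ * kk v z w q X)) := by
  simp only [psi2, kk, inner_smul_right, inner_zero_right]
  rw [mul_assoc ((ss z w)⁻¹ * _), ← Complex.exp_add]
  congr 2
  ring

theorem hasDerivAt_psi2_line (v : V1 n × W m) (z w q X : E n) (γ : ℂ) :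
    HasDerivAt (fun γ : ℂ => psi2 v z (γ • X) w q) (psi2 v z (γ • X) w q * (π * kk v z w q X)) γ := by
  have h : (fun γ : ℂ => psi2 v z (γ • X) w q)
      = fun γ => psi2 v z 0 w q * Complex.exp (π * (γ * kk v z w q X)) := by
    funext γ; exact psi2_line v z w q X γ
  rw [h, psi2_line]
  have h1 := ((((hasDerivAt_id γ).mul_const (kk v z w q X)).const_mul (π : ℂ)).cexp).const_mul
    (psi2 v z 0 w q)
  simp only [id_eq, one_mul] at h1
  rw [mul_assoc]
  exact h1

/-- derivative of the theta functional -/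
def DD (T : Co n m → ℂ) (a : V1 n × W m) (z X : E n) : ℂ := deriv (fun γ : ℂ => tt T a z (γ • X)) 0

theorem hasSum_DD (hL : Disc L) (K : Core L) (a b : V1 n × W m) {z w : E n} (hz : z ∈ Ball n)
    (hw : w ∈ Ball n) (q X : E n) :
    HasSum (fun l : L => K.ε l * ph (ee (l : V1 n × W m) (a + b))
        * (psi2 ((l : V1 n × W m) + a - b) z 0 w q * (π * kk ((l : V1 n × W m) + a - b) z w q X)))
      (ph (ee b a) * (DD K.T a z X * conj (tt K.T b w q))) := by
  obtain ⟨c, hc, C, hC, h⟩ := norm_psi2_le (m := m) hz hw (max ‖X‖ ‖q‖)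
  have hu := (summable_lat0 hL hc (a - b)).mul_left C
  have h1 := Complex.hasSum_deriv_of_summable_norm (U := Metric.ball (0 : ℂ) 1) (z := 0)
    (F := fun (l : L) γ => K.ε l * ph (ee (l : V1 n × W m) (a + b))
        * psi2 ((l : V1 n × W m) + a - b) z (γ • X) w q) hu ?_ Metric.isOpen_ball ?_ (by simp)
  · refine hasSum_of_eq h1 (fun l => ?_) ?_
    · have h2 := (hasDerivAt_psi2_line ((l : V1 n × W m) + a - b) z w q X 0).const_mul
        (K.ε l * ph (ee (l : V1 n × W m) (a + b)))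
      rw [h2.deriv, zero_smul]
    · have h3 : (fun γ : ℂ => ∑' l : L, K.ε l * ph (ee (l : V1 n × W m) (a + b))
          * psi2 ((l : V1 n × W m) + a - b) z (γ • X) w q)
          = fun γ => (ph (ee b a) * conj (tt K.T b w q)) * tt K.T a z (γ • X) := by
        funext γ
        rw [(hasSum_psi2 hL K a b hz hw (γ • X) q).tsum_eq]; ring
      rw [h3, deriv_const_mul_field, DD]; ring
  · intro l γ _
    exact (((hasDerivAt_psi2_line ((l : V1 n × W m) + a - b) z w q X γ).const_mul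
      (K.ε l * ph (ee (l : V1 n × W m) (a + b)))).differentiableAt).differentiableWithinAt
  · intro l γ hγ
    rw [norm_mul, norm_mul, norm_ε, norm_ph, one_mul, one_mul, add_sub_assoc]
    refine h _ _ ?_ (le_max_right _ _) _
    have hγ' : ‖γ‖ < 1 := mem_ball_zero_iff.1 hγ
    rw [norm_smul]
    refine le_trans ?_ (le_max_left _ _)
    nlinarith [norm_nonneg X]

/-! ### second derivative -/

theorem kk_line (v : V1 n × W m) (z w X Y : E n) (δ : ℂ) : kk v z w (conj δ • Y) X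
    = kk v z w 0 X + δ * (inner ℂ Y X + inner ℂ w X * inner ℂ Y z / ss z w) := by
  simp only [kk, inner_smul_left, inner_zero_left, Complex.conj_conj]
  ring

/-- the logarithmic derivative of `psi2` in `conj q` in direction `Y` at `p = 0`, divided by `π` -/
def mm (v : V1 n × W m) (z w Y : E n) : ℂ :=
  inner ℂ Y v.1.1 + conj (lin v.1 w) * inner ℂ Y z / ss z w

theorem psi2_line' (v : V1 n × W m) (z w Y : E n) (δ : ℂ) :
    psi2 v z 0 w (conj δ • Y) = psi2 v z 0 w 0 * Complex.exp (π * (δ * mm v z w Y)) := by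
  simp only [psi2, mm, inner_smul_left, inner_zero_left, inner_zero_right, Complex.conj_conj]
  rw [mul_assoc ((ss z w)⁻¹ * _), ← Complex.exp_add]
  congr 2
  ring

theorem hasDerivAt_second (v : V1 n × W m) (z w X Y : E n) (δ : ℂ) :
    HasDerivAt (fun δ : ℂ => psi2 v z 0 w (conj δ • Y) * (π * kk v z w (conj δ • Y) X))
      (psi2 v z 0 w (conj δ • Y) * (π * mm v z w Y) * (π * kk v z w (conj δ • Y) X)
        + psi2 v z 0 w (conj δ • Y)
          * (π * (inner ℂ Y X + inner ℂ w X * inner ℂ Y z / ss z w))) δ := by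
  have h : (fun δ : ℂ => psi2 v z 0 w (conj δ • Y) * (π * kk v z w (conj δ • Y) X))
      = fun δ => (psi2 v z 0 w 0 * Complex.exp (π * (δ * mm v z w Y)))
        * (π * (kk v z w 0 X + δ * (inner ℂ Y X + inner ℂ w X * inner ℂ Y z / ss z w))) := by
    funext δ; rw [psi2_line', kk_line]
  rw [h, psi2_line', kk_line]
  have h1 := ((((hasDerivAt_id δ).mul_const (mm v z w Y)).const_mul (π : ℂ)).cexp).const_mul
    (psi2 v z 0 w 0)
  have h2 := (((hasDerivAt_id δ).mul_const (inner ℂ Y X + inner ℂ w X * inner ℂ Y z / ss z w)).const_add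
    (kk v z w 0 X)).const_mul (π : ℂ)
  have h3 := h1.mul h2
  simp only [id_eq, one_mul] at h3
  rw [mul_assoc (psi2 v z 0 w 0) (Complex.exp _) (π * mm v z w Y)]
  exact h3

theorem norm_kk_le {z w : E n} (X : E n) (R : ℝ) (hz : z ∈ Ball n) (hw : w ∈ Ball n) :
    ∃ C : ℝ, 0 ≤ C ∧ ∀ q : E n, ‖q‖ ≤ R → ∀ v : V1 n × W m, ‖kk v z w q X‖ ≤ C * (1 + ‖v‖) := by
  have hs := ss_re_pos hz hw
  have hs0 : ss z w ≠ 0 := by intro h; rw [h] at hs; simp at hs
  have hsn : 0 < ‖ss z w‖ := norm_pos_iff.2 hs0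
  have hz' : ‖z‖ < 1 := mem_Ball.1 hz
  have hw' : ‖w‖ < 1 := mem_Ball.1 hw
  refine ⟨(|R| + 1) * ‖X‖ + ‖X‖ * (|R| + 2) / ‖ss z w‖, by positivity, fun q hq v => ?_⟩
  have hR : ‖q‖ ≤ |R| := hq.trans (le_abs_self R)
  have h1 : ‖(inner ℂ q X : ℂ)‖ ≤ |R| * ‖X‖ :=
    (norm_inner_le_norm _ _).trans (mul_le_mul_of_nonneg_right hR (norm_nonneg _))
  have h2 : ‖(inner ℂ v.1.1 X : ℂ)‖ ≤ ‖v‖ * ‖X‖ :=
    (norm_inner_le_norm _ _).trans (mul_le_mul_of_nonneg_right (norm_coe_le v).1 (norm_nonneg _))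
  have h3 : ‖(inner ℂ w X : ℂ)‖ ≤ ‖X‖ := by
    refine (norm_inner_le_norm _ _).trans ?_
    nlinarith [norm_nonneg X]
  have h4 : ‖(inner ℂ q z : ℂ)‖ ≤ |R| := by
    refine (norm_inner_le_norm _ _).trans ?_
    nlinarith [norm_nonneg q, abs_nonneg R, norm_nonneg z]
  have h5 : ‖lin v.1 z‖ ≤ 2 * ‖v‖ := by
    have h6 : ‖lin v.1 z‖ ≤ ‖(inner ℂ v.1.1 z : ℂ)‖ + ‖v.1.2‖ := by
      rw [lin]
      refine (norm_sub_le _ _).trans ?_
      rw [Complex.norm_conj]
    have h7 : ‖(inner ℂ v.1.1 z : ℂ)‖ ≤ ‖v‖ := by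
      refine (norm_inner_le_norm _ _).trans ?_
      have := (norm_coe_le v).1
      nlinarith [norm_nonneg v.1.1, norm_nonneg z]
    linarith [(norm_coe_le v).2]
  have h8 : ‖inner ℂ w X * (inner ℂ q z - lin v.1 z) / ss z w‖
      ≤ ‖X‖ * (|R| + 2 * ‖v‖) / ‖ss z w‖ := by
    rw [norm_div, norm_mul]
    refine div_le_div_of_nonneg_right ?_ hsn.le
    refine mul_le_mul h3 ?_ (norm_nonneg _) (norm_nonneg _)
    exact (norm_sub_le _ _).trans (add_le_add h4 h5)
  have h9 : ‖kk v z w q X‖ ≤ |R| * ‖X‖ + ‖v‖ * ‖X‖ + ‖X‖ * (|R| + 2 * ‖v‖) / ‖ss z w‖ := by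
    rw [kk]
    exact (norm_add_le _ _).trans (add_le_add ((norm_sub_le _ _).trans (add_le_add h1 h2)) h8)
  refine h9.trans ?_
  have h10 : ‖X‖ * (|R| + 2 * ‖v‖) / ‖ss z w‖ ≤ ‖X‖ * (|R| + 2) / ‖ss z w‖ * (1 + ‖v‖) := by
    rw [div_mul_eq_mul_div]
    refine div_le_div_of_nonneg_right ?_ hsn.le
    rw [mul_assoc]
    refine mul_le_mul_of_nonneg_left ?_ (norm_nonneg _)
    nlinarith [norm_nonneg v, abs_nonneg R, mul_nonneg (abs_nonneg R) (norm_nonneg v)]
  have h11 : |R| * ‖X‖ + ‖v‖ * ‖X‖ ≤ (|R| + 1) * ‖X‖ * (1 + ‖v‖) := by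
    nlinarith [norm_nonneg v, abs_nonneg R, norm_nonneg X, mul_nonneg (abs_nonneg R) (norm_nonneg X),
      mul_nonneg (mul_nonneg (abs_nonneg R) (norm_nonneg X)) (norm_nonneg v),
      mul_nonneg (norm_nonneg v) (norm_nonneg X)]
  linarith

theorem hasSum_DD2 (hL : Disc L) (K : Core L) (a b : V1 n × W m) {z w : E n} (hz : z ∈ Ball n)
    (hw : w ∈ Ball n) (X Y : E n) :
    HasSum (fun l : L => K.ε l * ph (ee (l : V1 n × W m) (a + b))
        * (psi2 ((l : V1 n × W m) + a - b) z 0 w 0 * (π * mm ((l : V1 n × W m) + a - b) z w Y)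
            * (π * kk ((l : V1 n × W m) + a - b) z w 0 X)
          + psi2 ((l : V1 n × W m) + a - b) z 0 w 0
            * (π * (inner ℂ Y X + inner ℂ w X * inner ℂ Y z / ss z w))))
      (ph (ee b a) * (DD K.T a z X * conj (DD K.T b w Y))) := by
  obtain ⟨c, hc, C, hC, h⟩ := norm_psi2_le (m := m) hz hw ‖Y‖
  obtain ⟨C', hC', h'⟩ := norm_kk_le (m := m) X ‖Y‖ hz hw
  have hu := (summable_lat hL hc 1 (a - b)).mul_left (π * C * C')
  have h1 := Complex.hasSum_deriv_of_summable_norm (U := Metric.ball (0 : ℂ) 1) (z := 0)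
    (F := fun (l : L) δ => K.ε l * ph (ee (l : V1 n × W m) (a + b))
        * (psi2 ((l : V1 n × W m) + a - b) z 0 w (conj δ • Y)
          * (π * kk ((l : V1 n × W m) + a - b) z w (conj δ • Y) X))) hu ?_ Metric.isOpen_ball ?_
    (by simp)
  · refine hasSum_of_eq h1 (fun l => ?_) ?_
    · have h2 := (hasDerivAt_second ((l : V1 n × W m) + a - b) z w X Y 0).const_mul
        (K.ε l * ph (ee (l : V1 n × W m) (a + b)))
      rw [h2.deriv, map_zero, zero_smul]
    · have h3 : (fun δ : ℂ => ∑' l : L, K.ε l * ph (ee (l : V1 n × W m) (a + b))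
          * (psi2 ((l : V1 n × W m) + a - b) z 0 w (conj δ • Y)
          * (π * kk ((l : V1 n × W m) + a - b) z w (conj δ • Y) X)))
          = fun δ => (ph (ee b a) * DD K.T a z X)
            * (conj ∘ (fun γ : ℂ => tt K.T b w (γ • Y)) ∘ conj) δ := by
        funext δ
        rw [(hasSum_DD hL K a b hz hw (conj δ • Y) X).tsum_eq]
        simp only [Function.comp]
        ring
      rw [h3, deriv_const_mul_field, deriv_conj_conj]
      simp only [Function.comp, map_zero]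
      rw [← DD]; ring
  · intro l δ _
    exact (((hasDerivAt_second ((l : V1 n × W m) + a - b) z w X Y δ).const_mul
      (K.ε l * ph (ee (l : V1 n × W m) (a + b)))).differentiableAt).differentiableWithinAt
  · intro l δ hδ
    have hδ' : ‖δ‖ < 1 := mem_ball_zero_iff.1 hδ
    have hq : ‖conj δ • Y‖ ≤ ‖Y‖ := by
      rw [norm_smul, Complex.norm_conj]
      nlinarith [norm_nonneg Y]
    rw [norm_mul, norm_mul, norm_ε, norm_ph, one_mul, one_mul, norm_mul, norm_mul,
      Complex.norm_real, Real.norm_of_nonneg Real.pi_pos.le, add_sub_assoc, pow_one]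
    have e1 := h 0 (conj δ • Y) (by simp) hq ((l : V1 n × W m) + (a - b))
    have e2 := h' (conj δ • Y) hq ((l : V1 n × W m) + (a - b))
    calc ‖psi2 ((l : V1 n × W m) + (a - b)) z 0 w (conj δ • Y)‖
          * (π * ‖kk ((l : V1 n × W m) + (a - b)) z w (conj δ • Y) X‖)
        ≤ (C * Real.exp (-c * nsq (uu ((l : V1 n × W m) + (a - b)))))
          * (π * (C' * (1 + ‖(l : V1 n × W m) + (a - b)‖))) := by
          refine mul_le_mul e1 (mul_le_mul_of_nonneg_left e2 Real.pi_pos.le) ?_ ?_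
          · have := Real.pi_pos; positivity
          · positivity
      _ = _ := by ring

end

end Crest.Agent.R272.Sup_528
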