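import Crest.Agent.R272.Tp2_60
import Crest.Agent.R272.P1A_54
import Crest.Agent.R272.HFam_342
import Crest.Agent.R272.Tq4_916
import Crest.Agent.R272.Cur5_297
import Crest.Agent.R272.Tp7_60

-- ▼ part R272/Tq5_916
section

/-!
# R272 (S0415), MOD-TP (helper916): holomorphic germs with values in `P1`

`HP F p x` : near `x`, `p = [f : g]` with `f`, `g` holomorphic at `x`, not both `0`;
`hp_iff` : `HP F p x ↔ HC F p1Fam p x`; `HP.nn`, `HP.iv`, `HP.mob`, `HP.comp`;
`slFam_liftAt` : holomorphic germs into a submanifold; `hC_amb_iff` : germs into `N × P1^5`.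
-/

set_option autoImplicit false
set_option linter.unusedSectionVars false

open Set Filter Topology OnePoint

namespace Crest.Agent.R272.Tq5_916

open Crest.Agent.R275.Geo Crest.Agent.R273.Fam_835 Crest.Agent.R272.FamP_54
  Crest.Agent.R275.Prod363
  Crest.Agent.R272.P1A_54 Crest.Agent.R272.HFam_342 Crest.Agent.R272.SubF_54
open Crest.Agent.R272.P1F_54 (hmk ps pc ln ld p1Fam ps_cover isOpen_ps hf_pc pinv_pc
  hfa_pc_hmk hmk_mem_ps lnd_ne differentiable_ln differentiable_ld)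
open Crest.Agent.R272.Tp1_60
open Crest.Agent.R272.Gr_559.GData (Amb)

noncomputable section

variable {n m N : ℕ} {X Y Q : Type} [TopologicalSpace X] [TopologicalSpace Y] [TopologicalSpace Q]
  {F : Fam n X} {G : Fam m Y} {H : Fam N Q}

theorem rat_eq_hmk (a b : ℂ) : rat a b = hmk a b := by
  by_cases hb : b = 0
  · rw [hb, rat_zero, P1F_54.hmk_zero]
  · rw [rat_ne hb, P1F_54.hmk_of_ne hb]

/-- germ with values in the projective line -/
def HP (F : Fam n X) (p : X → P1) (x : X) : Prop :=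
  ∃ f g : X → ℂ, HFA F f x ∧ HFA F g x ∧ (f x ≠ 0 ∨ g x ≠ 0) ∧
    ∀ᶠ y in 𝓝 x, p y = rat (f y) (g y)

theorem HFA.compAt {W : Type*} [NormedAddCommGroup W] [NormedSpace ℂ W] {f : Y → W} {p : X → Y}
    {x : X} (hf : HFA G f (p x)) (hp : HC F G p x) : HFA F (fun y => f (p y)) x :=
  FC.comp hf hp

theorem HP.congr {p q : X → P1} {x : X} (h : HP F p x) (he : ∀ᶠ y in 𝓝 x, q y = p y) :
    HP F q x := by
  obtain ⟨f, g, hf, hg, h0, h1⟩ := h
  exact ⟨f, g, hf, hg, h0, by filter_upwards [h1, he] with y a b; rw [b, a]⟩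

theorem HP.comp {q : Y → P1} {p : X → Y} {x : X} (hq : HP G q (p x)) (hp : HC F G p x) :
    HP F (fun y => q (p y)) x := by
  obtain ⟨f, g, hf, hg, h0, h1⟩ := hq
  exact ⟨fun y => f (p y), fun y => g (p y), HFA.compAt hf hp, HFA.compAt hg hp, h0,
    hp.1.eventually h1⟩

theorem HP.of {p : X → P1} {x : X} {f g : X → ℂ} (hf : HFA F f x) (hg : HFA F g x)
    (h0 : f x ≠ 0 ∨ g x ≠ 0) (he : ∀ᶠ y in 𝓝 x, p y = rat (f y) (g y)) : HP F p x :=
  ⟨f, g, hf, hg, h0, he⟩

/-- a finite value -/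
theorem HP.of_coe {p : X → P1} {x : X} {f : X → ℂ} (hf : HFA F f x)
    (he : ∀ᶠ y in 𝓝 x, p y = ((f y : ℂ) : P1)) : HP F p x :=
  ⟨f, fun _ => 1, hf, HFA.const _ _, Or.inr one_ne_zero, he.mono fun y hy => by
    rw [hy, rat_one]⟩

theorem HP.continuousAt {p : X → P1} {x : X} (h : HP F p x) : ContinuousAt p x := by
  obtain ⟨f, g, hf, hg, h0, h1⟩ := h
  refine (ContinuousAt.rat60 hf.continuousAt hg.continuousAt h0).congr ?_
  exact h1.mono fun y hy => hy.symm

theorem HP.hC {p : X → P1} {x : X} (h : HP F p x) : HC F p1Fam p x := by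
  have hc := h.continuousAt
  obtain ⟨f, g, hf, hg, h0, he⟩ := h
  obtain ⟨s, hs⟩ := ps_cover (p x)
  have h1 : (if s then f x else g x) ≠ 0 := by
    rw [he.self_of_nhds, rat_eq_hmk] at hs
    exact (hmk_mem_ps h0 s).1 hs
  refine hC_of_fC (j := s) hc hs ?_
  refine HFA.comp_left (g := oneL) (f := fun y => pc s (p y)) oneL.differentiableAt ?_
  exact (hfa_pc_hmk hf hg s h1).congr (he.mono fun y hy => by rw [hy, rat_eq_hmk])




theorem nn_rat {a b : ℂ} (hb : b ≠ 0) : nn (rat a b) = a / b := by rw [rat_ne hb, nn_coe]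

theorem iv_rat' {a b : ℂ} : iv (rat a b) = b / a := by
  by_cases hb : b = 0
  · rw [hb, rat_zero, iv_inf, zero_div]
  · rw [rat_ne hb, iv_coe, inv_div]


theorem rat_eq_zero {a b : ℂ} (h : a ≠ 0 ∨ b ≠ 0) : rat a b = ((0 : ℂ) : P1) ↔ a = 0 := by
  constructor
  · intro h1
    have hb : b ≠ 0 := by
      rintro rfl
      rw [rat_zero] at h1
      exact OnePoint.infty_ne_coe _ h1
    rw [rat_ne hb] at h1
    have := OnePoint.coe_injective h1
    exact (div_eq_zero_iff.1 this).resolve_right hb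
  · rintro rfl
    have hb : b ≠ 0 := by simpa using h
    rw [rat_ne hb, zero_div]

theorem HP.nn {p : X → P1} {x : X} (h : HP F p x) (hx : p x ≠ ∞) :
    HFA F (fun y => nn (p y)) x := by
  obtain ⟨f, g, hf, hg, h0, he⟩ := h
  have hgx : g x ≠ 0 := by
    intro h1
    rw [he.self_of_nhds, h1, rat_zero] at hx
    exact hx rfl
  refine (hf.div hg hgx).congr ?_
  filter_upwards [he, hg.continuousAt.eventually_ne hgx] with y a b
  rw [a, nn_rat b]

theorem HP.iv {p : X → P1} {x : X} (h : HP F p x) (hx : p x ≠ ((0 : ℂ) : P1)) :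
    HFA F (fun y => iv (p y)) x := by
  obtain ⟨f, g, hf, hg, h0, he⟩ := h
  have hfx : f x ≠ 0 := by
    intro h1
    rw [he.self_of_nhds] at hx
    exact hx ((rat_eq_zero h0).2 h1)
  refine (hg.div hf hfx).congr ?_
  filter_upwards [he, hf.continuousAt.eventually_ne hfx] with y a b
  rw [a, iv_rat']



theorem mob_rat {α β γ δ a b : ℂ} (h : a ≠ 0 ∨ b ≠ 0) :
    mob α β γ δ (rat a b) = rat (α * a + β * b) (γ * a + δ * b) := by
  obtain ⟨c, hc, h1, h2⟩ := exists_rat h
  unfold mob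
  rw [← rat_mul hc]
  congr 1
  · linear_combination -α * h1 - β * h2
  · linear_combination -γ * h1 - δ * h2

theorem HP.mob {α β γ δ : X → ℂ} {p : X → P1} {x : X} (h : HP F p x) (hα : HFA F α x)
    (hβ : HFA F β x) (hγ : HFA F γ x) (hδ : HFA F δ x) (hd : α x * δ x - β x * γ x ≠ 0) :
    HP F (fun y => mob (α y) (β y) (γ y) (δ y) (p y)) x := by
  obtain ⟨f, g, hf, hg, h0, he⟩ := h
  refine ⟨fun y => α y * f y + β y * g y, fun y => γ y * f y + δ y * g y,
    (hα.mul hf).add (hβ.mul hg), (hγ.mul hf).add (hδ.mul hg), ?_, ?_⟩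
  · by_contra hc
    push Not at hc
    obtain ⟨h1, h2⟩ := hc
    have h3 : (α x * δ x - β x * γ x) * f x = 0 := by linear_combination δ x * h1 - β x * h2
    have h4 : (α x * δ x - β x * γ x) * g x = 0 := by linear_combination α x * h2 - γ x * h1
    rcases h0 with h5 | h5
    · exact h5 ((mul_eq_zero.1 h3).resolve_left hd)
    · exact h5 ((mul_eq_zero.1 h4).resolve_left hd)
  · have h0' : ∀ᶠ y in 𝓝 x, f y ≠ 0 ∨ g y ≠ 0 := by
      rcases h0 with h1 | h1
      · exact (hf.continuousAt.eventually_ne h1).mono fun y hy => Or.inl hy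
      · exact (hg.continuousAt.eventually_ne h1).mono fun y hy => Or.inr hy
    filter_upwards [he, h0'] with y a b
    rw [a, mob_rat b]

/-! ### germs into products and submanifolds -/







end

end Crest.Agent.R272.Tq5_916
end

-- ▼ part R272/Tq6_916
section

/-!
# R272 (S0415), MOD-TP (helper916): the curve of 297 in the language of `HP`

* `hp_tt`, `hp_kk` : `t`, `κ` are holomorphic in the charts `k c`;
* `hfa_k`          : a germ `X → C` with holomorphic `t`, `κ` is holomorphic in the charts `k c`;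
* `hfa_dl`, `hfa_nu` : the frames.
-/

set_option autoImplicit false
set_option linter.unusedSectionVars false

open Set Filter Topology OnePoint

namespace Crest.Agent.R272.Tq6_916

open Crest.Agent.R275.Geo Crest.Agent.R273.Fam_835 Crest.Agent.R272.FamP_54
  Crest.Agent.R272.HFam_342 Crest.Agent.R272.Tq5_916 Crest.Agent.R272.Tq1_916
  Crest.Agent.R272.Tq4_916
open Crest.Agent.R272.Tp1_60
open Crest.Agent.R272.Cur_297 (Par Cv Cset Eqn tt kk continuous_tt continuous_kk k rad k_target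
  k_mem k_source0 k_source1 k_apply_s k_apply_t k_apply_y sv tv yv vv kap0 kap1 mk0 mk1 R0 R1
  fin coe_fin)

noncomputable section

variable {P : Par}

/-! ### `κ` in the affine coordinates -/

theorem kk_rat0 {c : Cv P} (h : tt c ≠ ∞) :
    (P.AA (tv c) ≠ 0 → kk c = rat (yv c) (P.AA (tv c))) ∧
    (P.BB (tv c) ≠ 0 → kk c = rat (P.BB (tv c)) (yv c)) := by
  have e1 : kk c = kap0 P (tv c) (yv c) := by
    conv_lhs => rw [← Cur_297.mk0_eq h]
    rfl
  have e2 : yv c ^ 2 = P.AA (tv c) * P.BB (tv c) := Cur_297.yv_sq h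
  rw [e1]
  unfold kap0
  refine ⟨fun hA => ?_, fun hB => ?_⟩
  · rw [if_neg hA, rat_ne hA]
  · by_cases hA : P.AA (tv c) = 0
    · rw [if_pos hA]
      rw [hA, zero_mul] at e2
      rw [pow_eq_zero_iff (two_ne_zero) |>.1 e2, rat_zero]
    · rw [if_neg hA]
      have hy : yv c ≠ 0 := by
        intro h0
        rw [h0] at e2
        exact mul_ne_zero hA hB (by rw [← e2]; ring)
      rw [rat_ne hy]
      congr 1
      field_simp
      rw [e2]

theorem kk_rat1 {c : Cv P} (h : tt c ≠ ((0 : ℂ) : P1)) :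
    (P.At (sv c) ≠ 0 → kk c = rat (vv c) (P.At (sv c))) ∧
    (P.Bt (sv c) ≠ 0 → kk c = rat (P.Bt (sv c)) (vv c)) := by
  have e1 : kk c = kap1 P (sv c) (vv c) := by
    conv_lhs => rw [← Cur_297.mk1_eq h]
    rfl
  have e2 : vv c ^ 2 = P.At (sv c) * P.Bt (sv c) := Cur_297.vv_sq h
  rw [e1]
  unfold kap1
  refine ⟨fun hA => ?_, fun hB => ?_⟩
  · rw [if_neg hA, rat_ne hA]
  · by_cases hA : P.At (sv c) = 0
    · rw [if_pos hA]
      rw [hA, zero_mul] at e2
      rw [pow_eq_zero_iff (two_ne_zero) |>.1 e2, rat_zero]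
    · rw [if_neg hA]
      have hy : vv c ≠ 0 := by
        intro h0
        rw [h0] at e2
        exact mul_ne_zero hA hB (by rw [← e2]; ring)
      rw [rat_ne hy]
      congr 1
      field_simp
      rw [e2]

theorem tt_rat {c : Cv P} (h : tt c ≠ ((0 : ℂ) : P1)) : tt c = rat 1 (sv c) := by
  have : sv c = iv (tt c) := finv_eq _
  rw [this, rat_iv h]

/-! ### the coordinates in the charts -/

theorem hp_tt (c : Cv P) {s : ℂ} (hs : s ∈ (k c).target) :
    HP cFam (fun z => tt ((k c).symm z)) s := by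
  by_cases h : tt ((k c).symm s) ≠ ∞
  · have hR := R0 c hs h
    have hev := Cur_297.ev_source hs Cur_297.isOpen_ne_inf h
    exact HP.of_coe (f := fun z => tv ((k c).symm z)) (hfa_c.2 hR.f_an.differentiableAt)
      (hev.mono fun z hz => Cur_297.tt_eq hz)
  · have h' : tt ((k c).symm s) ≠ ((0 : ℂ) : P1) := Cur_297.nz h
    have hR := R1 c hs h'
    have hev := Cur_297.ev_source hs Cur_297.isOpen_ne_zero h'
    exact HP.of (f := fun _ => 1) (g := fun z => sv ((k c).symm z)) (HFA.const _ _)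
      (hfa_c.2 hR.f_an.differentiableAt) (Or.inl one_ne_zero) (hev.mono fun z hz => tt_rat hz)

theorem hp_kk (c : Cv P) {s : ℂ} (hs : s ∈ (k c).target) :
    HP cFam (fun z => kk ((k c).symm z)) s := by
  by_cases h : tt ((k c).symm s) ≠ ∞
  · have hR := R0 c hs h
    have hev := Cur_297.ev_source hs Cur_297.isOpen_ne_inf h
    have dA : DifferentiableAt ℂ (fun z => P.AA (tv ((k c).symm z))) s :=
      DifferentiableAt.comp s (g := P.AA) P.differentiable_AA.differentiableAt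
        hR.f_an.differentiableAt
    have dB : DifferentiableAt ℂ (fun z => P.BB (tv ((k c).symm z))) s :=
      DifferentiableAt.comp s (g := P.BB) P.differentiable_BB.differentiableAt
        hR.f_an.differentiableAt
    by_cases hA : P.AA (tv ((k c).symm s)) = 0
    · have hB := P.BB_ne hA
      refine HP.of (f := fun z => P.BB (tv ((k c).symm z))) (g := fun z => yv ((k c).symm z))
        (hfa_c.2 dB) (hfa_c.2 hR.g_an.differentiableAt) (Or.inl hB) ?_
      filter_upwards [hev, dB.continuousAt.eventually_ne hB] with z h1 h2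
      exact (kk_rat0 h1).2 h2
    · refine HP.of (f := fun z => yv ((k c).symm z)) (g := fun z => P.AA (tv ((k c).symm z)))
        (hfa_c.2 hR.g_an.differentiableAt) (hfa_c.2 dA) (Or.inr hA) ?_
      filter_upwards [hev, dA.continuousAt.eventually_ne hA] with z h1 h2
      exact (kk_rat0 h1).1 h2
  · have h' : tt ((k c).symm s) ≠ ((0 : ℂ) : P1) := Cur_297.nz h
    have hR := R1 c hs h'
    have hev := Cur_297.ev_source hs Cur_297.isOpen_ne_zero h'
    have dA : DifferentiableAt ℂ (fun z => P.At (sv ((k c).symm z))) s :=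
      DifferentiableAt.comp s (g := P.At) P.differentiable_At.differentiableAt
        hR.f_an.differentiableAt
    have hA : P.At (sv ((k c).symm s)) ≠ 0 := by
      have : sv ((k c).symm s) = 0 := by
        unfold sv; rw [not_not.1 h]; rfl
      rw [this, P.At_zero]
      exact one_ne_zero
    refine HP.of (f := fun z => vv ((k c).symm z)) (g := fun z => P.At (sv ((k c).symm z)))
      (hfa_c.2 hR.g_an.differentiableAt) (hfa_c.2 dA) (Or.inr hA) ?_
    filter_upwards [hev, dA.continuousAt.eventually_ne hA] with z h1 h2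
    exact (kk_rat1 h1).1 h2

/-! ### germs into the curve -/

variable {n : ℕ} {X : Type} [TopologicalSpace X] {F : Fam n X}

theorem fin_eq {t : P1} (h : t ≠ ∞) : fin t = nn t := by
  induction t using OnePoint.rec with
  | infty => exact absurd rfl h
  | coe z => rfl

/-- `y = B(t) / κ` where `κ ≠ 0` -/
theorem yv_iv {c : Cv P} (h : tt c ≠ ∞) (hk : kk c ≠ ((0 : ℂ) : P1)) :
    yv c = iv (kk c) * P.BB (tv c) := by
  have he := Cur_297.eqn c
  rw [Cur_297.tt_eq h] at he
  unfold yv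
  by_cases hi : kk c = ∞
  · rw [hi]; simp
  · have hf := coe_fin hi
    rw [← hf, Cur_297.eqn_coe_coe] at he
    have h0 : fin (kk c) ≠ 0 := by
      intro h1
      rw [h1] at hf
      exact hk hf.symm
    have h2 : iv (kk c) = (fin (kk c))⁻¹ := by rw [inv_nn hi, fin_eq hi]
    rw [h2, ← he]
    field_simp

theorem cont_of_hp {c : X → Cv P} {x : X} (ht : HP F (fun y => tt (c y)) x)
    (hk : HP F (fun y => kk (c y)) x) : ContinuousAt c x :=
  Topology.IsInducing.subtypeVal.continuousAt_iff.2 (ht.continuousAt.prodMk hk.continuousAt)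

theorem hfa_tv {c : X → Cv P} {x : X} (ht : HP F (fun y => tt (c y)) x) (h : tt (c x) ≠ ∞) :
    HFA F (fun y => tv (c y)) x := by
  refine (ht.nn h).congr ?_
  filter_upwards [ht.continuousAt.eventually_ne h] with y hy
  exact fin_eq hy

theorem hfa_yv {c : X → Cv P} {x : X} (ht : HP F (fun y => tt (c y)) x)
    (hk : HP F (fun y => kk (c y)) x) (h : tt (c x) ≠ ∞) : HFA F (fun y => yv (c y)) x := by
  have h1 := hfa_tv ht h
  by_cases hi : kk (c x) = ∞
  · have h0 : kk (c x) ≠ ((0 : ℂ) : P1) := by rw [hi]; exact OnePoint.infty_ne_coe _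
    have h2 : HFA F (fun y => P.BB (tv (c y))) x :=
      HFA.comp_left (g := P.BB) (f := fun y => tv (c y)) P.differentiable_BB.differentiableAt h1
    refine ((hk.iv h0).mul h2).congr ?_
    filter_upwards [ht.continuousAt.eventually_ne h, hk.continuousAt.eventually_ne h0] with y a b
    exact yv_iv a b
  · have h2 : HFA F (fun y => P.AA (tv (c y))) x :=
      HFA.comp_left (g := P.AA) (f := fun y => tv (c y)) P.differentiable_AA.differentiableAt h1
    refine ((hk.nn hi).mul h2).congr ?_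
    filter_upwards [hk.continuousAt.eventually_ne hi] with y a
    show fin (kk (c y)) * P.AA (tv (c y)) = _
    rw [fin_eq a]

/-- **germs into the curve** -/
theorem hfa_k {c : X → Cv P} {x : X} (ht : HP F (fun y => tt (c y)) x)
    (hk : HP F (fun y => kk (c y)) x) (c0 : Cv P) (hx : c x ∈ (k c0).source) :
    HFA F (fun y => k c0 (c y)) x := by
  have hc := cont_of_hp ht hk
  have hev : ∀ᶠ y in 𝓝 x, c y ∈ (k c0).source := hc.eventually ((k c0).open_source.mem_nhds hx)
  by_cases h : tt c0 ≠ ∞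
  · have h1 := k_source0 h hx
    by_cases h0 : yv c0 = 0
    · refine (hfa_yv ht hk h1).congr ?_
      filter_upwards [hev] with y hy
      exact k_apply_y h h0 (k_source0 h hy)
    · refine ((hfa_tv ht h1).sub (HFA.const (tv c0) x)).congr ?_
      filter_upwards [hev] with y hy
      exact k_apply_t h h0 (k_source0 h hy)
  · have h1 := k_source1 h hx
    refine (ht.iv h1).congr ?_
    filter_upwards [hev] with y hy
    rw [k_apply_s h (k_source1 h hy)]
    exact finv_eq _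

/-! ### frames -/

theorem hfa_dl {i : Fin 2} {p : X → P1} {x : X} (h : HP F p x) (hp : p x ≠ pole i) :
    HFA F (fun y => dl i (p y)) x := by
  fin_cases i
  · exact HFA.const _ _
  · exact h.iv hp

theorem hfa_nu {i : Fin 2} {p : X → P1} {x : X} (h : HP F p x) (hp : p x ≠ pole i) :
    HFA F (fun y => nu i (p y)) x := by
  fin_cases i
  · exact h.nn hp
  · exact HFA.const _ _

end

end Crest.Agent.R272.Tq6_916
end

-- ▼ part R272/Tq7_916
section

/-!
# R272 (S0415), MOD-TP (helper916): `Tp6_60.CH` for the curve of 297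

`ch P : CH (cur P)`.
-/

set_option autoImplicit false
set_option linter.unusedSectionVars false

open Set Filter Topology OnePoint

namespace Crest.Agent.R272.Tq7_916

open Crest.Agent.R275.Geo Crest.Agent.R273.Fam_835 Crest.Agent.R272.FamP_54
  Crest.Agent.R272.HFam_342 Crest.Agent.R272.Tp6_60
open Crest.Agent.R272.Tp1_60 (nn P1)
open Crest.Agent.R272.Cur_297 (Par Cv tt kk cur k rad om la lb sv tv)
open Crest.Agent.R272.AJ_956 (E2 Cur)

noncomputable section

variable {P : Par}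

theorem w_eq (c : Cv P) : (cur P).w c = om c 0 := by
  show deriv (Cur_297.G c) 0 = om c 0
  exact Cur_297.deriv_G c (Cur_297.zero_mem c)

theorem w_fin {c : Cv P} (h : tt c ≠ ∞) : ∃ m : ℂ, m ≠ 0 ∧ (cur P).w c = m • la (tv c) :=
  ⟨_, Cur_297.m0_ne _, by rw [w_eq, Cur_297.om_zero0 h]⟩

theorem w_inf {c : Cv P} (h : ¬ tt c ≠ ∞) : ∃ m : ℂ, m ≠ 0 ∧ (cur P).w c = m • lb 0 :=
  ⟨_, Cur_297.m0_ne _, by rw [w_eq, Cur_297.om_zero1 h]⟩

theorem tv_zero_iff {c : Cv P} (h : tt c ≠ ∞) : tv c = 0 ↔ tt c = ((0 : ℂ) : P1) := by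
  rw [Cur_297.tt_eq h]
  constructor
  · intro h0; rw [h0]
  · intro h0; exact OnePoint.coe_injective h0

/-- **the curve of 297** -/
theorem ch (P : Par) : CH (cur P) where
  hT c s hs := Tq6_916.hp_tt c hs
  hK c s hs := Tq6_916.hp_kk c hs
  back := by
    intro n X _ F γ x _ ht hk c hx
    exact Tq6_916.hfa_k ht hk c hx
  w0 c := by
    constructor
    · intro h0 h
      obtain ⟨m, hm, e⟩ := w_inf (c := c) (not_not.2 h)
      apply h0
      rw [e]
      simp [lb]
    · intro h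
      obtain ⟨m, hm, e⟩ := w_fin h
      rw [e]
      simpa [la] using hm
  w1 c := by
    by_cases h : tt c ≠ ∞
    · obtain ⟨m, hm, e⟩ := w_fin h
      rw [e, show (tt c ≠ ((0 : ℂ) : P1)) ↔ tv c ≠ 0 from not_congr (tv_zero_iff h).symm]
      simp [la, hm]
    · obtain ⟨m, hm, e⟩ := w_inf h
      rw [e]
      constructor
      · intro _
        exact Cur_297.nz h
      · intro _
        simpa [lb] using hm
  tv0 c h := by
    obtain ⟨m, hm, e⟩ := w_fin h
    show (cur P).w c (1 - 0) / (cur P).w c 0 = nn (tt c)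
    rw [e, Cur_297.tt_eq h]
    simp [la, hm]
  iv c := rfl

end

end Crest.Agent.R272.Tq7_916
end

-- ▼ part R272/Tq8_916

/-!
# R272 (S0415), MOD-TP (helper916): all charts of `X₁` over a cluster point are holomorphic

* `exists_FAij`, `cpt_Eij` : the charts `(c, c', ξ)` in the frames `i, j` (all four pairs);
* `exists_FAm`, `cpt_Em`   : the `m`-charts;
* `coverA`                 : they cover the part of `X₁` over the ball.
-/

set_option autoImplicit false
set_option linter.unusedSectionVars false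

open Set Filter Topology OnePoint

namespace Crest.Agent.R272.Tq8_916

open Crest.Agent.R275.Geo Crest.Agent.R273.Fam_835 Crest.Agent.R272.FamP_54
open Crest.Agent.R272.HFam_342 Crest.Agent.R272.Tp1_60 Crest.Agent.R272.Refl_246
open Crest.Agent.R272.Tp2_60 hiding Amb
open Crest.Agent.R272.Tp3_60 Crest.Agent.R272.Tp4_60
open Crest.Agent.R272.Tp5_60 Crest.Agent.R272.SubF_54 Crest.Agent.R272.Tp6_60
open Crest.Agent.R272.Tp7_60 (mem_pc_target mem_pc_source)
open Crest.Agent.R272.Tq1_916 Crest.Agent.R272.Tq3_916 Crest.Agent.R272.Tq4_916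
open Crest.Agent.R272.Cur_297 (Par Cv Cset Eqn hA hB tt kk continuous_tt continuous_kk cur)
open Crest.Agent.R272.P1A_54 (ambFam amb_z amb_t amb_v amb_k)
open Crest.Agent.R272.Gr_559.GData (Amb)
open Crest.Agent.R272.AJ_956 (Cur)
open Crest.Agent.R272.Idn_834 (h3 pc)

noncomputable section

variable {N : Type} [TopologicalSpace N] {F : Fam 3 N} {P : Par} {L : Loc P N} {r : ℝ}

/-! ### the four frames -/

/-- `E` is (a restriction of) the chart in the frames `i, j` -/
def IsEij (L : Loc P N) (r : ℝ) {X0 : Set (Amb N)} (i j : Fin 2)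
    (E : OpenPartialHomeomorph ((Cv P × Cv P) × ℂ) X0) : Prop :=
  ∀ p ∈ E.source, p ∈ DEij P r i j ∧ (E p).1 = toA N (L.fro (FEij P i j p)) ∧
    (FEij P i j p).1 ∈ L.sh.target ∧ FEij P i j p ∈ Std (tt : Cv P → P1)

section exist

variable (L : Loc P N) {X0 : Set (Amb N)}
  (hX : ∀ y : E6 N, y.1 ∈ L.sh.source → (toA N y ∈ X0 ↔ RelX L y))
  {r : ℝ} (hr : 0 < r) (hb : Metric.ball (0 : ℂ × ℂ × ℂ) r ⊆ L.sh.target)

include hX hr hb in
theorem exists_FAij (i j : Fin 2) :
    ∃ E : OpenPartialHomeomorph ((Cv P × Cv P) × ℂ) X0, E.source = DEij P r i j ∧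
      IsEij L r i j E ∧ ∀ p ∈ E.source, (FEij P i j p).1 ∈ Metric.ball (0 : ℂ × ℂ × ℂ) r := by
  set X : Set (E6 N) := toA N ⁻¹' X0 with hXdef
  have he : ∃ e : X ≃ₜ X0, ∀ y : X, (e y).1 = toA N y.1 :=
    ⟨(toA N).subtype (fun _ => Iff.rfl), fun _ => rfl⟩
  obtain ⟨e, he⟩ := he
  obtain ⟨E, h1, h2⟩ := exists_EijC L X hX hr hb i j
  refine ⟨E.transHomeomorph e, by rw [← h1]; rfl, fun p hp => ?_, fun p hp => ?_⟩
  · have hp' : p ∈ DEij P r i j := by rw [← h1]; exact hp
    obtain ⟨k3, k4, k5⟩ := h2 p hp'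
    refine ⟨hp', ?_, hb k5, k4⟩
    show (e (E p)).1 = _
    rw [he, k3]
  · have hp' : p ∈ DEij P r i j := by rw [← h1]; exact hp
    exact (h2 p hp').2.2

include hX hr hb in
theorem exists_FAm (a a' : Inf (tt : Cv P → P1)) :
    ∃ E : OpenPartialHomeomorph (ℂ × ℂ × ℂ) X0, E.source = DEm a a' r ∧
      ∀ p ∈ DEm a a' r, (E p).1 = toA N (L.fro (fm a a' p)) ∧
        fm a a' p ∈ Std (tt : Cv P → P1) ∧ (fm a a' p).1 ∈ Metric.ball (0 : ℂ × ℂ × ℂ) r := by
  set X : Set (E6 N) := toA N ⁻¹' X0 with hXdef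
  have he : ∃ e : X ≃ₜ X0, ∀ y : X, (e y).1 = toA N y.1 :=
    ⟨(toA N).subtype (fun _ => Iff.rfl), fun _ => rfl⟩
  obtain ⟨e, he⟩ := he
  obtain ⟨E, h1, h2⟩ := exists_Em L X hX hr hb a a'
  refine ⟨E.transHomeomorph e, by rw [← h1]; rfl, fun p hp => ?_⟩
  obtain ⟨k3, k4, k5⟩ := h2 p hp
  refine ⟨?_, k4, k5⟩
  show (e (E p)).1 = _
  rw [he, k3]


end exist

section cpt

variable (H : HLoc F L) {𝒞 : Cur (Cv P)} (hC : CH 𝒞)

theorem hfa_dl {n : ℕ} {X : Type} [TopologicalSpace X] {G : Fam n X} {i : Fin 2} {p : X → P1}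
    {x : X} (h : HP G p x) (hp : p x ≠ pole i) : HFA G (fun y => dl i (p y)) x := by
  fin_cases i
  · exact HFA.const _ _
  · exact h.iv hp

theorem hfa_nu {n : ℕ} {X : Type} [TopologicalSpace X] {G : Fam n X} {i : Fin 2} {p : X → P1}
    {x : X} (h : HP G p x) (hp : p x ≠ pole i) : HFA G (fun y => nu i (p y)) x := by
  fin_cases i
  · exact h.nn hp
  · exact HFA.const _ _

/-- holomorphy of the standard coordinates of a holomorphic germ `(c, c', ξ)` -/
theorem hfa_FEij {k : ℕ} {Z : Type} [TopologicalSpace Z] {E : Fam k Z}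
    {g : Z → (Cv P × Cv P) × ℂ} {z : Z} {i j : Fin 2} (h1 : tt (g z).1.1 ≠ pole i)
    (h2 : tt (g z).1.2 ≠ pole j) (hT : HP E (fun y => tt (g y).1.1) z)
    (hT' : HP E (fun y => tt (g y).1.2) z) (hx : HFA E (fun y => (g y).2) z) :
    HFA E (fun y => (FEij P i j (g y)).1) z ∧ HP E (fun y => (FEij P i j (g y)).2.2.2) z := by
  have d0 := hfa_dl hT h1
  have d1 := hfa_dl hT' h2
  have n0 := hfa_nu hT h1
  have n1 := hfa_nu hT' h2
  constructor
  · intro l hl
    have a1 := ((hx.mul d0).mul d1) l hl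
    have a2 := ((hx.mul n0).mul d1) l hl
    have a3 := ((hx.mul d0).mul n1) l hl
    exact a1.prodMk (a2.prodMk a3)
  · exact hP_coe ((hx.mul n0).mul n1)

include hC in
theorem hC_pc {c c' : Cv P} {z : Cn 3} (hz : z ∈ (pc 𝒞 c c').target) :
      HP (cnFam 3) (fun z => tt ((pc 𝒞 c c').symm z).1.1) z ∧
      HP (cnFam 3) (fun z => tt ((pc 𝒞 c c').symm z).1.2) z ∧
      HP (cnFam 3) (fun z => kk ((pc 𝒞 c c').symm z).1.1) z ∧
      HP (cnFam 3) (fun z => kk ((pc 𝒞 c c').symm z).1.2) z ∧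
      HFA (cnFam 3) (fun z => ((pc 𝒞 c c').symm z).2) z := by
  obtain ⟨h0, h1⟩ := mem_pc_target hz
  have T0 : HP (cnFam 3) (fun z : Cn 3 => tt ((𝒞.k c).symm (z 0))) z :=
    HP.comp (g := fun s : ℂ => tt ((𝒞.k c).symm s)) (hC.hT c _ h0) (hC_coord 0 z)
  have T1 : HP (cnFam 3) (fun z : Cn 3 => tt ((𝒞.k c').symm (z 1))) z :=
    HP.comp (g := fun s : ℂ => tt ((𝒞.k c').symm s)) (hC.hT c' _ h1) (hC_coord 1 z)
  have K0 : HP (cnFam 3) (fun z : Cn 3 => kk ((𝒞.k c).symm (z 0))) z :=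
    HP.comp (g := fun s : ℂ => kk ((𝒞.k c).symm s)) (hC.hK c _ h0) (hC_coord 0 z)
  have K1 : HP (cnFam 3) (fun z : Cn 3 => kk ((𝒞.k c').symm (z 1))) z :=
    HP.comp (g := fun s : ℂ => kk ((𝒞.k c').symm s)) (hC.hK c' _ h1) (hC_coord 1 z)
  exact ⟨T0, T1, K0, K1, hfa_coord 2 z⟩

include H in
/-- the standard coordinates are holomorphic on `X₁` -/
theorem hfa_back {X0 : Set (Amb N)} (hs : IsSl (ambFam F) X0 3) {y : X0}
    (hyS : y.1.1 ∈ L.sh.source) :
    HFA (slFam hs) (fun w : X0 => L.sh w.1.1) y ∧ HP (slFam hs) (fun w : X0 => TA L 0 w.1) y ∧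
      HP (slFam hs) (fun w : X0 => TA L 1 w.1) y ∧ HP (slFam hs) (fun w : X0 => KA L 0 w.1) y ∧
      HP (slFam hs) (fun w : X0 => KA L 1 w.1) y ∧ HP (slFam hs) (fun w : X0 => VA L w.1) y := by
  have hval : HC (slFam hs) (ambFam F) (fun w : X0 => w.1) y := (slFam_hol hs).hC y
  have h0 : HFA (ambFam F) (fun q : Amb N => L.sh q.1) y.1 :=
    hfa_comp (H.hS _ hyS) (amb_z.hC y.1)
  exact ⟨hfa_comp (g := fun q : Amb N => L.sh q.1) (p := fun w : X0 => w.1) h0 hval,
    HP.comp (p := fun w : X0 => w.1) (hP_TA H 0 hyS) hval,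
    HP.comp (p := fun w : X0 => w.1) (hP_TA H 1 hyS) hval,
    HP.comp (p := fun w : X0 => w.1) (hP_KA H 0 hyS) hval,
    HP.comp (p := fun w : X0 => w.1) (hP_KA H 1 hyS) hval,
    HP.comp (p := fun w : X0 => w.1) (hP_VA H hyS) hval⟩

theorem FEij_fst (i j : Fin 2) (p : (Cv P × Cv P) × ℂ) : (FEij P i j p).2.1 = p.1.1 := rfl
theorem FEij_snd (i j : Fin 2) (p : (Cv P × Cv P) × ℂ) : (FEij P i j p).2.2.1 = p.1.2 := rfl
theorem xi_FEij (i j : Fin 2) (p : (Cv P × Cv P) × ℂ) : xi i j (FEij P i j p) = p.2 :=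
  xi_fij _

/-- what `IsEij` says about the inverse -/
theorem IsEij.back {X0 : Set (Amb N)} {i j : Fin 2}
    {E : OpenPartialHomeomorph ((Cv P × Cv P) × ℂ) X0} (hE : IsEij L r i j E) {w : X0}
    (hw : w ∈ E.target) : w.1.1 ∈ L.sh.source ∧ L.sh w.1.1 = (FEij P i j (E.symm w)).1 ∧
        TA L 0 w.1 = tt (E.symm w).1.1 ∧ TA L 1 w.1 = tt (E.symm w).1.2 ∧
        VA L w.1 = (FEij P i j (E.symm w)).2.2.2 ∧ KA L 0 w.1 = kk (E.symm w).1.1 ∧
        KA L 1 w.1 = kk (E.symm w).1.2 := by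
  obtain ⟨-, h1, h2, -⟩ := hE _ (E.map_target hw)
  rw [E.right_inv hw] at h1
  obtain ⟨b1, b2, b3, b4, b5, b6⟩ := co_fro h2
  rw [← h1] at b1 b2 b3 b4 b5 b6
  rw [FEij_fst] at b2 b5
  rw [FEij_snd] at b3 b6
  refine ⟨?_, b1, b2, b3, b4, b5, b6⟩
  rw [h1]
  exact L.sh.map_target h2

include H hC in
/-- **the charts in the frames `i, j` are holomorphic** -/
theorem cpt_Eij {X0 : Set (Amb N)} (hs : IsSl (ambFam F) X0 3) {i j : Fin 2}
    {E : OpenPartialHomeomorph ((Cv P × Cv P) × ℂ) X0} (hE : IsEij L r i j E) (c c' : Cv P) :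
    Cpt (slFam hs) (E.symm.trans (pc 𝒞 c c')) := by
  refine cpt_of ?_ ?_
  · rintro z ⟨hz, hz2⟩
    have hz2' : (pc 𝒞 c c').symm z ∈ E.source := hz2
    obtain ⟨h1, h2, h3, h4⟩ := hE _ hz2'
    obtain ⟨a1, a2, a3, a4, a5⟩ := hC_pc hC hz
    obtain ⟨f1, f2⟩ := hfa_FEij (i := i) (j := j) (g := fun z => (pc 𝒞 c c').symm z)
      h1.1 h1.2.1 a1 a2 a5
    have hc : ContinuousAt (fun z => E ((pc 𝒞 c c').symm z)) z :=
      ContinuousAt.comp (g := E) (E.continuousAt hz2') ((pc 𝒞 c c').continuousAt_symm hz)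
    refine hC_sl hs hc ?_
    have h5 : HC (cnFam 3) (ambFam F)
        (fun z => toA N (L.fro (FEij P i j ((pc 𝒞 c c').symm z)))) z :=
      hC_fro H (g := fun z => FEij P i j ((pc 𝒞 c c').symm z)) h3 f1 a1 a2 f2 a3 a4
    refine h5.congr ?_
    have h6 : ∀ᶠ w in 𝓝 z, (pc 𝒞 c c').symm w ∈ E.source :=
      ((pc 𝒞 c c').continuousAt_symm hz).preimage_mem_nhds (E.open_source.mem_nhds hz2')
    filter_upwards [h6] with w hw
    exact (hE _ hw).2.1.symm
  · rintro y ⟨hy, hy2⟩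
    have hy' : y ∈ E.target := hy
    have hy2' : E.symm y ∈ (pc 𝒞 c c').source := hy2
    obtain ⟨k1, k2⟩ := mem_pc_source hy2'
    have hev : ∀ᶠ w in 𝓝 y, w ∈ E.target := E.open_target.mem_nhds hy'
    have hyS := (hE.back hy').1
    obtain ⟨S0, T0, T1, K0, K1, V0⟩ := hfa_back H hs hyS
    have hcs : ContinuousAt (fun w : X0 => E.symm w) y := E.continuousAt_symm hy'
    replace T0 : HP (slFam hs) (fun w : X0 => tt (E.symm w).1.1) y :=
      T0.congr (hev.mono fun w hw => (hE.back hw).2.2.1.symm)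
    replace T1 : HP (slFam hs) (fun w : X0 => tt (E.symm w).1.2) y :=
      T1.congr (hev.mono fun w hw => (hE.back hw).2.2.2.1.symm)
    replace K0 : HP (slFam hs) (fun w : X0 => kk (E.symm w).1.1) y :=
      K0.congr (hev.mono fun w hw => (hE.back hw).2.2.2.2.2.1.symm)
    replace K1 : HP (slFam hs) (fun w : X0 => kk (E.symm w).1.2) y :=
      K1.congr (hev.mono fun w hw => (hE.back hw).2.2.2.2.2.2.symm)
    have C0 : HFA (slFam hs) (fun w : X0 => 𝒞.k c (E.symm w).1.1) y :=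
      hC.back (slFam hs) (fun w : X0 => (E.symm w).1.1) y
        (continuous_fst.continuousAt.comp (continuous_fst.continuousAt.comp hcs)) T0 K0 c k1
    have C1 : HFA (slFam hs) (fun w : X0 => 𝒞.k c' (E.symm w).1.2) y :=
      hC.back (slFam hs) (fun w : X0 => (E.symm w).1.2) y
        (continuous_snd.continuousAt.comp (continuous_fst.continuousAt.comp hcs)) T1 K1 c' k2
    have C2 : HFA (slFam hs) (fun w : X0 => (E.symm w).2) y := by
      have e : ∀ᶠ w in 𝓝 y, (E.symm w).2 = xi i j (L.sh w.1.1, (E.symm w).1.1,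
          (E.symm w).1.2, VA L w.1) := by
        filter_upwards [hev] with w hw
        obtain ⟨-, b1, -, -, b4, -, -⟩ := hE.back hw
        rw [b1, b4]
        exact (xi_FEij i j _).symm
      have s0 : HFA (slFam hs) (fun w : X0 => (L.sh w.1.1).1) y :=
        HFA.comp_left (g := Prod.fst) (by fun_prop) S0
      have s1 : HFA (slFam hs) (fun w : X0 => (L.sh w.1.1).2.1) y :=
        HFA.comp_left (g := fun s : ℂ × ℂ × ℂ => s.2.1) (by fun_prop) S0
      have s2 : HFA (slFam hs) (fun w : X0 => (L.sh w.1.1).2.2) y :=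
        HFA.comp_left (g := fun s : ℂ × ℂ × ℂ => s.2.2) (by fun_prop) S0
      have hV : VA L y.1 ≠ ∞ := by
        rw [(hE.back hy').2.2.2.2.1]
        exact OnePoint.coe_ne_infty _
      have s3 : HFA (slFam hs) (fun w : X0 => nn (VA L w.1)) y := V0.nn hV
      fin_cases i <;> fin_cases j
      · exact s0.congr e
      · exact s2.congr e
      · exact s1.congr e
      · exact s3.congr e
    show HFA (slFam hs) (fun w : X0 => pc 𝒞 c c' (E.symm w)) y
    intro l hl
    have h1 := ((C0 l hl).prodMk (C1 l hl)).prodMk (C2 l hl)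
    exact DifferentiableAt.comp _ (g := h3) h3.differentiableAt h1

/-! ### the `m`-charts -/

/-- `(m, S₁, S₂) ↦ ![m, S₁, S₂]` -/
def hm3 : (ℂ × ℂ × ℂ) ≃L[ℂ] Cn 3 :=
  LinearEquiv.toContinuousLinearEquiv
    { toFun := fun p => WithLp.toLp 2 ![p.1, p.2.1, p.2.2]
      invFun := fun z => (z 0, z 1, z 2)
      map_add' := by
        intro p q
        ext i
        fin_cases i <;> simp
      map_smul' := by
        intro r p
        ext i
        fin_cases i <;> simp
      left_inv := by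
        intro p
        simp
      right_inv := by
        intro z
        ext i
        fin_cases i <;> simp }

@[simp] theorem hm3_0 (p : ℂ × ℂ × ℂ) : hm3 p 0 = p.1 := rfl
@[simp] theorem hm3_1 (p : ℂ × ℂ × ℂ) : hm3 p 1 = p.2.1 := rfl
@[simp] theorem hm3_2 (p : ℂ × ℂ × ℂ) : hm3 p 2 = p.2.2 := rfl
@[simp] theorem hm3_symm (z : Cn 3) : hm3.symm z = (z 0, z 1, z 2) := rfl

/-- `κ` is holomorphic in the chart `a` -/
def HInf (a : Inf (tt : Cv P → P1)) : Prop :=
  ∀ s ∈ a.e.target, HP cFam (fun s => kk (a.e.symm s)) s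

theorem hInf_ib (b : Bool) : HInf (ib P b) := fun _ hs => Tq6_916.hp_kk (pinf P b) hs

theorem tt_symm (a : Inf (tt : Cv P → P1)) {s : ℂ} (h : ‖s‖ < a.r) :
    tt (a.e.symm s) = rat 1 s := by
  have h1 := a.iv_symm h
  have h2 := rat_iv (a.ne _ (a.mem h))
  rw [h1] at h2
  exact h2.symm

theorem hp_tt_inf (a : Inf (tt : Cv P → P1)) {s : ℂ} (h : ‖s‖ < a.r) :
    HP cFam (fun s => tt (a.e.symm s)) s := by
  have h1 : HFA cFam (fun s : ℂ => s) s := hfa_c.2 differentiableAt_id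
  refine (hP_rat (HFA.const 1 s) h1 (Or.inl one_ne_zero)).congr ?_
  have h2 : ∀ᶠ t : ℂ in 𝓝 s, ‖t‖ < a.r := continuous_norm.continuousAt.eventually_lt_const h
  filter_upwards [h2] with t ht
  exact tt_symm a ht

/-- `E` is (a restriction of) the `m`-chart at `a, a'` -/
def IsEm (L : Loc P N) {X0 : Set (Amb N)} (a a' : Inf (tt : Cv P → P1))
    (E : OpenPartialHomeomorph (ℂ × ℂ × ℂ) X0) : Prop :=
  ∀ p ∈ E.source, p ∈ Dm a a' ∧ (E p).1 = toA N (L.fro (fm a a' p)) ∧
    (fm a a' p).1 ∈ L.sh.target ∧ fm a a' p ∈ Std (tt : Cv P → P1)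

theorem hC_cc {k : ℕ} {Z : Type} [TopologicalSpace Z] {E : Fam k Z} {f : Z → ℂ} {z : Z}
    (hf : HFA E f z) : HC E cFam f z :=
  hC_of_fC (j := ()) hf.continuousAt trivial
    (HFA.comp_left (g := oneL) oneL.differentiableAt hf)

/-- holomorphy of the standard coordinates of a germ in the `m`-chart -/
theorem hfa_fm {k : ℕ} {Z : Type} [TopologicalSpace Z] {E : Fam k Z}
    {g : Z → ℂ × ℂ × ℂ} {z : Z} {a a' : Inf (tt : Cv P → P1)} (ha : HInf a) (ha' : HInf a')
    (hz : g z ∈ Dm a a') (hg : HFA E g z) :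
    HFA E (fun y => (fm a a' (g y)).1) z ∧ HP E (fun y => tt (fm a a' (g y)).2.1) z ∧
      HP E (fun y => tt (fm a a' (g y)).2.2.1) z ∧ HP E (fun y => (fm a a' (g y)).2.2.2) z ∧
      HP E (fun y => kk (fm a a' (g y)).2.1) z ∧ HP E (fun y => kk (fm a a' (g y)).2.2.1) z := by
  have g0 : HFA E (fun y => (g y).1) z :=
    HFA.comp_left (g := fun s : ℂ × ℂ × ℂ => s.1) (by fun_prop) hg
  have g1 : HFA E (fun y => (g y).2.1) z :=
    HFA.comp_left (g := fun s : ℂ × ℂ × ℂ => s.2.1) (by fun_prop) hg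
  have g2 : HFA E (fun y => (g y).2.2) z :=
    HFA.comp_left (g := fun s : ℂ × ℂ × ℂ => s.2.2) (by fun_prop) hg
  have q2 := hC_cc (g0.mul g2)
  have q1 := hC_cc (g0.mul g1)
  have t2 : (g z).1 * (g z).2.2 ∈ a.e.target := by rw [a.tgt]; simpa using hz.1
  have t1 : (g z).1 * (g z).2.1 ∈ a'.e.target := by rw [a'.tgt]; simpa using hz.2
  refine ⟨?_, ?_, ?_, ?_, ?_, ?_⟩
  · refine HFA.comp_left (g := fun p : ℂ × ℂ × ℂ => (p.1 * p.2.1 * p.2.2, p.2.1, p.2.2)) ?_ hg
    fun_prop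
  · exact HP.comp (g := fun s => tt (a.e.symm s)) (hp_tt_inf a hz.1) q2
  · exact HP.comp (g := fun s => tt (a'.e.symm s)) (hp_tt_inf a' hz.2) q1
  · exact hP_rat (HFA.const 1 z) g0 (Or.inl one_ne_zero)
  · exact HP.comp (g := fun s => kk (a.e.symm s)) (ha _ t2) q2
  · exact HP.comp (g := fun s => kk (a'.e.symm s)) (ha' _ t1) q1

/-- what `IsEm` says about the inverse -/
theorem IsEm.back {X0 : Set (Amb N)} {a a' : Inf (tt : Cv P → P1)}
    {E : OpenPartialHomeomorph (ℂ × ℂ × ℂ) X0} (hE : IsEm L a a' E) {w : X0}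
    (hw : w ∈ E.target) : w.1.1 ∈ L.sh.source ∧ L.sh w.1.1 = (fm a a' (E.symm w)).1 ∧
        VA L w.1 = rat 1 (E.symm w).1 := by
  obtain ⟨-, h1, h2, -⟩ := hE _ (E.map_target hw)
  rw [E.right_inv hw] at h1
  obtain ⟨b1, b2, b3, b4, b5, b6⟩ := co_fro h2
  rw [← h1] at b1 b2 b3 b4 b5 b6
  refine ⟨?_, b1, b4⟩
  rw [h1]
  exact L.sh.map_target h2

include H in
/-- **the `m`-charts are holomorphic** -/
theorem cpt_Em {X0 : Set (Amb N)} (hs : IsSl (ambFam F) X0 3) {a a' : Inf (tt : Cv P → P1)}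
    (ha : HInf a) (ha' : HInf a')
    {E : OpenPartialHomeomorph (ℂ × ℂ × ℂ) X0} (hE : IsEm L a a' E) :
    Cpt (slFam hs) (E.symm.transHomeomorph hm3.toHomeomorph) := by
  refine cpt_of ?_ ?_
  · intro z hz
    have hz2' : hm3.symm z ∈ E.source := hz
    obtain ⟨h1, h2, h3, h4⟩ := hE _ hz2'
    have hg : HFA (cnFam 3) (fun z : Cn 3 => hm3.symm z) z := hfa_cn.2 hm3.symm.differentiableAt
    obtain ⟨f1, f2, f3, f4, f5, f6⟩ := hfa_fm ha ha' (g := fun z : Cn 3 => hm3.symm z) h1 hg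
    have hc : ContinuousAt (fun z => E (hm3.symm z)) z :=
      ContinuousAt.comp (g := E) (E.continuousAt hz2') hm3.symm.continuous.continuousAt
    refine hC_sl hs hc ?_
    have h5 : HC (cnFam 3) (ambFam F) (fun z => toA N (L.fro (fm a a' (hm3.symm z)))) z :=
      hC_fro H (g := fun z => fm a a' (hm3.symm z)) h3 f1 f2 f3 f4 f5 f6
    refine h5.congr ?_
    have h6 : ∀ᶠ w in 𝓝 z, hm3.symm w ∈ E.source :=
      hm3.symm.continuous.continuousAt.preimage_mem_nhds (E.open_source.mem_nhds hz2')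
    filter_upwards [h6] with w hw
    exact (hE _ hw).2.1.symm
  · intro y hy
    have hy' : y ∈ E.target := hy
    have hev : ∀ᶠ w in 𝓝 y, w ∈ E.target := E.open_target.mem_nhds hy'
    have hyS := (hE.back hy').1
    obtain ⟨S0, -, -, -, -, V0⟩ := hfa_back H hs hyS
    have hV : VA L y.1 ≠ ((0 : ℂ) : P1) := by
      rw [(hE.back hy').2.2]
      exact rat_ne_zero _
    have s1 : HFA (slFam hs) (fun w : X0 => (L.sh w.1.1).2.1) y :=
      HFA.comp_left (g := fun s : ℂ × ℂ × ℂ => s.2.1) (by fun_prop) S0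
    have s2 : HFA (slFam hs) (fun w : X0 => (L.sh w.1.1).2.2) y :=
      HFA.comp_left (g := fun s : ℂ × ℂ × ℂ => s.2.2) (by fun_prop) S0
    have s3 : HFA (slFam hs) (fun w : X0 => iv (VA L w.1)) y := V0.iv hV
    have h7 : HFA (slFam hs) (fun w : X0 => hm3 (iv (VA L w.1), (L.sh w.1.1).2.1,
        (L.sh w.1.1).2.2)) y := by
      intro l hl
      have h1 := (s3 l hl).prodMk ((s1 l hl).prodMk (s2 l hl))
      exact DifferentiableAt.comp _ (g := hm3) hm3.differentiableAt h1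
    show HFA (slFam hs) (fun w : X0 => hm3 (E.symm w)) y
    refine h7.congr (hev.mono fun w hw => ?_)
    obtain ⟨-, b1, b2⟩ := hE.back hw
    rw [b1, b2, iv_rat]
    rfl

end cpt

end

end Crest.Agent.R272.Tq8_916
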