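import Mathlib

/-!
# R272, leaf UB-DISC (helper20), part 1 (Mathlib only)

* `HR p q` : heterogeneous homotopy relation rel end points;
* `square` : the two ways round a square are homotopic;
* `slide` : two squares with the same side columns: bottoms homotopic iff tops are;
* `starSet`, `pillow` : **pillow theorem**: two continuous maps `Ψ₊, Ψ₋` of the square minus the two
  corners `(1,0)`, `(1,1)` which agree on the sides `t = 0`, `t = 1` and on the open side `σ = 1`;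
  if short segments round the two missing corners have homotopic images, then the images of the
  side `σ = 0` are homotopic rel end points.
* `corner_of_charts` : the corner hypothesis for the resolution `y² = αβ`, charts `(β,w)`, `(α,w')`.
-/

set_option autoImplicit false

open Set Topology

namespace Crest.Agent.R272.UB_20

noncomputable section

local notation "I" => unitInterval

universe u v

variable {X : Type u} [TopologicalSpace X] {Y : Type v} [TopologicalSpace Y]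

/-! ## Heterogeneous homotopy of paths -/

/-- heterogeneous homotopy rel end points -/
def HR {a b a' b' : X} (p : Path a b) (q : Path a' b') : Prop :=
  ContinuousMap.HomotopicRel (p : C(I, X)) (q : C(I, X)) {0, 1}

theorem HR.refl {a b : X} (p : Path a b) : HR p p := ContinuousMap.HomotopicRel.refl _

theorem HR.symm {a b a' b' : X} {p : Path a b} {q : Path a' b'} (h : HR p q) : HR q p :=
  ContinuousMap.HomotopicRel.symm h

theorem HR.trans {a b a' b' a'' b'' : X} {p : Path a b} {q : Path a' b'} {r : Path a'' b''}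
    (h : HR p q) (h' : HR q r) : HR p r :=
  ContinuousMap.HomotopicRel.trans h h'

theorem HR.source_eq {a b a' b' : X} {p : Path a b} {q : Path a' b'} (h : HR p q) : a = a' := by
  obtain ⟨F⟩ := h
  have h1 := F.fst_eq_snd (x := (0 : I)) (by simp)
  have h2 : p 0 = q 0 := h1
  rwa [p.source, q.source] at h2

theorem HR.target_eq {a b a' b' : X} {p : Path a b} {q : Path a' b'} (h : HR p q) : b = b' := by
  obtain ⟨F⟩ := h
  have h1 := F.fst_eq_snd (x := (1 : I)) (by simp)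
  have h2 : p 1 = q 1 := h1
  rwa [p.target, q.target] at h2

theorem HR_iff {a b : X} (p q : Path a b) : HR p q ↔ p.Homotopic q := Iff.rfl

theorem HR_of_eq {a b a' b' : X} {p : Path a b} {q : Path a' b'} (h : ∀ t, p t = q t) :
    HR p q := by
  have : (p : C(I, X)) = (q : C(I, X)) := by
    ext t
    exact h t
  unfold HR
  rw [this]
  exact ContinuousMap.HomotopicRel.refl _

theorem HR_comp {a b c a' b' c' : X} {p : Path a b} {r : Path b c} {p' : Path a' b'}
    {r' : Path b' c'} (h : HR p p') (h' : HR r r') : HR (p.trans r) (p'.trans r') := by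
  obtain rfl := h.source_eq
  obtain rfl := h.target_eq
  obtain rfl := h'.target_eq
  exact Path.Homotopic.hcomp h h'

theorem HR_rev {a b a' b' : X} {p : Path a b} {p' : Path a' b'} (h : HR p p') :
    HR p.symm p'.symm := by
  obtain rfl := h.source_eq
  obtain rfl := h.target_eq
  exact Path.Homotopic.symm₂ h

theorem HR_map {a b a' b' : X} {p : Path a b} {p' : Path a' b'} (h : HR p p') (f : C(X, Y)) :
    HR (p.map f.continuous) (p'.map f.continuous) := by
  obtain rfl := h.source_eq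
  obtain rfl := h.target_eq
  exact Path.Homotopic.map h f

/-! ## Squares -/

/-- the two ways round a square are homotopic -/
theorem square (H : C(I × I, X)) {a b c d : X} (p : Path a b) (q : Path c d) (l : Path a c)
    (r : Path b d) (hp : ∀ t, p t = H (0, t)) (hq : ∀ t, q t = H (1, t))
    (hl : ∀ s, l s = H (s, 0)) (hr : ∀ s, r s = H (s, 1)) :
    (p.trans r).Homotopic (l.trans q) := by
  let f : C(I, X) := ⟨fun t => H (0, t), by fun_prop⟩
  let g : C(I, X) := ⟨fun t => H (1, t), by fun_prop⟩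
  let F : f.Homotopy g := ⟨⟨fun x => H x, by fun_prop⟩, fun t => rfl, fun t => rfl⟩
  let idp : Path (0 : I) 1 := ⟨⟨fun t => t, continuous_id⟩, rfl, rfl⟩
  have h := Path.Homotopic.map_trans_evalAt F idp
  have h1 : HR p (idp.map (map_continuous f)) := HR_of_eq (fun t => hp t)
  have h2 : HR q (idp.map (map_continuous g)) := HR_of_eq (fun t => hq t)
  have h3 : HR l (F.evalAt 0) := HR_of_eq (fun t => hl t)
  have h4 : HR r (F.evalAt 1) := HR_of_eq (fun t => hr t)
  exact ((HR_comp h1 h4).trans ((HR_iff _ _).2 h)).trans (HR_comp h3 h2).symm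

/-- cancellation of a common right factor -/
theorem cancel_right {a b c : X} {p q : Path a b} (r : Path b c)
    (h : (p.trans r).Homotopic (q.trans r)) : p.Homotopic q := by
  have e : ∀ p : Path a b, p.Homotopic ((p.trans r).trans r.symm) := by
    intro p
    refine Path.Homotopic.trans ?_
      (Path.Homotopic.symm ⟨Path.Homotopy.transAssoc p r r.symm⟩)
    exact Path.Homotopic.trans (Path.Homotopic.symm ⟨Path.Homotopy.transRefl p⟩)
      (Path.Homotopic.hcomp (Path.Homotopic.refl p) ⟨Path.Homotopy.reflTransSymm r⟩)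
  exact (e p).trans ((Path.Homotopic.hcomp h (Path.Homotopic.refl _)).trans (e q).symm)

/-- **sliding**: two squares with the same side columns; if the tops are homotopic then so are
the bottoms -/
theorem slide (H₁ H₂ : C(I × I, X)) (h0 : ∀ s, H₁ (s, 0) = H₂ (s, 0))
    (h1 : ∀ s, H₁ (s, 1) = H₂ (s, 1)) {a b c d a' b' c' d' : X} (p₁ : Path a b) (p₂ : Path a' b')
    (q₁ : Path c d) (q₂ : Path c' d') (hp₁ : ∀ t, p₁ t = H₁ (0, t)) (hp₂ : ∀ t, p₂ t = H₂ (0, t))
    (hq₁ : ∀ t, q₁ t = H₁ (1, t)) (hq₂ : ∀ t, q₂ t = H₂ (1, t)) (hq : HR q₁ q₂) : HR p₁ p₂ := by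
  have ea : a = a' := by
    rw [← p₁.source, ← p₂.source, hp₁, hp₂, h0]
  have eb : b = b' := by
    rw [← p₁.target, ← p₂.target, hp₁, hp₂, h1]
  subst ea
  subst eb
  obtain rfl := hq.source_eq
  obtain rfl := hq.target_eq
  let l : Path a c := ⟨⟨fun s => H₁ (s, 0), by fun_prop⟩, by
    change H₁ (0, 0) = a; rw [← hp₁, p₁.source], by
    change H₁ (1, 0) = c; rw [← hq₁, q₁.source]⟩
  let r : Path b d := ⟨⟨fun s => H₁ (s, 1), by fun_prop⟩, by
    change H₁ (0, 1) = b; rw [← hp₁, p₁.target], by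
    change H₁ (1, 1) = d; rw [← hq₁, q₁.target]⟩
  have e1 : (p₁.trans r).Homotopic (l.trans q₁) :=
    square H₁ p₁ q₁ l r hp₁ hq₁ (fun _ => rfl) (fun _ => rfl)
  have e2 : (p₂.trans r).Homotopic (l.trans q₂) :=
    square H₂ p₂ q₂ l r hp₂ hq₂ (fun s => h0 s) (fun s => h1 s)
  refine cancel_right r (e1.trans (Path.Homotopic.trans ?_ e2.symm))
  exact Path.Homotopic.hcomp (Path.Homotopic.refl l) hq


/-! ## The pillow theorem -/

/-- the unit square without the corners `(1,0)`, `(1,1)`; coordinates `(σ, t)` -/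
def starSet : Set (ℝ × ℝ) :=
  {p | (0 ≤ p.1 ∧ p.1 ≤ 1) ∧ (0 ≤ p.2 ∧ p.2 ≤ 1) ∧ (p.1 = 1 → 0 < p.2 ∧ p.2 < 1)}

theorem starSet_star : StarConvex ℝ ((0 : ℝ), (1 / 2 : ℝ)) starSet := by
  intro q hq a b ha hb hab
  obtain ⟨⟨h1, h2⟩, ⟨h3, h4⟩, h5⟩ := hq
  obtain ⟨q1, q2⟩ := q
  simp only at h1 h2 h3 h4 h5
  have e1 : (a • ((0 : ℝ), (1 / 2 : ℝ)) + b • (q1, q2)).1 = b * q1 := by simp
  have e2 : (a • ((0 : ℝ), (1 / 2 : ℝ)) + b • (q1, q2)).2 = a * (1 / 2) + b * q2 := by simp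
  have hb1 : b ≤ 1 := by linarith
  refine ⟨⟨?_, ?_⟩, ⟨?_, ?_⟩, ?_⟩
  · rw [e1]; positivity
  · rw [e1]; nlinarith
  · rw [e2]; positivity
  · rw [e2]; nlinarith
  · rw [e1, e2]
    intro h
    have hb' : b = 1 := by
      by_contra hne
      have : b < 1 := lt_of_le_of_ne hb1 hne
      nlinarith
    have ha' : a = 0 := by linarith
    subst hb'
    have := h5 (by linarith)
    rw [ha']
    constructor <;> linarith [this.1, this.2]

instance : SimplyConnectedSpace starSet := by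
  have h : (starSet).Nonempty := ⟨(0, 1 / 2), by
    refine ⟨⟨by norm_num, by norm_num⟩, ⟨by norm_num, by norm_num⟩, ?_⟩
    intro h
    norm_num at h⟩
  have : ContractibleSpace starSet := starSet_star.contractibleSpace h
  exact SimplyConnectedSpace.ofContractible _

/-- the segment between two points of the plane inside `starSet` -/
def sg (a b c d : ℝ) (h : ∀ θ : I, (((1 - (θ : ℝ)) * a + θ * c, (1 - (θ : ℝ)) * b + θ * d) : ℝ × ℝ)
    ∈ starSet) (h0 : (a, b) ∈ starSet) (h1 : (c, d) ∈ starSet) :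
    Path (⟨(a, b), h0⟩ : starSet) ⟨(c, d), h1⟩ where
  toFun θ := ⟨_, h θ⟩
  continuous_toFun := by
    refine Continuous.subtype_mk ?_ _
    fun_prop
  source' := by
    apply Subtype.ext
    simp
  target' := by
    apply Subtype.ext
    simp


/-- the side `σ = 0` -/
def sideA : Path (⟨(0, 0), by
    refine ⟨⟨by norm_num, by norm_num⟩, ⟨by norm_num, by norm_num⟩, fun h => by norm_num at h⟩⟩ :
    starSet) ⟨(0, 1), by
    refine ⟨⟨by norm_num, by norm_num⟩, ⟨by norm_num, by norm_num⟩, fun h => by norm_num at h⟩⟩ :=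
  sg 0 0 0 1 (fun θ => by
    have h1 := θ.2.1
    have h2 := θ.2.2
    refine ⟨⟨by simp, by simp⟩, ⟨by simpa using h1, by simpa using h2⟩, fun h => by
      simp at h⟩) _ _

@[simp] theorem sideA_apply (θ : I) : ((sideA θ : starSet) : ℝ × ℝ) = (0, (θ : ℝ)) := by
  show (((1 - (θ : ℝ)) * 0 + θ * 0, (1 - (θ : ℝ)) * 0 + θ * 1) : ℝ × ℝ) = _
  simp

/-- the short segment near the corner `(1,0)` -/
def cut0 (ρ : ℝ) (h0 : 0 < ρ) (h1 : ρ < 1) : Path (⟨(1 - ρ, 0), by
    refine ⟨⟨by simp only; linarith, by simp only; linarith⟩, ⟨by norm_num, by norm_num⟩, fun h => by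
      simp only at h; linarith⟩⟩ : starSet) ⟨(1, ρ), by
    refine ⟨⟨by norm_num, by norm_num⟩, ⟨h0.le, h1.le⟩, fun _ => ⟨h0, h1⟩⟩⟩ :=
  sg (1 - ρ) 0 1 ρ (fun θ => by
    have h2 := θ.2.1
    have h3 := θ.2.2
    refine ⟨⟨by simp only; nlinarith, by simp only; nlinarith⟩, ⟨by simp only; nlinarith, by
      simp only; nlinarith⟩, fun h => ?_⟩
    simp only at h ⊢
    have : (θ : ℝ) = 1 := by
      by_contra hne
      have : (θ : ℝ) < 1 := lt_of_le_of_ne h3 hne
      nlinarith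
    rw [this]
    constructor <;> linarith) _ _

theorem cut0_apply (ρ : ℝ) (h0 : 0 < ρ) (h1 : ρ < 1) (θ : I) :
    ((cut0 ρ h0 h1 θ : starSet) : ℝ × ℝ) = (1 - ρ * (1 - θ), ρ * θ) := by
  show (((1 - (θ : ℝ)) * (1 - ρ) + θ * 1, (1 - (θ : ℝ)) * 0 + θ * ρ) : ℝ × ℝ) = _
  ext <;> simp <;> ring

/-- the short segment near the corner `(1,1)` -/
def cut1 (ρ : ℝ) (h0 : 0 < ρ) (h1 : ρ < 1) : Path (⟨(1 - ρ, 1), by
    refine ⟨⟨by simp only; linarith, by simp only; linarith⟩, ⟨by norm_num, by norm_num⟩, fun h => by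
      simp only at h; linarith⟩⟩ : starSet) ⟨(1, 1 - ρ), by
    refine ⟨⟨by norm_num, by norm_num⟩, ⟨by simp only; linarith, by simp only; linarith⟩,
      fun _ => ⟨by simp only; linarith, by simp only; linarith⟩⟩⟩ :=
  sg (1 - ρ) 1 1 (1 - ρ) (fun θ => by
    have h2 := θ.2.1
    have h3 := θ.2.2
    refine ⟨⟨by simp only; nlinarith, by simp only; nlinarith⟩, ⟨by simp only; nlinarith, by
      simp only; nlinarith⟩, fun h => ?_⟩
    simp only at h ⊢
    have : (θ : ℝ) = 1 := by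
      by_contra hne
      have : (θ : ℝ) < 1 := lt_of_le_of_ne h3 hne
      nlinarith
    rw [this]
    constructor <;> linarith) _ _

theorem cut1_apply (ρ : ℝ) (h0 : 0 < ρ) (h1 : ρ < 1) (θ : I) :
    ((cut1 ρ h0 h1 θ : starSet) : ℝ × ℝ) = (1 - ρ * (1 - θ), 1 - ρ * θ) := by
  show (((1 - (θ : ℝ)) * (1 - ρ) + θ * 1, (1 - (θ : ℝ)) * 1 + θ * (1 - ρ)) : ℝ × ℝ) = _
  ext <;> simp <;> ring

/-- **pillow theorem** -/
theorem pillow (Ψ₁ Ψ₂ : C(starSet, X)) (h0 : ∀ p : starSet, p.1.2 = 0 → Ψ₁ p = Ψ₂ p)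
    (h1 : ∀ p : starSet, p.1.2 = 1 → Ψ₁ p = Ψ₂ p) (hL : ∀ p : starSet, p.1.1 = 1 → Ψ₁ p = Ψ₂ p)
    {ρ₀ ρ₁ : ℝ} (a₀ : 0 < ρ₀) (b₀ : ρ₀ < 1) (a₁ : 0 < ρ₁) (b₁ : ρ₁ < 1)
    (hc0 : HR ((cut0 ρ₀ a₀ b₀).map Ψ₁.continuous) ((cut0 ρ₀ a₀ b₀).map Ψ₂.continuous))
    (hc1 : HR ((cut1 ρ₁ a₁ b₁).map Ψ₁.continuous) ((cut1 ρ₁ a₁ b₁).map Ψ₂.continuous)) :
    HR (sideA.map Ψ₁.continuous) (sideA.map Ψ₂.continuous) := by
  have m00 : ((0 : ℝ), (0 : ℝ)) ∈ starSet := by
    refine ⟨⟨by norm_num, by norm_num⟩, ⟨by norm_num, by norm_num⟩, fun h => by norm_num at h⟩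
  have m01 : ((0 : ℝ), (1 : ℝ)) ∈ starSet := by
    refine ⟨⟨by norm_num, by norm_num⟩, ⟨by norm_num, by norm_num⟩, fun h => by norm_num at h⟩
  have mσ0 : ((1 - ρ₀ : ℝ), (0 : ℝ)) ∈ starSet := by
    refine ⟨⟨by simp only; linarith, by simp only; linarith⟩, ⟨by norm_num, by norm_num⟩, fun h => by
      simp only at h; linarith⟩
  have mσ1 : ((1 - ρ₁ : ℝ), (1 : ℝ)) ∈ starSet := by
    refine ⟨⟨by simp only; linarith, by simp only; linarith⟩, ⟨by norm_num, by norm_num⟩, fun h => by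
      simp only at h; linarith⟩
  have m1 : ((1 : ℝ), ρ₀) ∈ starSet :=
    ⟨⟨by norm_num, by norm_num⟩, ⟨a₀.le, b₀.le⟩, fun _ => ⟨a₀, b₀⟩⟩
  have m1' : ((1 : ℝ), 1 - ρ₁) ∈ starSet :=
    ⟨⟨by norm_num, by norm_num⟩, ⟨by simp only; linarith, by simp only; linarith⟩,
      fun _ => ⟨by simp only; linarith, by simp only; linarith⟩⟩
  let p1 := sg 0 0 (1 - ρ₀) 0 (fun θ => by
    have h2 := θ.2.1
    have h3 := θ.2.2
    refine ⟨⟨by simp only; nlinarith, by simp only; nlinarith⟩, ⟨by simp, by simp⟩, fun h => ?_⟩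
    exfalso
    simp only at h
    nlinarith) m00 mσ0
  let p2 := sg 1 ρ₀ 1 (1 - ρ₁) (fun θ => by
    have h2 := θ.2.1
    have h3 := θ.2.2
    have e1 : 0 < (1 - (θ : ℝ)) * ρ₀ + θ * (1 - ρ₁) := by
      rcases eq_or_lt_of_le h2 with h | h
      · rw [← h]; simpa using a₀
      · have : 0 < (θ : ℝ) * (1 - ρ₁) := mul_pos h (by linarith)
        nlinarith
    have e2 : (1 - (θ : ℝ)) * ρ₀ + θ * (1 - ρ₁) < 1 := by
      rcases eq_or_lt_of_le h2 with h | h
      · rw [← h]; simpa using b₀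
      · have : 0 < (θ : ℝ) * ρ₁ := mul_pos h a₁
        nlinarith
    exact ⟨⟨by simp, by simp⟩, ⟨e1.le, e2.le⟩, fun _ => ⟨e1, e2⟩⟩) m1 m1'
  let p3 := sg (1 - ρ₁) 1 0 1 (fun θ => by
    have h2 := θ.2.1
    have h3 := θ.2.2
    refine ⟨⟨by simp only; nlinarith, by simp only; nlinarith⟩, ⟨by simp, by simp⟩, fun h => ?_⟩
    exfalso
    simp only at h
    nlinarith) mσ1 m01
  have hAB : sideA.Homotopic (p1.trans ((cut0 ρ₀ a₀ b₀).trans (p2.trans
      ((cut1 ρ₁ a₁ b₁).symm.trans p3)))) := SimplyConnectedSpace.paths_homotopic _ _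
  have key : ∀ Ψ : C(starSet, X), HR (sideA.map Ψ.continuous)
      ((p1.map Ψ.continuous).trans (((cut0 ρ₀ a₀ b₀).map Ψ.continuous).trans
      ((p2.map Ψ.continuous).trans (((cut1 ρ₁ a₁ b₁).map Ψ.continuous).symm.trans
      (p3.map Ψ.continuous))))) := by
    intro Ψ
    have := HR_map ((HR_iff _ _).2 hAB) Ψ
    simpa only [Path.map_trans, Path.map_symm] using this
  refine (key Ψ₁).trans (HR.trans ?_ (key Ψ₂).symm)
  have q1 : HR (p1.map Ψ₁.continuous) (p1.map Ψ₂.continuous) :=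
    HR_of_eq (fun t => h0 _ (by
      show (1 - (t : ℝ)) * 0 + t * 0 = 0
      ring))
  have q2 : HR (p2.map Ψ₁.continuous) (p2.map Ψ₂.continuous) :=
    HR_of_eq (fun t => hL _ (by
      show (1 - (t : ℝ)) * 1 + t * 1 = 1
      ring))
  have q3 : HR (p3.map Ψ₁.continuous) (p3.map Ψ₂.continuous) :=
    HR_of_eq (fun t => h1 _ (by
      show (1 - (t : ℝ)) * 1 + t * 1 = 1
      ring))
  exact HR_comp q1 (HR_comp hc0 (HR_comp q2 (HR_comp (HR_rev hc1) q3)))


/-! ## The corner: resolution of `y² = αβ` -/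




/-! ## The corner `(1,1)` by reflection -/

/-- the reflection `t ↦ 1 - t` of the square -/
def flip : C(starSet, starSet) where
  toFun p := ⟨(p.1.1, 1 - p.1.2), by
    obtain ⟨⟨h1, h2⟩, ⟨h3, h4⟩, h5⟩ := p.2
    refine ⟨⟨h1, h2⟩, ⟨by simp only; linarith, by simp only; linarith⟩, fun h => ?_⟩
    have := h5 h
    exact ⟨by simp only; linarith [this.2], by simp only; linarith [this.1]⟩⟩
  continuous_toFun := by
    refine Continuous.subtype_mk ?_ _
    fun_prop

@[simp] theorem flip_apply (p : starSet) : ((flip p : starSet) : ℝ × ℝ) = (p.1.1, 1 - p.1.2) := rfl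

/-- the corner `(1,1)` of `Ψ` is the corner `(1,0)` of `Ψ ∘ flip` -/
theorem corner1_of_corner0 (Ψ₁ Ψ₂ : C(starSet, X)) {ρ : ℝ} (r0 : 0 < ρ) (r1 : ρ < 1)
    (h : HR ((cut0 ρ r0 r1).map (Ψ₁.comp flip).continuous)
      ((cut0 ρ r0 r1).map (Ψ₂.comp flip).continuous)) :
    HR ((cut1 ρ r0 r1).map Ψ₁.continuous) ((cut1 ρ r0 r1).map Ψ₂.continuous) := by
  have e : ∀ Ψ : C(starSet, X), HR ((cut1 ρ r0 r1).map Ψ.continuous)
      ((cut0 ρ r0 r1).map (Ψ.comp flip).continuous) := by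
    intro Ψ
    refine HR_of_eq (fun θ => ?_)
    show Ψ (cut1 ρ r0 r1 θ) = Ψ (flip (cut0 ρ r0 r1 θ))
    congr 1
    apply Subtype.ext
    rw [flip_apply, cut1_apply, cut0_apply]
  exact (e Ψ₁).trans (h.trans (e Ψ₂).symm)

end

end Crest.Agent.R272.UB_20
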