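import Mathlib

/-!
Row 272 (S0414), UNIF-B, part 1: topology of a covering `p : disc → M`: lifts of continuous maps,
deck transformations, the translates of the graph of a lift, lifts of covering maps.
-/

set_option autoImplicit false

open Metric Set Filter Topology Function

namespace Crest.Agent.R272.UnB_894

noncomputable section

/-- the open unit disc as a type -/
abbrev DD : Type := ↥(ball (0 : ℂ) 1)

/-- the centre of the disc -/
def o : DD := ⟨0, by simp⟩

@[simp] theorem coe_o : ((o : DD) : ℂ) = 0 := rfl

instance instContr : ContractibleSpace DD := contractibleSpace_ball one_pos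

instance instSC : SimplyConnectedSpace DD := SimplyConnectedSpace.ofContractible DD

instance instLPC : LocallyPathConnectedSpace DD := isOpen_ball.locallyPathConnectedSpace

theorem norm_lt_one (z : DD) : ‖(z : ℂ)‖ < 1 := mem_ball_zero_iff.1 z.2

variable {M M' M'' : Type*} [TopologicalSpace M] [TopologicalSpace M'] [TopologicalSpace M'']

/-! ### lifting -/

section lift

variable {A : Type*} [TopologicalSpace A] [SimplyConnectedSpace A] [LocallyPathConnectedSpace A]
  {E : Type*} [TopologicalSpace E]

/-- existence of lifts from a simply connected space -/
theorem exists_lift {p : E → M} (hp : IsCoveringMap p) {g : A → M} (hg : Continuous g)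
    (a : A) (b : E) (h : p b = g a) :
    ∃ F : A → E, Continuous F ∧ F a = b ∧ ∀ t, p (F t) = g t := by
  obtain ⟨F, ⟨h1, h2⟩, -⟩ := hp.existsUnique_continuousMap_lifts ⟨g, hg⟩ a b h
  exact ⟨F, F.continuous, h1, fun t => congrFun h2 t⟩


end lift

/-- the chosen lift of `f : M' → M` to the discs -/
theorem exists_liftD {p : DD → M} (hp : IsCoveringMap p) {q : DD → M'} (hq : Continuous q)
    {f : M' → M} (hf : Continuous f) (a b : DD) (h : p b = f (q a)) :
    ∃ F : DD → DD, Continuous F ∧ F a = b ∧ ∀ t, p (F t) = f (q t) :=
  exists_lift hp (hf.comp hq) a b h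

/-! ### deck transformations -/

section deck

variable {p : DD → M}









end deck

/-! ### covering maps lift to homeomorphisms -/



end

end Crest.Agent.R272.UnB_894
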